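import Crest.Agent.R166.Gauss_286

/-!
# Row 166 (helper286): common Gaussian toolkit, part 2 (moments and quadratic forms)

* `integrable_gv`, `integrable_gm` : polynomially bounded functions are integrable
* one-dimensional moments
* `quad_diag` : `E (∑ aᵢ(xᵢ² - 1))² = 2 ∑ aᵢ²`
* `exists_diag` : spectral theorem in the form needed here
* `quad_sym`, `quad_complex` : `E |xᵀ A x - tr A|² ≤ 2 ∑ |A i j|²`
* `bilin` : `E |xᵀ A y|² = ∑ |A i j|²`
* `lower_tail`
-/

set_option autoImplicit false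
set_option linter.unusedSectionVars false

noncomputable section

open MeasureTheory ProbabilityTheory Matrix
open scoped ENNReal

namespace Crest.Agent.R166.Gauss286

variable {ι κ : Type*} [Fintype ι] [Fintype κ]

/-! ### Integrability of polynomially bounded functions -/

lemma integrable_exp_abs : Integrable (fun x : ℝ => Real.exp |x|) (gaussianReal 0 1) := by
  have h1 := (integrable_exp_mul_gaussianReal (μ := 0) (v := 1) 1).add
    (integrable_exp_mul_gaussianReal (μ := 0) (v := 1) (-1))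
  refine h1.mono' (by fun_prop) (Filter.Eventually.of_forall fun x => ?_)
  rw [Real.norm_eq_abs, abs_of_pos (Real.exp_pos _)]
  simp only [Pi.add_apply, one_mul, neg_mul]
  rcases le_or_gt 0 x with h | h
  · rw [abs_of_nonneg h]; linarith [Real.exp_pos (-x)]
  · rw [abs_of_neg h]; linarith [Real.exp_pos x]

lemma integrable_exp_sum_abs : Integrable (fun x : ι → ℝ => Real.exp (∑ i, |x i|)) (gv ι) := by
  have h := Integrable.fintype_prod (f := fun (_ : ι) (x : ℝ) => Real.exp |x|)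
    (μ := fun _ => gaussianReal 0 1) (fun _ => integrable_exp_abs)
  refine h.congr (Filter.Eventually.of_forall fun x => ?_)
  simp only [Real.exp_sum]

lemma pow_le_factorial_exp (k : ℕ) {t : ℝ} (ht : 0 ≤ t) :
    (1 + t) ^ k ≤ (k.factorial * Real.exp 1) * Real.exp t := by
  have h := Real.pow_div_factorial_le_exp (x := 1 + t) (by linarith) k
  rw [div_le_iff₀ (by positivity)] at h
  calc (1 + t) ^ k ≤ Real.exp (1 + t) * k.factorial := h
    _ = _ := by rw [Real.exp_add]; ring

/-- polynomially bounded functions are integrable -/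
theorem integrable_gv {E : Type*} [NormedAddCommGroup E] {f : (ι → ℝ) → E}
    (hf : AEStronglyMeasurable f (gv ι)) (C : ℝ) (k : ℕ)
    (h : ∀ x, ‖f x‖ ≤ C * (1 + ∑ i, |x i|) ^ k) : Integrable f (gv ι) := by
  refine (integrable_exp_sum_abs.const_mul (|C| * (k.factorial * Real.exp 1))).mono' hf
    (Filter.Eventually.of_forall fun x => (h x).trans ?_)
  have h0 : 0 ≤ ∑ i, |x i| := Finset.sum_nonneg fun _ _ => abs_nonneg _
  calc C * (1 + ∑ i, |x i|) ^ k ≤ |C| * (1 + ∑ i, |x i|) ^ k := by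
        gcongr; exact le_abs_self C
    _ ≤ |C| * ((k.factorial * Real.exp 1) * Real.exp (∑ i, |x i|)) := by
        gcongr; exact pow_le_factorial_exp k h0
    _ = _ := by ring


/-! ### One-dimensional moments -/

lemma int_x : ∫ x, x ∂(gaussianReal 0 1) = 0 := integral_id_gaussianReal

lemma int_x2 : ∫ x, x ^ 2 ∂(gaussianReal 0 1) = 1 := by
  have h := variance_fun_id_gaussianReal (μ := 0) (v := 1)
  rw [variance_eq_integral (by fun_prop), integral_id_gaussianReal] at h
  simpa using h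

lemma mgf_std : mgf id (gaussianReal 0 1) = fun t => Real.exp (t ^ 2 / 2) := by
  rw [mgf_id_gaussianReal]
  ext t; simp

lemma hd (p q : ℝ → ℝ) (hp : ∀ t, HasDerivAt p (q t) t) (t : ℝ) :
    HasDerivAt (fun t => p t * Real.exp (t ^ 2 / 2)) ((q t + t * p t) * Real.exp (t ^ 2 / 2)) t := by
  have h2 : HasDerivAt (fun t : ℝ => Real.exp (t ^ 2 / 2)) (Real.exp (t ^ 2 / 2) * t) t := by
    have h1 : HasDerivAt (fun t : ℝ => t ^ 2 / 2) t t := by
      have := (hasDerivAt_pow 2 t).div_const 2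
      refine this.congr_deriv ?_
      simp
    exact h1.exp
  refine ((hp t).mul h2).congr_deriv ?_
  ring

lemma int_x4 : ∫ x, x ^ 4 ∂(gaussianReal 0 1) = 3 := by
  have h := iteratedDeriv_mgf_zero (X := id) (μ := gaussianReal 0 1)
    (by rw [integrableExpSet_id_gaussianReal]; simp) 4
  have e : ∫ x, x ^ 4 ∂(gaussianReal 0 1) = iteratedDeriv 4 (mgf id (gaussianReal 0 1)) 0 := by
    rw [h]; rfl
  rw [e, mgf_std]
  have d1 : deriv (fun t : ℝ => Real.exp (t ^ 2 / 2)) = fun t => t * Real.exp (t ^ 2 / 2) := by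
    ext t
    have := hd (fun _ => 1) (fun _ => 0) (fun t => hasDerivAt_const t 1) t
    simp only [one_mul, mul_one, zero_add] at this
    exact this.deriv
  have d2 : deriv (fun t : ℝ => t * Real.exp (t ^ 2 / 2)) =
      fun t => (1 + t ^ 2) * Real.exp (t ^ 2 / 2) := by
    ext t
    have := hd (fun t => t) (fun _ => 1) (fun t => hasDerivAt_id t) t
    rw [this.deriv]; ring
  have d3 : deriv (fun t : ℝ => (1 + t ^ 2) * Real.exp (t ^ 2 / 2)) =
      fun t => (3 * t + t ^ 3) * Real.exp (t ^ 2 / 2) := by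
    ext t
    have := hd (fun t => 1 + t ^ 2) (fun t => 2 * t)
      (fun t => by simpa using (hasDerivAt_pow 2 t).const_add 1) t
    rw [this.deriv]; ring
  have d4 : deriv (fun t : ℝ => (3 * t + t ^ 3) * Real.exp (t ^ 2 / 2)) =
      fun t => (3 + 6 * t ^ 2 + t ^ 4) * Real.exp (t ^ 2 / 2) := by
    ext t
    have := hd (fun t => 3 * t + t ^ 3) (fun t => 3 + 3 * t ^ 2)
      (fun t => by
        have h1 := ((hasDerivAt_id t).const_mul 3).add (hasDerivAt_pow 3 t)
        refine h1.congr_deriv ?_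
        simp) t
    rw [this.deriv]; ring
  rw [iteratedDeriv_succ', iteratedDeriv_succ', iteratedDeriv_succ', iteratedDeriv_succ',
    iteratedDeriv_zero, d1, d2, d3, d4]
  simp

lemma integrable_x4 : Integrable (fun x : ℝ => x ^ 4) (gaussianReal 0 1) := by
  have h := (memLp_id_gaussianReal (μ := 0) (v := 1) 4).integrable_norm_pow (by norm_num)
  refine h.congr (Filter.Eventually.of_forall fun x => ?_)
  simp only [id, Real.norm_eq_abs]
  exact Even.pow_abs (by decide) x

lemma integrable_x2 : Integrable (fun x : ℝ => x ^ 2) (gaussianReal 0 1) :=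
  (memLp_id_gaussianReal (μ := 0) (v := 1) 2).integrable_sq

lemma memLp_sq_sub : MemLp (fun x : ℝ => x ^ 2 - 1) 2 (gaussianReal 0 1) := by
  rw [memLp_two_iff_integrable_sq (by fun_prop)]
  have h4 := integrable_x4
  have h2 := integrable_x2
  have : (fun x : ℝ => (x ^ 2 - 1) ^ 2) = fun x => x ^ 4 - 2 * x ^ 2 + 1 := by
    ext x; ring
  rw [this]
  exact (h4.sub (h2.const_mul 2)).add (integrable_const 1)

lemma int_sq_sub : ∫ x, (x ^ 2 - 1) ∂(gaussianReal 0 1) = 0 := by
  have h2 : Integrable (fun x : ℝ => x ^ 2) (gaussianReal 0 1) :=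
    (memLp_id_gaussianReal (μ := 0) (v := 1) 2).integrable_sq
  rw [integral_sub h2 (integrable_const 1), int_x2]
  simp

lemma int_sq_sub_sq : ∫ x, (x ^ 2 - 1) ^ 2 ∂(gaussianReal 0 1) = 2 := by
  have h4 := integrable_x4
  have h2 := integrable_x2
  have : (fun x : ℝ => (x ^ 2 - 1) ^ 2) = fun x => x ^ 4 - 2 * x ^ 2 + 1 := by
    ext x; ring
  rw [this, integral_add (f := fun x => x ^ 4 - 2 * x ^ 2) (g := fun _ => 1)
    (h4.sub (h2.const_mul 2)) (integrable_const 1),
    integral_sub h4 (h2.const_mul 2), integral_const_mul, int_x4, int_x2]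
  norm_num

/-! ### Diagonal quadratic forms -/

/-- the general principle for sums of functions of independent coordinates -/
lemma sum_indep {Y : ι → ℝ → ℝ} (hY : ∀ i, MemLp (Y i) 2 (gaussianReal 0 1))
    (h0 : ∀ i, ∫ x, Y i x ∂(gaussianReal 0 1) = 0) :
    ∫ x, (∑ i, Y i (x i)) ^ 2 ∂(gv ι) = ∑ i, ∫ x, Y i x ^ 2 ∂(gaussianReal 0 1) := by
  have h := variance_sum_pi (μ := fun _ : ι => gaussianReal 0 1) hY
  have hi : ∀ i, Integrable (fun x : ι → ℝ => Y i (x i)) (gv ι) := fun i =>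
    integrable_comp_eval ((hY i).integrable (by norm_num))
  have hm : AEMeasurable (∑ i, fun x : ι → ℝ => Y i (x i)) (gv ι) :=
    Finset.aemeasurable_sum _ fun i _ => (hi i).aemeasurable
  rw [variance_eq_integral hm] at h
  have e0 : ∫ x, (∑ i, fun x : ι → ℝ => Y i (x i)) x ∂(gv ι) = 0 := by
    simp only [Finset.sum_apply]
    rw [integral_finsetSum _ fun i _ => hi i]
    refine Finset.sum_eq_zero fun i _ => ?_
    rw [integral_comp_eval (hY i).aestronglyMeasurable]
    exact h0 i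
  rw [e0] at h
  simp only [Finset.sum_apply, sub_zero] at h
  rw [h]
  refine Finset.sum_congr rfl fun i _ => ?_
  rw [variance_eq_integral (hY i).aemeasurable, h0 i]
  simp

/-- `E (∑ aᵢ xᵢ)² = ∑ aᵢ²` -/
lemma lin_sq (a : ι → ℝ) : ∫ x, (∑ i, a i * x i) ^ 2 ∂(gv ι) = ∑ i, a i ^ 2 := by
  rw [sum_indep (Y := fun i x => a i * x) (fun i => (memLp_id_gaussianReal 2).const_mul _)
    (fun i => by rw [integral_const_mul, int_x, mul_zero])]
  refine Finset.sum_congr rfl fun i _ => ?_
  simp only [mul_pow]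
  rw [integral_const_mul, int_x2, mul_one]

/-- `E (∑ aᵢ(xᵢ² - 1))² = 2 ∑ aᵢ²` -/
lemma quad_diag (a : ι → ℝ) :
    ∫ x, (∑ i, a i * (x i ^ 2 - 1)) ^ 2 ∂(gv ι) = 2 * ∑ i, a i ^ 2 := by
  rw [sum_indep (Y := fun i x => a i * (x ^ 2 - 1)) (fun i => memLp_sq_sub.const_mul _)
    (fun i => by rw [integral_const_mul, int_sq_sub, mul_zero]), Finset.mul_sum]
  refine Finset.sum_congr rfl fun i _ => ?_
  simp only [mul_pow]
  rw [integral_const_mul, int_sq_sub_sq]
  ring

/-! ### Spectral theorem -/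

/-- real spectral theorem, elementary form -/
theorem exists_diag [DecidableEq ι] {S : Matrix ι ι ℝ} (hS : S.IsHermitian) :
    ∃ O : Matrix ι ι ℝ, O * Oᵀ = 1 ∧ Oᵀ * O = 1 ∧ S = Oᵀ * diagonal hS.eigenvalues * O := by
  refine ⟨(hS.eigenvectorUnitary : Matrix ι ι ℝ)ᵀ, ?_, ?_, ?_⟩
  · rw [Matrix.transpose_transpose]
    have h := Matrix.mem_unitaryGroup_iff'.mp hS.eigenvectorUnitary.2
    rw [Matrix.star_eq_conjTranspose, Matrix.conjTranspose_eq_transpose_of_trivial] at h
    exact h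
  · rw [Matrix.transpose_transpose]
    have h := Matrix.mem_unitaryGroup_iff.mp hS.eigenvectorUnitary.2
    rw [Matrix.star_eq_conjTranspose, Matrix.conjTranspose_eq_transpose_of_trivial] at h
    exact h
  · rw [Matrix.transpose_transpose]
    have h := hS.spectral_theorem
    rw [Unitary.conjStarAlgAut_apply, Matrix.star_eq_conjTranspose,
      Matrix.conjTranspose_eq_transpose_of_trivial] at h
    exact h

lemma quad_eq [DecidableEq ι] (O : Matrix ι ι ℝ) (a : ι → ℝ) (x : ι → ℝ) :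
    x ⬝ᵥ (Oᵀ * diagonal a * O) *ᵥ x = ∑ i, a i * ((O *ᵥ x) i) ^ 2 := by
  rw [← Matrix.mulVec_mulVec, ← Matrix.mulVec_mulVec, Matrix.dotProduct_mulVec,
    Matrix.vecMul_transpose]
  simp only [dotProduct, Matrix.mulVec_diagonal]
  exact Finset.sum_congr rfl fun i _ => by ring

lemma sum_sq_eq [DecidableEq ι] {O : Matrix ι ι ℝ} (h1 : O * Oᵀ = 1) (a : ι → ℝ) :
    ∑ i, ∑ j, ((Oᵀ * diagonal a * O) i j) ^ 2 = ∑ i, a i ^ 2 := by
  set S := Oᵀ * diagonal a * O with hS
  have e1 : ∑ i, ∑ j, (S i j) ^ 2 = (S * Sᵀ).trace := by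
    simp only [Matrix.trace, Matrix.diag, Matrix.mul_apply, Matrix.transpose_apply, sq]
  have e2 : S * Sᵀ = Oᵀ * (diagonal a * diagonal a) * O := by
    rw [hS, Matrix.transpose_mul, Matrix.transpose_mul, Matrix.transpose_transpose,
      Matrix.diagonal_transpose]
    calc Oᵀ * diagonal a * O * (Oᵀ * (diagonal a * O))
        = Oᵀ * diagonal a * (O * Oᵀ) * (diagonal a * O) := by simp only [Matrix.mul_assoc]
      _ = _ := by rw [h1]; simp only [Matrix.mul_assoc, Matrix.mul_one]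
  rw [e1, e2, Matrix.mul_assoc, Matrix.trace_mul_comm, Matrix.mul_assoc, h1, Matrix.mul_one,
    Matrix.diagonal_mul_diagonal, Matrix.trace_diagonal]
  exact Finset.sum_congr rfl fun i _ => (sq (a i)).symm

lemma trace_eq [DecidableEq ι] {O : Matrix ι ι ℝ} (h1 : O * Oᵀ = 1) (a : ι → ℝ) :
    (Oᵀ * diagonal a * O).trace = ∑ i, a i := by
  rw [Matrix.mul_assoc, Matrix.trace_mul_comm, Matrix.mul_assoc, h1, Matrix.mul_one,
    Matrix.trace_diagonal]

/-- law of a quadratic form -/
theorem integral_quad [DecidableEq ι] {E : Type*} [NormedAddCommGroup E] [NormedSpace ℝ E]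
    {O : Matrix ι ι ℝ} (h1 : O * Oᵀ = 1) (a : ι → ℝ) (F : ℝ → E)
    (hF : StronglyMeasurable F) :
    ∫ x, F (x ⬝ᵥ (Oᵀ * diagonal a * O) *ᵥ x) ∂(gv ι) = ∫ x, F (∑ i, a i * x i ^ 2) ∂(gv ι) := by
  simp only [quad_eq]
  have h := gv_map_mulVec O h1
  conv_rhs => rw [← h]
  rw [integral_map (f := fun y : ι → ℝ => F (∑ i, a i * y i ^ 2))
    (measurable_mulVec O).aemeasurable
    (hF.comp_measurable (g := fun y : ι → ℝ => ∑ i, a i * y i ^ 2)
      (by fun_prop)).aestronglyMeasurable]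


lemma sum_sym_sq_le (A : Matrix ι ι ℝ) :
    ∑ i, ∑ j, ((A i j + A j i) / 2) ^ 2 ≤ ∑ i, ∑ j, A i j ^ 2 := by
  have h1 : ∑ i, ∑ j, A j i ^ 2 = ∑ i, ∑ j, A i j ^ 2 := Finset.sum_comm
  have h2 : ∑ i, ∑ j, ((A i j + A j i) / 2) ^ 2 ≤ ∑ i, ∑ j, (A i j ^ 2 + A j i ^ 2) / 2 :=
    Finset.sum_le_sum fun i _ => Finset.sum_le_sum fun j _ => by
      nlinarith [sq_nonneg (A i j - A j i)]
  refine h2.trans (le_of_eq ?_)
  simp only [← Finset.sum_div, Finset.sum_add_distrib]
  rw [h1]; ring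

lemma dotProduct_mulVec_eq (A : Matrix ι κ ℝ) (x : ι → ℝ) (y : κ → ℝ) :
    x ⬝ᵥ A *ᵥ y = ∑ i, ∑ j, x i * A i j * y j := by
  simp only [dotProduct, Matrix.mulVec, Finset.mul_sum]
  exact Finset.sum_congr rfl fun i _ => Finset.sum_congr rfl fun j _ => by ring

lemma quad_symm_eq (A : Matrix ι ι ℝ) (x : ι → ℝ) :
    ∑ i, ∑ j, x i * A i j * x j = x ⬝ᵥ (Matrix.of fun i j => (A i j + A j i) / 2) *ᵥ x := by
  rw [dotProduct_mulVec_eq]
  have h1 : ∑ i, ∑ j, x i * A j i * x j = ∑ i, ∑ j, x i * A i j * x j := by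
    rw [Finset.sum_comm]
    exact Finset.sum_congr rfl fun i _ => Finset.sum_congr rfl fun j _ => by ring
  have h2 : ∑ i, ∑ j, x i * (Matrix.of fun i j => (A i j + A j i) / 2) i j * x j =
      (∑ i, ∑ j, x i * A i j * x j + ∑ i, ∑ j, x i * A j i * x j) / 2 := by
    rw [← Finset.sum_add_distrib, Finset.sum_div]
    refine Finset.sum_congr rfl fun i _ => ?_
    rw [← Finset.sum_add_distrib, Finset.sum_div]
    refine Finset.sum_congr rfl fun j _ => ?_
    simp only [Matrix.of_apply]; ring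
  rw [h2, h1]; ring








/-! ### Bilinear forms -/



/-! ### Lower tail -/






/-! ### Columns of Gaussian matrices -/

lemma measurable_col (k : κ) : Measurable fun (g : ι → κ → ℝ) (i : ι) => g i k :=
  measurable_pi_lambda _ fun i => measurable_entry i k

/-- a column of a Gaussian matrix is a Gaussian vector -/
theorem gm_map_col (k : κ) : (gm ι κ).map (fun g i => g i k) = gv ι := by
  rw [← gm_map_transpose (ι := κ) (κ := ι), Measure.map_map (measurable_col k) (by fun_prop)]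
  have : ((fun (g : ι → κ → ℝ) (i : ι) => g i k) ∘ fun (g : κ → ι → ℝ) k i => g i k) =
    fun g => g k := rfl
  rw [this]
  exact (measurePreserving_eval (fun _ : κ => gv ι) k).map_eq







end Crest.Agent.R166.Gauss286
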