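import Crest.Agent.R166.Defs_419

/-!
Row 166 (helper269): PORT-NUMBERED GRAPHS, the common state space (decision D1).

`HE n d = Fin n × Fin d` = half-edges (ports).  A simple `d`-regular port-numbered graph is a
permutation `p` of `HE n d` which is an involution, without loops and without multiple edges.
`graphOf p` is the underlying simple graph.  Every `d`-regular simple graph has exactly `(d!)^n`
port numberings (`card_fiber`), hence `regularAverage` is the average over `Ports n d`
(`regularAverage_eq`), and the average over the directed edges of `graphOf p` is the average over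
the fixed set `HE n d` (`eAvg_graphOf`).

Directed edge `h` = from `h.1` to `(p h).1`.  `rot k (v,i) = (v,i+k)`; the non-backtracking
continuations of `h` are `child p k h = rot k (p h)`, `k ≠ 0`; `desc p h w` follows a word.
-/

set_option autoImplicit false

namespace Crest.Agent.R166

open MeasureTheory Crest.ProbabilityR.RandomMatrix Finset

/-- half-edges -/
abbrev HE (n d : ℕ) : Type := Fin n × Fin d

/-- simple port-numbered `d`-regular graph -/
structure IsPort {n d : ℕ} (p : Equiv.Perm (HE n d)) : Prop where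
  inv : ∀ h, p (p h) = h
  noloop : ∀ h, (p h).1 ≠ h.1
  simple : ∀ v i j, (p (v, i)).1 = (p (v, j)).1 → i = j

/-- the finite set of simple port-numbered graphs -/
noncomputable def Ports (n d : ℕ) : Finset (Equiv.Perm (HE n d)) := by
  classical exact Finset.univ.filter fun p => IsPort p

theorem mem_Ports {n d : ℕ} {p : Equiv.Perm (HE n d)} : p ∈ Ports n d ↔ IsPort p := by
  classical
  unfold Ports
  simp

/-- the underlying simple graph -/
def graphOf {n d : ℕ} (p : Equiv.Perm (HE n d)) : SimpleGraph (Fin n) where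
  Adj v w := v ≠ w ∧ ((∃ i, (p (v, i)).1 = w) ∨ (∃ i, (p (w, i)).1 = v))
  symm := ⟨fun _ _ h => ⟨h.1.symm, h.2.symm⟩⟩
  loopless := ⟨fun _ h => h.1 rfl⟩

namespace IsPort

variable {n d : ℕ} {p : Equiv.Perm (HE n d)}

theorem adj_iff (hp : IsPort p) {v w : Fin n} :
    (graphOf p).Adj v w ↔ ∃ i, (p (v, i)).1 = w := by
  constructor
  · rintro ⟨_, h | ⟨i, hi⟩⟩
    · exact h
    · refine ⟨(p (w, i)).2, ?_⟩
      have : (v, (p (w, i)).2) = p (w, i) := by rw [← hi]
      rw [this, hp.inv]
  · rintro ⟨i, hi⟩
    refine ⟨?_, Or.inl ⟨i, hi⟩⟩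
    rintro rfl
    exact hp.noloop _ hi

theorem adj_half (hp : IsPort p) (h : HE n d) : (graphOf p).Adj h.1 (p h).1 :=
  hp.adj_iff.2 ⟨h.2, rfl⟩

theorem ne_self (hp : IsPort p) (h : HE n d) : p h ≠ h := fun e => hp.noloop h (by rw [e])

theorem fst_inj (hp : IsPort p) {h h' : HE n d} (h1 : h.1 = h'.1) (h2 : (p h).1 = (p h').1) :
    h = h' := by
  obtain ⟨v, i⟩ := h
  obtain ⟨v', j⟩ := h'
  simp only at h1
  subst h1
  rw [hp.simple v i j h2]

/-- neighbours of `v` = image of the ports of `v` -/
theorem card_nbr [DecidableRel (graphOf p).Adj] (hp : IsPort p) (v : Fin n) :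
    (Finset.univ.filter fun w => (graphOf p).Adj v w).card = d := by
  classical
  have : (Finset.univ.filter fun w => (graphOf p).Adj v w)
      = (Finset.univ : Finset (Fin d)).image (fun i => (p (v, i)).1) := by
    ext w
    simp [hp.adj_iff]
  rw [this, Finset.card_image_of_injective, Finset.card_univ, Fintype.card_fin]
  intro i j hij
  exact hp.simple v i j hij

theorem graphOf_mem (hp : IsPort p) : graphOf p ∈ regularGraphs n d := by
  classical
  unfold regularGraphs
  rw [Finset.mem_filter]
  refine ⟨Finset.mem_univ _, fun v => ?_⟩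
  convert hp.card_nbr v

/-- number of the half-edges: `n * d` -/
theorem card_HE : Fintype.card (HE n d) = n * d := by simp [HE]

/-- half-edges as directed edges -/
def dartEmb (hp : IsPort p) : HE n d ↪ Fin n × Fin n :=
  ⟨fun h => (h.1, (p h).1), fun _ _ e => hp.fst_inj (Prod.ext_iff.1 e).1 (Prod.ext_iff.1 e).2⟩

/-- half-edges are the directed edges -/
theorem darts_eq (hp : IsPort p) :
    darts (graphOf p) = (Finset.univ : Finset (HE n d)).map hp.dartEmb := by
  classical
  ext ⟨v, w⟩
  simp only [darts, Finset.mem_filter, Finset.mem_univ, true_and, Finset.mem_map,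
    dartEmb, Function.Embedding.coeFn_mk, Prod.exists, Prod.mk.injEq]
  rw [hp.adj_iff]
  constructor
  · rintro ⟨i, hi⟩
    exact ⟨v, i, rfl, hi⟩
  · rintro ⟨v', i, rfl, hi⟩
    exact ⟨i, hi⟩

theorem sum_darts (hp : IsPort p) {α : Type*} [AddCommMonoid α] (f : Fin n × Fin n → α) :
    ∑ x ∈ darts (graphOf p), f x = ∑ h : HE n d, f (h.1, (p h).1) := by
  rw [hp.darts_eq, Finset.sum_map]
  rfl

theorem card_darts (hp : IsPort p) : (darts (graphOf p)).card = n * d := by
  rw [hp.darts_eq, Finset.card_map, Finset.card_univ, card_HE]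

/-- the average over directed edges is the average over half-edges -/
theorem eAvg_graphOf (hp : IsPort p) (f : Fin n → Fin n → ℝ) :
    eAvg (graphOf p) f = (∑ h : HE n d, f h.1 (p h).1) / (n * d : ℝ) := by
  rw [eAvg, hp.sum_darts, hp.card_darts]
  push_cast
  rfl

/-- vertex averages are half-edge averages -/
theorem vAvg_eq (hd : 0 < d) (f : Fin n → ℝ) :
    vAvg f = (∑ h : HE n d, f h.1) / (n * d : ℝ) := by
  have hd' : (d : ℝ) ≠ 0 := by exact_mod_cast hd.ne'
  rw [vAvg, Fintype.sum_prod_type]
  simp only [Finset.sum_const, Finset.card_univ, Fintype.card_fin, nsmul_eq_mul]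
  rw [← Finset.mul_sum, mul_comm (n : ℝ) (d : ℝ), mul_div_mul_left _ _ hd']

end IsPort

/-! ### Counting the port numberings of a graph -/

section Count

variable {n d : ℕ}

/-- the underlying map of the port numbering given by orderings of the neighbourhoods -/
noncomputable def ofOrderFun (G : SimpleGraph (Fin n))
    (σ : ∀ v : Fin n, Fin d ≃ {w // G.Adj v w}) (h : HE n d) : HE n d :=
  ((σ h.1 h.2).1, (σ (σ h.1 h.2).1).symm ⟨h.1, (σ h.1 h.2).2.symm⟩)

theorem ofOrder_aux (G : SimpleGraph (Fin n)) (σ : ∀ v : Fin n, Fin d ≃ {w // G.Adj v w})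
    {v w : Fin n} (h : G.Adj v w) (x : {u // G.Adj w u}) (hx : x = ⟨v, h.symm⟩) :
    ((x.1, (σ x.1).symm ⟨w, x.2.symm⟩) : HE n d) = (v, (σ v).symm ⟨w, h⟩) := by
  subst hx
  rfl

theorem ofOrderFun_inv (G : SimpleGraph (Fin n)) (σ : ∀ v : Fin n, Fin d ≃ {w // G.Adj v w})
    (h : HE n d) : ofOrderFun G σ (ofOrderFun G σ h) = h := by
  obtain ⟨v, i⟩ := h
  have hadj : G.Adj v (σ v i).1 := (σ v i).2
  have h1 := ofOrder_aux G σ hadj
    (σ (σ v i).1 ((σ (σ v i).1).symm ⟨v, hadj.symm⟩)) (Equiv.apply_symm_apply _ _)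
  have h2 : ofOrderFun G σ (ofOrderFun G σ (v, i)) = (v, (σ v).symm ⟨(σ v i).1, hadj⟩) := h1
  rw [h2]
  simp

/-- the port numbering given by orderings of the neighbourhoods -/
noncomputable def ofOrder (G : SimpleGraph (Fin n)) (σ : ∀ v : Fin n, Fin d ≃ {w // G.Adj v w}) :
    Equiv.Perm (HE n d) where
  toFun := ofOrderFun G σ
  invFun := ofOrderFun G σ
  left_inv := ofOrderFun_inv G σ
  right_inv := ofOrderFun_inv G σ

theorem ofOrder_apply (G : SimpleGraph (Fin n)) (σ : ∀ v : Fin n, Fin d ≃ {w // G.Adj v w})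
    (h : HE n d) :
    ofOrder G σ h = ((σ h.1 h.2).1, (σ (σ h.1 h.2).1).symm ⟨h.1, (σ h.1 h.2).2.symm⟩) := rfl

theorem ofOrder_isPort (G : SimpleGraph (Fin n)) (σ : ∀ v : Fin n, Fin d ≃ {w // G.Adj v w}) :
    IsPort (ofOrder G σ) where
  inv := ofOrderFun_inv G σ
  noloop := by
    rintro ⟨v, i⟩ e
    have := (σ v i).2
    simp only [ofOrder_apply] at e
    rw [e] at this
    exact G.loopless.irrefl _ this
  simple := by
    intro v i j e
    simp only [ofOrder_apply] at e
    exact (σ v).injective (Subtype.ext e)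

theorem graphOf_ofOrder (G : SimpleGraph (Fin n)) (σ : ∀ v : Fin n, Fin d ≃ {w // G.Adj v w}) :
    graphOf (ofOrder G σ) = G := by
  ext v w
  rw [(ofOrder_isPort G σ).adj_iff]
  constructor
  · rintro ⟨i, hi⟩
    simp only [ofOrder_apply] at hi
    rw [← hi]
    exact (σ v i).2
  · intro h
    refine ⟨(σ v).symm ⟨w, h⟩, ?_⟩
    simp [ofOrder_apply]

/-- the orderings of a port numbering -/
noncomputable def orderOf' (G : SimpleGraph (Fin n)) (p : Equiv.Perm (HE n d)) (hp : IsPort p)
    (hG : graphOf p = G) (v : Fin n) : Fin d ≃ {w // G.Adj v w} :=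
  Equiv.ofBijective (fun i => ⟨(p (v, i)).1, hG ▸ hp.adj_iff.2 ⟨i, rfl⟩⟩) (by
    constructor
    · intro i j e
      exact hp.simple v i j (congrArg Subtype.val e)
    · rintro ⟨w, hw⟩
      rw [← hG] at hw
      obtain ⟨i, hi⟩ := hp.adj_iff.1 hw
      exact ⟨i, Subtype.ext hi⟩)

/-- port numberings of `G` are families of orderings of the neighbourhoods -/
noncomputable def fiberEquiv (G : SimpleGraph (Fin n)) :
    {p : Equiv.Perm (HE n d) // IsPort p ∧ graphOf p = G} ≃
      (∀ v : Fin n, Fin d ≃ {w // G.Adj v w}) where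
  toFun p := orderOf' G p.1 p.2.1 p.2.2
  invFun σ := ⟨ofOrder G σ, ofOrder_isPort G σ, graphOf_ofOrder G σ⟩
  left_inv := by
    rintro ⟨p, hp, hG⟩
    apply Subtype.ext
    apply Equiv.ext
    rintro ⟨v, i⟩
    have hadj : G.Adj v (p (v, i)).1 := hG ▸ hp.adj_iff.2 ⟨i, rfl⟩
    have h2 : ofOrder G (orderOf' G p hp hG) (v, i)
      = ((p (v, i)).1, (orderOf' G p hp hG (p (v, i)).1).symm ⟨v, hadj.symm⟩) := rfl
    rw [h2]
    refine Prod.ext rfl ?_
    simp only
    rw [Equiv.symm_apply_eq]
    apply Subtype.ext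
    have h3 : ((orderOf' G p hp hG (p (v, i)).1) (p (v, i)).2).1
      = (p ((p (v, i)).1, (p (v, i)).2)).1 := rfl
    rw [h3]
    have h4 : p ((p (v, i)).1, (p (v, i)).2) = (v, i) := hp.inv (v, i)
    rw [h4]
  right_inv := by
    intro σ
    funext v
    apply Equiv.ext
    intro i
    apply Subtype.ext
    rfl

/-- **every regular graph has exactly `(d!)^n` port numberings** -/
theorem card_fiber [DecidableEq (SimpleGraph (Fin n))] {G : SimpleGraph (Fin n)}
    (hG : G ∈ regularGraphs n d) :
    ((Ports n d).filter fun p => graphOf p = G).card = (Nat.factorial d) ^ n := by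
  classical
  have hreg : ∀ v : Fin n, Fintype.card {w // G.Adj v w} = d := by
    intro v
    unfold regularGraphs at hG
    rw [Finset.mem_filter] at hG
    have := hG.2 v
    rw [Fintype.card_subtype]
    convert this
  have e1 : ((Ports n d).filter fun p => graphOf p = G).card
      = Fintype.card {p : Equiv.Perm (HE n d) // IsPort p ∧ graphOf p = G} := by
    rw [Fintype.card_subtype]
    congr 1
    ext p
    simp [mem_Ports]
  rw [e1, Fintype.card_congr (fiberEquiv G), Fintype.card_pi]
  have : ∀ v : Fin n, Fintype.card (Fin d ≃ {w // G.Adj v w}) = Nat.factorial d := by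
    intro v
    have e : Fin d ≃ {w // G.Adj v w} := Fintype.equivOfCardEq (by rw [hreg v, Fintype.card_fin])
    rw [Fintype.card_equiv e, Fintype.card_fin]
  simp [this]

/-- sums over port numberings of functions of the graph -/
theorem sum_Ports {α : Type*} [AddCommMonoid α] (F : SimpleGraph (Fin n) → α) :
    ∑ p ∈ Ports n d, F (graphOf p) = (Nat.factorial d ^ n) • ∑ G ∈ regularGraphs n d, F G := by
  classical
  rw [← Finset.sum_fiberwise_of_maps_to (s := Ports n d) (t := regularGraphs n d) (g := graphOf)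
    (fun p hp => (mem_Ports.1 hp).graphOf_mem), Finset.smul_sum]
  refine Finset.sum_congr rfl fun G hG => ?_
  rw [← card_fiber hG, ← Finset.sum_const]
  refine Finset.sum_congr rfl fun p hp => ?_
  rw [(Finset.mem_filter.1 hp).2]

theorem card_Ports : (Ports n d).card = (Nat.factorial d ^ n) * (regularGraphs n d).card := by
  have := sum_Ports (n := n) (d := d) (fun _ => (1 : ℕ))
  simpa using this

theorem Ports_nonempty_iff : (Ports n d).Nonempty ↔ (regularGraphs n d).Nonempty := by
  rw [← Finset.card_pos, ← Finset.card_pos, card_Ports]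
  constructor
  · intro h
    exact Nat.pos_of_mul_pos_left h |> fun _ => by
      rcases Nat.eq_zero_or_pos (regularGraphs n d).card with h0 | h0
      · rw [h0, mul_zero] at h
        exact absurd h (lt_irrefl _)
      · exact h0
  · intro h
    exact Nat.mul_pos (pow_pos (Nat.factorial_pos d) n) h


/-- the law of the uniform regular graph in terms of port-numbered graphs -/
theorem gLaw_eq : gLaw n d
    = ((Ports n d).card : ENNReal)⁻¹ • ∑ p ∈ Ports n d, Measure.dirac (graphOf p) := by
  have h0 : ((Nat.factorial d ^ n : ℕ) : ENNReal) ≠ 0 := by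
    exact_mod_cast (pow_pos (Nat.factorial_pos d) n).ne'
  have ht : ((Nat.factorial d ^ n : ℕ) : ENNReal) ≠ ⊤ := ENNReal.natCast_ne_top _
  rw [sum_Ports, card_Ports, gLaw, Nat.cast_mul, ENNReal.mul_inv (Or.inl h0) (Or.inl ht),
    ← Nat.cast_smul_eq_nsmul ENNReal, smul_smul,
    mul_comm ((Nat.factorial d ^ n : ℕ) : ENNReal)⁻¹, mul_assoc, ENNReal.inv_mul_cancel h0 ht,
    mul_one]

theorem sum_dirac_prod {ι : Type*} (S : Finset ι) (φ : ι → SimpleGraph (Fin n))
    (μ : Measure (Fin n → ℝ)) [SFinite μ] (A : Set (SimpleGraph (Fin n) × (Fin n → ℝ))) :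
    ((∑ i ∈ S, Measure.dirac (φ i)).prod μ) A = ∑ i ∈ S, μ {ω | (φ i, ω) ∈ A} := by
  classical
  induction S using Finset.induction_on with
  | empty => simp
  | insert a S ha ih =>
    rw [Finset.sum_insert ha, Measure.add_prod, Measure.add_apply, ih, Finset.sum_insert ha,
      Measure.dirac_prod, (measurableEmbedding_prodMk_left (φ a)).map_apply]
    rfl

/-- **transfer of the joint law**, valid for every set (measurable or not) -/
theorem law_apply (A : Set (SimpleGraph (Fin n) × (Fin n → ℝ))) :
    (law n d) A = ((Ports n d).card : ENNReal)⁻¹ *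
      ∑ p ∈ Ports n d, (potentialLaw n) {ω | (graphOf p, ω) ∈ A} := by
  have : SFinite (potentialLaw n) := by
    unfold potentialLaw
    infer_instance
  rw [law, gLaw_eq, Measure.prod_smul_left, Measure.smul_apply, sum_dirac_prod, smul_eq_mul]

/-- `Whp` in terms of port-numbered graphs -/
theorem Whp_iff (ε : ℝ) (Q : SimpleGraph (Fin n) → (Fin n → ℝ) → Prop) :
    Whp n d ε Q ↔ ((Ports n d).card : ENNReal)⁻¹ *
      ∑ p ∈ Ports n d, (potentialLaw n) {ω | ¬ Q (graphOf p) ω} ≤ ENNReal.ofReal ε := by
  rw [Whp, law_apply]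
  rfl

end Count

/-! ### The potential law is a probability measure -/

instance potentialLaw_prob (n : ℕ) : IsProbabilityMeasure (potentialLaw n) := by
  have : IsProbabilityMeasure ((2⁻¹ : NNReal) • (volume.restrict (Set.Icc (-1 : ℝ) 1))) := by
    constructor
    rw [Measure.smul_apply, Measure.restrict_apply_univ, Real.volume_Icc]
    have h2 : ENNReal.ofReal (1 - -1) = 2 := by
      norm_num
    rw [h2, ENNReal.smul_def, smul_eq_mul, ENNReal.coe_inv (by norm_num)]
    exact ENNReal.inv_mul_cancel (by norm_num) (by norm_num)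
  unfold potentialLaw
  infer_instance

/-! ### Port rotation, children, descendants (universal cover) -/

section Cover

variable {n d : ℕ}

/-- rotation of the port number -/
def rot [NeZero d] (k : Fin d) (h : HE n d) : HE n d := (h.1, h.2 + k)

@[simp] theorem rot_fst [NeZero d] (k : Fin d) (h : HE n d) : (rot k h).1 = h.1 := rfl

@[simp] theorem rot_zero [NeZero d] (h : HE n d) : rot 0 h = h := by
  simp [rot]

theorem rot_rot [NeZero d] (k l : Fin d) (h : HE n d) : rot k (rot l h) = rot (l + k) h := by
  simp [rot, add_assoc]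

theorem rot_injective [NeZero d] (k : Fin d) : Function.Injective (rot k : HE n d → HE n d) := by
  rintro ⟨v, i⟩ ⟨w, j⟩ e
  simp only [rot, Prod.mk.injEq, add_left_inj] at e
  exact Prod.ext e.1 e.2

theorem rot_eq_iff [NeZero d] (k : Fin d) (h : HE n d) : rot k h = h ↔ k = 0 := by
  obtain ⟨v, i⟩ := h
  simp [rot]

/-- the child `k` of the directed edge `h` (`k ≠ 0`: non-backtracking continuation) -/
def child [NeZero d] (p : Equiv.Perm (HE n d)) (h : HE n d) (k : Fin d) : HE n d := rot k (p h)

/-- follow a word of non-zero rotations -/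
def desc [NeZero d] (p : Equiv.Perm (HE n d)) (h : HE n d) (w : List (Fin d)) : HE n d :=
  w.foldl (child p) h

@[simp] theorem desc_nil [NeZero d] (p : Equiv.Perm (HE n d)) (h : HE n d) : desc p h [] = h := rfl

@[simp] theorem desc_cons [NeZero d] (p : Equiv.Perm (HE n d)) (h : HE n d) (k : Fin d)
    (w : List (Fin d)) : desc p h (k :: w) = desc p (child p h k) w := rfl

theorem desc_append [NeZero d] (p : Equiv.Perm (HE n d)) (h : HE n d) (w w' : List (Fin d)) :
    desc p h (w ++ w') = desc p (desc p h w) w' := by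
  simp [desc, List.foldl_append]

/-- `child p · k` is a permutation of the half-edges (composition of `p` and `rot k`) -/
theorem child_injective [NeZero d] (p : Equiv.Perm (HE n d)) (k : Fin d) :
    Function.Injective (fun h => child p h k) :=
  fun _ _ e => p.injective (rot_injective k e)

theorem desc_injective [NeZero d] (p : Equiv.Perm (HE n d)) (w : List (Fin d)) :
    Function.Injective (fun h => desc p h w) := by
  induction w with
  | nil => exact fun _ _ e => e
  | cons k w ih => exact fun _ _ e => child_injective p k (ih e)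

end Cover

/-! ### Switching = conjugation -/

section Conj

variable {n d : ℕ}

/-- conjugation by `s` -/
def conjP (s p : Equiv.Perm (HE n d)) : Equiv.Perm (HE n d) := s * p * s⁻¹

theorem conjP_apply (s p : Equiv.Perm (HE n d)) (h : HE n d) :
    conjP s p h = s (p (s⁻¹ h)) := rfl

theorem conjP_inv_inv (s p : Equiv.Perm (HE n d)) (hp : ∀ h, p (p h) = h) (h : HE n d) :
    conjP s p (conjP s p h) = h := by
  simp [conjP_apply, hp]

theorem conjP_conjP (s t p : Equiv.Perm (HE n d)) : conjP s (conjP t p) = conjP (s * t) p := by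
  simp [conjP, mul_assoc]



end Conj

end Crest.Agent.R166
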