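import Mathlib
import Crest.Agent.R166.Ports_269

/-!
Row 166 (helper536): the tree operator around a directed edge and the covering identity.

`Node d = Bool × List (Lt d)`: the nodes of the `d`-regular tree seen from a directed edge `h`
(side, non-backtracking word, LAST letter first); `(true, [])` = `h.1`, `(false, [])` = `(p h).1`.
`nv p h : Node d → Fin n` is the covering map; `Tl s Ω` is the tree operator
(adjacency + `s` times the pulled-back potential) on functions on the nodes.
`aeval_nv`: `(P(H) f) ∘ nv = P(Tl s (ω ∘ nv)) (f ∘ nv)` for every polynomial `P` (no tree-likeness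
assumption); `aeval_local`: `P(Tl s Ω) F` at `x` depends on `F`, `Ω` at distance `≤ deg P` only.
-/

set_option autoImplicit false

namespace Crest.Agent.R166.Env536

open Finset

variable {n d : ℕ} [NeZero d]

/-- nonzero letters -/
abbrev Lt (d : ℕ) [NeZero d] : Type := {k : Fin d // k ≠ 0}

/-- nodes of the tree around a directed edge: side and word (last letter first) -/
abbrev Node (d : ℕ) [NeZero d] : Type := Bool × List (Lt d)

/-- the half-edge at a node -/
def hf (p : Equiv.Perm (HE n d)) (h : HE n d) (b : Bool) : List (Lt d) → HE n d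
  | [] => if b then p h else h
  | k :: l => child p (hf p h b l) k.1

@[simp] theorem hf_nil (p : Equiv.Perm (HE n d)) (h : HE n d) (b : Bool) :
    hf p h b [] = if b then p h else h := rfl

@[simp] theorem hf_cons (p : Equiv.Perm (HE n d)) (h : HE n d) (b : Bool) (k : Lt d)
    (l : List (Lt d)) : hf p h b (k :: l) = child p (hf p h b l) k.1 := rfl

/-- the vertex at a node -/
def nv (p : Equiv.Perm (HE n d)) (h : HE n d) (x : Node d) : Fin n := (p (hf p h x.1 x.2)).1

/-- the parent -/
def par : Node d → Node d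
  | (b, []) => (!b, [])
  | (b, _ :: l) => (b, l)

theorem par_len (x : Node d) : (par x).2.length ≤ x.2.length := by
  rcases x with ⟨b, _ | ⟨k, l⟩⟩
  · simp [par]
  · simp [par]

/-- the tree operator -/
def Tl (s : ℝ) (Ω : Node d → ℝ) : Module.End ℝ (Node d → ℝ) where
  toFun F x := F (par x) + ∑ k : Lt d, F (x.1, k :: x.2) + s * Ω x * F x
  map_add' F G := by
    funext x
    simp only [Pi.add_apply, sum_add_distrib]
    ring
  map_smul' c F := by
    funext x
    simp only [Pi.smul_apply, smul_eq_mul, RingHom.id_apply, ← mul_sum]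
    ring

theorem Tl_apply (s : ℝ) (Ω : Node d → ℝ) (F : Node d → ℝ) (x : Node d) :
    Tl s Ω F x = F (par x) + ∑ k : Lt d, F (x.1, k :: x.2) + s * Ω x * F x := rfl

theorem nv_par {p : Equiv.Perm (HE n d)} (hp : IsPort p) (h : HE n d) (x : Node d) :
    nv p h (par x) = (hf p h x.1 x.2).1 := by
  rcases x with ⟨b, _ | ⟨k, l⟩⟩
  · cases b <;> simp [par, nv, hp.inv]
  · simp [par, nv, child]

@[simp] theorem nv_true {p : Equiv.Perm (HE n d)} (hp : IsPort p) (h : HE n d) :
    nv p h (true, []) = h.1 := by simp [nv, hp.inv]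

@[simp] theorem nv_false (p : Equiv.Perm (HE n d)) (h : HE n d) :
    nv p h (false, []) = (p h).1 := by simp [nv]

omit [NeZero d] in
/-- sum over the neighbours as sum over the ports -/
theorem sum_adj {p : Equiv.Perm (HE n d)} (hp : IsPort p) (v : Fin n) (f : Fin n → ℝ)
    [DecidableRel (graphOf p).Adj] :
    ∑ w, (if (graphOf p).Adj v w then f w else 0) = ∑ i : Fin d, f (p (v, i)).1 := by
  classical
  rw [← sum_filter]
  have : (Finset.univ.filter fun w => (graphOf p).Adj v w)
      = (Finset.univ : Finset (Fin d)).image (fun i => (p (v, i)).1) := by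
    ext w
    simp [hp.adj_iff]
  rw [this, sum_image]
  intro i _ j _ hij
  exact hp.simple v i j hij

/-- the ports of the end vertex of `g`, seen from `g` -/
theorem sum_ports (p : Equiv.Perm (HE n d)) (hinv : ∀ h, p (p h) = h) (g : HE n d)
    (f : Fin n → ℝ) :
    ∑ i : Fin d, f (p ((p g).1, i)).1 = f g.1 + ∑ k : Lt d, f (p (child p g k.1)).1 := by
  classical
  have h1 : ∑ i : Fin d, f (p ((p g).1, i)).1 = ∑ k : Fin d, f (p (child p g k)).1 := by
    refine (Equiv.sum_comp (Equiv.addLeft (p g).2) (fun i => f (p ((p g).1, i)).1)).symm.trans ?_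
    rfl
  rw [h1, ← Fintype.sum_subtype_add_sum_subtype (fun k : Fin d => k ≠ 0)
    (fun k => f (p (child p g k)).1), add_comm]
  congr 1
  have h2 : ∀ k : {k : Fin d // ¬ k ≠ 0}, f (p (child p g k.1)).1 = f g.1 := by
    rintro ⟨k, hk⟩
    have : k = 0 := not_not.1 hk
    subst this
    simp [child, hinv]
  rw [sum_congr rfl fun k _ => h2 k, sum_const, card_univ]
  have h3 : Fintype.card {k : Fin d // ¬ k ≠ 0} = 1 := by
    rw [Fintype.card_eq_one_iff]
    exact ⟨⟨0, by simp⟩, fun y => Subtype.ext (not_not.1 y.2)⟩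
  rw [h3, one_smul]

theorem Hm_mulVec {p : Equiv.Perm (HE n d)} (hp : IsPort p) (s : ℝ) (ω : Fin n → ℝ)
    (f : Fin n → ℝ) (g : HE n d) :
    (Hm (graphOf p) s ω).mulVec f (p g).1 =
      f g.1 + ∑ k : Lt d, f (p (child p g k.1)).1 + s * ω (p g).1 * f (p g).1 := by
  classical
  rw [← sum_ports p hp.inv g f, ← sum_adj hp (p g).1 f]
  unfold Hm
  rw [Matrix.add_mulVec, Pi.add_apply, Matrix.smul_mulVec, Pi.smul_apply,
    Matrix.mulVec_diagonal, smul_eq_mul, ← mul_assoc]
  congr 1
  simp only [Matrix.mulVec, dotProduct, SimpleGraph.adjMatrix_apply, ite_mul, one_mul, zero_mul]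

/-- **covering identity** -/
theorem Hm_nv {p : Equiv.Perm (HE n d)} (hp : IsPort p) (s : ℝ) (ω : Fin n → ℝ)
    (f : Fin n → ℝ) (h : HE n d) (x : Node d) :
    (Hm (graphOf p) s ω).mulVec f (nv p h x) = Tl s (ω ∘ nv p h) (f ∘ nv p h) x := by
  have h1 : nv p h x = (p (hf p h x.1 x.2)).1 := rfl
  rw [h1, Hm_mulVec hp, Tl_apply, Function.comp_apply, nv_par hp]
  rfl

theorem pow_nv {p : Equiv.Perm (HE n d)} (hp : IsPort p) (s : ℝ) (ω : Fin n → ℝ)
    (f : Fin n → ℝ) (h : HE n d) (k : ℕ) (x : Node d) :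
    ((Hm (graphOf p) s ω) ^ k).mulVec f (nv p h x) =
      ((Tl s (ω ∘ nv p h)) ^ k) (f ∘ nv p h) x := by
  induction k generalizing x with
  | zero => simp
  | succ k ih =>
    rw [pow_succ', ← Matrix.mulVec_mulVec, Hm_nv hp, pow_succ', Module.End.mul_apply]
    have h1 : ((Hm (graphOf p) s ω) ^ k).mulVec f ∘ nv p h =
        ((Tl s (ω ∘ nv p h)) ^ k) (f ∘ nv p h) := funext ih
    rw [h1]

theorem aeval_nv {p : Equiv.Perm (HE n d)} (hp : IsPort p) (s : ℝ) (ω : Fin n → ℝ)
    (f : Fin n → ℝ) (h : HE n d) (P : Polynomial ℝ) (x : Node d) :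
    (Polynomial.aeval (Hm (graphOf p) s ω) P).mulVec f (nv p h x) =
      (Polynomial.aeval (Tl s (ω ∘ nv p h)) P) (f ∘ nv p h) x := by
  rw [Polynomial.aeval_eq_sum_range, Polynomial.aeval_eq_sum_range, Matrix.sum_mulVec,
    Finset.sum_apply, LinearMap.sum_apply, Finset.sum_apply]
  refine sum_congr rfl fun k _ => ?_
  rw [Matrix.smul_mulVec, Pi.smul_apply, pow_nv hp]
  rfl

/-! ### locality -/

theorem pow_local (s : ℝ) {Ω Ω' F F' : Node d → ℝ} (k m : ℕ)
    (hF : ∀ y : Node d, y.2.length ≤ m + k → F y = F' y)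
    (hΩ : ∀ y : Node d, y.2.length ≤ m + k → Ω y = Ω' y) (x : Node d) (hx : x.2.length ≤ m) :
    ((Tl s Ω) ^ k) F x = ((Tl s Ω') ^ k) F' x := by
  induction k generalizing m x with
  | zero => simpa using hF x (by simpa using hx)
  | succ k ih =>
    rw [pow_succ', pow_succ', Module.End.mul_apply, Module.End.mul_apply, Tl_apply, Tl_apply]
    have h1 := ih (m + 1) (fun y hy => hF y (by omega)) (fun y hy => hΩ y (by omega))
    rw [h1 (par x) ((par_len x).trans (by omega)), h1 x (by omega), hΩ x (by omega)]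
    congr 2
    exact sum_congr rfl fun k _ => h1 _ (by simpa using hx)

theorem aeval_local (s : ℝ) {Ω Ω' F F' : Node d → ℝ} (P : Polynomial ℝ) (D m : ℕ)
    (hD : P.natDegree ≤ D)
    (hF : ∀ y : Node d, y.2.length ≤ m + D → F y = F' y)
    (hΩ : ∀ y : Node d, y.2.length ≤ m + D → Ω y = Ω' y) (x : Node d) (hx : x.2.length ≤ m) :
    (Polynomial.aeval (Tl s Ω) P) F x = (Polynomial.aeval (Tl s Ω') P) F' x := by
  rw [Polynomial.aeval_eq_sum_range, Polynomial.aeval_eq_sum_range, LinearMap.sum_apply,
    LinearMap.sum_apply, Finset.sum_apply, Finset.sum_apply]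
  refine sum_congr rfl fun k hk => ?_
  rw [mem_range] at hk
  rw [LinearMap.smul_apply, LinearMap.smul_apply, Pi.smul_apply, Pi.smul_apply]
  rw [pow_local s k m (fun y hy => hF y (by omega)) (fun y hy => hΩ y (by omega)) x hx]

theorem continuous_pow (s : ℝ) (F : Node d → ℝ) (k : ℕ) (x : Node d) :
    Continuous fun Ω : Node d → ℝ => ((Tl s Ω) ^ k) F x := by
  induction k generalizing x with
  | zero => simpa using continuous_const
  | succ k ih =>
    simp only [pow_succ', Module.End.mul_apply, Tl_apply]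
    refine ((ih _).add (continuous_finsetSum _ fun k _ => ih _)).add ?_
    exact (continuous_const.mul (continuous_apply x)).mul (ih x)

theorem continuous_aeval (s : ℝ) (F : Node d → ℝ) (P : Polynomial ℝ) (x : Node d) :
    Continuous fun Ω : Node d → ℝ => (Polynomial.aeval (Tl s Ω) P) F x := by
  simp only [Polynomial.aeval_eq_sum_range, LinearMap.sum_apply, Finset.sum_apply,
    LinearMap.smul_apply, Pi.smul_apply]
  exact continuous_finsetSum _ fun k _ => continuous_const.mul (continuous_pow s F k x)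

end Crest.Agent.R166.Env536
private theorem rz_55bedf7b88 : type_of% @_root_.Crest.Agent.R166.Env536.par.eq_1 := @_root_.Crest.Agent.R166.Env536.par.eq_1 -- L44
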