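import Mathlib

/-!
# R166, 40.4/40.5: counting pairings (helper356)

Pairings (perfect matchings) of a finite type as fixed-point-free involutions, their number,
and the number of pairings extending a given partial pairing.
-/

set_option autoImplicit false
set_option linter.unusedSectionVars false
set_option linter.unusedSimpArgs false

namespace Crest.Agent.R166.PairCount356

open Finset

variable {α β : Type*}

/-- `p` is a fixed-point-free involution, i.e. a perfect matching. -/
def IsPairing (p : Equiv.Perm α) : Prop := (∀ x, p (p x) = x) ∧ ∀ x, p x ≠ x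

section
variable [Fintype α] [DecidableEq α] [Fintype β] [DecidableEq β]

instance (p : Equiv.Perm α) : Decidable (IsPairing p) := by
  unfold IsPairing; infer_instance

/-- all pairings of a finite type -/
def pairings (α : Type*) [Fintype α] [DecidableEq α] : Finset (Equiv.Perm α) :=
  univ.filter fun p => IsPairing p

@[simp] lemma mem_pairings (p : Equiv.Perm α) : p ∈ pairings α ↔ IsPairing p := by
  simp [pairings]

lemma isPairing_permCongr (e : α ≃ β) (p : Equiv.Perm α) :
    IsPairing (e.permCongr p) ↔ IsPairing p := by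
  constructor
  · rintro ⟨h1, h2⟩
    refine ⟨fun x => ?_, fun x hx => ?_⟩
    · have := h1 (e x)
      simpa [Equiv.permCongr_apply] using this
    · apply h2 (e x)
      simp [Equiv.permCongr_apply, hx]
  · rintro ⟨h1, h2⟩
    refine ⟨fun x => ?_, fun x hx => ?_⟩
    · simp [Equiv.permCongr_apply, h1]
    · apply h2 (e.symm x)
      have := congrArg e.symm hx
      simpa [Equiv.permCongr_apply] using this

lemma card_pairings_congr (e : α ≃ β) : (pairings α).card = (pairings β).card := by
  refine Finset.card_bij (fun p _ => e.permCongr p) ?_ ?_ ?_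
  · intro p hp
    rw [mem_pairings] at hp ⊢
    exact (isPairing_permCongr e p).2 hp
  · intro p _ q _ h
    exact (e.permCongr).injective h
  · intro q hq
    refine ⟨e.permCongr.symm q, ?_, Equiv.apply_symm_apply _ _⟩
    rw [mem_pairings] at hq ⊢
    rw [← isPairing_permCongr e, Equiv.apply_symm_apply]
    exact hq

/-- the number of pairings of `N` points -/
def np (N : ℕ) : ℕ := (pairings (Fin N)).card

lemma card_pairings (α : Type*) [Fintype α] [DecidableEq α] :
    (pairings α).card = np (Fintype.card α) :=
  card_pairings_congr (Fintype.equivFin α)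

lemma np_zero : np 0 = 1 := by decide

lemma np_one : np 1 = 0 := by decide

/-- pairings with prescribed values on a set -/
lemma card_extend_le (T : Finset α) (f : α → α) (hf : ∀ x ∈ T, f x ∈ T) :
    ((pairings α).filter fun p => ∀ x ∈ T, p x = f x).card ≤ np (Fintype.card α - T.card) := by
  classical
  have hc : Fintype.card {x // x ∉ T} = Fintype.card α - T.card := by
    rw [Fintype.card_subtype_compl]; simp
  rw [← hc, ← card_pairings]
  set F := (pairings α).filter (fun p => ∀ x ∈ T, p x = f x) with hF
  have hFm : ∀ p, p ∈ F ↔ (IsPairing p ∧ ∀ x ∈ T, p x = f x) := by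
    intro p; rw [hF, Finset.mem_filter, mem_pairings]
  have hmem : ∀ p ∈ F, ∀ x, x ∉ T ↔ p x ∉ T := by
    intro p hp x
    rw [hFm] at hp
    obtain ⟨⟨h1, h2⟩, h3⟩ := hp
    constructor
    · intro hx hpx
      apply hx
      have := h3 _ hpx
      rw [h1] at this
      rw [this]; exact hf _ hpx
    · intro hx hxT
      apply hx
      rw [h3 _ hxT]; exact hf _ hxT
  let Φ : Equiv.Perm α → Equiv.Perm {x // x ∉ T} := fun p =>
    if h : p ∈ F then p.subtypePerm (p := fun x => x ∉ T) (fun x => (hmem p h x).symm) else 1
  have hΦ : ∀ p (h : p ∈ F), ∀ x : {x // x ∉ T}, ((Φ p x : {x // x ∉ T}) : α) = p x := by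
    intro p h x
    simp only [Φ, dif_pos h, Equiv.Perm.subtypePerm_apply]
  refine Finset.card_le_card_of_injOn Φ ?_ ?_
  · intro p hp
    have hp0 : p ∈ F := hp
    have hp' := (hFm p).1 hp0
    rw [Finset.mem_coe, mem_pairings]
    refine ⟨fun x => ?_, fun x hx => ?_⟩
    · apply Subtype.ext
      rw [hΦ p hp0, hΦ p hp0, hp'.1.1]
    · have := congrArg Subtype.val hx
      rw [hΦ p hp0] at this
      exact hp'.1.2 _ this
  · intro p hp q hq h
    have hp0 : p ∈ F := hp
    have hq0 : q ∈ F := hq
    ext x
    by_cases hx : x ∈ T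
    · rw [((hFm p).1 hp0).2 x hx, ((hFm q).1 hq0).2 x hx]
    · rw [← hΦ p hp0 ⟨x, hx⟩, ← hΦ q hq0 ⟨x, hx⟩, h]

lemma card_fix_pair (a b : α) (hab : a ≠ b) :
    ((pairings α).filter fun p => p a = b).card = np (Fintype.card α - 2) := by
  classical
  apply le_antisymm
  · have h := card_extend_le ({a, b} : Finset α) (Equiv.swap a b) (by
      intro x hx
      simp only [Finset.mem_insert, Finset.mem_singleton] at hx ⊢
      rcases hx with rfl | rfl <;> simp)
    rw [Finset.card_pair hab] at h
    refine le_trans (Finset.card_le_card ?_) h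
    intro p hp
    rw [Finset.mem_filter, mem_pairings] at hp ⊢
    refine ⟨hp.1, ?_⟩
    intro x hx
    simp only [Finset.mem_insert, Finset.mem_singleton] at hx
    rcases hx with rfl | rfl
    · simp [hp.2]
    · rw [Equiv.swap_apply_right, ← hp.2, hp.1.1]
  · have hc : Fintype.card {x // x ∉ ({a, b} : Finset α)} = Fintype.card α - 2 := by
      rw [Fintype.card_subtype_compl, Fintype.card_coe, Finset.card_pair hab]
    rw [← hc, ← card_pairings]
    refine Finset.card_le_card_of_injOn
      (fun q => Equiv.swap a b * Equiv.Perm.ofSubtype q) ?_ ?_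
    · intro q hq
      have hq' : IsPairing q := by simpa using hq
      have ha : Equiv.Perm.ofSubtype q a = a :=
        Equiv.Perm.ofSubtype_apply_of_not_mem q (by simp)
      have hb : Equiv.Perm.ofSubtype q b = b :=
        Equiv.Perm.ofSubtype_apply_of_not_mem q (by simp)
      have hx : ∀ x (h : x ∉ ({a, b} : Finset α)),
          Equiv.swap a b (Equiv.Perm.ofSubtype q x) = (q ⟨x, h⟩ : α) := by
        intro x h
        rw [Equiv.Perm.ofSubtype_apply_of_mem q h]
        have h2 := (q ⟨x, h⟩).2
        simp only [Finset.mem_insert, Finset.mem_singleton, not_or] at h2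
        rw [Equiv.swap_apply_of_ne_of_ne h2.1 h2.2]
      simp only [Finset.coe_filter, Finset.mem_coe, mem_pairings, Set.mem_ofPred_eq]
      refine ⟨⟨fun x => ?_, fun x => ?_⟩, ?_⟩
      · by_cases h : x ∈ ({a, b} : Finset α)
        · simp only [Finset.mem_insert, Finset.mem_singleton] at h
          rcases h with rfl | rfl
          · simp [ha, hb]
          · simp [ha, hb]
        · simp only [Equiv.Perm.mul_apply]
          rw [hx x h, hx _ (q ⟨x, h⟩).2]
          simp [hq'.1]
      · by_cases h : x ∈ ({a, b} : Finset α)
        · simp only [Finset.mem_insert, Finset.mem_singleton] at h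
          rcases h with rfl | rfl
          · simpa [ha, hb] using hab.symm
          · simpa [ha, hb] using hab
        · simp only [Equiv.Perm.mul_apply]
          rw [hx x h]
          intro h3
          exact hq'.2 ⟨x, h⟩ (Subtype.ext h3)
      · simp [ha]
    · intro q _ r _ h
      exact Equiv.Perm.ofSubtype_injective (mul_left_cancel h)

lemma np_add_two (N : ℕ) : np (N + 2) = (N + 1) * np N := by
  classical
  have h1 : (pairings (Fin (N + 2))).card =
      ∑ b ∈ (univ : Finset (Fin (N + 2))).erase 0,
        ((pairings (Fin (N + 2))).filter fun p => p 0 = b).card := by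
    rw [← Finset.card_eq_sum_card_fiberwise]
    intro p hp
    have hp' : IsPairing p := by simpa using hp
    simp [hp'.2 0]
  have h2 : np (N + 2) = (pairings (Fin (N + 2))).card := rfl
  rw [h2, h1]
  rw [Finset.sum_congr rfl (fun b hb => card_fix_pair (0 : Fin (N + 2)) b
    (Finset.ne_of_mem_erase hb).symm)]
  rw [Finset.sum_const, Finset.card_erase_of_mem (Finset.mem_univ _), Finset.card_univ,
    Fintype.card_fin, smul_eq_mul]
  rfl

lemma np_even (m : ℕ) : np (2 * m) = (2 * m - 1).doubleFactorial := by
  induction m with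
  | zero => simp [np_zero]
  | succ m ih =>
    rw [show 2 * (m + 1) = 2 * m + 2 by ring, np_add_two, ih]
    rcases Nat.eq_zero_or_pos m with rfl | hm
    · simp
    · rw [show 2 * m + 2 - 1 = (2 * m - 1) + 2 by omega, Nat.doubleFactorial_add_two]
      congr 1
      omega

lemma np_odd (m : ℕ) : np (2 * m + 1) = 0 := by
  induction m with
  | zero => simp [np_one]
  | succ m ih =>
    rw [show 2 * (m + 1) + 1 = (2 * m + 1) + 2 by ring, np_add_two, ih, mul_zero]

lemma np_pos_of_even {N : ℕ} (h : Even N) : 0 < np N := by
  obtain ⟨m, rfl⟩ := h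
  rw [← two_mul, np_even]
  exact Nat.doubleFactorial_pos _


/-- number of pairings containing a symmetric set of ordered pairs -/
lemma card_contain_le (D : Finset (α × α)) (hD : ∀ x y, (x, y) ∈ D → (y, x) ∈ D) :
    ((pairings α).filter fun p => ∀ e ∈ D, p e.1 = e.2).card ≤
      np (Fintype.card α - D.card) := by
  classical
  by_cases hne : ((pairings α).filter fun p => ∀ e ∈ D, p e.1 = e.2).Nonempty
  · obtain ⟨p0, hp0⟩ := hne
    rw [Finset.mem_filter, mem_pairings] at hp0
    have hcard : (D.image Prod.fst).card = D.card := by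
      apply Finset.card_image_of_injOn
      rintro ⟨x, y⟩ h1 ⟨x', y'⟩ h2 h
      simp only at h
      subst h
      have e1 := hp0.2 _ h1
      have e2 := hp0.2 _ h2
      simp only at e1 e2
      rw [← e1, ← e2]
    rw [← hcard]
    refine le_trans (Finset.card_le_card ?_) (card_extend_le (D.image Prod.fst) p0 ?_)
    · intro p hp
      rw [Finset.mem_filter] at hp ⊢
      refine ⟨hp.1, ?_⟩
      intro x hx
      rw [Finset.mem_image] at hx
      obtain ⟨e, he, rfl⟩ := hx
      rw [hp.2 e he, hp0.2 e he]
    · intro x hx
      rw [Finset.mem_image] at hx ⊢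
      obtain ⟨e, he, rfl⟩ := hx
      exact ⟨(e.2, e.1), hD _ _ he, by simp [hp0.2 e he]⟩
  · rw [Finset.not_nonempty_iff_eq_empty] at hne
    rw [hne]; simp

end

end Crest.Agent.R166.PairCount356
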