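import Crest.Agent.R166.TreeLike2_942
import Crest.Agent.R166.PairCount_356
import Crest.Agent.R166.Ports_269

/-!
Row 166, section 40.5 (helper942): consequences of `TreeAt`, bridge to `PairCount_356` and
`Ports_269`.
-/

set_option autoImplicit false

namespace Crest.Agent.R166.TreeLike942

open Finset
open scoped Nat

noncomputable section

variable {α V : Type*}

theorem TreeAt.mono {vert : α → V} {p : α → α} {R R' : ℕ} {v : V} (h : R' ≤ R)
    (ht : TreeAt vert p R v) : TreeAt vert p R' v :=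
  fun l1 l2 w h1 h2 h3 h4 h5 h6 => ht l1 l2 w h1 h2 h3 h4 (h5.trans h) (h6.trans h)




/-- moving to a neighbour costs one unit of radius -/
theorem TreeAt.step {vert : α → V} {p : α → α} (hp : ∀ z, p (p z) = z) {R : ℕ} {v : V}
    (ht : TreeAt vert p (R + 1) v) {x : α} (hx : vert x = v) : TreeAt vert p R (vert (p x)) := by
  intro l1 l2 w h1 h2 h3 h4 h5 h6
  -- transport a walk from `vert (p x)` to a walk from `v`
  have key : ∀ l : List α, IsWalk vert p (vert (p x)) l w → Reduced p l → l.length ≤ R →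
      (∃ m, l = p x :: m ∧ IsWalk vert p v m w ∧ Reduced p m ∧ m.length ≤ R + 1) ∨
      (Reduced p (x :: l) ∧ IsWalk vert p v (x :: l) w ∧ (x :: l).length ≤ R + 1) := by
    intro l hw hr hl
    cases l with
    | nil => exact Or.inr ⟨List.isChain_singleton _, ⟨hx, hw⟩, by simp⟩
    | cons y m =>
      by_cases hy : y = p x
      · left
        subst hy
        simp only [IsWalk, hp] at hw
        refine ⟨m, rfl, ?_, hr.tail, ?_⟩
        · rw [← hx]; exact hw.2
        · simp only [List.length_cons] at hl; omega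
      · right
        refine ⟨List.isChain_cons_cons.2 ⟨hy, hr⟩, ⟨hx, hw⟩, ?_⟩
        simp only [List.length_cons] at hl ⊢; omega
  rcases key l1 h1 h3 h5 with ⟨m1, e1, a1, b1, c1⟩ | ⟨a1, b1, c1⟩
  · rcases key l2 h2 h4 h6 with ⟨m2, e2, a2, b2, c2⟩ | ⟨a2, b2, c2⟩
    · rw [e1, e2, ht m1 m2 w a1 a2 b1 b2 c1 c2]
    · exfalso
      have := ht m1 (x :: l2) w a1 b2 b1 a2 c1 c2
      rw [e1, this] at h3
      exact (List.isChain_cons_cons.1 h3).1 (hp x).symm
  · rcases key l2 h2 h4 h6 with ⟨m2, e2, a2, b2, c2⟩ | ⟨a2, b2, c2⟩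
    · exfalso
      have := ht m2 (x :: l1) w a2 b1 b2 a1 c2 c1
      rw [e2, this] at h4
      exact (List.isChain_cons_cons.1 h4).1 (hp x).symm
    · have := ht (x :: l1) (x :: l2) w b1 b2 a1 a2 c1 c2
      exact (List.cons.inj this).2




theorem _root_.Crest.Agent.R166.IsPort.isPairing {n d : ℕ} {p : Equiv.Perm (HE n d)}
    (hp : IsPort p) : IsPairing p := ⟨hp.inv, hp.ne_self⟩

/-- superexponential tree-likeness, in terms of `PairCount356.pairings` -/
theorem superexp_pairings (d R : ℕ) (ε : ℝ) (hε : 0 < ε) :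
    ∃ c : ℝ, 0 < c ∧ ∃ n0 : ℕ, ∀ n ≥ n0, ∀ S : Finset (Equiv.Perm (HE n d)),
      (∀ p ∈ S, PairCount356.IsPairing p ∧
        ε * n ≤ (Nat.card {v : Fin n // ¬ TreeAt Prod.fst p R v} : ℝ)) →
      (S.card : ℝ) ≤ ((n * d - 1)‼ : ℝ) * Real.exp (-c * n * Real.log n) := by
  classical
  obtain ⟨c, hc, n0, h⟩ := superexp d R ε hε
  refine ⟨c, hc, n0, fun n hn S hS => ?_⟩
  refine le_trans ?_ (h n hn)
  have h1 : Nat.card S ≤ Nat.card {p : Equiv.Perm (Fin n × Fin d) // IsPairing p ∧
        ε * n ≤ (Nat.card {v : Fin n // ¬ TreeAt Prod.fst p R v} : ℝ)} := by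
    refine Nat.card_le_card_of_injective (fun q => ⟨q.1, hS q.1 q.2⟩) ?_
    intro a b hab
    have h2 := congrArg Subtype.val hab
    exact Subtype.ext h2
  rw [Nat.card_eq_fintype_card, Fintype.card_coe] at h1
  exact_mod_cast h1

end

end Crest.Agent.R166.TreeLike942
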