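import Mathlib
import Crest.Agent.R166.EnvA_536
import Crest.Agent.R166.TreeLike3_942
import Crest.Agent.R166.SimpleP_356

/-!
Row 166 (helper536): tree-likeness.

* `nv_inj`: at a tree-like directed edge the covering map is injective on the ball;
* `few_bad`: with high probability all but `ε n` vertices are `R`-tree-like
  (942 + 356).
-/

set_option autoImplicit false

namespace Crest.Agent.R166.Env536

open Finset TreeLike942

section Walk

variable {n d : ℕ} [NeZero d]

/-- the walk from `h.1` to the node -/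
def wk (p : Equiv.Perm (HE n d)) (h : HE n d) (b : Bool) : List (Lt d) → List (HE n d)
  | [] => if b then [] else [h]
  | k :: l => wk p h b l ++ [hf p h b (k :: l)]

theorem wk_cons (p : Equiv.Perm (HE n d)) (h : HE n d) (b : Bool) (k : Lt d) (l : List (Lt d)) :
    wk p h b (k :: l) = wk p h b l ++ [hf p h b (k :: l)] := rfl

theorem wk_length (p : Equiv.Perm (HE n d)) (h : HE n d) (b : Bool) (l : List (Lt d)) :
    (wk p h b l).length = l.length + (if b then 0 else 1) := by
  induction l with
  | nil => cases b <;> simp [wk]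
  | cons k l ih => rw [wk_cons, List.length_append, ih]; simp; omega

theorem wk_isWalk {p : Equiv.Perm (HE n d)} (hp : IsPort p) (h : HE n d) (b : Bool)
    (l : List (Lt d)) : IsWalk Prod.fst p h.1 (wk p h b l) (nv p h (b, l)) := by
  induction l with
  | nil => cases b <;> simp [wk, IsWalk, nv, hp.inv]
  | cons k l ih =>
    rw [wk_cons, isWalk_append]
    refine ⟨_, ih, ?_⟩
    simp [IsWalk, nv, child]

theorem wk_last (p : Equiv.Perm (HE n d)) (h : HE n d) (b : Bool) (l : List (Lt d)) (x : HE n d)
    (hx : x ∈ (wk p h b l).getLast?) : x = hf p h b l := by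
  cases l with
  | nil =>
    cases b
    · simp [wk] at hx; simp [hx]
    · simp [wk] at hx
  | cons k l =>
    rw [wk_cons, List.getLast?_concat] at hx
    simpa using hx.symm

theorem child_ne (p : Equiv.Perm (HE n d)) (g : HE n d) (k : Lt d) : child p g k.1 ≠ p g := by
  unfold child
  rw [Ne, rot_eq_iff]
  exact k.2

theorem wk_reduced (p : Equiv.Perm (HE n d)) (h : HE n d) (b : Bool) (l : List (Lt d)) :
    Reduced p (wk p h b l) := by
  induction l with
  | nil => cases b <;> simp [wk, Reduced]
  | cons k l ih =>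
    unfold Reduced at ih ⊢
    rw [wk_cons, List.isChain_append]
    refine ⟨ih, List.isChain_singleton _, ?_⟩
    intro x hx y hy
    rw [wk_last p h b l x hx]
    simp only [List.head?_cons, Option.mem_def, Option.some.injEq] at hy
    rw [← hy]
    exact child_ne p _ k

theorem wk_inj {p : Equiv.Perm (HE n d)} (hp : IsPort p) (h : HE n d) :
    ∀ (l l' : List (Lt d)) (b b' : Bool), wk p h b l = wk p h b' l' → (b, l) = (b', l') := by
  have key : ∀ (k : Lt d) (l : List (Lt d)) (b b' : Bool),
      wk p h b (k :: l) = wk p h b' [] → False := by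
    intro k l b b' e
    have hl := congrArg List.length e
    rw [wk_length, wk_length] at hl
    cases b
    · cases b' <;> simp at hl
    · cases b'
      · simp at hl
        subst hl
        simp only [wk, hf_cons, hf_nil, if_true, List.nil_append] at e
        simp only [Bool.false_eq_true, if_false, List.cons.injEq, and_true] at e
        have h1 := child_ne p (p h) k
        rw [hp.inv] at h1
        exact h1 e
      · simp at hl
  intro l
  induction l with
  | nil =>
    intro l' b b' e
    cases l' with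
    | nil =>
      cases b <;> cases b' <;> simp [wk] at e ⊢
    | cons k' l' => exact (key k' l' b' b e.symm).elim
  | cons k l ih =>
    intro l' b b' e
    cases l' with
    | nil => exact (key k l b b' e).elim
    | cons k' l' =>
      rw [wk_cons, wk_cons] at e
      obtain ⟨e1, e2⟩ := List.append_inj' e rfl
      have e3 := ih l' b b' e1
      simp only [Prod.mk.injEq] at e3
      obtain ⟨rfl, rfl⟩ := e3
      simp only [hf_cons, List.cons.injEq, and_true] at e2
      unfold child rot at e2
      have e4 := (Prod.ext_iff.1 e2).2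
      simp only [add_right_inj] at e4
      rw [Subtype.ext e4]

/-- **the covering map is injective on balls around tree-like edges** -/
theorem nv_inj {p : Equiv.Perm (HE n d)} (hp : IsPort p) {h : HE n d} {R : ℕ}
    (ht : TreeAt Prod.fst p R h.1) {x y : Node d} (hx : x.2.length + 1 ≤ R)
    (hy : y.2.length + 1 ≤ R) (e : nv p h x = nv p h y) : x = y := by
  obtain ⟨b, l⟩ := x
  obtain ⟨b', l'⟩ := y
  apply wk_inj hp h l l' b b'
  apply ht _ _ _ (wk_isWalk hp h b l) (e ▸ wk_isWalk hp h b' l') (wk_reduced p h b l)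
    (wk_reduced p h b' l')
  · rw [wk_length]
    simp only at hx
    split_ifs <;> omega
  · rw [wk_length]
    simp only at hy
    split_ifs <;> omega

end Walk

/-- `n ^ C * exp (-c n log n) ≤ ε` eventually -/
theorem exp_small (C : ℕ) (c ε : ℝ) (hc : 0 < c) (hε : 0 < ε) :
    ∃ N : ℕ, ∀ n : ℕ, N ≤ n → (n : ℝ) ^ C * Real.exp (-c * n * Real.log n) ≤ ε := by
  refine ⟨⌈(C + 1) / c⌉₊ + ⌈1 / ε⌉₊ + 1, fun n hn => ?_⟩
  have hn1 : 1 ≤ n := by omega
  have hn0 : (0 : ℝ) < n := by exact_mod_cast hn1
  have h1' : ⌈((C : ℝ) + 1) / c⌉₊ ≤ n := by omega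
  have h2' : ⌈1 / ε⌉₊ ≤ n := by omega
  have h1 : ((C : ℝ) + 1) / c ≤ n := (Nat.le_ceil _).trans (Nat.cast_le.2 h1')
  have h2 : 1 / ε ≤ n := (Nat.le_ceil _).trans (Nat.cast_le.2 h2')
  rw [div_le_iff₀ hc] at h1
  rw [div_le_iff₀ hε] at h2
  have hlog : 0 ≤ Real.log n := Real.log_nonneg (by exact_mod_cast hn1)
  have e1 : (n : ℝ) ^ C = Real.exp (C * Real.log n) := by
    rw [mul_comm, Real.exp_mul, Real.exp_log hn0, Real.rpow_natCast]
  rw [e1, ← Real.exp_add]
  have h3 : (C : ℝ) * Real.log n + -c * n * Real.log n ≤ - Real.log n := by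
    nlinarith [mul_nonneg (sub_nonneg.2 h1) hlog]
  refine (Real.exp_le_exp.2 h3).trans ?_
  rw [Real.exp_neg, Real.exp_log hn0, inv_le_comm₀ hn0 hε, ← one_div, div_le_iff₀ hε]
  exact h2

/-- the number of the vertices which are not tree-like -/
noncomputable def nbad {n d : ℕ} (R : ℕ) (p : Equiv.Perm (HE n d)) : ℕ :=
  Nat.card {v : Fin n // ¬ TreeAt Prod.fst p R v}

open Classical in
/-- with high probability all but `ε n` vertices are tree-like -/
theorem few_bad (d : ℕ) (hd : 1 ≤ d) (R : ℕ) (ε : ℝ) (hε : 0 < ε) :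
    ∃ N : ℕ, ∀ n : ℕ, N ≤ n →
      (((Ports n d).filter fun p => ε * n ≤ (nbad R p : ℝ)).card : ℝ) ≤
          ε * ((Ports n d).card : ℝ) := by
  obtain ⟨c, hc, n0, h0⟩ := superexp_pairings d R ε hε
  obtain ⟨C, n1, h1⟩ := Simple356.exists_np_le_Ports d hd
  obtain ⟨n2, h2⟩ := exp_small C c ε hc hε
  refine ⟨n0 + n1 + n2, fun n hn => ?_⟩
  by_cases hev : Even (n * d)
  · have a0 := h0 n (by omega) ((Ports n d).filter fun p => ε * n ≤ (nbad R p : ℝ)) (by
      intro p hp
      rw [mem_filter, mem_Ports] at hp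
      exact ⟨hp.1.isPairing, hp.2⟩)
    have a1 := h1 n (by omega) hev
    have a2 := h2 n (by omega)
    have a3 : ((n * d - 1).doubleFactorial : ℝ) = (PairCount356.np (n * d) : ℝ) := by
      obtain ⟨m, hm⟩ := hev
      rw [hm, ← two_mul, PairCount356.np_even]
    have a4 : (PairCount356.np (n * d) : ℝ) ≤ (n : ℝ) ^ C * ((Ports n d).card : ℝ) := by
      exact_mod_cast a1
    rw [a3] at a0
    refine a0.trans ?_
    calc (PairCount356.np (n * d) : ℝ) * Real.exp (-c * n * Real.log n)
        ≤ ((n : ℝ) ^ C * ((Ports n d).card : ℝ)) * Real.exp (-c * n * Real.log n) :=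
          mul_le_mul_of_nonneg_right a4 (Real.exp_pos _).le
      _ = ((n : ℝ) ^ C * Real.exp (-c * n * Real.log n)) * ((Ports n d).card : ℝ) := by ring
      _ ≤ ε * ((Ports n d).card : ℝ) := mul_le_mul_of_nonneg_right a2 (Nat.cast_nonneg _)
  · have h3 : (Ports n d).card = 0 := by
      have h4 := Simple356.card_Ports_le_np n d
      obtain ⟨m, hm⟩ := Nat.not_even_iff_odd.1 hev
      rw [hm, PairCount356.np_odd] at h4
      omega
    have h5 : Ports n d = ∅ := card_eq_zero.1 h3
    rw [h5]
    simp

end Crest.Agent.R166.Env536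
private theorem rz_d8cecbba7c : type_of% @_root_.Crest.Agent.R166.Env536.wk.eq_def := @_root_.Crest.Agent.R166.Env536.wk.eq_def -- L25
private theorem rz_2a8a147195 : type_of% @_root_.Crest.Agent.R166.Env536.wk.eq_1 := @_root_.Crest.Agent.R166.Env536.wk.eq_1 -- L25
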