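import Mathlib
import Crest.Agent.R166.Defs_419

/-!
Row 166, section 40.2 (helper547): functions of a real symmetric matrix, the noise covariance
`g_η(H)` and its star-local inverse.
-/

set_option autoImplicit false

namespace Crest.Agent.R166.Noise547

open Matrix MeasureTheory

variable {V : Type*} [Fintype V] [DecidableEq V] {H : Matrix V V ℝ}

/-- eigenvectors as functions -/
noncomputable def ev (hH : H.IsHermitian) (i : V) (x : V) : ℝ := hH.eigenvectorBasis i x

/-- `f(H)` written through the spectral decomposition -/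
noncomputable def fM (hH : H.IsHermitian) (f : ℝ → ℝ) : Matrix V V ℝ :=
  fun x y => ∑ i, f (hH.eigenvalues i) * (ev hH i x * ev hH i y)

lemma fM_apply (hH : H.IsHermitian) (f : ℝ → ℝ) (x y : V) :
    fM hH f x y = ∑ i, f (hH.eigenvalues i) * (ev hH i x * ev hH i y) := rfl

lemma ev_orth (hH : H.IsHermitian) (i j : V) :
    ∑ x, ev hH i x * ev hH j x = if i = j then 1 else 0 := by
  have h := orthonormal_iff_ite.1 hH.eigenvectorBasis.orthonormal i j
  rw [← h, PiLp.inner_apply]
  refine Finset.sum_congr rfl fun x _ => ?_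
  simp [ev, mul_comm]

lemma ev_compl (hH : H.IsHermitian) (x y : V) :
    ∑ i, ev hH i x * ev hH i y = if x = y then 1 else 0 := by
  have h := Unitary.coe_mul_star_self hH.eigenvectorUnitary
  have h2 := congrFun (congrFun h x) y
  rw [Matrix.mul_apply, Matrix.one_apply] at h2
  rw [← h2]
  refine Finset.sum_congr rfl fun i _ => ?_
  simp [ev, Matrix.star_apply]

lemma fM_eq_conj (hH : H.IsHermitian) (f : ℝ → ℝ) :
    fM hH f = (hH.eigenvectorUnitary : Matrix V V ℝ) *
      Matrix.diagonal (fun i => f (hH.eigenvalues i)) *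
      (star (hH.eigenvectorUnitary : Matrix V V ℝ)) := by
  ext x y
  rw [Matrix.mul_apply]
  simp only [Matrix.mul_diagonal, fM_apply]
  refine Finset.sum_congr rfl fun i _ => ?_
  simp only [ev, Matrix.star_apply, IsHermitian.eigenvectorUnitary_apply, star_trivial]
  ring


lemma fM_one (hH : H.IsHermitian) : fM hH (fun _ => 1) = 1 := by
  ext x y
  simp only [fM_apply, one_mul]
  rw [ev_compl, Matrix.one_apply]

lemma fM_id (hH : H.IsHermitian) : fM hH (fun t => t) = H := by
  have h := hH.spectral_theorem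
  rw [Unitary.conjStarAlgAut_apply] at h
  rw [fM_eq_conj]
  conv_rhs => rw [h]
  rfl

lemma fM_mul (hH : H.IsHermitian) (f g : ℝ → ℝ) :
    fM hH f * fM hH g = fM hH (fun t => f t * g t) := by
  rw [fM_eq_conj, fM_eq_conj, fM_eq_conj]
  have h := Unitary.coe_star_mul_self hH.eigenvectorUnitary
  set U := (hH.eigenvectorUnitary : Matrix V V ℝ) with hU
  calc U * Matrix.diagonal (fun i => f (hH.eigenvalues i)) * star U *
        (U * Matrix.diagonal (fun i => g (hH.eigenvalues i)) * star U)
      = U * Matrix.diagonal (fun i => f (hH.eigenvalues i)) * (star U * U) *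
        Matrix.diagonal (fun i => g (hH.eigenvalues i)) * star U := by
        simp only [Matrix.mul_assoc]
    _ = _ := by
        rw [h, Matrix.mul_one, Matrix.mul_assoc U, Matrix.diagonal_mul_diagonal]

lemma fM_add (hH : H.IsHermitian) (f g : ℝ → ℝ) :
    fM hH f + fM hH g = fM hH (fun t => f t + g t) := by
  ext x y
  simp only [Matrix.add_apply, fM_apply, ← Finset.sum_add_distrib]
  exact Finset.sum_congr rfl fun i _ => by ring

lemma fM_sub (hH : H.IsHermitian) (f g : ℝ → ℝ) :
    fM hH f - fM hH g = fM hH (fun t => f t - g t) := by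
  ext x y
  simp only [Matrix.sub_apply, fM_apply, ← Finset.sum_sub_distrib]
  exact Finset.sum_congr rfl fun i _ => by ring

lemma fM_const_mul (hH : H.IsHermitian) (c : ℝ) (f : ℝ → ℝ) :
    fM hH (fun t => c * f t) = c • fM hH f := by
  ext x y
  simp only [Matrix.smul_apply, fM_apply, smul_eq_mul, Finset.mul_sum]
  exact Finset.sum_congr rfl fun i _ => by ring

lemma fM_congr (hH : H.IsHermitian) {f g : ℝ → ℝ}
    (h : ∀ i, f (hH.eigenvalues i) = g (hH.eigenvalues i)) : fM hH f = fM hH g := by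
  ext x y
  simp only [fM_apply, h]

lemma fM_pow (hH : H.IsHermitian) (k : ℕ) : fM hH (fun t => t ^ k) = H ^ k := by
  induction k with
  | zero => simpa using fM_one hH
  | succ k ih =>
    have h := fM_mul hH (fun t => t ^ k) (fun t => t)
    rw [fM_id, ih] at h
    rw [pow_succ, h]
    exact fM_congr hH fun i => pow_succ _ _

lemma fM_poly (hH : H.IsHermitian) (p : Polynomial ℝ) :
    fM hH (fun t => p.eval t) = Polynomial.aeval H p := by
  induction p using Polynomial.induction_on' with
  | add p q hp hq =>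
    simp only [Polynomial.eval_add, map_add, ← hp, ← hq, fM_add]
  | monomial k a =>
    simp only [Polynomial.eval_monomial, Polynomial.aeval_monomial]
    rw [fM_const_mul, fM_pow, Algebra.smul_def]

lemma fM_symm (hH : H.IsHermitian) (f : ℝ → ℝ) (x y : V) : fM hH f x y = fM hH f y x := by
  simp only [fM_apply]
  exact Finset.sum_congr rfl fun i _ => by ring



lemma ev_sq_sum_le (hH : H.IsHermitian) (x : V) : ∑ i, ev hH i x ^ 2 = 1 := by
  have := ev_compl hH x x
  simpa [sq] using this

lemma fM_abs_le (hH : H.IsHermitian) {f : ℝ → ℝ} {M : ℝ} 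
    (h : ∀ i, |f (hH.eigenvalues i)| ≤ M) (x y : V) : |fM hH f x y| ≤ M := by
  have hV : Nonempty V := ⟨x⟩
  have hM : 0 ≤ M := (abs_nonneg _).trans (h (Classical.arbitrary V))
  calc |fM hH f x y| ≤ ∑ i, |f (hH.eigenvalues i) * (ev hH i x * ev hH i y)| :=
        Finset.abs_sum_le_sum_abs _ _
    _ ≤ ∑ i, M * ((ev hH i x ^ 2 + ev hH i y ^ 2) / 2) := by
        refine Finset.sum_le_sum fun i _ => ?_
        rw [abs_mul]
        refine mul_le_mul (h i) ?_ (abs_nonneg _) hM
        rw [abs_mul]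
        nlinarith [sq_nonneg (|ev hH i x| - |ev hH i y|), sq_abs (ev hH i x), sq_abs (ev hH i y)]
    _ = M := by
        rw [← Finset.mul_sum, ← Finset.sum_div, Finset.sum_add_distrib, ev_sq_sum_le,
          ev_sq_sum_le]
        ring

lemma fM_sub_abs_le (hH : H.IsHermitian) {f g : ℝ → ℝ} {M : ℝ} 
    (h : ∀ i, |f (hH.eigenvalues i) - g (hH.eigenvalues i)| ≤ M) (x y : V) :
    |fM hH f x y - fM hH g x y| ≤ M := by
  have := fM_abs_le hH (f := fun t => f t - g t) h x y
  rwa [← fM_sub, Matrix.sub_apply] at this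

lemma fM_trace (hH : H.IsHermitian) (f : ℝ → ℝ) :
    (fM hH f).trace = ∑ i, f (hH.eigenvalues i) := by
  simp only [Matrix.trace, Matrix.diag_apply, fM_apply]
  rw [Finset.sum_comm]
  refine Finset.sum_congr rfl fun i _ => ?_
  rw [← Finset.mul_sum, ev_orth]
  simp

lemma fM_sq_sum (hH : H.IsHermitian) (f : ℝ → ℝ) :
    ∑ x, ∑ y, fM hH f x y ^ 2 = ∑ i, f (hH.eigenvalues i) ^ 2 := by
  have h := fM_trace hH (fun t => f t * f t)
  rw [← fM_mul, Matrix.trace] at h
  simp only [Matrix.diag_apply, Matrix.mul_apply] at h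
  simp only [sq]
  rw [← h]
  refine Finset.sum_congr rfl fun x _ => Finset.sum_congr rfl fun y _ => ?_
  rw [fM_symm hH f y x]

/-- the quadratic form of `f(H)` -/
lemma fM_quad (hH : H.IsHermitian) (f : ℝ → ℝ) (z : V → ℝ) :
    ∑ x, ∑ y, z x * fM hH f x y * z y =
      ∑ i, f (hH.eigenvalues i) * (∑ x, ev hH i x * z x) ^ 2 := by
  simp only [fM_apply, Finset.mul_sum, Finset.sum_mul, sq]
  calc ∑ x, ∑ y, ∑ i, z x * (f (hH.eigenvalues i) * (ev hH i x * ev hH i y)) * z y
      = ∑ x, ∑ i, ∑ y, z x * (f (hH.eigenvalues i) * (ev hH i x * ev hH i y)) * z y :=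
        Finset.sum_congr rfl fun x _ => Finset.sum_comm
    _ = ∑ i, ∑ x, ∑ y, z x * (f (hH.eigenvalues i) * (ev hH i x * ev hH i y)) * z y :=
        Finset.sum_comm
    _ = _ := by
        refine Finset.sum_congr rfl fun i _ => ?_
        refine Finset.sum_congr rfl fun x _ => Finset.sum_congr rfl fun y _ => by ring

lemma fM_det (hH : H.IsHermitian) (f : ℝ → ℝ) :
    (fM hH f).det = ∏ i, f (hH.eigenvalues i) := by
  have h : (hH.eigenvectorUnitary : Matrix V V ℝ) *
      star (hH.eigenvectorUnitary : Matrix V V ℝ) = 1 :=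
    Unitary.coe_mul_star_self hH.eigenvectorUnitary
  rw [fM_eq_conj, Matrix.det_mul_right_comm, h, Matrix.one_mul, Matrix.det_diagonal]



/-- Gershgorin-type bound of the eigenvalues. -/
lemma eig_abs_le (hH : H.IsHermitian) {L : ℝ} (h : ∀ x, ∑ y, |H x y| ≤ L) (i : V) :
    |hH.eigenvalues i| ≤ L := by
  have hV : Nonempty V := ⟨i⟩
  obtain ⟨x, -, hx⟩ := Finset.exists_max_image Finset.univ (fun x => |ev hH i x|)
    Finset.univ_nonempty
  have hpos : 0 < |ev hH i x| := by
    by_contra hc
    have hz : ∀ y, ev hH i y = 0 := by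
      intro y
      have h1 := hx y (Finset.mem_univ y)
      have h2 : |ev hH i y| = 0 := le_antisymm (h1.trans (not_lt.1 hc)) (abs_nonneg _)
      exact abs_eq_zero.1 h2
    have h3 := ev_orth hH i i
    simp [hz] at h3
  have hmul : hH.eigenvalues i * ev hH i x = ∑ y, H x y * ev hH i y := by
    have := congrFun (hH.mulVec_eigenvectorBasis i) x
    simp only [Matrix.mulVec, dotProduct, Pi.smul_apply, smul_eq_mul] at this
    exact this.symm
  have h4 : |hH.eigenvalues i| * |ev hH i x| ≤ L * |ev hH i x| := by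
    rw [← abs_mul, hmul]
    calc |∑ y, H x y * ev hH i y| ≤ ∑ y, |H x y * ev hH i y| := Finset.abs_sum_le_sum_abs _ _
      _ ≤ ∑ y, |H x y| * |ev hH i x| := by
          refine Finset.sum_le_sum fun y _ => ?_
          rw [abs_mul]
          exact mul_le_mul_of_nonneg_left (hx y (Finset.mem_univ y)) (abs_nonneg _)
      _ = (∑ y, |H x y|) * |ev hH i x| := by rw [Finset.sum_mul]
      _ ≤ L * |ev hH i x| := mul_le_mul_of_nonneg_right (h x) (abs_nonneg _)
  exact le_of_mul_le_mul_right h4 hpos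

/-! ### the noise function `g_η` -/

/-- `c η / ((x - E)² + η²)` -/
noncomputable def geta (E η c : ℝ) (x : ℝ) : ℝ := c * η / ((x - E) ^ 2 + η ^ 2)

lemma geta_den_pos {E η : ℝ} (hη : 0 < η) (x : ℝ) : 0 < (x - E) ^ 2 + η ^ 2 := by positivity

lemma geta_pos {E η c : ℝ} (hη : 0 < η) (hc : 0 < c) (x : ℝ) : 0 < geta E η c x := by
  unfold geta
  positivity

lemma geta_le {E η c : ℝ} (hη : 0 < η) (hc : 0 < c) (x : ℝ) : geta E η c x ≤ c / η := by
  unfold geta
  rw [div_le_div_iff₀ (geta_den_pos hη x) hη]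
  nlinarith [mul_nonneg hc.le (sq_nonneg (x - E))]

lemma geta_ge {E η c L : ℝ} (hη : 0 < η) (hc : 0 < c) {x : ℝ} (hx : |x| ≤ L) :
    c * η / ((L + |E|) ^ 2 + η ^ 2) ≤ geta E η c x := by
  unfold geta
  have hL : 0 ≤ L := (abs_nonneg _).trans hx
  refine div_le_div_of_nonneg_left (by positivity) (geta_den_pos hη x) ?_
  have h1 : |x - E| ≤ L + |E| := (abs_sub _ _).trans (by linarith)
  have h2 : (x - E) ^ 2 ≤ (L + |E|) ^ 2 := by
    rw [← sq_abs (x - E)]
    exact pow_le_pow_left₀ (abs_nonneg _) h1 2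
  linarith

lemma continuous_geta {E η c : ℝ} (hη : 0 < η) : Continuous (geta E η c) := by
  unfold geta
  exact continuous_const.div (by fun_prop) fun x => (geta_den_pos hη x).ne'

/-- resolvent entries in the eigenbasis -/
lemma res_apply (hH : H.IsHermitian) {z : ℂ} (hz : z.im ≠ 0) (x y : V) :
    Res H z x y = ∑ i, ((hH.eigenvalues i : ℂ) - z)⁻¹ * ((ev hH i x : ℂ) * (ev hH i y : ℂ)) := by
  have hne : ∀ i, (hH.eigenvalues i : ℂ) - z ≠ 0 := by
    intro i h
    have := congrArg Complex.im h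
    simp at this
    exact hz this
  set N : Matrix V V ℂ := fun x y =>
    ∑ i, ((hH.eigenvalues i : ℂ) - z)⁻¹ * ((ev hH i x : ℂ) * (ev hH i y : ℂ)) with hN
  have key : (H.map (fun x : ℝ => (x : ℂ)) - z • (1 : Matrix V V ℂ)) * N = 1 := by
    ext x y
    rw [Matrix.mul_apply]
    have e1 : ∀ w, (H.map (fun x : ℝ => (x : ℂ)) - z • (1 : Matrix V V ℂ)) x w =
        ∑ i, ((hH.eigenvalues i : ℂ) - z) * ((ev hH i x : ℂ) * (ev hH i w : ℂ)) := by
      intro w
      have h1 : H x w = ∑ i, hH.eigenvalues i * (ev hH i x * ev hH i w) := by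
        have := congrFun (congrFun (fM_id hH) x) w
        rw [fM_apply] at this
        exact this.symm
      have h2 := ev_compl hH x w
      simp only [Matrix.sub_apply, Matrix.map_apply, Matrix.smul_apply, smul_eq_mul,
        Matrix.one_apply]
      rw [h1]
      have h3 : (if x = w then (1 : ℂ) else 0) = ∑ i, ((ev hH i x : ℂ) * (ev hH i w : ℂ)) := by
        have := congrArg (fun t : ℝ => (t : ℂ)) h2
        simp only [Complex.ofReal_sum, Complex.ofReal_mul] at this
        rw [this]
        split_ifs <;> simp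
      rw [h3, Complex.ofReal_sum, Finset.mul_sum, ← Finset.sum_sub_distrib]
      refine Finset.sum_congr rfl fun i _ => ?_
      push_cast
      ring
    simp only [e1, hN, Finset.sum_mul, Finset.mul_sum]
    calc ∑ w, ∑ j, ∑ i, ((hH.eigenvalues i : ℂ) - z) * ((ev hH i x : ℂ) * (ev hH i w : ℂ)) *
          (((hH.eigenvalues j : ℂ) - z)⁻¹ * ((ev hH j w : ℂ) * (ev hH j y : ℂ)))
        = ∑ j, ∑ i, ((hH.eigenvalues i : ℂ) - z) * ((hH.eigenvalues j : ℂ) - z)⁻¹ *
            ((ev hH i x : ℂ) * (ev hH j y : ℂ)) * ∑ w, (ev hH i w : ℂ) * (ev hH j w : ℂ) := by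
          rw [Finset.sum_comm]
          refine Finset.sum_congr rfl fun j _ => ?_
          rw [Finset.sum_comm]
          refine Finset.sum_congr rfl fun i _ => ?_
          rw [Finset.mul_sum]
          refine Finset.sum_congr rfl fun w _ => ?_
          ring
      _ = ∑ j, ((ev hH j x : ℂ) * (ev hH j y : ℂ)) := by
          refine Finset.sum_congr rfl fun j _ => ?_
          have h4 : ∀ i, ∑ w, (ev hH i w : ℂ) * (ev hH j w : ℂ) = if i = j then 1 else 0 := by
            intro i
            have := congrArg (fun t : ℝ => (t : ℂ)) (ev_orth hH i j)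
            simp only [Complex.ofReal_sum, Complex.ofReal_mul] at this
            rw [this]
            split_ifs <;> simp
          simp only [h4, mul_ite, mul_one, mul_zero, Finset.sum_ite_eq', Finset.mem_univ, if_true]
          rw [mul_inv_cancel₀ (hne j), one_mul]
      _ = (1 : Matrix V V ℂ) x y := by
          have := congrArg (fun t : ℝ => (t : ℂ)) (ev_compl hH x y)
          simp only [Complex.ofReal_sum, Complex.ofReal_mul] at this
          rw [this, Matrix.one_apply]
          split_ifs <;> simp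
  have := Matrix.inv_eq_right_inv key
  unfold Res
  rw [this]

lemma im_inv_sub (l E η : ℝ) : (((l : ℂ) - ze E η)⁻¹).im = η / ((l - E) ^ 2 + η ^ 2) := by
  rw [Complex.inv_im, Complex.normSq_apply]
  simp [ze]
  ring_nf

/-- `g_η(H) = c Im R(E + iη)` entrywise -/
lemma geta_eq_res (hH : H.IsHermitian) {E η : ℝ} (c : ℝ) (hη : 0 < η) (x y : V) :
    fM hH (geta E η c) x y = c * (Res H (ze E η) x y).im := by
  have hz : (ze E η).im ≠ 0 := by simp [ze]; exact hη.ne'
  rw [res_apply hH hz, Complex.im_sum, Finset.mul_sum, fM_apply]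
  refine Finset.sum_congr rfl fun i _ => ?_
  rw [← Complex.ofReal_mul, Complex.im_mul_ofReal, im_inv_sub]
  unfold geta
  ring

lemma parseval (hH : H.IsHermitian) (z : V → ℝ) :
    ∑ v, z v ^ 2 = ∑ i, (∑ x, ev hH i x * z x) ^ 2 := by
  have h := fM_quad hH (fun _ => 1) z
  rw [fM_one] at h
  simp only [Matrix.one_apply, one_mul] at h
  rw [← h]
  refine Finset.sum_congr rfl fun v _ => ?_
  simp [sq]

lemma mul_ev (hH : H.IsHermitian) (i x : V) :
    ∑ y, H x y * ev hH i y = hH.eigenvalues i * ev hH i x := by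
  have := congrFun (hH.mulVec_eigenvectorBasis i) x
  simp only [Matrix.mulVec, dotProduct, Pi.smul_apply, smul_eq_mul] at this
  exact this

lemma symm_of (hH : H.IsHermitian) (v w : V) : H v w = H w v := by
  have := congrFun (congrFun hH v) w
  simpa [Matrix.conjTranspose_apply] using this.symm

lemma ev_inner_mul (hH : H.IsHermitian) (E : ℝ) (z : V → ℝ) (i : V) :
    ∑ v, ev hH i v * ((∑ w, H v w * z w) - E * z v) =
      (hH.eigenvalues i - E) * ∑ v, ev hH i v * z v := by
  have h1 : ∑ v, ev hH i v * (∑ w, H v w * z w) = hH.eigenvalues i * ∑ v, ev hH i v * z v := by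
    simp only [Finset.mul_sum]
    rw [Finset.sum_comm]
    refine Finset.sum_congr rfl fun w _ => ?_
    have h2 := mul_ev hH i w
    calc ∑ v, ev hH i v * (H v w * z w) = (∑ v, H w v * ev hH i v) * z w := by
          rw [Finset.sum_mul]
          refine Finset.sum_congr rfl fun v _ => ?_
          rw [symm_of hH v w]
          ring
      _ = _ := by rw [h2]; ring
  simp only [mul_sub, Finset.sum_sub_distrib, h1, sub_mul]
  congr 1
  rw [Finset.mul_sum]
  exact Finset.sum_congr rfl fun v _ => by ring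

/-- the inverse of `g_η(H)` is star-local:
`zᵀ g_η(H)⁻¹ z = (c η)⁻¹ ∑_v [((H - E) z)_v² + η² z_v²]`. -/
lemma geta_inv_quad (hH : H.IsHermitian) {E η c : ℝ} (hη : 0 < η) (hc : 0 < c) (z : V → ℝ) :
    ∑ x, ∑ y, z x * fM hH (fun t => (geta E η c t)⁻¹) x y * z y =
      (c * η)⁻¹ * ∑ v, (((∑ w, H v w * z w) - E * z v) ^ 2 + η ^ 2 * z v ^ 2) := by
  rw [fM_quad, Finset.sum_add_distrib, ← Finset.mul_sum, parseval hH z,
    parseval hH (fun v => (∑ w, H v w * z w) - E * z v)]
  simp only [ev_inner_mul]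
  rw [Finset.mul_sum, ← Finset.sum_add_distrib, Finset.mul_sum]
  refine Finset.sum_congr rfl fun i _ => ?_
  unfold geta
  rw [inv_div]
  have : c * η ≠ 0 := (mul_pos hc hη).ne'
  field_simp
  try ring


/-- the normalised log-determinant is a trace of a polynomial up to the uniform error. -/
lemma logdet_poly (hH : H.IsHermitian) [Nonempty V] {f : ℝ → ℝ} (p : Polynomial ℝ) {ε : ℝ}
    (h : ∀ i, |f (hH.eigenvalues i) - p.eval (hH.eigenvalues i)| ≤ ε) :
    |(∑ i, f (hH.eigenvalues i)) / (Fintype.card V : ℝ) -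
      (Polynomial.aeval H p).trace / (Fintype.card V : ℝ)| ≤ ε := by
  have hc : (0 : ℝ) < Fintype.card V := by exact_mod_cast Fintype.card_pos
  rw [← fM_poly hH, fM_trace, ← sub_div, ← Finset.sum_sub_distrib, abs_div, abs_of_pos hc,
    div_le_iff₀ hc]
  calc |∑ i, (f (hH.eigenvalues i) - p.eval (hH.eigenvalues i))|
      ≤ ∑ i, |f (hH.eigenvalues i) - p.eval (hH.eigenvalues i)| :=
        Finset.abs_sum_le_sum_abs _ _
    _ ≤ ∑ _i : V, ε := Finset.sum_le_sum fun i _ => h i
    _ = ε * Fintype.card V := by rw [Finset.sum_const, Finset.card_univ, nsmul_eq_mul]; ring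

/-- Weierstrass: polynomial approximation on `[-L, L]`. -/
lemma exists_poly {f : ℝ → ℝ} (hf : Continuous f) (L : ℝ) {ε : ℝ} (hε : 0 < ε) :
    ∃ p : Polynomial ℝ, ∀ x, |x| ≤ L → |f x - p.eval x| ≤ ε := by
  obtain ⟨p, hp⟩ := exists_polynomial_near_of_continuousOn (-L) L f hf.continuousOn ε hε
  refine ⟨p, fun x hx => ?_⟩
  have := hp x (abs_le.1 hx)
  rw [abs_sub_comm]
  exact this.le

end Crest.Agent.R166.Noise547
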