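import Mathlib
import Crest.Agent.R166.EnvB_536
import Crest.Agent.R166.EnvC_536
import Crest.Agent.R166.Noise_547
import Crest.Agent.R166.Spine_419

-- ▼ part R166/EnvD_536
section

/-!
Row 166 (helper536): tools for `EnvDet`: uniform continuity, polynomial approximation of the
resolvent, `Whp` bookkeeping, one constant for all `ε`.
-/

set_option autoImplicit false

namespace Crest.Agent.R166.Env536

open MeasureTheory ProbabilityTheory Finset Crest.ProbabilityR.RandomMatrix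

/-! ### test functions -/

theorem uc_entries {χ : Matrix (Fin 2) (Fin 2) ℂ → ℝ} (hc : Continuous χ)
    (hs : HasCompactSupport χ) {ε : ℝ} (hε : 0 < ε) :
    ∃ δ : ℝ, 0 < δ ∧ ∀ A B : Matrix (Fin 2) (Fin 2) ℂ, (∀ i j, ‖A i j - B i j‖ < δ) →
      |χ A - χ B| < ε := by
  have h1 : UniformContinuous (fun f : Fin 2 → Fin 2 → ℂ => χ f) :=
    HasCompactSupport.uniformContinuous_of_continuous (f := fun f : Fin 2 → Fin 2 → ℂ => χ f) hs hc
  rw [Metric.uniformContinuous_iff] at h1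
  obtain ⟨δ, hδ, h2⟩ := h1 ε hε
  refine ⟨δ, hδ, fun A B hAB => ?_⟩
  have h3 := h2 (a := (A : Fin 2 → Fin 2 → ℂ)) (b := (B : Fin 2 → Fin 2 → ℂ)) (by
    rw [dist_pi_lt_iff hδ]
    intro i
    rw [dist_pi_lt_iff hδ]
    intro j
    rw [dist_eq_norm]
    exact hAB i j)
  rwa [Real.dist_eq] at h3

theorem chi_bdd {χ : Matrix (Fin 2) (Fin 2) ℂ → ℝ} (hc : Continuous χ)
    (hs : HasCompactSupport χ) : ∃ M : ℝ, 0 < M ∧ ∀ A, |χ A| ≤ M := by
  obtain ⟨M, hM⟩ := hs.exists_bound_of_continuous hc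
  refine ⟨|M| + 1, by positivity, fun A => (hM A).trans ?_⟩
  linarith [le_abs_self M]

/-! ### the resolvent as a polynomial -/

theorem res_eq_fM {V : Type*} [Fintype V] [DecidableEq V] {H : Matrix V V ℝ}
    (hH : H.IsHermitian) {z : ℂ} (hz : z.im ≠ 0) (x y : V) :
    Res H z x y = (Noise547.fM hH (fun t => (((t : ℂ) - z)⁻¹).re) x y : ℂ) +
      Complex.I * (Noise547.fM hH (fun t => (((t : ℂ) - z)⁻¹).im) x y : ℂ) := by
  rw [Noise547.res_apply hH hz, Noise547.fM_apply, Noise547.fM_apply, Complex.ofReal_sum,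
    Complex.ofReal_sum, Finset.mul_sum, ← Finset.sum_add_distrib]
  refine sum_congr rfl fun i _ => ?_
  push_cast
  conv_lhs => rw [← Complex.re_add_im (((Noise547.ev hH i x : ℂ) * (Noise547.ev hH i y : ℂ)))]
  have h1 : (((hH.eigenvalues i : ℂ) - z)⁻¹) =
      ((((hH.eigenvalues i : ℂ) - z)⁻¹).re : ℂ) +
        ((((hH.eigenvalues i : ℂ) - z)⁻¹).im : ℂ) * Complex.I := (Complex.re_add_im _).symm
  rw [Complex.re_add_im]
  conv_lhs => rw [h1]
  ring

theorem res_poly (E η L δ : ℝ) (hη : 0 < η) (hδ : 0 < δ) :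
    ∃ P Q : Polynomial ℝ, ∀ (n : ℕ) (H : Matrix (Fin n) (Fin n) ℝ), H.IsHermitian →
      (∀ x, ∑ y, |H x y| ≤ L) → ∀ x y, ‖Res H (ze E η) x y -
        ((Polynomial.aeval H P x y : ℂ) + Complex.I * (Polynomial.aeval H Q x y : ℂ))‖ ≤ δ := by
  have hz : (ze E η).im ≠ 0 := by simp [ze]; exact hη.ne'
  have hne : ∀ t : ℝ, (t : ℂ) - ze E η ≠ 0 := by
    intro t h
    have := congrArg Complex.im h
    simp only [Complex.sub_im, Complex.ofReal_im, zero_sub, Complex.zero_im, neg_eq_zero] at this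
    exact hz this
  have hcont : Continuous fun t : ℝ => ((t : ℂ) - ze E η)⁻¹ :=
    (Complex.continuous_ofReal.sub continuous_const).inv₀ hne
  obtain ⟨P, hP⟩ := Noise547.exists_poly (Complex.continuous_re.comp hcont) L (half_pos hδ)
  obtain ⟨Q, hQ⟩ := Noise547.exists_poly (Complex.continuous_im.comp hcont) L (half_pos hδ)
  refine ⟨P, Q, fun n H hH hL x y => ?_⟩
  have hL' := fun i => Noise547.eig_abs_le hH hL i
  rw [res_eq_fM hH hz, ← Noise547.fM_poly hH, ← Noise547.fM_poly hH]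
  have h1 := Noise547.fM_sub_abs_le hH (f := fun t => (((t : ℂ) - ze E η)⁻¹).re)
    (g := fun t => P.eval t) (fun i => hP _ (hL' i)) x y
  have h2 := Noise547.fM_sub_abs_le hH (f := fun t => (((t : ℂ) - ze E η)⁻¹).im)
    (g := fun t => Q.eval t) (fun i => hQ _ (hL' i)) x y
  have h3 : ∀ a b c e : ℝ, |a - c| ≤ δ / 2 → |b - e| ≤ δ / 2 →
      ‖((a : ℂ) + Complex.I * (b : ℂ)) - ((c : ℂ) + Complex.I * (e : ℂ))‖ ≤ δ := by
    intro a b c e h1 h2
    have e1 : ((a : ℂ) + Complex.I * (b : ℂ)) - ((c : ℂ) + Complex.I * (e : ℂ)) =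
        ((a - c : ℝ) : ℂ) + Complex.I * ((b - e : ℝ) : ℂ) := by push_cast; ring
    rw [e1]
    refine (norm_add_le _ _).trans ?_
    rw [norm_mul, Complex.norm_I, one_mul, Complex.norm_real, Complex.norm_real,
      Real.norm_eq_abs, Real.norm_eq_abs]
    linarith
  exact h3 _ _ _ _ h1 h2

theorem Hm_herm {n : ℕ} (G : SimpleGraph (Fin n)) (s : ℝ) (ω : Fin n → ℝ) :
    (Hm G s ω).IsHermitian := by
  classical
  unfold Hm
  refine Matrix.IsHermitian.add ?_ ?_
  · rw [Matrix.IsHermitian, Matrix.conjTranspose_eq_transpose_of_trivial]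
    exact SimpleGraph.transpose_adjMatrix G
  · rw [Matrix.IsHermitian, Matrix.conjTranspose_eq_transpose_of_trivial, Matrix.transpose_smul,
      Matrix.diagonal_transpose]

theorem Hm_rowsum {n d : ℕ} {p : Equiv.Perm (HE n d)} (hp : IsPort p) (s : ℝ)
    {ω : Fin n → ℝ} (hω : ∀ i, |ω i| ≤ 1) (x : Fin n) :
    ∑ y, |Hm (graphOf p) s ω x y| ≤ d + |s| := by
  classical
  have h1 : ∀ y, |Hm (graphOf p) s ω x y| ≤
      (if (graphOf p).Adj x y then (1 : ℝ) else 0) + (if x = y then |s| else 0) := by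
    intro y
    unfold Hm
    rw [Matrix.add_apply, Matrix.smul_apply, SimpleGraph.adjMatrix_apply, smul_eq_mul]
    refine (abs_add_le _ _).trans (add_le_add ?_ ?_)
    · split_ifs <;> simp
    · by_cases hxy : x = y
      · subst hxy
        rw [Matrix.diagonal_apply_eq, if_pos rfl, abs_mul]
        exact mul_le_of_le_one_right (abs_nonneg _) (hω x)
      · rw [Matrix.diagonal_apply_ne _ hxy, if_neg hxy]
        simp
  refine (sum_le_sum fun y _ => h1 y).trans ?_
  rw [sum_add_distrib, sum_ite_eq]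
  have h2 := sum_adj hp x (fun _ => (1 : ℝ))
  rw [h2]
  simp

/-! ### `Whp` tools -/

section W

variable {n d : ℕ}

/-- if the potential event is likely for all port graphs outside a small bad set -/
theorem whp_of_ports {ε1 ε2 : ℝ} (h1 : 0 ≤ ε1) (h2 : 0 ≤ ε2)
    (Q : SimpleGraph (Fin n) → (Fin n → ℝ) → Prop) (Bad : Finset (Equiv.Perm (HE n d)))
    (hBad : Bad ⊆ Ports n d) (hcard : (Bad.card : ℝ) ≤ ε1 * ((Ports n d).card : ℝ))
    (hgood : ∀ p ∈ Ports n d, p ∉ Bad →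
      (potentialLaw n) {ω | ¬ Q (graphOf p) ω} ≤ ENNReal.ofReal ε2) :
    Whp n d (ε1 + ε2) Q := by
  classical
  rw [Whp_iff, ← sum_sdiff hBad]
  rcases Nat.eq_zero_or_pos (Ports n d).card with h0 | h0
  · have e1 : Ports n d = ∅ := card_eq_zero.1 h0
    have e2 : Bad = ∅ := by rw [← subset_empty, ← e1]; exact hBad
    rw [e1, e2]
    simp
  have hne : ((Ports n d).card : ENNReal) ≠ 0 := by exact_mod_cast h0.ne'
  have htop : ((Ports n d).card : ENNReal) ≠ ⊤ := ENNReal.natCast_ne_top _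
  have a1 : ∑ p ∈ Ports n d \ Bad, (potentialLaw n) {ω | ¬ Q (graphOf p) ω} ≤
      ((Ports n d).card : ENNReal) * ENNReal.ofReal ε2 := by
    refine (sum_le_card_nsmul _ _ (ENNReal.ofReal ε2) fun p hp => ?_).trans ?_
    · rw [mem_sdiff] at hp
      exact hgood p hp.1 hp.2
    · rw [nsmul_eq_mul]
      refine mul_le_mul_left ?_ _
      exact_mod_cast card_le_card sdiff_subset
  have a2 : ∑ p ∈ Bad, (potentialLaw n) {ω | ¬ Q (graphOf p) ω} ≤
      ((Ports n d).card : ENNReal) * ENNReal.ofReal ε1 := by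
    refine (sum_le_card_nsmul _ _ 1 fun p hp => prob_le_one).trans ?_
    rw [nsmul_eq_mul, mul_one]
    have e1 : ((Ports n d).card : ENNReal) = ENNReal.ofReal ((Ports n d).card : ℝ) := by simp
    have e2 : (Bad.card : ENNReal) = ENNReal.ofReal (Bad.card : ℝ) := by simp
    rw [e1, e2, ← ENNReal.ofReal_mul (Nat.cast_nonneg _)]
    exact ENNReal.ofReal_le_ofReal (by linarith)
  calc ((Ports n d).card : ENNReal)⁻¹ * (∑ p ∈ Ports n d \ Bad,
        (potentialLaw n) {ω | ¬ Q (graphOf p) ω} +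
        ∑ p ∈ Bad, (potentialLaw n) {ω | ¬ Q (graphOf p) ω})
      ≤ ((Ports n d).card : ENNReal)⁻¹ * (((Ports n d).card : ENNReal) * ENNReal.ofReal ε2 +
        ((Ports n d).card : ENNReal) * ENNReal.ofReal ε1) := by
        gcongr
    _ = ENNReal.ofReal (ε1 + ε2) := by
        rw [← mul_add, ← mul_assoc, ENNReal.inv_mul_cancel hne htop, one_mul,
          ← ENNReal.ofReal_add h2 h1, add_comm]

theorem law_univ (hne : (regularGraphs n d).Nonempty) : (law n d) Set.univ = 1 := by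
  have h0 : (Ports n d).card ≠ 0 := by
    have := card_pos.2 (Ports_nonempty_iff.2 hne)
    omega
  rw [law_apply]
  simp only [Set.mem_univ, Set.ofPred_true, measure_univ, sum_const, nsmul_eq_mul, mul_one]
  exact ENNReal.inv_mul_cancel (by exact_mod_cast h0) (ENNReal.natCast_ne_top _)

theorem whp_mono {ε ε' : ℝ} {P P' : SimpleGraph (Fin n) → (Fin n → ℝ) → Prop}
    (h : Whp n d ε P) (hε : ε ≤ ε') (hP : ∀ G ω, P G ω → P' G ω) : Whp n d ε' P' := by
  unfold Whp at h ⊢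
  refine (measure_mono ?_).trans (h.trans (ENNReal.ofReal_le_ofReal hε))
  intro x hx hx'
  exact hx (hP _ _ hx')

/-- two likely events intersect -/
theorem whp_inter (hne : (regularGraphs n d).Nonempty) {ε1 ε2 : ℝ} (h1 : 0 ≤ ε1) (h2 : 0 ≤ ε2)
    (h12 : ε1 + ε2 < 1) {P1 P2 : SimpleGraph (Fin n) → (Fin n → ℝ) → Prop}
    (hP1 : Whp n d ε1 P1) (hP2 : Whp n d ε2 P2) : ∃ G ω, P1 G ω ∧ P2 G ω := by
  by_contra hcon
  push Not at hcon
  have h3 : (Set.univ : Set (SimpleGraph (Fin n) × (Fin n → ℝ))) ⊆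
      {x | ¬ P1 x.1 x.2} ∪ {x | ¬ P2 x.1 x.2} := by
    intro x _
    by_cases hx : P1 x.1 x.2
    · exact Or.inr (hcon _ _ hx)
    · exact Or.inl hx
  have h4 := (measure_mono h3).trans (measure_union_le (μ := law n d) _ _)
  rw [law_univ hne] at h4
  have h5 := h4.trans (add_le_add hP1 hP2)
  rw [← ENNReal.ofReal_add h1 h2] at h5
  have h6 : ENNReal.ofReal (ε1 + ε2) < 1 := by
    rw [ENNReal.ofReal_lt_one]
    exact h12
  exact absurd h5 (not_le.2 h6)

end W

/-- one constant for all `ε` -/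
theorem exists_const (d : ℕ) (X : ∀ n : ℕ, SimpleGraph (Fin n) → (Fin n → ℝ) → ℝ)
    (h : ∀ ε : ℝ, 0 < ε → ∃ c : ℝ, ∃ N : ℕ, ∀ n : ℕ, N ≤ n → (regularGraphs n d).Nonempty →
      Whp n d ε fun G ω => |X n G ω - c| ≤ ε) :
    ∃ c : ℝ, ∀ ε : ℝ, 0 < ε → ∃ N : ℕ, ∀ n : ℕ, N ≤ n → (regularGraphs n d).Nonempty →
      Whp n d ε fun G ω => |X n G ω - c| ≤ ε := by
  by_cases hinf : ∃ N : ℕ, ∀ n : ℕ, N ≤ n → ¬ (regularGraphs n d).Nonempty
  · obtain ⟨N, hN⟩ := hinf
    exact ⟨0, fun ε _ => ⟨N, fun n hn hne => absurd hne (hN n hn)⟩⟩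
  push Not at hinf
  have hpos : ∀ k : ℕ, (0 : ℝ) < 1 / (k + 3) := fun k => by positivity
  choose c N hcN using fun k : ℕ => h (1 / (k + 3)) (hpos k)
  have hclose : ∀ k l : ℕ, |c k - c l| ≤ 1 / ((k : ℝ) + 3) + 1 / ((l : ℝ) + 3) := by
    intro k l
    obtain ⟨n, hn, hne⟩ := hinf (max (N k) (N l))
    have h1 := hcN k n ((le_max_left _ _).trans hn) hne
    have h2 := hcN l n ((le_max_right _ _).trans hn) hne
    have hlt : (1 : ℝ) / (k + 3) + 1 / (l + 3) < 1 := by
      have a1 : (1 : ℝ) / (k + 3) ≤ 1 / 3 :=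
        one_div_le_one_div_of_le (by norm_num) (by linarith [Nat.cast_nonneg (α := ℝ) k])
      have a2 : (1 : ℝ) / (l + 3) ≤ 1 / 3 :=
        one_div_le_one_div_of_le (by norm_num) (by linarith [Nat.cast_nonneg (α := ℝ) l])
      linarith
    obtain ⟨G, ω, h3, h4⟩ := whp_inter hne (hpos k).le (hpos l).le hlt h1 h2
    have h5 : c k - c l = (X n G ω - c l) - (X n G ω - c k) := by ring
    rw [h5]
    refine (abs_sub _ _).trans ?_
    linarith
  have hcs : CauchySeq c := by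
    rw [Metric.cauchySeq_iff']
    intro ε hε
    obtain ⟨K, hK⟩ := exists_nat_gt (2 / ε)
    refine ⟨K, fun k hk => ?_⟩
    rw [Real.dist_eq]
    refine (hclose k K).trans_lt ?_
    have hK0 : (0 : ℝ) < (K : ℝ) + 3 := by positivity
    have a1 : (1 : ℝ) / (k + 3) ≤ 1 / (K + 3) :=
      one_div_le_one_div_of_le hK0 (by
        have : (K : ℝ) ≤ k := by exact_mod_cast hk
        linarith)
    have a2 : (1 : ℝ) / (K + 3) < ε / 2 := by
      rw [div_lt_iff₀ hK0]
      rw [div_lt_iff₀ hε] at hK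
      nlinarith
    linarith
  obtain ⟨c0, hc0⟩ := cauchySeq_tendsto_of_complete hcs
  have hlim : ∀ k : ℕ, |c k - c0| ≤ 1 / ((k : ℝ) + 3) := by
    intro k
    have h1 : Filter.Tendsto (fun l => |c k - c l|) Filter.atTop (nhds |c k - c0|) :=
      (tendsto_const_nhds.sub hc0).abs
    have h2 : Filter.Tendsto (fun l : ℕ => 1 / ((k : ℝ) + 3) + 1 / ((l : ℝ) + 3)) Filter.atTop
        (nhds (1 / ((k : ℝ) + 3) + 0)) := by
      refine tendsto_const_nhds.add ?_
      have h3 : Filter.Tendsto (fun l : ℕ => (l : ℝ) + 3) Filter.atTop Filter.atTop :=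
        Filter.tendsto_atTop_add_const_right _ _ tendsto_natCast_atTop_atTop
      simp only [one_div]
      exact h3.inv_tendsto_atTop
    rw [add_zero] at h2
    exact le_of_tendsto_of_tendsto' h1 h2 fun l => hclose k l
  refine ⟨c0, fun ε hε => ?_⟩
  obtain ⟨k, hk⟩ := exists_nat_gt (2 / ε)
  have hk0 : (0 : ℝ) < (k : ℝ) + 3 := by positivity
  have hkε : (1 : ℝ) / (k + 3) ≤ ε / 2 := by
    rw [div_le_iff₀ hk0]
    rw [div_lt_iff₀ hε] at hk
    nlinarith
  refine ⟨N k, fun n hn hne => whp_mono (hcN k n hn hne) (by linarith) fun G ω hG => ?_⟩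
  have h1 := hlim k
  have h2 : X n G ω - c0 = (X n G ω - c k) + (c k - c0) := by ring
  rw [h2]
  refine (abs_add_le _ _).trans ?_
  linarith

end Crest.Agent.R166.Env536
end

-- ▼ part R166/EnvDet_536

/-!
Row 166 (helper536): **EnvDet**.  Edge averages of continuous functions of the resolvent blocks at
a fixed `η > 0` converge in probability to a deterministic constant.
-/

set_option autoImplicit false

namespace Crest.Agent.R166.Env536

open MeasureTheory ProbabilityTheory Finset Crest.ProbabilityR.RandomMatrix TreeLike942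

section Ball

variable {n d : ℕ} [NeZero d]

/-- nodes at distance `≤ D` -/
abbrev Ball (d : ℕ) [NeZero d] (D : ℕ) : Type := {x : Node d // x.2.length ≤ D}

instance ball_finite (D : ℕ) : Finite (Ball d D) := by
  have h1 : Finite {l : List (Lt d) // l.length ≤ D} := (List.finite_length_le (Lt d) D).to_subtype
  refine Finite.of_injective
    (fun x : Ball d D => ((x.1.1, ⟨x.1.2, x.2⟩) : Bool × {l : List (Lt d) // l.length ≤ D})) ?_
  rintro ⟨⟨b, l⟩, hx⟩ ⟨⟨b', l'⟩, hy⟩ e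
  simp only [Prod.mk.injEq, Subtype.mk.injEq] at e
  obtain ⟨rfl, rfl⟩ := e
  rfl

noncomputable instance ball_fintype (D : ℕ) : Fintype (Ball d D) := Fintype.ofFinite _

/-- extension by zero -/
noncomputable def ext0 (D : ℕ) (ξ : Ball d D → ℝ) : Node d → ℝ :=
  fun x => if h : x.2.length ≤ D then ξ ⟨x, h⟩ else 0

theorem continuous_ext0 (D : ℕ) : Continuous (ext0 (d := d) D) := by
  refine continuous_pi fun x => ?_
  unfold ext0
  by_cases h : x.2.length ≤ D
  · simp only [h, dif_pos]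
    exact continuous_apply _
  · simp only [h, dif_neg, not_false_eq_true]
    exact continuous_const

/-- the two end points -/
def e2 (d : ℕ) [NeZero d] : Fin 2 → Node d := ![(true, []), (false, [])]

@[simp] theorem e2_len (a : Fin 2) : (e2 d a).2.length = 0 := by
  fin_cases a <;> rfl

/-- indicator of a node -/
noncomputable def dl (x : Node d) : Node d → ℝ := by
  classical exact fun y => if y = x then 1 else 0

/-- the local block function -/
noncomputable def loc (s : ℝ) (P Q : Polynomial ℝ) (Ω : Node d → ℝ) :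
    Matrix (Fin 2) (Fin 2) ℂ := fun a b =>
  (((Polynomial.aeval (Tl s Ω) P) (dl (e2 d b)) (e2 d a) : ℝ) : ℂ) +
    Complex.I * (((Polynomial.aeval (Tl s Ω) Q) (dl (e2 d b)) (e2 d a) : ℝ) : ℂ)

theorem continuous_loc (s : ℝ) (P Q : Polynomial ℝ) : Continuous (loc (d := d) s P Q) := by
  refine continuous_matrix fun a b => ?_
  unfold loc
  exact (Complex.continuous_ofReal.comp (continuous_aeval s _ P _)).add
    (continuous_const.mul (Complex.continuous_ofReal.comp (continuous_aeval s _ Q _)))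

theorem poly_block {p : Equiv.Perm (HE n d)} (hp : IsPort p) (s : ℝ) (ω : Fin n → ℝ)
    (h : HE n d) (P : Polynomial ℝ) (D : ℕ) (hD : P.natDegree ≤ D)
    (ht : TreeAt Prod.fst p (D + 1) h.1) (a b : Fin 2) :
    Polynomial.aeval (Hm (graphOf p) s ω) P (nv p h (e2 d a)) (nv p h (e2 d b)) =
      (Polynomial.aeval (Tl s (ext0 D (fun x : Ball d D => ω (nv p h x.1)))) P)
        (dl (e2 d b)) (e2 d a) := by
  classical
  have h1 : Polynomial.aeval (Hm (graphOf p) s ω) P (nv p h (e2 d a)) (nv p h (e2 d b)) =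
      (Polynomial.aeval (Hm (graphOf p) s ω) P).mulVec
        (Pi.single (nv p h (e2 d b)) 1) (nv p h (e2 d a)) := by
    rw [Matrix.mulVec_single_one]
    rfl
  rw [h1, aeval_nv hp]
  refine aeval_local s P D 0 hD ?_ ?_ _ (by simp)
  · intro y hy
    rw [zero_add] at hy
    simp only [Function.comp_apply, Pi.single_apply, dl]
    by_cases hyb : y = e2 d b
    · rw [hyb, if_pos rfl, if_pos rfl]
    · rw [if_neg hyb, if_neg]
      intro e
      exact hyb (nv_inj hp ht (by omega) (by simp) e)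
  · intro y hy
    rw [zero_add] at hy
    simp only [Function.comp_apply, ext0, hy, dif_pos]

theorem blk_apply {p : Equiv.Perm (HE n d)} (hp : IsPort p) (h : HE n d)
    (R : Matrix (Fin n) (Fin n) ℂ) (a b : Fin 2) :
    Blk R h.1 (p h).1 a b = R (nv p h (e2 d a)) (nv p h (e2 d b)) := by
  have h1 : ∀ a : Fin 2, (![h.1, (p h).1] : Fin 2 → Fin n) a = nv p h (e2 d a) := by
    intro a
    fin_cases a
    · simp [e2, nv_true hp]
    · simp [e2]
  unfold Blk
  rw [Matrix.submatrix_apply, h1, h1]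

omit [NeZero d] in
open Classical in
theorem card_bad_he (R : ℕ) (p : Equiv.Perm (HE n d)) :
    ((univ : Finset (HE n d)).filter fun h => ¬ TreeAt Prod.fst p R h.1).card = nbad R p * d := by
  have h1 : ((univ : Finset (HE n d)).filter fun h => ¬ TreeAt Prod.fst p R h.1) =
      ((univ : Finset (Fin n)).filter fun v => ¬ TreeAt Prod.fst p R v) ×ˢ
        (univ : Finset (Fin d)) := by
    ext ⟨v, i⟩
    simp
  rw [h1, card_product, card_univ, Fintype.card_fin, nbad, Nat.card_eq_fintype_card,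
    Fintype.card_subtype]

end Ball

open Classical in
/-- the deterministic part: closeness of the average to the constant -/
theorem avg_close {n d : ℕ} (hnd : 0 < (n : ℝ) * d) (f g : HE n d → ℝ) (c M ε1 : ℝ)
    (S : Finset (HE n d)) (hf : ∀ h, |f h| ≤ M) (hc : |c| ≤ M) (hε1 : 0 ≤ ε1)
    (hfg : ∀ h ∈ S, |f h - g h| ≤ ε1) (hS : |∑ h ∈ S, (g h - c)| ≤ ε1 * (n * d))
    (hbad : ((univ.filter fun h => h ∉ S).card : ℝ) * (2 * M) ≤ ε1 * (n * d)) :
    |(∑ h, f h) / (n * d : ℝ) - c| ≤ 4 * ε1 := by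
  have e1 : (∑ h, f h) / (n * d : ℝ) - c = (∑ h, (f h - c)) / (n * d : ℝ) := by
    rw [sum_sub_distrib, sum_const, card_univ, IsPort.card_HE, nsmul_eq_mul, Nat.cast_mul,
      sub_div, mul_div_cancel_left₀ _ hnd.ne']
  rw [e1, abs_div, abs_of_pos hnd, div_le_iff₀ hnd]
  have e2 : ∑ h, (f h - c) = ∑ h ∈ S, (f h - g h) + ∑ h ∈ S, (g h - c) +
      ∑ h ∈ univ.filter (fun h => h ∉ S), (f h - c) := by
    rw [← sum_add_distrib, ← sum_filter_add_sum_filter_not univ (fun h => h ∈ S)]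
    congr 1
    rw [filter_mem_eq_inter, univ_inter]
    exact sum_congr rfl fun h _ => by ring
  rw [e2]
  have h1 : |∑ h ∈ S, (f h - g h)| ≤ ε1 * (n * d) := by
    refine (abs_sum_le_sum_abs _ _).trans ?_
    refine (sum_le_card_nsmul _ _ ε1 hfg).trans ?_
    rw [nsmul_eq_mul, mul_comm]
    refine mul_le_mul_of_nonneg_left ?_ hε1
    have := card_le_univ S
    rw [IsPort.card_HE] at this
    exact_mod_cast this
  have h2 : |∑ h ∈ univ.filter (fun h => h ∉ S), (f h - c)| ≤ ε1 * (n * d) := by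
    refine (abs_sum_le_sum_abs _ _).trans ?_
    refine (sum_le_card_nsmul _ _ (2 * M) fun h _ => ?_).trans ?_
    · refine (abs_sub _ _).trans ?_
      have := hf h
      linarith
    · rw [nsmul_eq_mul]
      exact hbad
  have h3 := abs_add_le (∑ h ∈ S, (f h - g h) + ∑ h ∈ S, (g h - c))
    (∑ h ∈ univ.filter (fun h => h ∉ S), (f h - c))
  have h4 := abs_add_le (∑ h ∈ S, (f h - g h)) (∑ h ∈ S, (g h - c))
  nlinarith [mul_nonneg hε1 hnd.le]

open Classical in
/-- the deterministic part for a port graph and a potential in `[-1,1]^n` -/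
theorem det_part {n d : ℕ} [NeZero d] {p : Equiv.Perm (HE n d)} (hport : IsPort p)
    (hnd : 0 < (n : ℝ) * d) {χ : Matrix (Fin 2) (Fin 2) ℂ → ℝ} {s E η M δ ε1 ε' : ℝ}
    (hM0 : 0 < M) (hM : ∀ A, |χ A| ≤ M) (hε1p : 0 < ε1) (hδ : 0 < δ)
    (huc : ∀ A B : Matrix (Fin 2) (Fin 2) ℂ, (∀ i j, ‖A i j - B i j‖ < δ) → |χ A - χ B| < ε1)
    {P Q : Polynomial ℝ}
    (hPQ : ∀ (n : ℕ) (H : Matrix (Fin n) (Fin n) ℝ), H.IsHermitian →
      (∀ x, ∑ y, |H x y| ≤ d + |s|) → ∀ x y, ‖Res H (ze E η) x y -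
        ((Polynomial.aeval H P x y : ℂ) + Complex.I * (Polynomial.aeval H Q x y : ℂ))‖ ≤ δ / 2)
    (D : ℕ) (hDP : P.natDegree ≤ D) (hDQ : Q.natDegree ≤ D) (c : ℝ) (hcM : |c| ≤ M)
    (hnb : (nbad (D + 1) p : ℝ) < ε' * n) (hε' : ε' * (2 * M) ≤ ε1)
    {ω : Fin n → ℝ} (hω : ∀ i, |ω i| ≤ 1)
    (hlt : |∑ h ∈ univ.filter (fun h : HE n d => TreeAt Prod.fst p (D + 1) h.1),
      (χ (loc s P Q (ext0 D fun x : Ball d D => ω (nv p h x.1))) - c)| ≤ ε1 * (n * d)) :
    |eAvg (graphOf p) (fun u w => χ (Blk (Res (Hm (graphOf p) s ω) (ze E η)) u w)) - c| ≤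
      4 * ε1 := by
  rw [hport.eAvg_graphOf]
  refine avg_close hnd
    (fun h => χ (Blk (Res (Hm (graphOf p) s ω) (ze E η)) h.1 (p h).1))
    (fun h => χ (loc s P Q (ext0 D fun x : Ball d D => ω (nv p h x.1)))) c M ε1 _
    (fun h => hM _) hcM hε1p.le ?_ hlt ?_
  · intro h hh
    rw [mem_filter] at hh
    refine (huc _ _ fun i j => ?_).le
    rw [blk_apply hport]
    have h1 := hPQ n (Hm (graphOf p) s ω) (Hm_herm _ _ _) (Hm_rowsum hport s hω)
      (nv p h (e2 d i)) (nv p h (e2 d j))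
    rw [poly_block hport s ω h P D hDP hh.2, poly_block hport s ω h Q D hDQ hh.2] at h1
    exact lt_of_le_of_lt h1 (by linarith)
  · have h1 : (univ.filter fun h => h ∉ univ.filter
        (fun h : HE n d => TreeAt Prod.fst p (D + 1) h.1)) =
        (univ : Finset (HE n d)).filter fun h => ¬ TreeAt Prod.fst p (D + 1) h.1 := by
      ext h
      simp
    rw [h1, card_bad_he, Nat.cast_mul]
    calc (nbad (D + 1) p : ℝ) * d * (2 * M) ≤ (ε' * n) * d * (2 * M) := by
          have : 0 ≤ (d : ℝ) * (2 * M) := by positivity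
          nlinarith
      _ = (ε' * (2 * M)) * (n * d) := by ring
      _ ≤ ε1 * (n * d) := mul_le_mul_of_nonneg_right hε' hnd.le

set_option maxHeartbeats 400000 in
open Classical in
/-- Chebyshev for a port graph -/
theorem cheb_part {n d : ℕ} [NeZero d] {p : Equiv.Perm (HE n d)} (hport : IsPort p)
    (hnd : 0 < (n : ℝ) * d) (D : ℕ) {g : (Ball d D → ℝ) → ℝ} (hgm : Measurable g) {M ε1 : ℝ}
    (hgM : ∀ ξ, |g ξ| ≤ M) (hε1p : 0 < ε1) :
    (potentialLaw n) {ω | ε1 * (n * d) ≤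
      |∑ h ∈ univ.filter (fun h : HE n d => TreeAt Prod.fst p (D + 1) h.1),
        (g (fun x : Ball d D => ω (nv p h x.1)) -
          ∫ ξ, g ξ ∂(Measure.pi fun _ : Ball d D => mu0))|} ≤
    ENNReal.ofReal ((2 * M) ^ 2 * (((Fintype.card (Ball d D) * Fintype.card (Ball d D)) *
      ((n * d) * d) : ℕ) : ℝ) / (ε1 * (n * d)) ^ 2) := by
  have hinj : ∀ h ∈ univ.filter (fun h : HE n d => TreeAt Prod.fst p (D + 1) h.1),
      Function.Injective (fun x : Ball d D => nv p h x.1) := by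
    intro h hh x y hxy
    rw [mem_filter] at hh
    exact Subtype.ext (nv_inj hport hh.2 (by have := x.2; omega) (by have := y.2; omega) hxy)
  have h1 := lln_cheb (ι := Fin n) (μ := mu0)
    (univ.filter (fun h : HE n d => TreeAt Prod.fst p (D + 1) h.1))
    (fun h (x : Ball d D) => nv p h x.1) hinj hgm hgM
    ((Fintype.card (Ball d D) * Fintype.card (Ball d D)) * ((n * d) * d))
    (card_overlap_le p (fun x : Ball d D => x.1)) (mul_pos hε1p hnd)
  rw [← potentialLaw_eq] at h1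
  exact h1

theorem arith_part {n d b : ℕ} {M ε ε1 : ℝ} (hn0 : (0 : ℝ) < n) (hd0 : (0 : ℝ) < d)
    (hε : 0 < ε) (hε1p : 0 < ε1)
    (h1 : (2 * ((2 * M) ^ 2 * (b * b)) / (ε1 ^ 2 * ε) : ℝ) ≤ n) :
    (2 * M) ^ 2 * (((b * b) * ((n * d) * d) : ℕ) : ℝ) / (ε1 * (n * d)) ^ 2 ≤ ε / 2 := by
  rw [div_le_iff₀ (by positivity)] at h1
  rw [div_le_iff₀ (by positivity)]
  push_cast
  have h2 : (2 * M) ^ 2 * ((b : ℝ) * b * (n * d * d)) =
      ((2 * M) ^ 2 * (b * b)) * (n * d ^ 2) := by ring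
  have h3 : ε / 2 * (ε1 * (n * d)) ^ 2 = (n * (ε1 ^ 2 * ε)) / 2 * (n * d ^ 2) := by ring
  rw [h2, h3]
  exact mul_le_mul_of_nonneg_right (by linarith) (by positivity)

/-- **EnvDet** for `d ≥ 1` and every `s`, `E` -/
theorem envDet (d : ℕ) (hd : 1 ≤ d) (s E : ℝ) : EnvDet d s E := by
  classical
  have hdz : NeZero d := ⟨by omega⟩
  intro χ hχ hχs η hη
  apply exists_const d (fun n G ω => eAvg G (fun u w => χ (Blk (Res (Hm G s ω) (ze E η)) u w)))
  intro ε hε
  obtain ⟨M, hM0, hM⟩ := chi_bdd hχ hχs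
  have hε1p : 0 < ε / 4 := by positivity
  obtain ⟨δ, hδ, huc⟩ := uc_entries hχ hχs hε1p
  obtain ⟨P, Q, hPQ⟩ := res_poly E η (d + |s|) (δ / 2) hη (half_pos hδ)
  obtain ⟨D, hDP, hDQ⟩ : ∃ D : ℕ, P.natDegree ≤ D ∧ Q.natDegree ≤ D :=
    ⟨max P.natDegree Q.natDegree, le_max_left _ _, le_max_right _ _⟩
  obtain ⟨g, hg⟩ : ∃ g : (Ball d D → ℝ) → ℝ, g = fun ξ => χ (loc s P Q (ext0 D ξ)) := ⟨_, rfl⟩
  have hgc : Continuous g := by
    rw [hg]
    exact hχ.comp ((continuous_loc s P Q).comp (continuous_ext0 D))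
  have hgm : Measurable g := hgc.measurable
  have hgM : ∀ ξ, |g ξ| ≤ M := by
    intro ξ
    rw [hg]
    exact hM _
  obtain ⟨c, hc⟩ : ∃ c : ℝ, c = ∫ ξ, g ξ ∂(Measure.pi fun _ : Ball d D => mu0) := ⟨_, rfl⟩
  have hcM : |c| ≤ M := by
    have := norm_integral_le_of_norm_le_const (μ := Measure.pi fun _ : Ball d D => mu0)
      (f := g) (C := M) (Filter.Eventually.of_forall fun ξ => hgM ξ)
    rw [hc]
    simpa using this
  obtain ⟨ε', hε'p, hε'1, hε'2⟩ : ∃ ε' : ℝ, 0 < ε' ∧ ε' ≤ ε / 2 ∧ ε' * (2 * M) ≤ ε / 4 := by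
    refine ⟨min (ε / 2) (ε / 4 / (2 * M)), lt_min (by positivity) (by positivity),
      min_le_left _ _, ?_⟩
    have h2 : min (ε / 2) (ε / 4 / (2 * M)) ≤ ε / 4 / (2 * M) := min_le_right _ _
    rwa [le_div_iff₀ (by positivity)] at h2
  obtain ⟨N1, hN1⟩ := few_bad d hd (D + 1) ε' hε'p
  obtain ⟨b, hb⟩ : ∃ b : ℕ, b = Fintype.card (Ball d D) := ⟨_, rfl⟩
  obtain ⟨N2, hN2⟩ := exists_nat_gt (2 * ((2 * M) ^ 2 * (b * b)) / ((ε / 4) ^ 2 * ε))
  refine ⟨c, N1 + N2 + 1, fun n hn _ => ?_⟩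
  have hn1 : 1 ≤ n := by omega
  have hn0 : (0 : ℝ) < n := by exact_mod_cast hn1
  have hd0 : (0 : ℝ) < d := by exact_mod_cast hd
  have hnd : (0 : ℝ) < (n : ℝ) * d := mul_pos hn0 hd0
  have hNn : (N2 : ℝ) ≤ n := by
    have : N2 ≤ n := by omega
    exact_mod_cast this
  have hb2 := arith_part (b := b) (M := M) hn0 hd0 hε hε1p (hN2.le.trans hNn)
  refine whp_mono (whp_of_ports hε'p.le (half_pos hε).le
    (fun G ω => |eAvg G (fun u w => χ (Blk (Res (Hm G s ω) (ze E η)) u w)) - c| ≤ ε)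
    ((Ports n d).filter fun p => ε' * n ≤ (nbad (D + 1) p : ℝ)) (filter_subset _ _) ?_ ?_)
    (by linarith : ε' + ε / 2 ≤ ε) fun _ _ h => h
  · refine le_trans (le_of_eq ?_) (hN1 n (by omega))
    congr!
  intro p hp hpbad
  have hport : IsPort p := mem_Ports.1 hp
  rw [mem_filter, not_and, not_le] at hpbad
  have hnb := hpbad hp
  have hcheb := cheb_part hport hnd D hgm hgM hε1p
  rw [← hc, ← hb] at hcheb
  refine le_trans ?_ (hcheb.trans (ENNReal.ofReal_le_ofReal hb2))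
  apply measure_mono_ae
  filter_upwards [potentialLaw_ae n] with ω hω
  intro hnot
  by_contra hlt
  apply hnot
  have hlt' := (not_le.1 hlt).le
  rw [hg] at hlt'
  have hfin := det_part hport hnd hM0 hM hε1p hδ huc hPQ D hDP hDQ c hcM hnb hε'2 hω hlt'
  rw [show 4 * (ε / 4) = ε by ring] at hfin
  exact hfin

end Crest.Agent.R166.Env536
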