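import Crest.Agent.R166.Spine_419

/-!
# R166 (helper355): the clean cavity root

`m (z + b m) = -1`, `Im m > 0`, `b = d - 1`.
-/

set_option autoImplicit false

namespace Crest.Agent.R166.Root355

open Complex Crest.Agent.R166 Crest.ProbabilityR.RandomMatrix

/-- `m` is the clean cavity root at the energy `z`. -/
structure IsRoot (b : ℝ) (z m : ℂ) : Prop where
  im_pos : 0 < m.im
  eq : m * (z + (b : ℂ) * m) = -1

variable {b : ℝ} {z m z' m' : ℂ}

lemma IsRoot.ne_zero (h : IsRoot b z m) : m ≠ 0 := by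
  rintro rfl
  have := h.im_pos
  simp at this

lemma IsRoot.normSq_pos (h : IsRoot b z m) : 0 < normSq m := Complex.normSq_pos.mpr h.ne_zero

lemma IsRoot.conj_eq (h : IsRoot b z m) :
    (normSq m : ℂ) * (z + (b : ℂ) * m) = -(starRingEnd ℂ) m := by
  rw [Complex.normSq_eq_conj_mul_self, mul_assoc, h.eq]
  ring

lemma IsRoot.im_eq (h : IsRoot b z m) : normSq m * (z.im + b * m.im) = m.im := by
  have := congrArg Complex.im h.conj_eq
  simpa using this

lemma IsRoot.re_eq (h : IsRoot b z m) : normSq m * (z.re + b * m.re) = -m.re := by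
  have := congrArg Complex.re h.conj_eq
  simpa using this

lemma IsRoot.add_eq (h : IsRoot b z m) : z + (b : ℂ) * m = -m⁻¹ := by
  have h0 := h.ne_zero
  have h1 := h.eq
  field_simp
  linear_combination h1

/-- `b |m|² ≤ 1` -/
lemma IsRoot.b_normSq_le (h : IsRoot b z m) (hz : 0 ≤ z.im) : b * normSq m ≤ 1 := by
  have h1 := h.im_eq
  have h2 := h.im_pos
  have h3 := h.normSq_pos
  by_contra hcon
  push Not at hcon
  have h4 : m.im * (b * normSq m) > m.im * 1 := by gcongr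
  nlinarith [mul_nonneg h3.le hz]


lemma IsRoot.normSq_le_one (h : IsRoot b z m) (hb : 1 ≤ b) (hz : 0 ≤ z.im) : normSq m ≤ 1 := by
  have h1 := h.b_normSq_le hz
  have h3 := h.normSq_pos
  nlinarith

lemma IsRoot.norm_le_one (h : IsRoot b z m) (hb : 1 ≤ b) (hz : 0 ≤ z.im) : ‖m‖ ≤ 1 := by
  have h1 := h.normSq_le_one hb hz
  rw [Complex.normSq_eq_norm_sq] at h1
  have := norm_nonneg m
  nlinarith

lemma IsRoot.norm_lt_one (h : IsRoot b z m) (hb : 1 < b) (hz : 0 ≤ z.im) : ‖m‖ < 1 := by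
  have h1 := h.b_normSq_le hz
  have h3 := h.normSq_pos
  rw [Complex.normSq_eq_norm_sq] at h1 h3
  have := norm_nonneg m
  by_contra hcon
  push Not at hcon
  nlinarith

lemma IsRoot.im_le_one (h : IsRoot b z m) (hb : 1 ≤ b) (hz : 0 ≤ z.im) : m.im ≤ 1 :=
  (Complex.im_le_norm m).trans (h.norm_le_one hb hz)

/-- uniqueness -/
theorem IsRoot.unique (h : IsRoot b z m) (h' : IsRoot b z m') (hb : 0 ≤ b) (hz : 0 ≤ z.im) :
    m = m' := by
  have h1 : (m - m') * (z + (b : ℂ) * m + (b : ℂ) * m') = 0 := by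
    linear_combination h.eq - h'.eq
  rcases mul_eq_zero.mp h1 with h2 | h2
  · exact sub_eq_zero.mp h2
  · exfalso
    have h3 := congrArg Complex.im h2
    simp at h3
    have h4 := h.im_eq
    have h5 : 0 < z.im + b * m.im := by
      have := h.im_pos
      rw [← h4] at this
      exact pos_of_mul_pos_right this h.normSq_pos.le
    have h6 : 0 ≤ b * m'.im := mul_nonneg hb h'.im_pos.le
    linarith

/-- `|m| ≤ 1/Im z` -/
lemma IsRoot.norm_le_inv (h : IsRoot b z m) (hb : 0 ≤ b) (hz : 0 < z.im) : ‖m‖ ≤ 1 / z.im := by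
  have h1 := h.im_eq
  have h2 := h.im_pos
  have h3 := Complex.im_le_norm m
  have h4 : 0 < ‖m‖ := norm_pos_iff.mpr h.ne_zero
  rw [Complex.normSq_eq_norm_sq] at h1
  rw [le_div_iff₀ hz]
  have h5 : ‖m‖ ^ 2 * z.im ≤ ‖m‖ := by
    have : 0 ≤ ‖m‖ ^ 2 * (b * m.im) := by positivity
    nlinarith
  nlinarith

/-- lower bound for the imaginary part, quadratic form -/
theorem IsRoot.im_lower (h : IsRoot b z m) (hb : 0 < b) (hz : 0 ≤ z.im) :
    1 - z.re ^ 2 / (4 * b) ≤ m.im * (z.im + b * m.im) := by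
  have h1 := h.im_eq
  have h2 := h.re_eq
  have hy := h.im_pos
  have hN := h.normSq_pos
  have hNe : normSq m = m.re ^ 2 + m.im ^ 2 := by rw [Complex.normSq_apply]; ring
  set N := normSq m with hNdef
  set x := m.re
  set y := m.im
  set E := z.re
  -- x (1 + b N) = - N E
  have h3 : x * (1 + b * N) = -(N * E) := by linarith
  have h4 : 0 < 1 + b * N := by positivity
  -- x² ≤ N E²/(4b)
  have h5 : x ^ 2 * (4 * b) ≤ N * E ^ 2 := by
    have h6 : x ^ 2 * (1 + b * N) ^ 2 = N ^ 2 * E ^ 2 := by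
      have : (x * (1 + b * N)) ^ 2 = (-(N * E)) ^ 2 := by rw [h3]
      nlinarith
    have h7 : 4 * b * N ≤ (1 + b * N) ^ 2 := by nlinarith [sq_nonneg (1 - b * N)]
    have h8 : x ^ 2 * (4 * b * N) ≤ N ^ 2 * E ^ 2 := by
      rw [← h6]
      gcongr
    have h9 : N * (x ^ 2 * (4 * b)) ≤ N * (N * E ^ 2) := by nlinarith
    exact le_of_mul_le_mul_left h9 hN
  have h10 : N * (1 - E ^ 2 / (4 * b)) ≤ y ^ 2 := by
    have : x ^ 2 ≤ N * (E ^ 2 / (4 * b)) := by
      rw [← mul_div_assoc, le_div_iff₀ (by positivity)]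
      exact h5
    nlinarith
  have h11 : 0 < z.im + b * y := by positivity
  have h12 : (N * (z.im + b * y)) * (1 - E ^ 2 / (4 * b)) ≤ y ^ 2 * (z.im + b * y) := by
    nlinarith
  rw [h1] at h12
  have h13 : y * (1 - E ^ 2 / (4 * b)) ≤ y * (y * (z.im + b * y)) := by nlinarith
  exact le_of_mul_le_mul_left h13 hy

/-- lower bound for the imaginary part -/
theorem IsRoot.im_ge (h : IsRoot b z m) (hb : 1 ≤ b) (hz : 0 ≤ z.im) :
    (1 - z.re ^ 2 / (4 * b)) / (b + z.im) ≤ m.im := by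
  have h1 := h.im_lower (by linarith) hz
  have h2 := h.im_le_one hb hz
  have h3 := h.im_pos
  rw [div_le_iff₀ (by linarith)]
  have h4 : b * m.im ≤ b * 1 := by gcongr
  nlinarith

/-- non-resonance -/
theorem IsRoot.nonres (h : IsRoot b z m) (hb : 0 < b) (hz : 0 ≤ z.im) :
    2 * Real.sqrt b * m.im ≤ ‖1 - (b : ℂ) * m ^ 2‖ := by
  have h0 := h.ne_zero
  have hy := h.im_pos
  have e1 : 1 - (b : ℂ) * m ^ 2 = -(m * (z + (b : ℂ) * m + (b : ℂ) * m)) := by
    linear_combination h.eq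
  have hn : 0 < ‖m‖ := norm_pos_iff.mpr h0
  have h1 : m.im / ‖m‖ ^ 2 = z.im + b * m.im := by
    rw [div_eq_iff (by positivity), ← Complex.normSq_eq_norm_sq]
    linarith [h.im_eq]
  have h2 : m.im / ‖m‖ ^ 2 + b * m.im ≤ ‖z + (b : ℂ) * m + (b : ℂ) * m‖ := by
    rw [h1]
    have := Complex.im_le_norm (z + (b : ℂ) * m + (b : ℂ) * m)
    simpa using this
  rw [e1, norm_neg, norm_mul]
  have h3 : 2 * Real.sqrt b ≤ 1 / ‖m‖ + b * ‖m‖ := by
    have hs : 0 < Real.sqrt b := Real.sqrt_pos.mpr hb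
    have hbs : Real.sqrt b ^ 2 = b := Real.sq_sqrt hb.le
    have : 0 ≤ (1 - Real.sqrt b * ‖m‖) ^ 2 / ‖m‖ := by positivity
    have e2 : (1 - Real.sqrt b * ‖m‖) ^ 2 / ‖m‖ = 1 / ‖m‖ + b * ‖m‖ - 2 * Real.sqrt b := by
      rw [← hbs]
      rw [Real.sqrt_sq hs.le]
      field_simp
      ring
    linarith
  calc 2 * Real.sqrt b * m.im ≤ (1 / ‖m‖ + b * ‖m‖) * m.im := by gcongr
    _ = ‖m‖ * (m.im / ‖m‖ ^ 2 + b * m.im) := by field_simp
    _ ≤ _ := by gcongr

/-- Lipschitz dependence on the energy -/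
theorem IsRoot.lipschitz (h : IsRoot b z m) (h' : IsRoot b z' m') (hb : 1 ≤ b) (hz : 0 ≤ z.im)
    (hz' : 0 ≤ z'.im) : ‖m - m'‖ ≤ ‖z - z'‖ / m.im := by
  have hy := h.im_pos
  have hN := h.normSq_pos
  have e1 : (m - m') * (z + (b : ℂ) * m + (b : ℂ) * m') = -(m' * (z - z')) := by
    linear_combination h.eq - h'.eq
  have h1 : m.im ≤ ‖z + (b : ℂ) * m + (b : ℂ) * m'‖ := by
    have h2 := Complex.im_le_norm (z + (b : ℂ) * m + (b : ℂ) * m')
    simp at h2
    have h3 := h.im_eq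
    have h4 := h.normSq_le_one hb hz
    have h5 : 0 ≤ b * m'.im := mul_nonneg (by linarith) h'.im_pos.le
    have h6 : m.im ≤ z.im + b * m.im := by nlinarith [mul_nonneg (by linarith : (0:ℝ) ≤ b) hy.le]
    linarith
  have h2 : ‖m - m'‖ * m.im ≤ ‖z - z'‖ := by
    calc ‖m - m'‖ * m.im ≤ ‖m - m'‖ * ‖z + (b : ℂ) * m + (b : ℂ) * m'‖ := by gcongr
      _ = ‖m'‖ * ‖z - z'‖ := by rw [← norm_mul, e1, norm_neg, norm_mul]
      _ ≤ 1 * ‖z - z'‖ := by
          gcongr
          exact h'.norm_le_one hb hz'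
      _ = _ := one_mul _
  rw [le_div_iff₀ hy]
  exact h2

/-- existence -/
theorem exists_isRoot (hb : 0 < b) (hz : 0 < z.im) : ∃ m, IsRoot b z m := by
  -- square root of the discriminant
  obtain ⟨w, hw⟩ : ∃ w : ℂ, w ^ 2 = z ^ 2 - 4 * (b : ℂ) := by
    obtain ⟨w, hw⟩ := IsAlgClosed.exists_pow_nat_eq (z ^ 2 - 4 * (b : ℂ)) (n := 2) (by norm_num)
    exact ⟨w, hw⟩
  have hb' : (b : ℂ) ≠ 0 := by exact_mod_cast hb.ne'
  set m1 : ℂ := (-z + w) / (2 * b) with hm1
  set m2 : ℂ := (-z - w) / (2 * b) with hm2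
  have q1 : m1 * (z + (b : ℂ) * m1) = -1 := by
    rw [hm1]; field_simp; linear_combination hw
  have q2 : m2 * (z + (b : ℂ) * m2) = -1 := by
    rw [hm2]; field_simp; linear_combination hw
  have hsum : m1 + m2 = -z / b := by rw [hm1, hm2]; field_simp; ring
  have hprod : (b : ℂ) * (m1 * m2) = 1 := by
    rw [hm1, hm2]; field_simp; linear_combination -hw
  have hsim : m1.im + m2.im = -z.im / b := by
    have := congrArg Complex.im hsum
    have e : (-z / (b : ℂ)).im = -z.im / b := by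
      rw [Complex.div_ofReal_im]; simp
    rw [e] at this
    simpa using this
  -- `b m1 m2 = 1` gives opposite signs
  have hm2' : m2 * ((b * normSq m1 : ℝ) : ℂ) = (starRingEnd ℂ) m1 := by
    have : ((b * normSq m1 : ℝ) : ℂ) = (b : ℂ) * ((starRingEnd ℂ) m1 * m1) := by
      rw [← Complex.normSq_eq_conj_mul_self]; push_cast; ring
    rw [this]
    linear_combination (starRingEnd ℂ) m1 * hprod
  have him : m2.im * (b * normSq m1) = -m1.im := by
    have := congrArg Complex.im hm2'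
    rw [Complex.im_mul_ofReal] at this
    simpa using this
  have hm10 : m1 ≠ 0 := by
    rintro h0
    rw [h0] at q1
    simp at q1
  have hpos : 0 < b * normSq m1 := mul_pos hb (Complex.normSq_pos.mpr hm10)
  by_cases h1 : 0 < m1.im
  · exact ⟨m1, h1, q1⟩
  · by_cases h2 : 0 < m2.im
    · exact ⟨m2, h2, q2⟩
    · exfalso
      push Not at h1 h2
      have h3 : m2.im * (b * normSq m1) ≤ 0 := mul_nonpos_of_nonpos_of_nonneg h2 hpos.le
      have h4 : m1.im = 0 := by linarith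
      have h5 : m2.im = 0 := by
        rw [h4] at him
        have : m2.im * (b * normSq m1) = 0 := by linarith
        rcases mul_eq_zero.mp this with h | h
        · exact h
        · exact absurd h hpos.ne'
      rw [h4, h5] at hsim
      have : 0 < z.im / b := by positivity
      rw [neg_div] at hsim
      linarith

/-- explicit value at a real energy in the bulk -/
noncomputable def mReal (b E : ℝ) : ℂ :=
  ⟨-E / (2 * b), Real.sqrt (4 * b - E ^ 2) / (2 * b)⟩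

theorem isRoot_mReal {E : ℝ} (hb : 0 < b) (hE : E ^ 2 < 4 * b) : IsRoot b (E : ℂ) (mReal b E) where
  im_pos := by
    unfold mReal
    have : 0 < Real.sqrt (4 * b - E ^ 2) := Real.sqrt_pos.mpr (by linarith)
    positivity
  eq := by
    have hs : Real.sqrt (4 * b - E ^ 2) ^ 2 = 4 * b - E ^ 2 := Real.sq_sqrt (by linarith)
    unfold mReal
    set s := Real.sqrt (4 * b - E ^ 2) with hsd
    apply Complex.ext
    · simp
      field_simp
      linear_combination -hs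
    · simp
      field_simp
      ring

lemma d_sub_one (d : ℕ) : (((d : ℝ) - 1 : ℝ) : ℂ) = (d : ℂ) - 1 := by push_cast; rfl

/-- `mc d z` is the clean root, upper half plane -/
theorem mc_isRoot {d : ℕ} (hd : 2 ≤ d) (hz : 0 < z.im) : IsRoot ((d : ℝ) - 1) z (mc d z) := by
  have hb : (0 : ℝ) < (d : ℝ) - 1 := by
    have : (2 : ℝ) ≤ d := by exact_mod_cast hd
    linarith
  obtain ⟨m, hm⟩ := exists_isRoot hb hz
  have hex : ∃ m : ℂ, 0 < m.im ∧ m * (z + ((d : ℂ) - 1) * m) = -1 :=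
    ⟨m, hm.im_pos, by rw [← d_sub_one]; exact hm.eq⟩
  unfold mc
  rw [dif_pos hex]
  exact ⟨hex.choose_spec.1, by rw [d_sub_one]; exact hex.choose_spec.2⟩

/-- `mc d E` is the clean root, real energies in the bulk -/
theorem mc_isRoot_real {d : ℕ} (hd : 2 ≤ d) {E : ℝ} (hE : E ^ 2 < 4 * ((d : ℝ) - 1)) :
    IsRoot ((d : ℝ) - 1) (E : ℂ) (mc d (E : ℂ)) := by
  have hb : (0 : ℝ) < (d : ℝ) - 1 := by
    have : (2 : ℝ) ≤ d := by exact_mod_cast hd
    linarith
  have hm := isRoot_mReal hb hE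
  have hex : ∃ m : ℂ, 0 < m.im ∧ m * ((E : ℂ) + ((d : ℂ) - 1) * m) = -1 :=
    ⟨_, hm.im_pos, by rw [← d_sub_one]; exact hm.eq⟩
  unfold mc
  rw [dif_pos hex]
  exact ⟨hex.choose_spec.1, by rw [d_sub_one]; exact hex.choose_spec.2⟩

theorem mc_real_eq {d : ℕ} (hd : 2 ≤ d) {E : ℝ} (hE : E ^ 2 < 4 * ((d : ℝ) - 1)) :
    mc d (E : ℂ) = mReal ((d : ℝ) - 1) E := by
  have hb : (0 : ℝ) < (d : ℝ) - 1 := by
    have : (2 : ℝ) ≤ d := by exact_mod_cast hd
    linarith
  exact (mc_isRoot_real hd hE).unique (isRoot_mReal hb hE) hb.le (by simp)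

/-- the diagonal Green function of the clean tree -/
lemma IsRoot.moo_eq (h : IsRoot b z m) (h1 : m ^ 2 ≠ 1) :
    -1 / (z + ((b : ℂ) + 1) * m) = m / (1 - m ^ 2) := by
  have h0 := h.ne_zero
  have e1 : z + ((b : ℂ) + 1) * m = -m⁻¹ + m := by
    rw [← h.add_eq]; ring
  have h2 : 1 - m ^ 2 ≠ 0 := fun h3 => h1 (by linear_combination -h3)
  rw [e1]
  have h3 : -m⁻¹ + m = -(1 - m ^ 2) / m := by field_simp; ring
  rw [h3]
  field_simp

lemma IsRoot.sq_ne_one (h : IsRoot b z m) (hb : 1 < b) (hz : 0 ≤ z.im) : m ^ 2 ≠ 1 := by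
  intro h1
  have h2 := h.norm_lt_one hb hz
  have h3 : ‖m‖ ^ 2 = 1 := by rw [← norm_pow, h1, norm_one]
  have := norm_nonneg m
  nlinarith

/-- the Kesten-McKay density -/
theorem kestenMcKay_eq {d : ℕ} (hd : 3 ≤ d) {E : ℝ} (hE : E ^ 2 < 4 * ((d : ℝ) - 1)) :
    (-1 / ((E : ℂ) + (d : ℂ) * mc d (E : ℂ))).im / Real.pi = kestenMcKayDensity d E := by
  have hd3 : (3 : ℝ) ≤ d := by exact_mod_cast hd
  have hb : (0 : ℝ) < (d : ℝ) - 1 := by linarith
  rw [mc_real_eq (by omega) hE]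
  set s := Real.sqrt (4 * ((d : ℝ) - 1) - E ^ 2) with hs
  have hs2 : s ^ 2 = 4 * ((d : ℝ) - 1) - E ^ 2 := Real.sq_sqrt (by linarith)
  have hs0 : 0 < s := Real.sqrt_pos.mpr (by linarith)
  have hdE : 0 < (d : ℝ) ^ 2 - E ^ 2 := by nlinarith [sq_nonneg ((d : ℝ) - 2)]
  set w : ℂ := (E : ℂ) + (d : ℂ) * mReal ((d : ℝ) - 1) E with hw
  have hwre : w.re = E - d * E / (2 * ((d : ℝ) - 1)) := by
    rw [hw]; unfold mReal; simp; ring
  have hwim : w.im = d * s / (2 * ((d : ℝ) - 1)) := by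
    rw [hw]; unfold mReal; simp; ring
  have hN : normSq w = ((d : ℝ) ^ 2 - E ^ 2) / ((d : ℝ) - 1) := by
    rw [Complex.normSq_apply, hwre, hwim]
    field_simp
    linear_combination (d : ℝ) ^ 2 * hs2
  have him : (-1 / w).im = w.im / normSq w := by
    rw [neg_div, one_div, Complex.neg_im, Complex.inv_im]; ring
  rw [him, hN, hwim]
  unfold kestenMcKayDensity
  rw [← hs]
  have hpi := Real.pi_pos
  field_simp

/-- the clean block, explicitly -/
theorem Bclean_eq {d : ℕ} (hm : mc d z ≠ 0) (hm1 : mc d z ^ 2 ≠ 1) :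
    Bclean d z = !![mc d z / (1 - mc d z ^ 2), -(mc d z) ^ 2 / (1 - mc d z ^ 2);
      -(mc d z) ^ 2 / (1 - mc d z ^ 2), mc d z / (1 - mc d z ^ 2)] := by
  have h2 : 1 - mc d z ^ 2 ≠ 0 := fun h3 => hm1 (by linear_combination -h3)
  unfold Bclean
  apply Matrix.inv_eq_right_inv
  ext i j
  fin_cases i <;> fin_cases j <;> simp [Matrix.mul_apply, Fin.sum_univ_two] <;> field_simp <;> ring

end Crest.Agent.R166.Root355
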