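import Crest.Agent.R166.ScaleD_355
import Crest.Agent.R166.Root_355
import Crest.Agent.R166.Stab_269

/-!
# R166, section 30.8 (helper355): (H5) and (H6) for the concrete observables

`Dq rs p s ω z h = min rs (bnorm (B0 p s ω z h - mc d z • 1))`, `Vq = (1/(nd)) ∑_h Dq²`.

* `Dq_sq_sub_le`, `Vq_sub_le` : (H5)
* `Dq_le`, `Vq_le` : (H6)
-/

set_option autoImplicit false
set_option linter.unusedSectionVars false

open Matrix Complex

namespace Crest.Agent.R166.ScaleV355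

open Crest.Agent.R166 Crest.Agent.R166.Res789 Crest.Agent.R166.ScaleD355
  Crest.Agent.R166.Root355 Crest.Agent.R166.Stab269

/-- the real matrix of one edge -/
def Wr : Matrix (Fin 2) (Fin 2) ℝ := !![0, 1; 1, 0]

lemma cx_neg_Wr : cx (-Wr) = -W2 := by
  ext i j
  fin_cases i <;> fin_cases j <;> simp [Wr, W2]

lemma Wr_symm : (-Wr)ᵀ = -Wr := by
  ext i j
  fin_cases i <;> fin_cases j <;> simp [Wr]

variable {n d : ℕ}

/-- the Hamiltonian without the edge `h` -/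
noncomputable def H0m (p : Equiv.Perm (HE n d)) (s : ℝ) (ω : Fin n → ℝ) (h : HE n d) :
    Matrix (Fin n) (Fin n) ℝ :=
  Hm (graphOf p) s ω + emb ![h.1, (p h).1] (-Wr)

lemma H0m_symm (p : Equiv.Perm (HE n d)) (s : ℝ) (ω : Fin n → ℝ) (h : HE n d) :
    (H0m p s ω h)ᵀ = H0m p s ω h := by
  unfold H0m
  rw [Matrix.transpose_add, Hm_symm, emb_symm _ Wr_symm]

lemma inj_pair {p : Equiv.Perm (HE n d)} (hp : IsPort p) (h : HE n d) :
    Function.Injective ![h.1, (p h).1] := by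
  intro i j hij
  have hne := hp.noloop h
  fin_cases i <;> fin_cases j
  · rfl
  · exact absurd hij.symm hne
  · exact absurd hij hne
  · rfl

/-- the cavity block is a block of the resolvent of `H` without the edge -/
theorem B0_eq {p : Equiv.Perm (HE n d)} (hp : IsPort p) (s : ℝ) (ω : Fin n → ℝ) {z : ℂ}
    (hz : 0 < z.im) (h : HE n d) :
    B0 p s ω z h = (Res789.Res (H0m p s ω h) z).submatrix ![h.1, (p h).1] ![h.1, (p h).1] := by
  have h1 := Res_emb_block (Hm_symm (graphOf p) s ω) hz (inj_pair hp h) Wr_symm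
  unfold H0m
  rw [h1]
  unfold B0 cavB Pm BE Blk
  rw [cx_neg_Wr, ← sub_eq_add_neg]
  rfl

/-- the distance of the cavity block to the clean value, capped -/
noncomputable def Dq (rs : ℝ) (p : Equiv.Perm (HE n d)) (s : ℝ) (ω : Fin n → ℝ) (z : ℂ)
    (h : HE n d) : ℝ :=
  min rs (bnorm (B0 p s ω z h - mc d z • (1 : Matrix (Fin 2) (Fin 2) ℂ)))

/-- mean square distance -/
noncomputable def Vq (rs : ℝ) (p : Equiv.Perm (HE n d)) (s : ℝ) (ω : Fin n → ℝ) (z : ℂ) : ℝ :=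
  (∑ h : HE n d, Dq rs p s ω z h ^ 2) / (n * d)

lemma bnorm_nonneg (A : Matrix (Fin 2) (Fin 2) ℂ) : 0 ≤ bnorm A :=
  (norm_nonneg _).trans (bnorm_BNorm.ge A 0 0)






lemma Dq_eq {rs : ℝ} {p : Equiv.Perm (HE n d)} (hp : IsPort p) (s : ℝ) (ω : Fin n → ℝ)
    {E η : ℝ} (hη : 0 < η) (h : HE n d) :
    Dq rs p s ω (ze E η) h =
      min rs (bnorm (devM (H0m p s ω h) ![h.1, (p h).1] E η (mc d (ze E η)))) := by
  have hz : 0 < (ze E η).im := by rw [ze_eq]; exact hη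
  unfold Dq devM
  rw [B0_eq hp s ω hz h, ze_eq]

/-- Lipschitz constant of the clean root in `log η` -/
noncomputable def Lroot (d : ℕ) (E C0 : ℝ) : ℝ :=
  C0 * (((d : ℝ) - 1) + C0) / (1 - E ^ 2 / (4 * ((d : ℝ) - 1)))

lemma Lroot_nonneg {d : ℕ} (hd : 2 ≤ d) {E C0 : ℝ} (hE : E ^ 2 < 4 * ((d : ℝ) - 1))
    (hC0 : 0 ≤ C0) : 0 ≤ Lroot d E C0 := by
  have hd2 : (2 : ℝ) ≤ d := by exact_mod_cast hd
  have hb : 0 < (d : ℝ) - 1 := by linarith
  have h1 : 0 < 1 - E ^ 2 / (4 * ((d : ℝ) - 1)) := by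
    rw [sub_pos, div_lt_one (by positivity)]; exact hE
  unfold Lroot
  positivity

lemma norm_mc_sub_le {d : ℕ} (hd : 2 ≤ d) {E η η' C0 : ℝ} (hE : E ^ 2 < 4 * ((d : ℝ) - 1))
    (hη : 0 < η) (h : η ≤ η') (hC : η' ≤ C0) :
    ‖mc d (ze E η) - mc d (ze E η')‖ ≤ Lroot d E C0 * (η' / η - 1) := by
  have hd2 : (2 : ℝ) ≤ d := by exact_mod_cast hd
  have hb : 0 < (d : ℝ) - 1 := by linarith
  have hη' : 0 < η' := by linarith
  have hz : 0 < (zq E η).im := hη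
  have hz' : 0 < (zq E η').im := hη'
  rw [ze_eq, ze_eq]
  have r1 := mc_isRoot hd hz
  have r2 := mc_isRoot hd hz'
  have h1 := r1.lipschitz r2 (by linarith) hz.le hz'.le
  rw [norm_zq_sub h] at h1
  have h2 := r1.im_ge (by linarith) hz.le
  have e1 : (zq E η).re = E := rfl
  have e2 : (zq E η).im = η := rfl
  rw [e1, e2] at h2
  have hk : 0 < 1 - E ^ 2 / (4 * ((d : ℝ) - 1)) := by
    rw [sub_pos, div_lt_one (by positivity)]; exact hE
  set κ := 1 - E ^ 2 / (4 * ((d : ℝ) - 1)) with hκ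
  have h3 : 0 < κ / ((d : ℝ) - 1 + η) := by positivity
  have h4 : 0 ≤ η' - η := by linarith
  have h5 : 0 ≤ η' / η - 1 := by
    have : 1 ≤ η' / η := by rw [le_div_iff₀ hη]; linarith
    linarith
  calc _ ≤ (η' - η) / (mc d (zq E η)).im := h1
    _ ≤ (η' - η) / (κ / ((d : ℝ) - 1 + η)) := by gcongr
    _ = η * ((d : ℝ) - 1 + η) / κ * (η' / η - 1) := by field_simp
    _ ≤ Lroot d E C0 * (η' / η - 1) := by
        unfold Lroot
        rw [← hκ]
        have : η ≤ C0 := h.trans hC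
        have hC0 : 0 ≤ C0 := by linarith
        gcongr

/-- the constant in (H5) -/
noncomputable def CH5 (d : ℕ) (E C0 rs : ℝ) : ℝ := 2 * rs * (4 * (1 + rs) + Lroot d E C0)

/-- **(H5)**, pointwise -/
theorem Dq_sq_sub_le (hd : 2 ≤ d) {rs : ℝ} (hrs : 0 ≤ rs) {p : Equiv.Perm (HE n d)}
    (hp : IsPort p) (s : ℝ) (ω : Fin n → ℝ) {E η η' C0 : ℝ} (hE : E ^ 2 < 4 * ((d : ℝ) - 1))
    (hη : 0 < η) (h : η ≤ η') (h2 : η' ≤ 2 * η) (hC : η' ≤ C0) (x : HE n d) :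
    |Dq rs p s ω (ze E η) x ^ 2 - Dq rs p s ω (ze E η') x ^ 2| ≤
      CH5 d E C0 rs * (η' / η - 1) := by
  have hd2 : (2 : ℝ) ≤ d := by exact_mod_cast hd
  have hη' : 0 < η' := by linarith
  have hz : 0 < (zq E η).im := hη
  have hz' : 0 < (zq E η').im := hη'
  have hC0 : 0 ≤ C0 := by linarith
  rw [Dq_eq hp s ω hη, Dq_eq hp s ω hη']
  have hm : ‖mc d (ze E η)‖ ≤ 1 := by
    rw [ze_eq]; exact (mc_isRoot hd hz).norm_le_one (by linarith) hz.le
  have hm' : ‖mc d (ze E η')‖ ≤ 1 := by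
    rw [ze_eq]; exact (mc_isRoot hd hz').norm_le_one (by linarith) hz'.le
  have := sq_min_sub_le (E := E) bnorm_BNorm zero_le_one bnorm_nonneg (H0m_symm p s ω x)
    ![x.1, (p x).1] hη h h2 hrs hm hm' (Lroot_nonneg hd hE hC0) (norm_mc_sub_le hd hE hη h hC)
  refine this.trans (le_of_eq ?_)
  unfold CH5
  ring

/-- **(H5)** -/
theorem Vq_sub_le (hd : 2 ≤ d) {rs : ℝ} (hrs : 0 ≤ rs) {p : Equiv.Perm (HE n d)}
    (hp : IsPort p) (s : ℝ) (ω : Fin n → ℝ) {E η η' C0 : ℝ} (hE : E ^ 2 < 4 * ((d : ℝ) - 1))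
    (hη : 0 < η) (h : η ≤ η') (h2 : η' ≤ 2 * η) (hC : η' ≤ C0) :
    |Vq rs p s ω (ze E η) - Vq rs p s ω (ze E η')| ≤ CH5 d E C0 rs * (η' / η - 1) := by
  have h5 : 0 ≤ η' / η - 1 := by
    have : 1 ≤ η' / η := by rw [le_div_iff₀ hη]; linarith
    linarith
  have hC0 : 0 ≤ C0 := by linarith
  have hCH : 0 ≤ CH5 d E C0 rs := by
    unfold CH5
    have := Lroot_nonneg hd hE hC0
    positivity
  unfold Vq
  rw [← sub_div, ← Finset.sum_sub_distrib, abs_div, abs_of_nonneg (by positivity : (0:ℝ) ≤ n * d)]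
  refine div_le_of_le_mul₀ (by positivity) (by positivity) ?_
  calc |∑ x : HE n d, (Dq rs p s ω (ze E η) x ^ 2 - Dq rs p s ω (ze E η') x ^ 2)|
      ≤ ∑ x : HE n d, |Dq rs p s ω (ze E η) x ^ 2 - Dq rs p s ω (ze E η') x ^ 2| :=
        Finset.abs_sum_le_sum_abs _ _
    _ ≤ ∑ _x : HE n d, CH5 d E C0 rs * (η' / η - 1) :=
        Finset.sum_le_sum fun x _ => Dq_sq_sub_le hd hrs hp s ω hE hη h h2 hC x
    _ = CH5 d E C0 rs * (η' / η - 1) * (n * d) := by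
        rw [Finset.sum_const, Finset.card_univ, Fintype.card_prod, Fintype.card_fin,
          Fintype.card_fin, nsmul_eq_mul]
        push_cast; ring

/-- **(H5)** in the one-sided form of `Multi_383` -/
theorem Vq_le_add (hd : 2 ≤ d) {rs : ℝ} (hrs : 0 ≤ rs) {p : Equiv.Perm (HE n d)}
    (hp : IsPort p) (s : ℝ) (ω : Fin n → ℝ) {E η η' C0 : ℝ} (hE : E ^ 2 < 4 * ((d : ℝ) - 1))
    (hη : 0 < η) (h : η ≤ η') (h2 : η' ≤ 2 * η) (hC : η' ≤ C0) :
    Vq rs p s ω (ze E η) ≤ Vq rs p s ω (ze E η') + CH5 d E C0 rs * (η' / η - 1) := by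
  have := Vq_sub_le hd hrs hp s ω hE hη h h2 hC
  have := (abs_le.mp this).2
  linarith



/-- uniform lower bound for `Im m` -/
theorem mc_im_ge {d : ℕ} (hd : 2 ≤ d) {E η C0 : ℝ} (hE : E ^ 2 < 4 * ((d : ℝ) - 1))
    (hη : 0 < η) (hC : η ≤ C0) :
    (1 - E ^ 2 / (4 * ((d : ℝ) - 1))) / ((d : ℝ) - 1 + C0) ≤ (mc d (ze E η)).im := by
  have hd2 : (2 : ℝ) ≤ d := by exact_mod_cast hd
  have hb : 0 < (d : ℝ) - 1 := by linarith
  have hz : 0 < (zq E η).im := hη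
  rw [ze_eq]
  have h2 := (mc_isRoot hd hz).im_ge (by linarith) hz.le
  have e1 : (zq E η).re = E := rfl
  have e2 : (zq E η).im = η := rfl
  rw [e1, e2] at h2
  have hk : 0 < 1 - E ^ 2 / (4 * ((d : ℝ) - 1)) := by
    rw [sub_pos, div_lt_one (by positivity)]; exact hE
  refine le_trans ?_ h2
  gcongr

/-- uniform non-resonance, **(H3)** -/
theorem mc_nonres {d : ℕ} (hd : 2 ≤ d) {E η C0 : ℝ} (hE : E ^ 2 < 4 * ((d : ℝ) - 1))
    (hη : 0 < η) (hC : η ≤ C0) :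
    2 * Real.sqrt ((d : ℝ) - 1) * ((1 - E ^ 2 / (4 * ((d : ℝ) - 1))) / ((d : ℝ) - 1 + C0)) ≤
      ‖1 - ((d : ℂ) - 1) * mc d (ze E η) ^ 2‖ := by
  have hd2 : (2 : ℝ) ≤ d := by exact_mod_cast hd
  have hb : 0 < (d : ℝ) - 1 := by linarith
  have h1 := mc_im_ge hd hE hη hC
  rw [ze_eq] at h1 ⊢
  have hz : 0 < (zq E η).im := hη
  have h2 := (mc_isRoot hd hz).nonres hb hz.le
  rw [d_sub_one] at h2
  refine le_trans ?_ h2
  gcongr

end Crest.Agent.R166.ScaleV355
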