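import Mathlib
import Crest.Agent.R166.Ports_269
import Crest.Agent.R166.Sec_269

-- ▼ part R166/SwP_470
section

/-!
# Row 166, section 20: switchings of port-numbered graphs (helper470)

Half-edges: a type `α` with the vertex map `vt : α → V`; `p : Equiv.Perm α` a pairing.

* `IsSP vt p`   : simple pairing
* `msw a b`     : the product of the transpositions `(a i, b i)`
* `cj a b p`    : `msw a b * p * msw a b`
* `Val vt p a b`: validity of a multi-switching (symmetric)
* `Val.isSP`, `Val.symm`, `cj_cj` : the switching is an involution of valid configurations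
-/

set_option autoImplicit false
set_option linter.unusedSectionVars false

open Finset

namespace Crest.Agent.R166.SwP470

variable {α V ι κ : Type*}

/-- simple pairing of the half-edges `α`; `vt h` is the vertex of the half-edge `h` -/
structure IsSP (vt : α → V) (p : Equiv.Perm α) : Prop where
  inv : ∀ h, p (p h) = h
  loop : ∀ h, vt (p h) ≠ vt h
  multi : ∀ h h', vt h = vt h' → vt (p h) = vt (p h') → h = h'

/-- adjacency of vertices -/
def Adj (vt : α → V) (p : Equiv.Perm α) (v w : V) : Prop := ∃ h, vt h = v ∧ vt (p h) = w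

lemma Adj.symm {vt : α → V} {p : Equiv.Perm α} (hp : IsSP vt p) {v w : V} (h : Adj vt p v w) :
    Adj vt p w v := by
  obtain ⟨x, h1, h2⟩ := h
  exact ⟨p x, h2, by rw [hp.inv, h1]⟩

/-! ### multi-swaps -/

/-- all half-edges `a i`, `b i` are distinct -/
structure Dj (a b : ι → α) : Prop where
  ia : Function.Injective a
  ib : Function.Injective b
  ab : ∀ i j, a i ≠ b j

lemma Dj.symm {a b : ι → α} (h : Dj a b) : Dj b a := ⟨h.ib, h.ia, fun i j => (h.ab j i).symm⟩

open Classical in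
/-- the product of the transpositions `(a i, b i)` as a function -/
noncomputable def mswf (a b : ι → α) (h : α) : α :=
  if hx : ∃ i, a i = h then b hx.choose else if hx : ∃ i, b i = h then a hx.choose else h

lemma mswf_a {a b : ι → α} (h : Dj a b) (i : ι) : mswf a b (a i) = b i := by
  have hx : ∃ j, a j = a i := ⟨i, rfl⟩
  unfold mswf
  rw [dif_pos hx, h.ia hx.choose_spec]

lemma mswf_b {a b : ι → α} (h : Dj a b) (i : ι) : mswf a b (b i) = a i := by
  have hn : ¬ ∃ j, a j = b i := fun ⟨j, hj⟩ => h.ab j i hj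
  have hx : ∃ j, b j = b i := ⟨i, rfl⟩
  unfold mswf
  rw [dif_neg hn, dif_pos hx, h.ib hx.choose_spec]

lemma mswf_o {a b : ι → α} {h : α} (ha : ∀ i, a i ≠ h) (hb : ∀ i, b i ≠ h) : mswf a b h = h := by
  unfold mswf
  rw [dif_neg (fun ⟨j, hj⟩ => ha j hj), dif_neg (fun ⟨j, hj⟩ => hb j hj)]

lemma mswf_invol {a b : ι → α} (h : Dj a b) : Function.Involutive (mswf a b) := by
  intro x
  by_cases ha : ∃ i, a i = x
  · obtain ⟨i, rfl⟩ := ha
    rw [mswf_a h, mswf_b h]
  · by_cases hb : ∃ i, b i = x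
    · obtain ⟨i, rfl⟩ := hb
      rw [mswf_b h, mswf_a h]
    · have h1 : ∀ i, a i ≠ x := fun i hi => ha ⟨i, hi⟩
      have h2 : ∀ i, b i ≠ x := fun i hi => hb ⟨i, hi⟩
      rw [mswf_o h1 h2, mswf_o h1 h2]

open Classical in
/-- the product of the transpositions `(a i, b i)` -/
noncomputable def msw (a b : ι → α) : Equiv.Perm α :=
  if h : Dj a b then (mswf_invol h).toPerm else 1

lemma msw_a {a b : ι → α} (h : Dj a b) (i : ι) : msw a b (a i) = b i := by
  unfold msw; rw [dif_pos h]; exact mswf_a h i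

lemma msw_b {a b : ι → α} (h : Dj a b) (i : ι) : msw a b (b i) = a i := by
  unfold msw; rw [dif_pos h]; exact mswf_b h i

lemma msw_o {a b : ι → α} {x : α} (ha : ∀ i, a i ≠ x) (hb : ∀ i, b i ≠ x) : msw a b x = x := by
  unfold msw
  split_ifs
  · exact mswf_o ha hb
  · rfl

lemma msw_msw {a b : ι → α} (x : α) : msw a b (msw a b x) = x := by
  unfold msw
  split_ifs with h
  · exact mswf_invol h x
  · rfl

lemma msw_comm {a b : ι → α} : msw b a = msw a b := by
  by_cases h : Dj a b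
  · ext x
    by_cases ha : ∃ i, a i = x
    · obtain ⟨i, rfl⟩ := ha
      rw [msw_a h, msw_b h.symm]
    · by_cases hb : ∃ i, b i = x
      · obtain ⟨i, rfl⟩ := hb
        rw [msw_b h, msw_a h.symm]
      · have h1 : ∀ i, a i ≠ x := fun i hi => ha ⟨i, hi⟩
        have h2 : ∀ i, b i ≠ x := fun i hi => hb ⟨i, hi⟩
        rw [msw_o h1 h2, msw_o h2 h1]
  · have h' : ¬ Dj b a := fun h1 => h h1.symm
    unfold msw
    rw [dif_neg h, dif_neg h']

/-- the switched pairing -/
noncomputable def cj (a b : ι → α) (p : Equiv.Perm α) : Equiv.Perm α := msw a b * p * msw a b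

lemma cj_apply (a b : ι → α) (p : Equiv.Perm α) (x : α) :
    cj a b p x = msw a b (p (msw a b x)) := rfl

lemma cj_cj (a b : ι → α) (p : Equiv.Perm α) : cj b a (cj a b p) = p := by
  ext x
  rw [cj_apply, cj_apply, msw_comm, msw_msw, msw_msw]

/-! ### validity -/

/-- validity of the multi-switching with removed edges `{a i, p (a i)}`, `{b i, p (b i)}`; the new
edges are `{p (a i), b i}` and `{a i, p (b i)}`. Vertices: `a_i = vt (a i)`, `t_i = vt (p (a i))`,
`u_i = vt (b i)`, `w_i = vt (p (b i))`; only the `t_i` may coincide. -/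
structure Val (vt : α → V) (p : Equiv.Perm α) (a b : ι → α) : Prop where
  aa : ∀ i j, vt (a i) = vt (a j) → i = j
  uu : ∀ i j, vt (b i) = vt (b j) → i = j
  ww : ∀ i j, vt (p (b i)) = vt (p (b j)) → i = j
  au : ∀ i j, vt (a i) ≠ vt (b j)
  aw : ∀ i j, vt (a i) ≠ vt (p (b j))
  uw : ∀ i j, vt (b i) ≠ vt (p (b j))
  ta : ∀ i j, vt (p (a i)) ≠ vt (a j)
  tu : ∀ i j, vt (p (a i)) ≠ vt (b j)
  tw : ∀ i j, vt (p (a i)) ≠ vt (p (b j))
  ntu : ∀ i, ¬ Adj vt p (vt (p (a i))) (vt (b i))
  naw : ∀ i, ¬ Adj vt p (vt (a i)) (vt (p (b i)))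

section core
variable {vt : α → V} {p : Equiv.Perm α} {a b : ι → α}

lemma Val.dj (h : Val vt p a b) : Dj a b where
  ia := fun i j hij => h.aa i j (by rw [hij])
  ib := fun i j hij => h.uu i j (by rw [hij])
  ab := fun i j hij => h.au i j (by rw [hij])

lemma Val.cj_a (h : Val vt p a b) (i : ι) : cj a b p (a i) = p (b i) := by
  rw [cj_apply, msw_a h.dj]
  exact msw_o (fun j hj => h.aw j i (by rw [hj])) (fun j hj => h.uw j i (by rw [hj]))

lemma Val.cj_b (h : Val vt p a b) (i : ι) : cj a b p (b i) = p (a i) := by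
  rw [cj_apply, msw_b h.dj]
  exact msw_o (fun j hj => h.ta i j (by rw [hj])) (fun j hj => h.tu i j (by rw [hj]))

lemma Val.cj_t (hp : IsSP vt p) (h : Val vt p a b) (i : ι) : cj a b p (p (a i)) = b i := by
  rw [cj_apply, msw_o (x := p (a i)) (fun j hj => h.ta i j (by rw [hj]))
    (fun j hj => h.tu i j (by rw [hj])), hp.inv, msw_a h.dj]

lemma Val.cj_w (hp : IsSP vt p) (h : Val vt p a b) (i : ι) : cj a b p (p (b i)) = a i := by
  rw [cj_apply, msw_o (x := p (b i)) (fun j hj => h.aw j i (by rw [hj]))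
    (fun j hj => h.uw j i (by rw [hj])), hp.inv, msw_b h.dj]

/-- half-edges which are not touched -/
structure Out (p : Equiv.Perm α) (a b : ι → α) (x : α) : Prop where
  oa : ∀ i, a i ≠ x
  ob : ∀ i, b i ≠ x
  ot : ∀ i, p (a i) ≠ x
  ow : ∀ i, p (b i) ≠ x

lemma Out.cj (hp : IsSP vt p) {x : α} (h : Out p a b x) : cj a b p x = p x := by
  rw [cj_apply, msw_o h.oa h.ob]
  refine msw_o (fun i hi => h.ot i ?_) (fun i hi => h.ow i ?_)
  · rw [hi, hp.inv]
  · rw [hi, hp.inv]

lemma classify (p : Equiv.Perm α) (a b : ι → α) (x : α) :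
    (∃ i, x = a i) ∨ (∃ i, x = b i) ∨ (∃ i, x = p (a i)) ∨ (∃ i, x = p (b i)) ∨ Out p a b x := by
  by_cases h1 : ∃ i, x = a i
  · exact Or.inl h1
  by_cases h2 : ∃ i, x = b i
  · exact Or.inr (Or.inl h2)
  by_cases h3 : ∃ i, x = p (a i)
  · exact Or.inr (Or.inr (Or.inl h3))
  by_cases h4 : ∃ i, x = p (b i)
  · exact Or.inr (Or.inr (Or.inr (Or.inl h4)))
  refine Or.inr (Or.inr (Or.inr (Or.inr ⟨?_, ?_, ?_, ?_⟩)))
  · exact fun i hi => h1 ⟨i, hi.symm⟩
  · exact fun i hi => h2 ⟨i, hi.symm⟩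
  · exact fun i hi => h3 ⟨i, hi.symm⟩
  · exact fun i hi => h4 ⟨i, hi.symm⟩

/-- the switched pairing is simple -/
theorem Val.isSP (hp : IsSP vt p) (h : Val vt p a b) : IsSP vt (cj a b p) where
  inv := fun x => by
    rw [cj_apply, cj_apply, msw_msw, hp.inv, msw_msw]
  loop := fun x => by
    rcases classify p a b x with ⟨i, rfl⟩ | ⟨i, rfl⟩ | ⟨i, rfl⟩ | ⟨i, rfl⟩ | ho
    · rw [h.cj_a]; exact (h.aw i i).symm
    · rw [h.cj_b]; exact h.tu i i
    · rw [h.cj_t hp]; exact (h.tu i i).symm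
    · rw [h.cj_w hp]; exact h.aw i i
    · rw [ho.cj hp]; exact hp.loop x
  multi := fun x y hxy hpxy => by
    rcases classify p a b x with ⟨i, rfl⟩ | ⟨i, rfl⟩ | ⟨i, rfl⟩ | ⟨i, rfl⟩ | ho <;>
    rcases classify p a b y with ⟨j, rfl⟩ | ⟨j, rfl⟩ | ⟨j, rfl⟩ | ⟨j, rfl⟩ | ho'
    · rw [h.aa i j hxy]
    · exact absurd hxy (h.au i j)
    · exact absurd hxy.symm (h.ta j i)
    · exact absurd hxy (h.aw i j)
    · rw [h.cj_a, ho'.cj hp] at hpxy
      exact absurd ⟨y, hxy.symm, hpxy.symm⟩ (h.naw i)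
    · exact absurd hxy.symm (h.au j i)
    · rw [h.uu i j hxy]
    · exact absurd hxy.symm (h.tu j i)
    · exact absurd hxy (h.uw i j)
    · rw [h.cj_b, ho'.cj hp] at hpxy
      exact absurd ⟨p y, hpxy.symm, by rw [hp.inv, ← hxy]⟩ (h.ntu i)
    · exact absurd hxy (h.ta i j)
    · exact absurd hxy (h.tu i j)
    · rw [h.cj_t hp, h.cj_t hp] at hpxy
      rw [h.uu i j hpxy]
    · exact absurd hxy (h.tw i j)
    · rw [h.cj_t hp, ho'.cj hp] at hpxy
      exact absurd ⟨y, hxy.symm, hpxy.symm⟩ (h.ntu i)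
    · exact absurd hxy.symm (h.aw j i)
    · exact absurd hxy.symm (h.uw j i)
    · exact absurd hxy.symm (h.tw j i)
    · rw [h.ww i j hxy]
    · rw [h.cj_w hp, ho'.cj hp] at hpxy
      exact absurd ⟨p y, hpxy.symm, by rw [hp.inv, ← hxy]⟩ (h.naw i)
    · rw [h.cj_a, ho.cj hp] at hpxy
      exact absurd ⟨x, hxy, hpxy⟩ (h.naw j)
    · rw [h.cj_b, ho.cj hp] at hpxy
      exact absurd ⟨p x, hpxy, by rw [hp.inv, hxy]⟩ (h.ntu j)
    · rw [h.cj_t hp, ho.cj hp] at hpxy
      exact absurd ⟨x, hxy, hpxy⟩ (h.ntu j)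
    · rw [h.cj_w hp, ho.cj hp] at hpxy
      exact absurd ⟨p x, hpxy, by rw [hp.inv, hxy]⟩ (h.naw j)
    · rw [ho.cj hp, ho'.cj hp] at hpxy
      exact hp.multi x y hxy hpxy

/-- validity is symmetric -/
theorem Val.symm (hp : IsSP vt p) (h : Val vt p a b) : Val vt (cj a b p) b a where
  aa := h.uu
  uu := h.aa
  ww := fun i j hij => by
    rw [h.cj_a, h.cj_a] at hij
    exact h.ww i j hij
  au := fun i j => (h.au j i).symm
  aw := fun i j => by
    rw [h.cj_a]; exact h.uw i j
  uw := fun i j => by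
    rw [h.cj_a]; exact h.aw i j
  ta := fun i j => by
    rw [h.cj_b]; exact h.tu i j
  tu := fun i j => by
    rw [h.cj_b]; exact h.ta i j
  tw := fun i j => by
    rw [h.cj_b, h.cj_a]; exact h.tw i j
  ntu := fun i => by
    rw [h.cj_b]
    rintro ⟨x, hx1, hx2⟩
    rcases classify p a b x with ⟨j, rfl⟩ | ⟨j, rfl⟩ | ⟨j, rfl⟩ | ⟨j, rfl⟩ | ho
    · exact h.ta i j hx1.symm
    · exact h.tu i j hx1.symm
    · rw [h.cj_t hp] at hx2
      exact h.au i j hx2.symm
    · exact h.tw i j hx1.symm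
    · rw [ho.cj hp] at hx2
      have := hp.multi x (p (a i)) hx1 (by rw [hx2, hp.inv])
      exact ho.ot i this.symm
  naw := fun i => by
    rw [h.cj_a]
    rintro ⟨x, hx1, hx2⟩
    rcases classify p a b x with ⟨j, rfl⟩ | ⟨j, rfl⟩ | ⟨j, rfl⟩ | ⟨j, rfl⟩ | ho
    · exact h.au j i hx1
    · rw [h.cj_b] at hx2
      exact h.tw j i hx2
    · exact h.tu j i hx1
    · exact h.uw i j hx1.symm
    · rw [ho.cj hp] at hx2
      have := hp.multi x (b i) hx1 hx2
      exact ho.ob i this.symm

end core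

end Crest.Agent.R166.SwP470
end

-- ▼ part R166/SwP2_470

/-!
# Row 166, section 20: ball-boundary resampling of port-numbered graphs (helper470)

Two-sided ball of depth `L ≥ 1` around the half-edge (directed edge) `h0`:
* `rt p h0 s`     : root of the side `s` (`true ↦ h0`, `false ↦ p h0`)
* `bv p h0 s w`   : vertex of the ball with word `w` (`|w| ≤ L`, letters `≠ 0`) on the side `s`
* `TL L p h0`     : tree-like: all `bv p h0 s w`, `|w| ≤ L`, distinct
* `BI d L`        : index type of the boundary edges, `tau p h0 i` the boundary half-edge (tail at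
                    depth `L-1`, head at depth `L`)
* `BVal L p h0 b` : validity of the choices `b : BI d L → HE n d`
* `bsw L p (h0,b)`: the lazy switching; new edges `tau i — b i`, `p (tau i) — p (b i)`
* `moveSystem`    : it is a `Sec269.MoveSystem` on `Ports n d` with all moves `HE × (BI → HE)`
* `desc_bsw`, `bv_bsw_lt`, `bv_bsw_eq` : the ball after the switching
-/

set_option autoImplicit false
set_option linter.unusedSectionVars false

open Finset

namespace Crest.Agent.R166.SwP470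

variable {n d : ℕ}

lemma isSP_of_isPort {p : Equiv.Perm (HE n d)} (hp : IsPort p) : IsSP (α := HE n d) Prod.fst p where
  inv := hp.inv
  loop := hp.noloop
  multi := fun _ _ h1 h2 => hp.fst_inj h1 h2

lemma isPort_of_isSP {p : Equiv.Perm (HE n d)} (hp : IsSP (α := HE n d) Prod.fst p) : IsPort p where
  inv := hp.inv
  noloop := hp.loop
  simple := fun v i j h => by
    have := hp.multi (v, i) (v, j) rfl h
    simpa using this

lemma adj_iff_adj {p : Equiv.Perm (HE n d)} (hp : IsPort p) {v w : Fin n} :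
    Adj (α := HE n d) Prod.fst p v w ↔ (graphOf p).Adj v w := by
  rw [hp.adj_iff]
  constructor
  · rintro ⟨⟨v', i⟩, rfl, h2⟩
    exact ⟨i, h2⟩
  · rintro ⟨i, hi⟩
    exact ⟨(v, i), rfl, hi⟩

section ball

variable [NeZero d]

/-- nonzero letters -/
abbrev NZ (d : ℕ) [NeZero d] : Type := {k : Fin d // k ≠ 0}

/-- word of nonzero letters -/
def NZw (w : List (Fin d)) : Prop := ∀ k ∈ w, k ≠ 0

/-- index type of the boundary -/
abbrev BI (d : ℕ) [NeZero d] (L : ℕ) : Type := Bool × (Fin L → NZ d)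

/-- the word of a boundary index -/
def wd {L : ℕ} (f : Fin L → NZ d) : List (Fin d) := List.ofFn fun i => (f i).1

lemma wd_length {L : ℕ} (f : Fin L → NZ d) : (wd f).length = L := by simp [wd]

lemma wd_NZw {L : ℕ} (f : Fin L → NZ d) : NZw (wd f) := by
  intro k hk
  simp only [wd, List.mem_ofFn] at hk
  obtain ⟨i, rfl⟩ := hk
  exact (f i).2

lemma wd_inj {L : ℕ} {f g : Fin L → NZ d} (h : wd f = wd g) : f = g := by
  unfold wd at h
  have := List.ofFn_injective h
  funext i
  exact Subtype.ext (congrFun this i)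

lemma exists_wd {L : ℕ} {w : List (Fin d)} (hw : NZw w) (hl : w.length = L) :
    ∃ f : Fin L → NZ d, wd f = w := by
  subst hl
  refine ⟨fun i => ⟨w.get i, hw _ (List.get_mem w i)⟩, ?_⟩
  simp [wd]

/-- root half-edge of a side -/
def rt (p : Equiv.Perm (HE n d)) (h0 : HE n d) (s : Bool) : HE n d := if s then h0 else p h0

/-- ball vertex -/
def bv (p : Equiv.Perm (HE n d)) (h0 : HE n d) (s : Bool) (w : List (Fin d)) : Fin n :=
  (p (desc p (rt p h0 s) w)).1

/-- the ball of depth `L` around `h0` is a tree -/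
def TL (L : ℕ) (p : Equiv.Perm (HE n d)) (h0 : HE n d) : Prop :=
  ∀ s s' w w', NZw w → NZw w' → w.length ≤ L → w'.length ≤ L →
    bv p h0 s w = bv p h0 s' w' → s = s' ∧ w = w'

/-- boundary half-edge -/
def tau {L : ℕ} (p : Equiv.Perm (HE n d)) (h0 : HE n d) (i : BI d L) : HE n d :=
  desc p (rt p h0 i.1) (wd i.2)

/-- its partner -/
def ab {L : ℕ} (p : Equiv.Perm (HE n d)) (h0 : HE n d) (i : BI d L) : HE n d := p (tau p h0 i)

/-- validity of the choices -/
structure BVal (L : ℕ) (p : Equiv.Perm (HE n d)) (h0 : HE n d) (b : BI d L → HE n d) : Prop where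
  tl : TL L p h0
  bu : ∀ s w i, NZw w → w.length ≤ L → bv p h0 s w ≠ (b i).1
  bw : ∀ s w i, NZw w → w.length ≤ L → bv p h0 s w ≠ (p (b i)).1
  uu : ∀ i j, (b i).1 = (b j).1 → i = j
  ww : ∀ i j, (p (b i)).1 = (p (b j)).1 → i = j
  uw : ∀ i j, (b i).1 ≠ (p (b j)).1
  ntu : ∀ i, ¬ Adj (α := HE n d) Prod.fst p (tau p h0 i).1 (b i).1
  naw : ∀ i, ¬ Adj (α := HE n d) Prod.fst p (ab p h0 i).1 (p (b i)).1

section
variable {p : Equiv.Perm (HE n d)} {h0 : HE n d} {L : ℕ} {b : BI d L → HE n d}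

lemma NZw.append {w : List (Fin d)} {k : Fin d} (h : NZw (w ++ [k])) : NZw w ∧ k ≠ 0 :=
  ⟨fun x hx => h x (by simp [hx]), h k (by simp)⟩

lemma desc_snoc (p : Equiv.Perm (HE n d)) (h : HE n d) (w : List (Fin d)) (k : Fin d) :
    desc p h (w ++ [k]) = rot k (p (desc p h w)) := by
  rw [desc_append]; rfl

lemma p_rt (hp : IsPort p) (s : Bool) : p (rt p h0 (!s)) = rt p h0 s := by
  cases s
  · simp [rt]
  · simp [rt, hp.inv]

/-- the tail of a half-edge of the ball is the ball vertex one step before -/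
lemma desc_fst_snoc (s : Bool) (w : List (Fin d)) (k : Fin d) :
    (desc p (rt p h0 s) (w ++ [k])).1 = bv p h0 s w := by
  rw [desc_snoc]; rfl

lemma desc_fst_nil (hp : IsPort p) (s : Bool) :
    (desc p (rt p h0 s) []).1 = bv p h0 (!s) [] := by
  simp only [desc_nil, bv]
  rw [p_rt hp]

/-- the tail is always a ball vertex -/
lemma desc_fst (hp : IsPort p) (s : Bool) (w : List (Fin d)) (hw : NZw w) :
    ∃ s' w', NZw w' ∧ w'.length ≤ w.length - 1 ∧ (desc p (rt p h0 s) w).1 = bv p h0 s' w' := by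
  rcases List.eq_nil_or_concat w with rfl | ⟨w', k, rfl⟩
  · exact ⟨!s, [], by simp [NZw], by simp, desc_fst_nil hp s⟩
  · rw [List.concat_eq_append] at hw ⊢
    exact ⟨s, w', hw.append.1, by simp, desc_fst_snoc s w' k⟩

lemma tau_fst (hL : 1 ≤ L) (i : BI d L) :
    ∃ w', NZw w' ∧ w'.length = L - 1 ∧ (tau p h0 i).1 = bv p h0 i.1 w' := by
  rcases List.eq_nil_or_concat (wd i.2) with h | ⟨w', k, h⟩
  · have := wd_length i.2
    rw [h] at this
    simp at this
    omega
  · rw [List.concat_eq_append] at h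
    have h1 := wd_NZw i.2
    have h2 := wd_length i.2
    rw [h] at h1 h2
    refine ⟨w', h1.append.1, by simp at h2; omega, ?_⟩
    unfold tau
    rw [h, desc_fst_snoc]

lemma ab_fst (i : BI d L) : (ab p h0 i).1 = bv p h0 i.1 (wd i.2) := rfl

lemma BVal.val (hL : 1 ≤ L) (hp : IsPort p) (h : BVal L p h0 b) :
    Val (α := HE n d) Prod.fst p (ab p h0) b := by
  have key : ∀ i j : BI d L, (p (ab p h0 i)).1 ≠ (ab p h0 j).1 := by
    intro i j hij
    unfold ab at hij
    rw [hp.inv] at hij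
    obtain ⟨w', h1, h2, h3⟩ := tau_fst (p := p) (h0 := h0) hL i
    rw [h3] at hij
    have := h.tl _ _ _ _ h1 (wd_NZw j.2) (by omega) (wd_length j.2).le hij
    have h4 := congrArg List.length this.2
    rw [wd_length] at h4
    omega
  have key2 : ∀ i : BI d L, ∃ w', NZw w' ∧ w'.length ≤ L ∧ (p (ab p h0 i)).1 = bv p h0 i.1 w' := by
    intro i
    unfold ab
    rw [hp.inv]
    obtain ⟨w', h1, h2, h3⟩ := tau_fst (p := p) (h0 := h0) hL i
    exact ⟨w', h1, by omega, h3⟩
  refine ⟨?_, h.uu, h.ww, ?_, ?_, h.uw, key, ?_, ?_, ?_, h.naw⟩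
  · intro i j hij
    have := h.tl _ _ _ _ (wd_NZw i.2) (wd_NZw j.2) (wd_length i.2).le (wd_length j.2).le hij
    exact Prod.ext this.1 (wd_inj this.2)
  · intro i j
    exact h.bu _ _ _ (wd_NZw i.2) (wd_length i.2).le
  · intro i j
    exact h.bw _ _ _ (wd_NZw i.2) (wd_length i.2).le
  · intro i j
    obtain ⟨w', h1, h2, h3⟩ := key2 i
    rw [h3]; exact h.bu _ _ _ h1 h2
  · intro i j
    obtain ⟨w', h1, h2, h3⟩ := key2 i
    rw [h3]; exact h.bw _ _ _ h1 h2
  · intro i
    have := h.ntu i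
    unfold ab
    rwa [hp.inv]

/-- the interior half-edges of the ball are not touched -/
lemma BVal.out (hL : 1 ≤ L) (hp : IsPort p) (h : BVal L p h0 b) (s : Bool) {w : List (Fin d)}
    (hw : NZw w) (hl : w.length < L) :
    Out p (ab p h0) b (desc p (rt p h0 s) w) := by
  obtain ⟨s', w', hw', hl', hx⟩ := desc_fst (p := p) (h0 := h0) hp s w hw
  refine ⟨fun i hi => ?_, fun i hi => ?_, fun i hi => ?_, fun i hi => ?_⟩
  · have h1 : (ab p h0 i).1 = (desc p (rt p h0 s) w).1 := by rw [hi]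
    rw [hx, ab_fst] at h1
    have := h.tl _ _ _ _ (wd_NZw i.2) hw' (wd_length i.2).le (by omega) h1
    have h4 := congrArg List.length this.2
    rw [wd_length] at h4
    omega
  · have h1 : (b i).1 = (desc p (rt p h0 s) w).1 := by rw [hi]
    rw [hx] at h1
    exact h.bu s' w' i hw' (by omega) h1.symm
  · have h1 : (ab p h0 i).1 = bv p h0 s w := by
      unfold bv
      rw [← hi, hp.inv]
    rw [ab_fst] at h1
    have := h.tl _ _ _ _ (wd_NZw i.2) hw (wd_length i.2).le hl.le h1
    have h4 := congrArg List.length this.2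
    rw [wd_length] at h4
    omega
  · have h1 : (p (b i)).1 = (desc p (rt p h0 s) w).1 := by rw [hi]
    rw [hx] at h1
    exact h.bw s' w' i hw' (by omega) h1.symm

/-- the switched pairing -/
noncomputable def np (p : Equiv.Perm (HE n d)) (h0 : HE n d) {L : ℕ} (b : BI d L → HE n d) :
    Equiv.Perm (HE n d) := cj (ab p h0) b p

lemma BVal.np_interior (hL : 1 ≤ L) (hp : IsPort p) (h : BVal L p h0 b) (s : Bool)
    {w : List (Fin d)} (hw : NZw w) (hl : w.length < L) :
    np p h0 b (desc p (rt p h0 s) w) = p (desc p (rt p h0 s) w) :=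
  (h.out hL hp s hw hl).cj (isSP_of_isPort hp)

lemma BVal.rt_eq (hL : 1 ≤ L) (hp : IsPort p) (h : BVal L p h0 b) (s : Bool) :
    rt (np p h0 b) h0 s = rt p h0 s := by
  cases s
  · have := h.np_interior hL hp true (w := []) (by simp [NZw]) (by simp; omega)
    simpa [rt] using this
  · rfl

/-- words of length `≤ L` see the same half-edges -/
lemma BVal.desc_eq (hL : 1 ≤ L) (hp : IsPort p) (h : BVal L p h0 b) (s : Bool)
    {w : List (Fin d)} (hw : NZw w) (hl : w.length ≤ L) :
    desc (np p h0 b) (rt (np p h0 b) h0 s) w = desc p (rt p h0 s) w := by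
  induction w using List.reverseRecOn with
  | nil => simpa using h.rt_eq hL hp s
  | append_singleton w k ih =>
    have hl' : w.length < L := by simp at hl; omega
    rw [desc_snoc, desc_snoc, ih hw.append.1 hl'.le, h.np_interior hL hp s hw.append.1 hl']

lemma BVal.tau_eq (hL : 1 ≤ L) (hp : IsPort p) (h : BVal L p h0 b) (i : BI d L) :
    tau (np p h0 b) h0 i = tau p h0 i :=
  h.desc_eq hL hp _ (wd_NZw i.2) (wd_length i.2).le

lemma BVal.ab_eq (hL : 1 ≤ L) (hp : IsPort p) (h : BVal L p h0 b) (i : BI d L) :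
    ab (np p h0 b) h0 i = b i := by
  have h1 := (h.val hL hp).cj_t (isSP_of_isPort hp) i
  unfold ab
  rw [h.tau_eq hL hp]
  have h2 : p (ab p h0 i) = tau p h0 i := hp.inv _
  rw [h2] at h1
  exact h1

/-- interior ball vertices are unchanged -/
lemma BVal.bv_lt (hL : 1 ≤ L) (hp : IsPort p) (h : BVal L p h0 b) (s : Bool)
    {w : List (Fin d)} (hw : NZw w) (hl : w.length < L) :
    bv (np p h0 b) h0 s w = bv p h0 s w := by
  unfold bv
  rw [h.desc_eq hL hp s hw hl.le, h.np_interior hL hp s hw hl]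

/-- the new boundary vertices are the `u_i` -/
lemma BVal.bv_wd (hL : 1 ≤ L) (hp : IsPort p) (h : BVal L p h0 b) (i : BI d L) :
    bv (np p h0 b) h0 i.1 (wd i.2) = (b i).1 := by
  have := h.ab_eq hL hp i
  rw [← this]; rfl

/-- every ball vertex after the switching -/
lemma BVal.bv_cases (hL : 1 ≤ L) (hp : IsPort p) (h : BVal L p h0 b) (s : Bool)
    {w : List (Fin d)} (hw : NZw w) (hl : w.length ≤ L) :
    (w.length < L ∧ bv (np p h0 b) h0 s w = bv p h0 s w) ∨
      ∃ f : Fin L → NZ d, wd f = w ∧ bv (np p h0 b) h0 s w = (b (s, f)).1 := by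
  rcases lt_or_eq_of_le hl with h1 | h1
  · exact Or.inl ⟨h1, h.bv_lt hL hp s hw h1⟩
  · obtain ⟨f, hf⟩ := exists_wd hw h1
    refine Or.inr ⟨f, hf, ?_⟩
    rw [← hf]
    exact h.bv_wd hL hp (s, f)

lemma BVal.isPort (hL : 1 ≤ L) (hp : IsPort p) (h : BVal L p h0 b) : IsPort (np p h0 b) :=
  isPort_of_isSP ((h.val hL hp).isSP (isSP_of_isPort hp))

/-- **validity is symmetric** -/
theorem BVal.symm (hL : 1 ≤ L) (hp : IsPort p) (h : BVal L p h0 b) :
    BVal L (np p h0 b) h0 (ab p h0) := by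
  have hV := h.val hL hp
  have hS := hV.symm (isSP_of_isPort hp)
  have hab : ∀ i, ab (np p h0 b) h0 i = b i := fun i => h.ab_eq hL hp i
  have hpa : ∀ i, np p h0 b (ab p h0 i) = p (b i) := fun i => hV.cj_a i
  refine ⟨?_, ?_, ?_, hS.uu, hS.ww, hS.uw, ?_, ?_⟩
  · intro s s' w w' hw hw' hl hl' he
    rcases h.bv_cases hL hp s hw hl with ⟨h1, h2⟩ | ⟨f, h1, h2⟩ <;>
    rcases h.bv_cases hL hp s' hw' hl' with ⟨h3, h4⟩ | ⟨g, h3, h4⟩
    · rw [h2, h4] at he
      exact h.tl _ _ _ _ hw hw' hl hl' he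
    · rw [h2, h4] at he
      exact absurd he (h.bu s w _ hw hl)
    · rw [h2, h4] at he
      exact absurd he.symm (h.bu s' w' _ hw' hl')
    · rw [h2, h4] at he
      have := h.uu _ _ he
      simp only [Prod.mk.injEq] at this
      exact ⟨this.1, by rw [← h1, ← h3, this.2]⟩
  · intro s w i hw hl
    rcases h.bv_cases hL hp s hw hl with ⟨h1, h2⟩ | ⟨f, h1, h2⟩
    · rw [h2]
      intro he
      rw [ab_fst] at he
      have := h.tl _ _ _ _ hw (wd_NZw i.2) hl (wd_length i.2).le he
      have h4 := congrArg List.length this.2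
      rw [wd_length] at h4
      omega
    · rw [h2]
      exact (hV.au _ _).symm
  · intro s w i hw hl
    rw [hpa]
    rcases h.bv_cases hL hp s hw hl with ⟨h1, h2⟩ | ⟨f, h1, h2⟩
    · rw [h2]; exact h.bw s w i hw hl
    · rw [h2]; exact h.uw _ _
  · intro i
    have h1 := hS.ntu i
    rw [← hab i] at h1
    have h2 : (np p h0 b) (ab (np p h0 b) h0 i) = tau (np p h0 b) h0 i := by
      unfold ab
      exact (h.isPort hL hp).inv _
    have h3 : cj (ab p h0) b p = np p h0 b := rfl
    rw [h3, h2] at h1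
    exact h1
  · intro i
    have h1 := hS.naw i
    rw [hab]
    exact h1

/-- switching back -/
theorem BVal.np_np (hL : 1 ≤ L) (hp : IsPort p) (h : BVal L p h0 b) :
    np (np p h0 b) h0 (ab p h0 : BI d L → HE n d) = p := by
  have hab : ab (np p h0 b) h0 = b := funext fun i => h.ab_eq hL hp i
  unfold np
  have h3 : cj (ab p h0) b p = np p h0 b := rfl
  rw [h3, hab]
  exact cj_cj _ _ _

end

/-! ### the lazy switching -/

open Classical in
/-- the lazy switching -/
noncomputable def bsw (L : ℕ) (p : Equiv.Perm (HE n d)) (m : HE n d × (BI d L → HE n d)) :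
    Equiv.Perm (HE n d) × (HE n d × (BI d L → HE n d)) :=
  if BVal L p m.1 m.2 then (np p m.1 m.2, (m.1, ab p m.1)) else (p, m)

lemma bsw_pos {L : ℕ} {p : Equiv.Perm (HE n d)} {m : HE n d × (BI d L → HE n d)}
    (h : BVal L p m.1 m.2) : bsw L p m = (np p m.1 m.2, (m.1, ab p m.1)) := by
  unfold bsw; rw [if_pos h]

lemma bsw_neg {L : ℕ} {p : Equiv.Perm (HE n d)} {m : HE n d × (BI d L → HE n d)}
    (h : ¬ BVal L p m.1 m.2) : bsw L p m = (p, m) := by
  unfold bsw; rw [if_neg h]

/-- **the ball-boundary resampling is a move system** -/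
theorem moveSystem (n d L : ℕ) [NeZero d] (hL : 1 ≤ L) :
    Sec269.MoveSystem (Ports n d)
      (Finset.univ : Finset (HE n d × (BI d L → HE n d))) (Finset.univ : Finset (HE n d)) Prod.fst
      (Fintype.card (BI d L → HE n d)) (bsw L) where
  ctr_mem := fun _ _ => Finset.mem_univ _
  ctr_card := fun e _ _ => by
    classical
    have : (Finset.univ.filter fun m : HE n d × (BI d L → HE n d) => m.1 = e)
        = (Finset.univ : Finset (BI d L → HE n d)).map
          ⟨fun b => (e, b), fun _ _ h => (Prod.mk.inj h).2⟩ := by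
      ext m
      rw [Finset.mem_filter, Finset.mem_map]
      constructor
      · rintro ⟨_, h⟩
        exact ⟨m.2, Finset.mem_univ _, Prod.ext h.symm rfl⟩
      · rintro ⟨y', _, h⟩
        exact ⟨Finset.mem_univ _, (congrArg Prod.fst h).symm⟩
    rw [this, Finset.card_map, Finset.card_univ]
  mem_left := fun p hp m _ => by
    rw [mem_Ports] at hp
    by_cases h : BVal L p m.1 m.2
    · rw [bsw_pos h, mem_Ports]; exact h.isPort hL hp
    · rw [bsw_neg h, mem_Ports]; exact hp
  mem_right := fun _ _ _ _ => Finset.mem_univ _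
  inv := fun p hp m _ => by
    rw [mem_Ports] at hp
    by_cases h : BVal L p m.1 m.2
    · rw [bsw_pos h]
      have h2 := h.symm hL hp
      rw [bsw_pos (m := (m.1, ab p m.1)) h2]
      have h3 : ab (np p m.1 m.2) m.1 = m.2 := funext fun i => h.ab_eq hL hp i
      simp only [h.np_np hL hp, h3]
    · rw [bsw_neg h, bsw_neg h]
  ctr_sw := fun p _ m _ => by
    by_cases h : BVal L p m.1 m.2
    · rw [bsw_pos h]
    · rw [bsw_neg h]

end ball

end Crest.Agent.R166.SwP470
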