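import Crest.Agent.R166.Exc_501
import Crest.Agent.R166.TreeTL_798

-- ▼ part R166/ExcD_501
section

/-!
Row 166, section 31.5 (helper501): a vertex whose ball spans a tree is tree-like in the sense of
nonbacktracking walks.
-/

set_option autoImplicit false

namespace Crest.Agent.R166.Exc501

open Finset Classical

noncomputable section

variable {V : Type*} [Fintype V]

/-- if the ball is a tree, every edge of the ball is a parent edge. -/
theorem edge_is_parent {G : SimpleGraph V} {v : V} {L : ℕ} (h : ¬ EL G L v) {a b : V}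
    (ha : a ∈ bl G v L) (hb : b ∈ bl G v L) (hab : G.Adj a b) :
    (a ≠ v ∧ par G v a = b) ∨ (b ≠ v ∧ par G v b = a) := by
  set B := bl G v L with hB
  by_contra hcon
  apply h
  unfold EL eIn
  rw [← hB]
  -- the map `u ↦ {u, par u}` is injective on `B \ {v}` and misses `{a,b}`
  set T : Finset (Sym2 V) := (B.erase v).image fun u => s(u, par G v u) with hT
  have hTcard : T.card = B.card - 1 := by
    rw [hT, Finset.card_image_of_injOn, Finset.card_erase_of_mem (hB ▸ self_mem_bl)]
    intro u hu u' hu' heq
    rw [Finset.mem_coe, Finset.mem_erase] at hu hu'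
    have h1 := par_spec hu.2 hu.1
    have h2 := par_spec hu'.2 hu'.1
    have heq' : s(u, par G v u) = s(u', par G v u') := heq
    rw [Sym2.eq_iff] at heq'
    rcases heq' with ⟨h3, _⟩ | ⟨h3, h4⟩
    · exact h3
    · rw [h4] at h1
      rw [← h3] at h2
      have := h1.2.2
      have := h2.2.2
      omega
  have hTsub : T ⊆ edIn G B := by
    intro e he
    rw [hT, Finset.mem_image] at he
    obtain ⟨u, hu, rfl⟩ := he
    rw [Finset.mem_erase] at hu
    have := par_spec hu.2 hu.1
    rw [mk_mem_edIn]
    exact ⟨this.1, hu.2, this.2.1⟩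
  have hnot : s(a, b) ∉ T := by
    intro he
    rw [hT, Finset.mem_image] at he
    obtain ⟨u, hu, heq⟩ := he
    rw [Finset.mem_erase] at hu
    rw [Sym2.eq_iff] at heq
    rcases heq with ⟨h3, h4⟩ | ⟨h3, h4⟩
    · subst h3
      exact hcon (Or.inl ⟨hu.1, h4⟩)
    · subst h3
      exact hcon (Or.inr ⟨hu.1, h4⟩)
  have hins : insert s(a, b) T ⊆ edIn G B := by
    intro e he
    rw [Finset.mem_insert] at he
    rcases he with rfl | he
    · rw [mk_mem_edIn]; exact ⟨hab, ha, hb⟩
    · exact hTsub he
  have := Finset.card_le_card hins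
  rw [Finset.card_insert_of_notMem hnot, hTcard] at this
  have h3 : 0 < B.card := Finset.card_pos.2 ⟨v, self_mem_bl⟩
  omega

lemma lev_par {G : SimpleGraph V} {v u : V} {k : ℕ} (h : u ∈ bl G v k) (hne : u ≠ v) :
    lev G v u = lev G v (par G v u) + 1 := by
  have h1 := par_spec h hne
  have h2 : u ∈ bl G v (lev G v (par G v u) + 1) :=
    adj_mem_bl (mem_bl_lev h1.2.1) h1.1.symm
  have := lev_le h2
  have := h1.2.2
  omega

/-- along a nonbacktracking walk in a tree ball, the parent of `x (j+1)` is `x j`. -/
theorem walk_parent {G : SimpleGraph V} {v : V} {L : ℕ} (h : ¬ EL G L v) (x : ℕ → V) (r : ℕ)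
    (hr : r ≤ L) (h0 : x 0 = v) (hadj : ∀ j < r, G.Adj (x j) (x (j+1)))
    (hnb : ∀ j, j + 2 ≤ r → x j ≠ x (j+2)) :
    ∀ j < r, x (j+1) ≠ v ∧ par G v (x (j+1)) = x j ∧ lev G v (x (j+1)) = j + 1 ∧
      x (j+1) ∈ bl G v (j+1) := by
  intro j
  induction j with
  | zero =>
    intro hj
    have h1 := hadj 0 hj
    have hx1 : x 1 ∈ bl G v 1 := by
      rw [mem_bl_one]; right; rw [← h0]; exact h1
    have hne : x 1 ≠ v := by
      rw [← h0]; exact h1.ne'
    have hp := edge_is_parent h (a := x 0) (b := x 1) (by rw [h0]; exact self_mem_bl)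
      (bl_mono (by omega) hx1) h1
    rcases hp with ⟨hp, _⟩ | ⟨_, hp⟩
    · exact absurd h0 hp
    · refine ⟨hne, hp, ?_, hx1⟩
      rw [lev_par hx1 hne]
      rw [hp, h0, lev_self]
  | succ j ih =>
    intro hj
    obtain ⟨ih1, ih2, ih3, ih4⟩ := ih (by omega)
    have h1 := hadj (j+1) hj
    have hx : x (j+1+1) ∈ bl G v (j+1+1) := adj_mem_bl ih4 h1
    have hp := edge_is_parent h (a := x (j+1)) (b := x (j+1+1))
      (bl_mono (by omega) ih4) (bl_mono (by omega) hx) h1
    rcases hp with ⟨_, hp⟩ | ⟨hne, hp⟩
    · rw [ih2] at hp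
      exact absurd hp (hnb j (by omega))
    · refine ⟨hne, hp, ?_, hx⟩
      rw [lev_par hx hne, hp, ih3]

/-- in a tree ball, nonbacktracking walks from the centre are determined by their end points. -/
theorem walk_inj {G : SimpleGraph V} {v : V} {L : ℕ} (h : ¬ EL G L v) (x y : ℕ → V) (r s : ℕ)
    (hr : r ≤ L) (hs : s ≤ L) (hx0 : x 0 = v) (hy0 : y 0 = v)
    (hx : ∀ j < r, G.Adj (x j) (x (j+1))) (hy : ∀ j < s, G.Adj (y j) (y (j+1)))
    (hxnb : ∀ j, j + 2 ≤ r → x j ≠ x (j+2)) (hynb : ∀ j, j + 2 ≤ s → y j ≠ y (j+2))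
    (heq : x r = y s) : r = s ∧ ∀ j ≤ r, x j = y j := by
  have hX := walk_parent h x r hr hx0 hx hxnb
  have hY := walk_parent h y s hs hy0 hy hynb
  have hlx : ∀ j ≤ r, lev G v (x j) = j := by
    intro j hj
    rcases j with _ | j
    · rw [hx0, lev_self]
    · exact (hX j (by omega)).2.2.1
  have hly : ∀ j ≤ s, lev G v (y j) = j := by
    intro j hj
    rcases j with _ | j
    · rw [hy0, lev_self]
    · exact (hY j (by omega)).2.2.1
  have hrs : r = s := by
    have h1 := hlx r le_rfl
    have h2 := hly s le_rfl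
    rw [heq] at h1
    omega
  refine ⟨hrs, ?_⟩
  subst hrs
  have key : ∀ i ≤ r, x (r - i) = y (r - i) := by
    intro i
    induction i with
    | zero => intro _; simpa using heq
    | succ i ih =>
      intro hi
      have h1 := ih (by omega)
      have e : r - i = (r - (i+1)) + 1 := by omega
      rw [e] at h1
      have h2 := (hX (r - (i+1)) (by omega)).2.1
      have h3 := (hY (r - (i+1)) (by omega)).2.1
      rw [← h2, ← h3, h1]
  intro j hj
  have := key (r - j) (by omega)
  rwa [show r - (r - j) = j by omega] at this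

end

end Crest.Agent.R166.Exc501
end

-- ▼ part R166/BridgeEL_501

/-!
Row 166, section 31.5 (helper501): a vertex whose ball spans a tree (`¬ EL`) is tree-like in the
sense of helper470/798: `TL L p h` for every half-edge `h` at `v`.
-/

set_option autoImplicit false

open Finset

namespace Crest.Agent.R166.Exc501

open Crest.Agent.R166 Crest.Agent.R166.Tree798

section

variable {n d : ℕ} [NeZero d] {p : Equiv.Perm (HE n d)}

lemma one_ne (hd : 2 ≤ d) : (1 : Fin d) ≠ 0 := by
  intro h
  have := congrArg Fin.val h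
  rw [Fin.val_one', Nat.mod_eq_of_lt (by omega)] at this
  simp at this

/-- the endpoint of the walk -/
lemma vs_last (g : HE n d) (u : List (Fin d)) :
    vs p g (u ++ [1]) (u.length + 1) = (p (desc p g u)).1 := by
  rw [vs_succ _ _ _ (by simp)]
  congr 3
  simp

lemma vs_mid (g : HE n d) (u : List (Fin d)) {j : ℕ} (hj : j ≤ u.length) :
    vs p g (u ++ [1]) (j + 1) = (p (desc p g (u.take j))).1 := by
  rw [vs_succ _ _ _ (by simp; omega)]
  congr 3
  rw [List.take_append_of_le_length hj]

/-- two words with the same endpoint -/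
theorem word_inj (hd : 2 ≤ d) (hp : IsPort p) {v : Fin n} {L : ℕ}
    (h : ¬ EL (graphOf p) (L + 1) v) {g g' : HE n d} (hg : g.1 = v) (hg' : g'.1 = v)
    {w w' : List (Fin d)} (hw : NZ w) (hw' : NZ w') (hl : w.length ≤ L) (hl' : w'.length ≤ L)
    (he : (p (desc p g w)).1 = (p (desc p g' w')).1) : g = g' ∧ w = w' := by
  have hnz1 : NZ ([1] : List (Fin d)) := by
    intro k hk
    simp only [List.mem_singleton] at hk
    rw [hk]
    exact one_ne hd
  have h1 := walk_inj h (vs p g (w ++ [1])) (vs p g' (w' ++ [1])) (w.length + 1)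
    (w'.length + 1) (by omega) (by omega) hg hg'
    (fun j hj => vs_adj hp g _ j (by simp; omega)) (fun j hj => vs_adj hp g' _ j (by simp; omega))
    (fun j hj => vs_ne_two hp g _ (NZ_append.2 ⟨hw, hnz1⟩) j (by simp; omega))
    (fun j hj => vs_ne_two hp g' _ (NZ_append.2 ⟨hw', hnz1⟩) j (by simp; omega))
    (by rw [vs_last, vs_last]; exact he)
  obtain ⟨hlen, hall⟩ := h1
  have hlen' : w.length = w'.length := by omega
  have hstep : ∀ j ≤ w.length, desc p g (w.take j) = desc p g' (w'.take j) ∧
      w.take j = w'.take j := by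
    intro j
    induction j with
    | zero =>
      intro _
      have h2 := hall 1 (by omega)
      rw [vs_mid g w (Nat.zero_le _), vs_mid g' w' (Nat.zero_le _)] at h2
      refine ⟨hp.fst_inj ?_ h2, by simp⟩
      simp [hg, hg']
    | succ j ih =>
      intro hj
      obtain ⟨ih1, ih2⟩ := ih (by omega)
      have e1 := desc_take_succ p g w j (by omega)
      have e2 := desc_take_succ p g' w' j (by omega)
      have h2 := hall (j + 2) (by omega)
      rw [vs_mid g w hj, vs_mid g' w' (by omega)] at h2
      have h3 : (desc p g (w.take (j + 1))).1 = (desc p g' (w'.take (j + 1))).1 := by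
        rw [e1, e2, ih1]; rfl
      have h4 := hp.fst_inj h3 h2
      refine ⟨h4, ?_⟩
      rw [e1, e2, ih1] at h4
      have h5 : w[j] = w'[j] := by
        have := congrArg Prod.snd h4
        simpa [child, rot] using this
      rw [List.take_succ_eq_append_getElem (by omega : j < w.length),
        List.take_succ_eq_append_getElem (by omega : j < w'.length), ih2, h5]
  refine ⟨by simpa using (hstep 0 (Nat.zero_le _)).1, ?_⟩
  have h6 := (hstep w.length le_rfl).2
  rw [List.take_length] at h6
  rw [h6, hlen', List.take_length]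

/-- the walk never comes back to its starting point -/
theorem word_ne (hd : 2 ≤ d) (hp : IsPort p) {v : Fin n} {L : ℕ}
    (h : ¬ EL (graphOf p) (L + 1) v) {g : HE n d} (hg : g.1 = v)
    {w : List (Fin d)} (hw : NZ w) (hl : w.length ≤ L) :
    (p (desc p g w)).1 ≠ v := by
  have hnz1 : NZ ([1] : List (Fin d)) := by
    intro k hk
    simp only [List.mem_singleton] at hk
    rw [hk]
    exact one_ne hd
  intro he
  have h1 := walk_inj h (vs p g (w ++ [1])) (fun _ => v) (w.length + 1)
    0 (by omega) (by omega) hg rfl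
    (fun j hj => vs_adj hp g _ j (by simp; omega)) (fun j hj => absurd hj (by omega))
    (fun j hj => vs_ne_two hp g _ (NZ_append.2 ⟨hw, hnz1⟩) j (by simp; omega))
    (fun j hj => absurd hj (by omega))
    (by rw [vs_last]; exact he)
  omega

/-- **bridge**: `¬ EL` at radius `L+1` implies tree-likeness at depth `L` of all half-edges. -/
theorem TL_of_not_EL (hd : 2 ≤ d) (hp : IsPort p) {L : ℕ} {h : HE n d}
    (hE : ¬ EL (graphOf p) (L + 1) h.1) : SwP470.TL L p h := by
  have hpp : ∀ k, desc p (p h) [k] = rot k h := by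
    intro k
    show rot k (p (p h)) = rot k h
    rw [hp.inv]
  have hcons : ∀ k (w : List (Fin d)), SwP470.bv p h false (k :: w) =
      (p (desc p (rot k h) w)).1 := by
    intro k w
    show (p (desc p (child p (p h) k) w)).1 = _
    have : child p (p h) k = rot k h := hpp k
    rw [this]
  have hnil : SwP470.bv p h false [] = h.1 := by
    show (p (p h)).1 = h.1
    rw [hp.inv]
  have htrue : ∀ w, SwP470.bv p h true w = (p (desc p h w)).1 := fun w => rfl
  have hNZ : ∀ {k : Fin d} {w : List (Fin d)}, SwP470.NZw (k :: w) → k ≠ 0 ∧ NZ w :=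
    fun {k w} hw => ⟨hw k (by simp), fun x hx => hw x (by simp [hx])⟩
  intro s s' w w' hw hw' hl hl' he
  cases s <;> cases s'
  · -- both false
    cases w with
    | nil =>
      cases w' with
      | nil => exact ⟨rfl, rfl⟩
      | cons k w' =>
        rw [hnil, hcons] at he
        simp only [List.length_cons] at hl'
        exact absurd he.symm (word_ne hd hp hE (rot_fst k h) (hNZ hw').2 (by omega))
    | cons k w =>
      simp only [List.length_cons] at hl
      cases w' with
      | nil =>
        rw [hnil, hcons] at he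
        exact absurd he (word_ne hd hp hE (rot_fst k h) (hNZ hw).2 (by omega))
      | cons k' w' =>
        simp only [List.length_cons] at hl'
        rw [hcons, hcons] at he
        have h1 := word_inj hd hp hE (rot_fst k h) (rot_fst k' h) (hNZ hw).2 (hNZ hw').2
          (by omega) (by omega) he
        refine ⟨rfl, ?_⟩
        have h2 : k = k' := by
          have := congrArg Prod.snd h1.1
          simpa [rot] using this
        rw [h2, h1.2]
  · cases w with
    | nil =>
      rw [hnil, htrue] at he
      exact absurd he.symm (word_ne hd hp hE rfl hw' hl')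
    | cons k w =>
      simp only [List.length_cons] at hl
      rw [hcons, htrue] at he
      have h1 := word_inj hd hp hE (rot_fst k h) rfl (hNZ hw).2 hw' (by omega) hl' he
      exact absurd ((rot_eq_iff k h).1 h1.1) (hNZ hw).1
  · cases w' with
    | nil =>
      rw [hnil, htrue] at he
      exact absurd he (word_ne hd hp hE rfl hw hl)
    | cons k w' =>
      simp only [List.length_cons] at hl'
      rw [hcons, htrue] at he
      have h1 := word_inj hd hp hE (rot_fst k h) rfl (hNZ hw').2 hw (by omega) hl he.symm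
      exact absurd ((rot_eq_iff k h).1 h1.1) (hNZ hw').1
  · rw [htrue, htrue] at he
    exact ⟨rfl, (word_inj hd hp hE rfl rfl hw hw' hl hl' he).2⟩

end

end Crest.Agent.R166.Exc501
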