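import Crest.Agent.R166.Dec2_598

-- ▼ part R166/Dec3_598
section

/-!
# Row 166, section 30.3: the leaf matrix (helper598)
-/

set_option autoImplicit false
set_option linter.unusedSectionVars false

open Matrix

namespace Crest.Agent.R166.Dec598

open Crest.Agent.R166.Res598

/-! ## more on `Near` -/

section near

variable {ι κ : Type*} [Fintype ι] [DecidableEq ι] [Fintype κ] [DecidableEq κ]

theorem near_trans {ε ε' : ℝ} (hε : 0 ≤ ε) (hε' : 0 ≤ ε') {Z₁ Z₂ Z₃ : Matrix ι ι ℂ}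
    (h1s : Siegel Z₁) (h1 : Near ε Z₁ Z₂) (h2 : Near ε' Z₂ Z₃) :
    Near (ε + ε' * (1 + ε)) Z₁ Z₃ := by
  refine ⟨h2.1, fun x y => ?_⟩
  have hle : ∀ v : ι → ℂ, nq (imM Z₂) v ≤ Real.sqrt (1 + ε) * nq (imM Z₁) v := by
    intro v
    unfold nq
    rw [← Real.sqrt_mul (by linarith)]
    exact Real.sqrt_le_sqrt (h1.qf_le h1s v)
  have e : Z₃ - Z₁ = (Z₂ - Z₁) + (Z₃ - Z₂) := by abel
  rw [e, Matrix.add_mulVec, dotProduct_add]
  have ha := h1.2 x y
  have hb := h2.2 x y
  have hs : Real.sqrt (1 + ε) * Real.sqrt (1 + ε) = 1 + ε := Real.mul_self_sqrt (by linarith)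
  have hc : nq (imM Z₂) x * nq (imM Z₂) y ≤ (1 + ε) * (nq (imM Z₁) x * nq (imM Z₁) y) := by
    calc _ ≤ (Real.sqrt (1 + ε) * nq (imM Z₁) x) * (Real.sqrt (1 + ε) * nq (imM Z₁) y) :=
          mul_le_mul (hle x) (hle y) (nq_nonneg _ _)
            (mul_nonneg (Real.sqrt_nonneg _) (nq_nonneg _ _))
      _ = (Real.sqrt (1 + ε) * Real.sqrt (1 + ε)) * (nq (imM Z₁) x * nq (imM Z₁) y) := by ring
      _ = _ := by rw [hs]
  calc _ ≤ ε * nq (imM Z₁) x * nq (imM Z₁) y + ε' * nq (imM Z₂) x * nq (imM Z₂) y :=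
        le_trans (norm_add_le _ _) (add_le_add ha hb)
    _ ≤ ε * nq (imM Z₁) x * nq (imM Z₁) y +
        ε' * ((1 + ε) * (nq (imM Z₁) x * nq (imM Z₁) y)) := by
        rw [mul_assoc ε' (nq (imM Z₂) x)]
        linarith [mul_le_mul_of_nonneg_left hc hε']
    _ = _ := by ring

lemma diagonal_symm (d : ι → ℂ) : (diagonal d)ᵀ = diagonal d := diagonal_transpose d

lemma qf_diagonal (d : ι → ℂ) (x : ι → ℂ) :
    qf (imM (diagonal d)) x = ∑ i, (d i).im * ‖x i‖ ^ 2 := by
  rw [← im_form (diagonal_symm d)]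
  simp only [dotProduct, Pi.star_apply, mulVec_diagonal, Complex.im_sum]
  refine Finset.sum_congr rfl fun i _ => ?_
  rw [← Complex.normSq_eq_norm_sq, Complex.normSq_apply]
  simp
  ring

theorem siegel_diagonal {d : ι → ℂ} (h : ∀ i, 0 < (d i).im) : Siegel (diagonal d) := by
  refine ⟨diagonal_symm d, posDef_of_qf (imM_symm (diagonal_symm d)) fun x hx => ?_⟩
  rw [qf_diagonal]
  obtain ⟨i, hi⟩ : ∃ i, x i ≠ 0 := by
    by_contra h'
    push Not at h'
    exact hx (funext h')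
  exact Finset.sum_pos' (fun j _ => mul_nonneg (h j).le (by positivity))
    ⟨i, Finset.mem_univ _, mul_pos (h i) (by positivity)⟩

lemma norm_le_nq_diagonal {d : ι → ℂ} (h : ∀ i, 0 < (d i).im) (x : ι → ℂ) (i : ι) :
    Real.sqrt (d i).im * ‖x i‖ ≤ nq (imM (diagonal d)) x := by
  unfold nq
  rw [qf_diagonal]
  apply Real.le_sqrt_of_sq_le
  rw [mul_pow, Real.sq_sqrt (h i).le]
  exact Finset.single_le_sum (f := fun i => (d i).im * ‖x i‖ ^ 2)
    (fun j _ => mul_nonneg (h j).le (by positivity)) (Finset.mem_univ i)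

/-- a matrix with small off diagonal entries is near its diagonal -/
theorem near_diagonal {Ξ : Matrix ι ι ℂ} (hΞ : Ξᵀ = Ξ) {b : ι → ι → ℝ}
    (hpos : ∀ i, 0 < (Ξ i i).im)
    (hb : ∀ i k, i ≠ k → ‖Ξ i k‖ ≤ b i k * (Real.sqrt (Ξ i i).im * Real.sqrt (Ξ k k).im))
    (hb0 : ∀ i k, 0 ≤ b i k) :
    Near (∑ i, ∑ k, if i = k then 0 else b i k) (diagonal fun i => Ξ i i) Ξ := by
  refine ⟨hΞ, fun x y => ?_⟩
  have e1 : x ⬝ᵥ ((Ξ - diagonal fun i => Ξ i i) *ᵥ y) =
      ∑ i, ∑ k, if i = k then 0 else x i * (Ξ i k * y k) := by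
    simp only [dotProduct, Matrix.mulVec, Finset.mul_sum, Matrix.sub_apply, diagonal_apply]
    refine Finset.sum_congr rfl fun i _ => Finset.sum_congr rfl fun k _ => ?_
    by_cases h : i = k
    · subst h; simp
    · simp [h]
  rw [e1, Finset.sum_mul, Finset.sum_mul]
  refine le_trans (norm_sum_le _ _) (Finset.sum_le_sum fun i _ => ?_)
  rw [Finset.sum_mul, Finset.sum_mul]
  refine le_trans (norm_sum_le _ _) (Finset.sum_le_sum fun k _ => ?_)
  by_cases h : i = k
  · simp [h]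
  · rw [if_neg h, if_neg h, norm_mul, norm_mul]
    have h1 := norm_le_nq_diagonal hpos x i
    have h2 := norm_le_nq_diagonal hpos y k
    calc ‖x i‖ * (‖Ξ i k‖ * ‖y k‖) ≤
          ‖x i‖ * ((b i k * (Real.sqrt (Ξ i i).im * Real.sqrt (Ξ k k).im)) * ‖y k‖) := by
          apply mul_le_mul_of_nonneg_left _ (norm_nonneg _)
          exact mul_le_mul_of_nonneg_right (hb i k h) (norm_nonneg _)
      _ = b i k * ((Real.sqrt (Ξ i i).im * ‖x i‖) * (Real.sqrt (Ξ k k).im * ‖y k‖)) := by ring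
      _ ≤ b i k * (nq (imM (diagonal fun i => Ξ i i)) x *
            nq (imM (diagonal fun i => Ξ i i)) y) := by
          apply mul_le_mul_of_nonneg_left _ (hb0 i k)
          exact mul_le_mul h1 h2 (by positivity) (nq_nonneg _ _)
      _ = _ := by ring

/-- 2x2 blocks: near the diagonal -/
theorem near_two {C : Matrix (Fin 2) (Fin 2) ℂ} (hC : Siegel C) {ρ : ℝ} (hρ : 0 ≤ ρ)
    (h : ‖C 0 1‖ ≤ ρ * (Real.sqrt (C 0 0).im * Real.sqrt (C 1 1).im)) :
    Near ρ (diagonal fun i => C i i) C := by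
  have hpos : ∀ i, 0 < (C i i).im := by
    intro i
    have := hC.pos.diag_pos (i := i)
    simpa using this
  have hs : C 1 0 = C 0 1 := by
    have := congrFun (congrFun hC.symm 0) 1
    simpa using this
  refine ⟨hC.symm, fun x y => ?_⟩
  have e1 : x ⬝ᵥ ((C - diagonal fun i => C i i) *ᵥ y) = C 0 1 * (x 0 * y 1 + x 1 * y 0) := by
    simp only [dotProduct, Matrix.mulVec, Fin.sum_univ_two, Matrix.sub_apply, diagonal_apply]
    simp [hs]
    ring
  rw [e1, norm_mul]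
  set a := Real.sqrt (C 0 0).im with ha
  set b := Real.sqrt (C 1 1).im with hb
  have ha0 : 0 ≤ a := Real.sqrt_nonneg _
  have hb0 : 0 ≤ b := Real.sqrt_nonneg _
  have hnq : ∀ v : Fin 2 → ℂ, nq (imM (diagonal fun i => C i i)) v =
      Real.sqrt ((a * ‖v 0‖) ^ 2 + (b * ‖v 1‖) ^ 2) := by
    intro v
    rw [nq, qf_diagonal, Fin.sum_univ_two, mul_pow, mul_pow, ha, hb, Real.sq_sqrt (hpos 0).le,
      Real.sq_sqrt (hpos 1).le]
  rw [hnq, hnq]
  have h2 : ‖x 0 * y 1 + x 1 * y 0‖ ≤ ‖x 0‖ * ‖y 1‖ + ‖x 1‖ * ‖y 0‖ := by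
    refine le_trans (norm_add_le _ _) ?_
    rw [norm_mul, norm_mul]
  have h3 : (a * ‖x 0‖) * (b * ‖y 1‖) + (b * ‖x 1‖) * (a * ‖y 0‖) ≤
      Real.sqrt ((a * ‖x 0‖) ^ 2 + (b * ‖x 1‖) ^ 2) *
        Real.sqrt ((a * ‖y 0‖) ^ 2 + (b * ‖y 1‖) ^ 2) := by
    rw [← Real.sqrt_mul (by positivity)]
    apply Real.le_sqrt_of_sq_le
    nlinarith [sq_nonneg ((a * ‖x 0‖) * (a * ‖y 0‖) - (b * ‖x 1‖) * (b * ‖y 1‖))]
  calc ‖C 0 1‖ * ‖x 0 * y 1 + x 1 * y 0‖ ≤
        (ρ * (a * b)) * (‖x 0‖ * ‖y 1‖ + ‖x 1‖ * ‖y 0‖) :=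
        mul_le_mul h h2 (norm_nonneg _) (by positivity)
    _ = ρ * ((a * ‖x 0‖) * (b * ‖y 1‖) + (b * ‖x 1‖) * (a * ‖y 0‖)) := by ring
    _ ≤ ρ * (Real.sqrt ((a * ‖x 0‖) ^ 2 + (b * ‖x 1‖) ^ 2) *
        Real.sqrt ((a * ‖y 0‖) ^ 2 + (b * ‖y 1‖) ^ 2)) := mul_le_mul_of_nonneg_left h3 hρ
    _ = _ := by ring

end near

/-! ## the leaf matrix -/

section leaf

variable {B A J : Type*} [Fintype B] [DecidableEq B]
  [Fintype A] [DecidableEq A] [Fintype J] [DecidableEq J]

/-- entries of the leaf matrix at the good leaves: diagonal up to the product of the two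
normalised off-diagonal entries -/
theorem leafXi_entry {Sg : Matrix B B ℂ} (hSg : Siegel Sg) {C : J → Matrix (Fin 2) (Fin 2) ℂ}
    (hC : ∀ j, Siegel (C j)) (aJ : J → B) (uA : A → B) (j k : J) :
    ‖leafXi Sg C aJ uA (Sum.inr j) (Sum.inr k) - (if j = k then C j 0 0 else 0)‖ ≤
      (‖C j 0 1‖ / Real.sqrt (C j 1 1).im) * (‖C k 0 1‖ / Real.sqrt (C k 1 1).im) := by
  have hpos : ∀ j, 0 < (C j 1 1).im := by
    intro j
    have := (hC j).pos.diag_pos (i := 1)
    simpa using this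
  have hs : ∀ j, C j 1 0 = C j 0 1 := by
    intro j
    have := congrFun (congrFun (hC j).symm 0) 1
    simpa using this
  set M0 : Matrix (B ⊕ (Fin 2 × J)) (B ⊕ (Fin 2 × J)) ℂ :=
    fromBlocks Sg 0 0 (blockDiagonal C) with hM0
  have hM0s : Siegel M0 := siegel_fromBlocks hSg (siegel_blockDiagonal hC)
  set g : B ⊕ J → B ⊕ (Fin 2 × J) := Sum.map id (fun j => (1, j)) with hg
  have hginj : Function.Injective g :=
    Sum.map_injective.2 ⟨Function.injective_id, fun a b h => (Prod.mk.inj h).2⟩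
  have hE : edgeM (fun j : J => (Sum.inl (aJ j) : B ⊕ (Fin 2 × J))) (fun j => Sum.inr (1, j)) =
      lift (emb g) (edgeM (fun j : J => Sum.inl (aJ j)) Sum.inr) := by
    rw [lift_edgeM]; rfl
  have key := mob_lift_sub_le (inj_emb hginj) hM0s
    (edgeM_symm (fun j : J => (Sum.inl (aJ j) : B ⊕ J)) Sum.inr)
    (Pi.single (Sum.inr (0, j)) 1) (Pi.single (Sum.inr (0, k)) 1)
  rw [← hE] at key
  have hent : ∀ (M : Matrix (B ⊕ (Fin 2 × J)) (B ⊕ (Fin 2 × J)) ℂ) (x y : B ⊕ (Fin 2 × J)),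
      Pi.single x (1 : ℂ) ⬝ᵥ (M *ᵥ Pi.single y (1 : ℂ)) = M x y := by
    intro M x y
    rw [single_one_dotProduct, Matrix.mulVec_single_one]
    rfl
  rw [hent, Matrix.sub_apply] at key
  have hM0e : M0 (Sum.inr (0, j)) (Sum.inr (0, k)) = if j = k then C j 0 0 else 0 := by
    simp [hM0, blockDiagonal_apply]
  have hvec : ∀ l : J, nq (imM (cor (emb g) M0))⁻¹
      ((cx (emb g))ᵀ *ᵥ (M0 *ᵥ Pi.single (Sum.inr (0, l)) 1)) ≤
      ‖C l 0 1‖ / Real.sqrt (C l 1 1).im := by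
    intro l
    have hcs : Siegel (cor (emb g) M0) := hM0s.cor (inj_emb hginj)
    have hl : 0 < Real.sqrt (C l 1 1).im := Real.sqrt_pos.2 (hpos l)
    apply nq_inv_le_of hcs.pos (by positivity)
    intro a
    -- the vector
    have hv : ∀ i, ((cx (emb g))ᵀ *ᵥ (M0 *ᵥ Pi.single (Sum.inr (0, l)) 1)) i =
        M0 (g i) (Sum.inr (0, l)) := by
      intro i
      rw [Matrix.mulVec_mulVec, emb_mul, Matrix.mulVec_single_one]
      rfl
    have hdot : a ⬝ᵥ ((cx (emb g))ᵀ *ᵥ (M0 *ᵥ Pi.single (Sum.inr (0, l)) 1)) =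
        a (Sum.inr l) * C l 0 1 := by
      simp only [dotProduct, hv, Fintype.sum_sum_type]
      have h1 : ∀ b : B, M0 (g (Sum.inl b)) (Sum.inr (0, l)) = 0 := by
        intro b; simp [hM0, hg]
      have h2 : ∀ i : J, M0 (g (Sum.inr i)) (Sum.inr (0, l)) = if i = l then C l 0 1 else 0 := by
        intro i
        simp only [hM0, hg, Sum.map_inr, fromBlocks_apply₂₂, blockDiagonal_apply]
        by_cases h : i = l
        · subst h; simp [hs]
        · simp [h]
      simp only [h1, mul_zero, Finset.sum_const_zero, zero_add, h2]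
      simp
    rw [hdot, norm_mul]
    -- lower bound of the norm
    have hnq : Real.sqrt (C l 1 1).im * ‖a (Sum.inr l)‖ ≤ nq (imM (cor (emb g) M0)) a := by
      have e1 : cor (emb g) M0 = fromBlocks Sg 0 0 (diagonal fun j => C j 1 1) := by
        rw [cor_emb]
        ext (x | x) (y | y)
        · rfl
        · rfl
        · rfl
        · simp only [hM0, hg, Matrix.submatrix_apply, Sum.map_inr, fromBlocks_apply₂₂,
            blockDiagonal_apply, diagonal_apply]
      rw [e1, nq, qf_fromBlocks hSg.symm (diagonal_symm _)]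
      refine le_trans (norm_le_nq_diagonal (d := fun j => C j 1 1) hpos (a ∘ Sum.inr) l) ?_
      unfold nq
      apply Real.sqrt_le_sqrt
      linarith [qf_nonneg hSg.pos.posSemidef (a ∘ Sum.inl)]
    rw [mul_comm, div_mul_eq_mul_div, le_div_iff₀ hl, mul_assoc, mul_comm ‖a (Sum.inr l)‖]
    exact mul_le_mul_of_nonneg_left hnq (norm_nonneg _)
  have hres : leafXi Sg C aJ uA (Sum.inr j) (Sum.inr k) =
      mob (edgeM (fun j : J => (Sum.inl (aJ j) : B ⊕ (Fin 2 × J))) (fun j => Sum.inr (1, j))) M0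
        (Sum.inr (0, j)) (Sum.inr (0, k)) := rfl
  rw [hres, ← hM0e]
  refine le_trans key ?_
  exact mul_le_mul (hvec j) (hvec k) (nq_nonneg _ _) (by positivity)

/-- decoupled good blocks: the leaf matrix splits -/
theorem leafXi_diag {Sg : Matrix B B ℂ} (hSg : Siegel Sg) {C : J → Matrix (Fin 2) (Fin 2) ℂ}
    (hC : ∀ j, Siegel (C j)) (hoff : ∀ j, C j 0 1 = 0) (aJ : J → B) (uA : A → B) :
    leafXi Sg C aJ uA = fromBlocks ((leafXi Sg C aJ uA).submatrix Sum.inl Sum.inl) 0 0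
      (diagonal fun j => C j 0 0) := by
  set M0 : Matrix (B ⊕ (Fin 2 × J)) (B ⊕ (Fin 2 × J)) ℂ :=
    fromBlocks Sg 0 0 (blockDiagonal C) with hM0
  have hM0s : Siegel M0 := siegel_fromBlocks hSg (siegel_blockDiagonal hC)
  set E2 : Matrix (B ⊕ (Fin 2 × J)) (B ⊕ (Fin 2 × J)) ℝ :=
    edgeM (fun j : J => Sum.inl (aJ j)) (fun j => Sum.inr (1, j)) with hE2
  set M := mob E2 M0 with hM
  have hMs : Siegel M := siegel_mob hM0s (edgeM_symm _ _)
  have hfix : M + M0 * cx E2 * M = M0 := mob_fixed hM0s (edgeM_symm _ _)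
  -- rows of the good leaves
  have hrow : ∀ (j : J) (y : B ⊕ (Fin 2 × J)), M (Sum.inr (0, j)) y = M0 (Sum.inr (0, j)) y := by
    intro j y
    have h1 := congrFun (congrFun hfix (Sum.inr (0, j))) y
    rw [Matrix.add_apply] at h1
    have h2 : ∀ x, (M0 * cx E2) (Sum.inr (0, j)) x = 0 := by
      intro x
      rw [Matrix.mul_apply]
      apply Finset.sum_eq_zero
      intro w _
      rcases w with b | ⟨i, l⟩
      · simp [hM0]
      · by_cases hl : j = l
        · subst hl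
          fin_cases i
          · have h3 : E2 (Sum.inr (0, j)) x = 0 := by
              rw [hE2, edgeM_apply]
              apply Finset.sum_eq_zero
              intro k _
              simp
            simp [h3]
          · simp [hM0, hoff j]
        · simp [hM0, blockDiagonal_apply, hl]
    rw [Matrix.mul_apply] at h1
    rw [Finset.sum_eq_zero (fun x _ => by rw [h2 x, zero_mul]), add_zero] at h1
    exact h1
  have hsym : ∀ x y, M x y = M y x := fun x y => by
    have := congrFun (congrFun hMs.symm y) x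
    simpa using this
  ext (x | x) (y | y)
  · rfl
  · have h1 : leafXi Sg C aJ uA (Sum.inl x) (Sum.inr y) = M (Sum.inl (uA x)) (Sum.inr (0, y)) := rfl
    rw [h1, hsym, hrow]
    simp [hM0]
  · have h1 : leafXi Sg C aJ uA (Sum.inr x) (Sum.inl y) = M (Sum.inr (0, x)) (Sum.inl (uA y)) := rfl
    rw [h1, hrow]
    simp [hM0]
  · have h1 : leafXi Sg C aJ uA (Sum.inr x) (Sum.inr y) =
      M (Sum.inr (0, x)) (Sum.inr (0, y)) := rfl
    rw [h1, hrow]
    simp [hM0, blockDiagonal_apply, diagonal_apply]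

/-- replacing the good blocks by their diagonals -/
theorem leafXi_near {Sg : Matrix B B ℂ} (hSg : Siegel Sg) {C : J → Matrix (Fin 2) (Fin 2) ℂ}
    (hC : ∀ j, Siegel (C j)) {ρ : ℝ} (hρ0 : 0 ≤ ρ) (hρ : ρ < 1)
    (h : ∀ j, ‖C j 0 1‖ ≤ ρ * (Real.sqrt (C j 0 0).im * Real.sqrt (C j 1 1).im))
    (aJ : J → B) {uA : A → B} (huA : Function.Injective uA) :
    ∃ XA : Matrix A A ℂ, Siegel XA ∧
      Near (ρ / (1 - ρ)) (fromBlocks XA 0 0 (diagonal fun j => C j 0 0))
        (leafXi Sg C aJ uA) := by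
  have hpos : ∀ j i, 0 < (C j i i).im := by
    intro j i
    have := (hC j).pos.diag_pos (i := i)
    simpa using this
  set C' : J → Matrix (Fin 2) (Fin 2) ℂ := fun j => diagonal fun i => C j i i with hC'
  have hC's : ∀ j, Siegel (C' j) := fun j => siegel_diagonal (hpos j)
  have h0 : Near ρ (fromBlocks Sg 0 0 (blockDiagonal C')) (fromBlocks Sg 0 0 (blockDiagonal C)) :=
    near_fromBlocks hSg (siegel_blockDiagonal hC's) hρ0 (near_refl hρ0 hSg)
      (near_blockDiagonal hρ0 hC's fun j => near_two (hC j) hρ0 (h j))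
  have hs0 := siegel_fromBlocks hSg (siegel_blockDiagonal hC's)
  have h1 := (h0.mob hρ0 hρ hs0 (edgeM_symm (fun j : J => Sum.inl (aJ j))
    (fun j => Sum.inr (1, j)))).sub (uI uA) (siegel_mob hs0 (edgeM_symm _ _))
  refine ⟨(leafXi Sg C' aJ uA).submatrix Sum.inl Sum.inl,
    (siegel_leafXi hSg hC's aJ huA).sub Sum.inl_injective, ?_⟩
  have h2 := leafXi_diag hSg hC's (fun j => by simp [hC']) aJ uA
  have h3 : (diagonal fun j => C' j 0 0) = diagonal fun j => C j 0 0 := by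
    simp [hC']
  rw [h3] at h2
  rw [← h2]
  exact h1

end leaf

end Crest.Agent.R166.Dec598
end

-- ▼ part R166/Dec4_598
section

/-!
# Row 166, section 30.3: decoupling in vertex form (helper598)

`H` any real symmetric matrix on a finite type `V`; `φ : T → V` tree vertices, `a i`, `e i 0 = u i`,
`e i 1 = w i` (`i : ι`) the other sites, `A : Finset ι` the arbitrary inputs.
-/

set_option autoImplicit false
set_option linter.unusedSectionVars false

open Matrix

namespace Crest.Agent.R166.Dec598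

open Crest.Agent.R166.Res598

section general

variable {V T κ μ ν : Type*} [Fintype V] [DecidableEq V] [Fintype T] [DecidableEq T]
  [Fintype κ] [DecidableEq κ] [Fintype μ] [DecidableEq μ] [Fintype ν] [DecidableEq ν]







lemma lift_sub (f : κ → V) (U U' : Matrix κ κ ℝ) :
    lift (emb f) (U - U') = lift (emb f) U - lift (emb f) U' := by
  simp only [lift, Matrix.mul_sub, Matrix.sub_mul]

lemma lift_comp (f : κ → V) (g : μ → κ) (U : Matrix μ μ ℝ) :
    lift (emb f) (lift (emb g) U) = lift (emb (f ∘ g)) U := by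
  rw [lift_lift, emb_comp]

/-- reindexing the leaves -/
theorem treeOut_reindex (σ : μ ≃ κ) {RT : Matrix T T ℂ} (hR : Siegel RT) (t : κ → T)
    {Ξ : Matrix κ κ ℂ} (hΞ : Siegel Ξ) :
    treeOut RT (t ∘ σ) (Ξ.submatrix σ σ) = treeOut RT t Ξ := by
  rw [treeOut_eq hR _ (hΞ.sub σ.injective), treeOut_eq hR _ hΞ]
  congr 2
  have h1 : cx (leafM (t ∘ σ)) = (cx (leafM t)).submatrix σ id := rfl
  rw [h1, Matrix.transpose_submatrix, Matrix.submatrix_mul_equiv, Matrix.submatrix_mul_equiv,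
    Matrix.submatrix_id_id]

end general

section vertex

variable {V T ι : Type*} [Fintype V] [DecidableEq V] [Fintype T] [DecidableEq T]
  [Fintype ι] [DecidableEq ι]


variable (A : Finset ι)

/-- index type of the rest of the system -/
abbrev BB (A : Finset ι) := ι ⊕ (Fin 2 × {i // i ∈ A})

/-- sites of the whole system -/
def Phi (φ : T → V) (a : ι → V) (e : ι → Fin 2 → V) : Idx T (BB A) {i // ¬ i ∈ A} → V :=
  Sum.elim φ (Sum.elim (Sum.elim a (fun q => e q.2 q.1)) (fun q => e q.2 q.1))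

/-- the perturbation inside the system -/
def U1 (t : ι → T) (W0 : Matrix T T ℝ) : Matrix (T ⊕ BB A) (T ⊕ BB A) ℝ :=
  lift (emb Sum.inl) W0 - edgeM (fun i => Sum.inl (t i)) (fun i => Sum.inr (Sum.inl i)) -
    edgeM (fun i : {i // i ∈ A} => Sum.inr (Sum.inr (0, i))) (fun i => Sum.inr (Sum.inr (1, i))) +
    edgeM (fun i : {i // i ∈ A} => Sum.inr (Sum.inl i.1)) (fun i => Sum.inr (Sum.inr (1, i)))


/-- `a j` for the good inputs -/
def aJ (j : {i // ¬ i ∈ A}) : BB A := Sum.inl j.1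

/-- `u i` for the arbitrary inputs -/
def uA (i : {i // i ∈ A}) : BB A := Sum.inr (0, i)

lemma uA_injective : Function.Injective (uA A) := fun _ _ h =>
  (Prod.mk.inj (Sum.inr_injective h)).2



/-- the tree matrix: `H` restricted to the tree, plus `W0` -/
def hT (H : Matrix V V ℝ) (φ : T → V) (W0 : Matrix T T ℝ) : Matrix T T ℝ := H.submatrix φ φ + W0

/-- hypotheses on the sites -/
structure Sites (H : Matrix V V ℝ) (φ : T → V) (a : ι → V) (e : ι → Fin 2 → V) (t : ι → T) :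
    Prop where
  symm : Hᵀ = H
  inj : Function.Injective
    (Sum.elim φ (Sum.elim a (fun q : Fin 2 × ι => e q.2 q.1)) : T ⊕ (ι ⊕ (Fin 2 × ι)) → V)
  row : ∀ x v, (∀ y, v ≠ φ y) → H (φ x) v = ∑ i, if t i = x ∧ a i = v then (1 : ℝ) else 0

variable {H : Matrix V V ℝ} {φ : T → V} {a : ι → V} {e : ι → Fin 2 → V} {t : ι → T}

lemma Sites.phi_inj (h : Sites H φ a e t) : Function.Injective φ := fun x y hxy =>
  Sum.inl_injective (h.inj (by simpa using hxy))



lemma Sites.hT_eq (h : Sites H φ a e t) (W0 : Matrix T T ℝ) :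
    (H + lift (emb (Phi A φ a e ∘ sS)) (U1 A t W0)).submatrix φ φ = hT H φ W0 := by
  have hinj := h.inj
  have ha : ∀ i y, a i ≠ φ y := fun i y hh => by
    have := hinj (a₁ := Sum.inr (Sum.inl i)) (a₂ := Sum.inl y) (by simpa using hh)
    simp at this
  have he : ∀ i k y, e i k ≠ φ y := fun i k y hh => by
    have := hinj (a₁ := Sum.inr (Sum.inr (k, i))) (a₂ := Sum.inl y) (by simpa using hh)
    simp at this
  ext x y
  rw [Matrix.submatrix_apply, hT, Matrix.add_apply, Matrix.add_apply, Matrix.submatrix_apply]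
  congr 1
  rw [U1, lift_add, lift_sub, lift_sub, lift_comp, lift_edgeM, lift_edgeM, lift_edgeM]
  simp only [Matrix.add_apply, Matrix.sub_apply]
  have h1 : lift (emb (((Phi A φ a e) ∘ sS) ∘ Sum.inl)) W0 (φ x) (φ y) = W0 x y :=
    lift_emb_apply (f := φ) h.phi_inj W0 x y
  have h2 : edgeM (((Phi A φ a e) ∘ sS) ∘ fun i : ι => Sum.inl (t i))
      (((Phi A φ a e) ∘ sS) ∘ fun i => Sum.inr (Sum.inl i)) (φ x) (φ y) = 0 := by
    rw [edgeM_apply]
    apply Finset.sum_eq_zero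
    intro i _
    have e2 : (((Phi A φ a e) ∘ sS) ∘ fun i : ι => Sum.inr (Sum.inl i)) i = a i := rfl
    rw [e2, if_neg (fun hh => ha _ _ hh.2.symm), if_neg (fun hh => ha _ _ hh.1.symm), add_zero]
  have h3 : edgeM (((Phi A φ a e) ∘ sS) ∘ fun i : {i // i ∈ A} => Sum.inr (Sum.inr (0, i)))
      (((Phi A φ a e) ∘ sS) ∘ fun i => Sum.inr (Sum.inr (1, i))) (φ x) (φ y) = 0 := by
    rw [edgeM_apply]
    apply Finset.sum_eq_zero
    intro i _
    have e1 : (((Phi A φ a e) ∘ sS) ∘ fun i : {i // i ∈ A} => Sum.inr (Sum.inr (0, i))) i =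
      e i 0 := rfl
    have e2 : (((Phi A φ a e) ∘ sS) ∘ fun i : {i // i ∈ A} => Sum.inr (Sum.inr (1, i))) i =
      e i 1 := rfl
    rw [e1, e2, if_neg (fun hh => he _ _ _ hh.1.symm), if_neg (fun hh => he _ _ _ hh.1.symm),
      add_zero]
  have h4 : edgeM (((Phi A φ a e) ∘ sS) ∘ fun i : {i // i ∈ A} => Sum.inr (Sum.inl i.1))
      (((Phi A φ a e) ∘ sS) ∘ fun i => Sum.inr (Sum.inr (1, i))) (φ x) (φ y) = 0 := by
    rw [edgeM_apply]
    apply Finset.sum_eq_zero
    intro i _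
    have e1 : (((Phi A φ a e) ∘ sS) ∘ fun i : {i // i ∈ A} => Sum.inr (Sum.inl i.1)) i =
      a i := rfl
    have e2 : (((Phi A φ a e) ∘ sS) ∘ fun i : {i // i ∈ A} => Sum.inr (Sum.inr (1, i))) i =
      e i 1 := rfl
    rw [e1, e2, if_neg (fun hh => ha _ _ hh.1.symm), if_neg (fun hh => he _ _ _ hh.1.symm),
      add_zero]
  rw [h1, h2, h3, h4]
  ring




end vertex

end Crest.Agent.R166.Dec598
end

-- ▼ part R166/Dec5_598

/-!
# Row 166, section 30.3: final forms of the decoupling theorem (helper598)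
-/

set_option autoImplicit false
set_option linter.unusedSectionVars false

open Matrix

namespace Crest.Agent.R166.Dec598

open Crest.Agent.R166.Res598

section forms

variable {T B A J ι : Type*} [Fintype T] [DecidableEq T] [Fintype B] [DecidableEq B]
  [Fintype A] [DecidableEq A] [Fintype J] [DecidableEq J] [Fintype ι] [DecidableEq ι]

lemma siegel_entry_pos {Z : Matrix ι ι ℂ} (hZ : Siegel Z) (i : ι) : 0 < (Z i i).im := by
  have := hZ.pos.diag_pos (i := i)
  simpa using this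

lemma siegel_entry_symm {Z : Matrix ι ι ℂ} (hZ : Siegel Z) (i j : ι) : Z i j = Z j i := by
  have := congrFun (congrFun hZ.symm j) i
  simpa using this

/-- **form 1** (no arbitrary input): the tree sees a diagonal leaf matrix, quadratically close to
the cavity values. -/
theorem form_good [IsEmpty A] (σ : A ⊕ J ≃ ι) {RT : Matrix T T ℂ} (hR : Siegel RT) (t : ι → T)
    {Sg : Matrix B B ℂ} (hSg : Siegel Sg) {C : J → Matrix (Fin 2) (Fin 2) ℂ}
    (hC : ∀ j, Siegel (C j)) (aJ : J → B) {uA : A → B} (huA : Function.Injective uA)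
    {h0 : ℝ} (hh0 : 0 < h0) (hX : ∀ j, h0 ≤ (C j 0 0).im) (hW : ∀ j, h0 ≤ (C j 1 1).im)
    (ho : ∀ j, ‖C j 0 1‖ ≤ h0 / 2) {δ κ : ℝ}
    (hδ : (∑ j, ∑ k, if j = k then 0 else 2 * (‖C j 0 1‖ * ‖C k 0 1‖) / h0 ^ 2) ≤ δ)
    (hδ2 : δ ≤ 1 / 2) (hκ : 0 ≤ κ) {M : Matrix T T ℂ}
    (hN : Near κ (treeOut RT (t ∘ σ) (leafXi Sg C aJ uA)) M) :
    ∃ xh : ι → ℂ, (∀ j : J, ‖xh (σ (Sum.inr j)) - C j 0 0‖ ≤ ‖C j 0 1‖ ^ 2 / h0) ∧
      (∀ i, h0 / 2 ≤ (xh i).im) ∧
      Near (2 * δ + κ * (1 + 2 * δ)) (treeOut RT t (diagonal xh)) M := by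
  set Ξ := leafXi Sg C aJ uA with hΞ
  have hΞs : Siegel Ξ := siegel_leafXi hSg hC aJ huA
  set xh0 : A ⊕ J → ℂ := fun i => Ξ i i with hxh0
  -- bounds
  have hsq : Real.sqrt h0 * Real.sqrt h0 = h0 := Real.mul_self_sqrt hh0.le
  have hs0 : 0 < Real.sqrt h0 := Real.sqrt_pos.2 hh0
  have hwk : ∀ k : J, ‖C k 0 1‖ / Real.sqrt (C k 1 1).im ≤ ‖C k 0 1‖ / Real.sqrt h0 := fun k =>
    div_le_div_of_nonneg_left (norm_nonneg _) hs0 (Real.sqrt_le_sqrt (hW k))
  have hent : ∀ j k : J, ‖Ξ (Sum.inr j) (Sum.inr k) - (if j = k then C j 0 0 else 0)‖ ≤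
      ‖C j 0 1‖ * ‖C k 0 1‖ / h0 := by
    intro j k
    refine le_trans (leafXi_entry hSg hC aJ uA j k) ?_
    refine le_trans (mul_le_mul (hwk j) (hwk k)
      (div_nonneg (norm_nonneg _) (Real.sqrt_nonneg _))
      (div_nonneg (norm_nonneg _) (Real.sqrt_nonneg _))) (le_of_eq ?_)
    rw [div_mul_div_comm, hsq]
  have hdiag : ∀ j : J, ‖xh0 (Sum.inr j) - C j 0 0‖ ≤ ‖C j 0 1‖ ^ 2 / h0 := by
    intro j
    have := hent j j
    rw [if_pos rfl] at this
    rw [sq]
    exact this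
  have him : ∀ j : J, h0 / 2 ≤ (xh0 (Sum.inr j)).im := by
    intro j
    have h1 := hdiag j
    have h2 : ‖C j 0 1‖ ^ 2 / h0 ≤ h0 / 4 := by
      rw [div_le_iff₀ hh0]
      have h3 := ho j
      nlinarith [norm_nonneg (C j 0 1)]
    have h4 : |(xh0 (Sum.inr j) - C j 0 0).im| ≤ h0 / 4 :=
      le_trans (Complex.abs_im_le_norm _) (le_trans h1 h2)
    rw [Complex.sub_im] at h4
    have := (abs_le.1 h4).1
    have := hX j
    linarith
  have him' : ∀ i : A ⊕ J, h0 / 2 ≤ (xh0 i).im := by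
    rintro (a | j)
    · exact isEmptyElim a
    · exact him j
  have hpos : ∀ i : A ⊕ J, 0 < (xh0 i).im := fun i => lt_of_lt_of_le (by linarith) (him' i)
  have hsum0 : 0 ≤ ∑ j, ∑ k, if j = k then 0 else 2 * (‖C j 0 1‖ * ‖C k 0 1‖) / h0 ^ 2 := by
    apply Finset.sum_nonneg
    intro j _
    apply Finset.sum_nonneg
    intro k _
    split_ifs
    · exact le_refl _
    · positivity
  have hδ0 : 0 ≤ δ := le_trans hsum0 hδ
  -- Near the diagonal
  set b : A ⊕ J → A ⊕ J → ℝ := fun i k => match i, k with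
    | Sum.inr j, Sum.inr k => 2 * (‖C j 0 1‖ * ‖C k 0 1‖) / h0 ^ 2
    | _, _ => 0 with hb
  have hnd := near_diagonal hΞs.symm (b := b) hpos (by
    rintro (a | j) (a' | k) hik
    · exact isEmptyElim a
    · exact isEmptyElim a
    · exact isEmptyElim a'
    · have hjk : j ≠ k := fun h => hik (by rw [h])
      have h1 := hent j k
      rw [if_neg hjk, sub_zero] at h1
      refine le_trans h1 ?_
      have h2 : h0 / 2 ≤ Real.sqrt (xh0 (Sum.inr j)).im * Real.sqrt (xh0 (Sum.inr k)).im := by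
        rw [← Real.sqrt_mul (hpos _).le]
        apply Real.le_sqrt_of_sq_le
        have h3 := him j
        have h4 := him k
        nlinarith
      have h5 : ‖C j 0 1‖ * ‖C k 0 1‖ / h0 =
          2 * (‖C j 0 1‖ * ‖C k 0 1‖) / h0 ^ 2 * (h0 / 2) := by
        field_simp
      rw [h5]
      exact mul_le_mul_of_nonneg_left h2 (by positivity)) (by
    rintro (a | j) (a' | k)
    · exact le_refl _
    · exact le_refl _
    · exact le_refl _
    · simp only [hb]; positivity)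
  have hsum : (∑ i, ∑ k, if i = k then 0 else b i k) ≤ δ := by
    refine le_trans (le_of_eq ?_) hδ
    rw [Fintype.sum_sum_type, Fintype.sum_empty, zero_add]
    refine Finset.sum_congr rfl fun j _ => ?_
    rw [Fintype.sum_sum_type, Fintype.sum_empty, zero_add]
    refine Finset.sum_congr rfl fun k _ => ?_
    by_cases h : j = k
    · simp [h]
    · rw [if_neg (fun h' => h (Sum.inr_injective h')), if_neg h]
  have hnd' := hnd.mono hsum
  have hds : Siegel (diagonal xh0) := siegel_diagonal hpos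
  have h1 := near_treeOut hδ0 (by linarith) hR (t ∘ σ) hds hnd'
  have h2 : δ / (1 - δ) ≤ 2 * δ := by
    rw [div_le_iff₀ (by linarith)]
    nlinarith
  have h3 := h1.mono h2
  have h4 := near_trans (by linarith) hκ (siegel_treeOut hR _ hds) h3 hN
  refine ⟨xh0 ∘ σ.symm, fun j => ?_, fun i => him' _, ?_⟩
  · simpa using hdiag j
  · have h5 : (diagonal (xh0 ∘ σ.symm)).submatrix σ σ = diagonal xh0 := by
      rw [submatrix_diagonal _ _ σ.injective]
      congr 1
      ext i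
      simp
    have h6 : Siegel (diagonal (xh0 ∘ σ.symm)) := siegel_diagonal fun i => hpos _
    rw [← treeOut_reindex σ hR t h6, h5]
    exact h4

/-- **form 2** (arbitrary inputs on `A`) -/
theorem form_gen (σ : A ⊕ J ≃ ι) {RT : Matrix T T ℂ} (hR : Siegel RT) (t : ι → T)
    {Sg : Matrix B B ℂ} (hSg : Siegel Sg) {C : J → Matrix (Fin 2) (Fin 2) ℂ}
    (hC : ∀ j, Siegel (C j)) (aJ : J → B) {uA : A → B} (huA : Function.Injective uA)
    {ρ κ : ℝ} (hρ0 : 0 ≤ ρ) (hρ : ρ ≤ 1 / 4)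
    (ho : ∀ j, ‖C j 0 1‖ ≤ ρ * (Real.sqrt (C j 0 0).im * Real.sqrt (C j 1 1).im))
    (hκ : 0 ≤ κ) {M : Matrix T T ℂ}
    (hN : Near κ (treeOut RT (t ∘ σ) (leafXi Sg C aJ uA)) M) :
    ∃ Ξ : Matrix ι ι ℂ, Siegel Ξ ∧
      (∀ (j : J) (k : ι), Ξ (σ (Sum.inr j)) k = if k = σ (Sum.inr j) then C j 0 0 else 0) ∧
      Near (4 * ρ + κ * (1 + 4 * ρ)) (treeOut RT t Ξ) M := by
  obtain ⟨XA, hXA, hnear⟩ := leafXi_near hSg hC hρ0 (by linarith) ho aJ huA
  have hd : Siegel (diagonal fun j => C j 0 0) := siegel_diagonal fun j => siegel_entry_pos (hC j) 0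
  set Ξ0 : Matrix (A ⊕ J) (A ⊕ J) ℂ := fromBlocks XA 0 0 (diagonal fun j => C j 0 0) with hΞ0
  have hΞ0s : Siegel Ξ0 := siegel_fromBlocks hXA hd
  have h1 : ρ / (1 - ρ) ≤ 2 * ρ := by
    rw [div_le_iff₀ (by linarith)]
    nlinarith
  have h2 := near_treeOut (by linarith : 0 ≤ 2 * ρ) (by linarith) hR (t ∘ σ) hΞ0s (hnear.mono h1)
  have h3 : 2 * ρ / (1 - 2 * ρ) ≤ 4 * ρ := by
    rw [div_le_iff₀ (by linarith)]
    nlinarith
  have h4 := near_trans (by linarith) hκ (siegel_treeOut hR _ hΞ0s) (h2.mono h3) hN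
  have hs : (Ξ0.submatrix σ.symm σ.symm).submatrix σ σ = Ξ0 := by
    ext i k; simp
  have hΞs : Siegel (Ξ0.submatrix σ.symm σ.symm) := hΞ0s.sub σ.symm.injective
  refine ⟨Ξ0.submatrix σ.symm σ.symm, hΞs, fun j k => ?_, ?_⟩
  · rw [Matrix.submatrix_apply, Equiv.symm_apply_apply]
    obtain ⟨k', rfl⟩ := σ.surjective k
    rw [Equiv.symm_apply_apply]
    rcases k' with a | k
    · rw [hΞ0, fromBlocks_apply₂₁, if_neg]
      · rfl
      · intro h
        have := σ.injective h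
        simp at this
    · rw [hΞ0, fromBlocks_apply₂₂, diagonal_apply]
      by_cases h : j = k
      · subst h; simp
      · rw [if_neg h, if_neg]
        intro h'
        exact h (Sum.inr_injective (σ.injective h')).symm
  · rw [← treeOut_reindex σ hR t hΞs, hs]
    exact h4

end forms

section vertex

variable {V T ι : Type*} [Fintype V] [DecidableEq V] [Fintype T] [DecidableEq T]
  [Fintype ι] [DecidableEq ι]
  {H : Matrix V V ℝ} {φ : T → V} {a : ι → V} {e : ι → Fin 2 → V} {t : ι → T}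

lemma div_one_sub_le {k : ℝ} (h0 : 0 ≤ k) (h : k ≤ 1 / 2) : k / (1 - k) ≤ 2 * k := by
  rw [div_le_iff₀ (by linarith)]
  nlinarith






end vertex

end Crest.Agent.R166.Dec598
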