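import Crest.Agent.R166.Root_355

/-!
# R166 (helper797): the clean block `Bclean`, the root `mc` near the real axis

Complements `Root_355`.  Everything is for `3 ≤ d` (`b = d - 1 ≥ 2`).
-/

set_option autoImplicit false

namespace Crest.Agent.R166.McClean797

open Complex Matrix Filter Topology Crest.Agent.R166 Crest.Agent.R166.Root355
  Crest.ProbabilityR.RandomMatrix

/-! ### the norm `bnorm` -/

lemma bnorm_le_iff {B : Matrix (Fin 2) (Fin 2) ℂ} {r : ℝ} :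
    bnorm B ≤ r ↔ ∀ i j, ‖B i j‖ ≤ r := by
  unfold bnorm
  constructor
  · intro h i j
    have h1 := max_le_iff.mp h
    have h2 := max_le_iff.mp h1.1
    have h3 := max_le_iff.mp h1.2
    fin_cases i <;> fin_cases j
    · exact h2.1
    · exact h2.2
    · exact h3.1
    · exact h3.2
  · intro h
    exact max_le (max_le (h 0 0) (h 0 1)) (max_le (h 1 0) (h 1 1))

lemma norm_le_bnorm (B : Matrix (Fin 2) (Fin 2) ℂ) (i j : Fin 2) : ‖B i j‖ ≤ bnorm B :=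
  bnorm_le_iff.mp le_rfl i j

lemma bnorm_nonneg (B : Matrix (Fin 2) (Fin 2) ℂ) : 0 ≤ bnorm B :=
  (norm_nonneg _).trans (norm_le_bnorm B 0 0)



/-! ### roots with `b ≥ 2` -/

section Root

variable {b : ℝ} {z m z' m' : ℂ}

lemma norm_sq_le (h : IsRoot b z m) (hb : 2 ≤ b) (hz : 0 ≤ z.im) : ‖m‖ ^ 2 ≤ 1 / b := by
  have h1 := h.b_normSq_le hz
  rw [Complex.normSq_eq_norm_sq] at h1
  rw [le_div_iff₀ (by linarith)]
  linarith


lemma norm_sq_le_half (h : IsRoot b z m) (hb : 2 ≤ b) (hz : 0 ≤ z.im) : ‖m‖ ^ 2 ≤ 1 / 2 := by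
  refine (norm_sq_le h hb hz).trans ?_
  gcongr

lemma norm_le_34 (h : IsRoot b z m) (hb : 2 ≤ b) (hz : 0 ≤ z.im) : ‖m‖ ≤ 3 / 4 := by
  have h1 := norm_sq_le_half h hb hz
  nlinarith [norm_nonneg m]

lemma half_le_norm (h : IsRoot b z m) (hb : 2 ≤ b) (hz : 0 ≤ z.im) : 1 / 2 ≤ ‖1 - m ^ 2‖ := by
  have h1 := norm_sq_le_half h hb hz
  have h2 : ‖(1 : ℂ)‖ - ‖m ^ 2‖ ≤ ‖1 - m ^ 2‖ := norm_sub_norm_le _ _
  rw [norm_pow, norm_one] at h2
  linarith

lemma one_sub_sq_ne_zero (h : IsRoot b z m) (hb : 2 ≤ b) (hz : 0 ≤ z.im) : 1 - m ^ 2 ≠ 0 := by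
  intro h0
  have := half_le_norm h hb hz
  rw [h0, norm_zero] at this
  linarith

lemma sq_ne_one (h : IsRoot b z m) (hb : 2 ≤ b) (hz : 0 ≤ z.im) : m ^ 2 ≠ 1 :=
  h.sq_ne_one (by linarith) hz

lemma one_sub_ne_zero (h : IsRoot b z m) (hb : 2 ≤ b) (hz : 0 ≤ z.im) : 1 - m ≠ 0 := by
  intro h0
  exact one_sub_sq_ne_zero h hb hz (by linear_combination (1 + m) * h0)

lemma one_add_ne_zero (h : IsRoot b z m) (hb : 2 ≤ b) (hz : 0 ≤ z.im) : 1 + m ≠ 0 := by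
  intro h0
  exact one_sub_sq_ne_zero h hb hz (by linear_combination (1 - m) * h0)


/-- `Im (m / (1 - m)) = Im m / |1 - m|²` -/
lemma im_div_one_sub (h1 : 1 - m ≠ 0) : (m / (1 - m)).im = m.im / ‖1 - m‖ ^ 2 := by
  have hn : Complex.normSq (1 - m) ≠ 0 := by
    simpa [Complex.normSq_eq_zero] using h1
  rw [← Complex.normSq_eq_norm_sq, Complex.div_im]
  simp only [Complex.sub_re, Complex.one_re, Complex.sub_im, Complex.one_im]
  field_simp
  ring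

/-- `Im (m / (1 + m)) = Im m / |1 + m|²` -/
lemma im_div_one_add (h1 : 1 + m ≠ 0) : (m / (1 + m)).im = m.im / ‖1 + m‖ ^ 2 := by
  have hn : Complex.normSq (1 + m) ≠ 0 := by
    simpa [Complex.normSq_eq_zero] using h1
  rw [← Complex.normSq_eq_norm_sq, Complex.div_im]
  simp only [Complex.add_re, Complex.one_re, Complex.add_im, Complex.one_im]
  field_simp
  ring

lemma im_div_one_sub_ge (h : IsRoot b z m) (hb : 2 ≤ b) (hz : 0 ≤ z.im) :
    m.im / 4 ≤ (m / (1 - m)).im := by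
  have h1 := one_sub_ne_zero h hb hz
  rw [im_div_one_sub h1]
  have h2 : ‖1 - m‖ ≤ 2 := by
    have := norm_sub_le (1 : ℂ) m
    have h3 := norm_le_34 h hb hz
    rw [norm_one] at this
    linarith
  have h3 : 0 < ‖1 - m‖ := norm_pos_iff.mpr h1
  have h4 : ‖1 - m‖ ^ 2 ≤ 4 := by nlinarith
  have := h.im_pos
  gcongr

lemma im_div_one_add_ge (h : IsRoot b z m) (hb : 2 ≤ b) (hz : 0 ≤ z.im) :
    m.im / 4 ≤ (m / (1 + m)).im := by
  have h1 := one_add_ne_zero h hb hz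
  rw [im_div_one_add h1]
  have h2 : ‖1 + m‖ ≤ 2 := by
    have := norm_add_le (1 : ℂ) m
    have h3 := norm_le_34 h hb hz
    rw [norm_one] at this
    linarith
  have h3 : 0 < ‖1 + m‖ := norm_pos_iff.mpr h1
  have h4 : ‖1 + m‖ ^ 2 ≤ 4 := by nlinarith
  have := h.im_pos
  gcongr



/-- the two combinations of the entries of the clean block -/
lemma diag_add_off (h : IsRoot b z m) (hb : 2 ≤ b) (hz : 0 ≤ z.im) :
    m / (1 - m ^ 2) + -m ^ 2 / (1 - m ^ 2) = m / (1 + m) := by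
  have h1 := one_sub_sq_ne_zero h hb hz
  have h2 := one_add_ne_zero h hb hz
  field_simp
  ring

lemma diag_sub_off (h : IsRoot b z m) (hb : 2 ≤ b) (hz : 0 ≤ z.im) :
    m / (1 - m ^ 2) - -m ^ 2 / (1 - m ^ 2) = m / (1 - m) := by
  have h1 := one_sub_sq_ne_zero h hb hz
  have h2 := one_sub_ne_zero h hb hz
  field_simp
  ring

/-- Lipschitz with the sharp constant at a real energy: `|m - m0| ≤ η / (b Im m0)` -/
lemma root_sub_le (h : IsRoot b z m) (h' : IsRoot b z' m') (hb : 1 ≤ b) (hz : 0 ≤ z.im)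
    (hz' : 0 ≤ z'.im) : ‖m - m'‖ ≤ ‖z - z'‖ / (b * m'.im) := by
  have hy := h.im_pos
  have hy' := h'.im_pos
  have e1 : (m - m') * (z' + (b : ℂ) * m + (b : ℂ) * m') = -(m * (z - z')) := by
    linear_combination h.eq - h'.eq
  have h1 : b * m'.im ≤ ‖z' + (b : ℂ) * m + (b : ℂ) * m'‖ := by
    have h2 := Complex.im_le_norm (z' + (b : ℂ) * m + (b : ℂ) * m')
    simp at h2
    have h5 : 0 ≤ b * m.im := mul_nonneg (by linarith) h.im_pos.le
    linarith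
  have hpos : 0 < b * m'.im := by positivity
  have h2 : ‖m - m'‖ * (b * m'.im) ≤ ‖z - z'‖ := by
    calc ‖m - m'‖ * (b * m'.im) ≤ ‖m - m'‖ * ‖z' + (b : ℂ) * m + (b : ℂ) * m'‖ := by gcongr
      _ = ‖m‖ * ‖z - z'‖ := by rw [← norm_mul, e1, norm_neg, norm_mul]
      _ ≤ 1 * ‖z - z'‖ := by
          gcongr
          exact h.norm_le_one hb hz
      _ = _ := one_mul _
  rw [le_div_iff₀ hpos]
  exact h2

lemma diag_sub_le (h : IsRoot b z m) (h' : IsRoot b z' m') (hb : 2 ≤ b) (hz : 0 ≤ z.im)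
    (hz' : 0 ≤ z'.im) : ‖m / (1 - m ^ 2) - m' / (1 - m' ^ 2)‖ ≤ 8 * ‖m - m'‖ := by
  have h1 := one_sub_sq_ne_zero h hb hz
  have h1' := one_sub_sq_ne_zero h' hb hz'
  have e : m / (1 - m ^ 2) - m' / (1 - m' ^ 2) =
      (m - m') * (1 + m * m') / ((1 - m ^ 2) * (1 - m' ^ 2)) := by
    field_simp; ring
  rw [e, norm_div, norm_mul, norm_mul, div_le_iff₀ (by positivity)]
  have h2 := half_le_norm h hb hz
  have h2' := half_le_norm h' hb hz'
  have h3 : (1 / 2 : ℝ) * (1 / 2) ≤ ‖1 - m ^ 2‖ * ‖1 - m' ^ 2‖ := by gcongr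
  have h4 : ‖1 + m * m'‖ ≤ 2 := by
    have h5 := norm_add_le (1 : ℂ) (m * m')
    have h6 := norm_le_34 h hb hz
    have h7 := norm_le_34 h' hb hz'
    rw [norm_one, norm_mul] at h5
    have h8 : ‖m‖ * ‖m'‖ ≤ 3 / 4 * (3 / 4) := by gcongr
    linarith
  have h5 := norm_nonneg (m - m')
  calc ‖m - m'‖ * ‖1 + m * m'‖ ≤ ‖m - m'‖ * 2 := by gcongr
    _ = 8 * ‖m - m'‖ * (1 / 2 * (1 / 2)) := by ring
    _ ≤ _ := by gcongr

lemma off_sub_le (h : IsRoot b z m) (h' : IsRoot b z' m') (hb : 2 ≤ b) (hz : 0 ≤ z.im)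
    (hz' : 0 ≤ z'.im) : ‖-m ^ 2 / (1 - m ^ 2) - -m' ^ 2 / (1 - m' ^ 2)‖ ≤ 8 * ‖m - m'‖ := by
  have h1 := one_sub_sq_ne_zero h hb hz
  have h1' := one_sub_sq_ne_zero h' hb hz'
  have e : -m ^ 2 / (1 - m ^ 2) - -m' ^ 2 / (1 - m' ^ 2) =
      (m - m') * (-(m + m')) / ((1 - m ^ 2) * (1 - m' ^ 2)) := by
    field_simp; ring
  rw [e, norm_div, norm_mul, norm_mul, div_le_iff₀ (by positivity)]
  have h2 := half_le_norm h hb hz
  have h2' := half_le_norm h' hb hz'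
  have h3 : (1 / 2 : ℝ) * (1 / 2) ≤ ‖1 - m ^ 2‖ * ‖1 - m' ^ 2‖ := by gcongr
  have h4 : ‖-(m + m')‖ ≤ 2 := by
    rw [norm_neg]
    have h5 := norm_add_le m m'
    have h6 := norm_le_34 h hb hz
    have h7 := norm_le_34 h' hb hz'
    linarith
  have h5 := norm_nonneg (m - m')
  calc ‖m - m'‖ * ‖-(m + m')‖ ≤ ‖m - m'‖ * 2 := by gcongr
    _ = 8 * ‖m - m'‖ * (1 / 2 * (1 / 2)) := by ring
    _ ≤ _ := by gcongr

end Root

/-! ### the domain of `mc` -/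

/-- upper half plane together with the real bulk -/
def Dom (d : ℕ) (z : ℂ) : Prop := 0 < z.im ∨ (z.im = 0 ∧ z.re ^ 2 < 4 * ((d : ℝ) - 1))

lemma Dom.im_nonneg {d : ℕ} {z : ℂ} (h : Dom d z) : 0 ≤ z.im := by
  rcases h with h | h
  · exact h.le
  · exact h.1.ge

lemma dom_real {d : ℕ} {E : ℝ} (hE : E ^ 2 < 4 * ((d : ℝ) - 1)) : Dom d (E : ℂ) :=
  Or.inr ⟨by simp, by simpa using hE⟩

lemma dom_of_im {d : ℕ} {z : ℂ} (hz : 0 < z.im) : Dom d z := Or.inl hz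

@[simp] lemma ze_re (E η : ℝ) : (ze E η).re = E := by simp [ze]

@[simp] lemma ze_im (E η : ℝ) : (ze E η).im = η := by simp [ze]

@[simp] lemma ze_zero (E : ℝ) : ze E 0 = (E : ℂ) := by simp [ze]

lemma norm_ze_sub (E : ℝ) {η : ℝ} (hη : 0 ≤ η) : ‖ze E η - (E : ℂ)‖ = η := by
  have : ze E η - (E : ℂ) = Complex.I * (η : ℂ) := by unfold ze; ring
  rw [this, norm_mul, Complex.norm_I, one_mul, Complex.norm_real, Real.norm_of_nonneg hη]

lemma dom_ze {d : ℕ} {E η : ℝ} (hE : E ^ 2 < 4 * ((d : ℝ) - 1)) (hη : 0 ≤ η) :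
    Dom d (ze E η) := by
  rcases hη.eq_or_lt with h | h
  · right; subst h; exact ⟨by simp, by simpa using hE⟩
  · left; simpa using h

lemma two_le {d : ℕ} (hd : 3 ≤ d) : (2 : ℝ) ≤ (d : ℝ) - 1 := by
  have : (3 : ℝ) ≤ d := by exact_mod_cast hd
  linarith

/-- (P1) -/
theorem mc_root {d : ℕ} (hd : 3 ≤ d) {z : ℂ} (hz : Dom d z) :
    IsRoot ((d : ℝ) - 1) z (mc d z) := by
  rcases hz with h | ⟨h1, h2⟩
  · exact mc_isRoot (by omega) h
  · have e : z = ((z.re : ℝ) : ℂ) := by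
      apply Complex.ext <;> simp [h1]
    rw [e]
    exact mc_isRoot_real (by omega) h2

theorem mc_im_pos {d : ℕ} (hd : 3 ≤ d) {z : ℂ} (hz : Dom d z) : 0 < (mc d z).im :=
  (mc_root hd hz).im_pos


theorem mc_ne_zero {d : ℕ} (hd : 3 ≤ d) {z : ℂ} (hz : Dom d z) : mc d z ≠ 0 :=
  (mc_root hd hz).ne_zero





theorem mc_norm_le_34 {d : ℕ} (hd : 3 ≤ d) {z : ℂ} (hz : Dom d z) : ‖mc d z‖ ≤ 3 / 4 :=
  norm_le_34 (mc_root hd hz) (two_le hd) hz.im_nonneg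




/-! ### (P2), (M3): continuity and bounds on compacts -/

theorem mc_sub_le {d : ℕ} (hd : 3 ≤ d) {z z' : ℂ} (hz : Dom d z) (hz' : Dom d z') :
    ‖mc d z - mc d z'‖ ≤ ‖z - z'‖ / (((d : ℝ) - 1) * (mc d z').im) :=
  root_sub_le (mc_root hd hz) (mc_root hd hz') (by linarith [two_le hd]) hz.im_nonneg
    hz'.im_nonneg

/-- (P2) -/
theorem mc_ze_sub_le {d : ℕ} (hd : 3 ≤ d) {E : ℝ} (hE : E ^ 2 < 4 * ((d : ℝ) - 1)) {η : ℝ}
    (hη : 0 ≤ η) :
    ‖mc d (ze E η) - mc d (E : ℂ)‖ ≤ η / (((d : ℝ) - 1) * (mc d (E : ℂ)).im) := by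
  have := mc_sub_le hd (dom_ze hE hη) (dom_real hE)
  rwa [norm_ze_sub E hη] at this


/-- (P2) -/
theorem tendsto_mc {d : ℕ} (hd : 3 ≤ d) {E : ℝ} (hE : E ^ 2 < 4 * ((d : ℝ) - 1)) :
    Tendsto (fun η : ℝ => mc d (ze E η)) (𝓝[>] 0) (𝓝 (mc d (E : ℂ))) := by
  have hpos : 0 < ((d : ℝ) - 1) * (mc d (E : ℂ)).im := by
    have := two_le hd
    have := mc_im_pos hd (dom_real hE)
    positivity
  rw [tendsto_iff_norm_sub_tendsto_zero]
  have h1 : Tendsto (fun η : ℝ => η / (((d : ℝ) - 1) * (mc d (E : ℂ)).im)) (𝓝[>] 0) (𝓝 0) := by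
    have h2 : Tendsto (fun η : ℝ => η / (((d : ℝ) - 1) * (mc d (E : ℂ)).im)) (𝓝 0)
        (𝓝 (0 / (((d : ℝ) - 1) * (mc d (E : ℂ)).im))) :=
      (continuous_id.div_const _).tendsto 0
    rw [zero_div] at h2
    exact h2.mono_left nhdsWithin_le_nhds
  refine squeeze_zero' (Eventually.of_forall fun z => norm_nonneg _) ?_ h1
  filter_upwards [self_mem_nhdsWithin] with η hη
  exact mc_ze_sub_le hd hE (le_of_lt hη)

/-- lower bound constant for `Im mc` on `|E| ≤ A`, `0 ≤ η ≤ 1` -/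
noncomputable def cIm (d : ℕ) (A : ℝ) : ℝ := (1 - A ^ 2 / (4 * ((d : ℝ) - 1))) / d

lemma cIm_pos {d : ℕ} (hd : 3 ≤ d) {A : ℝ} (hA : A ^ 2 < 4 * ((d : ℝ) - 1)) : 0 < cIm d A := by
  unfold cIm
  have h2 := two_le hd
  have h3 : (0 : ℝ) < d := by linarith
  have h4 : A ^ 2 / (4 * ((d : ℝ) - 1)) < 1 := by
    rw [div_lt_one (by linarith)]; exact hA
  apply div_pos _ h3
  linarith

/-- (M3) `Im mc ≥ c(d,A)` for `|Re z| ≤ A`, `0 ≤ Im z ≤ 1` -/
theorem cIm_le {d : ℕ} (hd : 3 ≤ d) {A : ℝ} (hA : A ^ 2 < 4 * ((d : ℝ) - 1)) {z : ℂ}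
    (h1 : |z.re| ≤ A) (h0 : 0 ≤ z.im) (h2 : z.im ≤ 1) : cIm d A ≤ (mc d z).im := by
  have hb := two_le hd
  have hd0 : (0 : ℝ) < d := by linarith
  have hre : z.re ^ 2 ≤ A ^ 2 := by
    rw [← sq_abs z.re]; gcongr
  have hz : Dom d z := by
    rcases h0.eq_or_lt with h | h
    · exact Or.inr ⟨h.symm, lt_of_le_of_lt hre hA⟩
    · exact Or.inl h
  refine le_trans ?_ ((mc_root hd hz).im_ge (by linarith) h0)
  unfold cIm
  have h3 : 0 ≤ 1 - A ^ 2 / (4 * ((d : ℝ) - 1)) := by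
    have : A ^ 2 / (4 * ((d : ℝ) - 1)) < 1 := by
      rw [div_lt_one (by linarith)]; exact hA
    linarith
  have h4 : 1 - A ^ 2 / (4 * ((d : ℝ) - 1)) ≤ 1 - z.re ^ 2 / (4 * ((d : ℝ) - 1)) := by
    have : z.re ^ 2 / (4 * ((d : ℝ) - 1)) ≤ A ^ 2 / (4 * ((d : ℝ) - 1)) := by gcongr
    linarith
  have h5 : (d : ℝ) - 1 + z.im ≤ d := by linarith
  have h6 : 0 < (d : ℝ) - 1 + z.im := by linarith
  calc (1 - A ^ 2 / (4 * ((d : ℝ) - 1))) / d
      ≤ (1 - A ^ 2 / (4 * ((d : ℝ) - 1))) / ((d : ℝ) - 1 + z.im) := by gcongr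
    _ ≤ _ := by gcongr





/-! ### (M4): the diagonal Green function -/

/-- diagonal Green function of the clean tree -/
noncomputable def moo (d : ℕ) (z : ℂ) : ℂ := -1 / (z + (d : ℂ) * mc d z)

theorem moo_eq {d : ℕ} (hd : 3 ≤ d) {z : ℂ} (hz : Dom d z) :
    moo d z = mc d z / (1 - mc d z ^ 2) := by
  have h := (mc_root hd hz).moo_eq (sq_ne_one (mc_root hd hz) (two_le hd) hz.im_nonneg)
  rw [← h, moo]
  congr 2
  push_cast
  ring


theorem moo_im_ge {d : ℕ} (hd : 3 ≤ d) {z : ℂ} (hz : Dom d z) :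
    (mc d z).im / 4 ≤ (moo d z).im := by
  have h := mc_root hd hz
  have h1 := diag_add_off h (two_le hd) hz.im_nonneg
  have h2 := diag_sub_off h (two_le hd) hz.im_nonneg
  have h3 := im_div_one_add_ge h (two_le hd) hz.im_nonneg
  have h4 := im_div_one_sub_ge h (two_le hd) hz.im_nonneg
  rw [← h1, Complex.add_im] at h3
  rw [← h2, Complex.sub_im] at h4
  rw [moo_eq hd hz]
  linarith

theorem moo_im_pos {d : ℕ} (hd : 3 ≤ d) {z : ℂ} (hz : Dom d z) : 0 < (moo d z).im := by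
  have h1 := moo_im_ge hd hz
  have h2 := mc_im_pos hd hz
  linarith





/-- (M4) the Kesten-McKay density -/
theorem moo_im_real {d : ℕ} (hd : 3 ≤ d) {E : ℝ} (hE : E ^ 2 < 4 * ((d : ℝ) - 1)) :
    (moo d (E : ℂ)).im = Real.pi * kestenMcKayDensity d E := by
  have h := kestenMcKay_eq hd hE
  have hpi := Real.pi_pos
  rw [moo, ← h]
  field_simp

theorem kestenMcKay_pos {d : ℕ} (hd : 3 ≤ d) {E : ℝ} (hE : E ^ 2 < 4 * ((d : ℝ) - 1)) :
    0 < kestenMcKayDensity d E := by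
  have h1 := moo_im_real hd hE
  have h2 := moo_im_pos hd (dom_real hE)
  rw [h1] at h2
  exact pos_of_mul_pos_right h2 Real.pi_pos.le

/-! ### (P3), (M5): the clean block -/

theorem Bclean_entries {d : ℕ} (hd : 3 ≤ d) {z : ℂ} (hz : Dom d z) :
    Bclean d z = !![mc d z / (1 - mc d z ^ 2), -(mc d z) ^ 2 / (1 - mc d z ^ 2);
      -(mc d z) ^ 2 / (1 - mc d z ^ 2), mc d z / (1 - mc d z ^ 2)] :=
  Bclean_eq (mc_ne_zero hd hz) (sq_ne_one (mc_root hd hz) (two_le hd) hz.im_nonneg)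

theorem Bclean_moo {d : ℕ} (hd : 3 ≤ d) {z : ℂ} (hz : Dom d z) :
    Bclean d z = !![moo d z, -(mc d z) * moo d z; -(mc d z) * moo d z, moo d z] := by
  rw [Bclean_entries hd hz, moo_eq hd hz]
  ext i j
  fin_cases i <;> fin_cases j <;> simp <;> ring

theorem Bclean_00 {d : ℕ} (hd : 3 ≤ d) {z : ℂ} (hz : Dom d z) : Bclean d z 0 0 = moo d z := by
  rw [Bclean_moo hd hz]; simp






/-- (P3) -/
theorem Bclean_im_real {d : ℕ} (hd : 3 ≤ d) {E : ℝ} (hE : E ^ 2 < 4 * ((d : ℝ) - 1)) :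
    (Bclean d (E : ℂ) 0 0).im = Real.pi * kestenMcKayDensity d E := by
  rw [Bclean_00 hd (dom_real hE), moo_im_real hd hE]






theorem Bclean_sub_le {d : ℕ} (hd : 3 ≤ d) {z z' : ℂ} (hz : Dom d z) (hz' : Dom d z') :
    bnorm (Bclean d z - Bclean d z') ≤ 8 * ‖mc d z - mc d z'‖ := by
  have h1 := diag_sub_le (mc_root hd hz) (mc_root hd hz') (two_le hd) hz.im_nonneg hz'.im_nonneg
  have h2 := off_sub_le (mc_root hd hz) (mc_root hd hz') (two_le hd) hz.im_nonneg hz'.im_nonneg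
  rw [bnorm_le_iff, Bclean_entries hd hz, Bclean_entries hd hz']
  intro i j
  fin_cases i <;> fin_cases j <;> simp at h1 h2 ⊢ <;> assumption


theorem tendsto_bnorm_Bclean {d : ℕ} (hd : 3 ≤ d) {E : ℝ} (hE : E ^ 2 < 4 * ((d : ℝ) - 1)) :
    Tendsto (fun η : ℝ => bnorm (Bclean d (ze E η) - Bclean d (E : ℂ))) (𝓝[>] 0) (𝓝 0) := by
  have h1 : Tendsto (fun η : ℝ => 8 * ‖mc d (ze E η) - mc d (E : ℂ)‖) (𝓝[>] 0) (𝓝 0) := by
    have h2 := (tendsto_iff_norm_sub_tendsto_zero.mp (tendsto_mc hd hE)).const_mul 8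
    rwa [mul_zero] at h2
  refine squeeze_zero' (Eventually.of_forall fun z => bnorm_nonneg _) ?_ h1
  filter_upwards [self_mem_nhdsWithin] with η hη
  exact Bclean_sub_le hd (dom_ze hE (le_of_lt hη)) (dom_real hE)


/-! ### (P4) the quadratic form of the imaginary part -/

lemma quad_eq {d : ℕ} (hd : 3 ≤ d) {z : ℂ} (hz : Dom d z) (x : Fin 2 → ℝ) :
    ∑ a, ∑ c, x a * (Bclean d z a c).im * x c =
      (mc d z / (1 + mc d z)).im * ((x 0 + x 1) ^ 2 / 2) +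
      (mc d z / (1 - mc d z)).im * ((x 0 - x 1) ^ 2 / 2) := by
  have h := mc_root hd hz
  have h1 := diag_add_off h (two_le hd) hz.im_nonneg
  have h2 := diag_sub_off h (two_le hd) hz.im_nonneg
  rw [← h1, ← h2, Complex.add_im, Complex.sub_im]
  rw [Bclean_entries hd hz]
  simp [Fin.sum_univ_two]
  ring

/-- (P4) lower bound -/
theorem quad_ge {d : ℕ} (hd : 3 ≤ d) {z : ℂ} (hz : Dom d z) (x : Fin 2 → ℝ) :
    (mc d z).im / 4 * (x 0 ^ 2 + x 1 ^ 2) ≤ ∑ a, ∑ c, x a * (Bclean d z a c).im * x c := by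
  rw [quad_eq hd hz]
  have h := mc_root hd hz
  have h3 := im_div_one_add_ge h (two_le hd) hz.im_nonneg
  have h4 := im_div_one_sub_ge h (two_le hd) hz.im_nonneg
  have e : (mc d z).im / 4 * (x 0 ^ 2 + x 1 ^ 2) =
      (mc d z).im / 4 * ((x 0 + x 1) ^ 2 / 2) + (mc d z).im / 4 * ((x 0 - x 1) ^ 2 / 2) := by ring
  rw [e]
  gcongr


/-- perturbation of the quadratic form -/
lemma quad_sub_le (A B : Matrix (Fin 2) (Fin 2) ℂ) (x : Fin 2 → ℝ) :
    |∑ a, ∑ c, x a * (A a c).im * x c - ∑ a, ∑ c, x a * (B a c).im * x c| ≤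
      2 * bnorm (A - B) * (x 0 ^ 2 + x 1 ^ 2) := by
  have h : ∀ i j, |(A i j).im - (B i j).im| ≤ bnorm (A - B) := by
    intro i j
    have h1 := norm_le_bnorm (A - B) i j
    have h2 := Complex.abs_im_le_norm ((A - B) i j)
    rw [Matrix.sub_apply, Complex.sub_im] at h2
    exact h2.trans h1
  have h0 := bnorm_nonneg (A - B)
  have e : ∑ a, ∑ c, x a * (A a c).im * x c - ∑ a, ∑ c, x a * (B a c).im * x c =
      ∑ a, ∑ c, x a * ((A a c).im - (B a c).im) * x c := by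
    simp only [Fin.sum_univ_two]; ring
  rw [e]
  have h1 : |∑ a, ∑ c, x a * ((A a c).im - (B a c).im) * x c| ≤
      ∑ a : Fin 2, ∑ c : Fin 2, bnorm (A - B) * (|x a| * |x c|) := by
    refine (Finset.abs_sum_le_sum_abs _ _).trans (Finset.sum_le_sum fun a _ => ?_)
    refine (Finset.abs_sum_le_sum_abs _ _).trans (Finset.sum_le_sum fun c _ => ?_)
    rw [abs_mul, abs_mul]
    calc |x a| * |(A a c).im - (B a c).im| * |x c| ≤ |x a| * bnorm (A - B) * |x c| := by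
          gcongr; exact h a c
      _ = _ := by ring
  refine h1.trans ?_
  simp only [Fin.sum_univ_two]
  have h2 : |x 0| ^ 2 = x 0 ^ 2 := sq_abs _
  have h3 : |x 1| ^ 2 = x 1 ^ 2 := sq_abs _
  nlinarith [mul_nonneg h0 (sq_nonneg (|x 0| - |x 1|))]

/-- (P4) for every block near the clean one -/
theorem quad_ge_of_near {d : ℕ} (hd : 3 ≤ d) {z : ℂ} (hz : Dom d z)
    {B : Matrix (Fin 2) (Fin 2) ℂ} (hB : bnorm (B - Bclean d z) ≤ (mc d z).im / 16)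
    (x : Fin 2 → ℝ) :
    (mc d z).im / 8 * (x 0 ^ 2 + x 1 ^ 2) ≤ ∑ a, ∑ c, x a * (B a c).im * x c := by
  have h1 := quad_ge hd hz x
  have h2 := (abs_le.mp (quad_sub_le B (Bclean d z) x)).1
  have h3 : 0 ≤ x 0 ^ 2 + x 1 ^ 2 := by positivity
  have h4 : 2 * bnorm (B - Bclean d z) * (x 0 ^ 2 + x 1 ^ 2) ≤
      2 * ((mc d z).im / 16) * (x 0 ^ 2 + x 1 ^ 2) := by gcongr
  linarith

/-! ### (P5) the block map near `m I` -/

/-- the adjacency block of an edge -/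
def W2 : Matrix (Fin 2) (Fin 2) ℂ := !![0, 1; 1, 0]











section P5

variable {b : ℝ} {z m : ℂ}




end P5









end Crest.Agent.R166.McClean797
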