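import Crest.Agent.R166.Rev2_811

/-!
# Row 166, section 30.4: expectation assembly of the one-step inequality (helper811)

Shapes of helper395 (#3910):
* (S0) all inputs good and decoupled (`Adm ∅`);
* (S1) all inputs but one good and decoupled (`Adm {i}`);
conclusion `one_step` : `E[Dt²] ≤ θ V + C |E y|² + C_L (V² + 1/K + s²)`.
* (S2) at most two bad inputs: `pr_bad_le`.
-/

set_option autoImplicit false

open Finset Matrix

namespace Crest.Agent.R166.Rev811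

open Res789

variable {n d : ℕ} {ι : Type*} [Fintype ι] [DecidableEq ι]

/-- total coupling error relative to the revealed set `A` -/
noncomputable def cE (S0 : Finset (Fin n)) (R : Matrix (Fin n) (Fin n) ℂ)
    (p : Equiv.Perm (HE n d)) (A : Finset ι) (e : ι → HE n d) : ℝ :=
  (∑ j ∈ Aᶜ, Real.sqrt (cpl (GA S0 p A e) R p (e j))) +
    ∑ jk ∈ (Aᶜ).offDiag, Real.sqrt (cpl2 R p (e jk.1) (e jk.2))

/-- the same with squares -/
noncomputable def cE2 (S0 : Finset (Fin n)) (R : Matrix (Fin n) (Fin n) ℂ)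
    (p : Equiv.Perm (HE n d)) (A : Finset ι) (e : ι → HE n d) : ℝ :=
  (∑ j ∈ Aᶜ, cpl (GA S0 p A e) R p (e j)) +
    ∑ jk ∈ (Aᶜ).offDiag, cpl2 R p (e jk.1) (e jk.2)

lemma cE_nonneg (S0 : Finset (Fin n)) (R : Matrix (Fin n) (Fin n) ℂ)
    (p : Equiv.Perm (HE n d)) (A : Finset ι) (e : ι → HE n d) : 0 ≤ cE S0 R p A e := by
  unfold cE
  exact add_nonneg (Finset.sum_nonneg fun _ _ => Real.sqrt_nonneg _)
    (Finset.sum_nonneg fun _ _ => Real.sqrt_nonneg _)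

/-- Cauchy-Schwarz for sums of square roots -/
lemma sum_sqrt_sq {κ : Type*} (s : Finset κ) (f : κ → ℝ) (hf : ∀ k ∈ s, 0 ≤ f k) :
    (∑ k ∈ s, Real.sqrt (f k)) ^ 2 ≤ s.card * ∑ k ∈ s, f k := by
  have h := sq_sum_le_card_mul_sum_sq (s := s) (f := fun k => Real.sqrt (f k))
  refine h.trans (le_of_eq ?_)
  congr 1
  exact Finset.sum_congr rfl fun k hk => Real.sq_sqrt (hf k hk)

lemma card_compl_real (A : Finset ι) : ((Aᶜ).card : ℝ) ≤ Fintype.card ι := by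
  exact_mod_cast Finset.card_le_univ _

lemma card_offDiag_real (A : Finset ι) : ((A.offDiag).card : ℝ) ≤ (Fintype.card ι : ℝ) ^ 2 := by
  have h1 : A.offDiag.card ≤ Fintype.card ι ^ 2 := by
    rw [Finset.offDiag_card]
    have := Finset.card_le_univ A
    calc A.card * A.card - A.card ≤ A.card * A.card := Nat.sub_le _ _
      _ ≤ Fintype.card ι * Fintype.card ι := Nat.mul_le_mul this this
      _ = _ := by ring
  exact_mod_cast h1

lemma cE_sq_le (S0 : Finset (Fin n)) (R : Matrix (Fin n) (Fin n) ℂ)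
    (p : Equiv.Perm (HE n d)) (A : Finset ι) (e : ι → HE n d) :
    cE S0 R p A e ^ 2 ≤
      2 * ((Fintype.card ι : ℝ) + (Fintype.card ι : ℝ) ^ 2) * cE2 S0 R p A e := by
  unfold cE cE2
  set a := ∑ j ∈ Aᶜ, Real.sqrt (cpl (GA S0 p A e) R p (e j))
  set b := ∑ jk ∈ (Aᶜ).offDiag, Real.sqrt (cpl2 R p (e jk.1) (e jk.2))
  set a' := ∑ j ∈ Aᶜ, cpl (GA S0 p A e) R p (e j) with ha'
  set b' := ∑ jk ∈ (Aᶜ).offDiag, cpl2 R p (e jk.1) (e jk.2) with hb'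
  have h1 : a ^ 2 ≤ (Aᶜ).card * a' := sum_sqrt_sq _ _ fun _ _ => cpl_nonneg _ _ _ _
  have h2 : b ^ 2 ≤ ((Aᶜ).offDiag).card * b' := sum_sqrt_sq _ _ fun _ _ => cpl2_nonneg _ _ _ _
  have ha0 : 0 ≤ a' := Finset.sum_nonneg fun _ _ => cpl_nonneg _ _ _ _
  have hb0 : 0 ≤ b' := Finset.sum_nonneg fun _ _ => cpl2_nonneg _ _ _ _
  have h3 : ((Aᶜ).card : ℝ) * a' ≤ (Fintype.card ι) * a' :=
    mul_le_mul_of_nonneg_right (card_compl_real A) ha0
  have h4 : (((Aᶜ).offDiag).card : ℝ) * b' ≤ (Fintype.card ι : ℝ) ^ 2 * b' :=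
    mul_le_mul_of_nonneg_right (card_offDiag_real _) hb0
  have hN : (0 : ℝ) ≤ Fintype.card ι := Nat.cast_nonneg _
  have h5 : (a + b) ^ 2 ≤ 2 * (a ^ 2 + b ^ 2) := by nlinarith [sq_nonneg (a - b)]
  have h6 : 0 ≤ (Fintype.card ι : ℝ) ^ 2 * a' := by positivity
  have h7 : 0 ≤ (Fintype.card ι : ℝ) * b' := by positivity
  nlinarith

open Classical in
/-- indicator -/
noncomputable def ind (P : Prop) : ℝ := if P then 1 else 0

lemma ind_nonneg (P : Prop) : 0 ≤ ind P := by unfold ind; split_ifs <;> norm_num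

lemma ind_le_one (P : Prop) : ind P ≤ 1 := by unfold ind; split_ifs <;> norm_num

lemma ind_pos {P : Prop} (h : P) : ind P = 1 := by unfold ind; rw [if_pos h]

lemma ind_neg {P : Prop} (h : ¬ P) : ind P = 0 := by unfold ind; rw [if_neg h]


/-- expected squared couplings, with good unrevealed sites, on a weight `f` depending on the
revealed sites only -/
lemma av_mul_cE2 [Nonempty (HE n d)] {H : Matrix (Fin n) (Fin n) ℝ} (hH : Hᵀ = H) {z : ℂ}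
    (hz : 0 < z.im) (hd : 0 < d) (p : Equiv.Perm (HE n d)) (S0 : Finset (Fin n))
    (Bad : HE n d → Prop) {M : ℝ} (hM0 : 0 ≤ M)
    (hM : ∀ x, ¬ Bad x →
      (Res789.Res H z x.1 x.1).im + (Res789.Res H z (p x).1 (p x).1).im ≤ M)
    (A : Finset ι) (f : (ι → HE n d) → ℝ) (hf : ∀ e, 0 ≤ f e)
    (hfi : ∀ i, i ∉ A → ∀ e x, f (Function.update e i x) = f e) :
    av (fun e => f e * (ind (∀ j, j ∉ A → ¬ Bad (e j)) * cE2 S0 (Res789.Res H z) p A e)) ≤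
      ((Fintype.card ι : ℝ) * (2 * (S0.card + 2 * A.card : ℝ) / (n * z.im)) +
        (Fintype.card ι : ℝ) ^ 2 * (2 * M / (n * z.im))) * av f := by
  classical
  set R := Res789.Res H z with hR
  have hav : 0 ≤ av f := av_nonneg hf
  have hK : 0 ≤ (n : ℝ) * z.im := by positivity
  -- pointwise bound
  have h1 : ∀ e, f e * (ind (∀ j, j ∉ A → ¬ Bad (e j)) * cE2 S0 R p A e) ≤
      (∑ j ∈ Aᶜ, f e * cpl (GA S0 p A e) R p (e j)) +
        ∑ jk ∈ (Aᶜ).offDiag, (f e * ind (¬ Bad (e jk.1))) * cpl2 R p (e jk.1) (e jk.2) := by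
    intro e
    unfold cE2
    rw [mul_add, mul_add, Finset.mul_sum, Finset.mul_sum, Finset.mul_sum, Finset.mul_sum]
    apply add_le_add
    · refine Finset.sum_le_sum fun j _ => ?_
      refine mul_le_mul_of_nonneg_left ?_ (hf e)
      have := cpl_nonneg (GA S0 p A e) R p (e j)
      calc _ ≤ 1 * cpl (GA S0 p A e) R p (e j) :=
            mul_le_mul_of_nonneg_right (ind_le_one _) this
        _ = _ := one_mul _
    · refine Finset.sum_le_sum fun jk hjk => ?_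
      rw [mul_assoc]
      refine mul_le_mul_of_nonneg_left ?_ (hf e)
      refine mul_le_mul_of_nonneg_right ?_ (cpl2_nonneg _ _ _ _)
      by_cases h : ∀ j, j ∉ A → ¬ Bad (e j)
      · have hj : jk.1 ∉ A := by
          rw [Finset.mem_offDiag] at hjk
          simpa using hjk.1
        rw [ind_pos h, ind_pos (h _ hj)]
      · rw [ind_neg h]; exact ind_nonneg _
  refine (av_mono h1).trans ?_
  rw [av_add (fun e => ∑ j ∈ Aᶜ, f e * cpl (GA S0 p A e) R p (e j))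
    (fun e => ∑ jk ∈ (Aᶜ).offDiag, (f e * ind (¬ Bad (e jk.1))) * cpl2 R p (e jk.1) (e jk.2)),
    av_sum, av_sum, add_mul]
  apply add_le_add
  · refine (Finset.sum_le_sum (g := fun _ => 2 * (S0.card + 2 * A.card : ℝ) / (n * z.im) * av f)
      fun j hj => ?_).trans ?_
    · have hjA : j ∉ A := by simpa using hj
      exact av_mul_cpl hH hz hd p S0 A j hjA f hf (hfi j hjA)
    · rw [Finset.sum_const, nsmul_eq_mul, mul_assoc]
      exact mul_le_mul_of_nonneg_right (card_compl_real A) (by positivity)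
  · refine (Finset.sum_le_sum (g := fun _ => 2 * M / (n * z.im) * av f) fun jk hjk => ?_).trans ?_
    · rw [Finset.mem_offDiag] at hjk
      obtain ⟨hj, hk, hne⟩ := hjk
      have hjA : jk.1 ∉ A := by simpa using hj
      have hkA : jk.2 ∉ A := by simpa using hk
      set g : (ι → HE n d) → ℝ := fun e => f e * ind (¬ Bad (e jk.1)) with hg
      have hg0 : ∀ e, 0 ≤ g e := fun e => mul_nonneg (hf e) (ind_nonneg _)
      have hgk : ∀ e x, g (Function.update e jk.2 x) = g e := by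
        intro e x
        simp only [hg, hfi _ hkA e x, Function.update_of_ne hne]
      have e1 : av (fun e => g e * (ind (¬ Bad (e jk.1)) * cpl2 R p (e jk.1) (e jk.2))) ≤
          2 * M / (n * z.im) * av g := by
        refine av_mul_le jk.2 g _ _ hg0 hgk fun e => ?_
        simp only [Function.update_of_ne hne, Function.update_self]
        by_cases hb : Bad (e jk.1)
        · rw [ind_neg (by simpa using hb)]
          simp only [zero_mul]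
          rw [av1_zero]; positivity
        · rw [ind_pos hb]
          simp only [one_mul]
          rw [av1_cpl2 hH hz hd]
          apply div_le_div_of_nonneg_right _ hK
          linarith [hM _ hb]
      have e2 : ∀ e, g e * (ind (¬ Bad (e jk.1)) * cpl2 R p (e jk.1) (e jk.2)) =
          (f e * ind (¬ Bad (e jk.1))) * cpl2 R p (e jk.1) (e jk.2) := by
        intro e
        simp only [hg]
        by_cases hb : Bad (e jk.1)
        · rw [ind_neg (by simpa using hb)]; ring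
        · rw [ind_pos hb]; ring
      simp only [e2] at e1
      refine e1.trans ?_
      apply mul_le_mul_of_nonneg_left _ (by positivity)
      apply av_mono
      intro e
      simp only [hg]
      calc f e * ind (¬ Bad (e jk.1)) ≤ f e * 1 :=
            mul_le_mul_of_nonneg_left (ind_le_one _) (hf e)
        _ = f e := mul_one _
    · rw [Finset.sum_const, nsmul_eq_mul, mul_assoc]
      exact mul_le_mul_of_nonneg_right (card_offDiag_real _) (by positivity)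

/-- expected square of a sum of one-site costs of the unrevealed sites -/
lemma av_mul_sum_sq {Ω : Type*} [Fintype Ω] [Nonempty Ω] (D : Ω → ℝ) (A : Finset ι)
    (f : (ι → Ω) → ℝ) (hf : ∀ e, 0 ≤ f e)
    (hfi : ∀ i, i ∉ A → ∀ e x, f (Function.update e i x) = f e) :
    av (fun e => f e * (∑ j ∈ Aᶜ, D (e j)) ^ 2) ≤
      (Fintype.card ι : ℝ) ^ 2 * av1 (fun x => D x ^ 2) * av f := by
  have hav : 0 ≤ av f := av_nonneg hf
  have hV : 0 ≤ av1 (fun x => D x ^ 2) := av1_nonneg fun x => sq_nonneg _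
  have h1 : ∀ e, f e * (∑ j ∈ Aᶜ, D (e j)) ^ 2 ≤
      (Fintype.card ι : ℝ) * ∑ j ∈ Aᶜ, f e * D (e j) ^ 2 := by
    intro e
    rw [← Finset.mul_sum]
    have := sq_sum_le_card_mul_sum_sq (s := Aᶜ) (f := fun j => D (e j))
    have h2 : (∑ j ∈ Aᶜ, D (e j)) ^ 2 ≤ (Fintype.card ι : ℝ) * ∑ j ∈ Aᶜ, D (e j) ^ 2 :=
      this.trans (mul_le_mul_of_nonneg_right (card_compl_real A)
        (Finset.sum_nonneg fun _ _ => sq_nonneg _))
    calc f e * (∑ j ∈ Aᶜ, D (e j)) ^ 2 ≤ f e * ((Fintype.card ι : ℝ) * ∑ j ∈ Aᶜ, D (e j) ^ 2) :=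
          mul_le_mul_of_nonneg_left h2 (hf e)
      _ = _ := by ring
  refine (av_mono h1).trans ?_
  rw [av_const_mul, av_sum]
  have h3 : ∑ j ∈ Aᶜ, av (fun e => f e * D (e j) ^ 2) ≤
      (Fintype.card ι : ℝ) * (av1 (fun x => D x ^ 2) * av f) := by
    refine (Finset.sum_le_sum (g := fun _ => av1 (fun x => D x ^ 2) * av f) fun j hj => ?_).trans ?_
    · have hjA : j ∉ A := by simpa using hj
      refine av_mul_le j f _ _ hf (hfi j hjA) fun e => ?_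
      simp only [Function.update_self]
      exact le_rfl
    · rw [Finset.sum_const, nsmul_eq_mul]
      exact mul_le_mul_of_nonneg_right (card_compl_real A) (by positivity)
  calc _ ≤ (Fintype.card ι : ℝ) * ((Fintype.card ι : ℝ) * (av1 (fun x => D x ^ 2) * av f)) :=
        mul_le_mul_of_nonneg_left h3 (Nat.cast_nonneg _)
    _ = _ := by ring

/-- `E (Σ_{i≠j} D_i D_j)² ≤ N⁴ V²` -/
lemma av_offDiag_sq {Ω : Type*} [Fintype Ω] [Nonempty Ω] (D : Ω → ℝ) :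
    av (fun e : ι → Ω => (∑ jk ∈ (Finset.univ : Finset ι).offDiag, D (e jk.1) * D (e jk.2)) ^ 2) ≤
      (Fintype.card ι : ℝ) ^ 4 * (av1 (fun x => D x ^ 2)) ^ 2 := by
  have h1 : ∀ e : ι → Ω,
      (∑ jk ∈ (Finset.univ : Finset ι).offDiag, D (e jk.1) * D (e jk.2)) ^ 2 ≤
      (Fintype.card ι : ℝ) ^ 2 *
        ∑ jk ∈ (Finset.univ : Finset ι).offDiag, D (e jk.1) ^ 2 * D (e jk.2) ^ 2 := by
    intro e
    refine (sq_sum_le_card_mul_sum_sq (s := (Finset.univ : Finset ι).offDiag)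
      (f := fun jk => D (e jk.1) * D (e jk.2))).trans ?_
    have : ∑ jk ∈ (Finset.univ : Finset ι).offDiag, (D (e jk.1) * D (e jk.2)) ^ 2 =
        ∑ jk ∈ (Finset.univ : Finset ι).offDiag, D (e jk.1) ^ 2 * D (e jk.2) ^ 2 :=
      Finset.sum_congr rfl fun _ _ => by ring
    rw [this]
    exact mul_le_mul_of_nonneg_right (card_offDiag_real _)
      (Finset.sum_nonneg fun _ _ => by positivity)
  refine (av_mono h1).trans ?_
  rw [av_const_mul, av_sum]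
  have h2 : ∑ jk ∈ (Finset.univ : Finset ι).offDiag,
      av (fun e : ι → Ω => D (e jk.1) ^ 2 * D (e jk.2) ^ 2) ≤
      (Fintype.card ι : ℝ) ^ 2 * (av1 (fun x => D x ^ 2)) ^ 2 := by
    have : ∀ jk ∈ (Finset.univ : Finset ι).offDiag,
        av (fun e : ι → Ω => D (e jk.1) ^ 2 * D (e jk.2) ^ 2) =
          (av1 (fun x => D x ^ 2)) ^ 2 := by
      intro jk hjk
      rw [Finset.mem_offDiag] at hjk
      rw [av_coord_mul hjk.2.2 (fun x => D x ^ 2) (fun x => D x ^ 2)]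
      ring
    rw [Finset.sum_congr rfl this, Finset.sum_const, nsmul_eq_mul]
    exact mul_le_mul_of_nonneg_right (card_offDiag_real _) (by positivity)
  calc _ ≤ (Fintype.card ι : ℝ) ^ 2 * ((Fintype.card ι : ℝ) ^ 2 *
        (av1 (fun x => D x ^ 2)) ^ 2) := mul_le_mul_of_nonneg_left h2 (by positivity)
    _ = _ := by ring

/-- Markov for `Bad = (rs ≤ D)` -/
lemma pr1_bad_le {Ω : Type*} [Fintype Ω] (D : Ω → ℝ) {rs : ℝ} (hrs : 0 < rs) :
    pr1 (fun x => rs ≤ D x) ≤ av1 (fun x => D x ^ 2) / rs ^ 2 := by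
  rw [le_div_iff₀ (by positivity), mul_comm]
  unfold pr1
  rw [← av1_const_mul]
  apply av1_mono
  intro x
  by_cases h : rs ≤ D x
  · simp only [h, if_true, mul_one]
    exact pow_le_pow_left₀ hrs.le h 2
  · simp only [h, if_false, mul_zero]
    exact sq_nonneg _

/-- the exceptional event of the one-step inequality -/
lemma pr_rest {Ω : Type*} [Fintype Ω] [Nonempty Ω] {Bad : Ω → Prop}
    {Cp : Finset ι → (ι → Ω) → Ω → Prop} {Pr : Ω → Ω → Prop} {p q : ℝ} {m : ℕ} (hm : 1 ≤ m)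
    (H : Hyp Bad Cp Pr m p q) :
    pr (fun e => ¬ Adm Bad Cp Pr ∅ e ∧ ¬ ∃ j, Wk Bad Cp ∅ e j ∧ Adm Bad Cp Pr {j} e) ≤
      (Fintype.card ι : ℝ) * ((Fintype.card ι : ℝ) * (p + q) ^ 2 +
        (Fintype.card ι : ℝ) ^ 2 * (q * (p + q))) + (Fintype.card ι : ℝ) ^ 2 * q := by
  have h1 : pr (fun e => ¬ Adm Bad Cp Pr ∅ e ∧ ¬ ∃ j, Wk Bad Cp ∅ e j ∧ Adm Bad Cp Pr {j} e) ≤
      pr (fun e => (∃ j ∈ (Finset.univ : Finset ι), Wk Bad Cp ∅ e j ∧ ¬ Adm Bad Cp Pr {j} e) ∨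
        ∃ jk ∈ (Finset.univ : Finset ι).offDiag, Qk Bad Pr e jk.1 jk.2) := by
    apply pr_mono
    rintro e ⟨he, he2⟩
    rcases not_adm Bad Cp Pr he with ⟨j, _, hj⟩ | ⟨j, k, _, _, hjk, hQ⟩
    · refine Or.inl ⟨j, Finset.mem_univ _, hj, fun h => he2 ⟨j, hj, h⟩⟩
    · exact Or.inr ⟨(j, k), by simp [hjk], hQ⟩
  refine h1.trans ((pr_or _ _).trans (add_le_add ?_ ?_))
  · refine (pr_exists _ _).trans ?_
    refine (Finset.sum_le_sum fun j _ => pr_case_one hm H j).trans ?_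
    rw [Finset.sum_const, nsmul_eq_mul, Finset.card_univ]
  · refine (pr_exists _ _).trans ?_
    refine (Finset.sum_le_sum (g := fun _ => q) fun jk hjk => ?_).trans ?_
    · rw [Finset.mem_offDiag] at hjk
      exact pr_Qk H jk.1 jk.2 hjk.2.2
    · rw [Finset.sum_const, nsmul_eq_mul]
      exact mul_le_mul_of_nonneg_right (card_offDiag_real _) H.q0

/-- elementary: square of a sum of six / four terms -/
lemma sq_six (a b c d e f : ℝ) :
    (a + b + c + d + e + f) ^ 2 ≤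
      6 * (a ^ 2 + b ^ 2 + c ^ 2 + d ^ 2 + e ^ 2 + f ^ 2) := by
  nlinarith [sq_nonneg (a - b), sq_nonneg (a - c), sq_nonneg (a - d), sq_nonneg (a - e),
    sq_nonneg (a - f), sq_nonneg (b - c), sq_nonneg (b - d), sq_nonneg (b - e), sq_nonneg (b - f),
    sq_nonneg (c - d), sq_nonneg (c - e), sq_nonneg (c - f), sq_nonneg (d - e), sq_nonneg (d - f),
    sq_nonneg (e - f)]

lemma sq_two (a b : ℝ) : (a + b) ^ 2 ≤ 2 * (a ^ 2 + b ^ 2) := by
  nlinarith [sq_nonneg (a - b)]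

lemma sq_four (a b c d : ℝ) : (a + b + c + d) ^ 2 ≤ 4 * (a ^ 2 + b ^ 2 + c ^ 2 + d ^ 2) := by
  nlinarith [sq_nonneg (a - b), sq_nonneg (a - c), sq_nonneg (a - d), sq_nonneg (b - c),
    sq_nonneg (b - d), sq_nonneg (c - d)]

/-- second moment of a partial sum of iid complex terms -/
lemma av_norm_partial {Ω : Type*} [Fintype Ω] [Nonempty Ω] (I : Finset ι) (y : Ω → ℂ) :
    av (fun e : ι → Ω => ‖∑ i ∈ I, y (e i)‖ ^ 2) ≤
      I.card * av1 (fun x => ‖y x‖ ^ 2) + (I.card : ℝ) ^ 2 * ‖avc y‖ ^ 2 := by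
  have h := av_norm_sum_sq (ι := ι) (fun i x => if i ∈ I then y x else 0)
  have h1 : (fun e : ι → Ω => ‖∑ i, (if i ∈ I then y (e i) else 0)‖ ^ 2) =
      fun e => ‖∑ i ∈ I, y (e i)‖ ^ 2 := by
    ext e
    rw [Finset.sum_ite_mem, Finset.univ_inter]
  rw [h1] at h
  refine h.trans (le_of_eq ?_)
  congr 1
  · have : ∀ i : ι, av1 (fun x => ‖(if i ∈ I then y x else 0 : ℂ)‖ ^ 2) =
        if i ∈ I then av1 (fun x => ‖y x‖ ^ 2) else 0 := by
      intro i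
      by_cases hi : i ∈ I
      · simp only [hi, if_true]
      · simp only [hi, if_false, norm_zero]
        rw [show (fun _ : Ω => (0 : ℝ) ^ 2) = fun _ => 0 from by ext; norm_num, av1_zero]
    rw [Finset.sum_congr rfl fun i _ => this i, Finset.sum_ite_mem, Finset.univ_inter,
      Finset.sum_const, nsmul_eq_mul]
  · have : ∀ i : ι, avc (fun x => (if i ∈ I then y x else 0 : ℂ)) =
        if i ∈ I then avc y else 0 := by
      intro i
      by_cases hi : i ∈ I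
      · simp only [hi, if_true]
      · simp only [hi, if_false]
        unfold avc
        simp
    rw [Finset.sum_congr rfl fun i _ => this i, Finset.sum_ite_mem, Finset.univ_inter,
      Finset.sum_const, nsmul_eq_mul, norm_mul, mul_pow]
    simp


/-- first case: everything is admissible -/
lemma case_zero {N s0 : ℕ} {C CL Cy M rs : ℝ}
    (hM0 : 0 ≤ M) (hι : Fintype.card ι = N) (hd : 0 < d)
    [Nonempty (HE n d)]
    {H : Matrix (Fin n) (Fin n) ℝ} (hH : Hᵀ = H) {z : ℂ} (hz : 0 < z.im)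
    (p : Equiv.Perm (HE n d)) (S0 : Finset (Fin n)) (hS0 : S0.card ≤ s0)
    (D : HE n d → ℝ) (hD0 : ∀ x, 0 ≤ D x) (hD1 : ∀ x, D x ≤ rs) (y : HE n d → ℂ)
    (hy : ∀ x, ‖y x‖ ≤ Cy * D x)
    (hM : ∀ x, ¬ rs ≤ D x →
      (Res789.Res H z x.1 x.1).im + (Res789.Res H z (p x).1 (p x).1).im ≤ M)
    (Iv Iw : Finset ι) (al : ℂ) (be : ℝ) (hal : ‖al‖ ≤ be)
    (hIv : be * Iv.card ≤ 1) (hIw : be * Iw.card ≤ 1) (hbeN : be * N ≤ 2) (s : ℝ) (ε : ℝ)
    (Dt : (ι → HE n d) → ℝ) (hDt0 : ∀ e, 0 ≤ Dt e)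
    (hS0' : ∀ e, Adm (fun x => rs ≤ D x) (CpW S0 (Res789.Res H z) p ε)
        (PrW (Res789.Res H z) p ε) ∅ e →
      Dt e ≤ C * (‖al * ∑ i ∈ Iv, y (e i)‖ + ‖al * ∑ i ∈ Iw, y (e i)‖) +
        C * be * ∑ i, D (e i) ^ 2 +
        CL * ((∑ jk ∈ (Finset.univ : Finset ι).offDiag, D (e jk.1) * D (e jk.2)) + |s| +
          cE S0 (Res789.Res H z) p ∅ e)) :
    av (fun e => ind (Adm (fun x => rs ≤ D x) (CpW S0 (Res789.Res H z) p ε)
        (PrW (Res789.Res H z) p ε) ∅ e) * Dt e ^ 2) ≤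
      12 * C ^ 2 * be * (Cy ^ 2 + rs ^ 2) * av1 (fun x => D x ^ 2) + 12 * C ^ 2 * ‖avc y‖ ^ 2 +
      24 * C ^ 2 * (av1 (fun x => D x ^ 2)) ^ 2 +
      6 * CL ^ 2 * ((N : ℝ) ^ 4 * (av1 (fun x => D x ^ 2)) ^ 2 + s ^ 2 +
        2 * ((N : ℝ) + (N : ℝ) ^ 2) * (((N : ℝ) * (2 * (s0 : ℝ)) + (N : ℝ) ^ 2 * (2 * M)) /
          (n * z.im))) := by
  classical
  set R := Res789.Res H z with hR
  set V := av1 (fun x => D x ^ 2) with hV
  have hV0 : 0 ≤ V := av1_nonneg fun x => sq_nonneg _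
  have hbe0 : 0 ≤ be := (norm_nonneg _).trans hal
  have hcard : (Fintype.card ι : ℝ) = N := by exact_mod_cast hι
  set AdmE : (ι → HE n d) → Prop := fun e => Adm (fun x => rs ≤ D x) (CpW S0 R p ε)
    (PrW R p ε) ∅ e with hAdmE
  set good : (ι → HE n d) → Prop := fun e => ∀ j, j ∉ (∅ : Finset ι) → ¬ rs ≤ D (e j) with hgood
  -- pointwise bound
  have hpt : ∀ e, ind (AdmE e) * Dt e ^ 2 ≤
      6 * (C ^ 2 * ‖al‖ ^ 2 * ‖∑ i ∈ Iv, y (e i)‖ ^ 2 + C ^ 2 * ‖al‖ ^ 2 * ‖∑ i ∈ Iw, y (e i)‖ ^ 2 +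
        C ^ 2 * be ^ 2 * (∑ i, D (e i) ^ 2) ^ 2 +
        CL ^ 2 * (∑ jk ∈ (Finset.univ : Finset ι).offDiag, D (e jk.1) * D (e jk.2)) ^ 2 +
        CL ^ 2 * s ^ 2 +
        CL ^ 2 * (2 * ((N : ℝ) + (N : ℝ) ^ 2)) * (1 * (ind (good e) * cE2 S0 R p ∅ e))) := by
    intro e
    by_cases h : AdmE e
    · rw [ind_pos h, one_mul]
      have hg : good e := by
        intro j hj hb
        exact h.1 j hj (Or.inl hb)
      rw [ind_pos hg]
      have h1 := hS0' e h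
      have h2 := pow_le_pow_left₀ (hDt0 e) h1 2
      have h3 : C * (‖al * ∑ i ∈ Iv, y (e i)‖ + ‖al * ∑ i ∈ Iw, y (e i)‖) +
        C * be * ∑ i, D (e i) ^ 2 +
        CL * ((∑ jk ∈ (Finset.univ : Finset ι).offDiag, D (e jk.1) * D (e jk.2)) + |s| +
          cE S0 R p ∅ e) = C * ‖al * ∑ i ∈ Iv, y (e i)‖ + C * ‖al * ∑ i ∈ Iw, y (e i)‖ +
        C * be * (∑ i, D (e i) ^ 2) +
        CL * (∑ jk ∈ (Finset.univ : Finset ι).offDiag, D (e jk.1) * D (e jk.2)) + CL * |s| +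
          CL * cE S0 R p ∅ e := by ring
      rw [h3] at h2
      refine h2.trans ((sq_six _ _ _ _ _ _).trans ?_)
      have h4 := cE_sq_le S0 R p ∅ e
      rw [hcard] at h4
      have h5 : (CL * cE S0 R p ∅ e) ^ 2 ≤
          CL ^ 2 * (2 * ((N : ℝ) + (N : ℝ) ^ 2)) * (1 * (1 * cE2 S0 R p ∅ e)) := by
        rw [mul_pow]
        calc CL ^ 2 * cE S0 R p ∅ e ^ 2 ≤
              CL ^ 2 * (2 * ((N : ℝ) + (N : ℝ) ^ 2) * cE2 S0 R p ∅ e) :=
              mul_le_mul_of_nonneg_left h4 (sq_nonneg _)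
          _ = _ := by ring
      have e1 : (C * ‖al * ∑ i ∈ Iv, y (e i)‖) ^ 2 =
          C ^ 2 * ‖al‖ ^ 2 * ‖∑ i ∈ Iv, y (e i)‖ ^ 2 := by rw [norm_mul]; ring
      have e2 : (C * ‖al * ∑ i ∈ Iw, y (e i)‖) ^ 2 =
          C ^ 2 * ‖al‖ ^ 2 * ‖∑ i ∈ Iw, y (e i)‖ ^ 2 := by rw [norm_mul]; ring
      have e3 : (CL * |s|) ^ 2 = CL ^ 2 * s ^ 2 := by rw [mul_pow, sq_abs]
      rw [e1, e2, e3]
      have e4 : (C * be * ∑ i, D (e i) ^ 2) ^ 2 = C ^ 2 * be ^ 2 * (∑ i, D (e i) ^ 2) ^ 2 := by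
        ring
      have e5 : (CL * ∑ jk ∈ (Finset.univ : Finset ι).offDiag, D (e jk.1) * D (e jk.2)) ^ 2 =
          CL ^ 2 * (∑ jk ∈ (Finset.univ : Finset ι).offDiag, D (e jk.1) * D (e jk.2)) ^ 2 := by
        ring
      rw [e4, e5]
      linarith
    · rw [ind_neg h, zero_mul]
      have : 0 ≤ cE2 S0 R p ∅ e := by
        unfold cE2
        exact add_nonneg (Finset.sum_nonneg fun _ _ => cpl_nonneg _ _ _ _)
          (Finset.sum_nonneg fun _ _ => cpl2_nonneg _ _ _ _)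
      have := ind_nonneg (good e)
      positivity
  refine (av_mono hpt).trans ?_
  rw [av_const_mul]
  -- split the average
  have hsplit : av (fun e : ι → HE n d =>
        C ^ 2 * ‖al‖ ^ 2 * ‖∑ i ∈ Iv, y (e i)‖ ^ 2 + C ^ 2 * ‖al‖ ^ 2 * ‖∑ i ∈ Iw, y (e i)‖ ^ 2 +
        C ^ 2 * be ^ 2 * (∑ i, D (e i) ^ 2) ^ 2 +
        CL ^ 2 * (∑ jk ∈ (Finset.univ : Finset ι).offDiag, D (e jk.1) * D (e jk.2)) ^ 2 +
        CL ^ 2 * s ^ 2 +
        CL ^ 2 * (2 * ((N : ℝ) + (N : ℝ) ^ 2)) * (1 * (ind (good e) * cE2 S0 R p ∅ e))) =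
      C ^ 2 * ‖al‖ ^ 2 * av (fun e : ι → HE n d => ‖∑ i ∈ Iv, y (e i)‖ ^ 2) +
      C ^ 2 * ‖al‖ ^ 2 * av (fun e : ι → HE n d => ‖∑ i ∈ Iw, y (e i)‖ ^ 2) +
      C ^ 2 * be ^ 2 * av (fun e : ι → HE n d => (∑ i, D (e i) ^ 2) ^ 2) +
      CL ^ 2 * av (fun e : ι → HE n d =>
        (∑ jk ∈ (Finset.univ : Finset ι).offDiag, D (e jk.1) * D (e jk.2)) ^ 2) +
      CL ^ 2 * s ^ 2 +
      CL ^ 2 * (2 * ((N : ℝ) + (N : ℝ) ^ 2)) *
        av (fun e : ι → HE n d => 1 * (ind (good e) * cE2 S0 R p ∅ e)) := by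
    simp only [av_add, av_const_mul, av_const]
  rw [hsplit]
  -- the individual terms
  have hy2 : av1 (fun x => ‖y x‖ ^ 2) ≤ Cy ^ 2 * V := by
    rw [hV, ← av1_const_mul]
    apply av1_mono
    intro x
    calc ‖y x‖ ^ 2 ≤ (Cy * D x) ^ 2 := pow_le_pow_left₀ (norm_nonneg _) (hy x) 2
      _ = _ := by ring
  have hterm : ∀ I : Finset ι, be * I.card ≤ 1 →
      ‖al‖ ^ 2 * av (fun e : ι → HE n d => ‖∑ i ∈ I, y (e i)‖ ^ 2) ≤
        be * Cy ^ 2 * V + ‖avc y‖ ^ 2 := by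
    intro I hI
    have h1 := av_norm_partial I y
    have h2 : ‖al‖ ^ 2 ≤ be ^ 2 := pow_le_pow_left₀ (norm_nonneg _) hal 2
    have hc : (0 : ℝ) ≤ I.card := Nat.cast_nonneg _
    have hay : 0 ≤ av1 (fun x => ‖y x‖ ^ 2) := av1_nonneg fun x => sq_nonneg _
    have h0 : 0 ≤ av (fun e : ι → HE n d => ‖∑ i ∈ I, y (e i)‖ ^ 2) :=
      av_nonneg fun _ => sq_nonneg _
    calc _ ≤ be ^ 2 * (I.card * av1 (fun x => ‖y x‖ ^ 2) + (I.card : ℝ) ^ 2 * ‖avc y‖ ^ 2) :=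
          mul_le_mul h2 h1 h0 (sq_nonneg _)
      _ = (be * I.card) * (be * av1 (fun x => ‖y x‖ ^ 2)) +
          (be * I.card) ^ 2 * ‖avc y‖ ^ 2 := by ring
      _ ≤ 1 * (be * av1 (fun x => ‖y x‖ ^ 2)) + 1 ^ 2 * ‖avc y‖ ^ 2 := by
          gcongr
      _ ≤ 1 * (be * (Cy ^ 2 * V)) + 1 ^ 2 * ‖avc y‖ ^ 2 := by gcongr
      _ = _ := by ring
  have hT3 : be ^ 2 * av (fun e : ι → HE n d => (∑ i, D (e i) ^ 2) ^ 2) ≤
      2 * be * rs ^ 2 * V + 4 * V ^ 2 := by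
    have h1 := av_sum_sq_real (ι := ι) (fun _ x => D x ^ 2)
    have h2 : av1 (fun x => (D x ^ 2) ^ 2) ≤ rs ^ 2 * V := by
      rw [hV, ← av1_const_mul]
      apply av1_mono
      intro x
      have : D x ^ 2 ≤ rs ^ 2 := pow_le_pow_left₀ (hD0 x) (hD1 x) 2
      nlinarith [sq_nonneg (D x)]
    simp only [Finset.sum_const, nsmul_eq_mul, Finset.card_univ, hcard] at h1
    have hN0 : (0 : ℝ) ≤ N := Nat.cast_nonneg _
    calc _ ≤ be ^ 2 * (N * av1 (fun x => (D x ^ 2) ^ 2) + (N * av1 (fun x => D x ^ 2)) ^ 2) :=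
          mul_le_mul_of_nonneg_left h1 (sq_nonneg _)
      _ = (be * N) * (be * av1 (fun x => (D x ^ 2) ^ 2)) + (be * N) ^ 2 * V ^ 2 := by
          rw [hV]; ring
      _ ≤ 2 * (be * (rs ^ 2 * V)) + 2 ^ 2 * V ^ 2 := by
          have : 0 ≤ av1 (fun x => (D x ^ 2) ^ 2) := av1_nonneg fun x => sq_nonneg _
          gcongr
      _ = _ := by ring
  have hT4 := av_offDiag_sq (ι := ι) D
  rw [hcard, ← hV] at hT4
  have hT6 := av_mul_cE2 (ι := ι) hH hz hd p S0 (fun x => rs ≤ D x) hM0 hM ∅ (fun _ => (1 : ℝ))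
    (fun _ => zero_le_one) (fun _ _ _ _ => rfl)
  rw [av_const, mul_one, hcard, ← hR] at hT6
  have hT6' : av (fun e : ι → HE n d => 1 * (ind (good e) * cE2 S0 R p ∅ e)) ≤
      ((N : ℝ) * (2 * (s0 : ℝ)) + (N : ℝ) ^ 2 * (2 * M)) / (n * z.im) := by
    refine hT6.trans ?_
    rw [Finset.card_empty]
    have hs : (S0.card : ℝ) ≤ s0 := by exact_mod_cast hS0
    have hK : 0 ≤ (n : ℝ) * z.im := by positivity
    have e0 : (N : ℝ) * (2 * ((S0.card : ℝ) + 2 * ((0 : ℕ) : ℝ)) / (n * z.im)) +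
        (N : ℝ) ^ 2 * (2 * M / (n * z.im)) =
        ((N : ℝ) * (2 * (S0.card : ℝ)) + (N : ℝ) ^ 2 * (2 * M)) / (n * z.im) := by
      push_cast; ring
    rw [e0]
    apply div_le_div_of_nonneg_right _ hK
    have hN0 : (0 : ℝ) ≤ N := Nat.cast_nonneg _
    nlinarith
  have hA := hterm Iv hIv
  have hB := hterm Iw hIw
  have hC2 : 0 ≤ C ^ 2 := sq_nonneg _
  have hCL2 : 0 ≤ CL ^ 2 := sq_nonneg _
  have hA' := mul_le_mul_of_nonneg_left hA hC2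
  have hB' := mul_le_mul_of_nonneg_left hB hC2
  have hT3' := mul_le_mul_of_nonneg_left hT3 hC2
  have hT4' := mul_le_mul_of_nonneg_left hT4 hCL2
  have hNN : 0 ≤ CL ^ 2 * (2 * ((N : ℝ) + (N : ℝ) ^ 2)) := by positivity
  have hT6'' := mul_le_mul_of_nonneg_left hT6' hNN
  calc _ ≤ 6 * (C ^ 2 * (be * Cy ^ 2 * V + ‖avc y‖ ^ 2) + C ^ 2 * (be * Cy ^ 2 * V + ‖avc y‖ ^ 2) +
        C ^ 2 * (2 * be * rs ^ 2 * V + 4 * V ^ 2) + CL ^ 2 * ((N : ℝ) ^ 4 * V ^ 2) +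
        CL ^ 2 * s ^ 2 + CL ^ 2 * (2 * ((N : ℝ) + (N : ℝ) ^ 2)) *
          (((N : ℝ) * (2 * (s0 : ℝ)) + (N : ℝ) ^ 2 * (2 * M)) / (n * z.im))) := by
        have e1 : ∀ t : ℝ, C ^ 2 * ‖al‖ ^ 2 * t = C ^ 2 * (‖al‖ ^ 2 * t) := fun t => by ring
        have e2 : ∀ t : ℝ, C ^ 2 * be ^ 2 * t = C ^ 2 * (be ^ 2 * t) := fun t => by ring
        rw [e1, e1, e2]
        linarith
    _ = _ := by ring

/-- second case: `j` fails, the others are admissible relative to `G_{j}` -/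
lemma case_one {N s0 : ℕ} {C CL M rs be : ℝ} (hM0 : 0 ≤ M)
    (hι : Fintype.card ι = N) (hd : 0 < d) [Nonempty (HE n d)]
    {H : Matrix (Fin n) (Fin n) ℝ} (hH : Hᵀ = H) {z : ℂ} (hz : 0 < z.im)
    (p : Equiv.Perm (HE n d)) (S0 : Finset (Fin n)) (hS0 : S0.card ≤ s0)
    (D : HE n d → ℝ)
    (hM : ∀ x, ¬ rs ≤ D x →
      (Res789.Res H z x.1 x.1).im + (Res789.Res H z (p x).1 (p x).1).im ≤ M)
    (s : ℝ) (ε : ℝ) (Dt : (ι → HE n d) → ℝ) (hDt0 : ∀ e, 0 ≤ Dt e) (j : ι)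
    (f : (ι → HE n d) → ℝ) (hf : ∀ e, 0 ≤ f e)
    (hfi : ∀ i, i ∉ ({j} : Finset ι) → ∀ e x, f (Function.update e i x) = f e)
    (hS1' : ∀ e, f e ≠ 0 → Adm (fun x => rs ≤ D x) (CpW S0 (Res789.Res H z) p ε)
        (PrW (Res789.Res H z) p ε) {j} e →
      Dt e ≤ C * be + CL * ((∑ i ∈ ({j} : Finset ι)ᶜ, D (e i)) + |s| +
          cE S0 (Res789.Res H z) p {j} e)) :
    av (fun e => f e * (ind (Adm (fun x => rs ≤ D x) (CpW S0 (Res789.Res H z) p ε)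
        (PrW (Res789.Res H z) p ε) {j} e) * Dt e ^ 2)) ≤
      4 * (C ^ 2 * be ^ 2 + CL ^ 2 * ((N : ℝ) ^ 2 * av1 (fun x => D x ^ 2) + s ^ 2 +
        2 * ((N : ℝ) + (N : ℝ) ^ 2) * (((N : ℝ) * (2 * (s0 + 2 : ℝ)) + (N : ℝ) ^ 2 * (2 * M)) /
          (n * z.im)))) * av f := by
  classical
  set R := Res789.Res H z with hR
  set V := av1 (fun x => D x ^ 2) with hV
  have hV0 : 0 ≤ V := av1_nonneg fun x => sq_nonneg _
  have hav : 0 ≤ av f := av_nonneg hf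
  have hcard : (Fintype.card ι : ℝ) = N := by exact_mod_cast hι
  set AdmE : (ι → HE n d) → Prop := fun e => Adm (fun x => rs ≤ D x) (CpW S0 R p ε)
    (PrW R p ε) {j} e with hAdmE
  set good : (ι → HE n d) → Prop := fun e => ∀ i, i ∉ ({j} : Finset ι) → ¬ rs ≤ D (e i)
    with hgood
  have hpt : ∀ e, f e * (ind (AdmE e) * Dt e ^ 2) ≤
      4 * ((C ^ 2 * be ^ 2 + CL ^ 2 * s ^ 2) * f e +
        CL ^ 2 * (f e * (∑ i ∈ ({j} : Finset ι)ᶜ, D (e i)) ^ 2) +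
        CL ^ 2 * (2 * ((N : ℝ) + (N : ℝ) ^ 2)) * (f e * (ind (good e) * cE2 S0 R p {j} e))) := by
    intro e
    have hcE : 0 ≤ cE2 S0 R p {j} e := by
      unfold cE2
      exact add_nonneg (Finset.sum_nonneg fun _ _ => cpl_nonneg _ _ _ _)
        (Finset.sum_nonneg fun _ _ => cpl2_nonneg _ _ _ _)
    by_cases hf0 : f e = 0
    · rw [hf0]; simp
    by_cases h : AdmE e
    · rw [ind_pos h, one_mul]
      have hg : good e := by
        intro i hi hb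
        exact h.1 i hi (Or.inl hb)
      rw [ind_pos hg]
      have h1 := hS1' e hf0 h
      have h2 := pow_le_pow_left₀ (hDt0 e) h1 2
      have h3 : C * be + CL * ((∑ i ∈ ({j} : Finset ι)ᶜ, D (e i)) + |s| + cE S0 R p {j} e) =
        C * be + CL * (∑ i ∈ ({j} : Finset ι)ᶜ, D (e i)) + CL * |s| +
          CL * cE S0 R p {j} e := by ring
      rw [h3] at h2
      have h4 := cE_sq_le S0 R p {j} e
      rw [hcard] at h4
      have h5 : (CL * cE S0 R p {j} e) ^ 2 ≤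
          CL ^ 2 * (2 * ((N : ℝ) + (N : ℝ) ^ 2)) * (1 * cE2 S0 R p {j} e) := by
        rw [mul_pow]
        calc CL ^ 2 * cE S0 R p {j} e ^ 2 ≤
              CL ^ 2 * (2 * ((N : ℝ) + (N : ℝ) ^ 2) * cE2 S0 R p {j} e) :=
              mul_le_mul_of_nonneg_left h4 (sq_nonneg _)
          _ = _ := by ring
      have e3 : (CL * |s|) ^ 2 = CL ^ 2 * s ^ 2 := by rw [mul_pow, sq_abs]
      have h6 := h2.trans (sq_four _ _ _ _)
      rw [e3] at h6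
      have h7 : Dt e ^ 2 ≤ 4 * ((C ^ 2 * be ^ 2 + CL ^ 2 * s ^ 2) +
          CL ^ 2 * (∑ i ∈ ({j} : Finset ι)ᶜ, D (e i)) ^ 2 +
          CL ^ 2 * (2 * ((N : ℝ) + (N : ℝ) ^ 2)) * (1 * cE2 S0 R p {j} e)) := by
        have e4 : (C * be) ^ 2 = C ^ 2 * be ^ 2 := by ring
        have e5 : (CL * ∑ i ∈ ({j} : Finset ι)ᶜ, D (e i)) ^ 2 =
            CL ^ 2 * (∑ i ∈ ({j} : Finset ι)ᶜ, D (e i)) ^ 2 := by ring
        rw [e4, e5] at h6
        linarith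
      calc f e * Dt e ^ 2 ≤ f e * (4 * ((C ^ 2 * be ^ 2 + CL ^ 2 * s ^ 2) +
          CL ^ 2 * (∑ i ∈ ({j} : Finset ι)ᶜ, D (e i)) ^ 2 +
          CL ^ 2 * (2 * ((N : ℝ) + (N : ℝ) ^ 2)) * (1 * cE2 S0 R p {j} e))) :=
            mul_le_mul_of_nonneg_left h7 (hf e)
        _ = _ := by ring
    · rw [ind_neg h, zero_mul, mul_zero]
      have h1 := ind_nonneg (good e)
      have h2 := hf e
      positivity
  refine (av_mono hpt).trans ?_
  simp only [av_const_mul, av_add]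
  have h1 := av_mul_sum_sq (ι := ι) D {j} f hf hfi
  rw [hcard, ← hV] at h1
  have h2 := av_mul_cE2 (ι := ι) hH hz hd p S0 (fun x => rs ≤ D x) hM0 hM {j} f hf hfi
  rw [hcard, ← hR] at h2
  have h2' : av (fun e : ι → HE n d => f e * (ind (good e) * cE2 S0 R p {j} e)) ≤
      ((N : ℝ) * (2 * (s0 + 2 : ℝ)) + (N : ℝ) ^ 2 * (2 * M)) / (n * z.im) * av f := by
    refine h2.trans (mul_le_mul_of_nonneg_right ?_ hav)
    rw [Finset.card_singleton]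
    have hs : (S0.card : ℝ) ≤ s0 := by exact_mod_cast hS0
    have hK : 0 ≤ (n : ℝ) * z.im := by positivity
    have e0 : (N : ℝ) * (2 * ((S0.card : ℝ) + 2 * ((1 : ℕ) : ℝ)) / (n * z.im)) +
        (N : ℝ) ^ 2 * (2 * M / (n * z.im)) =
        ((N : ℝ) * (2 * (S0.card + 2 : ℝ)) + (N : ℝ) ^ 2 * (2 * M)) / (n * z.im) := by
      push_cast; ring
    rw [e0]
    apply div_le_div_of_nonneg_right _ hK
    have hN0 : (0 : ℝ) ≤ N := Nat.cast_nonneg _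
    nlinarith
  have hCL2 : 0 ≤ CL ^ 2 := sq_nonneg _
  have hNN : 0 ≤ CL ^ 2 * (2 * ((N : ℝ) + (N : ℝ) ^ 2)) := by positivity
  have h1' := mul_le_mul_of_nonneg_left h1 hCL2
  have h2'' := mul_le_mul_of_nonneg_left h2' hNN
  calc _ ≤ 4 * ((C ^ 2 * be ^ 2 + CL ^ 2 * s ^ 2) * av f + CL ^ 2 * ((N : ℝ) ^ 2 * V * av f) +
        CL ^ 2 * (2 * ((N : ℝ) + (N : ℝ) ^ 2)) *
          (((N : ℝ) * (2 * (s0 + 2 : ℝ)) + (N : ℝ) ^ 2 * (2 * M)) / (n * z.im) * av f)) := by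
        linarith
    _ = _ := by ring

/-- constant of the one-step inequality -/
noncomputable def CCone (N s0 : ℕ) (C CL M rs ε : ℝ) : ℝ :=
  24 * C ^ 2 + 6 * CL ^ 2 * ((N : ℝ) ^ 4 + 1 +
      2 * ((N : ℝ) + (N : ℝ) ^ 2) * ((N : ℝ) * (2 * (s0 : ℝ)) + (N : ℝ) ^ 2 * (2 * M))) +
    8 * C ^ 2 * ((2 * (s0 + 4 : ℝ) + 2 * M) / ε ^ 2) +
    4 * CL ^ 2 * ((N : ℝ) ^ 3 * (1 / rs ^ 2 + (2 * (s0 + 4 : ℝ) + 2 * M) / ε ^ 2) +
      N * (1 + (2 * (s0 + 4 : ℝ) + 2 * M) / ε ^ 2) +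
      N * (2 * ((N : ℝ) + (N : ℝ) ^ 2) * ((N : ℝ) * (2 * (s0 + 2 : ℝ)) + (N : ℝ) ^ 2 * (2 * M))) *
        (1 + (2 * (s0 + 4 : ℝ) + 2 * M) / ε ^ 2)) +
    ((N : ℝ) ^ 2 + (N : ℝ) ^ 3) * (2 / rs ^ 4 + 2 * ((2 * (s0 + 4 : ℝ) + 2 * M) / ε ^ 2) ^ 2) +
    (N : ℝ) ^ 2 * ((2 * (s0 + 4 : ℝ) + 2 * M) / ε ^ 2)

set_option maxHeartbeats 800000 in
/-- **(30.4) one-step inequality, expectation over the choices.** -/
theorem one_step {N s0 : ℕ} {C CL Cy M rs ε : ℝ}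
    (hM0 : 0 ≤ M) (hrs : 0 < rs) (hrs1 : rs ≤ 1) (hε : 0 < ε)
    (hι : Fintype.card ι = N) (hd : 0 < d)
    {H : Matrix (Fin n) (Fin n) ℝ} (hH : Hᵀ = H) {z : ℂ} (hz : 0 < z.im) (hK : 1 ≤ n * z.im)
    (p : Equiv.Perm (HE n d)) (S0 : Finset (Fin n)) (hS0 : S0.card ≤ s0)
    (D : HE n d → ℝ) (hD0 : ∀ x, 0 ≤ D x) (hD1 : ∀ x, D x ≤ rs) (y : HE n d → ℂ)
    (hy : ∀ x, ‖y x‖ ≤ Cy * D x)
    (hM : ∀ x, ¬ rs ≤ D x →
      (Res789.Res H z x.1 x.1).im + (Res789.Res H z (p x).1 (p x).1).im ≤ M)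
    (Iv Iw : Finset ι) (al : ℂ) (be : ℝ) (hal : ‖al‖ ≤ be) (hbe1 : be ≤ 1)
    (hIv : be * Iv.card ≤ 1) (hIw : be * Iw.card ≤ 1) (hbeN : be * N ≤ 2) (s : ℝ)
    (Dt : (ι → HE n d) → ℝ) (hDt0 : ∀ e, 0 ≤ Dt e) (hDt1 : ∀ e, Dt e ≤ 1)
    (hS0' : ∀ e, Adm (fun x => rs ≤ D x) (CpW S0 (Res789.Res H z) p ε)
        (PrW (Res789.Res H z) p ε) ∅ e →
      Dt e ≤ C * (‖al * ∑ i ∈ Iv, y (e i)‖ + ‖al * ∑ i ∈ Iw, y (e i)‖) +
        C * be * ∑ i, D (e i) ^ 2 +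
        CL * ((∑ jk ∈ (Finset.univ : Finset ι).offDiag, D (e jk.1) * D (e jk.2)) + |s| +
          cE S0 (Res789.Res H z) p ∅ e))
    (hS1' : ∀ e j, Wk (fun x => rs ≤ D x) (CpW S0 (Res789.Res H z) p ε) ∅ e j →
      Adm (fun x => rs ≤ D x) (CpW S0 (Res789.Res H z) p ε)
        (PrW (Res789.Res H z) p ε) {j} e →
      Dt e ≤ C * be + CL * ((∑ i ∈ ({j} : Finset ι)ᶜ, D (e i)) + |s| +
          cE S0 (Res789.Res H z) p {j} e)) :
    av (fun e => Dt e ^ 2) ≤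
      12 * C ^ 2 * be * (Cy ^ 2 + rs ^ 2 + 1 / rs ^ 2) * av1 (fun x => D x ^ 2) +
      12 * C ^ 2 * ‖avc y‖ ^ 2 +
      CCone N s0 C CL M rs ε * ((av1 (fun x => D x ^ 2)) ^ 2 + 1 / (n * z.im) + s ^ 2) := by
  classical
  have hn : 0 < n := by
    rcases Nat.eq_zero_or_pos n with h | h
    · subst h; norm_num at hK
    · exact h
  have : Nonempty (HE n d) := ⟨(⟨0, hn⟩, ⟨0, hd⟩)⟩
  set R := Res789.Res H z with hR
  set V := av1 (fun x => D x ^ 2) with hV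
  have hV0 : 0 ≤ V := av1_nonneg fun x => sq_nonneg _
  have hbe0 : 0 ≤ be := (norm_nonneg _).trans hal
  have hcard : (Fintype.card ι : ℝ) = N := by exact_mod_cast hι
  have hN0 : (0 : ℝ) ≤ N := Nat.cast_nonneg _
  have hK0 : 0 < (n : ℝ) * z.im := lt_of_lt_of_le one_pos hK
  set κ : ℝ := 1 / (n * z.im) with hκ
  have hκ0 : 0 ≤ κ := by positivity
  have hκ1 : κ ≤ 1 := by rw [hκ, div_le_one hK0]; exact hK
  set qc : ℝ := (2 * (s0 + 4 : ℝ) + 2 * M) / ε ^ 2 with hqc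
  have hqc0 : 0 ≤ qc := by positivity
  set q : ℝ := qc * κ with hq
  have hq0 : 0 ≤ q := mul_nonneg hqc0 hκ0
  have hV1 : V ≤ 1 := by
    have h1 : V ≤ av1 (fun _ : HE n d => (1 : ℝ)) := by
      apply av1_mono
      intro x
      have : D x ^ 2 ≤ 1 ^ 2 := pow_le_pow_left₀ (hD0 x) ((hD1 x).trans hrs1) 2
      simpa using this
    refine h1.trans (le_of_eq ?_)
    unfold av1
    have : (Fintype.card (HE n d) : ℝ) ≠ 0 := by
      have : 0 < Fintype.card (HE n d) := Fintype.card_pos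
      positivity
    rw [Finset.sum_const, Finset.card_univ, nsmul_eq_mul, mul_one, div_self this]
  set Bad : HE n d → Prop := fun x => rs ≤ D x with hBad
  set pp : ℝ := pr1 Bad with hpp
  have hpp0 : 0 ≤ pp := pr1_nonneg _
  have hpp1 : pp ≤ V / rs ^ 2 := pr1_bad_le D hrs
  have HY : Hyp (ι := ι) Bad (CpW S0 R p ε) (PrW R p ε) 2 pp q := by
    refine hyp_ward hH hz hd p S0 2 hε Bad hM hq0 ?_ ?_
    · have hs : (S0.card : ℝ) ≤ s0 := by exact_mod_cast hS0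
      have e1 : q = (2 * (s0 + 4 : ℝ) + 2 * M) / (n * z.im * ε ^ 2) := by
        rw [hq, hqc, hκ]; field_simp
      rw [e1]
      apply div_le_div_of_nonneg_right _ (by positivity)
      push_cast
      linarith
    · have e1 : q = (2 * (s0 + 4 : ℝ) + 2 * M) / (n * z.im * ε ^ 2) := by
        rw [hq, hqc, hκ]; field_simp
      rw [e1]
      apply div_le_div_of_nonneg_right _ (by positivity)
      have hs : (0 : ℝ) ≤ s0 := Nat.cast_nonneg _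
      linarith
  -- pointwise decomposition
  have hpt : ∀ e, Dt e ^ 2 ≤
      ind (Adm Bad (CpW S0 R p ε) (PrW R p ε) ∅ e) * Dt e ^ 2 +
      (∑ j, ind (Wk Bad (CpW S0 R p ε) ∅ e j) *
        (ind (Adm Bad (CpW S0 R p ε) (PrW R p ε) {j} e) * Dt e ^ 2)) +
      ind (¬ Adm Bad (CpW S0 R p ε) (PrW R p ε) ∅ e ∧
        ¬ ∃ j, Wk Bad (CpW S0 R p ε) ∅ e j ∧ Adm Bad (CpW S0 R p ε) (PrW R p ε) {j} e) := by
    intro e
    have hD2 : Dt e ^ 2 ≤ 1 := by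
      have := pow_le_pow_left₀ (hDt0 e) (hDt1 e) 2
      simpa using this
    have hsum0 : 0 ≤ ∑ j, ind (Wk Bad (CpW S0 R p ε) ∅ e j) *
        (ind (Adm Bad (CpW S0 R p ε) (PrW R p ε) {j} e) * Dt e ^ 2) :=
      Finset.sum_nonneg fun j _ => mul_nonneg (ind_nonneg _)
        (mul_nonneg (ind_nonneg _) (sq_nonneg _))
    by_cases h0 : Adm Bad (CpW S0 R p ε) (PrW R p ε) ∅ e
    · rw [ind_pos h0, one_mul]
      have := ind_nonneg (¬ Adm Bad (CpW S0 R p ε) (PrW R p ε) ∅ e ∧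
        ¬ ∃ j, Wk Bad (CpW S0 R p ε) ∅ e j ∧ Adm Bad (CpW S0 R p ε) (PrW R p ε) {j} e)
      linarith
    · by_cases h1 : ∃ j, Wk Bad (CpW S0 R p ε) ∅ e j ∧ Adm Bad (CpW S0 R p ε) (PrW R p ε) {j} e
      · obtain ⟨j, hj1, hj2⟩ := h1
        have h3 : Dt e ^ 2 ≤ ∑ j, ind (Wk Bad (CpW S0 R p ε) ∅ e j) *
            (ind (Adm Bad (CpW S0 R p ε) (PrW R p ε) {j} e) * Dt e ^ 2) := by
          calc Dt e ^ 2 = ind (Wk Bad (CpW S0 R p ε) ∅ e j) *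
              (ind (Adm Bad (CpW S0 R p ε) (PrW R p ε) {j} e) * Dt e ^ 2) := by
                rw [ind_pos hj1, ind_pos hj2]; ring
            _ ≤ _ := Finset.single_le_sum (f := fun j => ind (Wk Bad (CpW S0 R p ε) ∅ e j) *
              (ind (Adm Bad (CpW S0 R p ε) (PrW R p ε) {j} e) * Dt e ^ 2))
              (fun j _ => mul_nonneg (ind_nonneg _)
                (mul_nonneg (ind_nonneg _) (sq_nonneg _))) (Finset.mem_univ j)
        have h4 := ind_nonneg (¬ Adm Bad (CpW S0 R p ε) (PrW R p ε) ∅ e ∧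
          ¬ ∃ j, Wk Bad (CpW S0 R p ε) ∅ e j ∧ Adm Bad (CpW S0 R p ε) (PrW R p ε) {j} e)
        have h5 : 0 ≤ ind (Adm Bad (CpW S0 R p ε) (PrW R p ε) ∅ e) * Dt e ^ 2 :=
          mul_nonneg (ind_nonneg _) (sq_nonneg _)
        linarith
      · rw [ind_pos (P := ¬ Adm Bad (CpW S0 R p ε) (PrW R p ε) ∅ e ∧
          ¬ ∃ j, Wk Bad (CpW S0 R p ε) ∅ e j ∧ Adm Bad (CpW S0 R p ε) (PrW R p ε) {j} e)
          ⟨h0, h1⟩]
        have h5 : 0 ≤ ind (Adm Bad (CpW S0 R p ε) (PrW R p ε) ∅ e) * Dt e ^ 2 :=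
          mul_nonneg (ind_nonneg _) (sq_nonneg _)
        linarith
  have hav := av_mono hpt
  simp only [av_add, av_sum] at hav
  refine hav.trans ?_
  -- three bounds
  have B0 := case_zero (ι := ι) hM0 hι hd hH hz p S0 hS0 D hD0 hD1 y hy hM Iv Iw al be hal
    hIv hIw hbeN s ε Dt hDt0 hS0'
  have B1 : ∀ j : ι, av (fun e : ι → HE n d => ind (Wk Bad (CpW S0 R p ε) ∅ e j) *
      (ind (Adm Bad (CpW S0 R p ε) (PrW R p ε) {j} e) * Dt e ^ 2)) ≤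
      4 * (C ^ 2 * be ^ 2 + CL ^ 2 * ((N : ℝ) ^ 2 * V + s ^ 2 +
        2 * ((N : ℝ) + (N : ℝ) ^ 2) * (((N : ℝ) * (2 * (s0 + 2 : ℝ)) + (N : ℝ) ^ 2 * (2 * M)) *
          κ))) * (pp + q) := by
    intro j
    have hfi : ∀ i, i ∉ ({j} : Finset ι) → ∀ e x,
        ind (Wk Bad (CpW S0 R p ε) ∅ (Function.update e i x) j) =
          ind (Wk Bad (CpW S0 R p ε) ∅ e j) := by
      intro i hi e x
      have hij : j ≠ i := by
        intro h; apply hi; simp [h]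
      have : Wk Bad (CpW S0 R p ε) ∅ (Function.update e i x) j ↔
          Wk Bad (CpW S0 R p ε) ∅ e j := by
        unfold Wk
        rw [HY.loc ∅ e i x (by simp), Function.update_of_ne hij]
      by_cases hW : Wk Bad (CpW S0 R p ε) ∅ e j
      · rw [ind_pos hW, ind_pos (this.2 hW)]
      · rw [ind_neg hW, ind_neg (fun h => hW (this.1 h))]
    have h1 := case_one (ι := ι) (C := C) (CL := CL) (be := be) hM0 hι hd hH hz p S0 hS0 D hM s ε
      Dt hDt0 j (fun e => ind (Wk Bad (CpW S0 R p ε) ∅ e j)) (fun _ => ind_nonneg _) hfi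
      (by
        intro e hne hadm
        have hW : Wk Bad (CpW S0 R p ε) ∅ e j := by
          by_contra hcon
          exact hne (ind_neg hcon)
        exact hS1' e j hW hadm)
    refine h1.trans ?_
    have h2 : av (fun e => ind (Wk Bad (CpW S0 R p ε) ∅ e j)) ≤ pp + q :=
      pr_Wk HY ∅ (by simp) j (by simp)
    have e1 : ((N : ℝ) * (2 * (s0 + 2 : ℝ)) + (N : ℝ) ^ 2 * (2 * M)) / (n * z.im) =
        ((N : ℝ) * (2 * (s0 + 2 : ℝ)) + (N : ℝ) ^ 2 * (2 * M)) * κ := by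
      rw [hκ]; ring
    rw [e1]
    exact mul_le_mul_of_nonneg_left h2 (by positivity)
  have B2 : av (fun e : ι → HE n d => ind (¬ Adm Bad (CpW S0 R p ε) (PrW R p ε) ∅ e ∧
      ¬ ∃ j, Wk Bad (CpW S0 R p ε) ∅ e j ∧ Adm Bad (CpW S0 R p ε) (PrW R p ε) {j} e)) ≤
      (N : ℝ) * ((N : ℝ) * (pp + q) ^ 2 + (N : ℝ) ^ 2 * (q * (pp + q))) + (N : ℝ) ^ 2 * q := by
    have h1 := pr_rest (ι := ι) (by norm_num : 1 ≤ 2) HY
    rw [hcard] at h1
    exact h1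
  have B1s : ∑ j : ι, av (fun e : ι → HE n d => ind (Wk Bad (CpW S0 R p ε) ∅ e j) *
      (ind (Adm Bad (CpW S0 R p ε) (PrW R p ε) {j} e) * Dt e ^ 2)) ≤
      N * (4 * (C ^ 2 * be ^ 2 + CL ^ 2 * ((N : ℝ) ^ 2 * V + s ^ 2 +
        2 * ((N : ℝ) + (N : ℝ) ^ 2) * (((N : ℝ) * (2 * (s0 + 2 : ℝ)) + (N : ℝ) ^ 2 * (2 * M)) *
          κ))) * (pp + q)) := by
    refine (Finset.sum_le_sum fun j _ => B1 j).trans ?_
    rw [Finset.sum_const, nsmul_eq_mul, Finset.card_univ, hcard]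
  -- final bookkeeping
  set T : ℝ := V ^ 2 + κ + s ^ 2 with hT
  have hT0 : 0 ≤ T := by positivity
  have hs2 : 0 ≤ s ^ 2 := sq_nonneg s
  have hV2 : 0 ≤ V ^ 2 := sq_nonneg V
  have hTV : V ^ 2 ≤ T := by rw [hT]; linarith
  have hTκ : κ ≤ T := by rw [hT]; linarith
  have hTs : s ^ 2 ≤ T := by rw [hT]; linarith
  have hppq : pp + q ≤ V / rs ^ 2 + q := by linarith
  have hrs2 : 0 < rs ^ 2 := by positivity
  have hpp2 : pp ≤ 1 := by
    have : pr1 Bad ≤ av1 (fun _ : HE n d => (1 : ℝ)) := by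
      apply av1_mono; intro x; split_ifs <;> norm_num
    refine this.trans (le_of_eq ?_)
    unfold av1
    have : (Fintype.card (HE n d) : ℝ) ≠ 0 := by
      have : 0 < Fintype.card (HE n d) := Fintype.card_pos
      positivity
    rw [Finset.sum_const, Finset.card_univ, nsmul_eq_mul, mul_one, div_self this]
  have hqqc : q ≤ qc := by
    rw [hq]; calc qc * κ ≤ qc * 1 := mul_le_mul_of_nonneg_left hκ1 hqc0
      _ = qc := mul_one _
  have hqT : q ≤ qc * T := mul_le_mul_of_nonneg_left hTκ hqc0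
  -- term (b): `N · 4 C² be² (pp + q)`
  have t1 : (N : ℝ) * (4 * (C ^ 2 * be ^ 2) * (pp + q)) ≤
      8 * C ^ 2 * be * (1 / rs ^ 2) * V + 8 * C ^ 2 * qc * T := by
    have h1 : (N : ℝ) * (4 * (C ^ 2 * be ^ 2) * (pp + q)) =
        (be * N) * (4 * (C ^ 2 * be) * (pp + q)) := by ring
    rw [h1]
    calc (be * N) * (4 * (C ^ 2 * be) * (pp + q)) ≤
          2 * (4 * (C ^ 2 * be) * (V / rs ^ 2 + q)) := by gcongr
      _ = 8 * C ^ 2 * be * (1 / rs ^ 2) * V + 8 * C ^ 2 * (be * q) := by ring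
      _ ≤ 8 * C ^ 2 * be * (1 / rs ^ 2) * V + 8 * C ^ 2 * (1 * (qc * T)) := by gcongr
      _ = _ := by ring
  -- term (c): `N · 4 CL² N² V (pp+q)`
  have t2 : (N : ℝ) * (4 * (CL ^ 2 * ((N : ℝ) ^ 2 * V)) * (pp + q)) ≤
      4 * CL ^ 2 * ((N : ℝ) ^ 3 * (1 / rs ^ 2 + qc)) * T := by
    have h1 : V * (pp + q) ≤ (1 / rs ^ 2 + qc) * T := by
      calc V * (pp + q) ≤ V * (V / rs ^ 2 + q) := mul_le_mul_of_nonneg_left hppq hV0
        _ = (1 / rs ^ 2) * V ^ 2 + V * q := by ring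
        _ ≤ (1 / rs ^ 2) * T + 1 * (qc * T) := by gcongr
        _ = _ := by ring
    calc (N : ℝ) * (4 * (CL ^ 2 * ((N : ℝ) ^ 2 * V)) * (pp + q)) =
          4 * CL ^ 2 * (N : ℝ) ^ 3 * (V * (pp + q)) := by ring
      _ ≤ 4 * CL ^ 2 * (N : ℝ) ^ 3 * ((1 / rs ^ 2 + qc) * T) :=
          mul_le_mul_of_nonneg_left h1 (by positivity)
      _ = _ := by ring
  have hppq1 : pp + q ≤ 1 + qc := add_le_add hpp2 hqqc
  have t3 : (N : ℝ) * (4 * (CL ^ 2 * s ^ 2) * (pp + q)) ≤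
      4 * CL ^ 2 * (N * (1 + qc)) * T := by
    calc (N : ℝ) * (4 * (CL ^ 2 * s ^ 2) * (pp + q)) =
          4 * CL ^ 2 * N * (s ^ 2 * (pp + q)) := by ring
      _ ≤ 4 * CL ^ 2 * N * (T * (1 + qc)) := by gcongr
      _ = _ := by ring
  set W : ℝ := 2 * ((N : ℝ) + (N : ℝ) ^ 2) *
    ((N : ℝ) * (2 * (s0 + 2 : ℝ)) + (N : ℝ) ^ 2 * (2 * M)) with hW
  have hW0 : 0 ≤ W := by positivity
  have t4 : (N : ℝ) * (4 * (CL ^ 2 * (W * κ)) * (pp + q)) ≤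
      4 * CL ^ 2 * (N * W * (1 + qc)) * T := by
    calc (N : ℝ) * (4 * (CL ^ 2 * (W * κ)) * (pp + q)) =
          4 * CL ^ 2 * N * W * (κ * (pp + q)) := by ring
      _ ≤ 4 * CL ^ 2 * N * W * (T * (1 + qc)) := by gcongr
      _ = _ := by ring
  have hpq2 : (pp + q) ^ 2 ≤ (2 / rs ^ 4 + 2 * qc ^ 2) * T := by
    have h1 : (pp + q) ^ 2 ≤ (V / rs ^ 2 + q) ^ 2 :=
      pow_le_pow_left₀ (by positivity) hppq 2
    have h2 : (V / rs ^ 2 + q) ^ 2 ≤ 2 * ((V / rs ^ 2) ^ 2 + q ^ 2) := sq_two _ _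
    have h3 : (V / rs ^ 2) ^ 2 = (1 / rs ^ 4) * V ^ 2 := by
      field_simp
    have h4 : q ^ 2 ≤ qc ^ 2 * T := by
      rw [hq, mul_pow]
      have : κ ^ 2 ≤ T := by
        calc κ ^ 2 = κ * κ := sq κ
          _ ≤ 1 * κ := mul_le_mul_of_nonneg_right hκ1 hκ0
          _ = κ := one_mul κ
          _ ≤ T := hTκ
      exact mul_le_mul_of_nonneg_left this (sq_nonneg _)
    calc (pp + q) ^ 2 ≤ 2 * ((1 / rs ^ 4) * V ^ 2 + q ^ 2) := by rw [← h3]; linarith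
      _ ≤ 2 * ((1 / rs ^ 4) * T + qc ^ 2 * T) := by gcongr
      _ = _ := by ring
  have hqpq : q * (pp + q) ≤ (pp + q) ^ 2 := by
    rw [sq]
    exact mul_le_mul_of_nonneg_right (by linarith) (by linarith)
  have t5 : (N : ℝ) * ((N : ℝ) * (pp + q) ^ 2 + (N : ℝ) ^ 2 * (q * (pp + q))) +
      (N : ℝ) ^ 2 * q ≤
      ((N : ℝ) ^ 2 + (N : ℝ) ^ 3) * (2 / rs ^ 4 + 2 * qc ^ 2) * T + (N : ℝ) ^ 2 * qc * T := by
    calc (N : ℝ) * ((N : ℝ) * (pp + q) ^ 2 + (N : ℝ) ^ 2 * (q * (pp + q))) + (N : ℝ) ^ 2 * q ≤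
        (N : ℝ) * ((N : ℝ) * (pp + q) ^ 2 + (N : ℝ) ^ 2 * (pp + q) ^ 2) +
          (N : ℝ) ^ 2 * (qc * T) := by gcongr
      _ = ((N : ℝ) ^ 2 + (N : ℝ) ^ 3) * (pp + q) ^ 2 + (N : ℝ) ^ 2 * qc * T := by ring
      _ ≤ ((N : ℝ) ^ 2 + (N : ℝ) ^ 3) * ((2 / rs ^ 4 + 2 * qc ^ 2) * T) +
          (N : ℝ) ^ 2 * qc * T := by gcongr
      _ = _ := by ring
  -- terms of case zero
  set W0 : ℝ := 2 * ((N : ℝ) + (N : ℝ) ^ 2) *
    ((N : ℝ) * (2 * (s0 : ℝ)) + (N : ℝ) ^ 2 * (2 * M)) with hW0'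
  have hW00 : 0 ≤ W0 := by positivity
  have t0 : 24 * C ^ 2 * V ^ 2 + 6 * CL ^ 2 * ((N : ℝ) ^ 4 * V ^ 2 + s ^ 2 +
        2 * ((N : ℝ) + (N : ℝ) ^ 2) * (((N : ℝ) * (2 * (s0 : ℝ)) + (N : ℝ) ^ 2 * (2 * M)) /
          (n * z.im))) ≤ 24 * C ^ 2 * T + 6 * CL ^ 2 * ((N : ℝ) ^ 4 + 1 + W0) * T := by
    have e1 : 2 * ((N : ℝ) + (N : ℝ) ^ 2) *
        (((N : ℝ) * (2 * (s0 : ℝ)) + (N : ℝ) ^ 2 * (2 * M)) / (n * z.im)) = W0 * κ := by
      rw [hW0', hκ]; ring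
    rw [e1]
    calc _ ≤ 24 * C ^ 2 * T + 6 * CL ^ 2 * ((N : ℝ) ^ 4 * T + T + W0 * T) := by gcongr
      _ = _ := by ring
  have hfin : CCone N s0 C CL M rs ε * T = 24 * C ^ 2 * T + 6 * CL ^ 2 * ((N : ℝ) ^ 4 + 1 + W0) * T +
      8 * C ^ 2 * qc * T + 4 * CL ^ 2 * ((N : ℝ) ^ 3 * (1 / rs ^ 2 + qc)) * T +
      4 * CL ^ 2 * (N * (1 + qc)) * T + 4 * CL ^ 2 * (N * W * (1 + qc)) * T +
      (((N : ℝ) ^ 2 + (N : ℝ) ^ 3) * (2 / rs ^ 4 + 2 * qc ^ 2) * T + (N : ℝ) ^ 2 * qc * T) := by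
    unfold CCone
    rw [hW, hW0', hqc]
    ring
  rw [hfin]
  have hb1 : (N : ℝ) * (4 * (C ^ 2 * be ^ 2 + CL ^ 2 * ((N : ℝ) ^ 2 * V + s ^ 2 +
        2 * ((N : ℝ) + (N : ℝ) ^ 2) * (((N : ℝ) * (2 * (s0 + 2 : ℝ)) + (N : ℝ) ^ 2 * (2 * M)) *
          κ))) * (pp + q)) = (N : ℝ) * (4 * (C ^ 2 * be ^ 2) * (pp + q)) +
        (N : ℝ) * (4 * (CL ^ 2 * ((N : ℝ) ^ 2 * V)) * (pp + q)) +
        (N : ℝ) * (4 * (CL ^ 2 * s ^ 2) * (pp + q)) +
        (N : ℝ) * (4 * (CL ^ 2 * (W * κ)) * (pp + q)) := by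
    rw [hW]; ring
  rw [hb1] at B1s
  have hpos : 0 ≤ 4 * C ^ 2 * be * (1 / rs ^ 2) * V := by positivity
  have hmain : 12 * C ^ 2 * be * (Cy ^ 2 + rs ^ 2 + 1 / rs ^ 2) * V =
      12 * C ^ 2 * be * (Cy ^ 2 + rs ^ 2) * V + 8 * C ^ 2 * be * (1 / rs ^ 2) * V +
        4 * C ^ 2 * be * (1 / rs ^ 2) * V := by ring
  rw [hmain]
  linarith [B0, B1s, B2, t0, t1, t2, t3, t4, t5, hpos]

/-- **(31.3)**: if `Dt < r` whenever some `A`, `|A| ≤ 2`, is admissible (threshold `r1`), then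
`P(r ≤ Dt) ≤ 4 N⁴ (P(r1 ≤ D) + q)²`. -/
theorem pr_bad_le {N s0 : ℕ} {M r r1 ε : ℝ} (hM0 : 0 ≤ M) (hε : 0 < ε)
    (hι : Fintype.card ι = N) (hd : 0 < d)
    {H : Matrix (Fin n) (Fin n) ℝ} (hH : Hᵀ = H) {z : ℂ} (hz : 0 < z.im) (hn : 0 < n)
    (p : Equiv.Perm (HE n d)) (S0 : Finset (Fin n)) (hS0 : S0.card ≤ s0)
    (D : HE n d → ℝ)
    (hM : ∀ x, ¬ r1 ≤ D x →
      (Res789.Res H z x.1 x.1).im + (Res789.Res H z (p x).1 (p x).1).im ≤ M)
    (Dt : (ι → HE n d) → ℝ)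
    (hS2 : ∀ e (A : Finset ι), A.card ≤ 2 → Adm (fun x => r1 ≤ D x)
        (CpW S0 (Res789.Res H z) p ε) (PrW (Res789.Res H z) p ε) A e → Dt e < r) :
    pr (fun e => r ≤ Dt e) ≤ 4 * (N : ℝ) ^ 4 *
      (pr1 (fun x => r1 ≤ D x) + (2 * (s0 + 4 : ℝ) + 2 * M) / ε ^ 2 / (n * z.im)) ^ 2 := by
  classical
  have : Nonempty (HE n d) := ⟨(⟨0, hn⟩, ⟨0, hd⟩)⟩
  have hK0 : 0 < (n : ℝ) * z.im := by positivity
  have HY : Hyp (ι := ι) (fun x => r1 ≤ D x) (CpW S0 (Res789.Res H z) p ε)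
      (PrW (Res789.Res H z) p ε) 2 (pr1 (fun x => r1 ≤ D x))
      ((2 * (s0 + 4 : ℝ) + 2 * M) / ε ^ 2 / (n * z.im)) := by
    have e1 : (2 * (s0 + 4 : ℝ) + 2 * M) / ε ^ 2 / (n * z.im) =
        (2 * (s0 + 4 : ℝ) + 2 * M) / (n * z.im * ε ^ 2) := by
      rw [div_div, mul_comm (ε ^ 2)]
    have hs0 : (0 : ℝ) ≤ s0 := Nat.cast_nonneg _
    refine hyp_ward hH hz hd p S0 2 hε _ hM (by positivity) ?_ ?_
    · have hs : (S0.card : ℝ) ≤ s0 := by exact_mod_cast hS0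
      rw [e1]
      apply div_le_div_of_nonneg_right _ (by positivity)
      push_cast
      linarith
    · rw [e1]
      apply div_le_div_of_nonneg_right _ (by positivity)
      linarith
  have h1 := pr_not_adm_two (ι := ι) (le_refl 2) HY
  have hcard : (Fintype.card ι : ℝ) = N := by exact_mod_cast hι
  rw [hcard] at h1
  have h2 : pr (fun e => r ≤ Dt e) ≤ pr (fun e => ∀ A : Finset ι, A.card ≤ 2 →
      ¬ Adm (fun x => r1 ≤ D x) (CpW S0 (Res789.Res H z) p ε) (PrW (Res789.Res H z) p ε) A e) := by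
    apply pr_mono
    intro e he A hA hadm
    exact absurd (hS2 e A hA hadm) (not_lt.2 he)
  exact h2.trans h1

end Crest.Agent.R166.Rev811
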