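import Crest.Agent.R166.Spec30_395
import Crest.Agent.R166.H4_269
import Crest.Agent.R166.SwInv_356

/-!
Row 166, section 31 (helper501): interface Props consumed by the instantiation of 31.3/31.4.

* `StepL d`: the one-step inequality of `SpecA.StepA` with the CONCRETE `gV = H4.gV L` and
  `gm = H4.gm 1`, for all large depths `L` (395).
* `S2P d`: with at most two bad inputs the output is `r`-good (395's T6).
-/

set_option autoImplicit false

open Finset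

namespace Crest.Agent.R166.Spec31

open Crest.Agent.R166 Stab269 SwP470

/-- the one step inequality with concrete `gV`, `gm`, all large depths -/
def StepL (d : ℕ) [NeZero d] : Prop :=
  ∀ A : ℝ, 0 < A → A ^ 2 < 4 * ((d : ℝ) - 1) →
    ∃ rs c s0 : ℝ, 0 < rs ∧ rs ≤ 1 ∧ 0 < c ∧ 0 < s0 ∧ ∃ L0 : ℕ, ∀ L : ℕ, L0 ≤ L →
      ∃ C : ℝ, 0 < C ∧ ∀ n : ℕ, 0 < n → ∃ err : Equiv.Perm (HE n d) → ℝ, (∀ p, 0 ≤ err p) ∧
        ∑ p ∈ Ports n d, err p ≤ C / n * (Ports n d).card ∧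
        ∀ E s η : ℝ, |E| ≤ A → |s| ≤ s0 → 0 < η → η ≤ 1 →
          ∀ ω : Fin n → ℝ, (∀ v, |ω v| ≤ 1) →
            Multi383.Step (Ports n d) (fun p => SpecA.Vp rs p s ω (ze E η))
              (fun p => H4.gV L rs s ω (ze E η) p)
              (fun p => SpecA.mup rs p s ω (ze E η)) (fun p => H4.gm 1 rs s ω (ze E η) p) err
              (((d : ℂ) - 1) * mc d (ze E η) ^ 2) C c (1 / 4) (1 / (n * η)) s


/-- **(S2)** at most two bad inputs: the output is `r`-good -/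
def S2P (d : ℕ) [NeZero d] : Prop :=
  ∀ A : ℝ, 0 < A → A ^ 2 < 4 * ((d : ℝ) - 1) → ∀ r : ℝ, 0 < r →
    ∃ L0 : ℕ, ∀ L : ℕ, L0 ≤ L → 1 ≤ L → ∃ r1 ε s1 : ℝ, 0 < r1 ∧ 0 < ε ∧ 0 < s1 ∧
      ∀ (n : ℕ) (E s η : ℝ) (ω : Fin n → ℝ), Spec30.Rng A n E s η ω → |s| ≤ s1 →
        ∀ p : Equiv.Perm (HE n d), IsPort p → ∀ (h0 : HE n d) (b : BI d L → HE n d),
          BVal L p h0 b → ∀ S : Finset (BI d L), S.card ≤ 2 →
            Spec30.AdmP L r1 ε p s ω (ze E η) h0 S b →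
              SpecA.dev (np p h0 b) s ω (ze E η) h0 < r

end Crest.Agent.R166.Spec31
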