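import Crest.Agent.R166.SwP2_470
import Crest.Agent.R166.Stab_269

/-!
# Row 166, section 20: locality, commutation of double moves, change of the Hamiltonian (helper470)

* `card_Ch_bsw`     : a move changes at most `4 N` half-edges
* `DI`, `depf`, `Dep` : dependence set of a move (ball, `u_i`, `w_i`)
* `bsw_eq_off`      : the move does not change `p` at half-edges with tail outside `dep`
* `BVal.congr_iff`  : validity only depends on `p` at the half-edges with tail in `dep`
* `bsw_comm`        : moves with disjoint dependence sets commute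
* `BVal.adj_np`     : the new adjacency;  `adj_bv` : neighbours of the ball vertices
-/

set_option autoImplicit false
set_option linter.unusedSectionVars false

open Finset

namespace Crest.Agent.R166.SwP470

variable {n d : ℕ}

section

variable {α V ι : Type*} {vt : α → V} {p : Equiv.Perm α} {a b : ι → α}



end

section ball

variable [NeZero d] {p : Equiv.Perm (HE n d)} {h0 : HE n d} {L : ℕ} {b : BI d L → HE n d}




/-! ### number of changed half-edges -/

open Classical in
lemma card_Ch_bsw (hp : IsPort p) (m : HE n d × (BI d L → HE n d)) :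
    (Stab269.Ch p (bsw L p m).1).card ≤ 4 * Fintype.card (BI d L) := by
  by_cases h : BVal L p m.1 m.2
  · rw [bsw_pos h]
    set S : Finset (HE n d) := (univ.image (ab p m.1 : BI d L → HE n d)) ∪ (univ.image m.2) ∪
      (univ.image (fun i : BI d L => p (ab p m.1 i))) ∪ (univ.image fun i => p (m.2 i)) with hS
    have hsub : Stab269.Ch p (np p m.1 m.2) ⊆ S := by
      intro x hx
      simp only [Stab269.Ch, mem_filter, mem_univ, true_and] at hx
      rcases classify p (ab p m.1 : BI d L → HE n d) m.2 x with ⟨i, rfl⟩ | ⟨i, rfl⟩ | ⟨i, rfl⟩ |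
        ⟨i, rfl⟩ | ho
      · rw [hS]
        simp only [mem_union]
        exact Or.inl (Or.inl (Or.inl (mem_image_of_mem _ (mem_univ i))))
      · rw [hS]
        simp only [mem_union]
        exact Or.inl (Or.inl (Or.inr (mem_image_of_mem _ (mem_univ i))))
      · rw [hS]
        simp only [mem_union]
        exact Or.inl (Or.inr (mem_image_of_mem (fun i : BI d L => p (ab p m.1 i)) (mem_univ i)))
      · rw [hS]
        simp only [mem_union]
        exact Or.inr (mem_image_of_mem (fun i : BI d L => p (m.2 i)) (mem_univ i))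
      · exact absurd (ho.cj (isSP_of_isPort hp)).symm hx
    have c1 : ∀ f : BI d L → HE n d, (univ.image f).card ≤ Fintype.card (BI d L) := fun f =>
      card_image_le
    calc _ ≤ S.card := card_le_card hsub
      _ ≤ Fintype.card (BI d L) + Fintype.card (BI d L) + Fintype.card (BI d L) +
          Fintype.card (BI d L) := by
          refine (card_union_le _ _).trans (add_le_add ?_ (c1 _))
          refine (card_union_le _ _).trans (add_le_add ?_ (c1 _))
          exact (card_union_le _ _).trans (add_le_add (c1 _) (c1 _))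
      _ = _ := by ring
  · rw [bsw_neg h]
    have : Stab269.Ch p p = ∅ := by
      ext x; simp [Stab269.Ch]
    rw [this]; simp

/-! ### dependence sets -/

/-- index type of the dependence set of a move -/
abbrev DI (d : ℕ) [NeZero d] (L : ℕ) : Type :=
  (Bool × (Σ j : Fin (L + 1), (Fin j → NZ d))) ⊕ (BI d L ⊕ BI d L)

/-- the vertices on which the move depends -/
def depf (L : ℕ) (p : Equiv.Perm (HE n d)) (m : HE n d × (BI d L → HE n d)) : DI d L → Fin n
  | Sum.inl x => bv p m.1 x.1 (wd x.2.2)
  | Sum.inr (Sum.inl i) => (m.2 i).1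
  | Sum.inr (Sum.inr i) => (p (m.2 i)).1

/-- the dependence set of a move -/
def Dep (L : ℕ) (p : Equiv.Perm (HE n d)) (m : HE n d × (BI d L → HE n d)) (v : Fin n) : Prop :=
  ∃ x, depf L p m x = v

lemma dep_bv (m : HE n d × (BI d L → HE n d)) (s : Bool) {w : List (Fin d)} (hw : NZw w)
    (hl : w.length ≤ L) : Dep L p m (bv p m.1 s w) := by
  obtain ⟨f, hf⟩ := exists_wd hw rfl
  refine ⟨Sum.inl (s, ⟨⟨w.length, by omega⟩, f⟩), ?_⟩
  show bv p m.1 s (wd f) = _
  rw [hf]

lemma dep_u (m : HE n d × (BI d L → HE n d)) (i : BI d L) : Dep L p m (m.2 i).1 :=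
  ⟨Sum.inr (Sum.inl i), rfl⟩


lemma dep_desc (hp : IsPort p) (m : HE n d × (BI d L → HE n d)) (s : Bool) {w : List (Fin d)}
    (hw : NZw w) (hl : w.length ≤ L) : Dep L p m (desc p (rt p m.1 s) w).1 := by
  obtain ⟨s', w', h1, h2, h3⟩ := desc_fst (p := p) (h0 := m.1) hp s w hw
  rw [h3]
  exact dep_bv m s' h1 (by omega)


section congr

variable {q : Equiv.Perm (HE n d)} {m : HE n d × (BI d L → HE n d)}

/-- the same half-edges in `q` -/
lemma desc_congr (hp : IsPort p) (hq : ∀ x : HE n d, Dep L p m x.1 → q x = p x) (s : Bool)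
    {w : List (Fin d)} (hw : NZw w) (hl : w.length ≤ L) :
    desc q (rt q m.1 s) w = desc p (rt p m.1 s) w := by
  have hrt : rt q m.1 s = rt p m.1 s := by
    cases s
    · have := hq m.1 (by
        have h1 := dep_desc (p := p) (L := L) hp m true (w := []) (by simp [NZw]) (by simp)
        simpa [rt] using h1)
      simpa [rt] using this
    · rfl
  induction w using List.reverseRecOn with
  | nil => simpa using hrt
  | append_singleton w k ih =>
    have hl' : w.length ≤ L := by simp at hl; omega
    rw [desc_snoc, desc_snoc, ih hw.append.1 hl', hq _ (dep_desc hp m s hw.append.1 hl')]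

lemma bv_congr (hp : IsPort p) (hq : ∀ x : HE n d, Dep L p m x.1 → q x = p x) (s : Bool)
    {w : List (Fin d)} (hw : NZw w) (hl : w.length ≤ L) : bv q m.1 s w = bv p m.1 s w := by
  unfold bv
  rw [desc_congr hp hq s hw hl, hq _ (dep_desc hp m s hw hl)]

lemma ab_congr (hp : IsPort p) (hq : ∀ x : HE n d, Dep L p m x.1 → q x = p x) (i : BI d L) :
    ab q m.1 i = ab p m.1 i := by
  unfold ab tau
  rw [desc_congr hp hq _ (wd_NZw i.2) (wd_length i.2).le,
    hq _ (dep_desc hp m _ (wd_NZw i.2) (wd_length i.2).le)]



lemma BVal.congr (hp : IsPort p) (hq : ∀ x : HE n d, Dep L p m x.1 → q x = p x)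
    (h : BVal L p m.1 m.2) : BVal L q m.1 m.2 where
  tl := fun s s' w w' hw hw' hl hl' he => by
    rw [bv_congr hp hq s hw hl, bv_congr hp hq s' hw' hl'] at he
    exact h.tl _ _ _ _ hw hw' hl hl' he
  bu := fun s w i hw hl => by
    rw [bv_congr hp hq s hw hl]; exact h.bu s w i hw hl
  bw := fun s w i hw hl => by
    rw [bv_congr hp hq s hw hl, hq _ (dep_u m i)]; exact h.bw s w i hw hl
  uu := h.uu
  ww := fun i j hij => by
    rw [hq _ (dep_u m i), hq _ (dep_u m j)] at hij
    exact h.ww i j hij
  uw := fun i j => by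
    rw [hq _ (dep_u m j)]; exact h.uw i j
  ntu := fun i => by
    rintro ⟨x, h1, h2⟩
    have ht : tau q m.1 i = tau p m.1 i := desc_congr hp hq _ (wd_NZw i.2) (wd_length i.2).le
    rw [ht] at h1
    have hx : Dep L p m x.1 := by
      rw [h1]; exact dep_desc hp m _ (wd_NZw i.2) (wd_length i.2).le
    rw [hq _ hx] at h2
    exact h.ntu i ⟨x, h1, h2⟩
  naw := fun i => by
    rintro ⟨x, h1, h2⟩
    rw [ab_congr hp hq] at h1
    have hx : Dep L p m x.1 := by
      rw [h1, ab_fst]; exact dep_bv m _ (wd_NZw i.2) (wd_length i.2).le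
    rw [hq _ hx, hq _ (dep_u m i)] at h2
    exact h.naw i ⟨x, h1, h2⟩


end congr



end ball

end Crest.Agent.R166.SwP470
namespace Crest.Agent.R166.SwP470.Val
end Crest.Agent.R166.SwP470.Val
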