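import Crest.Agent.R166.Tree_798
import Crest.Agent.R166.Stab_269
import Crest.Agent.R166.ScaleD_355
import Crest.Agent.R166.SpecA_598
import Crest.Agent.R166.ScaleV_355

-- ▼ part R166/Top_383
section

/-!
# R166: blocks at a FIXED scale (top scale of the multiscale induction) (helper383)

For a half-edge `h` whose edge ball of radius `L+1` is a tree, the cavity block `B⁰_h(z)` is
`(1/Im z)·√(3 (2 (b|m|²)^{L+1} + s² (L+1)² |m|²))`-close to `m I`, entrywise, `b = d-1`.
Proof: explicit approximate column `∑_{|w| ≤ L} m (-m)^{|w|} e_{w}` of the resolvent of the graph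
minus the edge.
-/

set_option autoImplicit false

open Matrix Finset

namespace Crest.Agent.R166.Top383

open Crest.Agent.R166 Crest.Agent.R166.Tree798 Crest.Agent.R166.Stab269

variable {n d : ℕ} [NeZero d] {p : Equiv.Perm (HE n d)}

/-! ### The adjacency operator on port graphs -/

/-- `(A v)(x) = ∑_i v((p (x,i)).1)` -/
noncomputable def Aop (p : Equiv.Perm (HE n d)) (v : Fin n → ℂ) (x : Fin n) : ℂ :=
  ∑ i : Fin d, v (p (x, i)).1

omit [NeZero d] in
lemma Aop_sum {ι : Type*} (s : Finset ι) (f : ι → Fin n → ℂ) :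
    Aop p (fun x => ∑ j ∈ s, f j x) = fun x => ∑ j ∈ s, Aop p (f j) x := by
  funext x
  unfold Aop
  rw [Finset.sum_comm]

omit [NeZero d] in
lemma Aop_add (f g : Fin n → ℂ) : Aop p (fun x => f x + g x) = fun x => Aop p f x + Aop p g x := by
  funext x
  unfold Aop
  rw [Finset.sum_add_distrib]

omit [NeZero d] in
lemma Aop_smul (c : ℂ) (g : Fin n → ℂ) : Aop p (fun x => c * g x) = fun x => c * Aop p g x := by
  funext x
  unfold Aop
  rw [Finset.mul_sum]

/-- the number of non-zero words of length `r` leading from `g` to `x` -/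
def cnt (p : Equiv.Perm (HE n d)) : ℕ → HE n d → Fin n → ℕ
  | 0, g, x => if (p g).1 = x then 1 else 0
  | r + 1, g, x => ∑ k ∈ Finset.univ.filter (fun k : Fin d => k ≠ 0), cnt p r (child p g k) x

/-- indicator function -/
def ind (v x : Fin n) : ℂ := if v = x then 1 else 0

lemma cnt_zero (g : HE n d) (x : Fin n) : (cnt p 0 g x : ℂ) = ind (p g).1 x := by
  simp [cnt, ind]

lemma cnt_succ (r : ℕ) (g : HE n d) (x : Fin n) : (cnt p (r + 1) g x : ℂ) =
    ∑ k ∈ Finset.univ.filter (fun k : Fin d => k ≠ 0), (cnt p r (child p g k) x : ℂ) := by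
  simp [cnt]

omit [NeZero d] in
/-- the adjacency operator on an indicator -/
lemma Aop_ind (hp : IsPort p) (v x : Fin n) :
    Aop p (ind v) x = ∑ j : Fin d, ind (p (v, j)).1 x := by
  classical
  have key : ∀ a c : Fin n, (∑ i : Fin d, (if (p (a, i)).1 = c then (1 : ℂ) else 0)) =
      if (graphOf p).Adj a c then 1 else 0 := by
    intro a c
    by_cases h : (graphOf p).Adj a c
    · rw [if_pos h]
      obtain ⟨i, hi⟩ := hp.adj_iff.1 h
      rw [Finset.sum_eq_single i]
      · rw [if_pos hi]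
      · intro j _ hj
        rw [if_neg]
        intro h2
        exact hj (hp.simple a j i (h2.trans hi.symm))
      · intro h'
        exact absurd (Finset.mem_univ _) h'
    · rw [if_neg h]
      refine Finset.sum_eq_zero fun i _ => ?_
      rw [if_neg]
      intro h2
      exact h (hp.adj_iff.2 ⟨i, h2⟩)
  have h1 : Aop p (ind v) x = ∑ i : Fin d, (if (p (x, i)).1 = v then (1 : ℂ) else 0) := by
    unfold Aop ind
    refine Finset.sum_congr rfl fun i _ => ?_
    by_cases h : v = (p (x, i)).1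
    · rw [if_pos h, if_pos h.symm]
    · rw [if_neg h, if_neg (fun e => h e.symm)]
  have h2 : (∑ j : Fin d, ind (p (v, j)).1 x) =
      ∑ j : Fin d, (if (p (v, j)).1 = x then (1 : ℂ) else 0) := rfl
  rw [h1, h2, key x v, key v x]
  by_cases h : (graphOf p).Adj x v
  · rw [if_pos h, if_pos h.symm]
  · rw [if_neg h, if_neg (fun e => h e.symm)]

/-- sum over all rotations = rotation `0` + the others -/
lemma sum_rot (F : HE n d → ℂ) (h : HE n d) :
    ∑ j : Fin d, F (h.1, j) = F h + ∑ k ∈ Finset.univ.filter (fun k : Fin d => k ≠ 0),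
      F (rot k h) := by
  classical
  have h1 : ∑ j : Fin d, F (h.1, j) = ∑ k : Fin d, F (rot k h) := by
    have := Equiv.sum_comp (Equiv.addLeft h.2) (fun j : Fin d => F (h.1, j))
    rw [← this]
    rfl
  rw [h1, ← Finset.sum_filter_add_sum_filter_not Finset.univ (fun k : Fin d => k = 0)]
  congr 1
  rw [Finset.filter_eq', if_pos (Finset.mem_univ _), Finset.sum_singleton, rot_zero]

/-- the adjacency operator on level `0` -/
lemma Aop_cnt_zero (hp : IsPort p) (g : HE n d) (x : Fin n) :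
    Aop p (fun x => (cnt p 0 g x : ℂ)) x = ind g.1 x + cnt p 1 g x := by
  have h0 : (fun x => (cnt p 0 g x : ℂ)) = ind (p g).1 := funext fun x => cnt_zero g x
  rw [h0, Aop_ind hp, sum_rot (fun h' => ind (p h').1 x) (p g), hp.inv, cnt_succ]
  congr 1
  refine Finset.sum_congr rfl fun k _ => ?_
  rw [cnt_zero]
  rfl

lemma card_nz : (Finset.univ.filter (fun k : Fin d => k ≠ 0)).card = d - 1 := by
  rw [Finset.filter_ne' Finset.univ (0 : Fin d), Finset.card_erase_of_mem (Finset.mem_univ _),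
    Finset.card_univ, Fintype.card_fin]

/-- the adjacency operator on level `r+1` -/
lemma Aop_cnt_succ (hp : IsPort p) (r : ℕ) (g : HE n d) (x : Fin n) :
    Aop p (fun x => (cnt p (r + 1) g x : ℂ)) x =
      cnt p (r + 2) g x + ((d - 1 : ℕ) : ℂ) * cnt p r g x := by
  induction r generalizing g x with
  | zero =>
    have h0 : (fun x => (cnt p (0 + 1) g x : ℂ)) = fun x =>
        ∑ k ∈ Finset.univ.filter (fun k : Fin d => k ≠ 0), (cnt p 0 (child p g k) x : ℂ) :=
      funext fun x => cnt_succ 0 g x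
    rw [h0, Aop_sum]
    simp only
    rw [cnt_succ (p := p) (0 + 1) g x]
    have h1 : ∀ k ∈ Finset.univ.filter (fun k : Fin d => k ≠ 0),
        Aop p (fun x => (cnt p 0 (child p g k) x : ℂ)) x =
          cnt p (0 + 1) (child p g k) x + ind (p g).1 x := by
      intro k _
      rw [Aop_cnt_zero hp]
      rw [add_comm]
      rfl
    rw [Finset.sum_congr rfl h1, Finset.sum_add_distrib, Finset.sum_const, card_nz, nsmul_eq_mul,
      cnt_zero]
  | succ r ih =>
    have h0 : (fun x => (cnt p (r + 1 + 1) g x : ℂ)) = fun x =>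
        ∑ k ∈ Finset.univ.filter (fun k : Fin d => k ≠ 0), (cnt p (r + 1) (child p g k) x : ℂ) :=
      funext fun x => cnt_succ (r + 1) g x
    rw [h0, Aop_sum]
    simp only
    rw [Finset.sum_congr rfl fun k _ => ih (child p g k) x, Finset.sum_add_distrib,
      ← Finset.mul_sum, ← cnt_succ, ← cnt_succ]

/-! ### The approximate column -/

/-- coefficients -/
noncomputable def cf (m : ℂ) (r : ℕ) : ℂ := m * (-m) ^ r

lemma cf_rec {m z b : ℂ} (hm : m * (z + b * m) = -1) (r : ℕ) :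
    cf m r - z * cf m (r + 1) + b * cf m (r + 2) = 0 := by
  unfold cf
  have : m * (-m) ^ r - z * (m * (-m) ^ (r + 1)) + b * (m * (-m) ^ (r + 2)) =
      m * (-m) ^ r * (1 + m * (z + b * m)) := by ring
  rw [this, hm]; ring

lemma cf_zero {m z b : ℂ} (hm : m * (z + b * m) = -1) : b * cf m 1 - z * cf m 0 = 1 := by
  unfold cf
  have : b * (m * (-m) ^ 1) - z * (m * (-m) ^ 0) = - (m * (z + b * m)) := by ring
  rw [this, hm]; ring

/-- the approximate column -/
noncomputable def col (p : Equiv.Perm (HE n d)) (m : ℂ) (L : ℕ) (g : HE n d) (x : Fin n) : ℂ :=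
  ∑ r ∈ Finset.range (L + 1), cf m r * cnt p r g x

lemma col_succ (m : ℂ) (L : ℕ) (g : HE n d) (x : Fin n) :
    col p m (L + 1) g x = col p m L g x + cf m (L + 1) * cnt p (L + 1) g x := by
  unfold col
  rw [Finset.sum_range_succ]

/-- the equation of the approximate column (no tree-likeness needed) -/
lemma col_eq (hp : IsPort p) {m z : ℂ} (hm : m * (z + ((d - 1 : ℕ) : ℂ) * m) = -1) (L : ℕ)
    (g : HE n d) (x : Fin n) :
    Aop p (col p m L g) x - z * col p m L g x =
      cf m 0 * ind g.1 x + ind (p g).1 x + cf m L * cnt p (L + 1) g x -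
        ((d - 1 : ℕ) : ℂ) * cf m (L + 1) * cnt p L g x := by
  induction L with
  | zero =>
    have h1 : col p m 0 g = fun x => cf m 0 * (cnt p 0 g x : ℂ) := by
      funext x; simp [col]
    rw [h1, Aop_smul]
    simp only
    rw [Aop_cnt_zero hp, cnt_zero]
    have := cf_zero hm
    linear_combination (ind (p g).1 x) * this
  | succ L ih =>
    have h1 : col p m (L + 1) g = fun x => col p m L g x + cf m (L + 1) * (cnt p (L + 1) g x : ℂ) :=
      funext fun x => col_succ m L g x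
    rw [h1, Aop_add, Aop_smul]
    simp only
    rw [Aop_cnt_succ hp]
    have := cf_rec hm L
    linear_combination ih + (cnt p (L + 1) g x : ℂ) * this

/-! ### Multiplicities on tree-like balls -/

lemma exists_word (r : ℕ) (g : HE n d) (x : Fin n) (h : cnt p r g x ≠ 0) :
    ∃ w : List (Fin d), NZ w ∧ w.length = r ∧ (p (desc p g w)).1 = x := by
  induction r generalizing g with
  | zero =>
    refine ⟨[], ?_, rfl, ?_⟩
    · intro k hk; simp at hk
    · by_contra hne
      apply h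
      simp only [cnt]
      exact if_neg hne
  | succ r ih =>
    simp only [cnt] at h
    obtain ⟨k, hk, hk2⟩ := Finset.exists_ne_zero_of_sum_ne_zero h
    rw [Finset.mem_filter] at hk
    obtain ⟨w, h1, h2, h3⟩ := ih (child p g k) hk2
    refine ⟨k :: w, ?_, by simp [h2], h3⟩
    intro l hl
    rcases List.mem_cons.1 hl with rfl | hl
    · exact hk.2
    · exact h1 l hl

lemma cnt_le_one (r : ℕ) (g : HE n d)
    (hinj : ∀ w w' : List (Fin d), NZ w → NZ w' → w.length = r → w'.length = r →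
      (p (desc p g w)).1 = (p (desc p g w')).1 → w = w') (x : Fin n) : cnt p r g x ≤ 1 := by
  classical
  induction r generalizing g with
  | zero =>
    simp only [cnt]
    split_ifs <;> omega
  | succ r ih =>
    simp only [cnt]
    by_cases hex : ∃ k ∈ Finset.univ.filter (fun k : Fin d => k ≠ 0), cnt p r (child p g k) x ≠ 0
    · obtain ⟨k, hk, hk2⟩ := hex
      rw [Finset.sum_eq_single k]
      · apply ih
        intro w w' h1 h2 h3 h4 h5
        have hk' := (Finset.mem_filter.1 hk).2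
        have hnz : ∀ u : List (Fin d), NZ u → NZ (k :: u) := by
          intro u hu l hl
          rcases List.mem_cons.1 hl with rfl | hl
          · exact hk'
          · exact hu l hl
        have := hinj (k :: w) (k :: w') (hnz w h1) (hnz w' h2) (by simp [h3]) (by simp [h4]) h5
        exact (List.cons.inj this).2
      · intro k' hk' hne
        by_contra hc
        obtain ⟨w, h1, h2, h3⟩ := exists_word r (child p g k) x hk2
        obtain ⟨w', h1', h2', h3'⟩ := exists_word r (child p g k') x hc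
        have hkk := (Finset.mem_filter.1 hk).2
        have hkk' := (Finset.mem_filter.1 hk').2
        have hnz : ∀ (l : Fin d) (u : List (Fin d)), l ≠ 0 → NZ u → NZ (l :: u) := by
          intro l u hl hu a ha
          rcases List.mem_cons.1 ha with rfl | ha
          · exact hl
          · exact hu a ha
        have := hinj (k :: w) (k' :: w') (hnz k w hkk h1) (hnz k' w' hkk' h1') (by simp [h2])
          (by simp [h2']) (by
            show (p (desc p (child p g k) w)).1 = (p (desc p (child p g k') w')).1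
            rw [h3, h3'])
        exact hne (List.cons.inj this).1.symm
      · intro hn
        exact absurd hk hn
    · push Not at hex
      rw [Finset.sum_eq_zero hex]
      omega

lemma sum_cnt (r : ℕ) (g : HE n d) : ∑ x, cnt p r g x = (d - 1) ^ r := by
  induction r generalizing g with
  | zero =>
    simp only [cnt, pow_zero]
    rw [Finset.sum_ite_eq]
    simp
  | succ r ih =>
    simp only [cnt]
    rw [Finset.sum_comm, Finset.sum_congr rfl fun k _ => ih (child p g k), Finset.sum_const,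
      card_nz, smul_eq_mul, pow_succ, mul_comm]

lemma sum_cnt_sq (r : ℕ) (g : HE n d) (h : ∀ x, cnt p r g x ≤ 1) :
    ∑ x, ‖(cnt p r g x : ℂ)‖ ^ 2 = ((d - 1 : ℕ) : ℝ) ^ r := by
  have h1 : ∀ x, ‖(cnt p r g x : ℂ)‖ ^ 2 = (cnt p r g x : ℝ) := by
    intro x
    have := h x
    interval_cases hh : cnt p r g x <;> simp
  rw [Finset.sum_congr rfl fun x _ => h1 x]
  have := sum_cnt (p := p) r g
  exact_mod_cast this

/-! ### tree-like edge balls -/

section TreeLike

variable {L : ℕ} {h : HE n d}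


lemma fst_hb (hp : IsPort p) (b : Bool) : (hb p b h).1 = nd p h (!b) [] := by
  cases b
  · simp [nd, hb, hp.inv]
  · simp [nd, hb]

lemma treeE_cnt_le (hT : TreeE p L h) (b : Bool) {r : ℕ} (hr : r ≤ L) (x : Fin n) :
    cnt p r (hb p b h) x ≤ 1 := by
  apply cnt_le_one
  intro w w' h1 h2 h3 h4 h5
  exact (hT b w b w' h1 h2 (by omega) (by omega) h5).2

lemma treeE_cnt_other (hp : IsPort p) (hT : TreeE p L h) (b : Bool) {r : ℕ} (hr : r ≤ L) :
    cnt p r (hb p b h) (hb p b h).1 = 0 := by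
  by_contra hc
  obtain ⟨w, h1, h2, h3⟩ := exists_word r _ _ hc
  rw [fst_hb hp] at h3
  have hnil : NZ ([] : List (Fin d)) := by intro k hk; simp at hk
  have := (hT b w (!b) [] h1 hnil (by omega) (by simp) h3).1
  cases b <;> simp at this

lemma treeE_cnt_self (hT : TreeE p L h) (b : Bool) {r : ℕ} (hr : r ≤ L) (hr0 : r ≠ 0) :
    cnt p r (hb p b h) (p (hb p b h)).1 = 0 := by
  by_contra hc
  obtain ⟨w, h1, h2, h3⟩ := exists_word r _ _ hc
  have hnil : NZ ([] : List (Fin d)) := by intro k hk; simp at hk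
  have := (hT b w b [] h1 hnil (by omega) (by simp) h3).2
  rw [this] at h2
  simp at h2
  exact hr0 h2.symm

lemma treeE_col_other (hp : IsPort p) (hT : TreeE p L h) (b : Bool) (m : ℂ) :
    col p m L (hb p b h) (hb p b h).1 = 0 := by
  unfold col
  refine Finset.sum_eq_zero fun r hr => ?_
  rw [Finset.mem_range] at hr
  rw [treeE_cnt_other hp hT b (by omega)]
  simp

lemma treeE_col_self (hT : TreeE p L h) (b : Bool) (m : ℂ) :
    col p m L (hb p b h) (p (hb p b h)).1 = m := by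
  unfold col
  rw [Finset.sum_range_succ', Finset.sum_eq_zero, zero_add]
  · simp [cf, cnt]
  · intro r hr
    rw [Finset.mem_range] at hr
    rw [treeE_cnt_self hT b (by omega) (by omega)]
    simp

end TreeLike

/-! ### the residual -/

/-- the residual vector -/
noncomputable def res (p : Equiv.Perm (HE n d)) (s : ℝ) (ω : Fin n → ℝ) (m : ℂ) (L : ℕ)
    (g : HE n d) (x : Fin n) : ℂ :=
  cf m L * cnt p (L + 1) g x - ((d - 1 : ℕ) : ℂ) * cf m (L + 1) * cnt p L g x +
    s * ω x * col p m L g x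

lemma norm_cf (m : ℂ) (r : ℕ) : ‖cf m r‖ = ‖m‖ ^ (r + 1) := by
  unfold cf
  rw [norm_mul, norm_pow, norm_neg, pow_succ, mul_comm]

lemma norm_add3_sq (a b c : ℂ) : ‖a - b + c‖ ^ 2 ≤ 3 * (‖a‖ ^ 2 + ‖b‖ ^ 2 + ‖c‖ ^ 2) := by
  have h1 : ‖a - b + c‖ ≤ ‖a‖ + ‖b‖ + ‖c‖ :=
    (norm_add_le _ _).trans (add_le_add (norm_sub_le _ _) le_rfl)
  have h2 : ‖a - b + c‖ ^ 2 ≤ (‖a‖ + ‖b‖ + ‖c‖) ^ 2 := pow_le_pow_left₀ (norm_nonneg _) h1 2
  nlinarith [sq_nonneg (‖a‖ - ‖b‖), sq_nonneg (‖a‖ - ‖c‖), sq_nonneg (‖b‖ - ‖c‖)]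

lemma sum_col_sq_le {L : ℕ} {g : HE n d} (hc : ∀ r ≤ L, ∀ x, cnt p r g x ≤ 1) {m : ℂ}
    (hbm : ((d - 1 : ℕ) : ℝ) * ‖m‖ ^ 2 ≤ 1) :
    ∑ x, ‖col p m L g x‖ ^ 2 ≤ ((L : ℝ) + 1) ^ 2 * ‖m‖ ^ 2 := by
  have h1 : ∀ x, ‖col p m L g x‖ ^ 2 ≤ ((L : ℝ) + 1) * ∑ r ∈ Finset.range (L + 1),
      ‖cf m r * (cnt p r g x : ℂ)‖ ^ 2 := by
    intro x
    have h2 : ‖col p m L g x‖ ≤ ∑ r ∈ Finset.range (L + 1), ‖cf m r * (cnt p r g x : ℂ)‖ :=
      norm_sum_le _ _
    have h3 := sq_sum_le_card_mul_sum_sq (s := Finset.range (L + 1))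
      (f := fun r => ‖cf m r * (cnt p r g x : ℂ)‖)
    rw [Finset.card_range] at h3
    push_cast at h3
    exact (pow_le_pow_left₀ (norm_nonneg _) h2 2).trans h3
  calc ∑ x, ‖col p m L g x‖ ^ 2
      ≤ ∑ x, ((L : ℝ) + 1) * ∑ r ∈ Finset.range (L + 1), ‖cf m r * (cnt p r g x : ℂ)‖ ^ 2 :=
        Finset.sum_le_sum fun x _ => h1 x
    _ = ((L : ℝ) + 1) * ∑ r ∈ Finset.range (L + 1), ∑ x, ‖cf m r * (cnt p r g x : ℂ)‖ ^ 2 := by
        rw [← Finset.mul_sum, Finset.sum_comm]
    _ ≤ ((L : ℝ) + 1) * ∑ r ∈ Finset.range (L + 1), ‖m‖ ^ 2 := by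
        refine mul_le_mul_of_nonneg_left ?_ (by positivity)
        refine Finset.sum_le_sum fun r hr => ?_
        rw [Finset.mem_range] at hr
        have : ∑ x, ‖cf m r * (cnt p r g x : ℂ)‖ ^ 2 =
            ‖m‖ ^ 2 * (((d - 1 : ℕ) : ℝ) * ‖m‖ ^ 2) ^ r := by
          rw [Finset.sum_congr rfl fun x _ => by rw [norm_mul, mul_pow], ← Finset.mul_sum,
            sum_cnt_sq r g (hc r (by omega)), norm_cf, mul_pow]
          ring
        rw [this]
        calc ‖m‖ ^ 2 * (((d - 1 : ℕ) : ℝ) * ‖m‖ ^ 2) ^ r ≤ ‖m‖ ^ 2 * 1 :=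
              mul_le_mul_of_nonneg_left (pow_le_one₀ (by positivity) hbm) (by positivity)
          _ = ‖m‖ ^ 2 := mul_one _
    _ = ((L : ℝ) + 1) ^ 2 * ‖m‖ ^ 2 := by
        rw [Finset.sum_const, Finset.card_range, nsmul_eq_mul]
        push_cast
        ring

lemma sum_res_sq_le {L : ℕ} {g : HE n d} (hc : ∀ r ≤ L + 1, ∀ x, cnt p r g x ≤ 1) {m : ℂ}
    (hbm : ((d - 1 : ℕ) : ℝ) * ‖m‖ ^ 2 ≤ 1) (s : ℝ) {ω : Fin n → ℝ} (hω : ∀ v, |ω v| ≤ 1) :
    ∑ x, ‖res p s ω m L g x‖ ^ 2 ≤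
      3 * (2 * (((d - 1 : ℕ) : ℝ) * ‖m‖ ^ 2) ^ (L + 1) + s ^ 2 * (((L : ℝ) + 1) ^ 2 * ‖m‖ ^ 2)) := by
  set q := ((d - 1 : ℕ) : ℝ) * ‖m‖ ^ 2 with hq
  have hq0 : 0 ≤ q := by positivity
  have e1 : ∑ x, ‖cf m L * (cnt p (L + 1) g x : ℂ)‖ ^ 2 = q ^ (L + 1) := by
    rw [Finset.sum_congr rfl fun x _ => by rw [norm_mul, mul_pow], ← Finset.mul_sum,
      sum_cnt_sq (L + 1) g (hc (L + 1) le_rfl), norm_cf, hq, mul_pow]
    ring
  have e2 : ∑ x, ‖((d - 1 : ℕ) : ℂ) * cf m (L + 1) * (cnt p L g x : ℂ)‖ ^ 2 = q ^ (L + 2) := by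
    rw [Finset.sum_congr rfl fun x _ => by rw [norm_mul, mul_pow], ← Finset.mul_sum,
      sum_cnt_sq L g (hc L (by omega)), norm_mul, norm_cf, hq, mul_pow, mul_pow, Complex.norm_natCast]
    ring
  have e3 : ∑ x, ‖(s : ℂ) * ω x * col p m L g x‖ ^ 2 ≤ s ^ 2 * (((L : ℝ) + 1) ^ 2 * ‖m‖ ^ 2) := by
    calc ∑ x, ‖(s : ℂ) * ω x * col p m L g x‖ ^ 2 ≤ ∑ x, s ^ 2 * ‖col p m L g x‖ ^ 2 := by
          refine Finset.sum_le_sum fun x _ => ?_
          rw [norm_mul, norm_mul, Complex.norm_real, Complex.norm_real, mul_pow, mul_pow,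
            Real.norm_eq_abs, Real.norm_eq_abs, sq_abs, sq_abs]
          have h1 : ω x ^ 2 ≤ 1 := by
            rw [← sq_abs]
            exact pow_le_one₀ (abs_nonneg _) (hω x)
          have h2 : 0 ≤ s ^ 2 * ‖col p m L g x‖ ^ 2 := by positivity
          nlinarith
      _ = s ^ 2 * ∑ x, ‖col p m L g x‖ ^ 2 := by rw [Finset.mul_sum]
      _ ≤ _ := mul_le_mul_of_nonneg_left
          (sum_col_sq_le (fun r hr => hc r (by omega)) hbm) (by positivity)
  have hqq : q ^ (L + 2) ≤ q ^ (L + 1) := pow_le_pow_of_le_one hq0 hbm (by omega)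
  calc ∑ x, ‖res p s ω m L g x‖ ^ 2
      ≤ ∑ x, 3 * (‖cf m L * (cnt p (L + 1) g x : ℂ)‖ ^ 2 +
          ‖((d - 1 : ℕ) : ℂ) * cf m (L + 1) * (cnt p L g x : ℂ)‖ ^ 2 +
          ‖(s : ℂ) * ω x * col p m L g x‖ ^ 2) := Finset.sum_le_sum fun x _ => norm_add3_sq _ _ _
    _ = 3 * (∑ x, ‖cf m L * (cnt p (L + 1) g x : ℂ)‖ ^ 2 +
          ∑ x, ‖((d - 1 : ℕ) : ℂ) * cf m (L + 1) * (cnt p L g x : ℂ)‖ ^ 2 +
          ∑ x, ‖(s : ℂ) * ω x * col p m L g x‖ ^ 2) := by
        rw [← Finset.mul_sum, Finset.sum_add_distrib, Finset.sum_add_distrib]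
    _ ≤ _ := by
        rw [e1, e2]
        nlinarith

/-! ### the resolvent of the graph minus the edge -/

/-- the graph matrix with the edge `h` removed -/
noncomputable def Hcut (p : Equiv.Perm (HE n d)) (s : ℝ) (ω : Fin n → ℝ) (h : HE n d) :
    Matrix (Fin n) (Fin n) ℝ :=
  Hm (graphOf p) s ω + Res789.emb ![h.1, (p h).1] !![0, -1; -1, 0]

omit [NeZero d] in
lemma Kcut_symm : (!![0, -1; -1, 0] : Matrix (Fin 2) (Fin 2) ℝ)ᵀ = !![0, -1; -1, 0] := by
  ext i j
  fin_cases i <;> fin_cases j <;> rfl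

lemma emb_edge {V : Type*} [Fintype V] [DecidableEq V] (u w x y : V) :
    Res789.emb ![u, w] !![0, -1; -1, 0] x y =
      (if u = x ∧ w = y then -1 else 0) + (if w = x ∧ u = y then -1 else 0) := by
  rw [Res789.emb_apply]
  simp [Fin.sum_univ_two]

omit [NeZero d] in
lemma Hcut_symm (s : ℝ) (ω : Fin n → ℝ) (h : HE n d) : (Hcut p s ω h)ᵀ = Hcut p s ω h := by
  unfold Hcut
  rw [Matrix.transpose_add, Hm_symm, Res789.emb_symm _ Kcut_symm]

omit [NeZero d] in
lemma inj_edge (hp : IsPort p) (h : HE n d) : Function.Injective ![h.1, (p h).1] := by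
  intro i j hij
  have hne := hp.noloop h
  fin_cases i <;> fin_cases j
  · rfl
  · exact absurd hij.symm hne
  · exact absurd hij hne
  · rfl

omit [NeZero d] in
/-- the cavity block is the block of the resolvent of the graph minus the edge -/
theorem B0_eq (hp : IsPort p) (s : ℝ) (ω : Fin n → ℝ) {z : ℂ} (hz : 0 < z.im) (h : HE n d) :
    B0 p s ω z h = (Res789.Res (Hcut p s ω h) z).submatrix ![h.1, (p h).1] ![h.1, (p h).1] := by
  unfold Hcut
  rw [Res789.Res_emb_block (Hm_symm _ _ _) hz (inj_edge hp h) Kcut_symm]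
  unfold B0 cavB Res789.Pm BE Blk
  rw [Res_eq]
  congr 2
  rw [sub_eq_add_neg]
  congr 1
  ext i j
  fin_cases i <;> fin_cases j <;> simp [W2]

omit [NeZero d] in
lemma Hm_mulVec (hp : IsPort p) (s : ℝ) (ω : Fin n → ℝ) (v : Fin n → ℂ) (x : Fin n) :
    (Res789.cx (Hm (graphOf p) s ω) *ᵥ v) x = Aop p v x + s * ω x * v x := by
  classical
  have h1 : ∀ y, Res789.cx (Hm (graphOf p) s ω) x y * v y =
      (if (graphOf p).Adj x y then v y else 0) + (if x = y then s * ω x * v y else 0) := by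
    intro y
    rw [Res789.cx_apply, Hm_apply]
    by_cases h1 : (graphOf p).Adj x y <;> by_cases h2 : x = y
    · subst h2
      exact absurd h1 ((graphOf p).loopless.irrefl x)
    · simp [h1, h2]
    · subst h2
      simp [h1]
    · simp [h1, h2]
  have h2 : (∑ y, if (graphOf p).Adj x y then v y else 0) = ∑ i : Fin d, v (p (x, i)).1 := by
    rw [← Finset.sum_filter]
    have himg : (Finset.univ.filter fun y => (graphOf p).Adj x y) =
        (Finset.univ : Finset (Fin d)).image (fun i => (p (x, i)).1) := by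
      ext w
      simp [hp.adj_iff]
    rw [himg, Finset.sum_image]
    intro i _ j _ hij
    exact hp.simple x i j hij
  show ∑ y, Res789.cx (Hm (graphOf p) s ω) x y * v y = _
  rw [Finset.sum_congr rfl fun y _ => h1 y, Finset.sum_add_distrib, h2]
  congr 1
  rw [Finset.sum_ite_eq]
  simp

/-- the equation of the approximate column for the graph minus the edge -/
lemma Hcut_col (hp : IsPort p) (s : ℝ) (ω : Fin n → ℝ) {m z : ℂ}
    (hm : m * (z + ((d - 1 : ℕ) : ℂ) * m) = -1) {L : ℕ} {h : HE n d} (hT : TreeE p L h)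
    (b : Bool) (x : Fin n) :
    (Res789.cx (Hcut p s ω h) *ᵥ col p m L (hb p b h)) x - z * col p m L (hb p b h) x =
      ind (p (hb p b h)).1 x + res p s ω m L (hb p b h) x := by
  have hinj := inj_edge hp h
  have hne : h.1 ≠ (p h).1 := (hp.noloop h).symm
  set g := hb p b h with hg
  set X := col p m L g with hX
  have h1 : (Res789.cx (Hcut p s ω h) *ᵥ X) x =
      (Res789.cx (Hm (graphOf p) s ω) *ᵥ X) x +
      (Res789.cx (Res789.emb ![h.1, (p h).1] !![0, -1; -1, 0]) *ᵥ X) x := by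
    unfold Hcut
    rw [Res789.cx_add, Matrix.add_mulVec]
    rfl
  -- the rank-two perturbation
  have h2 : (Res789.cx (Res789.emb ![h.1, (p h).1] !![0, -1; -1, 0]) *ᵥ X) x =
      - ind h.1 x * X (p h).1 - ind (p h).1 x * X h.1 := by
    show ∑ y, Res789.cx (Res789.emb ![h.1, (p h).1] !![0, -1; -1, 0]) x y * X y = _
    have e : ∀ y, Res789.cx (Res789.emb ![h.1, (p h).1] !![0, -1; -1, 0]) x y * X y =
        (if (p h).1 = y then - ind h.1 x * X y else 0) +
        (if h.1 = y then - ind (p h).1 x * X y else 0) := by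
      intro y
      rw [Res789.cx_apply, emb_edge]
      unfold ind
      split_ifs <;> first | (push_cast; ring1) | (exfalso; tauto)
    rw [Finset.sum_congr rfl fun y _ => e y, Finset.sum_add_distrib, Finset.sum_ite_eq,
      Finset.sum_ite_eq]
    simp
    ring
  have hself : X (p g).1 = m := treeE_col_self hT b m
  have hoth : X g.1 = 0 := treeE_col_other hp hT b m
  have h3 : - ind h.1 x * X (p h).1 - ind (p h).1 x * X h.1 = - m * ind g.1 x := by
    rw [hg] at hself hoth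
    cases b
    · simp only [hb, Bool.false_eq_true, if_false] at hself hoth
      rw [hg]
      simp only [hb, Bool.false_eq_true, if_false]
      rw [hself, hoth]; ring
    · simp only [hb, if_true, hp.inv] at hself hoth
      rw [hg]
      simp only [hb, if_true]
      rw [hself, hoth]; ring
  have h4 := col_eq hp hm L g x
  rw [h1, h2, h3, Hm_mulVec hp]
  unfold res
  have h5 : cf m 0 = m := by simp [cf]
  rw [h5] at h4
  linear_combination h4

/-- **fixed scale**: the column of the resolvent of the graph minus the edge -/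
theorem column_bound (hp : IsPort p) (s : ℝ) {ω : Fin n → ℝ} (hω : ∀ v, |ω v| ≤ 1) {m z : ℂ}
    (hz : 0 < z.im) (hm : m * (z + ((d - 1 : ℕ) : ℂ) * m) = -1)
    (hbm : ((d - 1 : ℕ) : ℝ) * ‖m‖ ^ 2 ≤ 1) {L : ℕ} {h : HE n d} (hT : TreeE p (L + 1) h)
    (b : Bool) (x : Fin n) :
    ‖Res789.Res (Hcut p s ω h) z x (p (hb p b h)).1 - col p m L (hb p b h) x‖ ≤
      (1 / z.im) * Real.sqrt (3 * (2 * (((d - 1 : ℕ) : ℝ) * ‖m‖ ^ 2) ^ (L + 1) +
        s ^ 2 * (((L : ℝ) + 1) ^ 2 * ‖m‖ ^ 2))) := by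
  set g := hb p b h with hg
  set X := col p m L g with hX
  set R := Res789.Res (Hcut p s ω h) z with hR
  have hH := Hcut_symm (p := p) s ω h
  have hTL : TreeE p L h := hT.mono (by omega)
  -- R * (H - z) = 1
  have hinv : R * (Res789.cx (Hcut p s ω h) - z • (1 : Matrix (Fin n) (Fin n) ℂ)) = 1 :=
    Res789.Res_mul_sub hH hz
  have hvec : (Res789.cx (Hcut p s ω h) - z • (1 : Matrix (Fin n) (Fin n) ℂ)) *ᵥ X =
      fun x => ind (p g).1 x + res p s ω m L g x := by
    funext y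
    rw [Matrix.sub_mulVec, Pi.sub_apply, Matrix.smul_mulVec, Matrix.one_mulVec]
    exact Hcut_col hp s ω hm hTL b y
  have hX2 : X = R *ᵥ (fun x => ind (p g).1 x + res p s ω m L g x) := by
    rw [← hvec, Matrix.mulVec_mulVec, hinv, Matrix.one_mulVec]
  have hX3 : X x = R x (p g).1 + ∑ y, R x y * res p s ω m L g y := by
    rw [hX2]
    show ∑ y, R x y * (ind (p g).1 y + res p s ω m L g y) = _
    simp only [mul_add, Finset.sum_add_distrib, ind, mul_ite, mul_one, mul_zero,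
      Finset.sum_ite_eq, Finset.mem_univ, if_true]
  have hX4 : R x (p g).1 - X x = - ∑ y, R x y * res p s ω m L g y := by
    rw [hX3]; ring
  rw [hX4, norm_neg]
  have hrow : ∑ k, ‖R x k‖ ^ 2 ≤ (1 / z.im) ^ 2 := by
    rw [ScaleD355.sum_row_sq hH hz x]
    have h1 : (R x x).im ≤ 1 / z.im :=
      (Complex.im_le_norm _).trans (ScaleD355.norm_diag_le hH hz x)
    rw [div_le_iff₀ hz]
    refine h1.trans (le_of_eq ?_)
    field_simp
  have hres := sum_res_sq_le (p := p) (L := L) (g := g)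
    (fun r hr x => treeE_cnt_le hT b hr x) hbm s hω
  calc ‖∑ y, R x y * res p s ω m L g y‖
      ≤ ∑ y, ‖R x y‖ * ‖res p s ω m L g y‖ := by
        refine (norm_sum_le _ _).trans (le_of_eq ?_)
        exact Finset.sum_congr rfl fun y _ => norm_mul _ _
    _ ≤ Real.sqrt (∑ y, ‖R x y‖ ^ 2) * Real.sqrt (∑ y, ‖res p s ω m L g y‖ ^ 2) :=
        Real.sum_mul_le_sqrt_mul_sqrt _ _ _
    _ ≤ (1 / z.im) * Real.sqrt (3 * (2 * (((d - 1 : ℕ) : ℝ) * ‖m‖ ^ 2) ^ (L + 1) +
        s ^ 2 * (((L : ℝ) + 1) ^ 2 * ‖m‖ ^ 2))) := by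
        refine mul_le_mul ?_ (Real.sqrt_le_sqrt hres) (Real.sqrt_nonneg _) (by positivity)
        calc Real.sqrt (∑ y, ‖R x y‖ ^ 2) ≤ Real.sqrt ((1 / z.im) ^ 2) := Real.sqrt_le_sqrt hrow
          _ = 1 / z.im := Real.sqrt_sq (by positivity)

/-- the entrywise bound of the cavity block at a fixed scale -/
theorem B0_entry_bound (hp : IsPort p) (s : ℝ) {ω : Fin n → ℝ} (hω : ∀ v, |ω v| ≤ 1) {m z : ℂ}
    (hz : 0 < z.im) (hm : m * (z + ((d - 1 : ℕ) : ℂ) * m) = -1)
    (hbm : ((d - 1 : ℕ) : ℝ) * ‖m‖ ^ 2 ≤ 1) {L : ℕ} {h : HE n d} (hT : TreeE p (L + 1) h)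
    (i j : Fin 2) :
    ‖(B0 p s ω z h - m • (1 : Matrix (Fin 2) (Fin 2) ℂ)) i j‖ ≤
      (1 / z.im) * Real.sqrt (3 * (2 * (((d - 1 : ℕ) : ℝ) * ‖m‖ ^ 2) ^ (L + 1) +
        s ^ 2 * (((L : ℝ) + 1) ^ 2 * ‖m‖ ^ 2))) := by
  have hTL : TreeE p L h := hT.mono (by omega)
  rw [B0_eq hp s ω hz h]
  have key := column_bound hp s hω hz hm hbm hT
  have s1 : col p m L (hb p true h) h.1 = m := by
    have := treeE_col_self hTL true m
    simpa [hb, hp.inv] using this
  have s2 : col p m L (hb p true h) (p h).1 = 0 := by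
    have := treeE_col_other hp hTL true m
    simpa [hb] using this
  have s3 : col p m L (hb p false h) (p h).1 = m := by
    have := treeE_col_self hTL false m
    simpa [hb] using this
  have s4 : col p m L (hb p false h) h.1 = 0 := by
    have := treeE_col_other hp hTL false m
    simpa [hb] using this
  have k1 := key true h.1
  have k2 := key true (p h).1
  have k3 := key false (p h).1
  have k4 := key false h.1
  rw [s1] at k1
  rw [s2] at k2
  rw [s3] at k3
  rw [s4] at k4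
  simp only [hb, if_true, hp.inv, Bool.false_eq_true, if_false] at k1 k2 k3 k4
  fin_cases i <;> fin_cases j
  · simpa using k1
  · simpa using k4
  · simpa using k2
  · simpa using k3

end Crest.Agent.R166.Top383
private theorem rz_d3b027c561 : type_of% @_root_.Crest.Agent.R166.Top383.cnt.eq_def := @_root_.Crest.Agent.R166.Top383.cnt.eq_def -- L50
private theorem rz_21f30969f6 : type_of% @_root_.Crest.Agent.R166.Top383.cnt.eq_1 := @_root_.Crest.Agent.R166.Top383.cnt.eq_1 -- L50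
end

-- ▼ part R166/ThmA_383

/-!
# R166, THEOREM A (30.8) from the one-step estimates (helper383)

`SpecA.StepA d → SpecA.ThmA d`.
-/

set_option autoImplicit false

open Finset

namespace Crest.Agent.R166.ThmA383

open Crest.Agent.R166 Crest.Agent.R166.SpecA Crest.Agent.R166.Multi383 Crest.Agent.R166.ScaleV355
  Crest.Agent.R166.Root355 Crest.Agent.R166.Tree798 Crest.Agent.R166.ScaleD355

/-- monotonicity of `Step` in the constant and in the error -/
lemma Step.mono {Γ : Type*} {Gr : Finset Γ} {V gV : Γ → ℝ} {μ gμ : Γ → ℂ} {err err' : Γ → ℝ}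
    {a : ℂ} {C C' c θ κ s : ℝ} (h : Step Gr V gV μ gμ err a C c θ κ s) (hC : 0 ≤ C) (hCC : C ≤ C')
    (hκ : 0 ≤ κ) (herr : ∀ G ∈ Gr, 0 ≤ err G) (hee : ∀ G ∈ Gr, err G ≤ err' G) :
    Step Gr V gV μ gμ err' a C' c θ κ s := by
  refine ⟨h.nonneg, fun G hG => ?_, fun G hG => ?_, h.res, ?_, ?_⟩
  · refine (h.one G hG).trans ?_
    have h1 := herr G hG
    have h2 := hee G hG
    have h3 : 0 ≤ ‖μ G‖ ^ 2 + V G ^ 2 + (κ + err G) + s ^ 2 := by positivity
    have h4 : ‖μ G‖ ^ 2 + V G ^ 2 + (κ + err G) + s ^ 2 ≤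
      ‖μ G‖ ^ 2 + V G ^ 2 + (κ + err' G) + s ^ 2 := by linarith
    have := mul_le_mul hCC h4 h3 (hC.trans hCC)
    linarith
  · refine (h.mean G hG).trans ?_
    have h1 := herr G hG
    have h2 := hee G hG
    have h0 := h.nonneg G hG
    have h3 : 0 ≤ V G + |s| + Real.sqrt (κ + err G) := by positivity
    have h4 : V G + |s| + Real.sqrt (κ + err G) ≤ V G + |s| + Real.sqrt (κ + err' G) := by
      have := Real.sqrt_le_sqrt (add_le_add_right h2 κ)
      linarith
    exact mul_le_mul hCC h4 h3 (hC.trans hCC)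
  · refine h.sm1.trans ?_
    gcongr
  · refine h.sm2.trans ?_
    gcongr

/-- `b |m|² ≤ b / (1 + b)` at the scale `η = 1` -/
lemma b_normSq_top {d : ℕ} (hd : 2 ≤ d) (E : ℝ) :
    ((d - 1 : ℕ) : ℝ) * ‖mc d (ze E 1)‖ ^ 2 ≤ ((d : ℝ) - 1) / (1 + ((d : ℝ) - 1)) := by
  have hd2 : (2 : ℝ) ≤ d := by exact_mod_cast hd
  have hcast : ((d - 1 : ℕ) : ℝ) = (d : ℝ) - 1 := by
    rw [Nat.cast_sub (by omega)]; simp
  have hz : 0 < (zq E 1).im := one_pos
  have r := mc_isRoot hd hz
  rw [hcast, ze_eq, ← Complex.normSq_eq_norm_sq]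
  have h1 := r.im_eq
  have h2 := r.im_le_one (by linarith) hz.le
  have e2 : (zq E 1).im = 1 := rfl
  rw [e2] at h1
  have h3 := r.im_pos
  set b := (d : ℝ) - 1 with hb
  set N := Complex.normSq (mc d (zq E 1)) with hN
  set t := (mc d (zq E 1)).im with ht
  have hb0 : 0 < b := by linarith
  have hN1 : N = t / (1 + b * t) := by
    rw [eq_div_iff (by positivity)]; exact h1
  rw [hN1, mul_div_assoc', div_le_div_iff₀ (by positivity) (by positivity)]
  nlinarith

/-- the clean root in the form of `Top383` -/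
lemma mc_eq_top {d : ℕ} (hd : 2 ≤ d) (E : ℝ) :
    mc d (ze E 1) * (ze E 1 + ((d - 1 : ℕ) : ℂ) * mc d (ze E 1)) = -1 := by
  have hz : 0 < (zq E 1).im := one_pos
  have r := mc_isRoot hd hz
  have h := r.eq
  have hcast : ((d - 1 : ℕ) : ℂ) = (d : ℂ) - 1 := by
    rw [Nat.cast_sub (by omega)]; simp
  rw [hcast, ze_eq, ← d_sub_one]
  exact h

lemma Lroot_mono {d : ℕ} (hd : 2 ≤ d) {E A : ℝ} (hE : |E| ≤ A) (hA : A ^ 2 < 4 * ((d : ℝ) - 1)) :
    Lroot d E 1 ≤ Lroot d A 1 := by
  have hd2 : (2 : ℝ) ≤ d := by exact_mod_cast hd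
  have hb : 0 < (d : ℝ) - 1 := by linarith
  have h1 : 0 < 1 - A ^ 2 / (4 * ((d : ℝ) - 1)) := by
    rw [sub_pos, div_lt_one (by positivity)]; exact hA
  have h2 : E ^ 2 ≤ A ^ 2 := by
    rw [← sq_abs E]
    exact pow_le_pow_left₀ (abs_nonneg _) hE 2
  have h3 : 1 - A ^ 2 / (4 * ((d : ℝ) - 1)) ≤ 1 - E ^ 2 / (4 * ((d : ℝ) - 1)) := by
    have : E ^ 2 / (4 * ((d : ℝ) - 1)) ≤ A ^ 2 / (4 * ((d : ℝ) - 1)) := by gcongr
    linarith
  unfold Lroot
  exact div_le_div_of_nonneg_left (by positivity) h1 h3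

variable {n d : ℕ}

lemma Vp_eq (rs : ℝ) (p : Equiv.Perm (HE n d)) (s : ℝ) (ω : Fin n → ℝ) (z : ℂ) :
    Vp rs p s ω z = Vq rs p s ω z := by
  unfold Vp Vq Dv Dq dev
  rw [Nat.cast_mul]

/-- the deviation at the top scale at a tree-like half-edge -/
lemma dev_top (hd : 2 ≤ d) {p : Equiv.Perm (HE n d)} (hp : IsPort p) (E s : ℝ) {ω : Fin n → ℝ}
    (hω : ∀ v, |ω v| ≤ 1) [NeZero d] {L : ℕ} {h : HE n d} (hT : TreeE p (L + 1) h) :
    dev p s ω (ze E 1) h ^ 2 ≤ 6 * (((d : ℝ) - 1) / (1 + ((d : ℝ) - 1))) ^ (L + 1) +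
      3 * s ^ 2 * ((L : ℝ) + 1) ^ 2 := by
  have hd2 : (2 : ℝ) ≤ d := by exact_mod_cast hd
  have hz : 0 < (ze E 1).im := by rw [ze_eq]; exact one_pos
  have hz1 : (ze E 1).im = 1 := by rw [ze_eq]; rfl
  have hbm := b_normSq_top hd E
  have hb0 : 0 < (d : ℝ) - 1 := by linarith
  have hq1 : ((d : ℝ) - 1) / (1 + ((d : ℝ) - 1)) ≤ 1 := by
    rw [div_le_one (by positivity)]; linarith
  have hm1 : ‖mc d (ze E 1)‖ ≤ 1 := by
    rw [ze_eq]; exact (mc_isRoot hd (one_pos : 0 < (zq E 1).im)).norm_le_one (by linarith) (by exact zero_le_one)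
  have key := Top383.B0_entry_bound hp s hω hz (mc_eq_top hd E) (hbm.trans hq1) hT
  rw [hz1] at key
  set X : ℝ := 3 * (2 * (((d - 1 : ℕ) : ℝ) * ‖mc d (ze E 1)‖ ^ 2) ^ (L + 1) +
        s ^ 2 * (((L : ℝ) + 1) ^ 2 * ‖mc d (ze E 1)‖ ^ 2)) with hX
  have hX0 : 0 ≤ X := by positivity
  have hdev : dev p s ω (ze E 1) h ≤ Real.sqrt X := by
    unfold dev bnorm
    have k := fun i j => (key i j).trans (le_of_eq (by ring : (1 / 1 : ℝ) * Real.sqrt X = Real.sqrt X))
    exact max_le (max_le (k 0 0) (k 0 1)) (max_le (k 1 0) (k 1 1))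
  have hdev0 : 0 ≤ dev p s ω (ze E 1) h := bnorm_nonneg _
  calc dev p s ω (ze E 1) h ^ 2 ≤ Real.sqrt X ^ 2 := pow_le_pow_left₀ hdev0 hdev 2
    _ = X := Real.sq_sqrt hX0
    _ ≤ 6 * (((d : ℝ) - 1) / (1 + ((d : ℝ) - 1))) ^ (L + 1) + 3 * s ^ 2 * ((L : ℝ) + 1) ^ 2 := by
        have h1 : (((d - 1 : ℕ) : ℝ) * ‖mc d (ze E 1)‖ ^ 2) ^ (L + 1) ≤
            (((d : ℝ) - 1) / (1 + ((d : ℝ) - 1))) ^ (L + 1) :=
          pow_le_pow_left₀ (by positivity) hbm _
        have h2 : s ^ 2 * (((L : ℝ) + 1) ^ 2 * ‖mc d (ze E 1)‖ ^ 2) ≤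
            s ^ 2 * (((L : ℝ) + 1) ^ 2 * 1) := by
          have : ‖mc d (ze E 1)‖ ^ 2 ≤ 1 := pow_le_one₀ (norm_nonneg _) hm1
          gcongr
        rw [hX]
        nlinarith

/-- `V_G` at the top scale -/
lemma Vp_top (hn : 0 < n) (hd : 2 ≤ d) {p : Equiv.Perm (HE n d)} (hp : IsPort p) (E s : ℝ)
    {ω : Fin n → ℝ} (hω : ∀ v, |ω v| ≤ 1) [NeZero d] (L : ℕ) {rs : ℝ} (hrs : 0 ≤ rs) :
    Vp rs p s ω (ze E 1) ≤ 6 * (((d : ℝ) - 1) / (1 + ((d : ℝ) - 1))) ^ (L + 1) +
      3 * s ^ 2 * ((L : ℝ) + 1) ^ 2 + rs ^ 2 * ((notT p (L + 1)).card / ((n * d : ℕ) : ℝ)) := by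
  classical
  have hnd : (0 : ℝ) < ((n * d : ℕ) : ℝ) := by
    have : 0 < n * d := Nat.mul_pos hn (by omega)
    exact_mod_cast this
  have hd2 : (2 : ℝ) ≤ d := by exact_mod_cast hd
  set Y : ℝ := 6 * (((d : ℝ) - 1) / (1 + ((d : ℝ) - 1))) ^ (L + 1) +
      3 * s ^ 2 * ((L : ℝ) + 1) ^ 2 with hY
  have hb0 : 0 < (d : ℝ) - 1 := by linarith
  have hY0 : 0 ≤ Y := by positivity
  unfold Vp
  rw [div_le_iff₀ hnd, add_mul, mul_assoc, div_mul_cancel₀ _ hnd.ne']
  have hcard : (Finset.univ : Finset (HE n d)).card = n * d := by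
    rw [Finset.card_univ, Fintype.card_prod, Fintype.card_fin, Fintype.card_fin]
  calc ∑ h : HE n d, Dv rs p s ω (ze E 1) h ^ 2
      ≤ ∑ h : HE n d, (Y + if h ∈ notT p (L + 1) then rs ^ 2 else 0) := by
        refine Finset.sum_le_sum fun h _ => ?_
        have hD0 : 0 ≤ Dv rs p s ω (ze E 1) h := le_min hrs (bnorm_nonneg _)
        split_ifs with hh
        · have : Dv rs p s ω (ze E 1) h ^ 2 ≤ rs ^ 2 := pow_le_pow_left₀ hD0 (min_le_left _ _) 2
          linarith
        · have hT : TreeE p (L + 1) h := by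
            by_contra hcon
            apply hh
            simp only [notT, Finset.mem_filter, Finset.mem_univ, true_and]
            exact hcon
          have h1 := dev_top hd hp E s hω hT
          have : Dv rs p s ω (ze E 1) h ^ 2 ≤ dev p s ω (ze E 1) h ^ 2 :=
            pow_le_pow_left₀ hD0 (min_le_right _ _) 2
          linarith
    _ = Y * ((n * d : ℕ) : ℝ) + rs ^ 2 * (notT p (L + 1)).card := by
        rw [Finset.sum_add_distrib, Finset.sum_const, hcard, nsmul_eq_mul, Finset.sum_ite_mem,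
          Finset.univ_inter, Finset.sum_const, nsmul_eq_mul]
        ring

/-- **THEOREM A** from the one-step estimates. -/
theorem thmA_of_step (d : ℕ) : ThmAFromStep d := by
  classical
  intro hstepA A hA0 hA
  have hd1 : 1 < (d : ℝ) := by nlinarith [sq_nonneg A, mul_pos hA0 hA0]
  have hd : 2 ≤ d := by exact_mod_cast hd1
  have hd2 : (2 : ℝ) ≤ d := by exact_mod_cast hd
  haveI : NeZero d := ⟨by omega⟩
  have hb0 : 0 < (d : ℝ) - 1 := by linarith
  obtain ⟨rs, C, c, s0, hrs, hC, hc, hs0, H⟩ := hstepA A hA0 hA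
  -- the enlarged constant
  set C' : ℝ := max C (CH5 d A 1 rs) with hC'
  have hCC : C ≤ C' := le_max_left _ _
  have hC'0 : 0 < C' := lt_of_lt_of_le hC hCC
  have hcA : 0 < cA C' c := cA_pos hC'0 hc
  set v0 : ℝ := 1 / (4 * cA C' c) with hv0
  have hv0p : 0 < v0 := by positivity
  have hv0c : cA C' c * v0 ≤ 1 / 4 := by
    rw [hv0]; field_simp; norm_num
  -- the radius
  set q : ℝ := ((d : ℝ) - 1) / (1 + ((d : ℝ) - 1)) with hq
  have hq0 : 0 ≤ q := by positivity
  have hq1 : q < 1 := by rw [hq, div_lt_one (by positivity)]; linarith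
  obtain ⟨L, hL⟩ := exists_pow_lt_of_lt_one (show 0 < v0 / 24 by positivity) hq1
  have hL' : q ^ (L + 1) ≤ v0 / 24 := by
    rw [pow_succ]
    have : q ^ L * q ≤ q ^ L * 1 := mul_le_mul_of_nonneg_left hq1.le (by positivity)
    linarith
  -- the strength
  set S : ℝ := min s0 (min 1 (min (v0 / (4 * cA C' c)) (v0 / (12 * ((L : ℝ) + 1) ^ 2)))) with hS
  have hS0 : 0 < S := by
    rw [hS]
    refine lt_min hs0 (lt_min one_pos (lt_min (by positivity) (by positivity)))
  refine ⟨rs, 2 * cA C' c, S, hrs, by positivity, hS0, ?_⟩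
  intro δ hδ
  -- the small parameter
  set δ' : ℝ := min (δ / 2) (min (v0 / 4) (min (3 / (4 * rs ^ 2)) 1)) with hδ'
  have hδ'0 : 0 < δ' := by
    rw [hδ']
    refine lt_min (by positivity) (lt_min (by positivity) (lt_min (by positivity) one_pos))
  have hδ1 : δ' ≤ δ / 2 := min_le_left _ _
  have hδ2 : δ' ≤ v0 / 4 := (min_le_right _ _).trans (min_le_left _ _)
  have hδ3 : δ' ≤ 3 / (4 * rs ^ 2) :=
    (min_le_right _ _).trans ((min_le_right _ _).trans (min_le_left _ _))
  set X : ℝ := cD C' c δ' * (1 + min 1 (δ' / C')) / min 1 (δ' / C') with hX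
  have hmin : 0 < min 1 (δ' / C') := lt_min one_pos (by positivity)
  have hX0 : 0 ≤ X := by
    have := cD_nonneg hC'0 hc hδ'0
    rw [hX]; positivity
  set K0 : ℝ := max (12 * cA C' c / δ') (2 * X / δ + 1) with hK0
  have hK0p : 0 < K0 := lt_of_lt_of_le (by positivity) (le_max_left _ _)
  refine ⟨K0, hK0p, ?_⟩
  intro K hK
  have hKp : 0 < K := hK0p.trans_le hK
  set Ct : ℝ := C + CT d (L + 1) / d with hCt
  have hCt0 : 0 < Ct := by
    have := CT_nonneg d (L + 1)
    rw [hCt]; positivity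
  refine ⟨⌈12 * cA C' c * Ct / δ' * (2 / δ)⌉₊ + 1, ?_⟩
  intro n hnN E s hE hs ω hω
  have hn : 0 < n := by omega
  have hnR : (0 : ℝ) < n := by exact_mod_cast hn
  have hnbig : 12 * cA C' c * Ct / δ' * (2 / δ) ≤ n := by
    refine (Nat.le_ceil _).trans ?_
    exact_mod_cast (by omega : ⌈12 * cA C' c * Ct / δ' * (2 / δ)⌉₊ ≤ n)
  have hsS0 : |s| ≤ s0 := hs.trans (min_le_left _ _)
  have hs1 : |s| ≤ 1 := hs.trans ((min_le_right _ _).trans (min_le_left _ _))
  have hs2 : |s| ≤ v0 / (4 * cA C' c) :=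
    hs.trans ((min_le_right _ _).trans ((min_le_right _ _).trans (min_le_left _ _)))
  have hs3 : |s| ≤ v0 / (12 * ((L : ℝ) + 1) ^ 2) :=
    hs.trans ((min_le_right _ _).trans ((min_le_right _ _).trans (min_le_right _ _)))
  have hssq : s ^ 2 ≤ |s| := by
    rw [← sq_abs s, sq]
    calc |s| * |s| ≤ |s| * 1 := mul_le_mul_of_nonneg_left hs1 (abs_nonneg _)
      _ = |s| := mul_one _
  obtain ⟨err, herr0, herrsum, HS⟩ := H n hn
  have HS' := fun (η : ℝ) (h0 : 0 < η) (h1 : η ≤ 1) => HS E s η hE hsS0 h0 h1 ω hω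
  -- choose the one-step functions at every scale
  have hch : ∀ η : ℝ, ∃ (gV : Equiv.Perm (HE n d) → ℝ) (gm : Equiv.Perm (HE n d) → ℂ),
      0 < η → η ≤ 1 → Step (Ports n d) (fun p => Vp rs p s ω (ze E η)) gV
        (fun p => mup rs p s ω (ze E η)) gm err
        (((d : ℂ) - 1) * mc d (ze E η) ^ 2) C c (1 / 4) (1 / (n * η)) s := by
    intro η
    by_cases h : 0 < η ∧ η ≤ 1
    · obtain ⟨gV, gm, hg⟩ := HS' η h.1 h.2
      exact ⟨gV, gm, fun _ _ => hg⟩
    · exact ⟨fun _ => 0, fun _ => 0, fun h0 h1 => absurd ⟨h0, h1⟩ h⟩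
  choose gV gm hg using hch
  -- the enlarged error
  set err' : Equiv.Perm (HE n d) → ℝ :=
    fun p => err p + (notT p (L + 1)).card / ((n * d : ℕ) : ℝ) with herr'
  have hnd : (0 : ℝ) < ((n * d : ℕ) : ℝ) := by
    have : 0 < n * d := Nat.mul_pos hn (by omega)
    exact_mod_cast this
  have herr'0 : ∀ p, 0 ≤ err' p := fun p => by
    have := herr0 p
    simp only [herr']
    positivity
  have hee : ∀ p, err p ≤ err' p := fun p => by
    have : (0 : ℝ) ≤ (notT p (L + 1)).card / ((n * d : ℕ) : ℝ) := by positivity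
    simp only [herr']
    linarith
  have hsum : ∑ p ∈ Ports n d, err' p ≤ Ct / n * (Ports n d).card := by
    have h1 := sum_card_notT_le (n := n) hd (L + 1)
    simp only [herr']
    rw [Finset.sum_add_distrib, ← Finset.sum_div]
    have h2 : (∑ p ∈ Ports n d, ((notT p (L + 1)).card : ℝ)) / ((n * d : ℕ) : ℝ) ≤
        CT d (L + 1) * (Ports n d).card / ((n * d : ℕ) : ℝ) :=
      div_le_div_of_nonneg_right h1 hnd.le
    have h3 : CT d (L + 1) * ((Ports n d).card : ℝ) / ((n * d : ℕ) : ℝ) =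
        CT d (L + 1) / d / n * (Ports n d).card := by
      rw [Nat.cast_mul]
      have : (d : ℝ) ≠ 0 := by positivity
      field_simp
    have h4 : Ct / n * ((Ports n d).card : ℝ) = C / n * (Ports n d).card +
        CT d (L + 1) / d / n * (Ports n d).card := by
      rw [hCt]; ring
    linarith
  have hmain := multiscale (Ports n d) (n : ℝ) 1 (fun η p => Vp rs p s ω (ze E η)) gV
    (fun η p => mup rs p s ω (ze E η)) gm err' (fun η => ((d : ℂ) - 1) * mc d (ze E η) ^ 2)
    (C := C') (c := c) (θ := 1 / 4) (s := s) (v0 := v0) (δ := δ') (Ce := Ct / n) hnR one_pos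
    hC'0 hc le_rfl
    (fun η h0 h1 => Step.mono (hg η h0 h1) hC.le hCC (by positivity) (fun p _ => herr0 p)
      (fun p _ => hee p))
    (fun p _ => herr'0 p) hsum
    (by
      intro p hp η η' h0 h1 h2 h3
      have hE2 : E ^ 2 < 4 * ((d : ℝ) - 1) := by
        refine lt_of_le_of_lt ?_ hA
        rw [← sq_abs E]
        exact pow_le_pow_left₀ (abs_nonneg _) hE 2
      have := Vq_le_add hd hrs.le (mem_Ports.1 hp) s ω hE2 h0 h1 h2 h3
      simp only [Vp_eq]
      refine this.trans ?_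
      have h5 : 0 ≤ η' / η - 1 := by
        have : 1 ≤ η' / η := by rw [le_div_iff₀ h0]; linarith
        linarith
      have h6 : CH5 d E 1 rs ≤ C' := by
        refine le_trans ?_ (le_max_right _ _)
        unfold CH5
        have := Lroot_mono hd hE hA
        gcongr
      have := mul_le_mul_of_nonneg_right h6 h5
      linarith)
    (by
      intro p hp hpe
      have h1 := Vp_top hn hd (mem_Ports.1 hp) E s hω L hrs.le
      rw [← hq] at h1
      have h2 : (notT p (L + 1)).card / ((n * d : ℕ) : ℝ) ≤ err' p := by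
        have := herr0 p
        simp only [herr']
        linarith
      have h3 : err' p ≤ δ' / (12 * cA C' c) := by
        rw [le_div_iff₀ (by positivity)]; linarith
      have h4 : rs ^ 2 * ((notT p (L + 1)).card / ((n * d : ℕ) : ℝ)) ≤ v0 / 4 := by
        calc rs ^ 2 * ((notT p (L + 1)).card / ((n * d : ℕ) : ℝ))
            ≤ rs ^ 2 * (δ' / (12 * cA C' c)) :=
              mul_le_mul_of_nonneg_left (h2.trans h3) (by positivity)
          _ ≤ rs ^ 2 * ((3 / (4 * rs ^ 2)) / (12 * cA C' c)) := by gcongr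
          _ = v0 / 4 := by
              rw [hv0]; field_simp; norm_num
      have h5 : 6 * q ^ (L + 1) ≤ v0 / 4 := by linarith
      have h6 : 3 * s ^ 2 * ((L : ℝ) + 1) ^ 2 ≤ v0 / 4 := by
        have : s ^ 2 ≤ v0 / (12 * ((L : ℝ) + 1) ^ 2) := hssq.trans hs3
        rw [le_div_iff₀ (by positivity)] at this
        linarith
      linarith)
    hv0c hδ'0
    (by
      have h1 : s ^ 2 ≤ v0 / (4 * cA C' c) := hssq.trans hs2
      rw [le_div_iff₀ (by positivity)] at h1
      linarith)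
    hKp
    (by
      have : 12 * cA C' c / δ' ≤ K := (le_max_left _ _).trans hK
      rw [div_le_iff₀ hδ'0] at this
      linarith)
  have hN0 : (0 : ℝ) ≤ (Ports n d).card := Nat.cast_nonneg _
  have hfin : X / K * (Ports n d).card + 12 * cA C' c * (Ct / n) / δ' * (Ports n d).card ≤
      δ * (Ports n d).card := by
    have h1 : X / K ≤ δ / 2 := by
      have : 2 * X / δ ≤ K := by
        have := (le_max_right (12 * cA C' c / δ') (2 * X / δ + 1)).trans hK
        linarith
      rw [div_le_iff₀ hδ] at this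
      rw [div_le_iff₀ hKp]
      linarith
    have h2 : 12 * cA C' c * (Ct / n) / δ' ≤ δ / 2 := by
      have e1 : 12 * cA C' c * (Ct / n) / δ' = (12 * cA C' c * Ct / δ') / n := by
        field_simp
      rw [e1, div_le_iff₀ hnR]
      have e2 : 12 * cA C' c * Ct / δ' = (12 * cA C' c * Ct / δ' * (2 / δ)) * (δ / 2) := by
        field_simp
      rw [e2]
      have := mul_le_mul_of_nonneg_right hnbig (show 0 ≤ δ / 2 by positivity)
      linarith
    have h3 := mul_le_mul_of_nonneg_right h1 hN0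
    have h4 := mul_le_mul_of_nonneg_right h2 hN0
    linarith
  refine le_trans ?_ (hmain.trans hfin)
  refine Nat.cast_le.2 (Finset.card_le_card ?_)
  intro p hp
  rw [Finset.mem_filter] at hp ⊢
  obtain ⟨hp1, η, h1, h2, h3⟩ := hp
  refine ⟨hp1, η, h1, h2, ?_⟩
  have : 2 * δ' ≤ δ := by linarith
  linarith

end Crest.Agent.R166.ThmA383
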