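import Mathlib
import Crest.Prelude.Def_RandomRegular

/-!
# Row 166, section 10: resolvent toolkit, part 1 (quadratic forms, Siegel calculus)

Everything is over a finite index type.  Real symmetric matrices act on complex vectors through
`cx`.  `qf Y x = x^* Y x` for a real symmetric `Y`, written with real and imaginary parts.
-/

set_option autoImplicit false

open Matrix

namespace Crest.Agent.R166.Res598

variable {ι : Type*} [Fintype ι]

/-- complexification of a real matrix -/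
def cx {α β : Type*} (A : Matrix α β ℝ) : Matrix α β ℂ := A.map (fun x => (x : ℂ))

/-- entrywise imaginary part -/
def imM {α β : Type*} (Z : Matrix α β ℂ) : Matrix α β ℝ := Z.map Complex.im

/-- entrywise real part -/
def reM {α β : Type*} (Z : Matrix α β ℂ) : Matrix α β ℝ := Z.map Complex.re

@[simp] lemma cx_apply {α β : Type*} (A : Matrix α β ℝ) (i : α) (j : β) :
    cx A i j = (A i j : ℂ) := rfl

@[simp] lemma imM_apply {α β : Type*} (Z : Matrix α β ℂ) (i : α) (j : β) :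
    imM Z i j = (Z i j).im := rfl

@[simp] lemma reM_apply {α β : Type*} (Z : Matrix α β ℂ) (i : α) (j : β) :
    reM Z i j = (Z i j).re := rfl

lemma cx_mul {α β : Type*} (A : Matrix α ι ℝ) (B : Matrix ι β ℝ) :
    cx (A * B) = cx A * cx B := by
  ext i j; simp [Matrix.mul_apply]

lemma cx_add {α β : Type*} (A B : Matrix α β ℝ) : cx (A + B) = cx A + cx B := by
  ext i j; simp



lemma cx_transpose {α β : Type*} (A : Matrix α β ℝ) : cx Aᵀ = (cx A)ᵀ := rfl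


lemma cx_one [DecidableEq ι] : cx (1 : Matrix ι ι ℝ) = 1 := by
  ext i j; by_cases h : i = j <;> simp [h, Matrix.one_apply]


/-- real part of a vector -/
def vre (x : ι → ℂ) : ι → ℝ := fun i => (x i).re
/-- imaginary part of a vector -/
def vim (x : ι → ℂ) : ι → ℝ := fun i => (x i).im

/-- `x^* Y x` for a real symmetric matrix `Y`. -/
noncomputable def qf (Y : Matrix ι ι ℝ) (x : ι → ℂ) : ℝ :=
  vre x ⬝ᵥ (Y *ᵥ vre x) + vim x ⬝ᵥ (Y *ᵥ vim x)

/-- the norm `sqrt (x^* Y x)` -/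
noncomputable def nq (Y : Matrix ι ι ℝ) (x : ι → ℂ) : ℝ := Real.sqrt (qf Y x)

lemma qf_nonneg {Y : Matrix ι ι ℝ} (hY : Y.PosSemidef) (x : ι → ℂ) : 0 ≤ qf Y x := by
  unfold qf
  have h1 := hY.dotProduct_mulVec_nonneg (vre x)
  have h2 := hY.dotProduct_mulVec_nonneg (vim x)
  simp only [star_trivial] at h1 h2
  linarith

lemma nq_nonneg (Y : Matrix ι ι ℝ) (x : ι → ℂ) : 0 ≤ nq Y x := Real.sqrt_nonneg _

lemma nq_sq {Y : Matrix ι ι ℝ} (hY : Y.PosSemidef) (x : ι → ℂ) : nq Y x ^ 2 = qf Y x :=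
  Real.sq_sqrt (qf_nonneg hY x)

lemma qf_pos {Y : Matrix ι ι ℝ} (hY : Y.PosDef) {x : ι → ℂ} (hx : x ≠ 0) : 0 < qf Y x := by
  unfold qf
  have h1 := hY.posSemidef.dotProduct_mulVec_nonneg (vre x)
  have h2 := hY.posSemidef.dotProduct_mulVec_nonneg (vim x)
  simp only [star_trivial] at h1 h2
  by_cases hr : vre x = 0
  · have him : vim x ≠ 0 := by
      intro hi
      apply hx
      ext i
      apply Complex.ext
      · simpa [vre] using congrFun hr i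
      · simpa [vim] using congrFun hi i
    have := hY.dotProduct_mulVec_pos him
    simp only [star_trivial] at this
    linarith
  · have := hY.dotProduct_mulVec_pos hr
    simp only [star_trivial] at this
    linarith

lemma cx_mulVec {α : Type*} (A : Matrix α ι ℝ) (x : ι → ℂ) (i : α) :
    (cx A *ᵥ x) i = ((A *ᵥ vre x) i : ℂ) + ((A *ᵥ vim x) i : ℂ) * Complex.I := by
  simp only [Matrix.mulVec, dotProduct, cx_apply, vre, vim]
  push_cast
  rw [Finset.sum_mul, ← Finset.sum_add_distrib]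
  refine Finset.sum_congr rfl fun j _ => ?_
  conv_lhs => rw [← Complex.re_add_im (x j)]
  ring

lemma vre_cx_mulVec {α : Type*} (A : Matrix α ι ℝ) (x : ι → ℂ) (i : α) :
    ((cx A *ᵥ x) i).re = (A *ᵥ vre x) i := by
  rw [cx_mulVec]; simp

lemma vim_cx_mulVec {α : Type*} (A : Matrix α ι ℝ) (x : ι → ℂ) (i : α) :
    ((cx A *ᵥ x) i).im = (A *ᵥ vim x) i := by
  rw [cx_mulVec]; simp

/-- `x^* Y x` as a complex number. -/
lemma star_dot_cx {Y : Matrix ι ι ℝ} (hY : Yᵀ = Y) (x : ι → ℂ) :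
    star x ⬝ᵥ (cx Y *ᵥ x) = (qf Y x : ℂ) := by
  have hsym : vre x ⬝ᵥ (Y *ᵥ vim x) = vim x ⬝ᵥ (Y *ᵥ vre x) := by
    rw [Matrix.dotProduct_mulVec, ← Matrix.mulVec_transpose, hY, dotProduct_comm]
  apply Complex.ext
  · simp only [dotProduct, Complex.re_sum, Complex.mul_re, vre_cx_mulVec, vim_cx_mulVec,
      Pi.star_apply, Complex.star_def, Complex.conj_re, Complex.conj_im, Complex.ofReal_re]
    unfold qf
    simp only [dotProduct, ← Finset.sum_add_distrib]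
    refine Finset.sum_congr rfl fun i _ => ?_
    simp [vre, vim]
  · simp only [dotProduct, Complex.im_sum, Complex.mul_im, vre_cx_mulVec, vim_cx_mulVec,
      Pi.star_apply, Complex.star_def, Complex.conj_re, Complex.conj_im, Complex.ofReal_im]
    have h2 : ∑ i, ((x i).re * (Y *ᵥ vim x) i + -(x i).im * (Y *ᵥ vre x) i)
        = vre x ⬝ᵥ (Y *ᵥ vim x) - vim x ⬝ᵥ (Y *ᵥ vre x) := by
      simp only [dotProduct, ← Finset.sum_sub_distrib]
      refine Finset.sum_congr rfl fun i _ => ?_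
      simp [vre, vim]; ring
    rw [h2, hsym, sub_self]

section factor

variable [DecidableEq ι]

/-- real positive definite matrices factor as `Bᵀ B` with `B` invertible -/
lemma exists_factor {Y : Matrix ι ι ℝ} (hY : Y.PosDef) :
    ∃ B : Matrix ι ι ℝ, IsUnit B.det ∧ Y = Bᵀ * B := by
  classical
  open scoped MatrixOrder in
  obtain ⟨y, hy, h⟩ := CStarAlgebra.isStrictlyPositive_iff_eq_star_mul_self.mp
    hY.isStrictlyPositive
  refine ⟨y, (Matrix.isUnit_iff_isUnit_det _).mp hy, ?_⟩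
  rw [h, star_eq_conjTranspose, Matrix.conjTranspose_eq_transpose_of_trivial]

end factor

/-- for `Y = Bᵀ B`: `x^* Y x = ∑ |B x|^2` -/
lemma qf_factor {α : Type*} [Fintype α] (B : Matrix α ι ℝ) (x : ι → ℂ) :
    qf (Bᵀ * B) x = ∑ i, ‖(cx B *ᵥ x) i‖ ^ 2 := by
  unfold qf
  have key : ∀ v : ι → ℝ, v ⬝ᵥ ((Bᵀ * B) *ᵥ v) = ∑ i, ((B *ᵥ v) i) ^ 2 := by
    intro v
    rw [← Matrix.mulVec_mulVec, Matrix.dotProduct_mulVec, Matrix.vecMul_transpose]
    simp only [dotProduct]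
    exact Finset.sum_congr rfl fun i _ => by ring
  rw [key, key, ← Finset.sum_add_distrib]
  refine Finset.sum_congr rfl fun i _ => ?_
  rw [← Complex.normSq_eq_norm_sq, Complex.normSq_apply, vre_cx_mulVec, vim_cx_mulVec]
  ring

lemma nq_factor {α : Type*} [Fintype α] (B : Matrix α ι ℝ) (x : ι → ℂ) :
    nq (Bᵀ * B) x = ‖(WithLp.toLp 2 (cx B *ᵥ x) : EuclideanSpace ℂ α)‖ := by
  rw [nq, qf_factor, EuclideanSpace.norm_eq]

lemma norm_dotProduct_le {α : Type*} [Fintype α] (u w : α → ℂ) :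
    ‖u ⬝ᵥ w‖ ≤ ‖(WithLp.toLp 2 u : EuclideanSpace ℂ α)‖ * ‖(WithLp.toLp 2 w : EuclideanSpace ℂ α)‖ := by
  have h := norm_inner_le_norm (𝕜 := ℂ) (WithLp.toLp 2 (star u) : EuclideanSpace ℂ α)
    (WithLp.toLp 2 w : EuclideanSpace ℂ α)
  have h1 : inner ℂ (WithLp.toLp 2 (star u) : EuclideanSpace ℂ α)
      (WithLp.toLp 2 w : EuclideanSpace ℂ α) = u ⬝ᵥ w := by
    rw [EuclideanSpace.inner_toLp_toLp, star_star, dotProduct_comm]
  have h2 : ‖(WithLp.toLp 2 (star u) : EuclideanSpace ℂ α)‖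
      = ‖(WithLp.toLp 2 u : EuclideanSpace ℂ α)‖ := by
    rw [EuclideanSpace.norm_eq, EuclideanSpace.norm_eq]; simp
  rw [h1, h2] at h
  exact h

section dual

variable [DecidableEq ι]

lemma posDef_inv_factor {B : Matrix ι ι ℝ} (hB : IsUnit B.det) :
    (Bᵀ * B)⁻¹ = (Bᵀ⁻¹)ᵀ * (Bᵀ⁻¹) := by
  rw [Matrix.mul_inv_rev, Matrix.transpose_nonsing_inv, Matrix.transpose_transpose]

/-- Cauchy-Schwarz for the dual pair of norms. -/
theorem norm_dot_le {Y : Matrix ι ι ℝ} (hY : Y.PosDef) (u w : ι → ℂ) :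
    ‖u ⬝ᵥ w‖ ≤ nq Y⁻¹ u * nq Y w := by
  obtain ⟨B, hB, rfl⟩ := exists_factor hY
  rw [posDef_inv_factor hB, nq_factor, nq_factor]
  have hBt : IsUnit Bᵀ.det := by rwa [Matrix.det_transpose]
  have h := norm_dotProduct_le (cx Bᵀ⁻¹ *ᵥ u) (cx B *ᵥ w)
  have e : (cx Bᵀ⁻¹ *ᵥ u) ⬝ᵥ (cx B *ᵥ w) = u ⬝ᵥ w := by
    rw [Matrix.dotProduct_mulVec, ← Matrix.mulVec_transpose, Matrix.mulVec_mulVec,
      ← cx_transpose, ← cx_mul, Matrix.mul_nonsing_inv _ hBt, cx_one, Matrix.one_mulVec]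
  rwa [e] at h

/-- triangle inequality -/
theorem nq_add_le {Y : Matrix ι ι ℝ} (hY : Y.PosDef) (x y : ι → ℂ) :
    nq Y (x + y) ≤ nq Y x + nq Y y := by
  obtain ⟨B, hB, rfl⟩ := exists_factor hY
  rw [nq_factor, nq_factor, nq_factor, Matrix.mulVec_add, WithLp.toLp_add]
  exact norm_add_le _ _

theorem nq_smul {Y : Matrix ι ι ℝ} (hY : Y.PosDef) (c : ℂ) (x : ι → ℂ) :
    nq Y (c • x) = ‖c‖ * nq Y x := by
  obtain ⟨B, hB, rfl⟩ := exists_factor hY
  rw [nq_factor, nq_factor, Matrix.mulVec_smul, WithLp.toLp_smul, norm_smul]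

theorem nq_neg {Y : Matrix ι ι ℝ} (hY : Y.PosDef) (x : ι → ℂ) :
    nq Y (-x) = nq Y x := by
  have := nq_smul hY (-1) x
  simpa using this




/-- `x ↦ conj (Y⁻¹ v)` realises the dual norm -/
theorem dual_vec {Y : Matrix ι ι ℝ} (hY : Y.PosDef) (v : ι → ℂ) :
    star (cx Y⁻¹ *ᵥ v) ⬝ᵥ v = (qf Y⁻¹ v : ℂ) ∧ nq Y (star (cx Y⁻¹ *ᵥ v)) = nq Y⁻¹ v := by
  have hYt : Y⁻¹ᵀ = Y⁻¹ := by
    have := hY.inv.isHermitian
    rwa [Matrix.IsHermitian, Matrix.conjTranspose_eq_transpose_of_trivial] at this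
  have hYt' : Yᵀ = Y := by
    have := hY.isHermitian
    rwa [Matrix.IsHermitian, Matrix.conjTranspose_eq_transpose_of_trivial] at this
  have hu : IsUnit Y.det := (Matrix.isUnit_iff_isUnit_det _).mp hY.isUnit
  have hstar : star (cx Y⁻¹ *ᵥ v) = cx Y⁻¹ *ᵥ star v := by
    ext i
    simp [Matrix.mulVec, dotProduct, map_sum]
  have h1 : star (cx Y⁻¹ *ᵥ v) ⬝ᵥ v = (qf Y⁻¹ v : ℂ) := by
    rw [hstar, ← star_dot_cx hYt v, Matrix.dotProduct_mulVec, ← Matrix.mulVec_transpose,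
      ← cx_transpose, hYt]
  refine ⟨h1, ?_⟩
  have hqstar : ∀ (W : Matrix ι ι ℝ) (x : ι → ℂ), qf W (star x) = qf W x := by
    intro W x
    have e1 : vre (star x) = vre x := by ext i; simp [vre]
    have e2 : vim (star x) = -vim x := by ext i; simp [vim]
    simp [qf, e1, e2, Matrix.mulVec_neg]
  unfold nq
  rw [hqstar]
  congr 1
  have h3 : ((qf Y (cx Y⁻¹ *ᵥ v) : ℝ) : ℂ) = (qf Y⁻¹ v : ℂ) := by
    rw [← star_dot_cx hYt', Matrix.mulVec_mulVec, ← cx_mul, Matrix.mul_nonsing_inv _ hu, cx_one,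
      Matrix.one_mulVec, h1]
  exact_mod_cast h3

/-- dual norm bound -/
theorem nq_inv_le_of {Y : Matrix ι ι ℝ} (hY : Y.PosDef) {v : ι → ℂ} {c : ℝ} (hc : 0 ≤ c)
    (h : ∀ a : ι → ℂ, ‖a ⬝ᵥ v‖ ≤ c * nq Y a) : nq Y⁻¹ v ≤ c := by
  obtain ⟨h1, h2⟩ := dual_vec hY v
  have h3 := h (star (cx Y⁻¹ *ᵥ v))
  rw [h1, h2, Complex.norm_real, Real.norm_of_nonneg (qf_nonneg hY.inv.posSemidef v),
    ← nq_sq hY.inv.posSemidef] at h3
  by_cases h0 : nq Y⁻¹ v = 0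
  · rw [h0]; exact hc
  · have hpos : 0 < nq Y⁻¹ v := lt_of_le_of_ne (nq_nonneg _ _) (Ne.symm h0)
    nlinarith

end dual

/-! ## Siegel upper half space -/

/-- `Z` complex symmetric with positive definite imaginary part. -/
structure Siegel (Z : Matrix ι ι ℂ) : Prop where
  symm : Zᵀ = Z
  pos : (imM Z).PosDef

lemma imM_symm {Z : Matrix ι ι ℂ} (h : Zᵀ = Z) : (imM Z)ᵀ = imM Z := by
  ext i j
  have := congrFun (congrFun h i) j
  simp only [Matrix.transpose_apply] at this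
  simp [this]

lemma reM_symm {Z : Matrix ι ι ℂ} (h : Zᵀ = Z) : (reM Z)ᵀ = reM Z := by
  ext i j
  have := congrFun (congrFun h i) j
  simp only [Matrix.transpose_apply] at this
  simp [this]

lemma re_add_im_M (Z : Matrix ι ι ℂ) : Z = cx (reM Z) + Complex.I • cx (imM Z) := by
  ext i j
  simp only [Matrix.add_apply, cx_apply, reM_apply, Matrix.smul_apply, imM_apply, smul_eq_mul]
  rw [mul_comm, Complex.re_add_im]

/-- `x^* Z x = x^* (Re Z) x + i x^* (Im Z) x` for symmetric `Z` -/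
lemma star_form {Z : Matrix ι ι ℂ} (h : Zᵀ = Z) (x : ι → ℂ) :
    star x ⬝ᵥ (Z *ᵥ x) = (qf (reM Z) x : ℂ) + Complex.I * (qf (imM Z) x : ℂ) := by
  conv_lhs => rw [re_add_im_M Z]
  rw [Matrix.add_mulVec, Matrix.smul_mulVec, dotProduct_add, dotProduct_smul,
    star_dot_cx (reM_symm h), star_dot_cx (imM_symm h), smul_eq_mul]

lemma im_form {Z : Matrix ι ι ℂ} (h : Zᵀ = Z) (x : ι → ℂ) :
    (star x ⬝ᵥ (Z *ᵥ x)).im = qf (imM Z) x := by
  rw [star_form h]; simp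

lemma star_dot_real {V : Matrix ι ι ℝ} (hV : Vᵀ = V) (x : ι → ℂ) :
    (star x ⬝ᵥ (cx V *ᵥ x)).im = 0 := by
  rw [star_dot_cx hV]; simp

lemma star_dot_star (x y : ι → ℂ) : star x ⬝ᵥ y = star (star y ⬝ᵥ x) := by
  simp only [dotProduct, Pi.star_apply, star_sum, star_mul', star_star]
  exact Finset.sum_congr rfl fun i _ => mul_comm _ _

lemma qf_star (W : Matrix ι ι ℝ) (x : ι → ℂ) : qf W (star x) = qf W x := by
  have e1 : vre (star x) = vre x := by ext i; simp [vre]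
  have e2 : vim (star x) = -vim x := by ext i; simp [vim]
  simp [qf, e1, e2, Matrix.mulVec_neg]

lemma nq_star (W : Matrix ι ι ℝ) (x : ι → ℂ) : nq W (star x) = nq W x := by
  rw [nq, nq, qf_star]

lemma posDef_of_qf {Y : Matrix ι ι ℝ} (hY : Yᵀ = Y) (h : ∀ x : ι → ℂ, x ≠ 0 → 0 < qf Y x) :
    Y.PosDef := by
  refine Matrix.PosDef.of_dotProduct_mulVec_pos ?_ ?_
  · rwa [Matrix.IsHermitian, Matrix.conjTranspose_eq_transpose_of_trivial]
  · intro x hx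
    have h1 := h (fun i => (x i : ℂ)) (by
      intro h0
      apply hx
      ext i
      have := congrFun h0 i
      simpa using this)
    have e1 : vre (fun i => (x i : ℂ)) = x := by ext i; simp [vre]
    have e2 : vim (fun i => (x i : ℂ)) = 0 := by ext i; simp [vim]
    simp only [qf, e1, e2, Matrix.mulVec_zero, dotProduct_zero, add_zero] at h1
    simpa using h1

section mobius

variable [DecidableEq ι]

lemma det_unit_of_inj {A : Matrix ι ι ℂ} (h : ∀ s : ι → ℂ, A *ᵥ s = 0 → s = 0) :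
    IsUnit A.det := by
  rw [isUnit_iff_ne_zero]
  intro h0
  obtain ⟨v, hv, hv'⟩ := Matrix.exists_mulVec_eq_zero_iff.mpr h0
  exact hv (h v hv')

/-- a symmetric matrix with `Im > 0` is invertible -/
theorem Siegel.isUnit {Z : Matrix ι ι ℂ} (hZ : Siegel Z) : IsUnit Z.det := by
  apply det_unit_of_inj
  intro s hs
  by_contra h0
  have h1 := im_form hZ.symm s
  rw [hs] at h1
  simp only [dotProduct_zero, Complex.zero_im] at h1
  exact absurd (qf_pos hZ.pos h0) (by rw [← h1]; exact lt_irrefl _)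

/-- `1 + Z V` is invertible for `Z` in Siegel space, `V` real symmetric. -/
theorem Siegel.isUnit_one_add_mul {Z : Matrix ι ι ℂ} (hZ : Siegel Z) {V : Matrix ι ι ℝ}
    (hV : Vᵀ = V) : IsUnit (1 + Z * cx V).det := by
  apply det_unit_of_inj
  intro s hs
  rw [Matrix.add_mulVec, Matrix.one_mulVec, ← Matrix.mulVec_mulVec] at hs
  set t := cx V *ᵥ s with ht
  have h1 : s = -(Z *ᵥ t) := eq_neg_of_add_eq_zero_left hs
  have h2 : (star t ⬝ᵥ s).im = 0 := by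
    have h3 := star_dot_real hV s
    rw [← ht] at h3
    rw [star_dot_star, Complex.star_def, Complex.conj_im, h3, neg_zero]
  rw [h1, dotProduct_neg, Complex.neg_im, im_form hZ.symm t, neg_eq_zero] at h2
  have h4 : t = 0 := by
    by_contra h5
    exact absurd (qf_pos hZ.pos h5) (by rw [h2]; exact lt_irrefl _)
  rw [h4, Matrix.mulVec_zero, neg_zero] at h1
  exact h1

theorem Siegel.isUnit_one_add_mul' {Z : Matrix ι ι ℂ} (hZ : Siegel Z) {V : Matrix ι ι ℝ}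
    (hV : Vᵀ = V) : IsUnit (1 + cx V * Z).det := by
  have h := hZ.isUnit_one_add_mul hV
  have e : (1 + Z * cx V)ᵀ = 1 + cx V * Z := by
    rw [Matrix.transpose_add, Matrix.transpose_one, Matrix.transpose_mul, hZ.symm, ← cx_transpose,
      hV]
  rw [← e, Matrix.det_transpose]
  exact h

/-- `|V (1+ZV)^{-1} v|_Y ≤ |v|_{Y^{-1}}`, `Y = Im Z`. -/
theorem Siegel.nq_le {Z : Matrix ι ι ℂ} (hZ : Siegel Z) {V : Matrix ι ι ℝ}
    (hV : Vᵀ = V) (v : ι → ℂ) :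
    nq (imM Z) ((cx V * (1 + Z * cx V)⁻¹) *ᵥ v) ≤ nq (imM Z)⁻¹ v := by
  have hu := hZ.isUnit_one_add_mul hV
  set s := (1 + Z * cx V)⁻¹ *ᵥ v with hs
  have hv : v = s + Z *ᵥ (cx V *ᵥ s) := by
    have : (1 + Z * cx V) *ᵥ s = v := by
      rw [hs, Matrix.mulVec_mulVec, Matrix.mul_nonsing_inv _ hu, Matrix.one_mulVec]
    rw [← this, Matrix.add_mulVec, Matrix.one_mulVec, ← Matrix.mulVec_mulVec]
  rw [← Matrix.mulVec_mulVec, ← hs]
  set w := cx V *ᵥ s with hw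
  have h1 : (star v ⬝ᵥ w).im = - qf (imM Z) w := by
    rw [hv, star_add, add_dotProduct, Complex.add_im]
    have e1 : (star s ⬝ᵥ w).im = 0 := by rw [hw]; exact star_dot_real hV s
    have e2 : (star (Z *ᵥ w) ⬝ᵥ w).im = - qf (imM Z) w := by
      rw [star_dot_star, Complex.star_def, Complex.conj_im, im_form hZ.symm]
    rw [e1, e2, zero_add]
  have h2 : qf (imM Z) w ≤ nq (imM Z)⁻¹ v * nq (imM Z) w := by
    have h3 := norm_dot_le hZ.pos (star v) w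
    rw [nq_star] at h3
    have h4 : qf (imM Z) w = -(star v ⬝ᵥ w).im := by rw [h1, neg_neg]
    rw [h4]
    exact le_trans (neg_le_abs _) (le_trans (Complex.abs_im_le_norm _) h3)
  rw [← nq_sq hZ.pos.posSemidef] at h2
  by_cases h0 : nq (imM Z) w = 0
  · rw [h0]; exact nq_nonneg _ _
  · have hpos : 0 < nq (imM Z) w := lt_of_le_of_ne (nq_nonneg _ _) (Ne.symm h0)
    nlinarith

/-- (10.2), abstract form: `|uᵀ V (1+ZV)^{-1} v| ≤ |u|_{Y^{-1}} |v|_{Y^{-1}}`. -/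
theorem Siegel.norm_le {Z : Matrix ι ι ℂ} (hZ : Siegel Z) {V : Matrix ι ι ℝ}
    (hV : Vᵀ = V) (u v : ι → ℂ) :
    ‖u ⬝ᵥ ((cx V * (1 + Z * cx V)⁻¹) *ᵥ v)‖ ≤ nq (imM Z)⁻¹ u * nq (imM Z)⁻¹ v :=
  le_trans (norm_dot_le hZ.pos u _)
    (mul_le_mul_of_nonneg_left (hZ.nq_le hV v) (nq_nonneg _ _))

/-- the Moebius action of a real symmetric `V`: `(Z^{-1}+V)^{-1} = Z (1+VZ)^{-1}` -/
noncomputable def mob (V : Matrix ι ι ℝ) (Z : Matrix ι ι ℂ) : Matrix ι ι ℂ :=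
  Z * (1 + cx V * Z)⁻¹

theorem mob_eq {Z : Matrix ι ι ℂ} (hZ : Siegel Z) {V : Matrix ι ι ℝ} (hV : Vᵀ = V) :
    mob V Z = (1 + Z * cx V)⁻¹ * Z := by
  have h1 := hZ.isUnit_one_add_mul hV
  have h2 := hZ.isUnit_one_add_mul' hV
  have key : (1 + Z * cx V) * Z = Z * (1 + cx V * Z) := by
    rw [Matrix.add_mul, Matrix.mul_add, Matrix.one_mul, Matrix.mul_one, Matrix.mul_assoc]
  calc mob V Z = (1 + Z * cx V)⁻¹ * ((1 + Z * cx V) * Z) * (1 + cx V * Z)⁻¹ := by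
        rw [← Matrix.mul_assoc, Matrix.nonsing_inv_mul _ h1, Matrix.one_mul, mob]
    _ = (1 + Z * cx V)⁻¹ * Z * ((1 + cx V * Z) * (1 + cx V * Z)⁻¹) := by
        rw [key]; simp only [Matrix.mul_assoc]
    _ = _ := by rw [Matrix.mul_nonsing_inv _ h2, Matrix.mul_one]

theorem mob_symm {Z : Matrix ι ι ℂ} (hZ : Siegel Z) {V : Matrix ι ι ℝ} (hV : Vᵀ = V) :
    (mob V Z)ᵀ = mob V Z := by
  conv_rhs => rw [mob_eq hZ hV]
  rw [mob, Matrix.transpose_mul, Matrix.transpose_nonsing_inv, hZ.symm, Matrix.transpose_add,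
    Matrix.transpose_one, Matrix.transpose_mul, hZ.symm, ← cx_transpose, hV]

/-- `Im (x^* mob x) = |B x|_Y^2`, `B = (1+VZ)^{-1}` -/
theorem qf_mob {Z : Matrix ι ι ℂ} (hZ : Siegel Z) {V : Matrix ι ι ℝ} (hV : Vᵀ = V)
    (x : ι → ℂ) :
    qf (imM (mob V Z)) x = qf (imM Z) ((1 + cx V * Z)⁻¹ *ᵥ x) := by
  have h2 := hZ.isUnit_one_add_mul' hV
  set b := (1 + cx V * Z)⁻¹ *ᵥ x with hb
  have hx : x = b + cx V *ᵥ (Z *ᵥ b) := by
    have : (1 + cx V * Z) *ᵥ b = x := by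
      rw [hb, Matrix.mulVec_mulVec, Matrix.mul_nonsing_inv _ h2, Matrix.one_mulVec]
    rw [← this, Matrix.add_mulVec, Matrix.one_mulVec, ← Matrix.mulVec_mulVec]
  rw [← im_form (mob_symm hZ hV), mob, ← Matrix.mulVec_mulVec, ← hb]
  conv_lhs => rw [hx]
  rw [star_add, add_dotProduct, Complex.add_im, im_form hZ.symm]
  have : (star (cx V *ᵥ (Z *ᵥ b)) ⬝ᵥ (Z *ᵥ b)).im = 0 := by
    rw [star_dot_star, Complex.star_def, Complex.conj_im, star_dot_real hV, neg_zero]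
  rw [this, add_zero]

theorem nq_mob {Z : Matrix ι ι ℂ} (hZ : Siegel Z) {V : Matrix ι ι ℝ} (hV : Vᵀ = V)
    (x : ι → ℂ) :
    nq (imM (mob V Z)) x = nq (imM Z) ((1 + cx V * Z)⁻¹ *ᵥ x) := by
  rw [nq, qf_mob hZ hV, nq]

theorem siegel_mob {Z : Matrix ι ι ℂ} (hZ : Siegel Z) {V : Matrix ι ι ℝ} (hV : Vᵀ = V) :
    Siegel (mob V Z) := by
  refine ⟨mob_symm hZ hV, posDef_of_qf (imM_symm (mob_symm hZ hV)) ?_⟩
  intro x hx
  rw [qf_mob hZ hV]
  apply qf_pos hZ.pos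
  intro h0
  apply hx
  have h2 := hZ.isUnit_one_add_mul' hV
  have : (1 + cx V * Z) *ᵥ ((1 + cx V * Z)⁻¹ *ᵥ x) = x := by
    rw [Matrix.mulVec_mulVec, Matrix.mul_nonsing_inv _ h2, Matrix.one_mulVec]
  rw [← this, h0, Matrix.mulVec_zero]

/-- `mob V Z` is the inverse of `Z^{-1} + V` -/
theorem mob_inv {Z : Matrix ι ι ℂ} (hZ : Siegel Z) {V : Matrix ι ι ℝ} (hV : Vᵀ = V) :
    (mob V Z)⁻¹ = Z⁻¹ + cx V := by
  apply Matrix.inv_eq_right_inv
  have h2 := hZ.isUnit_one_add_mul' hV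
  rw [mob_eq hZ hV, Matrix.mul_assoc, Matrix.mul_add, Matrix.mul_nonsing_inv _ hZ.isUnit,
    Matrix.nonsing_inv_mul _ (hZ.isUnit_one_add_mul hV)]

/-! ## the weak coupling lemma (10.4) -/

/-- `Z'` is symmetric and `ε`-close to `Z` in the metric of `Im Z`. -/
def Near (ε : ℝ) (Z Z' : Matrix ι ι ℂ) : Prop :=
  Z'ᵀ = Z' ∧ ∀ x y : ι → ℂ, ‖x ⬝ᵥ ((Z' - Z) *ᵥ y)‖ ≤ ε * nq (imM Z) x * nq (imM Z) y

lemma Near.mono {ε ε' : ℝ} {Z Z' : Matrix ι ι ℂ} (h : Near ε Z Z') (he : ε ≤ ε') :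
    Near ε' Z Z' :=
  ⟨h.1, fun x y => le_trans (h.2 x y) (mul_le_mul_of_nonneg_right
    (mul_le_mul_of_nonneg_right he (nq_nonneg _ _)) (nq_nonneg _ _))⟩

lemma Near.qf_ge {ε : ℝ} {Z Z' : Matrix ι ι ℂ} (hZ : Siegel Z) (h : Near ε Z Z') (x : ι → ℂ) :
    (1 - ε) * qf (imM Z) x ≤ qf (imM Z') x := by
  have h1 := h.2 (star x) x
  rw [nq_star, mul_assoc, ← sq, nq_sq hZ.pos.posSemidef] at h1
  have hs : (Z' - Z)ᵀ = Z' - Z := by rw [Matrix.transpose_sub, h.1, hZ.symm]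
  have h2 : (star x ⬝ᵥ ((Z' - Z) *ᵥ x)).im = qf (imM Z') x - qf (imM Z) x := by
    rw [Matrix.sub_mulVec, dotProduct_sub, Complex.sub_im, im_form h.1, im_form hZ.symm]
  have h3 := le_trans (Complex.abs_im_le_norm _) h1
  rw [h2] at h3
  have := (abs_le.mp h3).1
  linarith

lemma Near.qf_le {ε : ℝ} {Z Z' : Matrix ι ι ℂ} (hZ : Siegel Z) (h : Near ε Z Z') (x : ι → ℂ) :
    qf (imM Z') x ≤ (1 + ε) * qf (imM Z) x := by
  have h1 := h.2 (star x) x
  rw [nq_star, mul_assoc, ← sq, nq_sq hZ.pos.posSemidef] at h1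
  have h2 : (star x ⬝ᵥ ((Z' - Z) *ᵥ x)).im = qf (imM Z') x - qf (imM Z) x := by
    rw [Matrix.sub_mulVec, dotProduct_sub, Complex.sub_im, im_form h.1, im_form hZ.symm]
  have h3 := le_trans (Complex.abs_im_le_norm _) h1
  rw [h2] at h3
  have := (abs_le.mp h3).2
  linarith

lemma Near.siegel {ε : ℝ} (hε : ε < 1) {Z Z' : Matrix ι ι ℂ} (hZ : Siegel Z)
    (h : Near ε Z Z') : Siegel Z' := by
  refine ⟨h.1, posDef_of_qf (imM_symm h.1) fun x hx => ?_⟩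
  have h1 := h.qf_ge hZ x
  have h2 := qf_pos hZ.pos hx
  have : 0 < (1 - ε) * qf (imM Z) x := mul_pos (by linarith) h2
  linarith

/-- `|D v|_{Y^{-1}} ≤ ε |v|_Y` for `D = Z' - Z` -/
lemma Near.dual {ε : ℝ} (hε : 0 ≤ ε) {Z Z' : Matrix ι ι ℂ} (hZ : Siegel Z)
    (h : Near ε Z Z') (v : ι → ℂ) :
    nq (imM Z)⁻¹ ((Z' - Z) *ᵥ v) ≤ ε * nq (imM Z) v := by
  apply nq_inv_le_of hZ.pos (mul_nonneg hε (nq_nonneg _ _))
  intro a
  have := h.2 a v
  nlinarith [nq_nonneg (imM Z) a, nq_nonneg (imM Z) v]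

/-- resolvent identity for `mob` -/
theorem mob_sub {Z Z' : Matrix ι ι ℂ} (hZ : Siegel Z) (hZ' : Siegel Z') {V : Matrix ι ι ℝ}
    (hV : Vᵀ = V) :
    mob V Z' - mob V Z = (1 + Z * cx V)⁻¹ * (Z' - Z) * (1 + cx V * Z')⁻¹ := by
  have h1 := hZ.isUnit_one_add_mul hV
  have h2 := hZ'.isUnit_one_add_mul' hV
  have key : (1 + Z * cx V) * Z' - Z * (1 + cx V * Z') = Z' - Z := by
    rw [Matrix.add_mul, Matrix.mul_add, Matrix.one_mul, Matrix.mul_one, Matrix.mul_assoc]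
    abel
  rw [← key, Matrix.mul_sub, Matrix.sub_mul, ← Matrix.mul_assoc, Matrix.nonsing_inv_mul _ h1,
    Matrix.one_mul, mob, mob_eq hZ hV, Matrix.mul_assoc ((1 + Z * cx V)⁻¹), Matrix.mul_assoc Z,
    Matrix.mul_nonsing_inv _ h2, Matrix.mul_one]

/-- WEAK COUPLING LEMMA (10.4). -/
theorem Near.mob {ε : ℝ} (hε0 : 0 ≤ ε) (hε : ε < 1) {Z Z' : Matrix ι ι ℂ} (hZ : Siegel Z)
    (h : Near ε Z Z') {V : Matrix ι ι ℝ} (hV : Vᵀ = V) :
    Near (ε / (1 - ε)) (mob V Z) (mob V Z') := by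
  have hZ' := h.siegel hε hZ
  refine ⟨mob_symm hZ' hV, fun x y => ?_⟩
  have h1 := hZ.isUnit_one_add_mul hV
  have h1' := hZ.isUnit_one_add_mul' hV
  have h2 := hZ'.isUnit_one_add_mul' hV
  rw [mob_sub hZ hZ' hV, nq_mob hZ hV, nq_mob hZ hV]
  set B := (1 + cx V * Z)⁻¹ with hB
  have hBt : (1 + Z * cx V)⁻¹ = Bᵀ := by
    rw [hB, Matrix.transpose_nonsing_inv, Matrix.transpose_add, Matrix.transpose_one,
      Matrix.transpose_mul, hZ.symm, ← cx_transpose, hV]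
  set s := (1 + cx V * Z')⁻¹ *ᵥ y with hs
  -- x ⬝ Bᵀ D s = (B x) ⬝ D s
  have e1 : x ⬝ᵥ (((1 + Z * cx V)⁻¹ * (Z' - Z) * (1 + cx V * Z')⁻¹) *ᵥ y)
      = (B *ᵥ x) ⬝ᵥ ((Z' - Z) *ᵥ s) := by
    rw [hBt, ← Matrix.mulVec_mulVec, ← hs, ← Matrix.mulVec_mulVec, Matrix.dotProduct_mulVec x,
      Matrix.vecMul_transpose]
  rw [e1]
  -- s + Q D s = B y
  have e2 : s + (cx V * (1 + Z * cx V)⁻¹) *ᵥ ((Z' - Z) *ᵥ s) = B *ᵥ y := by
    have hy : y = (1 + cx V * Z') *ᵥ s := by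
      rw [hs, Matrix.mulVec_mulVec, Matrix.mul_nonsing_inv _ h2, Matrix.one_mulVec]
    have key : B * (1 + cx V * Z') = 1 + cx V * (1 + Z * cx V)⁻¹ * (Z' - Z) := by
      have k1 : B * cx V = cx V * (1 + Z * cx V)⁻¹ := by
        have k2 : (1 + cx V * Z) * cx V = cx V * (1 + Z * cx V) := by
          rw [Matrix.add_mul, Matrix.mul_add, Matrix.one_mul, Matrix.mul_one, Matrix.mul_assoc]
        calc B * cx V = B * (cx V * (1 + Z * cx V)) * (1 + Z * cx V)⁻¹ := by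
              rw [Matrix.mul_assoc B, Matrix.mul_assoc (cx V), Matrix.mul_nonsing_inv _ h1,
                Matrix.mul_one]
          _ = _ := by
              rw [← k2, ← Matrix.mul_assoc B, hB, Matrix.nonsing_inv_mul _ h1', Matrix.one_mul]
      rw [← k1]
      have k3 : (1 + cx V * Z') = (1 + cx V * Z) + cx V * (Z' - Z) := by
        rw [Matrix.mul_sub]; abel
      rw [k3, Matrix.mul_add, hB, Matrix.nonsing_inv_mul _ h1', Matrix.mul_assoc]
    have hBy : B *ᵥ y = (B * (1 + cx V * Z')) *ᵥ s := by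
      rw [← Matrix.mulVec_mulVec, ← hy]
    rw [hBy, key, Matrix.add_mulVec, Matrix.one_mulVec]
    simp only [Matrix.mulVec_mulVec]
  have e3 : nq (imM Z) s ≤ nq (imM Z) (B *ᵥ y) + ε * nq (imM Z) s := by
    have e4 : s = B *ᵥ y + -((cx V * (1 + Z * cx V)⁻¹) *ᵥ ((Z' - Z) *ᵥ s)) := by
      rw [← e2]; abel
    calc nq (imM Z) s = nq (imM Z) (B *ᵥ y + -((cx V * (1 + Z * cx V)⁻¹) *ᵥ ((Z' - Z) *ᵥ s))) := by
          rw [← e4]
      _ ≤ nq (imM Z) (B *ᵥ y) + nq (imM Z) (-((cx V * (1 + Z * cx V)⁻¹) *ᵥ ((Z' - Z) *ᵥ s))) :=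
          nq_add_le hZ.pos _ _
      _ ≤ nq (imM Z) (B *ᵥ y) + ε * nq (imM Z) s := by
          rw [nq_neg hZ.pos]
          have := le_trans (hZ.nq_le hV ((Z' - Z) *ᵥ s)) (h.dual hε0 hZ s)
          linarith
  have h1ε : 0 < 1 - ε := by linarith
  have e5 : nq (imM Z) s ≤ nq (imM Z) (B *ᵥ y) / (1 - ε) := by
    rw [le_div_iff₀ h1ε]; linarith
  calc ‖(B *ᵥ x) ⬝ᵥ ((Z' - Z) *ᵥ s)‖ ≤ ε * nq (imM Z) (B *ᵥ x) * nq (imM Z) s := h.2 _ _
    _ ≤ ε * nq (imM Z) (B *ᵥ x) * (nq (imM Z) (B *ᵥ y) / (1 - ε)) :=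
        mul_le_mul_of_nonneg_left e5 (mul_nonneg hε0 (nq_nonneg _ _))
    _ = ε / (1 - ε) * nq (imM Z) (B *ᵥ x) * nq (imM Z) (B *ᵥ y) := by ring

end mobius

end Crest.Agent.R166.Res598
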