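import Mathlib
import Crest.Agent.R166.Sec_269
import Crest.Agent.R166.Multi_383
import Crest.Agent.R166.Res3_789
import Crest.Agent.R166.Root_355
import Crest.Agent.R166.SpecA_598

-- ▼ part R166/Clean_566
section

/-!
Row 166, section 31.1, 31.3, 31.4 (helper566): abstract finite bookkeeping.

`Om` = finite set of graphs (port numbered), `HE` = half edges (fixed finite set), `M` = resampling
choices, `sw G e m` = resampled graph (centre `e`), `valid` = admissible moves, `ne G e` = "the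
neighbourhood of `e` is a tree", `D G e ∈ [0,1]` = deviation of the cavity block at the scale `K`.
All averages are uniform averages over finite types.
-/

set_option autoImplicit false
set_option linter.unusedSectionVars false

open Finset

namespace Crest.Agent.R166.Clean566

section av

variable {α β : Type*} [Fintype α] [Fintype β]

/-- uniform average over a finite type -/
noncomputable def av (f : α → ℝ) : ℝ := (∑ a, f a) / Fintype.card α

lemma av_mono {f g : α → ℝ} (h : ∀ a, f a ≤ g a) : av f ≤ av g := by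
  unfold av
  exact div_le_div_of_nonneg_right (Finset.sum_le_sum fun a _ => h a) (Nat.cast_nonneg _)

lemma av_nonneg {f : α → ℝ} (h : ∀ a, 0 ≤ f a) : 0 ≤ av f :=
  div_nonneg (Finset.sum_nonneg fun a _ => h a) (Nat.cast_nonneg _)

lemma av_add (f g : α → ℝ) : av (fun a => f a + g a) = av f + av g := by
  unfold av
  rw [Finset.sum_add_distrib, add_div]


lemma av_mul_left (c : ℝ) (f : α → ℝ) : av (fun a => c * f a) = c * av f := by
  unfold av
  rw [← Finset.mul_sum, mul_div_assoc]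

lemma av_mul_right (c : ℝ) (f : α → ℝ) : av (fun a => f a * c) = av f * c := by
  unfold av
  rw [← Finset.sum_mul, div_mul_eq_mul_div]

lemma av_const [Nonempty α] (c : ℝ) : av (fun _ : α => c) = c := by
  unfold av
  rw [Finset.sum_const, Finset.card_univ, nsmul_eq_mul]
  have : (Fintype.card α : ℝ) ≠ 0 := by
    exact_mod_cast Fintype.card_ne_zero
  field_simp

lemma av_const_le (c : ℝ) (hc : 0 ≤ c) : av (fun _ : α => c) ≤ c := by
  unfold av
  rw [Finset.sum_const, Finset.card_univ, nsmul_eq_mul]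
  rcases Nat.eq_zero_or_pos (Fintype.card α) with h | h
  · rw [h]; simpa using hc
  · have : (0 : ℝ) < Fintype.card α := by exact_mod_cast h
    rw [mul_div_assoc, mul_div_cancel₀]
    exact this.ne'

lemma av_le_of_le {f : α → ℝ} {c : ℝ} (hc : 0 ≤ c) (h : ∀ a, f a ≤ c) : av f ≤ c :=
  (av_mono h).trans (av_const_le c hc)

lemma av_sum {ι : Type*} (s : Finset ι) (f : ι → α → ℝ) :
    av (fun a => ∑ i ∈ s, f i a) = ∑ i ∈ s, av (f i) := by
  unfold av
  rw [Finset.sum_comm, Finset.sum_div]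


end av

/-- the piecewise linear cutoff: `1` on `(-∞, v]`, `0` on `[2v, ∞)` -/
noncomputable def cut (v x : ℝ) : ℝ := max 0 (min 1 (2 - x / v))

lemma cut_nonneg (v x : ℝ) : 0 ≤ cut v x := le_max_left _ _

lemma cut_le_one (v x : ℝ) : cut v x ≤ 1 := max_le zero_le_one (min_le_left _ _)

lemma cut_eq_one {v x : ℝ} (hv : 0 < v) (hx : x ≤ v) : cut v x = 1 := by
  unfold cut
  have : x / v ≤ 1 := by rw [div_le_one hv]; exact hx
  rw [min_eq_left (by linarith), max_eq_right zero_le_one]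

lemma cut_eq_zero {v x : ℝ} (hv : 0 < v) (hx : 2 * v ≤ x) : cut v x = 0 := by
  unfold cut
  have : 2 ≤ x / v := by rw [le_div_iff₀ hv]; exact hx
  apply max_eq_left
  exact (min_le_right _ _).trans (by linarith)

lemma cut_le_add {v x y : ℝ} (hv : 0 < v) : cut v x ≤ cut v y + |x - y| / v := by
  unfold cut
  have h0 : 0 ≤ |x - y| / v := div_nonneg (abs_nonneg _) hv.le
  have h1 : y / v - x / v ≤ |x - y| / v := by
    rw [← sub_div]
    apply div_le_div_of_nonneg_right _ hv.le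
    rw [abs_sub_comm]
    exact le_abs_self _
  apply max_le
  · have := le_max_left 0 (min 1 (2 - y / v))
    linarith
  · have h2 : min 1 (2 - x / v) ≤ min 1 (2 - y / v) + |x - y| / v := by
      rcases min_cases 1 (2 - y / v) with ⟨h, _⟩ | ⟨h, _⟩
      · rw [h]
        have := min_le_left 1 (2 - x / v)
        linarith
      · rw [h]
        have := min_le_right 1 (2 - x / v)
        linarith
    have h3 := le_max_right 0 (min 1 (2 - y / v))
    linarith

section main

variable {Om HE M : Type*} [Fintype Om] [Fintype HE] [Fintype M]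

/-- the mean square deviation -/
noncomputable def VV (D : Om → HE → ℝ) (G : Om) : ℝ := av fun e => D G e ^ 2

/-- the fraction of `r`-bad half edges -/
noncomputable def pp (D : Om → HE → ℝ) (r : ℝ) (G : Om) : ℝ := by
  classical exact av fun e => if r < D G e then 1 else 0

/-- the fraction of `r`-bad half edges among the non exceptional ones -/
noncomputable def pne (D : Om → HE → ℝ) (ne : Om → HE → Prop) (r : ℝ) (G : Om) : ℝ := by
  classical exact av fun e => if ne G e ∧ r < D G e then 1 else 0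

lemma VV_nonneg (D : Om → HE → ℝ) (G : Om) : 0 ≤ VV D G := av_nonneg fun _ => sq_nonneg _

lemma pp_nonneg (D : Om → HE → ℝ) (r : ℝ) (G : Om) : 0 ≤ pp D r G := by
  classical
  unfold pp
  exact av_nonneg fun _ => by split_ifs <;> norm_num

lemma pne_nonneg (D : Om → HE → ℝ) (ne : Om → HE → Prop) (r : ℝ) (G : Om) :
    0 ≤ pne D ne r G := by
  classical
  unfold pne
  exact av_nonneg fun _ => by split_ifs <;> norm_num


/-- Chebyshev -/
lemma pp_le (D : Om → HE → ℝ) {r : ℝ} (hr : 0 < r) (G : Om) : pp D r G ≤ VV D G / r ^ 2 := by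
  classical
  unfold pp VV
  rw [div_eq_mul_inv, ← av_mul_right]
  apply av_mono
  intro e
  split_ifs with h
  · rw [← div_eq_mul_inv, le_div_iff₀ (by positivity), one_mul]
    exact pow_le_pow_left₀ hr.le h.le 2
  · positivity

/-- the hypotheses of (31.3) at one scale, `κ = 1/(n η) = 1/K` -/
structure Hyp3 (D : Om → HE → ℝ) (sw : Om → HE → M → Om) (valid : Om → HE → M → Prop)
    (ne : Om → HE → Prop) (C r r1 κ : ℝ) : Prop where
  /-- measure preservation on valid moves -/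
  trv : ∀ F : Om → HE → ℝ, (∀ G e, 0 ≤ F G e) → by
    classical exact (∑ G, ∑ e, ∑ m : M, if valid G e m then F (sw G e m) e else 0) =
      ∑ G, ∑ e, ∑ m : M, if valid G e m then F G e else 0
  /-- most moves are valid at a non exceptional centre -/
  many : ∀ G e, ne G e → by
    classical exact (1 / 2 : ℝ) ≤ av fun m : M => if valid G e m then (1 : ℝ) else 0
  /-- valid moves do not change whether the centre is exceptional -/
  neq : ∀ G e m, valid G e m → ne (sw G e m) e → ne G e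
  /-- stability (30.5) -/
  stab : ∀ G e m, valid G e m → |VV D (sw G e m) - VV D G| ≤ C * κ
  /-- quadratic bound for the probability of a bad centre (30.3 + 31.2) -/
  quad : ∀ G e, ne G e → by
    classical exact (av fun m : M => if valid G e m ∧ r < D (sw G e m) e then (1 : ℝ) else 0) ≤
      C * (pp D r1 G + κ) ^ 2

variable [Nonempty Om] [Nonempty HE] [Nonempty M]

open Classical in
/-- Markov: probability that `V` is in `(t, v]` -/
theorem prob_mid {V : Om → ℝ} (hV0 : ∀ G, 0 ≤ V G) {v e1 t : ℝ}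
    (hEV : (av fun G => if V G ≤ v then V G else 0) ≤ e1) (ht : 0 < t) :
    (av fun G => if t < V G ∧ V G ≤ v then (1 : ℝ) else 0) ≤ e1 / t := by
  have h1 : (av fun G => if t < V G ∧ V G ≤ v then (1 : ℝ) else 0) ≤
      av fun G => t⁻¹ * (if V G ≤ v then V G else 0) := by
    apply av_mono; intro G
    by_cases h : t < V G ∧ V G ≤ v
    · rw [if_pos h, if_pos h.2]
      rw [← div_eq_inv_mul, le_div_iff₀ ht, one_mul]
      exact h.1.le
    · rw [if_neg h]
      split_ifs
      · exact mul_nonneg (inv_nonneg.2 ht.le) (hV0 _)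
      · simp
  rw [av_mul_left] at h1
  refine h1.trans ?_
  rw [div_eq_inv_mul]
  exact mul_le_mul_of_nonneg_left hEV (inv_nonneg.2 ht.le)

open Classical in
/-- (31.3): the sharp bound for the fraction of bad non exceptional half edges -/
theorem Epne {D : Om → HE → ℝ} {sw : Om → HE → M → Om} {valid : Om → HE → M → Prop}
    {ne : Om → HE → Prop} {C r r1 κ : ℝ} (H : Hyp3 D sw valid ne C r r1 κ)
    (hC : 0 < C) (hκ : 0 < κ) (hr1 : 0 < r1) {v e1 : ℝ}
    (hEV : (av fun G => if VV D G ≤ v then VV D G else 0) ≤ e1)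
    {t : ℝ} (ht : 0 < t) (htv : 2 * t ≤ v) (htK : C * κ ≤ t) :
    (av fun G => if VV D G ≤ t then pne D ne r G else 0) ≤
      4 * C * (2 * t * e1 / r1 ^ 4 + κ ^ 2) := by
  -- step A: introduce valid moves
  have hA : (av fun G => if VV D G ≤ t then pne D ne r G else 0) ≤
      2 * av fun G => av fun e => av fun m => if valid G e m then
        (if (ne G e ∧ r < D G e) ∧ VV D G ≤ t then (1 : ℝ) else 0) else 0 := by
    rw [← av_mul_left]
    apply av_mono; intro G
    rw [← av_mul_left]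
    by_cases hV : VV D G ≤ t
    · rw [if_pos hV]
      unfold pne
      apply av_mono; intro e
      by_cases h : ne G e ∧ r < D G e
      · rw [if_pos h]
        have hm := H.many G e h.1
        have : (av fun m : M => if valid G e m then
            (if (ne G e ∧ r < D G e) ∧ VV D G ≤ t then (1 : ℝ) else 0) else 0) =
            av fun m : M => if valid G e m then (1 : ℝ) else 0 := by
          congr 1; funext m
          rw [if_pos (show (ne G e ∧ r < D G e) ∧ VV D G ≤ t from ⟨h, hV⟩)]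
        rw [this]
        linarith
      · rw [if_neg h]
        refine mul_nonneg (by norm_num) (av_nonneg fun m => ?_)
        split_ifs <;> norm_num
    · rw [if_neg hV]
      refine av_nonneg fun e => mul_nonneg (by norm_num) (av_nonneg fun m => ?_)
      split_ifs <;> norm_num
  -- step B: transfer
  have hB : (av fun G => av fun e => av fun m => if valid G e m then
        (if (ne G e ∧ r < D G e) ∧ VV D G ≤ t then (1 : ℝ) else 0) else 0) =
      av fun G => av fun e => av fun m => if valid G e m then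
        (if (ne (sw G e m) e ∧ r < D (sw G e m) e) ∧ VV D (sw G e m) ≤ t then (1 : ℝ) else 0)
        else 0 := by
    unfold av
    simp only [← Finset.sum_div]
    congr 3
    have := H.trv (fun G e => if (ne G e ∧ r < D G e) ∧ VV D G ≤ t then (1 : ℝ) else 0)
      (fun G e => by split_ifs <;> norm_num)
    convert this.symm
  -- step C: pointwise bound
  have hC' : (av fun G => av fun e => av fun m => if valid G e m then
        (if (ne (sw G e m) e ∧ r < D (sw G e m) e) ∧ VV D (sw G e m) ≤ t then (1 : ℝ) else 0)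
        else 0) ≤ av fun G => (if VV D G ≤ 2 * t then C * (pp D r1 G + κ) ^ 2 else 0) := by
    apply av_mono; intro G
    by_cases hV : VV D G ≤ 2 * t
    · rw [if_pos hV]
      apply av_le_of_le (by positivity)
      intro e
      by_cases hn : ne G e
      · refine le_trans (av_mono fun m => ?_) (H.quad G e hn)
        by_cases h1 : valid G e m
        · rw [if_pos h1]
          by_cases h2 : r < D (sw G e m) e
          · rw [if_pos (⟨h1, h2⟩ : valid G e m ∧ r < D (sw G e m) e)]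
            split_ifs <;> norm_num
          · rw [if_neg (fun h => h2 h.1.2)]
            split_ifs <;> norm_num
        · rw [if_neg h1]
          split_ifs <;> norm_num
      · have : (av fun m => if valid G e m then
            (if (ne (sw G e m) e ∧ r < D (sw G e m) e) ∧ VV D (sw G e m) ≤ t then (1 : ℝ) else 0)
            else 0) ≤ 0 := by
          apply av_le_of_le le_rfl
          intro m
          by_cases h1 : valid G e m
          · rw [if_pos h1, if_neg]
            intro h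
            exact hn (H.neq G e m h1 h.1.1)
          · rw [if_neg h1]
        exact this.trans (by positivity)
    · rw [if_neg hV]
      apply av_le_of_le le_rfl
      intro e
      apply av_le_of_le le_rfl
      intro m
      by_cases h1 : valid G e m
      · rw [if_pos h1, if_neg]
        intro h
        have hs := H.stab G e m h1
        rw [abs_le] at hs
        have := h.2
        apply hV
        linarith [hs.1]
      · rw [if_neg h1]
  -- step D: bound by `E V^2`
  have hD : (av fun G => (if VV D G ≤ 2 * t then C * (pp D r1 G + κ) ^ 2 else 0)) ≤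
      av fun G => 2 * C * (2 * t / r1 ^ 4 * (if VV D G ≤ v then VV D G else 0) + κ ^ 2) := by
    apply av_mono; intro G
    have hV0 := VV_nonneg D G
    by_cases hV : VV D G ≤ 2 * t
    · rw [if_pos hV, if_pos (hV.trans htv)]
      have h1 := pp_le D hr1 G
      have h2 := pp_nonneg D r1 G
      have h3 : (pp D r1 G + κ) ^ 2 ≤ 2 * (pp D r1 G ^ 2 + κ ^ 2) := by
        nlinarith [sq_nonneg (pp D r1 G - κ)]
      have h4 : pp D r1 G ^ 2 ≤ 2 * t / r1 ^ 4 * VV D G := by
        calc pp D r1 G ^ 2 ≤ (VV D G / r1 ^ 2) ^ 2 := pow_le_pow_left₀ h2 h1 2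
          _ = VV D G * VV D G / r1 ^ 4 := by ring
          _ ≤ (2 * t) * VV D G / r1 ^ 4 := by gcongr
          _ = _ := by ring
      calc C * (pp D r1 G + κ) ^ 2 ≤ C * (2 * (pp D r1 G ^ 2 + κ ^ 2)) := by gcongr
        _ ≤ C * (2 * (2 * t / r1 ^ 4 * VV D G + κ ^ 2)) := by gcongr
        _ = _ := by ring
    · rw [if_neg hV]
      split_ifs
      · positivity
      · positivity
  have hE : (av fun G => 2 * C * (2 * t / r1 ^ 4 * (if VV D G ≤ v then VV D G else 0) +
      κ ^ 2)) = 2 * C * (2 * t / r1 ^ 4 * (av fun G => if VV D G ≤ v then VV D G else 0) +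
      κ ^ 2) := by
    rw [av_mul_left, av_add, av_mul_left, av_const]
  calc (av fun G => if VV D G ≤ t then pne D ne r G else 0) ≤ _ := hA
    _ = _ := by rw [hB]
    _ ≤ _ := mul_le_mul_of_nonneg_left (hC'.trans hD) (by norm_num)
    _ = _ := by rw [hE]
    _ ≤ 2 * (2 * C * (2 * t / r1 ^ 4 * e1 + κ ^ 2)) := by gcongr
    _ = _ := by ring

end main

end Crest.Agent.R166.Clean566
end

-- ▼ part R166/Clean1_566
section

/-!
Row 166, section 31.1 (helper566): `E[V 1_{V ≤ v}] ≤ C κ`, `κ = 1/K`, from the one-step inequality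
(`Multi383.Step`, `s = 0`) and the first order transfer property `TrV` of the moves.
-/

set_option autoImplicit false
set_option linter.unusedSectionVars false

open Finset

namespace Crest.Agent.R166.Clean566

variable {Γ M E : Type*}

/-- first order transfer: `|E[(V - gV) F(V)]| ≤ C ℓ κ` for every `ℓ`-Lipschitz `F` -/
def TrV (Gr : Finset Γ) (V gV : Γ → ℝ) (C κ : ℝ) : Prop :=
  ∀ (F : ℝ → ℝ) (ℓ : ℝ), (∀ x y, |F x - F y| ≤ ℓ * |x - y|) →
    |∑ G ∈ Gr, (V G - gV G) * F (V G)| ≤ C * ℓ * κ * Gr.card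

/-- `TrV` for a move system (Sec269): `V = nuAvg`, `gV = gAvg` -/
theorem trV_of_moves {Gr : Finset Γ} {Mv : Finset M} {Ed : Finset E} {ctr : M → E} {q : ℕ}
    {sw : Γ → M → Γ × M} (h : Sec269.MoveSystem Gr Mv Ed ctr q sw) (hM : Mv.Nonempty)
    (f : Γ → E → ℝ) {B : ℝ} (hf : ∀ p ∈ Gr, ∀ e ∈ Ed, |f p e| ≤ B) {C κ : ℝ}
    (hstab : ∀ p ∈ Gr, ∀ m ∈ Mv, B * |Sec269.nuAvg Ed f (sw p m).1 - Sec269.nuAvg Ed f p| ≤ C * κ) :
    TrV Gr (fun p => Sec269.nuAvg Ed f p) (fun p => Sec269.gAvg Mv ctr sw f p) C κ := by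
  intro F ℓ hF
  have hMpos : (0 : ℝ) < Mv.card := by exact_mod_cast hM.card_pos
  set V := fun p => Sec269.nuAvg Ed f p with hV
  have h1 := Sec269.sum_gAvg_mul h hM f (fun p => F (V p))
  have h2 := Sec269.sum_nuAvg_mul h hM f (fun p => F (V p))
  have h3 : (Mv.card : ℝ) * ∑ p ∈ Gr, (V p - Sec269.gAvg Mv ctr sw f p) * F (V p) =
      ∑ p ∈ Gr, ∑ m ∈ Mv, f p (ctr m) * (F (V p) - F (V (sw p m).1)) := by
    simp only [sub_mul, Finset.sum_sub_distrib, mul_sub]
    rw [← h1, ← h2]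
  have hℓ : ∀ p ∈ Gr, ∀ m ∈ Mv, |f p (ctr m) * (F (V p) - F (V (sw p m).1))| ≤ C * ℓ * κ := by
    intro p hp m hm
    rw [abs_mul]
    have h4 := hF (V p) (V (sw p m).1)
    have h5 := hf p hp _ (h.ctr_mem m hm)
    have h6 := hstab p hp m hm
    have hB : 0 ≤ B := (abs_nonneg _).trans h5
    have hℓ0 : 0 ≤ ℓ := by
      have := hF 0 1
      have h7 := abs_nonneg (F 0 - F 1)
      norm_num at this
      linarith
    calc |f p (ctr m)| * |F (V p) - F (V (sw p m).1)|
        ≤ B * (ℓ * |V p - V (sw p m).1|) := mul_le_mul h5 h4 (abs_nonneg _) hB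
      _ = ℓ * (B * |V (sw p m).1 - V p|) := by rw [abs_sub_comm]; ring
      _ ≤ ℓ * (C * κ) := mul_le_mul_of_nonneg_left h6 hℓ0
      _ = _ := by ring
  have h8 : |(Mv.card : ℝ) * ∑ p ∈ Gr, (V p - Sec269.gAvg Mv ctr sw f p) * F (V p)| ≤
      (Mv.card : ℝ) * (C * ℓ * κ * Gr.card) := by
    rw [h3]
    refine (Finset.abs_sum_le_sum_abs _ _).trans ?_
    calc ∑ p ∈ Gr, |∑ m ∈ Mv, f p (ctr m) * (F (V p) - F (V (sw p m).1))|
        ≤ ∑ p ∈ Gr, (Mv.card : ℝ) * (C * ℓ * κ) := by
          refine Finset.sum_le_sum fun p hp => ?_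
          refine (Finset.abs_sum_le_sum_abs _ _).trans ?_
          rw [← nsmul_eq_mul]
          exact Finset.sum_le_card_nsmul _ _ _ fun m hm => hℓ p hp m hm
      _ = _ := by rw [Finset.sum_const, nsmul_eq_mul]; ring
  rw [abs_mul, abs_of_pos hMpos] at h8
  exact le_of_mul_le_mul_left h8 hMpos

lemma cut_lip {v : ℝ} (hv : 0 < v) (x y : ℝ) : |cut v x - cut v y| ≤ 1 / v * |x - y| := by
  rw [abs_le]
  have h1 := cut_le_add (x := x) (y := y) hv
  have h2 := cut_le_add (x := y) (y := x) hv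
  rw [abs_sub_comm y x] at h2
  have h3 : |x - y| / v = 1 / v * |x - y| := by ring
  rw [h3] at h1 h2
  constructor <;> linarith

/-- the constant in (31.1) -/
noncomputable def e1c (θ C c v : ℝ) : ℝ :=
  2 / (1 - θ) * (C * (1 + 4 * C ^ 2 / c ^ 2) * (1 + C) + 4 * C ^ 2 / c ^ 2 + C / v)

lemma e1c_pos {θ C c v : ℝ} (hθ : θ < 1) (hC : 0 < C) (hc : 0 < c) (hv : 0 < v) :
    0 < e1c θ C c v := by
  unfold e1c
  have : 0 < 1 - θ := by linarith
  positivity

/-- **(31.1)** -/
theorem EV_of_step {Gr : Finset Γ} {V gV : Γ → ℝ} {μ gμ : Γ → ℂ} {err : Γ → ℝ} {a : ℂ}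
    {C c θ κ : ℝ} (h : Multi383.Step Gr V gV μ gμ err a C c θ κ 0) (htr : TrV Gr V gV C κ)
    (hθ : θ < 1) (hC : 0 < C) (hc : 0 < c) (hκ : 0 < κ) (herr0 : ∀ G, 0 ≤ err G)
    (herr : ∑ G ∈ Gr, err G ≤ C * κ * Gr.card) {v : ℝ} (hv : 0 < v)
    (hv1 : 2 * (C * (1 + 4 * C ^ 2 / c ^ 2)) * v ≤ (1 - θ) / 2) :
    ∑ G ∈ Gr, (if V G ≤ v then V G else 0) ≤ e1c θ C c v * κ * Gr.card := by
  set A : ℝ := C * (1 + 4 * C ^ 2 / c ^ 2) with hA
  have hA0 : 0 < A := by positivity
  set S : ℝ := ∑ G ∈ Gr, V G * cut v (V G) with hS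
  have h1 : ∑ G ∈ Gr, (if V G ≤ v then V G else 0) ≤ S := by
    refine Finset.sum_le_sum fun G hG => ?_
    split_ifs with hle
    · rw [cut_eq_one hv hle, mul_one]
    · exact mul_nonneg (h.nonneg G hG) (cut_nonneg _ _)
  have h2 := htr (cut v) (1 / v) (cut_lip hv)
  have h3 : S ≤ ∑ G ∈ Gr, gV G * cut v (V G) + C * (1 / v) * κ * Gr.card := by
    have h4 := (abs_le.1 h2).2
    have h5 : ∑ G ∈ Gr, (V G - gV G) * cut v (V G) = S - ∑ G ∈ Gr, gV G * cut v (V G) := by
      rw [hS, ← Finset.sum_sub_distrib]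
      refine Finset.sum_congr rfl fun G _ => by ring
    rw [h5] at h4
    linarith
  have h6 : ∀ G ∈ Gr, gV G * cut v (V G) ≤ (θ + 2 * A * v) * (V G * cut v (V G)) +
      (A * κ + A * err G + 4 * C / c ^ 2 * ‖μ G - gμ G‖ ^ 2) := by
    intro G hG
    have hV := h.nonneg G hG
    have hc0 := cut_nonneg v (V G)
    have hc1 := cut_le_one v (V G)
    have he := herr0 G
    have h7 := h.one G hG
    have h8 := h.mean_sq hc (by linarith) hG
    have h9 : gV G ≤ θ * V G + A * V G ^ 2 +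
        (A * κ + A * err G + 4 * C / c ^ 2 * ‖μ G - gμ G‖ ^ 2) := by
      calc gV G ≤ θ * V G + C * (‖μ G‖ ^ 2 + V G ^ 2 + (κ + err G) + 0 ^ 2) := h7
        _ ≤ θ * V G + C * (4 / c ^ 2 * (‖μ G - gμ G‖ ^ 2 + C ^ 2 *
            (V G ^ 2 + 0 ^ 2 + (κ + err G))) + V G ^ 2 + (κ + err G) + 0 ^ 2) := by gcongr
        _ = _ := by rw [hA]; ring
    have h10 : cut v (V G) * V G ^ 2 ≤ 2 * v * (V G * cut v (V G)) := by
      rcases le_or_gt (V G) (2 * v) with hh | hh
      · nlinarith [mul_nonneg hc0 hV, mul_nonneg (mul_nonneg hc0 hV) (sub_nonneg.2 hh)]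
      · rw [cut_eq_zero hv hh.le]; simp
    have hR : 0 ≤ A * κ + A * err G + 4 * C / c ^ 2 * ‖μ G - gμ G‖ ^ 2 := by positivity
    calc gV G * cut v (V G) ≤ (θ * V G + A * V G ^ 2 +
        (A * κ + A * err G + 4 * C / c ^ 2 * ‖μ G - gμ G‖ ^ 2)) * cut v (V G) :=
          mul_le_mul_of_nonneg_right h9 hc0
      _ = θ * (V G * cut v (V G)) + A * (cut v (V G) * V G ^ 2) +
        (A * κ + A * err G + 4 * C / c ^ 2 * ‖μ G - gμ G‖ ^ 2) * cut v (V G) := by ring
      _ ≤ θ * (V G * cut v (V G)) + A * (2 * v * (V G * cut v (V G))) +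
        (A * κ + A * err G + 4 * C / c ^ 2 * ‖μ G - gμ G‖ ^ 2) * 1 := by gcongr
      _ = _ := by ring
  have h11 : ∑ G ∈ Gr, gV G * cut v (V G) ≤ (θ + 2 * A * v) * S +
      (A * κ * Gr.card + A * (C * κ * Gr.card) + 4 * C / c ^ 2 * (C * κ * Gr.card)) := by
    refine (Finset.sum_le_sum h6).trans ?_
    rw [Finset.sum_add_distrib, ← Finset.mul_sum, Finset.sum_add_distrib, Finset.sum_add_distrib,
      Finset.sum_const, nsmul_eq_mul, ← Finset.mul_sum, ← Finset.mul_sum]
    have h12 := h.sm2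
    have h13 : 0 ≤ 4 * C / c ^ 2 := by positivity
    have h14 : A * ∑ G ∈ Gr, err G ≤ A * (C * κ * Gr.card) := by gcongr
    have h15 : 4 * C / c ^ 2 * ∑ G ∈ Gr, ‖μ G - gμ G‖ ^ 2 ≤ 4 * C / c ^ 2 * (C * κ * Gr.card) :=
      mul_le_mul_of_nonneg_left h12 h13
    linarith
  have hS0 : 0 ≤ S := Finset.sum_nonneg fun G hG => mul_nonneg (h.nonneg G hG) (cut_nonneg _ _)
  have h16 : (1 - θ) / 2 * S ≤ (A * (1 + C) + 4 * C ^ 2 / c ^ 2 + C / v) * κ * Gr.card := by
    have h17 : (θ + 2 * A * v) * S ≤ (1 - (1 - θ) / 2) * S :=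
      mul_le_mul_of_nonneg_right (by linarith) hS0
    have h18 : S ≤ (1 - (1 - θ) / 2) * S + (A * κ * Gr.card + A * (C * κ * Gr.card) +
        4 * C / c ^ 2 * (C * κ * Gr.card)) + C * (1 / v) * κ * Gr.card := by linarith
    have h19 : (A * κ * Gr.card + A * (C * κ * Gr.card) +
        4 * C / c ^ 2 * (C * κ * Gr.card)) + C * (1 / v) * κ * Gr.card =
        (A * (1 + C) + 4 * C ^ 2 / c ^ 2 + C / v) * κ * Gr.card := by ring
    linarith
  have h20 : 0 < 1 - θ := by linarith
  refine h1.trans ?_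
  have h21 : S = 2 / (1 - θ) * ((1 - θ) / 2 * S) := by field_simp
  rw [h21]
  calc 2 / (1 - θ) * ((1 - θ) / 2 * S) ≤
      2 / (1 - θ) * ((A * (1 + C) + 4 * C ^ 2 / c ^ 2 + C / v) * κ * Gr.card) :=
        mul_le_mul_of_nonneg_left h16 (by positivity)
    _ = _ := by unfold e1c; rw [hA]; ring

end Crest.Agent.R166.Clean566
end

-- ▼ part R166/Clean2_566
section

/-!
Row 166, section 31.3/31.4 (helper566): multiscale event and no mass escape (abstract form).

Scales `K_j = K0 * 2^j`, `j ≤ J`; thresholds `t_j = 1/√K_j`.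
-/

set_option autoImplicit false
set_option linter.unusedSectionVars false

open Finset

namespace Crest.Agent.R166.Clean566

lemma sqrt_two_facts : (0 : ℝ) < (Real.sqrt 2)⁻¹ ∧ (Real.sqrt 2)⁻¹ ≤ 3 / 4 := by
  have h0 : (0 : ℝ) < Real.sqrt 2 := Real.sqrt_pos.2 (by norm_num)
  refine ⟨inv_pos.2 h0, ?_⟩
  rw [inv_le_comm₀ h0 (by norm_num)]
  apply Real.le_sqrt_of_sq_le
  norm_num

/-- `√(K 2^j) = √K √2^j` -/
lemma sqrt_scale {K : ℝ} (hK : 0 < K) (j : ℕ) :
    Real.sqrt (K * 2 ^ j) = Real.sqrt K * Real.sqrt 2 ^ j := by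
  rw [Real.sqrt_mul hK.le]
  congr 1
  rw [← Real.sqrt_sq (by positivity : (0 : ℝ) ≤ Real.sqrt 2 ^ j)]
  congr 1
  rw [← pow_mul, mul_comm, pow_mul, Real.sq_sqrt (by norm_num)]

lemma geom_le (n : ℕ) : ∑ j ∈ range n, ((Real.sqrt 2)⁻¹) ^ j ≤ 4 := by
  obtain ⟨h0, h1⟩ := sqrt_two_facts
  have h2 : ∑ j ∈ range n, ((Real.sqrt 2)⁻¹) ^ j ≤ ∑ j ∈ range n, ((3 / 4 : ℝ)) ^ j :=
    Finset.sum_le_sum fun j _ => pow_le_pow_left₀ h0.le h1 j
  refine h2.trans ?_
  rw [geom_sum_eq (by norm_num)]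
  have h3 : (0 : ℝ) ≤ (3 / 4) ^ n := by positivity
  rw [div_le_iff_of_neg (by norm_num)]
  linarith

section main

variable {Om HE M : Type*} [Fintype Om] [Fintype HE] [Fintype M]
  [Nonempty Om] [Nonempty HE] [Nonempty M]

/-- the constant of (31.3) -/
noncomputable def c2 (C e1 r1 : ℝ) : ℝ := 4 * C * (2 * e1 / r1 ^ 4 + 1)

lemma c2_pos {C e1 r1 : ℝ} (hC : 0 < C) (he : 0 < e1) (hr1 : 0 < r1) : 0 < c2 C e1 r1 := by
  unfold c2
  positivity

/-- the good event: `V ≤ 1/√K_j` at all scales -/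
def Good (D : ℕ → Om → HE → ℝ) (K0 : ℝ) (J : ℕ) (G : Om) : Prop :=
  ∀ j, j ≤ J → VV (D j) G ≤ 1 / Real.sqrt (K0 * 2 ^ j)

open Classical in
/-- probability of the complement of the good event -/
theorem prob_not_good {D : ℕ → Om → HE → ℝ} {K0 : ℝ} {J : ℕ} {v e1 : ℝ} (hK : 0 < K0)
    (he1 : 0 ≤ e1)
    (hEV : ∀ j, j ≤ J → (av fun G => if VV (D j) G ≤ v then VV (D j) G else 0) ≤
      e1 / (K0 * 2 ^ j)) :
    (av fun G => if Good D K0 J G then (0 : ℝ) else 1) ≤
      (av fun G => if ∀ j, j ≤ J → VV (D j) G ≤ v then (0 : ℝ) else 1) +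
        4 * e1 / Real.sqrt K0 := by
  have h1 : (av fun G => if Good D K0 J G then (0 : ℝ) else 1) ≤
      av fun G => ((if ∀ j, j ≤ J → VV (D j) G ≤ v then (0 : ℝ) else 1) +
        ∑ j ∈ range (J + 1), if 1 / Real.sqrt (K0 * 2 ^ j) < VV (D j) G ∧ VV (D j) G ≤ v
          then (1 : ℝ) else 0) := by
    apply av_mono; intro G
    have hs : 0 ≤ ∑ j ∈ range (J + 1), (if 1 / Real.sqrt (K0 * 2 ^ j) < VV (D j) G ∧
        VV (D j) G ≤ v then (1 : ℝ) else 0) :=
      Finset.sum_nonneg fun j _ => by split_ifs <;> norm_num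
    by_cases hg : Good D K0 J G
    · rw [if_pos hg]
      have : (0 : ℝ) ≤ (if ∀ j, j ≤ J → VV (D j) G ≤ v then (0 : ℝ) else 1) := by
        split_ifs <;> norm_num
      linarith
    · rw [if_neg hg]
      by_cases hA : ∀ j, j ≤ J → VV (D j) G ≤ v
      · rw [if_pos hA, zero_add]
        unfold Good at hg
        push Not at hg
        obtain ⟨j, hj, hlt⟩ := hg
        have h2 : (1 : ℝ) ≤ (if 1 / Real.sqrt (K0 * 2 ^ j) < VV (D j) G ∧
            VV (D j) G ≤ v then (1 : ℝ) else 0) := by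
          rw [if_pos ⟨hlt, hA j hj⟩]
        refine h2.trans ?_
        exact Finset.single_le_sum (f := fun j => (if 1 / Real.sqrt (K0 * 2 ^ j) < VV (D j) G ∧
            VV (D j) G ≤ v then (1 : ℝ) else 0)) (fun i _ => by split_ifs <;> norm_num)
            (Finset.mem_range.2 (by omega))
      · rw [if_neg hA]
        linarith
  refine h1.trans ?_
  rw [av_add, av_sum]
  apply add_le_add le_rfl
  have h3 : ∀ j ∈ range (J + 1), (av fun G => if 1 / Real.sqrt (K0 * 2 ^ j) < VV (D j) G ∧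
      VV (D j) G ≤ v then (1 : ℝ) else 0) ≤
      e1 / Real.sqrt K0 * ((Real.sqrt 2)⁻¹) ^ j := by
    intro j hj
    have hj' : j ≤ J := by have := Finset.mem_range.1 hj; omega
    have hKj : 0 < K0 * 2 ^ j := by positivity
    have hs : 0 < Real.sqrt (K0 * 2 ^ j) := Real.sqrt_pos.2 hKj
    have := prob_mid (VV_nonneg (D j)) (hEV j hj') (t := 1 / Real.sqrt (K0 * 2 ^ j))
      (by positivity)
    refine this.trans (le_of_eq ?_)
    rw [div_div]
    have h4 : K0 * 2 ^ j * (1 / Real.sqrt (K0 * 2 ^ j)) = Real.sqrt (K0 * 2 ^ j) := by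
      rw [mul_one_div, div_eq_iff hs.ne', Real.mul_self_sqrt hKj.le]
    rw [h4, sqrt_scale hK, inv_pow]
    have h5 : 0 < Real.sqrt K0 := Real.sqrt_pos.2 hK
    have h6 : 0 < Real.sqrt 2 := Real.sqrt_pos.2 (by norm_num)
    field_simp
  refine (Finset.sum_le_sum h3).trans ?_
  rw [← Finset.mul_sum]
  have h7 : 0 ≤ e1 / Real.sqrt K0 := div_nonneg he1 (Real.sqrt_nonneg _)
  calc e1 / Real.sqrt K0 * ∑ i ∈ range (J + 1), (Real.sqrt 2)⁻¹ ^ i
      ≤ e1 / Real.sqrt K0 * 4 := mul_le_mul_of_nonneg_left (geom_le _) h7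
    _ = _ := by ring

open Classical in
/-- (31.3) at scale `K` in the form `c2 / (K √K)` -/
theorem Epne_scale {D : Om → HE → ℝ} {sw : Om → HE → M → Om} {valid : Om → HE → M → Prop}
    {ne : Om → HE → Prop} {C r r1 K : ℝ} (H : Hyp3 D sw valid ne C r r1 (1 / K))
    (hC : 0 < C) (hr1 : 0 < r1) {v e1 : ℝ} (hv : 0 < v) (he1 : 0 ≤ e1)
    (hEV : (av fun G => if VV D G ≤ v then VV D G else 0) ≤ e1 / K)
    (hK1 : 1 ≤ K) (hK2 : 4 / v ^ 2 ≤ K) (hK3 : C ^ 2 ≤ K) :
    (av fun G => if VV D G ≤ 1 / Real.sqrt K then pne D ne r G else 0) ≤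
      c2 C e1 r1 / (K * Real.sqrt K) := by
  have hK : 0 < K := by linarith
  have hs : 0 < Real.sqrt K := Real.sqrt_pos.2 hK
  have hss : Real.sqrt K * Real.sqrt K = K := Real.mul_self_sqrt hK.le
  have h1 : 2 / v ≤ Real.sqrt K := by
    apply Real.le_sqrt_of_sq_le
    calc (2 / v) ^ 2 = 4 / v ^ 2 := by ring
      _ ≤ K := hK2
  have h2 : C ≤ Real.sqrt K := Real.le_sqrt_of_sq_le hK3
  have h3 : 1 ≤ Real.sqrt K := Real.le_sqrt_of_sq_le (by simpa using hK1)
  have h4 := Epne H hC (by positivity) hr1 hEV (t := 1 / Real.sqrt K) (by positivity)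
    (by rw [mul_one_div, div_le_iff₀ hs]; rw [div_le_iff₀ hv] at h1; linarith)
    (by rw [mul_one_div, div_le_div_iff₀ hK hs, one_mul]
        calc C * Real.sqrt K ≤ Real.sqrt K * Real.sqrt K := by gcongr
          _ = K := hss)
  refine h4.trans ?_
  have h5 : (1 / K) ^ 2 ≤ 1 / (K * Real.sqrt K) := by
    rw [one_div_pow]
    apply one_div_le_one_div_of_le (by positivity)
    rw [sq]
    gcongr
    calc Real.sqrt K = Real.sqrt K * 1 := by ring
      _ ≤ Real.sqrt K * Real.sqrt K := by gcongr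
      _ = K := hss
  calc 4 * C * (2 * (1 / Real.sqrt K) * (e1 / K) / r1 ^ 4 + (1 / K) ^ 2)
      ≤ 4 * C * (2 * (1 / Real.sqrt K) * (e1 / K) / r1 ^ 4 + 1 / (K * Real.sqrt K)) := by gcongr
    _ = c2 C e1 r1 / (K * Real.sqrt K) := by
        unfold c2
        field_simp

/-- dyadic pigeonhole: for `M < q ≤ M 2^(N+1)` there is `j ≤ N` with `M 2^j < q ≤ M 2^(j+1)` -/
lemma dyadic {A q : ℝ} (N : ℕ) (h1 : A < q) (h2 : q ≤ A * 2 ^ (N + 1)) :
    ∃ j, j ≤ N ∧ A * 2 ^ j < q ∧ q ≤ A * 2 ^ (j + 1) := by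
  induction N with
  | zero => exact ⟨0, le_rfl, by simpa using h1, h2⟩
  | succ N ih =>
    by_cases h : q ≤ A * 2 ^ (N + 1)
    · obtain ⟨j, hj, h3, h4⟩ := ih h
      exact ⟨j, by omega, h3, h4⟩
    · exact ⟨N + 1, le_rfl, not_le.1 h, h2⟩

open Classical in
/-- (31.4) no mass escape, abstract form. `q` is `|R_vv|` at the basic scale `K0`; if
`q > M0 2^a 2^j` then the half edge is `r`-bad at the scale `K_{j+a}`. -/
theorem escape {D : ℕ → Om → HE → ℝ} {ne : Om → HE → Prop} {r K0 c : ℝ} {J : ℕ}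
    (hK0 : 0 < K0) (hc : 0 ≤ c)
    (hP : ∀ j, j ≤ J → (av fun G => if VV (D j) G ≤ 1 / Real.sqrt (K0 * 2 ^ j) then
      pne (D j) ne r G else 0) ≤ c / (K0 * 2 ^ j * Real.sqrt (K0 * 2 ^ j)))
    (q : Om → HE → ℝ) {M0 : ℝ} (hM0 : 0 < M0) {a : ℕ} (haJ : a ≤ J)
    (hqm : ∀ G e, q G e ≤ M0 * 2 ^ (J + 1))
    (hbad : ∀ G e j, j + a ≤ J → M0 * 2 ^ (j + a) < q G e → r < D (j + a) G e) :
    (av fun G => if Good D K0 J G then (av fun e => if ne G e ∧ M0 * 2 ^ a < q G e then
      q G e else 0) else 0) ≤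
      8 * M0 * c / (K0 * Real.sqrt K0) * ((Real.sqrt 2)⁻¹) ^ a := by
  -- pointwise bound
  have h1 : (av fun G => if Good D K0 J G then (av fun e => if ne G e ∧ M0 * 2 ^ a < q G e then
      q G e else 0) else 0) ≤
      av fun G => ∑ j ∈ range (J - a + 1), M0 * 2 ^ (j + a + 1) *
        (if VV (D (j + a)) G ≤ 1 / Real.sqrt (K0 * 2 ^ (j + a)) then
          pne (D (j + a)) ne r G else 0) := by
    apply av_mono; intro G
    have hnn : 0 ≤ ∑ j ∈ range (J - a + 1), M0 * 2 ^ (j + a + 1) *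
        (if VV (D (j + a)) G ≤ 1 / Real.sqrt (K0 * 2 ^ (j + a)) then
          pne (D (j + a)) ne r G else 0) := by
      refine Finset.sum_nonneg fun j _ => mul_nonneg (by positivity) ?_
      split_ifs
      · exact pne_nonneg _ _ _ _
      · exact le_rfl
    by_cases hg : Good D K0 J G
    · rw [if_pos hg]
      have h2 : (av fun e => if ne G e ∧ M0 * 2 ^ a < q G e then q G e else 0) ≤
          av fun e => ∑ j ∈ range (J - a + 1), M0 * 2 ^ (j + a + 1) *
            (if ne G e ∧ r < D (j + a) G e then 1 else 0) := by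
        apply av_mono; intro e
        have hnn' : ∀ j ∈ range (J - a + 1), 0 ≤ M0 * 2 ^ (j + a + 1) *
            (if ne G e ∧ r < D (j + a) G e then (1 : ℝ) else 0) := fun j _ =>
          mul_nonneg (by positivity) (by split_ifs <;> norm_num)
        by_cases hc : ne G e ∧ M0 * 2 ^ a < q G e
        · rw [if_pos hc]
          have h3 : q G e ≤ M0 * 2 ^ a * 2 ^ (J - a + 1) := by
            refine (hqm G e).trans (le_of_eq ?_)
            rw [mul_assoc, ← pow_add]
            congr 2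
            omega
          obtain ⟨j, hj, h4, h5⟩ := dyadic (J - a) hc.2 h3
          have h6 : r < D (j + a) G e := by
            apply hbad G e j (by omega)
            calc M0 * 2 ^ (j + a) = M0 * 2 ^ a * 2 ^ j := by ring
              _ < q G e := h4
          have h7 : q G e ≤ M0 * 2 ^ (j + a + 1) *
              (if ne G e ∧ r < D (j + a) G e then (1 : ℝ) else 0) := by
            rw [if_pos ⟨hc.1, h6⟩, mul_one]
            refine h5.trans (le_of_eq ?_)
            ring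
          exact h7.trans (Finset.single_le_sum (f := fun j => M0 * 2 ^ (j + a + 1) *
            (if ne G e ∧ r < D (j + a) G e then (1 : ℝ) else 0)) hnn'
            (Finset.mem_range.2 (by omega)))
        · rw [if_neg hc]
          exact Finset.sum_nonneg hnn'
      refine h2.trans (le_of_eq ?_)
      rw [av_sum]
      refine Finset.sum_congr rfl fun j hj => ?_
      rw [if_pos (hg (j + a) (by have := Finset.mem_range.1 hj; omega)), av_mul_left]
      rfl
    · rw [if_neg hg]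
      exact hnn
  refine h1.trans ?_
  rw [av_sum]
  have h8 : ∀ j ∈ range (J - a + 1), (av fun G : Om => M0 * 2 ^ (j + a + 1) *
        (if VV (D (j + a)) G ≤ 1 / Real.sqrt (K0 * 2 ^ (j + a)) then
          pne (D (j + a)) ne r G else 0)) ≤
      2 * M0 * c / (K0 * Real.sqrt K0) * ((Real.sqrt 2)⁻¹) ^ a *
        ((Real.sqrt 2)⁻¹) ^ j := by
    intro j hj
    have hj' : j + a ≤ J := by have := Finset.mem_range.1 hj; omega
    rw [av_mul_left]
    have h9 := hP (j + a) hj'
    refine (mul_le_mul_of_nonneg_left h9 (by positivity)).trans (le_of_eq ?_)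
    rw [sqrt_scale hK0, inv_pow, inv_pow]
    have h5 : 0 < Real.sqrt K0 := Real.sqrt_pos.2 hK0
    have h6 : 0 < Real.sqrt 2 := Real.sqrt_pos.2 (by norm_num)
    rw [pow_add (Real.sqrt 2) j a, pow_succ (2 : ℝ) (j + a)]
    field_simp
  refine (Finset.sum_le_sum h8).trans ?_
  rw [← Finset.mul_sum]
  have h10 : 0 ≤ 2 * M0 * c / (K0 * Real.sqrt K0) * ((Real.sqrt 2)⁻¹) ^ a := by
    have h0 := sqrt_two_facts.1
    positivity
  calc _ ≤ 2 * M0 * c / (K0 * Real.sqrt K0) * ((Real.sqrt 2)⁻¹) ^ a * 4 :=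
        mul_le_mul_of_nonneg_left (geom_le _) h10
    _ = _ := by ring

end main

end Crest.Agent.R166.Clean566
end

-- ▼ part R166/UI_566

/-!
Row 166, section 31.4 (helper566): uniform integrability of `|R_vv|` over the non exceptional
vertices of the uniform random regular graph (`s = 0`), from the one-scale hypotheses `Clean566.Hyp`
at every scale `K ≤ n` and Theorem A.
-/

set_option autoImplicit false
set_option linter.unusedSectionVars false

open Finset Crest.ProbabilityR.RandomMatrix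

namespace Crest.Agent.R166.Clean566

open Crest.Agent.R166

section ports

variable {n d : ℕ}

lemma av_ports (F : Equiv.Perm (HE n d) → ℝ) :
    av (fun p : {p // p ∈ Ports n d} => F p.1) = (∑ p ∈ Ports n d, F p) / (Ports n d).card := by
  unfold av
  rw [Finset.sum_coe_sort (Ports n d) F, Fintype.card_coe]



/-- `|R_vv|` at the scale `K` at the base vertex of a half-edge -/
noncomputable def qv (E K : ℝ) (p : Equiv.Perm (HE n d)) (h : HE n d) : ℝ :=
  ‖Res (Hm (graphOf p) 0 0) (zz E K n) h.1 h.1‖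

lemma qv_nonneg (E K : ℝ) (p : Equiv.Perm (HE n d)) (h : HE n d) : 0 ≤ qv E K p h :=
  norm_nonneg _

lemma zz_im (E K : ℝ) (n : ℕ) : (zz E K n).im = K / n := by
  unfold zz
  simp

lemma zz_re (E K : ℝ) (n : ℕ) : (zz E K n).re = E := by
  unfold zz
  simp

/-- scale comparison -/
lemma norm_Res_scale {H : Matrix (Fin n) (Fin n) ℝ} (hH : H.transpose = H) (hn : 0 < n)
    {E K K' t : ℝ} (hK : 0 < K) (h1 : K ≤ K') (h2 : K' ≤ t * K) (v : Fin n) :
    ‖Res H (zz E K n) v v‖ ≤ t * ‖Res H (zz E K' n) v v‖ := by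
  have hn' : (0 : ℝ) < n := by exact_mod_cast hn
  have hyp : Res789.Hyp t (zz E K n) (zz E K' n) := by
    apply Res789.hyp_vert
    · rw [zz_im]; positivity
    · rw [zz_re, zz_re]
    · rw [zz_im, zz_im]; gcongr
    · rw [zz_im, zz_im, ← mul_div_assoc]; gcongr
  exact Res789.norm_Res_diag_le hH hyp.symm v

lemma norm_Res_le_div {H : Matrix (Fin n) (Fin n) ℝ} (hH : H.transpose = H) (hn : 0 < n)
    {E K : ℝ} (hK : 0 < K) (v : Fin n) : ‖Res H (zz E K n) v v‖ ≤ n / K := by
  have hn' : (0 : ℝ) < n := by exact_mod_cast hn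
  have hz : 0 < (zz E K n).im := by rw [zz_im]; positivity
  have h1 := Res789.sum_norm_sq_Res hH hz (Pi.single v 1)
  have h2 := (Res789.Res_sieg hH hz).form (Pi.single v 1)
  rw [Res789.star_single_form] at h2
  rw [← h2] at h1
  have h3 : ‖Res789.Res H (zz E K n) v v‖ ^ 2 ≤
      ∑ y, ‖(Matrix.mulVec (Res789.Res H (zz E K n)) (Pi.single v 1)) y‖ ^ 2 := by
    have := Finset.single_le_sum (f := fun y => ‖(Matrix.mulVec (Res789.Res H (zz E K n))
      (Pi.single v 1)) y‖ ^ 2) (fun y _ => sq_nonneg _) (Finset.mem_univ v)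
    simpa using this
  have h4 : (Res789.Res H (zz E K n) v v).im ≤ ‖Res789.Res H (zz E K n) v v‖ :=
    (le_abs_self _).trans (Complex.abs_im_le_norm _)
  set x := ‖Res789.Res H (zz E K n) v v‖ with hx
  have h5 : (zz E K n).im * x ^ 2 ≤ x := by
    calc (zz E K n).im * x ^ 2 ≤ _ := mul_le_mul_of_nonneg_left h3 hz.le
      _ = _ := h1
      _ ≤ x := h4
  have hx0 : 0 ≤ x := norm_nonneg _
  have h6 : (zz E K n).im * x ≤ 1 := by
    rcases hx0.eq_or_lt with h | h
    · rw [← h]; simp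
    · have : (zz E K n).im * x * x ≤ 1 * x := by
        calc _ = (zz E K n).im * x ^ 2 := by ring
          _ ≤ x := h5
          _ = 1 * x := by ring
      exact le_of_mul_le_mul_right this h
  rw [zz_im] at h6
  show x ≤ n / K
  rw [le_div_iff₀ hK]
  rw [div_mul_eq_mul_div, div_le_one hn'] at h6
  linarith

/-! ### good cavity block implies bounded resolvent -/

attribute [local instance] Matrix.linftyOpNormedRing Matrix.linftyOpNormedAlgebra

open Stab269 in
lemma norm_block_le {B : Matrix (Fin 2) (Fin 2) ℂ} (hB : RegB B) {m : ℂ}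
    (hm : 2 * Complex.normSq m ≤ 1)
    (h : bnorm (cavB B - m • (1 : Matrix (Fin 2) (Fin 2) ℂ)) ≤ 1 / 16) (i j : Fin 2) :
    ‖B i j‖ ≤ 8 := by
  set X := cavB B with hX
  set Δ := X - m • (1 : Matrix (Fin 2) (Fin 2) ℂ) with hΔ
  have e2 : (B⁻¹ - W2) * X = 1 := Matrix.mul_nonsing_inv _ hB.det0
  have b1 : B * B⁻¹ = 1 := Matrix.mul_nonsing_inv _ hB.det
  have f2 : B * (1 + W2 * X) = X := by
    have h1 : 1 + W2 * X = B⁻¹ * X := by
      rw [sub_mul] at e2
      rw [← e2]; abel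
    rw [h1, ← mul_assoc, b1, one_mul]
  have hWW : W2 * W2 = 1 := by
    ext i j
    fin_cases i <;> fin_cases j <;> simp [W2, Matrix.mul_apply, Fin.sum_univ_two]
  have hXe : X = m • (1 : Matrix (Fin 2) (Fin 2) ℂ) + Δ := by rw [hΔ]; abel
  have h3 : B * (1 + m • W2) = X - B * W2 * Δ := by
    have h4 : 1 + W2 * X = 1 + m • W2 + W2 * Δ := by
      rw [hXe, mul_add, Matrix.mul_smul, mul_one]; abel
    rw [h4, mul_add] at f2
    rw [← f2, ← mul_assoc]
    abel
  have h5 : (1 + m • W2) * (1 - m • W2) = (1 - m ^ 2) • (1 : Matrix (Fin 2) (Fin 2) ℂ) := by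
    have h51 : (1 + m • W2) * (1 - m • W2) = 1 - m ^ 2 • (W2 * W2) := by
      simp only [mul_sub, add_mul, one_mul, mul_one, Matrix.smul_mul, Matrix.mul_smul, smul_smul,
        sq]
      abel
    rw [h51, hWW, sub_smul, one_smul]
  have h6 : (1 - m ^ 2) • B = (X - B * W2 * Δ) * (1 - m • W2) := by
    rw [← h3, mul_assoc, h5, Matrix.mul_smul, mul_one]
  have hn1 : ‖(1 : Matrix (Fin 2) (Fin 2) ℂ)‖ = 1 := norm_one
  have hΔn : ‖Δ‖ ≤ 1 / 8 := by
    have h7 := norm_le_of_entries (A := Δ) (c := 1 / 16) (fun i j =>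
      (by
        have h8 : ‖Δ i j‖ ≤ bnorm Δ := by
          unfold bnorm
          fin_cases i <;> fin_cases j <;> simp
        exact h8.trans h))
    linarith
  have hXn : ‖X‖ ≤ ‖m‖ + 1 / 8 := by
    rw [hXe]
    refine (norm_add_le _ _).trans ?_
    have h7 : ‖m • (1 : Matrix (Fin 2) (Fin 2) ℂ)‖ ≤ ‖m‖ := by
      rw [norm_smul, hn1, mul_one]
    linarith
  have hmn : ‖m‖ ^ 2 ≤ 1 / 2 := by
    rw [Complex.normSq_eq_norm_sq] at hm; linarith
  have hm0 := norm_nonneg m
  have hm1 : ‖m‖ ≤ 71 / 100 := by nlinarith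
  have hlow : (1 - ‖m‖) * (1 + ‖m‖) ≤ ‖(1 : ℂ) - m ^ 2‖ := by
    have h8 := norm_sub_norm_le (1 : ℂ) (m ^ 2)
    rw [norm_one, norm_pow] at h8
    nlinarith
  have h9 : ‖(1 : ℂ) - m ^ 2‖ * ‖B‖ ≤ (‖X‖ + ‖B‖ * (1 / 8)) * (1 + ‖m‖) := by
    rw [← norm_smul, h6]
    refine (norm_mul_le _ _).trans ?_
    have h10 : ‖X - B * W2 * Δ‖ ≤ ‖X‖ + ‖B‖ * (1 / 8) := by
      refine (norm_sub_le _ _).trans ?_
      have h11 : ‖B * W2 * Δ‖ ≤ ‖B‖ * (1 / 8) := by
        refine (norm_mul_le _ _).trans ?_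
        have h12 : ‖B * W2‖ ≤ ‖B‖ * 1 :=
          (norm_mul_le _ _).trans (mul_le_mul_of_nonneg_left norm_W2_le (norm_nonneg _))
        rw [mul_one] at h12
        exact mul_le_mul h12 hΔn (norm_nonneg _) (norm_nonneg _)
      linarith
    have h13 : ‖1 - m • W2‖ ≤ 1 + ‖m‖ := by
      refine (norm_sub_le _ _).trans ?_
      rw [hn1, norm_smul]
      have := mul_le_mul_of_nonneg_left norm_W2_le hm0
      linarith
    exact mul_le_mul h10 h13 (norm_nonneg _) (by positivity)
  have hB0 := norm_nonneg B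
  have h14 : (1 - ‖m‖) * ‖B‖ ≤ ‖X‖ + ‖B‖ * (1 / 8) := by
    have h15 : (1 - ‖m‖) * ‖B‖ * (1 + ‖m‖) ≤ (‖X‖ + ‖B‖ * (1 / 8)) * (1 + ‖m‖) := by
      calc (1 - ‖m‖) * ‖B‖ * (1 + ‖m‖) = (1 - ‖m‖) * (1 + ‖m‖) * ‖B‖ := by ring
        _ ≤ ‖(1 : ℂ) - m ^ 2‖ * ‖B‖ := mul_le_mul_of_nonneg_right hlow hB0
        _ ≤ _ := h9
    exact le_of_mul_le_mul_right h15 (by linarith)
  have h16 : ‖B‖ ≤ 8 := by nlinarith
  exact (entry_le_norm B i j).trans h16

/-- a good half-edge has a bounded resolvent entry -/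
lemma qv_le_of_dev {p : Equiv.Perm (HE n d)} (hp : IsPort p) (hd : 3 ≤ d) (hn : 0 < n) {E K : ℝ}
    (hK : 0 < K) {h : HE n d} (hD : SpecA.dev p 0 0 (zz E K n) h ≤ 1 / 16) : qv E K p h ≤ 8 := by
  have hn' : (0 : ℝ) < n := by exact_mod_cast hn
  have hz : 0 < (zz E K n).im := by rw [zz_im]; positivity
  have hm := (Root355.mc_isRoot (d := d) (by omega) hz).b_normSq_le hz.le
  have hd' : (3 : ℝ) ≤ d := by exact_mod_cast hd
  have hm2 : 2 * Complex.normSq (mc d (zz E K n)) ≤ 1 := by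
    have h0 := Complex.normSq_nonneg (mc d (zz E K n))
    nlinarith
  have := norm_block_le (Stab269.regB_BE hp 0 0 hz h) hm2 hD 0 0
  simpa [Stab269.BE, Blk, qv] using this

open Classical in
/-- (31.4) at fixed `n` -/
theorem base_fixed (hn : 0 < n) (hd : 0 < d) {E K0 : ℝ}
    {D : ℝ → Equiv.Perm (HE n d) → HE n d → ℝ} {ne : Equiv.Perm (HE n d) → HE n d → Prop}
    {r M0 v e1 c : ℝ}
    (hne : (Ports n d).Nonempty)
    (hR : ∀ K p h, K0 ≤ K → IsPort p → D K p h ≤ r → qv E K p h ≤ M0) (hM0 : 1 ≤ M0)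
    (hK0 : 0 < K0) (he1 : 0 ≤ e1) (hc : 0 ≤ c)
    (hEV : ∀ K, K0 ≤ K → K ≤ n → (av fun p : {p // p ∈ Ports n d} =>
      if VV (fun p : {p // p ∈ Ports n d} => D K p.1) p ≤ v then
        VV (fun p : {p // p ∈ Ports n d} => D K p.1) p else 0) ≤ e1 / K)
    (hP : ∀ K, K0 ≤ K → K ≤ n → (av fun p : {p // p ∈ Ports n d} =>
      if VV (fun p : {p // p ∈ Ports n d} => D K p.1) p ≤ 1 / Real.sqrt K then
        pne (fun p : {p // p ∈ Ports n d} => D K p.1) (fun p => ne p.1) r p else 0) ≤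
        c / (K * Real.sqrt K))
    (a : ℕ) (ha : K0 * 2 ^ a ≤ n) {ε : ℝ} (hε : 0 < ε) :
    (av fun p : {p // p ∈ Ports n d} => if ε < (av fun h => if ne p.1 h ∧
        M0 * 2 ^ a < qv E K0 p.1 h then qv E K0 p.1 h else 0) then (1 : ℝ) else 0) ≤
      (av fun p : {p // p ∈ Ports n d} => if ∀ K, K0 ≤ K → K ≤ n →
        VV (fun p : {p // p ∈ Ports n d} => D K p.1) p ≤ v then (0 : ℝ) else 1) +
      4 * e1 / Real.sqrt K0 +
      8 * M0 * c / (K0 * Real.sqrt K0) * ((Real.sqrt 2)⁻¹) ^ a / ε := by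
  have : Nonempty {p // p ∈ Ports n d} := hne.to_subtype
  have : Nonempty (HE n d) := ⟨(⟨0, hn⟩, ⟨0, hd⟩)⟩
  have hn' : (0 : ℝ) < n := by exact_mod_cast hn
  -- the number of scales
  have hx1 : (1 : ℝ) ≤ n / K0 := by
    rw [le_div_iff₀ hK0, one_mul]
    have : (1 : ℝ) ≤ 2 ^ a := one_le_pow₀ (by norm_num)
    nlinarith
  obtain ⟨J, hJ1, hJ2⟩ := exists_nat_pow_near hx1 (by norm_num : (1 : ℝ) < 2)
  have haJ : a ≤ J := by
    by_contra hcon
    push Not at hcon
    have h1 : (2 : ℝ) ^ (J + 1) ≤ 2 ^ a := pow_le_pow_right₀ (by norm_num) (by omega)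
    have h2 : (2 : ℝ) ^ a ≤ n / K0 := by
      rw [le_div_iff₀ hK0, mul_comm]; exact ha
    linarith
  have hscale : ∀ j, j ≤ J → K0 * 2 ^ j ≤ n := by
    intro j hj
    have h1 : (2 : ℝ) ^ j ≤ 2 ^ J := pow_le_pow_right₀ (by norm_num) hj
    have h2 : (2 : ℝ) ^ j ≤ n / K0 := h1.trans hJ1
    rw [le_div_iff₀ hK0] at h2
    linarith
  have hge : ∀ j : ℕ, K0 ≤ K0 * 2 ^ j := by
    intro j
    have : (1 : ℝ) ≤ 2 ^ j := one_le_pow₀ (by norm_num)
    nlinarith
  set DD : ℕ → {p // p ∈ Ports n d} → HE n d → ℝ := fun j p => D (K0 * 2 ^ j) p.1 with hDD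
  have hesc := escape (D := DD) (ne := fun p : {p // p ∈ Ports n d} => ne p.1) (J := J) hK0 hc
    (fun j hj => hP _ (hge j) (hscale j hj))
    (fun p h => qv E K0 p.1 h) (M0 := M0) (by linarith) haJ
    (by
      intro p h
      have hp := mem_Ports.1 p.2
      have h1 : qv E K0 p.1 h ≤ n / K0 :=
        norm_Res_le_div (Stab269.Hm_symm _ _ _) hn hK0 h.1
      have h2 : (n : ℝ) / K0 ≤ 2 ^ (J + 1) := hJ2.le
      have h3 : (0 : ℝ) < 2 ^ (J + 1) := by positivity
      nlinarith)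
    (by
      intro p h j hj hlt
      by_contra hcon
      push Not at hcon
      have hp := mem_Ports.1 p.2
      have h1 := hR (K0 * 2 ^ (j + a)) p.1 h (hge _) hp hcon
      have h2 : qv E K0 p.1 h ≤ 2 ^ (j + a) * qv E (K0 * 2 ^ (j + a)) p.1 h :=
        norm_Res_scale (Stab269.Hm_symm _ _ _) hn hK0 (hge _) (le_of_eq (mul_comm _ _)) h.1
      have h3 : (0 : ℝ) < 2 ^ (j + a) := by positivity
      nlinarith)
  have hgood := prob_not_good (D := DD) (J := J) hK0 he1
    (fun j hj => hEV _ (hge j) (hscale j hj))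
  -- Markov
  have hM : (av fun p : {p // p ∈ Ports n d} => if ε < (av fun h => if ne p.1 h ∧
        M0 * 2 ^ a < qv E K0 p.1 h then qv E K0 p.1 h else 0) then (1 : ℝ) else 0) ≤
      (av fun p : {p // p ∈ Ports n d} => (if Good DD K0 J p then (0 : ℝ) else 1)) +
      (av fun p : {p // p ∈ Ports n d} => if Good DD K0 J p then (av fun h => if ne p.1 h ∧
        M0 * 2 ^ a < qv E K0 p.1 h then qv E K0 p.1 h else 0) else 0) / ε := by
    rw [div_eq_mul_inv, ← av_mul_right, ← av_add]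
    apply av_mono
    intro p
    have hnn : 0 ≤ (av fun h => if ne p.1 h ∧
        M0 * 2 ^ a < qv E K0 p.1 h then qv E K0 p.1 h else 0) :=
      av_nonneg fun h => by
        split_ifs
        · exact qv_nonneg _ _ _ _
        · exact le_rfl
    by_cases hg : Good DD K0 J p
    · rw [if_pos hg, if_pos hg, zero_add]
      split_ifs with h
      · rw [← div_eq_mul_inv, le_div_iff₀ hε, one_mul]
        exact h.le
      · exact mul_nonneg hnn (inv_nonneg.2 hε.le)
    · rw [if_neg hg, if_neg hg, zero_mul, add_zero]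
      split_ifs <;> norm_num
  refine hM.trans ?_
  have h1 : (av fun p : {p // p ∈ Ports n d} => if ∀ j, j ≤ J → VV (DD j) p ≤ v then (0 : ℝ)
      else 1) ≤ (av fun p : {p // p ∈ Ports n d} => if ∀ K, K0 ≤ K → K ≤ n →
        VV (fun p : {p // p ∈ Ports n d} => D K p.1) p ≤ v then (0 : ℝ) else 1) := by
    apply av_mono
    intro p
    by_cases h : ∀ K, K0 ≤ K → K ≤ n → VV (fun p : {p // p ∈ Ports n d} => D K p.1) p ≤ v
    · rw [if_pos h, if_pos]
      intro j hj
      exact h _ (hge j) (hscale j hj)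
    · rw [if_neg h]
      split_ifs <;> norm_num
  have h2 : (av fun p : {p // p ∈ Ports n d} => if Good DD K0 J p then (av fun h => if ne p.1 h ∧
        M0 * 2 ^ a < qv E K0 p.1 h then qv E K0 p.1 h else 0) else 0) / ε ≤
      8 * M0 * c / (K0 * Real.sqrt K0) * ((Real.sqrt 2)⁻¹) ^ a / ε :=
    div_le_div_of_nonneg_right hesc hε.le
  linarith

end ports

end Crest.Agent.R166.Clean566
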