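import Crest.Agent.R166.CleanOut2_501
import Crest.Agent.R166.McClean_797
import Crest.Agent.R166.BlkLaw0_355
import Crest.Agent.R166.UI_566
import Crest.Agent.R166.BridgeEL_501
import Crest.Agent.R166.ThmA_383
import Crest.Agent.R166.Spec31_501
import Crest.Agent.R166.H1_811
import Crest.Agent.R166.SwP3_470
import Crest.Agent.R166.SwInv_356
import Crest.Agent.R166.ShapeT_598
import Crest.Agent.R166.GoodE_789
import Crest.Agent.R166.H2a_269
import Crest.Agent.R166.TreeB_327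
import Crest.Agent.R166.TreeDet_350
import Crest.Agent.R166.SwP2_470

-- ▼ part R166/CleanOut3_501
section

/-!
Row 166, section 31 (helper501): final form of the outputs of the clean case and the transfer from
port-numbered graphs to graphs.
-/

set_option autoImplicit false

namespace Crest.Agent.R166.Out501

open Finset Classical MeasureTheory Crest.ProbabilityR.RandomMatrix Crest.Agent.R166
open Crest.Agent.R166.Exc501 (bl nb EL NM)

noncomputable section

theorem cleanFacts {d : ℕ} (hd : 3 ≤ d) {E : ℝ} (hE : E ^ 2 < 4 * ((d : ℝ) - 1)) :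
    CleanFacts d E (kestenMcKayDensity d E) where
  cont := by
    intro δ hδ
    have h := McClean797.tendsto_bnorm_Bclean hd hE
    have h1 := (Metric.tendsto_nhds.1 h) δ hδ
    rw [eventually_nhdsWithin_iff, Metric.eventually_nhds_iff] at h1
    obtain ⟨ε, hε, h2⟩ := h1
    refine ⟨ε / 2, by positivity, fun η hη hηε => ?_⟩
    have h3 := h2 (y := η) (by
      rw [Real.dist_eq, sub_zero, abs_of_pos hη]; linarith) hη
    rw [Real.dist_eq, sub_zero] at h3
    exact (le_abs_self _).trans h3.le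
  im := McClean797.Bclean_im_real hd hE
  pd := by
    have h1 := McClean797.mc_root hd (McClean797.dom_real hE)
    refine ⟨(mc d (E : ℂ)).im / 4, by have := h1.im_pos; positivity, fun x => ?_⟩
    exact McClean797.quad_ge hd (McClean797.dom_real hE) x

/-- transfer of fractions from port-numbered graphs to graphs -/
theorem fracLe_of_ports {n d : ℕ} {ε : ℝ} {Q : SimpleGraph (Fin n) → Prop}
    (h : (((Ports n d).filter fun p => ¬ Q (graphOf p)).card : ℝ) ≤ ε * (Ports n d).card) :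
    FracLe n d ε Q := by
  unfold FracLe
  have hpos : (0:ℝ) < ((d.factorial ^ n : ℕ) : ℝ) := by
    exact_mod_cast pow_pos (Nat.factorial_pos d) n
  have h1 : (((Ports n d).filter fun p => ¬ Q (graphOf p)).card : ℝ) =
      ((d.factorial ^ n : ℕ) : ℝ) * (((regularGraphs n d).filter fun G => ¬ Q G).card : ℝ) := by
    have h2 := sum_Ports (n := n) (d := d) (fun G => if ¬ Q G then (1:ℝ) else 0)
    rw [← Finset.sum_filter, ← Finset.sum_filter, Finset.sum_const, Finset.sum_const] at h2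
    simpa only [nsmul_eq_mul, mul_one] using h2
  have h3 : ((Ports n d).card : ℝ) =
      ((d.factorial ^ n : ℕ) : ℝ) * ((regularGraphs n d).card : ℝ) := by
    rw [card_Ports]; push_cast; rfl
  rw [h1, h3] at h
  have h4 : ((d.factorial ^ n : ℕ) : ℝ) * (((regularGraphs n d).filter fun G => ¬ Q G).card : ℝ) ≤
      ((d.factorial ^ n : ℕ) : ℝ) * (ε * ((regularGraphs n d).card : ℝ)) := by
    linarith
  exact le_of_mul_le_mul_left h4 hpos

/-- output of 31.4 on port-numbered graphs. -/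
def UIp (d : ℕ) (E : ℝ) : Prop :=
  ∃ L : ℕ, ∀ κ : ℝ, 0 < κ → ∀ ε : ℝ, 0 < ε → ∃ M : ℝ, ∀ K : ℝ, κ ≤ K → ∃ N : ℕ, ∀ n : ℕ, N ≤ n →
    (((Ports n d).filter fun p => ε < tailT (graphOf p) E K M L).card : ℝ) ≤ ε * (Ports n d).card

theorem ui0_of_uip {d : ℕ} {E : ℝ} (h : UIp d E) : UI0 d E := by
  obtain ⟨L, hL⟩ := h
  refine ⟨L, fun κ hκ ε hε => ?_⟩
  obtain ⟨M, hM⟩ := hL κ hκ ε hε
  refine ⟨M, fun K hK => ?_⟩
  obtain ⟨N, hN⟩ := hM K hK
  refine ⟨N, fun n hn _ => fracLe_of_ports ?_⟩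
  refine le_trans (le_of_eq ?_) (hN n hn)
  congr 2
  apply Finset.filter_congr
  intro p _
  exact not_le

/-- **Outputs of the clean case** from Theorem A (block law) and 31.4. -/
theorem clean_outputs {d : ℕ} (hd : 3 ≤ d) {E : ℝ} (hE : E ^ 2 < 4 * ((d : ℝ) - 1))
    (hB : BlkLaw0 d E) (hU : UIp d E) :
    ImLim d 0 E (kestenMcKayDensity d E) ∧ ImFix d 0 E (kestenMcKayDensity d E) ∧
      LocLim d 0 E ∧ NoEsc d 0 E ∧ NonDeg d 0 E ∧ ∀ r : ℝ, 0 < r → NearClean d 0 E r := by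
  have hF := cleanFacts hd hE
  have hUI := uif_of_ui0 hd (ui0_of_uip hU)
  exact ⟨imLim_clean (by omega) hB hUI hF, imFix_clean (by omega) hB hF, locLim_clean hB hF,
    noEsc_of_uif hUI, nonDeg_clean hB hF, fun r hr => nearClean_clean hB hF hr⟩

end

end Crest.Agent.R166.Out501
end

-- ▼ part R166/BlkLaw1_355
section

/-!
# R166, section 31 (helper355): `ThmA d → Out501.BlkLaw0 d E`
-/

set_option autoImplicit false

namespace Crest.Agent.R166.BlkLaw355

open Crest.Agent.R166 Crest.ProbabilityR.RandomMatrix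

theorem out_blkLaw0 {d : ℕ} (hd : 3 ≤ d) (h : SpecA.ThmA d) {E : ℝ}
    (hE : E ^ 2 < 4 * ((d : ℝ) - 1)) : Out501.BlkLaw0 d E := by
  classical
  intro δ hδ
  obtain ⟨K0, hK0, H⟩ := blkLaw0_of_thmA hd h hE δ hδ
  obtain ⟨N, H⟩ := H K0 le_rfl
  refine ⟨K0, hK0, N, fun n hn _ => ?_⟩
  have h1 := H n hn (fun _ => 0)
  unfold Out501.FracLe
  refine le_trans ?_ h1
  refine Nat.cast_le.2 (Finset.card_le_card ?_)
  intro G hG
  rw [Finset.mem_filter] at hG ⊢
  obtain ⟨hG, hbad⟩ := hG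
  push Not at hbad
  obtain ⟨η, h2, h3, h4⟩ := hbad
  refine ⟨hG, η, h2, h3, h4.trans_le ?_⟩
  unfold Out501.farI
  refine le_of_eq ?_
  congr 1
  funext u w
  have hA : Hm G 0 (fun _ => 0) = Out501.A0 G := rfl
  rw [hA]
  by_cases hc : bnorm (Blk (Res (Out501.A0 G) (ze E η)) u w - Bclean d (ze E η)) ≤ δ
  · rw [if_pos hc, if_neg (not_lt.2 hc)]
  · rw [if_neg hc, if_pos (not_le.1 hc)]

end Crest.Agent.R166.BlkLaw355
end

-- ▼ part R166/UIfin_566
section

/-!
Row 166, section 31.4 (helper566): final form. From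
* `Step0` (one step inequality 30.4-30.6 at `s = 0` plus first order transfer `TrV`),
* `SpecA.ThmA` (Theorem A),
* `Quad0` (30.3 + 31.2: quadratic bound for the probability of a bad centre)
we get `UniEsc` (uniform integrability of `|R_vv|` over the non exceptional vertices, uniformly in
the scale `K ≥ κ`), hence `SpecA.NoEscNe`.
-/

set_option autoImplicit false
set_option linter.unusedSectionVars false

open Finset Crest.ProbabilityR.RandomMatrix

namespace Crest.Agent.R166.Clean566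

open Crest.Agent.R166



open Classical in
/-- uniform integrability of `|R_vv|` on the non exceptional vertices, uniformly in `K ≥ κ` -/
def UniEsc (d : ℕ) (E : ℝ) (exc : ∀ n : ℕ, Equiv.Perm (HE n d) → Fin n → Prop) : Prop :=
  ∀ κ : ℝ, 0 < κ → ∀ ε : ℝ, 0 < ε → ∃ M : ℝ, ∀ K : ℝ, κ ≤ K → ∃ N : ℕ, ∀ n : ℕ, N ≤ n →
    (((Ports n d).filter fun p => ε < vAvg (fun v : Fin n =>
      if ¬ exc n p v ∧ M < ‖Res (Hm (graphOf p) 0 0) (zz E K n) v v‖ then
        ‖Res (Hm (graphOf p) 0 0) (zz E K n) v v‖ else 0)).card : ℝ) ≤ ε * (Ports n d).card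


lemma Vp_eq_VV {n d : ℕ} (rs : ℝ) (z : ℂ) (p : {p // p ∈ Ports n d}) :
    SpecA.Vp rs p.1 0 0 z = VV (fun p : {p // p ∈ Ports n d} => fun h =>
      SpecA.Dv rs p.1 0 0 z h) p := by
  unfold SpecA.Vp VV av
  rw [Fintype.card_prod, Fintype.card_fin, Fintype.card_fin]

lemma ze_eq_zz (E K : ℝ) (n : ℕ) : ze E (K / n) = zz E K n := rfl

lemma min_le_max_mul {a b x : ℝ} (ha : 0 < a) (hb : 0 < b) (hx : 0 ≤ x) :
    min a x ≤ max 1 (a / b) * min b x := by
  have h1 : (1 : ℝ) ≤ max 1 (a / b) := le_max_left _ _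
  rcases le_total b x with h | h
  · rw [min_eq_left h]
    refine (min_le_left _ _).trans ?_
    calc a = a / b * b := by field_simp
      _ ≤ max 1 (a / b) * b := by gcongr; exact le_max_right _ _
  · rw [min_eq_right h]
    refine (min_le_right _ _).trans ?_
    nlinarith

lemma bnorm_nonneg (B : Matrix (Fin 2) (Fin 2) ℂ) : 0 ≤ bnorm B := by
  unfold bnorm
  exact (norm_nonneg _).trans ((le_max_left _ _).trans (le_max_left _ _))

lemma Vp_le_mul {n d : ℕ} {rs rs' : ℝ} (h : 0 < rs) (h' : 0 < rs') (p : Equiv.Perm (HE n d))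
    (z : ℂ) : SpecA.Vp rs p 0 0 z ≤ (max 1 (rs / rs')) ^ 2 * SpecA.Vp rs' p 0 0 z := by
  unfold SpecA.Vp
  rw [← mul_div_assoc]
  apply div_le_div_of_nonneg_right _ (Nat.cast_nonneg _)
  rw [Finset.mul_sum]
  refine Finset.sum_le_sum fun e _ => ?_
  rw [← mul_pow]
  unfold SpecA.Dv
  have h0 : 0 ≤ SpecA.dev p 0 0 z e := bnorm_nonneg _
  exact pow_le_pow_left₀ (le_min h.le h0) (min_le_max_mul h h' h0) 2


end Crest.Agent.R166.Clean566
end

-- ▼ part R166/CleanOut4_501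
section

/-!
Row 166, section 31 (helper501): outputs of the clean case from Theorem A and 31.4 (helper566).
-/

set_option autoImplicit false

namespace Crest.Agent.R166.Out501

open Finset MeasureTheory Crest.ProbabilityR.RandomMatrix Crest.Agent.R166
open Crest.Agent.R166.Exc501 (bl nb EL NM)

/-- the exceptional vertices at depth `L`: some half-edge at `v` is not tree-like -/
def excTL (d : ℕ) [NeZero d] (L : ℕ) (n : ℕ) (p : Equiv.Perm (HE n d)) (v : Fin n) : Prop :=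
  ∃ i, ¬ SwP470.TL L p (v, i)

lemma excTL_EL {d : ℕ} [NeZero d] (hd : 2 ≤ d) (L : ℕ) {n : ℕ} {p : Equiv.Perm (HE n d)}
    (hp : IsPort p) {v : Fin n} (h : excTL d L n p v) : EL (graphOf p) (L + 1) v := by
  by_contra hE
  obtain ⟨i, hi⟩ := h
  exact hi (Exc501.TL_of_not_EL hd hp (h := (v, i)) hE)

/-- from 566's output to the form used in `CleanOut3_501` -/
theorem uip_of_uniEsc {d : ℕ} {E : ℝ} {exc : ∀ n : ℕ, Equiv.Perm (HE n d) → Fin n → Prop} {L : ℕ}
    (hexc : ∀ (n : ℕ) (p : Equiv.Perm (HE n d)), IsPort p → ∀ v, exc n p v →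
      EL (graphOf p) L v)
    (h : Clean566.UniEsc d E exc) : UIp d E := by
  classical
  refine ⟨L, fun κ hκ ε hε => ?_⟩
  obtain ⟨M, hM⟩ := h κ hκ ε hε
  refine ⟨M, fun K hK => ?_⟩
  obtain ⟨N, hN⟩ := hM K hK
  refine ⟨N, fun n hn => le_trans ?_ (hN n hn)⟩
  refine Nat.cast_le.2 (Finset.card_le_card ?_)
  intro p hp
  rw [Finset.mem_filter] at hp ⊢
  refine ⟨hp.1, hp.2.trans_le ?_⟩
  have hport : IsPort p := mem_Ports.1 hp.1
  unfold tailT
  refine vAvg_mono fun v => ?_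
  have hA : Hm (graphOf p) 0 0 = A0 (graphOf p) := Hm_zero _ _
  rw [hA]
  by_cases hc : ¬ EL (graphOf p) L v ∧ M < ‖Res (A0 (graphOf p)) (zz E K n) v v‖
  · rw [if_pos hc, if_pos ⟨fun he => hc.1 (hexc n p hport v he), hc.2⟩]
  · rw [if_neg hc]
    split_ifs
    · exact norm_nonneg _
    · exact le_rfl



end Crest.Agent.R166.Out501
end

-- ▼ part R166/UIH_566
section

/-!
Row 166, section 31.4 (helper566): half-edge form of the final statement. The non-exceptional set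
`ne` is a set of half-edges; a vertex is covered as soon as one of its half-edges is in `ne`.
The threshold `rs` of `StepR` is chosen first, then `QuadR` is used with `r = min (rs/2) (1/16)`.
-/

set_option autoImplicit false
set_option linter.unusedSectionVars false

open Finset Crest.ProbabilityR.RandomMatrix

namespace Crest.Agent.R166.Clean566

open Crest.Agent.R166

/-- `Step0` with `rs` fixed -/
def StepR (d : ℕ) (E rs : ℝ) : Prop :=
  ∃ C c : ℝ, 0 < C ∧ 0 < c ∧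
    ∀ n : ℕ, 0 < n → ∃ err : Equiv.Perm (HE n d) → ℝ, (∀ p, 0 ≤ err p) ∧
      ∑ p ∈ Ports n d, err p ≤ C / n * (Ports n d).card ∧
      ∀ η : ℝ, 0 < η → η ≤ 1 →
        ∃ (gV : Equiv.Perm (HE n d) → ℝ) (μ gm : Equiv.Perm (HE n d) → ℂ) (a : ℂ),
          Multi383.Step (Ports n d) (fun p => SpecA.Vp rs p 0 0 (ze E η)) gV μ gm err
            a C c (1 / 4) (1 / (n * η)) 0 ∧
          TrV (Ports n d) (fun p => SpecA.Vp rs p 0 0 (ze E η)) gV C (1 / (n * η))

/-- `Quad0` with `rs`, `r` fixed, half-edge form -/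
def QuadR (d : ℕ) (E rs r : ℝ) (ne : ∀ n : ℕ, Equiv.Perm (HE n d) → HE n d → Prop) : Prop :=
  ∃ C r1 : ℝ, 0 < C ∧ 0 < r1 ∧ ∃ N0 : ℕ, ∀ n : ℕ, N0 ≤ n →
    (Ports n d).Nonempty → ∀ η : ℝ, 0 < η → η ≤ 1 →
      ∃ (M : Type) (_ : Fintype M) (_ : Nonempty M)
        (sw : {p // p ∈ Ports n d} → HE n d → M → {p // p ∈ Ports n d})
        (valid : {p // p ∈ Ports n d} → HE n d → M → Prop),
        Hyp3 (fun p h => SpecA.Dv rs p.1 0 0 (ze E η) h) sw valid
          (fun p h => ne n p.1 h) C r r1 (1 / (n * η))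

set_option maxHeartbeats 2000000 in
open Classical in
/-- **(31.4)**, half-edge form -/
theorem uniEscH {d : ℕ} (hd : 3 ≤ d) {E : ℝ} (hE : E ^ 2 < 4 * ((d : ℝ) - 1))
    {exc : ∀ n : ℕ, Equiv.Perm (HE n d) → Fin n → Prop}
    {ne : ∀ n : ℕ, Equiv.Perm (HE n d) → HE n d → Prop} {rs : ℝ} (hrs : 0 < rs)
    (hS : StepR d E rs) (hA : SpecA.ThmA d) (hQ : QuadR d E rs (min (rs / 2) (1 / 16)) ne)
    (hexc : ∀ (n : ℕ) (p : Equiv.Perm (HE n d)) (v : Fin n), IsPort p → ¬ exc n p v →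
      ∃ i : Fin d, ne n p (v, i)) : UniEsc d E exc := by
  obtain ⟨C, c, hC, hc, hstep⟩ := hS
  have hA1 : 0 < (|E| + 2 * Real.sqrt ((d : ℝ) - 1)) / 2 := by
    have : (3 : ℝ) ≤ d := by exact_mod_cast hd
    have : 0 < Real.sqrt ((d : ℝ) - 1) := Real.sqrt_pos.2 (by linarith)
    positivity
  have hd' : (3 : ℝ) ≤ d := by exact_mod_cast hd
  have hsd : 0 < Real.sqrt ((d : ℝ) - 1) := Real.sqrt_pos.2 (by linarith)
  have hsd2 : Real.sqrt ((d : ℝ) - 1) ^ 2 = (d : ℝ) - 1 := Real.sq_sqrt (by linarith)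
  have hElt : |E| < 2 * Real.sqrt ((d : ℝ) - 1) := by
    apply abs_lt_of_sq_lt_sq _ (by positivity)
    rw [mul_pow, hsd2]; linarith
  obtain ⟨rsA, C1, s0, hrsA, hC1, hs0, hThm⟩ := hA ((|E| + 2 * Real.sqrt ((d : ℝ) - 1)) / 2) hA1
    (by
      have h1 : (|E| + 2 * Real.sqrt ((d : ℝ) - 1)) / 2 < 2 * Real.sqrt ((d : ℝ) - 1) := by
        linarith
      have h2 := pow_lt_pow_left₀ h1 hA1.le (n := 2) (by norm_num)
      rw [mul_pow, hsd2] at h2
      linarith)
  -- constants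
  set r : ℝ := min (rs / 2) (1 / 16) with hr
  have hr0 : 0 < r := by rw [hr]; positivity
  have hrrs : r < rs := by
    have : r ≤ rs / 2 := min_le_left _ _
    linarith
  obtain ⟨Cq, r1, hCq, hr1, N0, hq⟩ := hQ
  set A : ℝ := C * (1 + 4 * C ^ 2 / c ^ 2) with hAdef
  have hA0 : 0 < A := by positivity
  set v : ℝ := 3 / (16 * A) with hv
  have hv0 : 0 < v := by positivity
  have hv1 : 2 * A * v ≤ (1 - 1 / 4) / 2 := by
    rw [hv]
    apply le_of_eq
    field_simp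
    norm_num
  set e1 : ℝ := e1c (1 / 4) C c v with he1
  have he10 : 0 < e1 := e1c_pos (by norm_num) hC hc hv0
  set cc : ℝ := c2 Cq e1 r1 with hcc
  have hcc0 : 0 < cc := c2_pos hCq he10 hr1
  intro κ hκ ε hε
  -- Theorem A
  set lam : ℝ := max 1 (rs / rsA) with hlam
  have hlam1 : 1 ≤ lam := le_max_left _ _
  set δ : ℝ := min (ε / 4) (v / lam ^ 2) with hδ
  have hδ0 : 0 < δ := by rw [hδ]; positivity
  obtain ⟨KA, hKA0, hKA⟩ := hThm δ hδ0
  set K1 : ℝ := max (max 1 (4 / v ^ 2)) (max (max (Cq ^ 2) KA) ((16 * e1 / ε) ^ 2)) with hK1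
  have hK1a : 1 ≤ K1 := (le_max_left _ _).trans (le_max_left _ _)
  have hK1b : 4 / v ^ 2 ≤ K1 := (le_max_right _ _).trans (le_max_left _ _)
  have hK1c : Cq ^ 2 ≤ K1 := ((le_max_left _ _).trans (le_max_left _ _)).trans (le_max_right _ _)
  have hK1d : KA ≤ K1 := ((le_max_right _ _).trans (le_max_left _ _)).trans (le_max_right _ _)
  have hK1e : (16 * e1 / ε) ^ 2 ≤ K1 := (le_max_right _ _).trans (le_max_right _ _)
  set t : ℝ := max 1 (K1 / κ) with ht
  have ht1 : 1 ≤ t := le_max_left _ _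
  set ε' : ℝ := ε / (t * d) with hε'
  have hε'0 : 0 < ε' := by rw [hε']; positivity
  -- choice of a
  obtain ⟨a, ha⟩ : ∃ a : ℕ, 8 * 8 * cc * ((Real.sqrt 2)⁻¹) ^ a / ε' ≤ ε / 4 := by
    obtain ⟨h0, h1⟩ := sqrt_two_facts
    have htend : Filter.Tendsto (fun a : ℕ => 8 * 8 * cc * ((Real.sqrt 2)⁻¹) ^ a / ε')
        Filter.atTop (nhds (8 * 8 * cc * 0 / ε')) :=
      ((tendsto_pow_atTop_nhds_zero_of_lt_one h0.le (by linarith)).const_mul _).div_const _
    rw [mul_zero, zero_div] at htend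
    have := (htend.eventually (gt_mem_nhds (by positivity : (0 : ℝ) < ε / 4))).exists
    obtain ⟨a, ha⟩ := this
    exact ⟨a, ha.le⟩
  refine ⟨t * (8 * 2 ^ a), fun K hK => ?_⟩
  have hK0 : 0 < K := lt_of_lt_of_le hκ hK
  set Ks : ℝ := max K K1 with hKs
  have hKs1 : K1 ≤ Ks := le_max_right _ _
  have hKsK : K ≤ Ks := le_max_left _ _
  have hKspos : 0 < Ks := by linarith
  have hKst : Ks ≤ t * K := by
    rw [hKs]
    apply max_le
    · nlinarith
    · calc K1 = K1 / κ * κ := by field_simp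
        _ ≤ t * κ := by gcongr; exact le_max_right _ _
        _ ≤ t * K := by gcongr
  obtain ⟨NA, hNA⟩ := hKA Ks (hK1d.trans hKs1)
  obtain ⟨N2, hN2⟩ := exists_nat_ge (Ks * 2 ^ a)
  refine ⟨max (max NA N0) (max N2 1), fun n hn => ?_⟩
  have hn1 : NA ≤ n := ((le_max_left _ _).trans (le_max_left _ _)).trans hn
  have hn2 : N0 ≤ n := ((le_max_right _ _).trans (le_max_left _ _)).trans hn
  have hn3 : N2 ≤ n := ((le_max_left _ _).trans (le_max_right _ _)).trans hn
  have hn4 : 1 ≤ n := ((le_max_right _ _).trans (le_max_right _ _)).trans hn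
  have hnpos : 0 < n := hn4
  have hn' : (0 : ℝ) < n := by exact_mod_cast hnpos
  rcases (Ports n d).eq_empty_or_nonempty with hempty | hne
  · simp only [hempty, Finset.filter_empty, Finset.card_empty, Nat.cast_zero, mul_zero, le_refl]
  have hcard : (0 : ℝ) < (Ports n d).card := by exact_mod_cast hne.card_pos
  have : Nonempty {p // p ∈ Ports n d} := hne.to_subtype
  have : Nonempty (HE n d) := ⟨(⟨0, hnpos⟩, ⟨0, by omega⟩)⟩
  have hKn : Ks * 2 ^ a ≤ n := hN2.trans (by exact_mod_cast hn3)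
  obtain ⟨err, herr0, herr, hst⟩ := hstep n hnpos
  -- EV at every scale
  have hEV : ∀ K, Ks ≤ K → K ≤ n → (av fun p : {p // p ∈ Ports n d} =>
      if VV (fun p : {p // p ∈ Ports n d} => fun h => SpecA.Dv rs p.1 0 0 (zz E K n) h) p ≤ v then
        VV (fun p : {p // p ∈ Ports n d} => fun h => SpecA.Dv rs p.1 0 0 (zz E K n) h) p else 0) ≤
        e1 / K := by
    intro K' hK' hK'n
    have hK'0 : 0 < K' := by linarith
    have hη0 : 0 < K' / n := by positivity
    have hη1 : K' / n ≤ 1 := by rw [div_le_one hn']; exact hK'n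
    obtain ⟨gV, μ, gm, a', h1, h2⟩ := hst (K' / n) hη0 hη1
    have hκe : (1 : ℝ) / (n * (K' / n)) = 1 / K' := by field_simp
    rw [hκe] at h1 h2
    have h3 := EV_of_step h1 h2 (by norm_num) hC hc (by positivity) herr0 (by
      refine herr.trans ?_
      apply mul_le_mul_of_nonneg_right _ hcard.le
      rw [mul_one_div]
      exact div_le_div_of_nonneg_left hC.le hK'0 hK'n) hv0 hv1
    have h4 : (av fun p : {p // p ∈ Ports n d} =>
      if VV (fun p : {p // p ∈ Ports n d} => fun h => SpecA.Dv rs p.1 0 0 (zz E K' n) h) p ≤ v then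
        VV (fun p : {p // p ∈ Ports n d} => fun h => SpecA.Dv rs p.1 0 0 (zz E K' n) h) p else 0) =
        (∑ p ∈ Ports n d, (if SpecA.Vp rs p 0 0 (ze E (K' / n)) ≤ v then
          SpecA.Vp rs p 0 0 (ze E (K' / n)) else 0)) / (Ports n d).card := by
      rw [← av_ports (fun p => if SpecA.Vp rs p 0 0 (ze E (K' / n)) ≤ v then
          SpecA.Vp rs p 0 0 (ze E (K' / n)) else 0)]
      congr 1
      funext p
      rw [Vp_eq_VV, ze_eq_zz]
    rw [h4, div_le_iff₀ hcard]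
    calc _ ≤ _ := h3
      _ = _ := by rw [he1]; ring
  have hP : ∀ K, Ks ≤ K → K ≤ n → (av fun p : {p // p ∈ Ports n d} =>
      if VV (fun p : {p // p ∈ Ports n d} => fun h => SpecA.Dv rs p.1 0 0 (zz E K n) h) p ≤
        1 / Real.sqrt K then
        pne (fun p : {p // p ∈ Ports n d} => fun h => SpecA.Dv rs p.1 0 0 (zz E K n) h)
          (fun p h => ne n p.1 h) r p else 0) ≤ cc / (K * Real.sqrt K) := by
    intro K' hK' hK'n
    have hK'0 : 0 < K' := by linarith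
    have hη0 : 0 < K' / n := by positivity
    have hη1 : K' / n ≤ 1 := by rw [div_le_one hn']; exact hK'n
    obtain ⟨M, hMF, hMN, sw, valid, h1⟩ := hq n hn2 hne (K' / n) hη0 hη1
    have hκe : (1 : ℝ) / (n * (K' / n)) = 1 / K' := by field_simp
    rw [hκe, ze_eq_zz] at h1
    exact Epne_scale h1 hCq hr1 hv0 he10.le (hEV K' hK' hK'n) (by linarith) (by linarith)
      (by linarith)
  have hbase := base_fixed (n := n) (d := d) hnpos (by omega) (E := E) (K0 := Ks)
    (D := fun K p h => SpecA.Dv rs p 0 0 (zz E K n) h) (ne := fun p h => ne n p h)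
    (r := r) (M0 := 8) (v := v) (e1 := e1) (c := cc) hne
    (by
      intro K' p h hK' hp hD
      apply qv_le_of_dev hp hd hnpos (by linarith)
      unfold SpecA.Dv at hD
      have h1 : r ≤ 1 / 16 := min_le_right _ _
      rcases min_cases rs (SpecA.dev p 0 0 (zz E K' n) h) with ⟨h2, _⟩ | ⟨h2, _⟩
      · rw [h2] at hD; linarith
      · rw [h2] at hD; linarith)
    (by norm_num) hKspos he10.le hcc0.le hEV hP a hKn hε'0
  -- the three terms
  have hT1 : (av fun p : {p // p ∈ Ports n d} => if ∀ K, Ks ≤ K → K ≤ n →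
        VV (fun p : {p // p ∈ Ports n d} => fun h => SpecA.Dv rs p.1 0 0 (zz E K n) h) p ≤ v
        then (0 : ℝ) else 1) ≤ ε / 4 := by
    have h1 := hNA n hn1 E 0 (by linarith) (by simpa using hs0.le) 0 (by simp)
    have h2 : (av fun p : {p // p ∈ Ports n d} => if ∀ K, Ks ≤ K → K ≤ n →
        VV (fun p : {p // p ∈ Ports n d} => fun h => SpecA.Dv rs p.1 0 0 (zz E K n) h) p ≤ v
        then (0 : ℝ) else 1) ≤ av fun p : {p // p ∈ Ports n d} =>
          if (∃ η : ℝ, Ks / n ≤ η ∧ η ≤ 1 ∧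
            C1 * (0 : ℝ) ^ 2 + δ < SpecA.Vp rsA p.1 0 0 (ze E η)) then (1 : ℝ) else 0 := by
      apply av_mono
      intro p
      by_cases h : ∃ η : ℝ, Ks / n ≤ η ∧ η ≤ 1 ∧
            C1 * (0 : ℝ) ^ 2 + δ < SpecA.Vp rsA p.1 0 0 (ze E η)
      · rw [if_pos h]
        split_ifs <;> norm_num
      · rw [if_neg h, if_pos]
        push Not at h
        intro K' hK' hK'n
        have h3 := h (K' / n) (div_le_div_of_nonneg_right hK' hn'.le)
          (by rw [div_le_one hn']; exact hK'n)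
        rw [← ze_eq_zz, ← Vp_eq_VV]
        have h4 := Vp_le_mul hrs hrsA p.1 (ze E (K' / n))
        have h5 : C1 * (0 : ℝ) ^ 2 + δ ≤ v / lam ^ 2 := by
          have : δ ≤ v / lam ^ 2 := min_le_right _ _
          linarith
        calc SpecA.Vp rs p.1 0 0 (ze E (K' / n)) ≤ lam ^ 2 *
              SpecA.Vp rsA p.1 0 0 (ze E (K' / n)) := h4
          _ ≤ lam ^ 2 * (v / lam ^ 2) := by gcongr; exact h3.trans h5
          _ = v := by field_simp
    refine h2.trans ?_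
    rw [av_ports (fun p => if (∃ η : ℝ, Ks / n ≤ η ∧ η ≤ 1 ∧
            C1 * (0 : ℝ) ^ 2 + δ < SpecA.Vp rsA p 0 0 (ze E η)) then (1 : ℝ) else 0),
      Finset.sum_boole, div_le_iff₀ hcard]
    refine h1.trans ?_
    gcongr
    exact min_le_left _ _
  have hT2 : 4 * e1 / Real.sqrt Ks ≤ ε / 4 := by
    have h1 : 16 * e1 / ε ≤ Real.sqrt Ks := Real.le_sqrt_of_sq_le (hK1e.trans hKs1)
    have h2 : 0 < Real.sqrt Ks := Real.sqrt_pos.2 hKspos
    rw [div_le_iff₀ h2]
    rw [div_le_iff₀ hε] at h1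
    linarith
  have hT3 : 8 * 8 * cc / (Ks * Real.sqrt Ks) * ((Real.sqrt 2)⁻¹) ^ a / ε' ≤ ε / 4 := by
    refine le_trans ?_ ha
    have h1 : (1 : ℝ) ≤ Ks * Real.sqrt Ks := by
      have h2 : (1 : ℝ) ≤ Real.sqrt Ks := Real.le_sqrt_of_sq_le (by
        rw [one_pow]; linarith)
      nlinarith
    have h0 := sqrt_two_facts.1
    have h3 : 8 * 8 * cc / (Ks * Real.sqrt Ks) ≤ 8 * 8 * cc :=
      div_le_self (by positivity) h1
    gcongr
  -- comparison of the events
  have hfin : (((Ports n d).filter fun p => ε < vAvg (fun v : Fin n =>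
      if ¬ exc n p v ∧ t * (8 * 2 ^ a) < ‖Res (Hm (graphOf p) 0 0) (zz E K n) v v‖ then
        ‖Res (Hm (graphOf p) 0 0) (zz E K n) v v‖ else 0)).card : ℝ) ≤
      (av fun p : {p // p ∈ Ports n d} => if ε' < (av fun h => if ne n p.1 h ∧
        8 * 2 ^ a < qv E Ks p.1 h then qv E Ks p.1 h else 0) then (1 : ℝ) else 0) *
        (Ports n d).card := by
    have h1 : (((Ports n d).filter fun p => ε < vAvg (fun v : Fin n =>
      if ¬ exc n p v ∧ t * (8 * 2 ^ a) < ‖Res (Hm (graphOf p) 0 0) (zz E K n) v v‖ then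
        ‖Res (Hm (graphOf p) 0 0) (zz E K n) v v‖ else 0)).card : ℝ) =
        (av fun p : {p // p ∈ Ports n d} => if ε < vAvg (fun v : Fin n =>
      if ¬ exc n p.1 v ∧ t * (8 * 2 ^ a) < ‖Res (Hm (graphOf p.1) 0 0) (zz E K n) v v‖ then
        ‖Res (Hm (graphOf p.1) 0 0) (zz E K n) v v‖ else 0) then (1 : ℝ) else 0) *
        (Ports n d).card := by
      rw [av_ports (fun p => if ε < vAvg (fun v : Fin n =>
      if ¬ exc n p v ∧ t * (8 * 2 ^ a) < ‖Res (Hm (graphOf p) 0 0) (zz E K n) v v‖ then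
        ‖Res (Hm (graphOf p) 0 0) (zz E K n) v v‖ else 0) then (1 : ℝ) else 0),
        Finset.sum_boole, div_mul_cancel₀ _ hcard.ne']
    rw [h1]
    apply mul_le_mul_of_nonneg_right _ hcard.le
    apply av_mono
    intro p
    have hp := mem_Ports.1 p.2
    have hcmp : vAvg (fun v : Fin n =>
      if ¬ exc n p.1 v ∧ t * (8 * 2 ^ a) < ‖Res (Hm (graphOf p.1) 0 0) (zz E K n) v v‖ then
        ‖Res (Hm (graphOf p.1) 0 0) (zz E K n) v v‖ else 0) ≤ (t * d) *
        (av fun h : HE n d => if ne n p.1 h ∧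
        8 * 2 ^ a < qv E Ks p.1 h then qv E Ks p.1 h else 0) := by
      set g : HE n d → ℝ := fun h => if ne n p.1 h ∧
        8 * 2 ^ a < qv E Ks p.1 h then qv E Ks p.1 h else 0 with hg
      have hg0 : ∀ h, 0 ≤ g h := by
        intro h
        rw [hg]
        dsimp only
        split_ifs
        · exact qv_nonneg _ _ _ _
        · exact le_rfl
      have hv : ∀ v : Fin n, (if ¬ exc n p.1 v ∧
          t * (8 * 2 ^ a) < ‖Res (Hm (graphOf p.1) 0 0) (zz E K n) v v‖ then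
          ‖Res (Hm (graphOf p.1) 0 0) (zz E K n) v v‖ else 0) ≤ t * ∑ i : Fin d, g (v, i) := by
        intro v
        by_cases h3 : ¬ exc n p.1 v ∧
            t * (8 * 2 ^ a) < ‖Res (Hm (graphOf p.1) 0 0) (zz E K n) v v‖
        · rw [if_pos h3]
          obtain ⟨i, hi⟩ := hexc n p.1 v hp h3.1
          have h2 : ‖Res (Hm (graphOf p.1) 0 0) (zz E K n) v v‖ ≤ t * qv E Ks p.1 (v, i) :=
            norm_Res_scale (Stab269.Hm_symm _ _ _) hnpos hK0 hKsK hKst v
          have h4 : t * (8 * 2 ^ a) < t * qv E Ks p.1 (v, i) := lt_of_lt_of_le h3.2 h2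
          have h5 : 8 * 2 ^ a < qv E Ks p.1 (v, i) := lt_of_mul_lt_mul_left h4 (by linarith)
          have h6 : g (v, i) = qv E Ks p.1 (v, i) := by
            rw [hg]
            dsimp only
            rw [if_pos ⟨hi, h5⟩]
          refine h2.trans (mul_le_mul_of_nonneg_left ?_ (by linarith))
          rw [← h6]
          exact Finset.single_le_sum (f := fun i => g (v, i)) (fun i _ => hg0 _)
            (Finset.mem_univ i)
        · rw [if_neg h3]
          exact mul_nonneg (by linarith) (Finset.sum_nonneg fun i _ => hg0 _)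
      have h7 : vAvg (fun v : Fin n =>
        if ¬ exc n p.1 v ∧ t * (8 * 2 ^ a) < ‖Res (Hm (graphOf p.1) 0 0) (zz E K n) v v‖ then
        ‖Res (Hm (graphOf p.1) 0 0) (zz E K n) v v‖ else 0) ≤
          (∑ v : Fin n, t * ∑ i : Fin d, g (v, i)) / n := by
        unfold vAvg
        apply div_le_div_of_nonneg_right _ hn'.le
        exact Finset.sum_le_sum fun v _ => hv v
      refine h7.trans (le_of_eq ?_)
      unfold av
      rw [← Finset.mul_sum, ← Fintype.sum_prod_type (f := fun h : Fin n × Fin d => g h),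
        Fintype.card_prod, Fintype.card_fin, Fintype.card_fin]
      push_cast
      have hdne : (d : ℝ) ≠ 0 := by positivity
      field_simp
    split_ifs with h4 h5 h5
    · exact le_rfl
    · exfalso
      apply h5
      rw [hε', div_lt_iff₀ (by positivity)]
      linarith
    · norm_num
    · exact le_rfl
  refine hfin.trans ?_
  apply mul_le_mul_of_nonneg_right _ hcard.le
  have hb2 := hbase.trans (show _ ≤ ε by linarith)
  convert hb2

end Crest.Agent.R166.Clean566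
end

-- ▼ part R166/Hyp3_566
section

/-!
Row 166, section 31.3 (helper566): the concrete instance of `Clean566.Hyp3` for the depth `L`
ball-boundary resampling `bsw L` (valid = `BVal`, non-exceptional centre = `TL L`), from
`Spec31.S2P`; and the first order transfer `TrV` for `H4.gV L`.
-/

set_option autoImplicit false
set_option linter.unusedSectionVars false

open Finset

namespace Crest.Agent.R166.Clean566

open Crest.Agent.R166 Stab269 Sec269 SwP470

variable {n d : ℕ} [NeZero d]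

/-! ### stability of the mean of `D²` -/

/-- `V` changes by `O(1/(nη))` under a move -/
theorem stab_Vb (hd : 2 ≤ d) (hn : 0 < n) {L : ℕ} (hL : 1 ≤ L) {rs : ℝ} (hrs : 0 < rs)
    (hrs1 : rs ≤ 1) (s : ℝ) (ω : Fin n → ℝ) {E η : ℝ} (hη : 0 < η) (hη1 : η ≤ 1)
    {p : Equiv.Perm (HE n d)} (hp : IsPort p) (m : HE n d × (BI d L → HE n d)) :
    |nuAvg (Finset.univ : Finset (HE n d))
        (fun p h => DvA rs (mc d (ze E η)) (B0 p s ω (ze E η) h) ^ 2) (bsw L p m).1 -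
      nuAvg (Finset.univ : Finset (HE n d))
        (fun p h => DvA rs (mc d (ze E η)) (B0 p s ω (ze E η) h) ^ 2) p| ≤
      2056 * Fintype.card (BI d L) * (1 / (n * η)) := by
  have hz : (ze E η).im = η := by simp [ze]
  have hz0 : 0 < (ze E η).im := by rw [hz]; exact hη
  have hroot := Root355.mc_isRoot hd hz0
  have hm : ‖mc d (ze E η)‖ ≤ 1 := by
    refine hroot.norm_le_one ?_ hz0.le
    have : (2 : ℝ) ≤ d := by exact_mod_cast hd
    linarith
  have hn' : (0 : ℝ) < n := by exact_mod_cast hn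
  have hd' : (2 : ℝ) ≤ d := by exact_mod_cast hd
  have hdpos : (0 : ℝ) < d := by linarith
  set p' := (bsw L p m).1 with hp'def
  have hp' : IsPort p' := by
    have := (moveSystem n d L hL).mem_left p (mem_Ports.2 hp) m (Finset.mem_univ _)
    exact mem_Ports.1 this
  have h1 := stab_ports hp hp' s ω hz0 (obsDv_isObs hrs hrs1 (mc d (ze E η)))
  have hc : ((Ch p p').card : ℝ) ≤ 4 * Fintype.card (BI d L) := by
    exact_mod_cast card_Ch_bsw hp m
  set N : ℝ := (Fintype.card (BI d L) : ℝ) with hN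
  have hN0 : 0 ≤ N := Nat.cast_nonneg _
  unfold nuAvg
  rw [← sub_div, ← Finset.sum_sub_distrib, Finset.card_univ, IsPort.card_HE, abs_div,
    Nat.abs_cast]
  have hnd : (0 : ℝ) < ((n * d : ℕ) : ℝ) := by push_cast; positivity
  rw [div_le_iff₀ hnd]
  refine (Finset.abs_sum_le_sum_abs _ _).trans (h1.trans ?_)
  rw [hz]
  have hb : (1 + (2 * rs + ‖mc d (ze E η)‖)) ^ 2 ≤ 16 := by
    have h0 := norm_nonneg (mc d (ze E η))
    nlinarith
  push_cast
  have e1 : 8 * (1 + (2 * rs + ‖mc d (ze E η)‖)) ^ 2 * (2 + 2) * d * ((Ch p p').card : ℝ) / η ≤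
      2048 * N * d / η := by
    apply div_le_div_of_nonneg_right _ hη.le
    calc 8 * (1 + (2 * rs + ‖mc d (ze E η)‖)) ^ 2 * (2 + 2) * d * ((Ch p p').card : ℝ) ≤
        8 * 16 * (2 + 2) * d * (4 * N) := by gcongr
      _ = 2048 * N * d := by ring
  have e2 : 2 * ((Ch p p').card : ℝ) ≤ 8 * N * d / η := by
    rw [le_div_iff₀ hη]
    calc 2 * ((Ch p p').card : ℝ) * η ≤ 2 * (4 * N) * 1 := by gcongr
      _ = 8 * N * 1 := by ring
      _ ≤ 8 * N * d := by
        apply mul_le_mul_of_nonneg_left _ (by positivity)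
        linarith
  calc _ ≤ 2048 * N * d / η + 8 * N * d / η := add_le_add e1 e2
    _ = 2056 * N * (1 / (n * η)) * (n * d) := by field_simp; ring

/-- **first order transfer for `H4.gV L`** -/
theorem trV_gV (hd : 2 ≤ d) (hn : 0 < n) {L : ℕ} (hL : 1 ≤ L) {rs : ℝ} (hrs : 0 < rs)
    (hrs1 : rs ≤ 1) (s : ℝ) (ω : Fin n → ℝ) {E η : ℝ} (hη : 0 < η) (hη1 : η ≤ 1) :
    TrV (Ports n d) (fun p => SpecA.Vp rs p s ω (ze E η)) (fun p => H4.gV L rs s ω (ze E η) p)
      (2056 * Fintype.card (BI d L)) (1 / (n * η)) := by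
  have h := trV_of_moves (moveSystem n d L hL) (H4.univ_nonempty L hn)
    (fun p h => DvA rs (mc d (ze E η)) (B0 p s ω (ze E η) h) ^ 2) (B := 1)
    (C := 2056 * Fintype.card (BI d L)) (κ := 1 / (n * η))
    (by
      intro p _ e _
      have h0 := DvA_nonneg hrs.le (mc d (ze E η)) (B0 p s ω (ze E η) e)
      have h1 := DvA_le rs (mc d (ze E η)) (B0 p s ω (ze E η) e)
      rw [abs_of_nonneg (by positivity)]
      nlinarith)
    (by
      intro p hp m _
      rw [one_mul]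
      exact stab_Vb hd hn hL hrs hrs1 s ω hη hη1 (mem_Ports.1 hp) m)
  have e1 : (fun p : Equiv.Perm (HE n d) => SpecA.Vp rs p s ω (ze E η)) =
      fun p => nuAvg (Finset.univ : Finset (HE n d))
        (fun p h => DvA rs (mc d (ze E η)) (B0 p s ω (ze E η) h) ^ 2) p := by
    funext p
    rw [H4.Vp_eq]
    rfl
  rw [e1]
  exact h

/-! ### the concrete moves -/

/-- the move at `h` with choices `b` -/
noncomputable def swc {L : ℕ} (hL : 1 ≤ L) (p : {p // p ∈ Ports n d}) (h : HE n d)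
    (b : BI d L → HE n d) : {p // p ∈ Ports n d} :=
  ⟨(bsw L p.1 (h, b)).1, (moveSystem n d L hL).mem_left p.1 p.2 (h, b) (Finset.mem_univ _)⟩

lemma swc_val {L : ℕ} (hL : 1 ≤ L) {p : {p // p ∈ Ports n d}} {h : HE n d}
    {b : BI d L → HE n d} (hb : BVal L p.1 h b) : (swc hL p h b).1 = np p.1 h b := by
  show (bsw L p.1 (h, b)).1 = _
  rw [bsw_pos (m := (h, b)) hb]

lemma sum_ports_dite (g : {p // p ∈ Ports n d} → ℝ) :
    ∑ G, g G = ∑ p ∈ Ports n d, (if h : p ∈ Ports n d then g ⟨p, h⟩ else 0) := by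
  classical
  rw [← Finset.sum_coe_sort (Ports n d) (fun p => if h : p ∈ Ports n d then g ⟨p, h⟩ else 0)]
  refine Finset.sum_congr rfl fun G _ => ?_
  rw [dif_pos G.2]

open Classical in
lemma trv_swc {L : ℕ} (hL : 1 ≤ L) (F : {p // p ∈ Ports n d} → HE n d → ℝ) :
    (∑ G : {p // p ∈ Ports n d}, ∑ e, ∑ b : BI d L → HE n d,
      if BVal L G.1 e b then F (swc hL G e b) e else 0) =
    ∑ G : {p // p ∈ Ports n d}, ∑ e, ∑ b : BI d L → HE n d,
      if BVal L G.1 e b then F G e else 0 := by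
  set F' : Equiv.Perm (HE n d) → HE n d × (BI d L → HE n d) → ℝ := fun p m =>
    if h : p ∈ Ports n d then (if BVal L p m.1 m.2 then F ⟨p, h⟩ m.1 else 0) else 0 with hF'
  have h1 := sum_change (moveSystem n d L hL) F'
  have h2 : (∑ G : {p // p ∈ Ports n d}, ∑ e, ∑ b : BI d L → HE n d,
      if BVal L G.1 e b then F G e else 0) = ∑ p ∈ Ports n d, ∑ m, F' p m := by
    rw [sum_ports_dite]
    refine Finset.sum_congr rfl fun p hp => ?_
    rw [dif_pos hp, Fintype.sum_prod_type (f := fun m => F' p m)]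
    refine Finset.sum_congr rfl fun e _ => Finset.sum_congr rfl fun b _ => ?_
    rw [hF']
    dsimp only
    rw [dif_pos hp]
  have h3 : (∑ G : {p // p ∈ Ports n d}, ∑ e, ∑ b : BI d L → HE n d,
      if BVal L G.1 e b then F (swc hL G e b) e else 0) =
      ∑ p ∈ Ports n d, ∑ m, F' (bsw L p m).1 (bsw L p m).2 := by
    rw [sum_ports_dite]
    refine Finset.sum_congr rfl fun p hp => ?_
    rw [dif_pos hp, Fintype.sum_prod_type (f := fun m => F' (bsw L p m).1 (bsw L p m).2)]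
    refine Finset.sum_congr rfl fun e _ => Finset.sum_congr rfl fun b _ => ?_
    have hmem := (moveSystem n d L hL).mem_left p hp (e, b) (Finset.mem_univ _)
    rw [hF']
    dsimp only
    rw [dif_pos hmem]
    by_cases hb : BVal L p e b
    · rw [if_pos hb, if_pos]
      · unfold swc
        have : (bsw L p (e, b)).2.1 = e := (moveSystem n d L hL).ctr_sw p hp (e, b)
          (Finset.mem_univ _)
        rw [this]
      · rw [bsw_pos (m := (e, b)) hb]
        exact hb.symm hL (mem_Ports.1 hp)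
    · rw [if_neg hb, if_neg]
      rw [bsw_neg (m := (e, b)) hb]
      exact hb
  rw [h2, h3, h1]

open Classical in
lemma many_swc {L : ℕ} (hn : 0 < n) (hnL : 2 * SwInv356.Cinv d L ≤ n) {p : Equiv.Perm (HE n d)}
    (hp : IsPort p) {h0 : HE n d} (htl : TL L p h0) :
    (1 / 2 : ℝ) ≤ av fun b : BI d L → HE n d => if BVal L p h0 b then (1 : ℝ) else 0 := by
  have hn' : (0 : ℝ) < n := by exact_mod_cast hn
  have hne : Nonempty (BI d L → HE n d) := ⟨fun _ => h0⟩
  have hc : (0 : ℝ) < Fintype.card (BI d L → HE n d) := by exact_mod_cast Fintype.card_pos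
  have h1 := SwInv356.card_inv_le hn hp htl
  have h2 : ((SwInv356.Cinv d L : ℝ) / n) ≤ 1 / 2 := by
    rw [div_le_iff₀ hn']
    have : (2 : ℝ) * SwInv356.Cinv d L ≤ n := by exact_mod_cast hnL
    linarith
  have h3 : (∑ b : BI d L → HE n d, if BVal L p h0 b then (1 : ℝ) else 0) =
      Fintype.card (BI d L → HE n d) -
        ((univ.filter fun b : BI d L → HE n d => ¬ BVal L p h0 b).card : ℝ) := by
    rw [Finset.sum_boole]
    have h4 := Finset.card_filter_add_card_filter_not (s := (univ : Finset (BI d L → HE n d)))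
      (fun b => BVal L p h0 b)
    rw [Finset.card_univ] at h4
    have h5 : ((univ.filter fun b : BI d L → HE n d => BVal L p h0 b).card : ℝ) +
        ((univ.filter fun b : BI d L → HE n d => ¬ BVal L p h0 b).card : ℝ) =
        Fintype.card (BI d L → HE n d) := by exact_mod_cast h4
    linarith
  unfold av
  rw [h3, le_div_iff₀ hc]
  nlinarith

lemma card_Sv_le (L : ℕ) (p : Equiv.Perm (HE n d)) (h0 : HE n d) :
    (Spec30.Sv L p h0).card ≤ Fintype.card (SwInv356.BW d L) := by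
  classical
  have h1 : Spec30.Sv L p h0 ⊆ Finset.univ.image (SwInv356.bvi p h0 : SwInv356.BW d L → Fin n) := by
    intro v hv
    unfold Spec30.Sv at hv
    simp only [Finset.mem_filter, Finset.mem_univ, true_and] at hv
    obtain ⟨s, w, hw, hl, rfl⟩ := hv
    obtain ⟨j, hj⟩ := SwInv356.exists_bvi (p := p) (h0 := h0) s hw hl
    rw [Finset.mem_image]
    exact ⟨j, Finset.mem_univ _, by rw [← hj]⟩
  exact (Finset.card_le_card h1).trans Finset.card_image_le

/-- entries of the edge block at a good half-edge -/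
lemma im_le_of_dev {p : Equiv.Perm (HE n d)} (hp : IsPort p) (hd : 3 ≤ d) (s : ℝ) (ω : Fin n → ℝ)
    {z : ℂ} (hz : 0 < z.im) {h : HE n d} (hD : SpecA.dev p s ω z h ≤ 1 / 16) :
    (Res789.Res (Hm (graphOf p) s ω) z h.1 h.1).im +
      (Res789.Res (Hm (graphOf p) s ω) z (p h).1 (p h).1).im ≤ 16 := by
  have hm := (Root355.mc_isRoot (d := d) (by omega) hz).b_normSq_le hz.le
  have hd' : (3 : ℝ) ≤ d := by exact_mod_cast hd
  have hm2 : 2 * Complex.normSq (mc d z) ≤ 1 := by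
    have h0 := Complex.normSq_nonneg (mc d z)
    nlinarith
  have h0 := norm_block_le (Stab269.regB_BE hp s ω hz h) hm2 hD 0 0
  have h1 := norm_block_le (Stab269.regB_BE hp s ω hz h) hm2 hD 1 1
  have e0 : BE p s ω z h 0 0 = Res (Hm (graphOf p) s ω) z h.1 h.1 := by
    simp [BE, Blk]
  have e1 : BE p s ω z h 1 1 = Res (Hm (graphOf p) s ω) z (p h).1 (p h).1 := by
    simp [BE, Blk]
  rw [e0] at h0
  rw [e1] at h1
  have h2 := (Complex.abs_im_le_norm (Res (Hm (graphOf p) s ω) z h.1 h.1)).trans h0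
  have h3 := (Complex.abs_im_le_norm (Res (Hm (graphOf p) s ω) z (p h).1 (p h).1)).trans h1
  rw [Rev811.Res_eq]
  have h4 := le_abs_self (Res (Hm (graphOf p) s ω) z h.1 h.1).im
  have h5 := le_abs_self (Res (Hm (graphOf p) s ω) z (p h).1 (p h).1).im
  linarith

/-- `Adm` is antitone in the threshold -/
lemma AdmP.mono {L : ℕ} {r1 r2 ε : ℝ} (h12 : r1 ≤ r2) {p : Equiv.Perm (HE n d)} {s : ℝ}
    {ω : Fin n → ℝ} {z : ℂ} {h0 : HE n d} {S : Finset (BI d L)} {b : BI d L → HE n d}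
    (h : Rev811.Adm (fun x => r1 ≤ SpecA.dev p s ω z x)
      (Rev811.CpW (Spec30.Sv L p h0) (Res789.Res (Hm (graphOf p) s ω) z) p ε)
      (Rev811.PrW (Res789.Res (Hm (graphOf p) s ω) z) p ε) S b) :
    Spec30.AdmP L r2 ε p s ω z h0 S b := by
  refine ⟨fun j hj => ?_, h.2⟩
  have h1 := h.1 j hj
  unfold Rev811.Wk at h1 ⊢
  rw [not_or] at h1 ⊢
  refine ⟨?_, h1.2⟩
  unfold Spec30.BadP SpecA.Dv
  intro h2
  apply h1.1
  exact h12.trans (h2.trans (min_le_right _ _))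

open Classical in
/-- **the quadratic bound** -/
theorem quad_of_S2 {L : ℕ} (hd : 3 ≤ d) {A rs r r1 ρ ε s1 : ℝ} (hr : 0 < r) (hε : 0 < ε)
    (hρ : 0 < ρ) (hρ1 : 2 * ρ ≤ r1) (hρ2 : 2 * ρ ≤ 1 / 16) (hρ3 : 2 * ρ ≤ rs)
    (hS2 : ∀ (n : ℕ) (E s η : ℝ) (ω : Fin n → ℝ), Spec30.Rng A n E s η ω → |s| ≤ s1 →
        ∀ p : Equiv.Perm (HE n d), IsPort p → ∀ (h0 : HE n d) (b : BI d L → HE n d),
          BVal L p h0 b → ∀ S : Finset (BI d L), S.card ≤ 2 →
            Spec30.AdmP L r1 ε p s ω (ze E η) h0 S b →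
              SpecA.dev (np p h0 b) s ω (ze E η) h0 < r)
    {E s η : ℝ} {ω : Fin n → ℝ} (hR : Spec30.Rng A n E s η ω) (hs : |s| ≤ s1)
    (p : {p // p ∈ Ports n d}) (hL : 1 ≤ L) (h0 : HE n d) :
    (av fun b : BI d L → HE n d => if BVal L p.1 h0 b ∧
      r < SpecA.Dv rs (swc hL p h0 b).1 s ω (ze E η) h0 then (1 : ℝ) else 0) ≤
      (4 * (Fintype.card (BI d L) : ℝ) ^ 4 *
        (1 + (2 * (Fintype.card (SwInv356.BW d L) + 4 : ℝ) + 2 * 16) / ε ^ 2) ^ 2) *
      (pp (fun (p : {p // p ∈ Ports n d}) h => SpecA.Dv rs p.1 s ω (ze E η) h) ρ p +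
        1 / (n * η)) ^ 2 := by
  have hp := mem_Ports.1 p.2
  have hz : (ze E η).im = η := by simp [ze]
  have hz0 : 0 < (ze E η).im := by rw [hz]; exact hR.η0
  have hn := hR.n0
  have hn' : (0 : ℝ) < n := by exact_mod_cast hn
  have hη := hR.η0
  have hdpos : 0 < d := by omega
  set Dt : (BI d L → HE n d) → ℝ := fun b => if BVal L p.1 h0 b then
    SpecA.dev (np p.1 h0 b) s ω (ze E η) h0 else 0 with hDt
  have h1 := Rev811.pr_bad_le (ι := BI d L) (N := Fintype.card (BI d L))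
    (s0 := Fintype.card (SwInv356.BW d L)) (M := 16) (r := r) (r1 := 2 * ρ) (ε := ε)
    (by norm_num) hε rfl hdpos (Hm_symm (graphOf p.1) s ω) hz0 hn p.1 (Spec30.Sv L p.1 h0)
    (card_Sv_le L p.1 h0) (fun x => SpecA.dev p.1 s ω (ze E η) x)
    (by
      intro x hx
      apply im_le_of_dev hp hd s ω hz0
      push Not at hx
      linarith)
    Dt
    (by
      intro b S hS hadm
      rw [hDt]
      dsimp only
      split_ifs with hb
      · exact hS2 n E s η ω hR hs p.1 hp h0 b hb S hS (AdmP.mono hρ1 hadm)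
      · exact hr)
  rw [hz] at h1
  have h2 : (av fun b : BI d L → HE n d => if BVal L p.1 h0 b ∧
      r < SpecA.Dv rs (swc hL p h0 b).1 s ω (ze E η) h0 then (1 : ℝ) else 0) ≤
      Rev811.pr (fun b => r ≤ Dt b) := by
    unfold Rev811.pr
    have e1 : ∀ f : (BI d L → HE n d) → ℝ, Rev811.av f = av f := fun f => rfl
    rw [e1]
    apply av_mono
    intro b
    by_cases hb : BVal L p.1 h0 b ∧ r < SpecA.Dv rs (swc hL p h0 b).1 s ω (ze E η) h0
    · rw [if_pos hb, if_pos]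
      rw [hDt]
      dsimp only
      rw [if_pos hb.1]
      have h3 := hb.2
      rw [swc_val hL hb.1] at h3
      exact h3.le.trans (min_le_right _ _)
    · rw [if_neg hb]
      split_ifs <;> norm_num
  have h3 : Rev811.pr1 (fun x => 2 * ρ ≤ SpecA.dev p.1 s ω (ze E η) x) ≤
      pp (fun (p : {p // p ∈ Ports n d}) h => SpecA.Dv rs p.1 s ω (ze E η) h) ρ p := by
    unfold Rev811.pr1 pp
    have e1 : ∀ f : HE n d → ℝ, Rev811.av1 f = av f := fun f => rfl
    rw [e1]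
    apply av_mono
    intro x
    by_cases hx : 2 * ρ ≤ SpecA.dev p.1 s ω (ze E η) x
    · rw [if_pos hx, if_pos]
      unfold SpecA.Dv
      rw [lt_min_iff]
      constructor <;> linarith
    · rw [if_neg hx]
      split_ifs <;> norm_num
  set Q : ℝ := (2 * (Fintype.card (SwInv356.BW d L) + 4 : ℝ) + 2 * 16) / ε ^ 2 with hQ
  have hQ0 : 0 ≤ Q := by positivity
  have hpp := pp_nonneg (fun (p : {p // p ∈ Ports n d}) h => SpecA.Dv rs p.1 s ω (ze E η) h) ρ p
  set P : ℝ := pp (fun (p : {p // p ∈ Ports n d}) h => SpecA.Dv rs p.1 s ω (ze E η) h) ρ p with hP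
  have hκ : (0 : ℝ) ≤ 1 / (n * η) := by positivity
  have h4 : Rev811.pr1 (fun x => 2 * ρ ≤ SpecA.dev p.1 s ω (ze E η) x) + Q / (n * η) ≤
      (1 + Q) * (P + 1 / (n * η)) := by
    have e1 : Q / (n * η) = Q * (1 / (n * η)) := by ring
    rw [e1]
    nlinarith
  refine h2.trans (h1.trans ?_)
  have h5 : 0 ≤ Rev811.pr1 (fun x => 2 * ρ ≤ SpecA.dev p.1 s ω (ze E η) x) + Q / (n * η) :=
    add_nonneg (Rev811.pr1_nonneg _) (by positivity)
  calc _ ≤ 4 * (Fintype.card (BI d L) : ℝ) ^ 4 * ((1 + Q) * (P + 1 / (n * η))) ^ 2 := by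
        apply mul_le_mul_of_nonneg_left _ (by positivity)
        exact pow_le_pow_left₀ h5 h4 2
    _ = _ := by ring

end Crest.Agent.R166.Clean566
end

-- ▼ part R166/Quad_566
section

/-!
Row 166, sections 31.1-31.4 (helper566): final assembly.
`StepL d` (one step inequality, concrete `gV`), `S2P d` (two bad inputs) and `ThmA d` give
`UniEsc d E (fun n p v => ∀ i, ¬ TL L p (v,i))` for some `L`.
-/

set_option autoImplicit false

open Finset

namespace Crest.Agent.R166.Clean566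

open Crest.Agent.R166 Stab269 Sec269 SwP470

lemma TrV.mono {Γ : Type*} {Gr : Finset Γ} {V gV : Γ → ℝ} {C C' κ : ℝ} (h : TrV Gr V gV C κ)
    (hC : C ≤ C') (hκ : 0 ≤ κ) : TrV Gr V gV C' κ := by
  intro F l hF
  have hl : 0 ≤ l := by
    have h0 := hF 0 1
    have h7 := abs_nonneg (F 0 - F 1)
    norm_num at h0
    linarith
  refine (h F l hF).trans ?_
  gcongr

/-- auxiliary energy bound -/
noncomputable def Aof (d : ℕ) (E : ℝ) : ℝ := (|E| + 2 * Real.sqrt ((d : ℝ) - 1)) / 2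

lemma Aof_spec {d : ℕ} (hd : 3 ≤ d) {E : ℝ} (hE : E ^ 2 < 4 * ((d : ℝ) - 1)) :
    0 < Aof d E ∧ Aof d E ^ 2 < 4 * ((d : ℝ) - 1) ∧ |E| ≤ Aof d E := by
  have hd' : (3 : ℝ) ≤ d := by exact_mod_cast hd
  have hsd : 0 < Real.sqrt ((d : ℝ) - 1) := Real.sqrt_pos.2 (by linarith)
  have hsd2 : Real.sqrt ((d : ℝ) - 1) ^ 2 = (d : ℝ) - 1 := Real.sq_sqrt (by linarith)
  have hElt : |E| < 2 * Real.sqrt ((d : ℝ) - 1) := by
    apply abs_lt_of_sq_lt_sq _ (by positivity)
    rw [mul_pow, hsd2]; linarith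
  unfold Aof
  refine ⟨by positivity, ?_, by linarith⟩
  have h1 : (|E| + 2 * Real.sqrt ((d : ℝ) - 1)) / 2 < 2 * Real.sqrt ((d : ℝ) - 1) := by
    linarith
  have h2 := pow_lt_pow_left₀ h1 (by positivity) (n := 2) (by norm_num)
  rw [mul_pow, hsd2] at h2
  linarith

theorem stepR_of_stepL {d : ℕ} [NeZero d] (hd : 3 ≤ d) {E : ℝ} (hE : E ^ 2 < 4 * ((d : ℝ) - 1))
    (h : Spec31.StepL d) : ∃ rs : ℝ, 0 < rs ∧ rs ≤ 1 ∧ StepR d E rs := by
  obtain ⟨hA, hA2, hEA⟩ := Aof_spec hd hE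
  obtain ⟨rs, c, s0, hrs, hrs1, hc, hs0, L0, hL⟩ := h _ hA hA2
  set L : ℕ := max L0 1 with hLdef
  have hL1 : 1 ≤ L := le_max_right _ _
  obtain ⟨C, hC, hn⟩ := hL L (le_max_left _ _)
  set C' : ℝ := max C (2056 * Fintype.card (BI d L)) with hC'
  have hCC : C ≤ C' := le_max_left _ _
  refine ⟨rs, hrs, hrs1, C', c, lt_of_lt_of_le hC hCC, hc, fun n hn0 => ?_⟩
  obtain ⟨err, he0, he, hstep⟩ := hn n hn0
  have hn' : (0 : ℝ) < n := by exact_mod_cast hn0
  refine ⟨err, he0, he.trans ?_, fun η hη hη1 => ?_⟩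
  · gcongr
  have h1 := hstep E 0 η hEA (by simpa using hs0.le) hη hη1 0 (by simp)
  refine ⟨_, _, _, _, ThmA383.Step.mono h1 hC.le hCC (by positivity) (fun p _ => he0 p)
    (fun p _ => le_rfl), ?_⟩
  exact (trV_gV (by omega) hn0 hL1 hrs hrs1 0 0 hη hη1).mono (le_max_right _ _) (by positivity)

open Classical in
/-- the concrete instance of `Hyp3` (general disorder) -/
theorem hyp3_of_S2P {d : ℕ} [NeZero d] (hd : 3 ≤ d) (h : Spec31.S2P d) {A rs r : ℝ} (hA : 0 < A)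
    (hA2 : A ^ 2 < 4 * ((d : ℝ) - 1)) (hr : 0 < r) (hrs : 0 < rs) (hrs1 : rs ≤ 1) :
    ∃ L : ℕ, ∃ hL : 1 ≤ L, ∃ C r1 s1 : ℝ, 0 < C ∧ 0 < r1 ∧ 0 < s1 ∧ ∃ N0 : ℕ, ∀ n : ℕ, N0 ≤ n →
      ∀ (E s η : ℝ) (ω : Fin n → ℝ), |E| ≤ A → |s| ≤ s1 → 0 < η → η ≤ 1 → (∀ v, |ω v| ≤ 1) →
        Hyp3 (fun (p : {p // p ∈ Ports n d}) h => SpecA.Dv rs p.1 s ω (ze E η) h)
          (fun p h (b : BI d L → HE n d) => swc hL p h b)
          (fun p h b => BVal L p.1 h b) (fun p h => TL L p.1 h) C r r1 (1 / (n * η)) := by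
  obtain ⟨L0, hL0⟩ := h A hA hA2 r hr
  set L : ℕ := max L0 1 with hLdef
  have hL : 1 ≤ L := le_max_right _ _
  obtain ⟨r1, ε, s1, hr1, hε, hs1, hS2⟩ := hL0 L (le_max_left _ _) hL
  set ρ : ℝ := min (r1 / 2) (min (1 / 32) (rs / 2)) with hρ
  have hρ0 : 0 < ρ := by rw [hρ]; positivity
  have hρ1 : ρ ≤ r1 / 2 := min_le_left _ _
  have hρ2 : ρ ≤ 1 / 32 := (min_le_right _ _).trans (min_le_left _ _)
  have hρ3 : ρ ≤ rs / 2 := (min_le_right _ _).trans (min_le_right _ _)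
  set Ca : ℝ := 2056 * Fintype.card (BI d L) with hCa
  set Cb : ℝ := 4 * (Fintype.card (BI d L) : ℝ) ^ 4 *
        (1 + (2 * (Fintype.card (SwInv356.BW d L) + 4 : ℝ) + 2 * 16) / ε ^ 2) ^ 2 with hCb
  have hCa0 : 0 ≤ Ca := by positivity
  have hCb0 : 0 ≤ Cb := by positivity
  refine ⟨L, hL, Ca + Cb + 1, ρ, min s1 1, by positivity, hρ0, by positivity,
    max (2 * SwInv356.Cinv d L) 1, fun n hn E s η ω hE hs hη hη1 hω => ?_⟩
  have hn0 : 0 < n := (le_max_right _ _).trans hn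
  have hn1 : 2 * SwInv356.Cinv d L ≤ n := (le_max_left _ _).trans hn
  have hR : Spec30.Rng A n E s η ω := ⟨hn0, hE, hs.trans (min_le_right _ _), hη, hη1, hω⟩
  have hκ : (0 : ℝ) ≤ 1 / (n * η) := by positivity
  refine ⟨fun F _ => ?_, fun G e he => ?_, fun G e m hv _ => hv.tl, fun G e m _ => ?_,
    fun G e _ => ?_⟩
  · convert trv_swc hL F
  · convert many_swc hn0 hn1 (mem_Ports.1 G.2) he
  · have h1 := stab_Vb (by omega : 2 ≤ d) hn0 hL hrs hrs1 s ω (E := E) hη hη1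
      (mem_Ports.1 G.2) (e, m)
    have e1 : ∀ p : {p // p ∈ Ports n d}, VV (fun (p : {p // p ∈ Ports n d}) h =>
        SpecA.Dv rs p.1 s ω (ze E η) h) p = nuAvg (Finset.univ : Finset (HE n d))
        (fun p h => DvA rs (mc d (ze E η)) (B0 p s ω (ze E η) h) ^ 2) p.1 := by
      intro p
      unfold VV av nuAvg
      rw [Finset.card_univ]
      rfl
    rw [e1, e1]
    refine h1.trans (mul_le_mul_of_nonneg_right ?_ hκ)
    linarith
  · have h1 := quad_of_S2 (L := L) hd (A := A) (rs := rs) hr hε hρ0 (by linarith)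
      (by linarith) (by linarith) hS2 hR (hs.trans (min_le_left _ _)) G hL e
    refine le_trans (le_of_eq ?_) (h1.trans ?_)
    · congr 1
    · apply mul_le_mul_of_nonneg_right _ (sq_nonneg _)
      linarith

theorem quadR_of_S2P {d : ℕ} [NeZero d] (hd : 3 ≤ d) {E : ℝ} (hE : E ^ 2 < 4 * ((d : ℝ) - 1))
    (h : Spec31.S2P d) {rs : ℝ} (hrs : 0 < rs) (hrs1 : rs ≤ 1) {r : ℝ} (hr : 0 < r) :
    ∃ L : ℕ, 1 ≤ L ∧ QuadR d E rs r (fun _ p h => TL L p h) := by
  obtain ⟨hA, hA2, hEA⟩ := Aof_spec hd hE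
  obtain ⟨L, hL, C, r1, s1, hC, hr1, hs1, N0, hN⟩ := hyp3_of_S2P hd h hA hA2 hr hrs hrs1
  refine ⟨L, hL, C, r1, hC, hr1, max N0 1, fun n hn _ η hη hη1 => ?_⟩
  have hn0 : 0 < n := (le_max_right _ _).trans hn
  have : Nonempty (HE n d) := ⟨(⟨0, hn0⟩, ⟨0, by omega⟩)⟩
  exact ⟨BI d L → HE n d, inferInstance, inferInstance, _, _,
    hN n ((le_max_left _ _).trans hn) E 0 η 0 hEA (by simpa using hs1.le) hη hη1 (by simp)⟩

/-- **(31.4), final form**: uniform integrability off the vertices all of whose half-edges have a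
non-tree ball of radius `L`. -/
theorem uniEscTL {d : ℕ} [NeZero d] (hd : 3 ≤ d) {E : ℝ} (hE : E ^ 2 < 4 * ((d : ℝ) - 1))
    (hS : Spec31.StepL d) (h2 : Spec31.S2P d) (hA : SpecA.ThmA d) :
    ∃ L : ℕ, 1 ≤ L ∧
      UniEsc d E (fun _ (p : Equiv.Perm _) v => ∀ i : Fin d, ¬ TL L p (v, i)) := by
  obtain ⟨rs, hrs, hrs1, hst⟩ := stepR_of_stepL hd hE hS
  obtain ⟨L, hL, hq⟩ := quadR_of_S2P hd hE h2 hrs hrs1 (r := min (rs / 2) (1 / 16))
    (by positivity)
  refine ⟨L, hL, uniEscH hd hE hrs hst hA hq fun n p v _ hv => ?_⟩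
  push Not at hv
  exact hv

end Crest.Agent.R166.Clean566
end

-- ▼ part R166/S2P_811
section

/-!
# Row 166, section 31.3 (helper811): at most two bad inputs

* `E2F d` : the tree estimate (31.2) with an arbitrary block on at most two leaves (helper263);
* `s2p_of` : `E2F d → Spec31.S2P d`;
* `quad_np` : the quadratic bound for the probability of a bad output.
-/

set_option autoImplicit false
set_option linter.unusedSectionVars false

open Matrix Finset

namespace Crest.Agent.R166.S2P811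

open Crest.Agent.R166 Crest.Agent.R166.Stab269 Crest.Agent.R166.TreeT327
open Crest.Agent.R166.SwP470 (BVal TL BI NZ np)
open Crest.Agent.R166.Dec598 (treeOut)
open Crest.Agent.R166.DecP789 (leafT)
open Crest.Agent.R166.Res598 (Siegel Near)
open Crest.Agent.R166.MuU395 (y00 y00_pos adm_of)
open Crest.Agent.R166.Rev811

set_option synthInstance.maxSize 4000
set_option synthInstance.maxHeartbeats 400000
set_option maxHeartbeats 1000000

/-- **(31.2)** the tree with an arbitrary Siegel block on at most two leaves -/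
def E2F (d : ℕ) [NeZero d] : Prop :=
  ∀ y0 : ℝ, 0 < y0 → ∃ C : ℝ, 0 < C ∧ ∃ L0 : ℕ, ∀ L : ℕ, L0 ≤ L → ∃ CL r0 : ℝ, 0 < CL ∧ 0 < r0 ∧
    ∀ z m : ℂ, 0 < z.im → TreeDet350.Adm (d - 1) y0 z m →
      ∀ (V : Tr Bool (NZ d) (L + 1) → ℝ) (sg : ℝ), (∀ x, |V x| ≤ sg) → sg ≤ r0 →
        ∀ A : Finset (Lay Bool (NZ d) (L + 1)), A.card ≤ 2 →
          ∀ Ξ : Matrix (Lay Bool (NZ d) (L + 1)) (Lay Bool (NZ d) (L + 1)) ℂ, Siegel Ξ →
            (∀ j, j ∉ A → ∀ k, Ξ j k = if k = j then Ξ j j else 0) →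
            (∀ j, j ∉ A → ‖Ξ j j - m‖ ≤ r0) → ∀ r r' : Bool,
              ‖treeOut (Res789.Res (hTree V) z) (par L) Ξ (root L r) (root L r') -
                (if r = r' then m else 0)‖ ≤
                C * ‖m‖ ^ (2 * L) + CL * (∑ j ∈ Aᶜ, ‖Ξ j j - m‖ + sg)

section entry

/-- a block near a block with entries close to `m I` -/
lemma bnorm_lt_of_near {m : ℂ} (hm : ‖m‖ ≤ 1) {κ e : ℝ} (hκ : 0 ≤ κ) (he : 0 ≤ e)
    {Bt B : Matrix (Fin 2) (Fin 2) ℂ} (hN : Near κ Bt B)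
    (hB : ∀ i j, ‖Bt i j - (if i = j then m else 0)‖ ≤ e) :
    bnorm (B - m • (1 : Matrix (Fin 2) (Fin 2) ℂ)) ≤ e + κ * (1 + e) := by
  have him : ∀ i, (Bt i i).im ≤ 1 + e := by
    intro i
    have h1 := hB i i
    rw [if_pos rfl] at h1
    have h2 : ‖Bt i i‖ ≤ ‖Bt i i - m‖ + ‖m‖ := by
      have := norm_add_le (Bt i i - m) m
      rwa [sub_add_cancel] at this
    have h3 := Complex.im_le_norm (Bt i i)
    linarith
  refine Shape395.bnorm_le fun i j => ?_
  have h1 := Shape395.near_entry hN i j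
  have h2 : Real.sqrt (Bt i i).im * Real.sqrt (Bt j j).im ≤ 1 + e := by
    have h3 : Real.sqrt (Bt i i).im ≤ Real.sqrt (1 + e) := Real.sqrt_le_sqrt (him i)
    have h4 : Real.sqrt (Bt j j).im ≤ Real.sqrt (1 + e) := Real.sqrt_le_sqrt (him j)
    calc Real.sqrt (Bt i i).im * Real.sqrt (Bt j j).im
        ≤ Real.sqrt (1 + e) * Real.sqrt (1 + e) :=
          mul_le_mul h3 h4 (Real.sqrt_nonneg _) (Real.sqrt_nonneg _)
      _ = 1 + e := Real.mul_self_sqrt (by linarith)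
  have h3 : ‖B i j - Bt i j‖ ≤ κ * (1 + e) := by
    refine h1.trans ?_
    rw [mul_assoc]
    exact mul_le_mul_of_nonneg_left h2 hκ
  have h4 : (B - m • (1 : Matrix (Fin 2) (Fin 2) ℂ)) i j =
      (B i j - Bt i j) + (Bt i j - (if i = j then m else 0)) := by
    rw [Matrix.sub_apply, Matrix.smul_apply, Matrix.one_apply]
    by_cases h : i = j
    · rw [if_pos h, if_pos h, smul_eq_mul, mul_one]; ring
    · rw [if_neg h, if_neg h, smul_zero]; ring
  rw [h4]
  refine (norm_add_le _ _).trans ?_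
  have h5 := hB i j
  linarith

end entry

variable {n d : ℕ} [NeZero d]

/-- reindexing of (31.2) to the leaves `BI d (L+1)` -/
lemma e2_bi {L : ℕ} {C CL r0 : ℝ} {z m : ℂ} {e0 : ℝ}
    (h : ∀ (V : Tr Bool (NZ d) (L + 1) → ℝ) (sg : ℝ), (∀ x, |V x| ≤ sg) → sg ≤ r0 →
        ∀ A : Finset (Lay Bool (NZ d) (L + 1)), A.card ≤ 2 →
          ∀ Ξ : Matrix (Lay Bool (NZ d) (L + 1)) (Lay Bool (NZ d) (L + 1)) ℂ, Siegel Ξ →
            (∀ j, j ∉ A → ∀ k, Ξ j k = if k = j then Ξ j j else 0) →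
            (∀ j, j ∉ A → ‖Ξ j j - m‖ ≤ r0) → ∀ r r' : Bool,
              ‖treeOut (Res789.Res (hTree V) z) (par L) Ξ (root L r) (root L r') -
                (if r = r' then m else 0)‖ ≤
                C * ‖m‖ ^ (2 * L) + CL * (∑ j ∈ Aᶜ, ‖Ξ j j - m‖ + sg))
    (hz : 0 < z.im) (V : Tr Bool (NZ d) (L + 1) → ℝ) (sg : ℝ) (hV : ∀ x, |V x| ≤ sg)
    (hsg : sg ≤ r0) (A : Finset (BI d (L + 1))) (hA : A.card ≤ 2)
    (Ξ : Matrix (BI d (L + 1)) (BI d (L + 1)) ℂ) (hΞ : Siegel Ξ) (hCL : 0 ≤ CL)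
    (hd : ∀ j, j ∉ A → ∀ k, Ξ j k = if k = j then Ξ j j else 0)
    (hr : ∀ j, j ∉ A → ‖Ξ j j - m‖ ≤ r0)
    (he : ∀ j, j ∉ A → ‖Ξ j j - m‖ ≤ e0) (he0 : 0 ≤ e0) (r r' : Bool) :
    ‖treeOut (Res789.Res (hTree V) z) (leafT L) Ξ (root L r) (root L r') -
      (if r = r' then m else 0)‖ ≤
      C * ‖m‖ ^ (2 * L) + CL * (Fintype.card (BI d (L + 1)) * e0 + sg) := by
  classical
  -- the equivalence of the leaves
  set σ : BI d (L + 1) ≃ Lay Bool (NZ d) (L + 1) := layE (L + 1) with hσ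
  have hRT : Siegel (Res789.Res (hTree V) z) := (Res789.Res_sieg (hTree_symm _) hz).siegel
  have hΞ' : Siegel (Ξ.submatrix σ.symm σ.symm) := hΞ.sub σ.symm.injective
  have e1 := Dec598.treeOut_reindex σ hRT (par L) hΞ'
  have e2 : (Ξ.submatrix σ.symm σ.symm).submatrix σ σ = Ξ := by
    ext i j; simp
  rw [e2] at e1
  have e3 : (par L ∘ σ : BI d (L + 1) → Tr Bool (NZ d) (L + 1)) = leafT L := rfl
  rw [e3] at e1
  have key := h V sg hV hsg (A.map σ.toEmbedding) (by rw [Finset.card_map]; exact hA)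
    (Ξ.submatrix σ.symm σ.symm) hΞ' (by
      intro j hj k
      have hj' : σ.symm j ∉ A := fun hc => hj (Finset.mem_map.2 ⟨_, hc, by simp⟩)
      rw [Matrix.submatrix_apply, Matrix.submatrix_apply, hd _ hj']
      by_cases hk : k = j
      · subst hk; simp
      · rw [if_neg hk, if_neg (fun hc => hk (σ.symm.injective hc))]) (by
      intro j hj
      have hj' : σ.symm j ∉ A := fun hc => hj (Finset.mem_map.2 ⟨_, hc, by simp⟩)
      exact hr _ hj') r r'
  rw [e1]
  refine key.trans ?_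
  have hsum : ∑ j ∈ (A.map σ.toEmbedding)ᶜ, ‖(Ξ.submatrix σ.symm σ.symm) j j - m‖ ≤
      Fintype.card (BI d (L + 1)) * e0 := by
    calc ∑ j ∈ (A.map σ.toEmbedding)ᶜ, ‖(Ξ.submatrix σ.symm σ.symm) j j - m‖
        ≤ ∑ _j ∈ (A.map σ.toEmbedding)ᶜ, e0 := by
          refine Finset.sum_le_sum fun j hj => ?_
          have hj' : σ.symm j ∉ A := fun hc => (Finset.mem_compl.1 hj)
            (Finset.mem_map.2 ⟨_, hc, by simp⟩)
          exact he _ hj'
      _ = ((A.map σ.toEmbedding)ᶜ).card * e0 := by rw [Finset.sum_const, nsmul_eq_mul]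
      _ ≤ _ := by
          apply mul_le_mul_of_nonneg_right _ he0
          have h5 : ((A.map σ.toEmbedding)ᶜ).card ≤ Fintype.card (Lay Bool (NZ d) (L + 1)) :=
            Finset.card_le_univ _
          rw [← Fintype.card_congr σ] at h5
          exact_mod_cast h5
  have : CL * (∑ j ∈ (A.map σ.toEmbedding)ᶜ, ‖(Ξ.submatrix σ.symm σ.symm) j j - m‖ + sg) ≤
      CL * (Fintype.card (BI d (L + 1)) * e0 + sg) :=
    mul_le_mul_of_nonneg_left (by linarith) hCL
  linarith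

/-- **(S2)** -/
theorem s2p_of (hd : 3 ≤ d) (hE2 : E2F d) : Spec31.S2P d := by
  classical
  intro A hA0 hA r hr
  have hy0 : 0 < y00 d A := y00_pos (by omega) hA
  have hy1 : y00 d A ≤ 1 := GoodE789.y00_le_one hd hA
  obtain ⟨C, hC, L0, hL0⟩ := hE2 (y00 d A) hy0
  -- the depth
  obtain ⟨l1, hl1⟩ : ∃ l1 : ℕ, C * ((9 / 16 : ℝ)) ^ l1 ≤ r / 8 := by
    have h1 := tendsto_pow_atTop_nhds_zero_of_lt_one (r := (9 / 16 : ℝ)) (by norm_num) (by norm_num)
    have h2 : 0 < r / 8 / C := by positivity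
    have h3 := h1.eventually (gt_mem_nhds h2)
    obtain ⟨l1, h4⟩ := h3.exists
    refine ⟨l1, ?_⟩
    rw [lt_div_iff₀ hC] at h4
    linarith
  refine ⟨max L0 l1 + 1, fun L' hL' _ => ?_⟩
  obtain ⟨L, rfl⟩ : ∃ L, L' = L + 1 := ⟨L' - 1, by omega⟩
  have hLL0 : L0 ≤ L := (le_max_left L0 l1).trans (by omega)
  have hLl1 : l1 ≤ L := (le_max_right L0 l1).trans (by omega)
  obtain ⟨CL, r0, hCL, hr0, key⟩ := hL0 L hLL0
  set N : ℝ := (Fintype.card (BI d (L + 1)) : ℝ) with hN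
  have hN0 : 0 ≤ N := Nat.cast_nonneg _
  set y0 := y00 d A with hy0def
  have hCE := GoodE789.CEc_pos (c := y0 / 8) (by positivity)
  set CE := GoodE789.CEc (y0 / 8) with hCEdef
  -- small total error
  set τ : ℝ := min (1 / 8) (r / (32 * (1 + r))) with hτ
  have hτ0 : 0 < τ := lt_min (by norm_num) (by positivity)
  have hτ1 : τ ≤ 1 / 8 := min_le_left _ _
  have hτ2 : τ * (32 * (1 + r)) ≤ r := by
    have := min_le_right (1 / 8) (r / (32 * (1 + r)))
    rwa [← hτ, le_div_iff₀ (by positivity)] at this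
  set r1 : ℝ := min (min (y0 / 800) r0) (min (τ * y0 / 2) (r / (16 * CL * (N + 1)))) with hr1
  have hr1pos : 0 < r1 := lt_min (lt_min (by positivity) hr0) (lt_min (by positivity) (by positivity))
  have hr1a : r1 ≤ y0 / 800 := (min_le_left _ _).trans (min_le_left _ _)
  have hr1b : r1 ≤ r0 := (min_le_left _ _).trans (min_le_right _ _)
  have hr1c : r1 ≤ τ * y0 / 2 := (min_le_right _ _).trans (min_le_left _ _)
  have hr1d : r1 * (16 * CL * (N + 1)) ≤ r := by
    have := (min_le_right (min (y0 / 800) r0) (min (τ * y0 / 2) (r / (16 * CL * (N + 1))))).trans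
      (min_le_right _ _)
    rwa [← hr1, le_div_iff₀ (by positivity)] at this
  set ε : ℝ := τ / (CE * (N + N ^ 2 + 1)) with hε
  have hε0 : 0 < ε := by positivity
  have hε1 : CE * ((N + N ^ 2) * ε) ≤ τ := by
    have h1 : ε * (CE * (N + N ^ 2 + 1)) = τ := by
      rw [hε]; field_simp
    have h2 : 0 ≤ CE * ε := by positivity
    nlinarith
  set s1 : ℝ := min r0 (r / (16 * CL)) with hs1
  have hs1pos : 0 < s1 := lt_min hr0 (by positivity)
  have hs1a : s1 ≤ r0 := min_le_left _ _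
  have hs1b : s1 * (16 * CL) ≤ r := by
    have := min_le_right r0 (r / (16 * CL))
    rwa [← hs1, le_div_iff₀ (by positivity)] at this
  refine ⟨r1, ε, s1, hr1pos, hε0, hs1pos, ?_⟩
  intro n E s η ω hR hs p hp h0 b hb S hS hadmP
  have hz : 0 < (ze E η).im := by simpa [ze] using hR.η0
  have hadm := adm_of hd hA hR.E hR.η0 hR.η1
  have hm34 := hadm.norm_le
  set z := ze E η with hzdef
  set m := mc d z with hm
  have hrs : GoodE789.RsOK d A r1 := ⟨hr1pos, hr1a⟩
  have hgood : ∀ j, j ∉ S → SpecA.Dv r1 p s ω z (b j) < r1 := fun j hj =>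
    GoodE789.good_of_adm hadmP hj
  -- decoupling
  have hκ : DecP789.cE (DecP789.S0t p h0 L) (ShapeT598.RR p s ω z) p b S (y0 / 8) ≤ τ := by
    refine (GoodE789.cE_le (by positivity) p h0 L b S s ω z).trans ?_
    refine le_trans ?_ hε1
    exact mul_le_mul_of_nonneg_left (GoodE789.cEs_le_of_adm hε0.le hadmP) hCE.le
  obtain ⟨Ξ, g1, g2, g3⟩ := ShapeT598.tree_gen hp hb S s ω hz (c := y0 / 8) (by positivity)
    (fun j hj y => GoodE789.qf_ge hd hA hrs hp hR.E hR.η0 hR.η1 (hgood j hj) y)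
    (ρ := τ) hτ0.le (by linarith) (by
      intro j hj
      have h1 := GoodE789.off_le (hgood j hj) (i := 0) (j := 1) (by decide)
      have h2 := GoodE789.im_ge hd hA hrs hR.E hR.η0 hR.η1 (hgood j hj) 0
      have h3 := GoodE789.im_ge hd hA hrs hR.E hR.η0 hR.η1 (hgood j hj) 1
      have h4 : y0 / 2 ≤ Real.sqrt (B0 p s ω z (b j) 0 0).im *
          Real.sqrt (B0 p s ω z (b j) 1 1).im := by
        calc y0 / 2 = Real.sqrt (y0 / 2) * Real.sqrt (y0 / 2) :=
              (Real.mul_self_sqrt (by positivity)).symm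
          _ ≤ _ := mul_le_mul (Real.sqrt_le_sqrt h2) (Real.sqrt_le_sqrt h3)
              (Real.sqrt_nonneg _) (Real.sqrt_nonneg _)
      have h5 := (hgood j hj).le
      calc ‖B0 p s ω z (b j) 0 1‖ ≤ r1 := h1.trans h5
        _ ≤ τ * (y0 / 2) := by linarith
        _ ≤ _ := mul_le_mul_of_nonneg_left h4 hτ0.le) hκ (by linarith)
  -- the tree
  have hΞd : ∀ j, j ∉ S → Ξ j j = B0 p s ω z (b j) 0 0 := by
    intro j hj
    rw [g2 j hj j, if_pos rfl]
  have hdev : ∀ j, j ∉ S → ‖Ξ j j - m‖ ≤ r1 := by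
    intro j hj
    rw [hΞd j hj]
    exact (GoodE789.entry_sub_le (hgood j hj) 0).trans (hgood j hj).le
  have htree := fun r' r'' => e2_bi (key z m hz hadm) hz (DecP789.Vt p h0 (L + 1) s ω) s1
    (fun x => by
      unfold DecP789.Vt
      rw [abs_mul]
      calc |s| * |ω (DecP789.phi p h0 (L + 1) x)| ≤ |s| * 1 :=
            mul_le_mul_of_nonneg_left (hR.ω _) (abs_nonneg _)
        _ ≤ s1 := by rw [mul_one]; exact hs) hs1a S hS Ξ g1 hCL.le
    (fun j hj k => by rw [g2 j hj k, g2 j hj j, if_pos rfl])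
    (fun j hj => (hdev j hj).trans hr1b) hdev hr1pos.le r' r''
  set e : ℝ := C * ‖m‖ ^ (2 * L) + CL * (N * r1 + s1) with he
  have he0 : 0 ≤ e := by positivity
  have he1 : e ≤ r / 4 := by
    have h1 : C * ‖m‖ ^ (2 * L) ≤ r / 8 := by
      refine le_trans (mul_le_mul_of_nonneg_left ?_ hC.le) hl1
      calc ‖m‖ ^ (2 * L) = (‖m‖ ^ 2) ^ L := by rw [pow_mul]
        _ ≤ (9 / 16 : ℝ) ^ L := by
            apply pow_le_pow_left₀ (sq_nonneg _)
            calc ‖m‖ ^ 2 ≤ (3 / 4 : ℝ) ^ 2 := pow_le_pow_left₀ (norm_nonneg _) hm34 2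
              _ = 9 / 16 := by norm_num
        _ ≤ (9 / 16 : ℝ) ^ l1 := pow_le_pow_of_le_one (by norm_num) (by norm_num) hLl1
    have h2 : CL * (N * r1) ≤ r / 16 := by
      have h3 : 0 ≤ r1 * CL := by positivity
      nlinarith
    have h4 : CL * s1 ≤ r / 16 := by nlinarith
    rw [he]
    linarith
  have hfin := bnorm_lt_of_near (m := m) (hm34.trans (by norm_num)) (κ := 4 * τ + 4 * τ)
    (by positivity) he0 g3 (by
      intro i j
      have h1 : ∀ x : Fin 2, (![root L false, root L true] x : Tr Bool (NZ d) (L + 1)) =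
          root L (if x = 0 then false else true) := by
        intro x; fin_cases x <;> rfl
      rw [Matrix.submatrix_apply, h1, h1]
      have h2 := htree (if i = 0 then false else true) (if j = 0 then false else true)
      have h3 : ((if i = 0 then false else true) = (if j = 0 then false else true)) ↔ i = j := by
        fin_cases i <;> fin_cases j <;> simp
      simp only [h3] at h2
      exact h2)
  have hlast : e + (4 * τ + 4 * τ) * (1 + e) < r := by
    have h1 : (4 * τ + 4 * τ) * (1 + e) ≤ (8 * τ) * (1 + r) := by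
      have : e ≤ r := by linarith
      nlinarith
    nlinarith
  unfold SpecA.dev
  exact lt_of_le_of_lt hfin hlast





end Crest.Agent.R166.S2P811
end

-- ▼ part R166/TreeE2_263
section

/-!
Row 166, section 31.2 (helper263): non-fatality of two arbitrary inputs.

`treeB z L V Z` with all inputs within `ε` of `m` except an arbitrary symmetric block with
nonnegative imaginary part on two inputs `i, k`: all entries of the root block minus `m • 1` are
`≤ C ‖m‖ ^ (2 (L - 1)) + C_L (ε + σ)`.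
-/

set_option autoImplicit false
set_option linter.unusedSectionVars false
set_option linter.unusedVariables false

namespace Crest.Agent.R166.TreeE2263

open Matrix TreeT327 TreeL327 TreeB327 TreeDet350 Mob327

/-! ### constants and scalar steps -/

/-- the clean path parameter -/
noncomputable def cc (b : ℕ) (z m : ℂ) : ℂ := z + ((b : ℂ) - 1) * m

/-- growth of the errors per layer -/
noncomputable def Kc (b : ℕ) (y0 : ℝ) : ℝ := 1 + b / y0 + 8 * (b + 1) / y0 ^ 2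

section scalar

variable {b : ℕ} {y0 : ℝ} {z m : ℂ}

lemma one_le_Kc (hy : 0 < y0) : 1 ≤ Kc b y0 := by
  unfold Kc
  have h1 : 0 ≤ (b : ℝ) / y0 := by positivity
  have h2 : 0 ≤ 8 * ((b : ℝ) + 1) / y0 ^ 2 := by positivity
  linarith

lemma cc_mul (h : Adm b y0 z m) : m * (cc b z m + m) = -1 := by
  rw [← h.hm, cc]; ring

lemma cc_im (h : Adm b y0 z m) : y0 ≤ (cc b z m).im := by
  have h1 : (cc b z m).im = z.im + ((b : ℝ) - 1) * m.im := by
    rw [cc, Complex.add_im]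
    have : (((b : ℂ) - 1) * m).im = ((b : ℝ) - 1) * m.im := by
      have e : ((b : ℂ) - 1) = (((b : ℝ) - 1 : ℝ) : ℂ) := by push_cast; ring
      rw [e, Complex.im_ofReal_mul]
    rw [this]
  rw [h1]
  have h2 := h.b2
  have h3 := h.him
  have h4 := h.hz
  have h5 := h.im_pos
  nlinarith

lemma m_lt_one (h : Adm b y0 z m) : ‖m‖ < 1 := lt_of_le_of_lt h.norm_le (by norm_num)

lemma tau_ge (h : Adm b y0 z m) : m.im ^ 2 / 2 ≤ tau m := by
  unfold tau
  have h1 := h.normSq_le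
  rw [← Adm.sq_norm] at h1
  have := sq_nonneg m.im
  nlinarith

/-- if `τ a ≤ q (2 Im m)` then `a ≤ (4/y0) q` -/
lemma tau1 (h : Adm b y0 z m) {a q : ℝ} (hq : 0 ≤ q) (ha : tau m * a ≤ q * (2 * m.im)) :
    a ≤ 4 / y0 * q := by
  have h1 := tau_ge h
  have h2 := h.im_pos
  have h3 := h.him
  have hy := h.hy
  rcases le_or_gt a 0 with h4 | h4
  · have : 0 ≤ 4 / y0 * q := by positivity
    linarith
  · have h5 : m.im ^ 2 / 2 * a ≤ q * (2 * m.im) := (mul_le_mul_of_nonneg_right h1 h4.le).trans ha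
    have h6 : m.im * a ≤ 4 * q := by
      have : m.im * (m.im * a) ≤ m.im * (4 * q) := by nlinarith
      exact le_of_mul_le_mul_left this h2
    have h7 : y0 * a ≤ 4 * q := (mul_le_mul_of_nonneg_right h3 h4.le).trans h6
    rw [div_mul_eq_mul_div, le_div_iff₀ hy]
    linarith

lemma tau2 (h : Adm b y0 z m) {a q : ℝ} (hq : 0 ≤ q) (ha : tau m * a ≤ q * 2) :
    a ≤ 4 / y0 ^ 2 * q := by
  have h1 := tau_ge h
  have h2 := h.im_pos
  have h3 := h.him
  have hy := h.hy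
  rcases le_or_gt a 0 with h4 | h4
  · have : 0 ≤ 4 / y0 ^ 2 * q := by positivity
    linarith
  · have h5 : m.im ^ 2 / 2 * a ≤ q * 2 := (mul_le_mul_of_nonneg_right h1 h4.le).trans ha
    have h6 : y0 ^ 2 ≤ m.im ^ 2 := by nlinarith
    have h7 : y0 ^ 2 * a ≤ 4 * q := by
      have := mul_le_mul_of_nonneg_right h6 h4.le
      linarith
    rw [div_mul_eq_mul_div, le_div_iff₀ (by positivity)]
    linarith

/-- first bound of the scalar iterates -/
lemma iter1 (h : Adm b y0 z m) {x : ℂ} (hx : 0 ≤ x.im) {k : ℕ} (hk : 1 ≤ k) :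
    ‖(T (cc b z m))^[k] x - m‖ ≤ 4 / y0 * ‖m‖ ^ (2 * k) :=
  tau1 h (by positivity) (T_iter_bound (cc_mul h) (m_lt_one h) h.im_pos hx hk).1

/-- second bound of the scalar iterates -/
lemma iter2 (h : Adm b y0 z m) {x : ℂ} (hx : 0 ≤ x.im) (k : ℕ) :
    ‖(T (cc b z m))^[k] x - m‖ ≤ 4 / y0 ^ 2 * (‖m‖ ^ (2 * k) * ‖x - m‖) := by
  rcases Nat.eq_zero_or_pos k with rfl | hk
  · simp only [Function.iterate_zero, id_eq, mul_zero, pow_zero, one_mul]
    have h1 : 1 ≤ 4 / y0 ^ 2 := by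
      rw [le_div_iff₀ (pow_pos h.hy 2)]
      have := h.y0_le
      have := h.hy
      nlinarith
    have := norm_nonneg (x - m)
    nlinarith
  · refine tau2 h (by positivity) ?_
    have := (T_iter_bound (cc_mul h) (m_lt_one h) h.im_pos hx hk).2
    linarith

variable {β : Type*} [Fintype β] [DecidableEq β]

/-- all children good -/
lemma good_step (h : Adm b y0 z m) (hb : Fintype.card β = b) {X : β → ℂ} {V σ a0 : ℝ}
    (hV : |V| ≤ σ) (ha : a0 ≤ y0 / 8) (hX : ∀ a, ‖X a - m‖ + σ ≤ a0) :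
    ‖-(z - V + ∑ a, X a)⁻¹ - m‖ + σ ≤ Kc b y0 * a0 := by
  have hy := h.hy
  have hb2 := h.b2
  have hσ : 0 ≤ σ := (abs_nonneg _).trans hV
  have hX' : ∀ a, ‖X a - m‖ ≤ a0 := fun a => by linarith [hX a]
  have hne : Nonempty β := by
    rw [← Fintype.card_pos_iff, hb]
    have := h.hb
    omega
  obtain ⟨a1⟩ := hne
  have hσa : σ ≤ a0 := by linarith [hX a1, norm_nonneg (X a1 - m)]
  have ha0 : 0 ≤ a0 := hσ.trans hσa
  -- imaginary part
  have him : ∀ a, y0 / 2 ≤ (X a).im := by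
    intro a
    have h1 := (Complex.abs_im_le_norm (X a - m)).trans (hX' a)
    rw [Complex.sub_im, abs_le] at h1
    linarith [h.him, h1.1]
  have hIm : y0 ≤ (z - V + ∑ a, X a).im := by
    have h1 : (z - V + ∑ a, X a).im = z.im + ∑ a, (X a).im := by
      simp [Complex.im_sum]
    rw [h1]
    have h2 : ∑ a : β, y0 / 2 ≤ ∑ a, (X a).im := Finset.sum_le_sum fun a _ => him a
    rw [Finset.sum_const, Finset.card_univ, hb, nsmul_eq_mul] at h2
    nlinarith [h.hz]
  have e1 : -(z - V + ∑ a, X a)⁻¹ = T (z - V) (∑ a, X a) := rfl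
  have e2 : m = T z (b * m) := by
    have h3 : z + b * m = -(m⁻¹) := by
      have hm0 := h.ne_zero
      have := h.hm
      field_simp
      linear_combination this
    rw [T, h3, inv_neg, inv_inv, neg_neg]
  have hn1 : z - V + ∑ a, X a ≠ 0 := by
    intro h0; rw [h0, Complex.zero_im] at hIm; linarith
  have hn2 : z + b * m ≠ 0 := by
    intro h0
    have := h.hm
    rw [h0, mul_zero] at this
    exact absurd this (by norm_num)
  have e3 : T (z - V) (∑ a, X a) - m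
      = (((z - V) - z) + ((∑ a, X a) - b * m)) * T (z - V) (∑ a, X a) * m := by
    have := T_sub_T hn1 hn2
    rw [← e2] at this
    exact this
  rw [e1, e3, norm_mul, norm_mul]
  have hT : ‖T (z - V) (∑ a, X a)‖ ≤ y0⁻¹ := norm_T_le hy hIm
  have hm1 : ‖m‖ ≤ 1 := (m_lt_one h).le
  have hnum : ‖((z - V) - z) + ((∑ a, X a) - b * m)‖ ≤ σ + b * (a0 - σ) := by
    have e4 : ((z - V) - z) + ((∑ a, X a) - b * m) = -(V : ℂ) + ∑ a, (X a - m) := by
      rw [Finset.sum_sub_distrib, Finset.sum_const, Finset.card_univ, hb, nsmul_eq_mul]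
      ring
    rw [e4]
    refine (norm_add_le _ _).trans (add_le_add ?_ ?_)
    · rw [norm_neg, Complex.norm_real]; exact hV
    · refine (norm_sum_le _ _).trans ?_
      have : ∑ a : β, ‖X a - m‖ ≤ ∑ a : β, (a0 - σ) :=
        Finset.sum_le_sum fun a _ => by linarith [hX a]
      rwa [Finset.sum_const, Finset.card_univ, hb, nsmul_eq_mul] at this
  have hnum' : σ + b * (a0 - σ) ≤ b * a0 := by nlinarith
  have h5 : ‖((z - V) - z) + ((∑ a, X a) - b * m)‖ * ‖T (z - V) (∑ a, X a)‖ * ‖m‖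
      ≤ (b * a0) * y0⁻¹ * 1 := by
    have hba : 0 ≤ (b : ℝ) * a0 := by positivity
    exact mul_le_mul (mul_le_mul (hnum.trans hnum') hT (norm_nonneg _) hba) hm1 (norm_nonneg _)
      (by positivity)
  refine (add_le_add h5 hσa).trans ?_
  unfold Kc
  have h6 : 0 ≤ 8 * ((b : ℝ) + 1) / y0 ^ 2 * a0 := by positivity
  have e5 : (b : ℝ) * a0 * y0⁻¹ * 1 = b / y0 * a0 := by ring
  rw [e5]
  nlinarith

/-- one child excepted -/
lemma cpar_near (h : Adm b y0 z m) (hb : Fintype.card β = b) {X : β → ℂ} {V σ a0 : ℝ}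
    (hV : |V| ≤ σ) (ha : a0 ≤ y0 / 8) (hσa : σ ≤ a0) (a1 : β)
    (hX : ∀ a, a ≠ a1 → ‖X a - m‖ + σ ≤ a0) :
    ‖(z - V + ∑ a ∈ Finset.univ.erase a1, X a) - cc b z m‖ ≤ b * a0 ∧
      y0 / 2 ≤ (z - V + ∑ a ∈ Finset.univ.erase a1, X a).im := by
  have hy := h.hy
  have hb2 := h.b2
  have hσ : 0 ≤ σ := (abs_nonneg _).trans hV
  have ha0 : 0 ≤ a0 := hσ.trans hσa
  have hX' : ∀ a, a ≠ a1 → ‖X a - m‖ ≤ a0 := fun a h1 => by linarith [hX a h1]
  have hcard : (((Finset.univ : Finset β).erase a1).card : ℝ) = b - 1 := by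
    rw [Finset.card_erase_of_mem (Finset.mem_univ _), Finset.card_univ, hb]
    have := h.hb
    rw [Nat.cast_sub (by omega)]
    simp
  have hcardc : (((Finset.univ : Finset β).erase a1).card : ℂ) = b - 1 := by
    rw [Finset.card_erase_of_mem (Finset.mem_univ _), Finset.card_univ, hb]
    have := h.hb
    rw [Nat.cast_sub (by omega)]
    simp
  constructor
  · have e4 : (z - V + ∑ a ∈ Finset.univ.erase a1, X a) - cc b z m
        = -(V : ℂ) + ∑ a ∈ Finset.univ.erase a1, (X a - m) := by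
      rw [Finset.sum_sub_distrib, Finset.sum_const, nsmul_eq_mul, hcardc, cc]
      ring
    rw [e4]
    have h1 : ‖-(V : ℂ)‖ ≤ a0 := by rw [norm_neg, Complex.norm_real]; exact hV.trans hσa
    have h2 : ‖∑ a ∈ Finset.univ.erase a1, (X a - m)‖ ≤ (b - 1) * a0 := by
      refine (norm_sum_le _ _).trans ?_
      have : ∑ a ∈ Finset.univ.erase a1, ‖X a - m‖ ≤ ∑ a ∈ Finset.univ.erase a1, a0 :=
        Finset.sum_le_sum fun a ha => hX' a (Finset.ne_of_mem_erase ha)
      rwa [Finset.sum_const, nsmul_eq_mul, hcard] at this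
    have := norm_add_le (-(V : ℂ)) (∑ a ∈ Finset.univ.erase a1, (X a - m))
    linarith
  · have h1 : (z - V + ∑ a ∈ Finset.univ.erase a1, X a).im
        = z.im + ∑ a ∈ Finset.univ.erase a1, (X a).im := by
      simp [Complex.im_sum]
    rw [h1]
    have h2 : ∑ a ∈ Finset.univ.erase a1, y0 / 2 ≤ ∑ a ∈ Finset.univ.erase a1, (X a).im := by
      refine Finset.sum_le_sum fun a ha' => ?_
      have h3 := (Complex.abs_im_le_norm (X a - m)).trans (hX' a (Finset.ne_of_mem_erase ha'))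
      rw [Complex.sub_im, abs_le] at h3
      linarith [h.him, h3.1]
    rw [Finset.sum_const, nsmul_eq_mul, hcard] at h2
    nlinarith [h.hz]

/-- chain step with a reference value -/
lemma chain_step (h : Adm b y0 z m) {c x y : ℂ} {a0 : ℝ} (ha0 : 0 ≤ a0)
    (hc : ‖c - cc b z m‖ ≤ b * a0) (hci : y0 / 2 ≤ c.im) (hx : 0 ≤ x.im) (hy' : 0 ≤ y.im)
    (hxy : ‖x - y‖ ≤ a0) : ‖T c x - T (cc b z m) y‖ ≤ Kc b y0 * a0 := by
  have hy := h.hy
  have hci' := cc_im h
  have h1 : y0 / 2 ≤ (c + x).im := by rw [Complex.add_im]; linarith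
  have h2 : y0 ≤ (cc b z m + y).im := by rw [Complex.add_im]; linarith
  have hn1 : c + x ≠ 0 := by intro h0; rw [h0, Complex.zero_im] at h1; linarith
  have hn2 : cc b z m + y ≠ 0 := by intro h0; rw [h0, Complex.zero_im] at h2; linarith
  rw [T_sub_T hn1 hn2, norm_mul, norm_mul]
  have hT1 : ‖T c x‖ ≤ (y0 / 2)⁻¹ := norm_T_le (by positivity) h1
  have hT2 : ‖T (cc b z m) y‖ ≤ y0⁻¹ := norm_T_le hy h2
  have h3 : ‖(c - cc b z m) + (x - y)‖ ≤ (b + 1) * a0 := by
    refine (norm_add_le _ _).trans ?_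
    linarith
  have h4 : ‖(c - cc b z m) + (x - y)‖ * ‖T c x‖ * ‖T (cc b z m) y‖
      ≤ ((b + 1) * a0) * (y0 / 2)⁻¹ * y0⁻¹ :=
    mul_le_mul (mul_le_mul h3 hT1 (norm_nonneg _) (by positivity)) hT2 (norm_nonneg _)
      (by positivity)
  refine h4.trans ?_
  unfold Kc
  have e5 : ((b : ℝ) + 1) * a0 * (y0 / 2)⁻¹ * y0⁻¹ = 2 * (b + 1) / y0 ^ 2 * a0 := by
    field_simp
  rw [e5]
  have h6 : 0 ≤ (b : ℝ) / y0 * a0 := by positivity
  have h7 : 0 ≤ ((b : ℝ) + 1) / y0 ^ 2 * a0 := by positivity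
  have e6 : 2 * ((b : ℝ) + 1) / y0 ^ 2 * a0 = 2 * (((b : ℝ) + 1) / y0 ^ 2 * a0) := by ring
  have e7 : 8 * ((b : ℝ) + 1) / y0 ^ 2 * a0 = 8 * (((b : ℝ) + 1) / y0 ^ 2 * a0) := by ring
  rw [e6]
  have : (1 + (b : ℝ) / y0 + 8 * (b + 1) / y0 ^ 2) * a0
      = a0 + b / y0 * a0 + 8 * (((b : ℝ) + 1) / y0 ^ 2 * a0) := by ring
  rw [this]
  linarith

end scalar

/-! ### blocks -/

section block

variable {b : ℕ} {y0 : ℝ} {z m : ℂ}

/-- entries of minus the inverse of a matrix with `Im ≥ t` -/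
lemma entry_le {κ : Type*} [Fintype κ] [DecidableEq κ] {N : Matrix κ κ ℂ} {t : ℝ} (ht : 0 < t)
    (hu : IsUnit N.det)
    (hN : ∀ u : κ → ℂ, t * ∑ p, ‖u p‖ ^ 2 ≤ (star u ⬝ᵥ (N *ᵥ u)).im) (p q : κ) :
    ‖(-N⁻¹) p q‖ ≤ t⁻¹ := by
  set u : κ → ℂ := fun r => (-N⁻¹) r q with hudef
  have h1 : N *ᵥ u = -Pi.single q 1 := by
    have h2 : u = (-N⁻¹) *ᵥ Pi.single q 1 := by
      rw [mulVec_single_one]; rfl
    rw [h2, mulVec_mulVec, Matrix.mul_neg, mul_nonsing_inv _ hu, neg_mulVec, one_mulVec]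
  have h3 := hN u
  rw [h1] at h3
  have h4 : (star u ⬝ᵥ (-Pi.single q (1 : ℂ))).im = (u q).im := by
    rw [dotProduct_neg, dotProduct_single_one, Pi.star_apply, Complex.neg_im, Complex.star_def,
      Complex.conj_im, neg_neg]
  rw [h4] at h3
  have h5 : (u q).im ≤ ‖u q‖ := (le_abs_self _).trans (Complex.abs_im_le_norm _)
  have h6 : ∀ r, t * ‖u r‖ ^ 2 ≤ ‖u q‖ := by
    intro r
    have h7 : ‖u r‖ ^ 2 ≤ ∑ p, ‖u p‖ ^ 2 :=
      Finset.single_le_sum (f := fun p => ‖u p‖ ^ 2) (fun _ _ => by positivity)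
        (Finset.mem_univ r)
    have := mul_le_mul_of_nonneg_left h7 ht.le
    linarith
  have h8 : ‖u q‖ ≤ t⁻¹ := by
    have h9 := h6 q
    by_contra h10
    push Not at h10
    have h11 : 1 < t * ‖u q‖ := by
      have := mul_lt_mul_of_pos_left h10 ht
      rwa [mul_inv_cancel₀ ht.ne'] at this
    have h12 : 0 < ‖u q‖ := lt_trans (inv_pos.mpr ht) h10
    nlinarith
  have h13 := (h6 p).trans h8
  have h14 : ‖u p‖ ^ 2 ≤ t⁻¹ ^ 2 := by
    have h15 : t * ‖u p‖ ^ 2 ≤ t * (t⁻¹ ^ 2) := by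
      have : t * (t⁻¹ ^ 2) = t⁻¹ := by field_simp
      rw [this]; exact h13
    exact le_of_mul_le_mul_left h15 ht
  exact abs_le_of_sq_le_sq' h14 (by positivity) |>.2

/-- clean block iterates -/
noncomputable def Yit (c : ℂ) (A : Matrix (Fin 2) (Fin 2) ℂ) : ℕ → Matrix (Fin 2) (Fin 2) ℂ
  | 0 => A
  | j + 1 => -(Matrix.diagonal (fun _ => c) + Yit c A j)⁻¹

lemma Yit_NN {c : ℂ} (hc : 0 < c.im) {A : Matrix (Fin 2) (Fin 2) ℂ} (hA : NN A) :
    ∀ j, NN (Yit c A j)
  | 0 => hA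
  | j + 1 => NN.neg_inv ((NN_diagonal fun _ => hc.le).add (Yit_NN hc hA j))
      (diag_add_isUnit (Yit_NN hc hA j) fun _ => hc)

/-- the clean iterates are close to `m` -/
lemma Yit_near (h : Adm b y0 z m) {A : Matrix (Fin 2) (Fin 2) ℂ} (hA : NN A) {j : ℕ}
    (hj : 1 ≤ j) (a a' : Fin 2) :
    ‖Yit (cc b z m) A j a a' - (if a = a' then m else 0)‖ ≤ 4 / y0 * ‖m‖ ^ (2 * j) := by
  have hci : 0 < (cc b z m).im := lt_of_lt_of_le h.hy (cc_im h)
  let Y : ℕ → (EuclideanSpace ℂ (Fin 2) →ₗ[ℂ] EuclideanSpace ℂ (Fin 2)) := fun i =>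
    Matrix.toEuclideanLin (Yit (cc b z m) A i)
  have hYa : ∀ i (w : EuclideanSpace ℂ (Fin 2)),
      Y i w = WithLp.toLp 2 (Yit (cc b z m) A i *ᵥ w.ofLp) := fun i w => rfl
  have hY : ∀ i, i < j → ∀ w, Y (i + 1) (cc b z m • w + Y i w) = -w := by
    intro i _ w
    rw [hYa, hYa]
    have hu := diag_add_isUnit (Yit_NN hci hA i) (e := fun _ => cc b z m) fun _ => hci
    have e1 : (cc b z m • w + WithLp.toLp 2 (Yit (cc b z m) A i *ᵥ w.ofLp)).ofLp
        = (Matrix.diagonal (fun _ => cc b z m) + Yit (cc b z m) A i) *ᵥ w.ofLp := by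
      rw [add_mulVec]
      ext x
      simp
    rw [e1, mulVec_mulVec, Yit, Matrix.neg_mul, nonsing_inv_mul _ hu, neg_mulVec, one_mulVec]
    rfl
  have hA' : ∀ u : EuclideanSpace ℂ (Fin 2), 0 ≤ (inner ℂ u (Y 0 u)).im := by
    intro u
    rw [hYa, EuclideanSpace.inner_eq_star_dotProduct, dotProduct_comm]
    exact hA u.ofLp
  have key := iter_bound (cc_mul h) (m_lt_one h) h.im_pos Y hj hY hA'
    (EuclideanSpace.single a' (1 : ℂ))
  have hn1 : ‖EuclideanSpace.single a' (1 : ℂ)‖ = 1 := by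
    rw [EuclideanSpace.single, PiLp.norm_single, norm_one]
  rw [hn1, mul_one] at key
  have h1 := tau1 h (by positivity) key
  refine le_trans ?_ h1
  have h2 : (Y j (EuclideanSpace.single a' (1 : ℂ)) - m • EuclideanSpace.single a' (1 : ℂ)).ofLp a
      = Yit (cc b z m) A j a a' - (if a = a' then m else 0) := by
    rw [hYa]
    have : (EuclideanSpace.single a' (1 : ℂ)).ofLp = Pi.single a' 1 := rfl
    simp only [WithLp.ofLp_sub, WithLp.ofLp_smul, Pi.sub_apply, Pi.smul_apply, smul_eq_mul, this,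
      mulVec_single_one, Matrix.col_apply, Pi.single_apply]
    split_ifs <;> simp
  rw [← h2]
  exact PiLp.norm_apply_le _ a

/-- the perturbed block step -/
lemma block_step (h : Adm b y0 z m) {B Y B' : Matrix (Fin 2) (Fin 2) ℂ} {a0 : ℝ} (ha0 : 0 ≤ a0)
    (hB : NN B) (hY : NN Y) {c1 c2 : ℂ} (h1 : ‖c1 - cc b z m‖ ≤ b * a0) (h1i : y0 / 2 ≤ c1.im)
    (h2 : ‖c2 - cc b z m‖ ≤ b * a0) (h2i : y0 / 2 ≤ c2.im)
    (hBY : ∀ a a', ‖B a a' - Y a a'‖ ≤ a0)
    (hB' : (Matrix.diagonal ![c1, c2] + B) * B' = -1) (a a' : Fin 2) :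
    ‖B' a a' - (-(Matrix.diagonal (fun _ => cc b z m) + Y)⁻¹ : Matrix (Fin 2) (Fin 2) ℂ) a a'‖
      ≤ Kc b y0 * a0 := by
  have hy := h.hy
  have hci := cc_im h
  have hD : ∀ p, y0 / 2 ≤ ((![c1, c2] : Fin 2 → ℂ) p).im := by
    intro p; fin_cases p
    · exact h1i
    · exact h2i
  have hy2 : 0 < y0 / 2 := by positivity
  set P := Matrix.diagonal ![c1, c2] + B with hP
  set Q := Matrix.diagonal (fun _ : Fin 2 => cc b z m) + Y with hQ
  have hPu : IsUnit P.det := diag_add_isUnit hB fun p => lt_of_lt_of_le hy2 (hD p)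
  have hQu : IsUnit Q.det := diag_add_isUnit hY fun p => lt_of_lt_of_le hy hci
  have hB'' : B' = -P⁻¹ := by
    have := congrArg (fun X => P⁻¹ * X) hB'
    simp only [← Matrix.mul_assoc, nonsing_inv_mul _ hPu, Matrix.one_mul, Matrix.mul_neg,
      Matrix.mul_one] at this
    exact this
  have e1 : B' - (-Q⁻¹) = (-P⁻¹) * (P - Q) * (-Q⁻¹) := by
    have e0 : (-P⁻¹) * (P - Q) = -1 + P⁻¹ * Q := by
      rw [Matrix.mul_sub, Matrix.neg_mul, nonsing_inv_mul _ hPu, Matrix.neg_mul, sub_neg_eq_add]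
    rw [hB'', e0, Matrix.add_mul, Matrix.neg_mul, Matrix.one_mul, Matrix.mul_neg, Matrix.mul_assoc,
      mul_nonsing_inv _ hQu, Matrix.mul_one]
    abel
  have hPe : ∀ x y, ‖(-P⁻¹) x y‖ ≤ (y0 / 2)⁻¹ := fun x y =>
    entry_le hy2 hPu (fun u => form_ge hB hD u) x y
  have hQe : ∀ x y, ‖(-Q⁻¹) x y‖ ≤ y0⁻¹ := fun x y =>
    entry_le hy hQu (fun u => form_ge hY (fun _ => hci) u) x y
  have hPQ : ∀ x y, ‖(P - Q) x y‖ ≤ (b + 1) * a0 := by
    intro x y
    have hb : 0 ≤ (b : ℝ) * a0 := by positivity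
    rw [Matrix.sub_apply, hP, hQ, Matrix.add_apply, Matrix.add_apply, add_sub_add_comm]
    by_cases hxy : x = y
    · subst hxy
      rw [diagonal_apply_eq, diagonal_apply_eq]
      refine (norm_add_le _ _).trans ?_
      have h3 : ‖(![c1, c2] : Fin 2 → ℂ) x - cc b z m‖ ≤ b * a0 := by
        fin_cases x
        · exact h1
        · exact h2
      linarith [hBY x x]
    · rw [diagonal_apply_ne _ hxy, diagonal_apply_ne _ hxy, sub_zero, zero_add]
      linarith [hBY x y]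
  rw [← Matrix.sub_apply, e1, Matrix.mul_apply]
  simp only [Matrix.mul_apply, Fin.sum_univ_two]
  have hterm : ∀ x y, ‖(-P⁻¹) a x * (P - Q) x y * (-Q⁻¹) y a'‖
      ≤ (y0 / 2)⁻¹ * ((b + 1) * a0) * y0⁻¹ := by
    intro x y
    rw [norm_mul, norm_mul]
    exact mul_le_mul (mul_le_mul (hPe a x) (hPQ x y) (norm_nonneg _) (by positivity)) (hQe y a')
      (norm_nonneg _) (by positivity)
  have hsum : ‖((-P⁻¹) a 0 * (P - Q) 0 0 + (-P⁻¹) a 1 * (P - Q) 1 0) * (-Q⁻¹) 0 a' +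
      ((-P⁻¹) a 0 * (P - Q) 0 1 + (-P⁻¹) a 1 * (P - Q) 1 1) * (-Q⁻¹) 1 a'‖
      ≤ 4 * ((y0 / 2)⁻¹ * ((b + 1) * a0) * y0⁻¹) := by
    rw [add_mul, add_mul]
    refine (norm_add_le _ _).trans ?_
    have g1 := (norm_add_le ((-P⁻¹) a 0 * (P - Q) 0 0 * (-Q⁻¹) 0 a')
      ((-P⁻¹) a 1 * (P - Q) 1 0 * (-Q⁻¹) 0 a'))
    have g2 := (norm_add_le ((-P⁻¹) a 0 * (P - Q) 0 1 * (-Q⁻¹) 1 a')
      ((-P⁻¹) a 1 * (P - Q) 1 1 * (-Q⁻¹) 1 a'))
    linarith [hterm 0 0, hterm 1 0, hterm 0 1, hterm 1 1]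
  refine hsum.trans ?_
  unfold Kc
  have e5 : 4 * ((y0 / 2)⁻¹ * (((b : ℝ) + 1) * a0) * y0⁻¹) = 8 * (b + 1) / y0 ^ 2 * a0 := by
    field_simp
    ring
  rw [e5]
  have h6 : 0 ≤ (b : ℝ) / y0 * a0 := by positivity
  have : (1 + (b : ℝ) / y0 + 8 * (b + 1) / y0 ^ 2) * a0
      = a0 + b / y0 * a0 + 8 * ((b : ℝ) + 1) / y0 ^ 2 * a0 := by ring
  rw [this]
  linarith

end block

/-! ### the chain with one arbitrary input -/

section chain

variable {ρ β : Type} [Fintype ρ] [DecidableEq ρ] [Fintype β] [DecidableEq β]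
variable {b : ℕ} {y0 : ℝ} {z m : ℂ}

theorem diag_chain (h : Adm b y0 z m) (hz : 0 < z.im) (hb : Fintype.card β = b) {σ : ℝ}
    (hσ0 : 0 ≤ σ) : ∀ (l : ℕ) (V : Tr ρ β l → ℝ) (_ : ∀ x, |V x| ≤ σ) (X : Lay ρ β l → ℂ)
    (_ : ∀ p, 0 ≤ (X p).im) (i : Lay ρ β l) (a0 : ℝ) (_ : σ ≤ a0)
    (_ : Kc b y0 ^ l * a0 ≤ y0 / 8) (_ : ∀ p, p ≠ i → ‖X p - m‖ + σ ≤ a0) (y : ℂ)
    (_ : 0 ≤ y.im) (_ : ‖X i - y‖ ≤ a0),
    ∃ r0 : ρ, ∀ r r' : ρ, ‖treeB z l V (Matrix.diagonal X) r r' -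
      (if r = r' then (if r = r0 then (T (cc b z m))^[l] y else m) else 0)‖
        ≤ Kc b y0 ^ l * a0
  | 0, V, hV, X, hX, i, a0, hσ, ha, hg, y, hy, hxy => by
    refine ⟨i, fun r r' => ?_⟩
    have e1 : treeB z 0 V (Matrix.diagonal X) r r' = if r = r' then X r else 0 :=
      Matrix.diagonal_apply (n := ρ) (fun p : ρ => (X p : ℂ)) r r'
    rw [e1, pow_zero, one_mul]
    by_cases h1 : r = r'
    · rw [if_pos h1, if_pos h1]
      by_cases h2 : r = i
      · rw [if_pos h2, h2]; exact hxy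
      · rw [if_neg h2]
        have := hg r h2
        linarith
    · rw [if_neg h1, if_neg h1, sub_zero, norm_zero]
      linarith
  | l + 1, V, hV, X, hX, i, a0, hσ, ha, hg, y, hy, hxy => by
    have hK := one_le_Kc (b := b) h.hy
    have ha0 : 0 ≤ a0 := hσ0.trans hσ
    have hKl : 1 ≤ Kc b y0 ^ (l + 1) := one_le_pow₀ hK
    have ha8 : a0 ≤ y0 / 8 := by nlinarith
    set e : Lay ρ β l → ℂ := fun q => z - V (Sum.inr q) with he
    have hei : ∀ q, 0 < (e q).im := fun q => by simpa [he] using hz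
    have hstep : step (κ := Lay ρ β l) (β := β) e (Matrix.diagonal X)
        = Matrix.diagonal (fun p => -(e p + ∑ a, X (p, a))⁻¹) :=
      step_diagonal (κ := Lay ρ β l) (β := β) (e := e) (X := X) hX hei
    have e0 : treeB z (l + 1) V (Matrix.diagonal X) = treeB z l (fun x => V (Sum.inl x))
        (Matrix.diagonal (fun p => -(e p + ∑ a, X (p, a))⁻¹)) := by
      rw [← hstep]; rfl
    have hX' : ∀ p, 0 ≤ (-(e p + ∑ a, X (p, a))⁻¹ : ℂ).im := by
      intro p
      refine T_im_nonneg (c := e p) (x := ∑ a, X (p, a)) ?_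
      rw [Complex.add_im, Complex.im_sum]
      exact add_nonneg (hei p).le (Finset.sum_nonneg fun a _ => hX _)
    have hgood : ∀ p : Lay ρ β l, p ≠ i.1 →
        ‖-(e p + ∑ a, X (p, a))⁻¹ - m‖ + σ ≤ Kc b y0 * a0 := by
      intro p hp
      refine good_step h hb (hV _) ha8 fun a => hg _ ?_
      intro h1
      exact hp (congrArg Prod.fst (h1 : ((p, a) : Lay ρ β l × β) = i))
    have hcp := cpar_near h hb (X := fun a => X (i.1, a)) (hV (Sum.inr i.1)) ha8 hσ i.2
      (fun a ha1 => hg _ (by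
        intro h1
        exact ha1 (congrArg Prod.snd (h1 : ((i.1, a) : Lay ρ β l × β) = i))))
    have hch : ‖-(e i.1 + ∑ a, X (i.1, a))⁻¹ - T (cc b z m) y‖ ≤ Kc b y0 * a0 := by
      have h1 := chain_step h ha0 hcp.1 hcp.2 (hX i) hy hxy
      have e1 : e i.1 + ∑ a, X (i.1, a)
          = (z - V (Sum.inr i.1) + ∑ a ∈ Finset.univ.erase i.2, X (i.1, a)) + X i := by
        rw [← Finset.add_sum_erase _ (fun a => X (i.1, a)) (Finset.mem_univ i.2)]
        have : X (i.1, i.2) = X i := rfl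
        rw [this]
        simp only [he]
        ring
      rw [e1]
      exact h1
    have hσ' : σ ≤ Kc b y0 * a0 := by nlinarith
    have hy' : 0 ≤ (T (cc b z m) y).im := by
      refine T_im_nonneg ?_
      rw [Complex.add_im]
      linarith [cc_im h, h.hy]
    obtain ⟨r0, hr0⟩ := diag_chain h hz hb hσ0 l (fun x => V (Sum.inl x)) (fun x => hV _)
      (fun p => -(e p + ∑ a, X (p, a))⁻¹) hX' i.1 (Kc b y0 * a0) hσ'
      (by rw [← mul_assoc, ← pow_succ]; exact ha) hgood (T (cc b z m) y) hy' hch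
    refine ⟨r0, fun r r' => ?_⟩
    have h2 := hr0 r r'
    rw [e0, Function.iterate_succ_apply, pow_succ, mul_assoc]
    exact h2

/-- error bound of the clean part -/
noncomputable def C0 (y0 : ℝ) (k1 : ℕ) : ℝ := 64 / y0 ^ 4 + 4 / y0 * (1 / y0) ^ (2 * k1)

lemma m_pow_le (h : Adm b y0 z m) {k j : ℕ} (hj : j ≤ k) :
    1 ≤ (1 / y0) ^ (2 * k) * ‖m‖ ^ (2 * j) := by
  have hy := h.hy
  have h1 : y0 ≤ ‖m‖ := h.y0_le_norm
  have h2 : y0 ≤ 1 := h.y0_le.trans (by norm_num)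
  have h3 : y0 ^ (2 * k) ≤ ‖m‖ ^ (2 * j) :=
    (pow_le_pow_of_le_one hy.le h2 (by omega)).trans (pow_le_pow_left₀ hy.le h1 _)
  have h4 : (1 / y0) ^ (2 * k) * y0 ^ (2 * k) = 1 := by
    rw [← mul_pow, one_div, inv_mul_cancel₀ hy.ne', one_pow]
  calc (1 : ℝ) = (1 / y0) ^ (2 * k) * y0 ^ (2 * k) := h4.symm
    _ ≤ _ := mul_le_mul_of_nonneg_left h3 (by positivity)

/-- the sum of the entries of a block near `m • 1` -/
lemma sum_block (B Y : Matrix (Fin 2) (Fin 2) ℂ) {q : ℝ} (hq : ∀ a a', ‖B a a' - Y a a'‖ ≤ q) :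
    ‖(B 0 0 + B 0 1 + B 1 0 + B 1 1) - (Y 0 0 + Y 0 1 + Y 1 0 + Y 1 1)‖ ≤ 4 * q := by
  have e : (B 0 0 + B 0 1 + B 1 0 + B 1 1) - (Y 0 0 + Y 0 1 + Y 1 0 + Y 1 1)
      = (B 0 0 - Y 0 0) + (B 0 1 - Y 0 1) + (B 1 0 - Y 1 0) + (B 1 1 - Y 1 1) := by ring
  rw [e]
  have h1 := norm_add_le ((B 0 0 - Y 0 0) + (B 0 1 - Y 0 1) + (B 1 0 - Y 1 0)) (B 1 1 - Y 1 1)
  have h2 := norm_add_le ((B 0 0 - Y 0 0) + (B 0 1 - Y 0 1)) (B 1 0 - Y 1 0)
  have h3 := norm_add_le (B 0 0 - Y 0 0) (B 0 1 - Y 0 1)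
  linarith [hq 0 0, hq 0 1, hq 1 0, hq 1 1]


/-- merging step: the value at the common parent, compared with its clean reference -/
lemma merge_step (h : Adm b y0 z m) (hb : Fintype.card β = b) {Xg : β → ℂ} {V σ a0 : ℝ}
    (hV : |V| ≤ σ) (ha : a0 ≤ y0 / 8) (hσa : σ ≤ a0) {a1 a2 : β} (ha12 : a1 ≠ a2)
    (hX : ∀ a, a ≠ a1 → a ≠ a2 → ‖Xg a - m‖ + σ ≤ a0) (hXi : ∀ a, 0 ≤ (Xg a).im)
    {S Sy : ℂ} (hS : ‖S - Sy‖ ≤ 4 * a0) {q : ℝ} (hSy : ‖Sy - 2 * m‖ ≤ q) (hq : q ≤ y0 / 2) :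
    ∃ y : ℂ, 0 ≤ y.im ∧
      ‖-(z - V + (∑ a ∈ (Finset.univ.erase a1).erase a2, Xg a + S))⁻¹ - y‖ ≤ Kc b y0 * a0 ∧
      ‖y - m‖ ≤ q / y0 := by
  have hy := h.hy
  have hb2 := h.b2
  have hσ : 0 ≤ σ := (abs_nonneg _).trans hV
  have ha0 : 0 ≤ a0 := hσ.trans hσa
  have hmi := h.him
  have hSy' : m.im * 2 - q ≤ Sy.im := by
    have h1 := (Complex.abs_im_le_norm (Sy - 2 * m)).trans hSy
    rw [Complex.sub_im, abs_le] at h1
    have : ((2 : ℂ) * m).im = 2 * m.im := by simp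
    rw [this] at h1
    linarith [h1.1]
  have hS' : Sy.im - 4 * a0 ≤ S.im := by
    have h1 := (Complex.abs_im_le_norm (S - Sy)).trans hS
    rw [Complex.sub_im, abs_le] at h1
    linarith [h1.1]
  have hcard0 : (((Finset.univ : Finset β).erase a1).erase a2).card = b - 2 := by
    rw [Finset.card_erase_of_mem (Finset.mem_erase.mpr ⟨ha12.symm, Finset.mem_univ _⟩),
      Finset.card_erase_of_mem (Finset.mem_univ _), Finset.card_univ, hb]
    omega
  have hcard : ((((Finset.univ : Finset β).erase a1).erase a2).card : ℝ) = b - 2 := by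
    rw [hcard0, Nat.cast_sub h.hb]; simp
  have hcardc : ((((Finset.univ : Finset β).erase a1).erase a2).card : ℂ) = b - 2 := by
    rw [hcard0, Nat.cast_sub h.hb]; simp
  set c : ℂ := z + ((b : ℂ) - 2) * m with hc
  have hcim : 0 ≤ c.im := by
    have : c.im = z.im + ((b : ℝ) - 2) * m.im := by
      rw [hc, Complex.add_im]
      have e : ((b : ℂ) - 2) = (((b : ℝ) - 2 : ℝ) : ℂ) := by push_cast; ring
      rw [e, Complex.im_ofReal_mul]
    rw [this]
    have := h.hz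
    have := h.im_pos
    nlinarith
  have hI1 : y0 ≤ (c + Sy).im := by
    rw [Complex.add_im]; linarith
  have hsum : 0 ≤ (∑ a ∈ (Finset.univ.erase a1).erase a2, Xg a).im := by
    rw [Complex.im_sum]
    exact Finset.sum_nonneg fun a _ => hXi a
  have e0 : z - V + (∑ a ∈ (Finset.univ.erase a1).erase a2, Xg a + S)
      = (z - V + ∑ a ∈ (Finset.univ.erase a1).erase a2, Xg a) + S := by ring
  have hI2 : y0 ≤ ((z - V + ∑ a ∈ (Finset.univ.erase a1).erase a2, Xg a) + S).im := by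
    have : ((z - V + ∑ a ∈ (Finset.univ.erase a1).erase a2, Xg a) + S).im
        = z.im + (∑ a ∈ (Finset.univ.erase a1).erase a2, Xg a).im + S.im := by
      simp
    rw [this]
    have := h.hz
    linarith
  have hn1 : (z - V + ∑ a ∈ (Finset.univ.erase a1).erase a2, Xg a) + S ≠ 0 := by
    intro h0; rw [h0, Complex.zero_im] at hI2; linarith
  have hn2 : c + Sy ≠ 0 := by intro h0; rw [h0, Complex.zero_im] at hI1; linarith
  have e3 : c + 2 * m = -(m⁻¹) := by
    have hm0 := h.ne_zero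
    have := h.hm
    rw [hc]
    field_simp
    linear_combination this
  have hn3 : c + 2 * m ≠ 0 := by
    rw [e3]
    exact neg_ne_zero.mpr (inv_ne_zero h.ne_zero)
  have e4 : m = T c (2 * m) := by
    rw [T, e3, inv_neg, inv_inv, neg_neg]
  have hT1 : ‖T (z - V + ∑ a ∈ (Finset.univ.erase a1).erase a2, Xg a) S‖ ≤ y0⁻¹ :=
    norm_T_le hy hI2
  have hT2 : ‖T c Sy‖ ≤ y0⁻¹ := norm_T_le hy hI1
  refine ⟨T c Sy, T_im_nonneg (hy.le.trans hI1), ?_, ?_⟩
  · rw [e0]
    have e5 : -((z - V + ∑ a ∈ (Finset.univ.erase a1).erase a2, Xg a) + S)⁻¹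
        = T (z - V + ∑ a ∈ (Finset.univ.erase a1).erase a2, Xg a) S := rfl
    rw [e5, T_sub_T hn1 hn2, norm_mul, norm_mul]
    have h1 : ‖(z - V + ∑ a ∈ (Finset.univ.erase a1).erase a2, Xg a) - c‖ ≤ (b - 1) * a0 := by
      have e6 : (z - V + ∑ a ∈ (Finset.univ.erase a1).erase a2, Xg a) - c
          = -(V : ℂ) + ∑ a ∈ (Finset.univ.erase a1).erase a2, (Xg a - m) := by
        rw [Finset.sum_sub_distrib, Finset.sum_const, nsmul_eq_mul, hcardc, hc]
        ring
      rw [e6]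
      have h2 : ‖-(V : ℂ)‖ ≤ a0 := by rw [norm_neg, Complex.norm_real]; exact hV.trans hσa
      have h3 : ‖∑ a ∈ (Finset.univ.erase a1).erase a2, (Xg a - m)‖ ≤ (b - 2) * a0 := by
        refine (norm_sum_le _ _).trans ?_
        have : ∑ a ∈ (Finset.univ.erase a1).erase a2, ‖Xg a - m‖
            ≤ ∑ a ∈ (Finset.univ.erase a1).erase a2, a0 := by
          refine Finset.sum_le_sum fun a ha => ?_
          have h4 := Finset.mem_erase.mp ha
          have h5 := Finset.mem_erase.mp h4.2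
          linarith [hX a h5.1 h4.1]
        rwa [Finset.sum_const, nsmul_eq_mul, hcard] at this
      have := norm_add_le (-(V : ℂ)) (∑ a ∈ (Finset.univ.erase a1).erase a2, (Xg a - m))
      linarith
    have h2 : ‖(z - V + ∑ a ∈ (Finset.univ.erase a1).erase a2, Xg a) - c + (S - Sy)‖
        ≤ (b + 3) * a0 := by
      refine (norm_add_le _ _).trans ?_
      linarith
    have h3 : ‖(z - V + ∑ a ∈ (Finset.univ.erase a1).erase a2, Xg a) - c + (S - Sy)‖ *
        ‖T (z - V + ∑ a ∈ (Finset.univ.erase a1).erase a2, Xg a) S‖ * ‖T c Sy‖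
        ≤ ((b + 3) * a0) * y0⁻¹ * y0⁻¹ :=
      mul_le_mul (mul_le_mul h2 hT1 (norm_nonneg _) (by positivity)) hT2 (norm_nonneg _)
        (by positivity)
    refine h3.trans ?_
    unfold Kc
    have e7 : ((b : ℝ) + 3) * a0 * y0⁻¹ * y0⁻¹ = (b + 3) * (a0 / y0 ^ 2) := by
      field_simp
    have e8 : (1 + (b : ℝ) / y0 + 8 * (b + 1) / y0 ^ 2) * a0
        = a0 + b / y0 * a0 + 8 * (b + 1) * (a0 / y0 ^ 2) := by ring
    rw [e7, e8]
    have h6 : 0 ≤ (b : ℝ) / y0 * a0 := by positivity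
    have h7 : 0 ≤ a0 / y0 ^ 2 := by positivity
    nlinarith
  · have e9 : T c Sy - m = ((c - c) + (Sy - 2 * m)) * T c Sy * m := by
      have := T_sub_T hn2 hn3
      rw [← e4] at this
      exact this
    rw [e9, sub_self, zero_add, norm_mul, norm_mul]
    have hq0 : 0 ≤ q := (norm_nonneg _).trans hSy
    have h3 : ‖Sy - 2 * m‖ * ‖T c Sy‖ * ‖m‖ ≤ q * y0⁻¹ * 1 :=
      mul_le_mul (mul_le_mul hSy hT2 (norm_nonneg _) hq0) (m_lt_one h).le (norm_nonneg _)
        (by positivity)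
    rw [mul_one] at h3
    rwa [div_eq_mul_inv]

/-- collapsed entry at a common parent -/
lemma coll_merge {κ : Type*} [Fintype κ] [DecidableEq κ] {Z : Matrix (κ × β) (κ × β) ℂ}
    {p : κ} {a1 a2 : β} (ha : a1 ≠ a2) (hZ : Str (p, a1) (p, a2) Z) :
    coll Z p p = ∑ a ∈ (Finset.univ.erase a1).erase a2, Z (p, a) (p, a) +
      (Z (p, a1) (p, a1) + Z (p, a1) (p, a2) + Z (p, a2) (p, a1) + Z (p, a2) (p, a2)) := by
  have hz0 : ∀ a a', a ≠ a' → ¬ (a = a1 ∧ a' = a2) → ¬ (a = a2 ∧ a' = a1) →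
      Z (p, a) (p, a') = 0 := by
    intro a a' h1 h2 h3
    apply hZ
    · intro h; exact h1 (congrArg Prod.snd h)
    · rintro ⟨h4, h5⟩; exact h2 ⟨congrArg Prod.snd h4, congrArg Prod.snd h5⟩
    · rintro ⟨h4, h5⟩; exact h3 ⟨congrArg Prod.snd h4, congrArg Prod.snd h5⟩
  have hin : ∀ a, (∑ a', Z (p, a) (p, a')) = Z (p, a) (p, a) +
      ((if a = a1 then Z (p, a1) (p, a2) else 0) + (if a = a2 then Z (p, a2) (p, a1) else 0)) := by
    intro a
    by_cases h1 : a = a1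
    · subst h1
      rw [if_pos rfl, if_neg ha, add_zero]
      refine Finset.sum_eq_add a a2 ha ?_ (by simp) (by simp)
      intro c _ hc
      exact hz0 a c hc.1.symm (fun h => hc.2 h.2) (fun h => ha h.1)
    · by_cases h2 : a = a2
      · subst h2
        rw [if_neg h1, if_pos rfl, zero_add]
        refine Finset.sum_eq_add a a1 h1 ?_ (by simp) (by simp)
        intro c _ hc
        exact hz0 a c hc.1.symm (fun h => h1 h.1) (fun h => hc.2 h.2)
      · rw [if_neg h1, if_neg h2, add_zero, add_zero]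
        refine Finset.sum_eq_single a ?_ (by simp)
        intro c _ hc
        exact hz0 a c hc.symm (fun h => h1 h.1) (fun h => h2 h.1)
  have h1 : coll Z p p = ∑ a, ∑ a', Z (p, a) (p, a') := rfl
  rw [h1]
  simp only [hin]
  rw [Finset.sum_add_distrib, Finset.sum_add_distrib, Finset.sum_ite_eq' Finset.univ a1,
    Finset.sum_ite_eq' Finset.univ a2, if_pos (Finset.mem_univ _), if_pos (Finset.mem_univ _),
    ← Finset.add_sum_erase _ _ (Finset.mem_univ a1),
    ← Finset.add_sum_erase _ _ (Finset.mem_erase.mpr ⟨ha.symm, Finset.mem_univ a2⟩)]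
  ring

lemma four_le_C0 (h : Adm b y0 z m) (k1 : ℕ) : 4 / y0 ≤ C0 y0 k1 := by
  have hy := h.hy
  have h2 : y0 ≤ 1 := h.y0_le.trans (by norm_num)
  have h3 : 1 ≤ (1 / y0) ^ (2 * k1) := one_le_pow₀ (by rw [le_div_iff₀ hy]; linarith)
  unfold C0
  have h4 : 0 ≤ 64 / y0 ^ 4 := by positivity
  have h5 : 4 / y0 * 1 ≤ 4 / y0 * (1 / y0) ^ (2 * k1) :=
    mul_le_mul_of_nonneg_left h3 (by positivity)
  linarith

lemma m_pow_anti (h : Adm b y0 z m) {i j : ℕ} (hij : i ≤ j) : ‖m‖ ^ (2 * j) ≤ ‖m‖ ^ (2 * i) :=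
  pow_le_pow_of_le_one (norm_nonneg _) (m_lt_one h).le (by omega)

lemma m_pow_half (h : Adm b y0 z m) {i j : ℕ} (hij : i ≤ j) :
    ‖m‖ ^ (2 * j) ≤ (1 / 2) ^ i := by
  refine (m_pow_anti h hij).trans ?_
  rw [pow_mul]
  have h1 := h.normSq_le
  rw [← Adm.sq_norm] at h1
  exact pow_le_pow_left₀ (by positivity) h1 _

/-- final estimate when the pair merges -/
lemma merged_final (h : Adm b y0 z m) {k1 : ℕ} {l j : ℕ} (hL : k1 + 1 ≤ j + (l + 1))
    {y : ℂ} (hy' : 0 ≤ y.im)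
    (hcase : j < k1 ∨ ‖y - m‖ ≤ 16 / y0 * ‖m‖ ^ (2 * j) / y0) :
    ‖(T (cc b z m))^[l] y - m‖ ≤ C0 y0 k1 * ‖m‖ ^ (2 * (j + (l + 1) - 1)) := by
  have hy := h.hy
  have e1 : j + (l + 1) - 1 = j + l := by omega
  rw [e1]
  have e2 : ‖m‖ ^ (2 * (j + l)) = ‖m‖ ^ (2 * j) * ‖m‖ ^ (2 * l) := by
    rw [← pow_add]; congr 1; ring
  have hp1 : 0 ≤ ‖m‖ ^ (2 * j) := by positivity
  have hp2 : 0 ≤ ‖m‖ ^ (2 * l) := by positivity
  rcases hcase with hj | hj
  · have hl : 1 ≤ l := by omega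
    have h1 := iter1 h hy' hl
    refine h1.trans ?_
    have h2 := m_pow_le h (k := k1) (j := j) hj.le
    have h3 : ‖m‖ ^ (2 * l) ≤ (1 / y0) ^ (2 * k1) * ‖m‖ ^ (2 * j) * ‖m‖ ^ (2 * l) := by
      have := mul_le_mul_of_nonneg_right h2 hp2
      rwa [one_mul] at this
    calc 4 / y0 * ‖m‖ ^ (2 * l)
        ≤ 4 / y0 * ((1 / y0) ^ (2 * k1) * ‖m‖ ^ (2 * j) * ‖m‖ ^ (2 * l)) :=
          mul_le_mul_of_nonneg_left h3 (by positivity)
      _ = (4 / y0 * (1 / y0) ^ (2 * k1)) * ‖m‖ ^ (2 * (j + l)) := by rw [e2]; ring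
      _ ≤ C0 y0 k1 * ‖m‖ ^ (2 * (j + l)) := by
          refine mul_le_mul_of_nonneg_right ?_ (by positivity)
          unfold C0
          have h4 : 0 ≤ 64 / y0 ^ 4 := by positivity
          linarith
  · have h1 := iter2 h hy' l
    refine h1.trans ?_
    calc 4 / y0 ^ 2 * (‖m‖ ^ (2 * l) * ‖y - m‖)
        ≤ 4 / y0 ^ 2 * (‖m‖ ^ (2 * l) * (16 / y0 * ‖m‖ ^ (2 * j) / y0)) :=
          mul_le_mul_of_nonneg_left (mul_le_mul_of_nonneg_left hj hp2) (by positivity)
      _ = 64 / y0 ^ 4 * ‖m‖ ^ (2 * (j + l)) := by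
          rw [e2]; field_simp; ring
      _ ≤ C0 y0 k1 * ‖m‖ ^ (2 * (j + l)) := by
          refine mul_le_mul_of_nonneg_right ?_ (by positivity)
          unfold C0
          have h4 : 0 ≤ 4 / y0 * (1 / y0) ^ (2 * k1) := by positivity
          linarith

/-- the base of the induction -/
lemma base_case {κ : Type*} [Fintype κ] [DecidableEq κ] (h : Adm b y0 z m) {k1 : ℕ}
    {A0 : Matrix (Fin 2) (Fin 2) ℂ} (hA0 : NN A0) (Z : Matrix κ κ ℂ) (i k : κ) (hik : i ≠ k)
    (hStr : Str i k Z) {a0 : ℝ} (ha0 : 0 ≤ a0) (hg : ∀ p, p ≠ i → p ≠ k → ‖Z p p - m‖ ≤ a0)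
    {j : ℕ} (hj : 1 ≤ j) (hblk : ∀ a a', ‖blk Z i k a a' - Yit (cc b z m) A0 j a a'‖ ≤ a0)
    (r r' : κ) :
    ‖Z r r' - (if r = r' then m else 0)‖ ≤ C0 y0 k1 * ‖m‖ ^ (2 * (j + 0 - 1)) + a0 := by
  have hy := h.hy
  have hnear : ∀ a a', ‖blk Z i k a a' - (if a = a' then m else 0)‖
      ≤ C0 y0 k1 * ‖m‖ ^ (2 * (j + 0 - 1)) + a0 := by
    intro a a'
    have h1 := Yit_near h hA0 hj a a'
    have h2 := hblk a a'
    have h3 := norm_add_le (blk Z i k a a' - Yit (cc b z m) A0 j a a')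
      (Yit (cc b z m) A0 j a a' - (if a = a' then m else 0))
    rw [sub_add_sub_cancel] at h3
    have h4 : 4 / y0 * ‖m‖ ^ (2 * j) ≤ C0 y0 k1 * ‖m‖ ^ (2 * (j + 0 - 1)) :=
      mul_le_mul (four_le_C0 h k1) (m_pow_anti h (by omega)) (by positivity)
        ((by positivity : (0:ℝ) ≤ 4 / y0).trans (four_le_C0 h k1))
    linarith
  have hC : 0 ≤ C0 y0 k1 * ‖m‖ ^ (2 * (j + 0 - 1)) :=
    mul_nonneg ((by positivity : (0:ℝ) ≤ 4 / y0).trans (four_le_C0 h k1)) (by positivity)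
  by_cases hri : r = i ∧ r' = i
  · obtain ⟨rfl, rfl⟩ := hri
    have := hnear 0 0
    simpa [blk] using this
  by_cases hrk : r = k ∧ r' = k
  · obtain ⟨rfl, rfl⟩ := hrk
    have := hnear 1 1
    simpa [blk] using this
  by_cases hrik : r = i ∧ r' = k
  · obtain ⟨rfl, rfl⟩ := hrik
    have := hnear 0 1
    rw [if_neg (show ¬ ((0 : Fin 2) = 1) by decide)] at this
    rw [if_neg hik]
    simpa [blk] using this
  by_cases hrki : r = k ∧ r' = i
  · obtain ⟨rfl, rfl⟩ := hrki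
    have := hnear 1 0
    rw [if_neg (show ¬ ((1 : Fin 2) = 0) by decide)] at this
    rw [if_neg (fun h => hik h.symm)]
    simpa [blk] using this
  by_cases hrr : r = r'
  · subst hrr
    rw [if_pos rfl]
    have := hg r (fun h => hri ⟨h, h⟩) (fun h => hrk ⟨h, h⟩)
    linarith
  · rw [if_neg hrr, hStr r r' hrr hrik hrki, sub_zero, norm_zero]
    linarith

theorem block_chain (h : Adm b y0 z m) (hz : 0 < z.im) (hb : Fintype.card β = b) {σ : ℝ}
    (hσ0 : 0 ≤ σ) {k1 : ℕ} (hk0 : 1 ≤ k1) (hk1 : 16 / y0 * (1 / 2) ^ k1 ≤ y0 / 2)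
    {A0 : Matrix (Fin 2) (Fin 2) ℂ} (hA0 : NN A0) :
    ∀ (l : ℕ) (V : Tr ρ β l → ℝ) (_ : ∀ x, |V x| ≤ σ) (Z : Matrix (Lay ρ β l) (Lay ρ β l) ℂ)
    (_ : Zᵀ = Z) (_ : NN Z) (i k : Lay ρ β l) (_ : i ≠ k) (_ : Str i k Z) (a0 : ℝ) (_ : σ ≤ a0)
    (_ : Kc b y0 ^ l * a0 ≤ y0 / 8) (_ : ∀ p, p ≠ i → p ≠ k → ‖Z p p - m‖ + σ ≤ a0) (j : ℕ)
    (_ : ∀ a a', ‖blk Z i k a a' - Yit (cc b z m) A0 j a a'‖ ≤ a0) (_ : k1 + 1 ≤ j + l)
    (r r' : ρ), ‖treeB z l V Z r r' - (if r = r' then m else 0)‖ ≤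
      C0 y0 k1 * ‖m‖ ^ (2 * (j + l - 1)) + Kc b y0 ^ l * a0
  | 0, V, hV, Z, hZs, hZN, i, k, hik, hStr, a0, hσ, ha, hg, j, hblk, hL, r, r' => by
    rw [pow_zero, one_mul]
    exact base_case (κ := ρ) h hA0 (k1 := k1) Z i k hik hStr (hσ0.trans hσ)
      (fun p g1 g2 => le_trans (by linarith) (hg p g1 g2)) (by omega) hblk r r'
  | l + 1, V, hV, Z, hZs, hZN, i, k, hik, hStr, a0, hσ, ha, hg, j, hblk, hL, r, r' => by
    have hy := h.hy
    have hK := one_le_Kc (b := b) hy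
    have ha0 : 0 ≤ a0 := hσ0.trans hσ
    have hKl : 1 ≤ Kc b y0 ^ (l + 1) := one_le_pow₀ hK
    have ha8 : a0 ≤ y0 / 8 := by nlinarith
    have hσ' : σ ≤ Kc b y0 * a0 := by nlinarith
    have ha' : Kc b y0 ^ l * (Kc b y0 * a0) ≤ y0 / 8 := by
      rw [← mul_assoc, ← pow_succ]; exact ha
    set e : Lay ρ β l → ℂ := fun q => z - V (Sum.inr q) with he
    have hei : ∀ q, 0 < (e q).im := fun q => by simpa [he] using hz
    have e0 : treeB z (l + 1) V Z = treeB z l (fun x => V (Sum.inl x))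
        (step (κ := Lay ρ β l) (β := β) e Z) := rfl
    have hgoodp : ∀ p : Lay ρ β l, p ≠ i.1 → p ≠ k.1 →
        ‖-(e p + ∑ a, Z (p, a) (p, a))⁻¹ - m‖ + σ ≤ Kc b y0 * a0 := by
      intro p hp1 hp2
      refine good_step h hb (X := fun a => Z (p, a) (p, a)) (hV _) ha8 fun a => hg _ ?_ ?_
      · intro h1
        exact hp1 (congrArg Prod.fst (h1 : ((p, a) : Lay ρ β l × β) = i))
      · intro h1
        exact hp2 (congrArg Prod.fst (h1 : ((p, a) : Lay ρ β l × β) = k))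
    by_cases h1 : i.1 = k.1
    · -- merging
      have h2 : i.2 ≠ k.2 := by
        intro h3
        exact hik (Prod.ext h1 h3)
      have hm := step_merge (κ := Lay ρ β l) (β := β) (i := i) (k := k) hZN hei hStr h1
      rw [e0, hm]
      have ekk : k = (i.1, k.2) := Prod.ext h1.symm rfl
      have hcm : coll (κ := Lay ρ β l) (β := β) Z i.1 i.1 =
          ∑ a ∈ (Finset.univ.erase i.2).erase k.2, Z (i.1, a) (i.1, a) +
            (Z i i + Z i k + Z k i + Z k k) := by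
        have := coll_merge (κ := Lay ρ β l) (β := β) (Z := Z) (p := i.1) (a1 := i.2) (a2 := k.2) h2
          (by rw [← ekk]; exact hStr)
        rw [← ekk] at this
        exact this
      have hX' : ∀ p : Lay ρ β l, 0 ≤ (-(e p + coll (κ := Lay ρ β l) (β := β) Z p p)⁻¹ : ℂ).im := by
        intro p
        refine T_im_nonneg (c := e p) (x := coll (κ := Lay ρ β l) (β := β) Z p p) ?_
        rw [Complex.add_im]
        exact add_nonneg (hei p).le ((NN.coll (κ := Lay ρ β l) (β := β) hZN).im_diag p)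
      have hgood : ∀ p : Lay ρ β l, p ≠ i.1 →
          ‖-(e p + coll (κ := Lay ρ β l) (β := β) Z p p)⁻¹ - m‖ + σ ≤ Kc b y0 * a0 := by
        intro p hp
        rw [coll_diag (κ := Lay ρ β l) (β := β) (i := i) (k := k) hStr (fun h3 => hp h3.1)]
        exact hgoodp p hp (fun h3 => hp (h3.trans h1.symm))
      -- the reference value
      have href : ∃ y : ℂ, 0 ≤ y.im ∧
          ‖-(e i.1 + coll (κ := Lay ρ β l) (β := β) Z i.1 i.1)⁻¹ - y‖ ≤ Kc b y0 * a0 ∧
          (j < k1 ∨ ‖y - m‖ ≤ 16 / y0 * ‖m‖ ^ (2 * j) / y0) := by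
        by_cases hj : j < k1
        · exact ⟨_, hX' i.1, by rw [sub_self, norm_zero]; positivity, Or.inl hj⟩
        · push Not at hj
          have hj1 : 1 ≤ j := hk0.trans hj
          have hS := sum_block (blk Z i k) (Yit (cc b z m) A0 j) hblk
          have hSy := sum_block (Yit (cc b z m) A0 j) (Matrix.of fun a a' : Fin 2 =>
            if a = a' then m else 0) (q := 4 / y0 * ‖m‖ ^ (2 * j))
            (fun a a' => by rw [Matrix.of_apply]; exact Yit_near h hA0 hj1 a a')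
          have hq : 16 / y0 * ‖m‖ ^ (2 * j) ≤ y0 / 2 := by
            refine le_trans ?_ hk1
            exact mul_le_mul_of_nonneg_left (m_pow_half h hj) (by positivity)
          have hSy' : ‖(Yit (cc b z m) A0 j 0 0 + Yit (cc b z m) A0 j 0 1 +
              Yit (cc b z m) A0 j 1 0 + Yit (cc b z m) A0 j 1 1) - 2 * m‖
              ≤ 16 / y0 * ‖m‖ ^ (2 * j) := by
            have e5 : (2 : ℂ) * m = (Matrix.of fun a a' : Fin 2 => if a = a' then m else 0) 0 0 +
                (Matrix.of fun a a' : Fin 2 => if a = a' then m else 0) 0 1 +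
                (Matrix.of fun a a' : Fin 2 => if a = a' then m else 0) 1 0 +
                (Matrix.of fun a a' : Fin 2 => if a = a' then m else 0) 1 1 := by
              simp [Matrix.of_apply]
              ring
            rw [e5]
            refine hSy.trans (le_of_eq ?_)
            ring
          have hS' : ‖(Z i i + Z i k + Z k i + Z k k) - (Yit (cc b z m) A0 j 0 0 +
              Yit (cc b z m) A0 j 0 1 + Yit (cc b z m) A0 j 1 0 + Yit (cc b z m) A0 j 1 1)‖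
              ≤ 4 * a0 := by
            simpa [blk] using hS
          obtain ⟨y, hy1, hy2, hy3⟩ := merge_step h hb (Xg := fun a => Z (i.1, a) (i.1, a))
            (hV (Sum.inr i.1)) ha8 hσ h2
            (fun a g1 g2 => hg _ (by
              intro g3
              exact g1 (congrArg Prod.snd (g3 : ((i.1, a) : Lay ρ β l × β) = i))) (by
              intro g3
              exact g2 (congrArg Prod.snd (g3 : ((i.1, a) : Lay ρ β l × β) = k))))
            (fun a => hZN.im_diag _) hS' hSy' hq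
          refine ⟨y, hy1, ?_, Or.inr hy3⟩
          rw [hcm]
          exact hy2
      obtain ⟨y, hy1, hy2, hy3⟩ := href
      obtain ⟨r0, hr0⟩ := diag_chain h hz hb hσ0 l (fun x => V (Sum.inl x)) (fun x => hV _)
        (fun p => -(e p + coll (κ := Lay ρ β l) (β := β) Z p p)⁻¹) hX' i.1 (Kc b y0 * a0) hσ' ha'
        hgood y hy1 hy2
      have hfin := merged_final h hL hy1 hy3
      have h3 := hr0 r r'
      rw [← mul_assoc, ← pow_succ] at h3
      by_cases hrr : r = r'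
      · by_cases hr : r = r0
        · rw [if_pos hrr, if_pos hr] at h3
          rw [if_pos hrr]
          have h4 := norm_add_le (treeB z l (fun x => V (Sum.inl x)) (Matrix.diagonal fun p =>
            -(e p + coll (κ := Lay ρ β l) (β := β) Z p p)⁻¹) r r' - (T (cc b z m))^[l] y)
            ((T (cc b z m))^[l] y - m)
          rw [sub_add_sub_cancel] at h4
          linarith
        · rw [if_pos hrr, if_neg hr] at h3
          rw [if_pos hrr]
          have : 0 ≤ C0 y0 k1 * ‖m‖ ^ (2 * (j + (l + 1) - 1)) := (norm_nonneg _).trans hfin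
          linarith
      · rw [if_neg hrr] at h3 ⊢
        have : 0 ≤ C0 y0 k1 * ‖m‖ ^ (2 * (j + (l + 1) - 1)) := (norm_nonneg _).trans hfin
        linarith
    · -- distinct parents
      obtain ⟨hs1, hs2, hs3⟩ := step_blk (κ := Lay ρ β l) (β := β) (i := i) (k := k) hZs hZN hei
        hStr h1
      have hci := cpar_near h hb (X := fun a => Z (i.1, a) (i.1, a)) (hV (Sum.inr i.1)) ha8 hσ i.2
        (fun a g1 => hg _ (by
          intro g3
          exact g1 (congrArg Prod.snd (g3 : ((i.1, a) : Lay ρ β l × β) = i))) (by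
          intro g3
          have g4 := congrArg Prod.fst (g3 : ((i.1, a) : Lay ρ β l × β) = k)
          exact h1 g4))
      have hck := cpar_near h hb (X := fun a => Z (k.1, a) (k.1, a)) (hV (Sum.inr k.1)) ha8 hσ k.2
        (fun a g1 => hg _ (by
          intro g3
          have g4 := congrArg Prod.fst (g3 : ((k.1, a) : Lay ρ β l × β) = i)
          exact h1 g4.symm) (by
          intro g3
          exact g1 (congrArg Prod.snd (g3 : ((k.1, a) : Lay ρ β l × β) = k))))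
      have hBN : NN (blk Z i k) := by
        have e6 : blk Z i k = Z.submatrix ![i, k] ![i, k] := by
          ext a a'
          fin_cases a <;> fin_cases a' <;> rfl
        rw [e6]
        refine hZN.submatrix ?_
        intro a a' haa
        fin_cases a <;> fin_cases a'
        · rfl
        · exact absurd haa hik
        · exact absurd haa.symm hik
        · rfl
      have hYN : NN (Yit (cc b z m) A0 j) := Yit_NN (lt_of_lt_of_le hy (cc_im h)) hA0 j
      have hblk' := block_step h ha0 hBN hYN hci.1 hci.2 hck.1 hck.2 hblk hs3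
      have hind := block_chain h hz hb hσ0 hk0 hk1 hA0 l (fun x => V (Sum.inl x)) (fun x => hV _)
        (step (κ := Lay ρ β l) (β := β) e Z) (step_symm (κ := Lay ρ β l) (β := β) hZs)
        (step_NN (κ := Lay ρ β l) (β := β) hZN hei) i.1 k.1 h1 hs1 (Kc b y0 * a0) hσ' ha'
        (fun p g1 g2 => by rw [hs2 p g1 g2]; exact hgoodp p g1 g2) (j + 1) hblk' (by omega) r r'
      rw [e0]
      have e7 : j + 1 + l - 1 = j + (l + 1) - 1 := by omega
      rw [e7, ← mul_assoc, ← pow_succ] at hind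
      exact hind

lemma exists_k1 {y0 : ℝ} (hy : 0 < y0) :
    ∃ k1 : ℕ, 1 ≤ k1 ∧ 16 / y0 * (1 / 2) ^ k1 ≤ y0 / 2 := by
  obtain ⟨n, hn⟩ := exists_pow_lt_of_lt_one (show (0 : ℝ) < y0 ^ 2 / 32 by positivity)
    (show (1 / 2 : ℝ) < 1 by norm_num)
  refine ⟨n + 1, by omega, ?_⟩
  have h1 : (1 / 2 : ℝ) ^ (n + 1) ≤ y0 ^ 2 / 32 := by
    rw [pow_succ]
    have : (0 : ℝ) < (1 / 2) ^ n := by positivity
    linarith
  have h2 : 16 / y0 * (1 / 2) ^ (n + 1) ≤ 16 / y0 * (y0 ^ 2 / 32) :=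
    mul_le_mul_of_nonneg_left h1 (by positivity)
  refine h2.trans (le_of_eq ?_)
  field_simp
  norm_num

/-- **(31.2)** two arbitrary inputs, general forest -/
theorem two_inputs (ρ β : Type) [Fintype ρ] [DecidableEq ρ] [Fintype β] [DecidableEq β]
    (hρ : 2 ≤ Fintype.card ρ) (b : ℕ) (hb : Fintype.card β = b) (y0 : ℝ) (hy0 : 0 < y0) :
    ∃ C : ℝ, 0 < C ∧ ∃ L0 : ℕ, ∀ L : ℕ, L0 ≤ L → ∃ CL r0 : ℝ, 0 < CL ∧ 0 < r0 ∧
    ∀ z m : ℂ, 0 < z.im → Adm b y0 z m → ∀ (V : Tr ρ β (L + 1) → ℝ) (sg : ℝ),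
    (∀ x, |V x| ≤ sg) → 0 ≤ sg → sg ≤ r0 → ∀ (A : Finset (Lay ρ β (L + 1))), A.card ≤ 2 →
    ∀ Xi : Matrix (Lay ρ β (L + 1)) (Lay ρ β (L + 1)) ℂ, Xiᵀ = Xi → NN Xi →
    (∀ j ∉ A, ∀ k, Xi j k = if k = j then Xi j j else 0) → (∀ j ∉ A, ‖Xi j j - m‖ ≤ r0) →
    ∀ r r' : ρ, ‖treeB z (L + 1) V Xi r r' - (if r = r' then m else 0)‖ ≤
      C * ‖m‖ ^ (2 * L) + CL * (∑ j ∈ Aᶜ, ‖Xi j j - m‖ + sg) := by
  obtain ⟨k1, hk0, hk1⟩ := exists_k1 hy0
  refine ⟨C0 y0 k1, by unfold C0; positivity, k1, fun L hL => ?_⟩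
  have hK := one_le_Kc (b := b) hy0
  have hKp : 0 < Kc b y0 ^ (L + 1) := pow_pos (lt_of_lt_of_le one_pos hK) _
  set N : ℕ := Fintype.card (Lay ρ β (L + 1)) with hN
  refine ⟨Kc b y0 ^ (L + 1), y0 / (8 * (N + 1) * Kc b y0 ^ (L + 1)), hKp, by positivity, ?_⟩
  intro z m hz h V sg hV hsg hsg' A hA Xi hXs hXN hdiag hgood r r'
  have hcardN : 2 ≤ N := by
    rw [hN, ← Fintype.card_congr (layE (ρ := ρ) (β := β) (L + 1)), Fintype.card_prod,
      Fintype.card_fun, Fintype.card_fin, hb]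
    have h1 : 1 ≤ b ^ (L + 1) := Nat.one_le_pow _ _ (by have := h.hb; omega)
    nlinarith
  obtain ⟨B, hAB, hB⟩ := Finset.exists_superset_card_eq hA hcardN
  obtain ⟨i, k, hik, rfl⟩ := Finset.card_eq_two.mp hB
  have hout : ∀ p, p ≠ i → p ≠ k → p ∉ A := by
    intro p h1 h2 h3
    have := hAB h3
    rw [Finset.mem_insert, Finset.mem_singleton] at this
    tauto
  have hsym : ∀ p q, Xi p q = Xi q p := by
    intro p q
    have := congrFun (congrFun hXs q) p
    simpa [Matrix.transpose_apply] using this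
  have hStr : Str i k Xi := by
    intro p q hpq h1 h2
    by_cases hp : p = i ∨ p = k
    · have hq1 : q ≠ i := by
        rintro rfl
        rcases hp with hp | hp
        · exact hpq hp
        · exact h2 ⟨hp, rfl⟩
      have hq2 : q ≠ k := by
        rintro rfl
        rcases hp with hp | hp
        · exact h1 ⟨hp, rfl⟩
        · exact hpq hp
      rw [hsym, hdiag q (hout q hq1 hq2), if_neg hpq]
    · push Not at hp
      rw [hdiag p (hout p hp.1 hp.2), if_neg (Ne.symm hpq)]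
  set a0 : ℝ := ∑ j ∈ Aᶜ, ‖Xi j j - m‖ + sg with ha0
  have hsum0 : 0 ≤ ∑ j ∈ Aᶜ, ‖Xi j j - m‖ := Finset.sum_nonneg fun _ _ => norm_nonneg _
  have hsga : sg ≤ a0 := by linarith
  set r0 : ℝ := y0 / (8 * (N + 1) * Kc b y0 ^ (L + 1)) with hr0
  have hr0p : 0 < r0 := by positivity
  have hsum : ∑ j ∈ Aᶜ, ‖Xi j j - m‖ ≤ N * r0 := by
    have h1 : ∑ j ∈ Aᶜ, ‖Xi j j - m‖ ≤ ∑ j ∈ Aᶜ, r0 :=
      Finset.sum_le_sum fun j hj => hgood j (by simpa using hj)
    rw [Finset.sum_const, nsmul_eq_mul] at h1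
    refine h1.trans (mul_le_mul_of_nonneg_right ?_ hr0p.le)
    exact_mod_cast Finset.card_le_univ _
  have hsmall : Kc b y0 ^ (L + 1) * a0 ≤ y0 / 8 := by
    have h1 : a0 ≤ (N + 1) * r0 := by rw [ha0]; linarith
    refine (mul_le_mul_of_nonneg_left h1 hKp.le).trans (le_of_eq ?_)
    rw [hr0]
    field_simp
  have hg : ∀ p, p ≠ i → p ≠ k → ‖Xi p p - m‖ + sg ≤ a0 := by
    intro p h1 h2
    have h3 : ‖Xi p p - m‖ ≤ ∑ j ∈ Aᶜ, ‖Xi j j - m‖ :=
      Finset.single_le_sum (f := fun j => ‖Xi j j - m‖) (fun _ _ => norm_nonneg _)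
        (Finset.mem_compl.mpr (hout p h1 h2))
    linarith
  have hBN : NN (blk Xi i k) := by
    have e6 : blk Xi i k = Xi.submatrix ![i, k] ![i, k] := by
      ext a a'
      fin_cases a <;> fin_cases a' <;> rfl
    rw [e6]
    refine hXN.submatrix ?_
    intro a a' haa
    fin_cases a <;> fin_cases a'
    · rfl
    · exact absurd haa hik
    · exact absurd haa.symm hik
    · rfl
  have key := block_chain h hz hb hsg hk0 hk1 hBN (L + 1) V hV Xi hXs hXN i k hik hStr a0 hsga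
    hsmall hg 0 (fun a a' => by
      have : Yit (cc b z m) (blk Xi i k) 0 = blk Xi i k := rfl
      rw [this, sub_self, norm_zero]
      exact hsg.trans hsga) (by omega) r r'
  have e1 : 0 + (L + 1) - 1 = L := by omega
  rw [e1] at key
  exact key

end chain

/-- a Siegel matrix has nonnegative imaginary part -/
lemma NN_of_siegel {ι : Type*} [Fintype ι] [DecidableEq ι] {Ξ : Matrix ι ι ℂ}
    (h : Res598.Siegel Ξ) : NN Ξ := by
  intro u
  rw [Res598.im_form h.symm]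
  exact Res598.qf_nonneg h.pos.posSemidef u

/-- (31.2) in the form used by the decoupling -/
def E2 (d : ℕ) [NeZero d] : Prop :=
  ∀ y0 : ℝ, 0 < y0 → ∃ C : ℝ, 0 < C ∧ ∃ L0 : ℕ, ∀ L : ℕ, L0 ≤ L →
    ∃ CL r0 : ℝ, 0 < CL ∧ 0 < r0 ∧ ∀ z m : ℂ, 0 < z.im → Adm (d - 1) y0 z m →
    ∀ (V : Tr Bool (SwP470.NZ d) (L + 1) → ℝ) (sg : ℝ), (∀ x, |V x| ≤ sg) → sg ≤ r0 →
    ∀ (A : Finset (Lay Bool (SwP470.NZ d) (L + 1))), A.card ≤ 2 →
    ∀ Xi : Matrix (Lay Bool (SwP470.NZ d) (L + 1)) (Lay Bool (SwP470.NZ d) (L + 1)) ℂ,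
    Res598.Siegel Xi → (∀ j ∉ A, ∀ k, Xi j k = if k = j then Xi j j else 0) →
    (∀ j ∉ A, ‖Xi j j - m‖ ≤ r0) →
    ∀ r r' : Bool, ‖Dec598.treeOut (Res789.Res (hTree V) z) (par L) Xi (root L r) (root L r') -
      (if r = r' then m else 0)‖ ≤ C * ‖m‖ ^ (2 * L) + CL * (∑ j ∈ Aᶜ, ‖Xi j j - m‖ + sg)

theorem e2 (d : ℕ) [NeZero d] : E2 d := by
  intro y0 hy0
  have hb : Fintype.card (SwP470.NZ d) = d - 1 := by
    have : Fintype.card {k : Fin d // k ≠ 0} = d - 1 := by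
      rw [Fintype.card_subtype_compl, Fintype.card_fin, Fintype.card_subtype_eq]
    exact this
  obtain ⟨C, hC, L0, hL0⟩ := two_inputs Bool (SwP470.NZ d) (by simp) (d - 1) hb y0 hy0
  refine ⟨C, hC, L0, fun L hL => ?_⟩
  obtain ⟨CL, r0, hCL, hr0, hmain⟩ := hL0 L hL
  refine ⟨CL, r0, hCL, hr0, ?_⟩
  intro z m hz h V sg hV hsg' A hA Xi hXi hdiag hgood r r'
  have hsg : 0 ≤ sg := (abs_nonneg _).trans (hV (root L true))
  have h1 := hmain z m hz h V sg hV hsg hsg' A hA Xi hXi.symm (NN_of_siegel hXi) hdiag hgood r r'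
  have h2 := congrFun (congrFun (tree_out hz L V hXi) r) r'
  rw [Matrix.submatrix_apply] at h2
  rw [h2]
  exact h1

end Crest.Agent.R166.TreeE2263
private theorem rz_4bfe8f7f38 : type_of% @_root_.Crest.Agent.R166.TreeE2263.Yit.eq_def := @_root_.Crest.Agent.R166.TreeE2263.Yit.eq_def -- L330
private theorem rz_5216ae38d6 : type_of% @_root_.Crest.Agent.R166.TreeE2263.Yit.eq_1 := @_root_.Crest.Agent.R166.TreeE2263.Yit.eq_1 -- L330
end

-- ▼ part R166/S2PFin_811

/-!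
Row 166, section 31.3 (helper811): `S2P` unconditionally.
-/

set_option autoImplicit false

namespace Crest.Agent.R166.S2P811

open Crest.Agent.R166

theorem e2F (d : ℕ) [NeZero d] : E2F d := TreeE2263.e2 d

/-- **(31.3)**, unconditional -/
theorem s2p {d : ℕ} [NeZero d] (hd : 3 ≤ d) : Spec31.S2P d := s2p_of hd (e2F d)

end Crest.Agent.R166.S2P811
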