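import Crest.Agent.R166.MuU_395
import Crest.Agent.R166.H1_811
import Crest.Agent.R166.Glue_269
import Crest.Agent.R166.SwInv_356
import Crest.Agent.R166.BlkLaw0_355

/-!
# Row 166, section 30.4 (helper395): `S0P + S1P → H1P` (the first inequality of `Multi383.Step`)
-/

set_option autoImplicit false

open Matrix Finset

namespace Crest.Agent.R166.H1P395

open Crest.Agent.R166 Stab269 Shape395 TreeDet350 Rev811 Spec30 SwP470 MuU395

/-! ### cardinalities -/

section card

variable {d : ℕ} [NeZero d]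

lemma card_NZ : Fintype.card (NZ d) = d - 1 := by
  have : Fintype.card {k : Fin d // k ≠ 0} = Fintype.card (Fin d) - Fintype.card {k : Fin d // k = 0} :=
    Fintype.card_subtype_compl _
  rw [show Fintype.card (NZ d) = Fintype.card {k : Fin d // k ≠ 0} from rfl, this]
  simp

lemma card_BI (L : ℕ) : Fintype.card (BI d L) = 2 * (d - 1) ^ L := by
  rw [show Fintype.card (BI d L) = Fintype.card (Bool × (Fin L → NZ d)) from rfl,
    Fintype.card_prod, Fintype.card_fun, card_NZ]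
  simp

lemma card_Iside (L : ℕ) (σ : Bool) : (Iside (d := d) L σ).card = (d - 1) ^ L := by
  have h1 : Iside (d := d) L σ = (Finset.univ : Finset (Fin L → NZ d)).map
      ⟨fun f => (σ, f), fun _ _ h => (Prod.mk.inj h).2⟩ := by
    ext i
    simp only [Iside, Finset.mem_filter, Finset.mem_univ, true_and, Finset.mem_map,
      Function.Embedding.coeFn_mk]
    constructor
    · intro h
      exact ⟨i.2, Prod.ext h.symm rfl⟩
    · rintro ⟨f, rfl⟩
      rfl
  rw [h1, Finset.card_map, Finset.card_univ, Fintype.card_fun, card_NZ]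
  simp

/-- bound for the number of ball vertices -/
noncomputable def sS (d : ℕ) [NeZero d] (L : ℕ) : ℕ :=
  Fintype.card (Bool × (Σ l : Fin (L + 1), (Fin l → NZ d)))

lemma card_Sv_le {n : ℕ} (L : ℕ) (p : Equiv.Perm (HE n d)) (h0 : HE n d) :
    (Sv L p h0).card ≤ sS d L := by
  classical
  have h1 : Sv L p h0 ⊆ (Finset.univ : Finset (Bool × (Σ l : Fin (L + 1), (Fin l → NZ d)))).image
      fun x => bv p h0 x.1 (wd x.2.2) := by
    intro v hv
    simp only [Sv, Finset.mem_filter, Finset.mem_univ, true_and] at hv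
    obtain ⟨s, w, hw, hl, rfl⟩ := hv
    obtain ⟨f, hf⟩ := exists_wd hw rfl
    rw [Finset.mem_image]
    refine ⟨(s, ⟨⟨w.length, by omega⟩, f⟩), Finset.mem_univ _, ?_⟩
    simp only
    rw [hf]
  refine (Finset.card_le_card h1).trans (Finset.card_image_le.trans ?_)
  rw [Finset.card_univ]
  exact le_refl _

end card

section main

variable {n d : ℕ} [NeZero d]

omit [NeZero d] in
/-- full blocks at good half-edges are bounded -/
lemma im_good (hd : 3 ≤ d) {p : Equiv.Perm (HE n d)} (hp : IsPort p) (s : ℝ)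
    (ω : Fin n → ℝ) {z : ℂ} (hz : 0 < z.im) {rs : ℝ} (hrs : rs ≤ 1 / 14) (x : HE n d)
    (hx : ¬ rs ≤ SpecA.Dv rs p s ω z x) :
    (Rr p s ω z x.1 x.1).im + (Rr p s ω z (p x).1 (p x).1).im ≤ 12 := by
  have h1 : SpecA.dev p s ω z x < rs := by
    unfold SpecA.Dv at hx
    push Not at hx
    rw [min_lt_iff] at hx
    rcases hx with h | h
    · exact absurd h (lt_irrefl _)
    · exact h
  have h2 := BlkLaw355.bnorm_sub_le hd hp s ω hz x (by linarith)
  have hroot := Root355.mc_isRoot (d := d) (by omega) hz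
  have h3 := BlkLaw355.norm_Bclean_le (d := d) (z := z) rfl hroot.ne_zero
    (BlkLaw355.root_norm_le hroot (BlkLaw355.d_real hd) hz.le)
  have h4 : ∀ i, ‖BE p s ω z x i i‖ ≤ 6 := by
    intro i
    have e1 := Stab269.entry_le_bnorm (BE p s ω z x - Bclean d z) i i
    have e2 := entry_le_norm (Bclean d z) i i
    rw [Matrix.sub_apply] at e1
    have e3 := norm_add_le (BE p s ω z x i i - Bclean d z i i) (Bclean d z i i)
    rw [sub_add_cancel] at e3
    linarith
  have h5 : (Rr p s ω z x.1 x.1).im ≤ 6 := by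
    have := h4 0
    have e : BE p s ω z x 0 0 = Rr p s ω z x.1 x.1 := rfl
    rw [e] at this
    exact (Complex.im_le_norm _).trans this
  have h6 : (Rr p s ω z (p x).1 (p x).1).im ≤ 6 := by
    have := h4 1
    have e : BE p s ω z x 1 1 = Rr p s ω z (p x).1 (p x).1 := rfl
    rw [e] at this
    exact (Complex.im_le_norm _).trans this
  linarith

omit [NeZero d] in
lemma Dv_nonneg' {rs : ℝ} (hrs : 0 ≤ rs) (p : Equiv.Perm (HE n d)) (s : ℝ) (ω : Fin n → ℝ) (z : ℂ)
    (h : HE n d) : 0 ≤ SpecA.Dv rs p s ω z h := by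
  rw [dv_eq]; exact dv_nonneg hrs

omit [NeZero d] in
lemma Dv_le' {rs : ℝ} (p : Equiv.Perm (HE n d)) (s : ℝ) (ω : Fin n → ℝ) (z : ℂ)
    (h : HE n d) : SpecA.Dv rs p s ω z h ≤ rs := by
  rw [dv_eq]; exact dv_le

/-- `gV ≤ 1` -/
lemma gV_le_one (L : ℕ) {rs : ℝ} (hrs : 0 ≤ rs) (hrs1 : rs ≤ 1) (s : ℝ) (ω : Fin n → ℝ) (z : ℂ)
    (p : Equiv.Perm (HE n d)) : H4.gV L rs s ω z p ≤ 1 := by
  unfold H4.gV gVb Sec269.gAvg
  refine div_le_one_of_le₀ ?_ (Nat.cast_nonneg _)
  refine (Finset.sum_le_card_nsmul _ _ 1 fun m _ => ?_).trans (by simp)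
  have h0 := DvA_nonneg hrs (mc d z) (B0 (bsw L p m).1 s ω z m.1)
  have h1 := DvA_le rs (mc d z) (B0 (bsw L p m).1 s ω z m.1)
  show DvA rs (mc d z) (B0 (bsw L p m).1 s ω z m.1) ^ 2 ≤ 1
  nlinarith

open Classical in
lemma pr_inv_le (hn : 0 < n) {L : ℕ} {p : Equiv.Perm (HE n d)} (hp : IsPort p) {h0 : HE n d}
    (htl : TL L p h0) :
    pr (fun b : BI d L → HE n d => ¬ BVal L p h0 b) ≤ (SwInv356.Cinv d L : ℝ) / n := by
  have h := SwInv356.card_inv_le hn hp htl
  have hne : Nonempty (HE n d) := ⟨(⟨0, hn⟩, ⟨0, Nat.pos_of_ne_zero (NeZero.ne d)⟩)⟩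
  have hpos : (0 : ℝ) < Fintype.card (BI d L → HE n d) := by exact_mod_cast Fintype.card_pos
  unfold pr av
  rw [div_le_iff₀ hpos]
  refine le_trans (le_of_eq ?_) h
  rw [Finset.card_filter]
  push_cast
  refine Finset.sum_congr rfl fun b _ => ?_
  congr

/-- **`S0P + S1P → H1P`** for all large depths -/
theorem h1P_all (hd : 3 ≤ d) {A rs C : ℝ} (hA : A ^ 2 < 4 * ((d : ℝ) - 1)) (hrs : 0 < rs)
    (hrs1 : rs ≤ 1 / 14) (hC : 0 ≤ C)
    (h : ∀ L : ℕ, 1 ≤ L → ∃ ε CL : ℝ, 0 < ε ∧ 0 ≤ CL ∧ S0P d L A rs ε C CL ∧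
      S1P d L A rs ε C CL) :
    ∃ L0 : ℕ, 1 ≤ L0 ∧ ∀ L : ℕ, L0 ≤ L → ∃ C' : ℝ, 0 ≤ C' ∧
      H1P d L A rs C' (fun _ s ω z p => H4.gV L rs s ω z p) := by
  classical
  have hd0 : 0 < d := by omega
  have hd' : (3 : ℝ) ≤ d := by exact_mod_cast hd
  set y0 := y00 d A with hy0
  have hy : 0 < y0 := y00_pos (by omega) hA
  set W : ℝ := 12 * C ^ 2 * (Cy y0 rs ^ 2 + rs ^ 2 + 1 / rs ^ 2) with hW
  have hW0 : 0 ≤ W := by rw [hW]; positivity
  -- the depth
  obtain ⟨Lz, hLz1, hLz⟩ : ∃ L : ℕ, 1 ≤ L ∧ W * (1 / 2) ^ L ≤ 1 / 4 := by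
    obtain ⟨L0, hL0⟩ := exists_pow_lt_of_lt_one (y := (1 / 2 : ℝ))
      (show (0 : ℝ) < 1 / (4 * (W + 1)) by positivity) (by norm_num)
    refine ⟨L0 + 1, by omega, ?_⟩
    have h1 : (1 / 2 : ℝ) ^ (L0 + 1) ≤ (1 / 2) ^ L0 :=
      pow_le_pow_of_le_one (by norm_num) (by norm_num) (by omega)
    have h2 : W * (1 / 2) ^ (L0 + 1) ≤ (W + 1) * (1 / (4 * (W + 1))) :=
      mul_le_mul (by linarith) (h1.trans hL0.le) (by positivity) (by linarith)
    refine h2.trans (le_of_eq ?_)
    field_simp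
  refine ⟨Lz, hLz1, fun L hLL => ?_⟩
  have hL1 : 1 ≤ L := hLz1.trans hLL
  have hL : W * (1 / 2) ^ L ≤ 1 / 4 :=
    (mul_le_mul_of_nonneg_left (pow_le_pow_of_le_one (by norm_num) (by norm_num) hLL) hW0).trans hLz
  obtain ⟨ε, CL, hε, hCL, hS0, hS1⟩ := h L hL1
  set CC := CCone (Fintype.card (BI d L)) (sS d L) C CL 12 rs ε with hCC
  have hCC0 : 0 ≤ CC := by rw [hCC]; unfold CCone; positivity
  set Ci : ℝ := (SwInv356.Cinv d L : ℝ) with hCi
  have hCi0 : 0 ≤ Ci := Nat.cast_nonneg _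
  set cm := CM y0 rs with hcm
  have hcm0 : 0 ≤ cm := CM_nonneg hy hrs
  refine ⟨96 * C ^ 2 * (1 + cm ^ 2) + CC + Ci + 1, by positivity, ?_⟩
  intro n E s η ω hR p hp
  have hn := hR.n0
  have hn' : (0 : ℝ) < n := by exact_mod_cast hn
  have hη := hR.η0
  have hne : Nonempty (HE n d) := ⟨(⟨0, hn⟩, ⟨0, hd0⟩)⟩
  set z := ze E η with hz
  have hzi : z.im = η := by simp [hz, ze]
  have hz0 : 0 < z.im := by rw [hzi]; exact hη
  have hadm : Adm (d - 1) y0 z (mc d z) := adm_of hd hA hR.E hη hR.η1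
  set V := SpecA.Vp rs p s ω z with hV
  have hV0 : 0 ≤ V := by
    rw [hV, Vp_av1]
    exact av1_nonneg fun _ => sq_nonneg _
  set κ : ℝ := 1 / (n * η) with hκ
  have hκ0 : 0 < κ := by positivity
  set er := pr1 (fun h : HE n d => ¬ TL L p h) with her
  have her0 : 0 ≤ er := pr1_nonneg _
  set K := 96 * C ^ 2 * (1 + cm ^ 2) + CC + Ci + 1 with hK
  have hK1 : 1 ≤ K := by rw [hK]; nlinarith [sq_nonneg C, sq_nonneg cm, mul_nonneg (sq_nonneg C) (sq_nonneg cm)]
  set T := ‖SpecA.mup rs p s ω z‖ ^ 2 + V ^ 2 + (κ + er) + s ^ 2 with hT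
  have hT0 : 0 ≤ T := by positivity
  show H4.gV L rs s ω z p ≤ 1 / 4 * V + K * T
  by_cases hκ1 : κ ≤ 1
  swap
  · push Not at hκ1
    have h1 := gV_le_one L hrs.le (by linarith) s ω z p
    have h2 : (1 : ℝ) ≤ T := by
      rw [hT]
      nlinarith [sq_nonneg V, sq_nonneg s, sq_nonneg ‖SpecA.mup rs p s ω z‖]
    nlinarith
  · have hnη : 1 ≤ (n : ℝ) * z.im := by
      rw [hzi]
      rw [hκ, div_le_one (by positivity)] at hκ1
      exact hκ1
    set m := mc d z with hm
    set be : ℝ := ‖m‖ ^ (2 * L) with hbe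
    have hbe0 : 0 ≤ be := by positivity
    have hmsq : ‖m‖ ^ 2 ≤ 1 / 2 := by
      rw [Adm.sq_norm]
      exact hadm.normSq_le
    have hbeL : be ≤ (1 / 2) ^ L := by
      rw [hbe, pow_mul]
      exact pow_le_pow_left₀ (by positivity) hmsq L
    have hbe1 : be ≤ 1 := hbeL.trans (pow_le_one₀ (by norm_num) (by norm_num))
    have hbeb : be * ((d - 1 : ℕ) : ℝ) ^ L ≤ 1 := by
      rw [hbe, pow_mul, ← mul_pow]
      refine pow_le_one₀ (by positivity) ?_
      have h1 := hadm.b_normSq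
      rw [Adm.sq_norm, mul_comm]
      exact h1
    set Dt : HE n d → (BI d L → HE n d) → ℝ := fun h0 e =>
      if BVal L p h0 e then SpecA.Dv rs (np p h0 e) s ω z h0 else 0 with hDt
    -- one centre
    have hone : ∀ h0, TL L p h0 → av (fun b : BI d L → HE n d => if BVal L p h0 b then
        SpecA.Dv rs (np p h0 b) s ω z h0 ^ 2 else 0) ≤
        12 * C ^ 2 * be * (Cy y0 rs ^ 2 + rs ^ 2 + 1 / rs ^ 2) * V +
        12 * C ^ 2 * ‖avc (yP p s ω z)‖ ^ 2 + CC * (V ^ 2 + κ + s ^ 2) := by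
      intro h0 _
      have key := one_step (ι := BI d L) (N := Fintype.card (BI d L)) (s0 := sS d L) (C := C)
        (CL := CL) (Cy := Cy y0 rs) (M := 12) (rs := rs) (ε := ε) (by norm_num) hrs (by linarith) hε
        rfl hd0 (Hm_symm (graphOf p) s ω) hz0 hnη p (Sv L p h0) (card_Sv_le L p h0)
        (fun x => SpecA.Dv rs p s ω z x) (fun x => Dv_nonneg' hrs.le p s ω z x)
        (fun x => Dv_le' p s ω z x) (yP p s ω z)
        (fun x => by
          rw [dv_eq]
          exact uu_le_dv hadm hrs (B := B0 p s ω z x) (i := 0) (im_B0_pos hp s ω hz0 x 0).le)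
        (fun x hx => im_good hd hp s ω hz0 hrs1 x hx)
        (Iside L false) (Iside L true) (m ^ (2 * L)) be (by rw [norm_pow]) hbe1
        (by rw [card_Iside]; push_cast; exact hbeb)
        (by rw [card_Iside]; push_cast; exact hbeb)
        (by rw [card_BI]; push_cast; nlinarith) s
        (Dt h0) (fun e => by
          rw [hDt]
          dsimp only
          split_ifs
          · exact Dv_nonneg' hrs.le _ s ω z h0
          · exact le_rfl)
        (fun e => by
          rw [hDt]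
          dsimp only
          split_ifs
          · exact (Dv_le' _ s ω z h0).trans (by linarith)
          · exact zero_le_one)
        (fun e he => by
          by_cases hv : BVal L p h0 e
          · have h1 := hS0 n E s η ω hR p hp h0 e hv he
            rw [hDt]
            dsimp only
            rw [if_pos hv]
            exact h1
          · rw [hDt]
            dsimp only
            rw [if_neg hv]
            have e1 : 0 ≤ ∑ i, SpecA.Dv rs p s ω z (e i) ^ 2 :=
              Finset.sum_nonneg fun _ _ => sq_nonneg _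
            have e2 : 0 ≤ ∑ jk ∈ (Finset.univ : Finset (BI d L)).offDiag,
                SpecA.Dv rs p s ω z (e jk.1) * SpecA.Dv rs p s ω z (e jk.2) :=
              Finset.sum_nonneg fun _ _ => mul_nonneg (Dv_nonneg' hrs.le _ _ _ _ _)
                (Dv_nonneg' hrs.le _ _ _ _ _)
            have e3 := cE_nonneg (Sv L p h0) (Res789.Res (Hm (graphOf p) s ω) z) p
              (∅ : Finset (BI d L)) e
            positivity)
        (fun e j _ he => by
          by_cases hv : BVal L p h0 e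
          · have h1 := hS1 n E s η ω hR p hp h0 e hv j he
            rw [hDt]
            dsimp only
            rw [if_pos hv]
            exact h1
          · rw [hDt]
            dsimp only
            rw [if_neg hv]
            have e2 : 0 ≤ ∑ i ∈ ({j} : Finset (BI d L))ᶜ, SpecA.Dv rs p s ω z (e i) :=
              Finset.sum_nonneg fun _ _ => Dv_nonneg' hrs.le _ _ _ _ _
            have e3 := cE_nonneg (Sv L p h0) (Res789.Res (Hm (graphOf p) s ω) z) p
              ({j} : Finset (BI d L)) e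
            positivity)
      rw [← Vp_av1, ← hV] at key
      have e1 : (fun b : BI d L → HE n d => if BVal L p h0 b then
          SpecA.Dv rs (np p h0 b) s ω z h0 ^ 2 else 0) = fun e => Dt h0 e ^ 2 := by
        funext e
        rw [hDt]
        dsimp only
        split_ifs
        · rfl
        · ring
      rw [e1]
      rw [hzi] at key
      exact key
    set X := 12 * C ^ 2 * be * (Cy y0 rs ^ 2 + rs ^ 2 + 1 / rs ^ 2) * V +
        12 * C ^ 2 * ‖avc (yP p s ω z)‖ ^ 2 + CC * (V ^ 2 + κ + s ^ 2) with hX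
    have hX0 : 0 ≤ X := by positivity
    have hglue := Glue269.glue_gV (L := L) hn (rs := rs) (s := s) hrs.le (by linarith) (ω := ω)
      (z := z) (p := p) hX0 (by positivity : 0 ≤ Ci / n)
      (fun h0 htl => pr_inv_le hn hp htl) hone
    -- the non tree-like centres
    have hnt : (Glue269.nonTL L p : ℝ) / (n * d) = er := by
      rw [her, pr1_eq_card]
      unfold Glue269.nonTL
      rw [IsPort.card_HE]
      push_cast
      congr!
    rw [hnt] at hglue
    -- the mean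
    have hmean : ‖avc (yP p s ω z)‖ ^ 2 ≤ 8 * ‖SpecA.mup rs p s ω z‖ ^ 2 + 8 * cm ^ 2 * V ^ 2 := by
      have h1 := mup_sub hadm hz0 hrs hp s ω
      rw [← hm, ← hcm, ← hV] at h1
      have h2 : ‖(1 - m ^ 2) * avc (yP p s ω z)‖ ≤ ‖SpecA.mup rs p s ω z‖ + cm * V := by
        have := norm_sub_norm_le ((1 - m ^ 2) * avc (yP p s ω z)) (SpecA.mup rs p s ω z)
        rw [norm_sub_rev] at this
        linarith
      rw [norm_mul] at h2
      have h3 := hadm.norm_a_ge
      have h4 : 1 / 2 * ‖avc (yP p s ω z)‖ ≤ ‖1 - m ^ 2‖ * ‖avc (yP p s ω z)‖ :=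
        mul_le_mul_of_nonneg_right h3 (norm_nonneg _)
      have h5 : ‖avc (yP p s ω z)‖ ≤ 2 * (‖SpecA.mup rs p s ω z‖ + cm * V) := by linarith
      have h6 : ‖avc (yP p s ω z)‖ ^ 2 ≤ (2 * (‖SpecA.mup rs p s ω z‖ + cm * V)) ^ 2 :=
        pow_le_pow_left₀ (norm_nonneg _) h5 2
      nlinarith [sq_nonneg (‖SpecA.mup rs p s ω z‖ - cm * V)]
    -- the contraction factor
    have hθ : 12 * C ^ 2 * be * (Cy y0 rs ^ 2 + rs ^ 2 + 1 / rs ^ 2) ≤ 1 / 4 := by
      have h1 : 12 * C ^ 2 * be * (Cy y0 rs ^ 2 + rs ^ 2 + 1 / rs ^ 2) = W * be := by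
        rw [hW]; ring
      rw [h1]
      exact (mul_le_mul_of_nonneg_left hbeL hW0).trans hL
    have hθV : 12 * C ^ 2 * be * (Cy y0 rs ^ 2 + rs ^ 2 + 1 / rs ^ 2) * V ≤ 1 / 4 * V :=
      mul_le_mul_of_nonneg_right hθ hV0
    have hin : Ci / n ≤ Ci * κ := by
      rw [div_eq_mul_one_div, hκ]
      refine mul_le_mul_of_nonneg_left ?_ hCi0
      refine one_div_le_one_div_of_le (by positivity) ?_
      nlinarith [hR.η1]
    have hm2 : 12 * C ^ 2 * ‖avc (yP p s ω z)‖ ^ 2 ≤
        96 * C ^ 2 * ‖SpecA.mup rs p s ω z‖ ^ 2 + 96 * C ^ 2 * cm ^ 2 * V ^ 2 := by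
      have := mul_le_mul_of_nonneg_left hmean (by positivity : 0 ≤ 12 * C ^ 2)
      nlinarith
    set mu2 := ‖SpecA.mup rs p s ω z‖ ^ 2 with hmu2
    have hmu0 : 0 ≤ mu2 := by positivity
    have hV2 : 0 ≤ V ^ 2 := sq_nonneg _
    have hs2 : 0 ≤ s ^ 2 := sq_nonneg _
    have hfin : H4.gV L rs s ω z p ≤ 1 / 4 * V + (96 * C ^ 2 * mu2 + 96 * C ^ 2 * cm ^ 2 * V ^ 2 +
        CC * (V ^ 2 + κ + s ^ 2) + Ci * κ + er) := by
      rw [hX] at hglue
      linarith
    refine hfin.trans ?_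
    have h7 : 96 * C ^ 2 * mu2 + 96 * C ^ 2 * cm ^ 2 * V ^ 2 +
        CC * (V ^ 2 + κ + s ^ 2) + Ci * κ + er ≤ K * T := by
      have e1 : K * T = 96 * C ^ 2 * T + 96 * C ^ 2 * cm ^ 2 * T + CC * T + Ci * T + T := by
        rw [hK]; ring
      have t1 : mu2 ≤ T := by rw [hT]; linarith
      have t2 : V ^ 2 ≤ T := by rw [hT]; linarith
      have t3 : V ^ 2 + κ + s ^ 2 ≤ T := by rw [hT]; linarith
      have t4 : κ ≤ T := by rw [hT]; linarith
      have t5 : er ≤ T := by rw [hT]; linarith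
      have u1 := mul_le_mul_of_nonneg_left t1 (by positivity : 0 ≤ 96 * C ^ 2)
      have u2 := mul_le_mul_of_nonneg_left t2 (by positivity : 0 ≤ 96 * C ^ 2 * cm ^ 2)
      have u3 := mul_le_mul_of_nonneg_left t3 hCC0
      have u4 := mul_le_mul_of_nonneg_left t4 hCi0
      rw [e1]
      linarith
    linarith


end main

end Crest.Agent.R166.H1P395
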