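import Crest.Agent.R166.TreeB_327
import Crest.Agent.R166.TreeDet_350
import Crest.Agent.R166.ShapeP1_789
import Crest.Agent.R166.MeanEq_269
import Crest.Agent.R166.H2a_269
import Crest.Agent.R166.Glue_269
import Crest.Agent.R166.H1_811
import Crest.Agent.R166.SwP3_470
import Crest.Agent.R166.SwComm_356
import Crest.Agent.R166.H4_269
import Crest.Agent.R166.H1P_395
import Crest.Agent.R166.TreeTL_798
import Crest.Agent.R166.ShapeP_598
import Crest.Agent.R166.Spec31_501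
import Crest.Agent.R166.ThmA_383

-- ▼ part R166/TreeU_327
section

/-!
Row 166, section 30.1/30.2: the recursion with diagonal inputs in the coordinate `uu` (helper327).

`U_bound`: `|u(F_r) - m^{2L} Σ_{rt i = r} u(X_i)| ≤ C_L (Σ_{i ≠ j} |u(X_i)| |u(X_j)| + σ)` for ALL inputs
in the closed upper half plane.
-/

set_option autoImplicit false
set_option linter.unusedSectionVars false
set_option linter.unusedVariables false

namespace Crest.Agent.R166.TreeU327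

open Matrix Finset Crest.Agent.R166.TreeT327 Crest.Agent.R166.TreeL327 Crest.Agent.R166.TreeB327
  Crest.Agent.R166.TreeDet350

/-! ### sums over pairs of distinct indices -/

section off

variable {ι κ β : Type*} [Fintype ι] [Fintype κ] [Fintype β]

/-- sum over ordered pairs of distinct indices -/
def OFF (f : ι → ℝ) : ℝ := (∑ i, f i) ^ 2 - ∑ i, f i ^ 2

lemma OFF_eq [DecidableEq ι] (f : ι → ℝ) :
    OFF f = ∑ p ∈ (Finset.univ : Finset ι).offDiag, f p.1 * f p.2 := by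
  have h1 : (∑ i, f i) ^ 2 = ∑ p ∈ (Finset.univ : Finset ι) ×ˢ Finset.univ, f p.1 * f p.2 := by
    rw [pow_two, Finset.sum_mul_sum, Finset.sum_product]
  have h2 : ∑ i, f i ^ 2 = ∑ p ∈ (Finset.univ : Finset ι).diag, f p.1 * f p.2 := by
    rw [Finset.sum_diag]
    exact Finset.sum_congr rfl fun i _ => pow_two _
  rw [OFF, h1, h2, ← Finset.diag_union_offDiag, Finset.sum_union (Finset.disjoint_diag_offDiag _)]
  ring

lemma OFF_nonneg {f : ι → ℝ} (hf : ∀ i, 0 ≤ f i) : 0 ≤ OFF f := by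
  classical
  rw [OFF_eq]
  exact Finset.sum_nonneg fun p _ => mul_nonneg (hf _) (hf _)

lemma OFF_comp (e : κ ≃ ι) (f : ι → ℝ) : OFF (fun j => f (e j)) = OFF f := by
  rw [OFF, OFF, e.sum_comp (fun i => f i), e.sum_comp (fun i => f i ^ 2)]

lemma OFF_prod (f : κ × β → ℝ) :
    OFF f = OFF (fun p => ∑ a, f (p, a)) + ∑ p, OFF (fun a => f (p, a)) := by
  simp only [OFF, Fintype.sum_prod_type, Finset.sum_sub_distrib]
  ring

/-- comparison of pair sums -/
lemma OFF_le {f g : ι → ℝ} {c : ℝ} (hg : ∀ i, 0 ≤ g i) {A : ℝ}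
    (h : ∀ i j, i ≠ j → f i * f j ≤ A * (g i * g j) + c) (hc : 0 ≤ c) :
    OFF f ≤ A * OFF g + (Fintype.card ι : ℝ) ^ 2 * c := by
  classical
  rw [OFF_eq, OFF_eq, Finset.mul_sum]
  have h1 : ∑ p ∈ (Finset.univ : Finset ι).offDiag, f p.1 * f p.2 ≤
      ∑ p ∈ (Finset.univ : Finset ι).offDiag, (A * (g p.1 * g p.2) + c) := by
    refine Finset.sum_le_sum fun p hp => h _ _ ?_
    exact (Finset.mem_offDiag.mp hp).2.2
  refine h1.trans ?_
  rw [Finset.sum_add_distrib, Finset.sum_const, nsmul_eq_mul]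
  have h2 : (((Finset.univ : Finset ι).offDiag.card : ℕ) : ℝ) ≤ (Fintype.card ι : ℝ) ^ 2 := by
    rw [Finset.offDiag_card]
    have : (Finset.univ : Finset ι).card * (Finset.univ : Finset ι).card -
        (Finset.univ : Finset ι).card ≤ Fintype.card ι ^ 2 := by
      rw [Finset.card_univ, pow_two]; exact Nat.sub_le _ _
    exact_mod_cast this
  have h3 := mul_le_mul_of_nonneg_right h2 hc
  linarith

end off

/-! ### one step -/

section onestep

variable {b : ℕ} {y0 : ℝ} {z m : ℂ} {β : Type*} [Fintype β]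

lemma norm_sq_le_one (h : Adm b y0 z m) : ‖m‖ ^ 2 ≤ 1 := by
  have h1 := h.norm_le
  have h2 := norm_nonneg m
  nlinarith

lemma cav_reindex (hβ : Fintype.card β = b) (z : ℂ) (t : ℝ) (x : β → ℂ) :
    cav z t (fun j : Fin b => x ((Fintype.equivFinOfCardEq hβ).symm j)) =
      -(z - t + ∑ a, x a)⁻¹ := by
  rw [cav, (Fintype.equivFinOfCardEq hβ).symm.sum_comp (fun a => x a), neg_div, one_div]

theorem one_step (h : Adm b y0 z m) (hβ : Fintype.card β = b) (t : ℝ) (x : β → ℂ)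
    (hx : ∀ a, 0 ≤ (x a).im) (hS : z - t + ∑ a, x a ≠ 0) :
    ‖uu m (-(z - t + ∑ a, x a)⁻¹) - m ^ 2 * ∑ a, uu m (x a)‖ ≤
      K3 y0 * OFF (fun a => ‖uu m (x a)‖) + K4 y0 * |t| := by
  set e := (Fintype.equivFinOfCardEq hβ).symm with he
  have hS' : z - t + ∑ j, x (e j) ≠ 0 := by rwa [e.sum_comp (fun a => x a)]
  have h1 := h.uu_cav_sub t (fun j => x (e j)) (fun j => hx _) hS'
  rw [cav_reindex hβ, e.sum_comp (fun a => uu m (x a))] at h1
  have h2 : off (fun j : Fin b => ‖uu m (x (e j))‖) = OFF (fun a => ‖uu m (x a)‖) := by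
    exact (OFF_eq (fun j : Fin b => ‖uu m (x (e j))‖)).symm.trans
      (OFF_comp e (fun a => ‖uu m (x a)‖))
  rw [h2] at h1
  refine h1.trans ?_
  have h3 : 0 ≤ K3 y0 * OFF (fun a => ‖uu m (x a)‖) + K4 y0 * |t| := by
    have := K3_pos h.hy
    have h4 : 0 ≤ OFF (fun a => ‖uu m (x a)‖) := OFF_nonneg fun _ => norm_nonneg _
    have h5 : 0 < K4 y0 := by
      unfold K4; have := K2_pos h.hy; have := h.hy; positivity
    positivity
  have h6 := norm_sq_le_one h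
  nlinarith



lemma den_pos {z : ℂ} (hz : 0 < z.im) (t : ℝ) (x : β → ℂ) (hx : ∀ a, 0 ≤ (x a).im) :
    0 < (z - t + ∑ a, x a).im := by
  have : 0 ≤ ∑ a, (x a).im := Finset.sum_nonneg fun a _ => hx a
  simp only [Complex.add_im, Complex.sub_im, Complex.ofReal_im, Complex.im_sum]
  linarith

lemma ne_zero_of_im {s : ℂ} (h : 0 < s.im) : s ≠ 0 := by
  rintro rfl; simp at h

lemma neg_inv_im_pos {s : ℂ} (h : 0 < s.im) : 0 < (-s⁻¹).im := by
  rw [Complex.neg_im, Complex.inv_im]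
  have : 0 < Complex.normSq s := Complex.normSq_pos.mpr (ne_zero_of_im h)
  rw [neg_div, neg_neg]
  positivity




end onestep

/-! ### the scalar recursion -/

section scalar

variable {ρ β : Type} [Fintype ρ] [DecidableEq ρ] [Fintype β] [DecidableEq β]

/-- the iterated scalar recursion -/
noncomputable def sF (z : ℂ) : ∀ (L : ℕ) (_ : Tr ρ β L → ℝ) (_ : Lay ρ β L → ℂ), ρ → ℂ
  | 0, _, X => X
  | L + 1, V, X => sF z L (fun x => V (Sum.inl x))
      (fun q => -(z - V (Sum.inr q) + ∑ a, X (q, a))⁻¹)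



/-- sum over the leaves below the root `r` -/
noncomputable def below {L : ℕ} (f : Lay ρ β L → ℂ) (r : ρ) : ℂ :=
  ∑ i, if rtL i = r then f i else 0

lemma sum_pick (f : ρ → ℂ) (r : ρ) : (∑ i, if i = r then f i else 0) = f r := by
  simp

lemma below_zero (f : Lay ρ β 0 → ℂ) (r : ρ) : below (L := 0) f r = f r :=
  sum_pick (ρ := ρ) f r

lemma below_succ {L : ℕ} (f : Lay ρ β (L + 1) → ℂ) (r : ρ) :
    below f r = below (fun q : Lay ρ β L => ∑ a, f (q, a)) r := by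
  refine (Fintype.sum_prod_type (α₁ := Lay ρ β L) (α₂ := β)
    (f := fun i => if rtL (l := L + 1) i = r then f i else 0)).trans ?_
  refine Finset.sum_congr rfl fun q _ => ?_
  show (∑ a, if rtL q = r then f (q, a) else 0) = if rtL q = r then ∑ a, f (q, a) else 0
  split_ifs
  · rfl
  · simp

lemma below_sub_mul {L : ℕ} (f g : Lay ρ β L → ℂ) (c : ℂ) (r : ρ) :
    ‖below f r - c * below g r‖ ≤ ∑ i, ‖f i - c * g i‖ := by
  rw [below, below, Finset.mul_sum, ← Finset.sum_sub_distrib]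
  refine (norm_sum_le _ _).trans (Finset.sum_le_sum fun i _ => ?_)
  split_ifs
  · exact le_rfl
  · simp

/-- **all inputs**: quadratic error in the coordinate `uu` -/
theorem U_bound (b : ℕ) (y0 : ℝ) (hy0 : 0 < y0) (hβ : Fintype.card β = b) : ∀ L : ℕ,
    ∃ C : ℝ, 0 ≤ C ∧ ∀ z m : ℂ, Adm b y0 z m → 0 < z.im → ∀ (σ : ℝ), 0 ≤ σ →
      ∀ V : Tr ρ β L → ℝ, (∀ x, |V x| ≤ σ) → ∀ X : Lay ρ β L → ℂ, (∀ x, 0 ≤ (X x).im) → ∀ r,
      ‖uu m (sF z L V X r) - m ^ (2 * L) * below (fun i => uu m (X i)) r‖ ≤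
        C * (OFF (fun i => ‖uu m (X i)‖) + σ) := by
  intro L
  induction L with
  | zero =>
    refine ⟨0, le_rfl, ?_⟩
    intro z m h hz σ hσ V hV X hX r
    rw [below_zero]
    simp [sF]
  | succ L ih =>
    obtain ⟨C, hC, ih⟩ := ih
    have hK3 := K3_pos hy0
    have hK2 := K2_pos hy0
    have hBB := BB_pos hy0
    have hK4 : 0 < K4 y0 := by unfold K4; positivity
    set N : ℝ := (Fintype.card (Lay ρ β L) : ℝ) with hN
    set A : ℝ := 1 + K3 y0 * (b * BB y0) with hA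
    have hA1 : 1 ≤ A := by
      rw [hA]
      have : 0 ≤ K3 y0 * (b * BB y0) := by positivity
      linarith
    set M : ℝ := A * (b * BB y0) * K4 y0 + K4 y0 * BB y0 with hM
    have hM0 : 0 ≤ M := by positivity
    refine ⟨C * A ^ 2 + C * (N ^ 2 * M + 1) + K3 y0 + N * K4 y0, by positivity, ?_⟩
    intro z m h hz σ hσ V hV X hX r
    set X' : Lay ρ β L → ℂ := fun q => -(z - V (Sum.inr q) + ∑ a, X (q, a))⁻¹ with hX'
    have hS : ∀ q : Lay ρ β L, 0 < (z - V (Sum.inr q) + ∑ a, X (q, a)).im := fun q =>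
      den_pos hz _ _ fun a => hX _
    have hX'im : ∀ q, 0 ≤ (X' q).im := fun q => (neg_inv_im_pos (hS q)).le
    set S : Lay ρ β L → ℝ := fun q => ∑ a, ‖uu m (X (q, a))‖ with hSdef
    have hS0 : ∀ q, 0 ≤ S q := fun q => Finset.sum_nonneg fun a _ => norm_nonneg _
    have hSB : ∀ q, S q ≤ b * BB y0 := by
      intro q
      have : S q ≤ ∑ a : β, BB y0 := Finset.sum_le_sum fun a _ => h.norm_uu_le (hX _)
      refine this.trans (le_of_eq ?_)
      rw [Finset.sum_const, Finset.card_univ, hβ, nsmul_eq_mul]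
    set O : Lay ρ β L → ℝ := fun q => OFF (fun a => ‖uu m (X (q, a))‖) with hO
    have hO0 : ∀ q, 0 ≤ O q := fun q => OFF_nonneg fun _ => norm_nonneg _
    have hOS : ∀ q, O q ≤ (b * BB y0) * S q := by
      intro q
      have h1 : O q ≤ S q ^ 2 := by
        rw [hO]
        simp only [OFF]
        have : 0 ≤ ∑ a, ‖uu m (X (q, a))‖ ^ 2 := Finset.sum_nonneg fun a _ => by positivity
        linarith
      have h2 := mul_le_mul_of_nonneg_right (hSB q) (hS0 q)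
      linarith [pow_two (S q)]
    have hV' : ∀ q : Lay ρ β L, |V (Sum.inr q)| ≤ σ := fun q => hV _
    have herr : ∀ q, ‖uu m (X' q) - m ^ 2 * ∑ a, uu m (X (q, a))‖ ≤ K3 y0 * O q + K4 y0 * σ := by
      intro q
      refine (one_step h hβ _ _ (fun a => hX _) (ne_zero_of_im (hS q))).trans ?_
      have := mul_le_mul_of_nonneg_left (hV' q) hK4.le
      show _ + _ ≤ K3 y0 * OFF (fun a => ‖uu m (X (q, a))‖) + _
      linarith
    have hu' : ∀ q, ‖uu m (X' q)‖ ≤ A * S q + K4 y0 * σ := by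
      intro q
      have h1 := norm_add_le (uu m (X' q) - m ^ 2 * ∑ a, uu m (X (q, a)))
        (m ^ 2 * ∑ a, uu m (X (q, a)))
      rw [sub_add_cancel] at h1
      have h2 : ‖m ^ 2 * ∑ a, uu m (X (q, a))‖ ≤ S q := by
        rw [norm_mul, norm_pow]
        have h3 := norm_sq_le_one h
        have h4 : ‖∑ a, uu m (X (q, a))‖ ≤ S q := norm_sum_le _ _
        have h5 := hS0 q
        nlinarith [norm_nonneg (∑ a, uu m (X (q, a)))]
      have h3 := herr q
      have h4 := mul_le_mul_of_nonneg_left (hOS q) hK3.le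
      rw [hA]
      linarith
    have huB : ∀ q, ‖uu m (X' q)‖ ≤ BB y0 := fun q => h.norm_uu_le (hX'im q)
    have hOFF : OFF (fun q => ‖uu m (X' q)‖) ≤ A ^ 2 * OFF S + N ^ 2 * (M * σ) := by
      refine OFF_le hS0 ?_ (by positivity)
      intro q q' _
      have h1 := hu' q
      have h2 := hu' q'
      have h3 := huB q'
      have h4 := norm_nonneg (uu m (X' q'))
      have h5 := hS0 q
      have h6 := hS0 q'
      have h7 := hSB q
      calc ‖uu m (X' q)‖ * ‖uu m (X' q')‖ ≤ (A * S q + K4 y0 * σ) * ‖uu m (X' q')‖ :=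
            mul_le_mul_of_nonneg_right h1 h4
        _ = A * S q * ‖uu m (X' q')‖ + K4 y0 * σ * ‖uu m (X' q')‖ := by ring
        _ ≤ A * S q * (A * S q' + K4 y0 * σ) + K4 y0 * σ * BB y0 :=
            add_le_add (mul_le_mul_of_nonneg_left h2 (by positivity))
              (mul_le_mul_of_nonneg_left h3 (by positivity))
        _ = A ^ 2 * (S q * S q') + (A * K4 y0 * σ * S q + K4 y0 * σ * BB y0) := by ring
        _ ≤ A ^ 2 * (S q * S q') + (A * K4 y0 * σ * (b * BB y0) + K4 y0 * σ * BB y0) := by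
            have := mul_le_mul_of_nonneg_left h7 (show 0 ≤ A * K4 y0 * σ by positivity)
            linarith
        _ = A ^ 2 * (S q * S q') + M * σ := by rw [hM]; ring
    have hmain := ih z m h hz σ hσ (fun x => V (Sum.inl x)) (fun x => hV _) X' hX'im r
    have hsplit : OFF (fun i : Lay ρ β (L + 1) => ‖uu m (X i)‖) = OFF S + ∑ q, O q :=
      OFF_prod (κ := Lay ρ β L) (β := β) (fun i => ‖uu m (X i)‖)
    have hbel : ‖below (fun i => uu m (X' i)) r -
        m ^ 2 * below (fun q : Lay ρ β L => ∑ a, uu m (X (q, a))) r‖ ≤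
        K3 y0 * ∑ q, O q + N * (K4 y0 * σ) := by
      refine (below_sub_mul _ _ _ _).trans ((Finset.sum_le_sum fun q _ => herr q).trans ?_)
      rw [Finset.sum_add_distrib, ← Finset.mul_sum, Finset.sum_const, Finset.card_univ,
        nsmul_eq_mul]
    have hOS0 : 0 ≤ OFF S := OFF_nonneg hS0
    have hO00 : 0 ≤ ∑ q, O q := Finset.sum_nonneg fun q _ => hO0 q
    have hpow : ‖m ^ (2 * L)‖ ≤ 1 := by
      rw [norm_pow, pow_mul]
      exact pow_le_one₀ (by positivity) (norm_sq_le_one h)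
    rw [below_succ, hsplit]
    show ‖uu m (sF z L (fun x => V (Sum.inl x)) X' r) - _‖ ≤ _
    have e1 : uu m (sF z L (fun x => V (Sum.inl x)) X' r) -
        m ^ (2 * (L + 1)) * below (fun q : Lay ρ β L => ∑ a, uu m (X (q, a))) r =
        (uu m (sF z L (fun x => V (Sum.inl x)) X' r) -
          m ^ (2 * L) * below (fun i => uu m (X' i)) r) +
        m ^ (2 * L) * (below (fun i => uu m (X' i)) r -
          m ^ 2 * below (fun q : Lay ρ β L => ∑ a, uu m (X (q, a))) r) := by ring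
    rw [e1]
    refine (norm_add_le _ _).trans ?_
    rw [norm_mul]
    have h1 : ‖m ^ (2 * L)‖ * ‖below (fun i => uu m (X' i)) r -
        m ^ 2 * below (fun q : Lay ρ β L => ∑ a, uu m (X (q, a))) r‖ ≤
        1 * (K3 y0 * ∑ q, O q + N * (K4 y0 * σ)) :=
      mul_le_mul hpow hbel (norm_nonneg _) zero_le_one
    have h2 : C * (OFF (fun i => ‖uu m (X' i)‖) + σ) ≤
        C * (A ^ 2 * OFF S + N ^ 2 * (M * σ) + σ) :=
      mul_le_mul_of_nonneg_left (by linarith) hC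
    have hN0 : 0 ≤ N := Nat.cast_nonneg _
    have t1 : 0 ≤ C * A ^ 2 * (∑ q, O q) := by positivity
    have t2 : 0 ≤ C * A ^ 2 * σ := by positivity
    have t3 : 0 ≤ C * (N ^ 2 * M + 1) * (OFF S + ∑ q, O q) := by positivity
    have t4 : 0 ≤ K3 y0 * (OFF S + σ) := by positivity
    have t5 : 0 ≤ N * K4 y0 * (OFF S + ∑ q, O q) := by positivity
    nlinarith

end scalar

end Crest.Agent.R166.TreeU327
private theorem rz_b209f97497 : type_of% @_root_.Crest.Agent.R166.TreeU327.sF.eq_def := @_root_.Crest.Agent.R166.TreeU327.sF.eq_def -- L186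
private theorem rz_425f20de82 : type_of% @_root_.Crest.Agent.R166.TreeU327.sF.eq_1 := @_root_.Crest.Agent.R166.TreeU327.sF.eq_1 -- L186
end

-- ▼ part R166/TEst_789
section

/-!
# R166, section 30.4 (helper789): the scalar tree estimate `TEst` from 327's `U_bound`
-/

set_option autoImplicit false
set_option linter.unusedSectionVars false

open Matrix Finset

namespace Crest.Agent.R166.TEst789

open Crest.Agent.R166
open Crest.Agent.R166.SwP470 (BI NZ)
open Crest.Agent.R166.TreeT327 Crest.Agent.R166.Spec30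
open Crest.Agent.R166.TreeF598 Crest.Agent.R166.Shape395 Crest.Agent.R166.ShapeP1789
open Crest.Agent.R166.TreeDet350 (uu Adm)
open Crest.Agent.R166.MuU395 (y00 y00_pos adm_of)

section

variable {ρ β : Type} [Fintype ρ] [DecidableEq ρ] [Fintype β] [DecidableEq β]

theorem sF_eq (z : ℂ) : ∀ (L : ℕ) (V : Tr ρ β L → ℝ) (X : Lay ρ β L → ℂ),
    TreeU327.sF z L V X = treeF z L V X
  | 0, _, _ => rfl
  | L + 1, V, X => by
    rw [treeF_succ]
    exact sF_eq z L _ _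

end

variable {d : ℕ} [NeZero d]

lemma card_NZ' : Fintype.card (NZ d) = d - 1 := by
  have h : Fintype.card (NZ d) = Fintype.card {k : Fin d // k ≠ 0} := Fintype.card_congr (Equiv.refl _)
  rw [h, Fintype.card_subtype_compl]
  simp

lemma below_eq (L : ℕ) (f : BI d L → ℂ) (r : Bool) :
    TreeU327.below (ρ := Bool) (β := NZ d) (L := L) (fun q => f ((layE L).symm q)) r =
      ∑ i ∈ Iside L r, f i := by
  unfold TreeU327.below Iside
  rw [← Equiv.sum_comp (layE (ρ := Bool) (β := NZ d) L), Finset.sum_filter]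
  refine Finset.sum_congr rfl fun i _ => ?_
  dsimp only
  rw [rtL_layE, Equiv.symm_apply_apply]

lemma OFF_eq' (L : ℕ) (f : BI d L → ℝ) :
    TreeU327.OFF (fun q : Lay Bool (NZ d) L => f ((layE L).symm q)) =
      ∑ p ∈ (univ : Finset (BI d L)).offDiag, f p.1 * f p.2 := by
  rw [← TreeU327.OFF_eq]
  unfold TreeU327.OFF
  rw [← Equiv.sum_comp (layE (ρ := Bool) (β := NZ d) L),
    ← Equiv.sum_comp (layE (ρ := Bool) (β := NZ d) L) (fun q => f ((layE L).symm q) ^ 2)]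
  simp only [Equiv.symm_apply_apply]

/-- **the scalar tree estimate at every depth** -/
theorem tEst (hd : 3 ≤ d) {A : ℝ} (hA : A ^ 2 < 4 * ((d : ℝ) - 1)) (L : ℕ) :
    ∃ CLt : ℝ, 0 ≤ CLt ∧ TEst d L A CLt := by
  obtain ⟨C, hC, h⟩ := TreeU327.U_bound (ρ := Bool) (β := NZ d) (d - 1) (y00 d A)
    (y00_pos (by omega) hA) card_NZ' L
  refine ⟨C, hC, ?_⟩
  intro E s η hE hs hη hη1 V hV r
  have hzi : (ze E η).im = η := by simp [ze]
  have hz : 0 < (ze E η).im := by rw [hzi]; exact hη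
  have hAdm := adm_of hd hA hE hη hη1
  refine ⟨fun x hx => treeF_im_pos hz L V (fun q => hx _) r, fun x hx => ?_⟩
  have key := h (ze E η) (mc d (ze E η)) hAdm hz |s| (abs_nonneg s) V hV
    (x ∘ (layE L).symm) (fun q => (hx _).le) r
  rw [sF_eq] at key
  have e1 := below_eq L (fun i => uu (mc d (ze E η)) (x i)) r
  have e2 := OFF_eq' L (fun i => ‖uu (mc d (ze E η)) (x i)‖)
  simp only [Function.comp_apply] at key
  rw [e1, e2] at key
  exact key

end Crest.Agent.R166.TEst789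
end

-- ▼ part R166/MeanSq_269
section

/-!
Row 166, section 30.4 (helper269): crude second moment of the output deviation.

If on the admissible event `Dt e ≤ C (∑ D_i + σ + ∑ √cp0 + ∑_{i≠j} √cp2)` then
`E Dt² ≤ C' (V + σ² + κ)`.
-/

set_option autoImplicit false

open Finset

namespace Crest.Agent.R166.MeanEq269

open Crest.Agent.R166.Rev811

variable {ι Ω : Type*} [Fintype ι] [DecidableEq ι] [Fintype Ω]
variable {Bad : Ω → Prop} {Cp : Finset ι → (ι → Ω) → Ω → Prop} {Pr : Ω → Ω → Prop}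

lemma sq_sum_univ_le (f : ι → ℝ) : (∑ i, f i) ^ 2 ≤ (Fintype.card ι : ℝ) * ∑ i, f i ^ 2 := by
  have := sq_sum_le_card_mul_sum_sq (s := (Finset.univ : Finset ι)) (f := f)
  rwa [Finset.card_univ] at this

lemma sq_sum_sum_le (f : ι → ι → ℝ) :
    (∑ i, ∑ j ∈ Finset.univ.erase i, f i j) ^ 2
      ≤ (Fintype.card ι : ℝ) ^ 2 * ∑ i, ∑ j ∈ Finset.univ.erase i, f i j ^ 2 := by
  refine (sq_sum_univ_le _).trans ?_
  rw [sq, mul_assoc]
  refine mul_le_mul_of_nonneg_left ?_ (Nat.cast_nonneg _)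
  rw [Finset.mul_sum]
  refine Finset.sum_le_sum fun i _ => ?_
  refine (sq_sum_le_card_mul_sum_sq (s := (Finset.univ.erase i : Finset ι))
    (f := fun j => f i j)).trans ?_
  refine mul_le_mul_of_nonneg_right ?_ (Finset.sum_nonneg fun j _ => sq_nonneg _)
  exact_mod_cast Finset.card_le_univ _

/-- **crude second moment** -/
theorem mean_sq [Nonempty Ω] {m : ℕ} {p q : ℝ} (H : Hyp (ι := ι) Bad Cp Pr m p q)
    {D : Ω → ℝ} {V : ℝ} (hV : av1 (fun x => D x ^ 2) ≤ V)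
    {cp0 : Ω → ℝ} (hcp0 : ∀ x, 0 ≤ cp0 x) {κ : ℝ} (hκ0 : av1 cp0 ≤ κ)
    {cp2 : Ω → Ω → ℝ} (hcp2 : ∀ x x', 0 ≤ cp2 x x') (hκ2 : ∀ x, ¬ Bad x → av1 (cp2 x) ≤ κ)
    {Dt : (ι → Ω) → ℝ} (hDt0 : ∀ e, 0 ≤ Dt e) (hDt1 : ∀ e, Dt e ≤ 1) {C σ : ℝ} (hC : 0 ≤ C)
    (hS : ∀ e, Adm Bad Cp Pr ∅ e → Dt e ≤
      C * (∑ i, D (e i) + σ + ∑ i, Real.sqrt (cp0 (e i))
        + ∑ i, ∑ j ∈ Finset.univ.erase i, Real.sqrt (cp2 (e i) (e j)))) :
    av (fun e => Dt e ^ 2) ≤
      4 * C ^ 2 * ((Fintype.card ι : ℝ) ^ 2 * V + σ ^ 2 + (Fintype.card ι : ℝ) ^ 2 * κ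
        + (Fintype.card ι : ℝ) ^ 4 * κ)
      + (Fintype.card ι * (p + q) + (Fintype.card ι : ℝ) ^ 2 * q) := by
  classical
  set N : ℝ := (Fintype.card ι : ℝ) with hN
  have hN0 : 0 ≤ N := Nat.cast_nonneg _
  have hV0 : 0 ≤ V := (av1_nonneg fun x => sq_nonneg _).trans hV
  have hκn : 0 ≤ κ := (av1_nonneg hcp0).trans hκ0
  set R : (ι → Ω) → ℝ := fun e => N * ∑ i, D (e i) ^ 2 + σ ^ 2 + N * ∑ i, cp0 (e i)
      + N ^ 2 * ∑ i, ∑ j ∈ Finset.univ.erase i, (if Bad (e i) then 0 else cp2 (e i) (e j)) with hR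
  have hR0 : ∀ e, 0 ≤ R e := by
    intro e
    rw [hR]
    have t1 : 0 ≤ ∑ i, D (e i) ^ 2 := Finset.sum_nonneg fun i _ => sq_nonneg _
    have t3 : 0 ≤ ∑ i, cp0 (e i) := Finset.sum_nonneg fun i _ => hcp0 _
    have t4 : 0 ≤ ∑ i, ∑ j ∈ Finset.univ.erase i, (if Bad (e i) then 0 else cp2 (e i) (e j)) :=
      Finset.sum_nonneg fun i _ => Finset.sum_nonneg fun j _ => by
        split_ifs
        · exact le_rfl
        · exact hcp2 _ _
    simp only
    positivity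
  have hpt : ∀ e, Dt e ^ 2 ≤ 4 * C ^ 2 * R e + (if ¬ Adm Bad Cp Pr ∅ e then 1 else 0) := by
    intro e
    by_cases hA : Adm Bad Cp Pr ∅ e
    · rw [if_neg (not_not.2 hA), add_zero]
      have h1 := hS e hA
      have h2 : Dt e ^ 2 ≤ (C * (∑ i, D (e i) + σ + ∑ i, Real.sqrt (cp0 (e i))
          + ∑ i, ∑ j ∈ Finset.univ.erase i, Real.sqrt (cp2 (e i) (e j)))) ^ 2 :=
        pow_le_pow_left₀ (hDt0 e) h1 2
      refine h2.trans ?_
      rw [mul_pow]
      have key : ∀ a b c d : ℝ, (a + b + c + d) ^ 2 ≤ 4 * (a ^ 2 + b ^ 2 + c ^ 2 + d ^ 2) := by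
        intro a b c d
        nlinarith [sq_nonneg (a - b), sq_nonneg (a - c), sq_nonneg (a - d), sq_nonneg (b - c),
          sq_nonneg (b - d), sq_nonneg (c - d)]
      have h3 := key (∑ i, D (e i)) σ (∑ i, Real.sqrt (cp0 (e i)))
        (∑ i, ∑ j ∈ Finset.univ.erase i, Real.sqrt (cp2 (e i) (e j)))
      have g1 := sq_sum_univ_le fun i => D (e i)
      have g2 := sq_sum_univ_le fun i => Real.sqrt (cp0 (e i))
      have g3 := sq_sum_sum_le fun i j => Real.sqrt (cp2 (e i) (e j))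
      have g2' : ∑ i, Real.sqrt (cp0 (e i)) ^ 2 = ∑ i, cp0 (e i) :=
        Finset.sum_congr rfl fun i _ => Real.sq_sqrt (hcp0 _)
      have g3' : ∑ i, ∑ j ∈ Finset.univ.erase i, Real.sqrt (cp2 (e i) (e j)) ^ 2
          = ∑ i, ∑ j ∈ Finset.univ.erase i, (if Bad (e i) then 0 else cp2 (e i) (e j)) := by
        refine Finset.sum_congr rfl fun i _ => Finset.sum_congr rfl fun j _ => ?_
        have hnb : ¬ Bad (e i) := fun hb => hA.1 i (by simp) (Or.inl hb)
        rw [if_neg hnb, Real.sq_sqrt (hcp2 _ _)]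
      rw [g2'] at g2
      rw [g3'] at g3
      have h4 : (∑ i, D (e i)) ^ 2 + σ ^ 2 + (∑ i, Real.sqrt (cp0 (e i))) ^ 2
          + (∑ i, ∑ j ∈ Finset.univ.erase i, Real.sqrt (cp2 (e i) (e j))) ^ 2 ≤ R e := by
        rw [hR]
        simp only
        linarith
      calc C ^ 2 * _ ≤ C ^ 2 * (4 * R e) :=
            mul_le_mul_of_nonneg_left (h3.trans (mul_le_mul_of_nonneg_left h4 (by norm_num)))
              (sq_nonneg _)
        _ = 4 * C ^ 2 * R e := by ring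
    · rw [if_pos hA]
      have h1 := hDt0 e
      have h2 := hDt1 e
      have h3 := hR0 e
      have h4 : 0 ≤ 4 * C ^ 2 * R e := by positivity
      nlinarith
  refine (av_mono hpt).trans ?_
  rw [av_add, av_const_mul]
  have hpr : av (fun e : ι → Ω => if ¬ Adm Bad Cp Pr ∅ e then (1 : ℝ) else 0)
      ≤ N * (p + q) + N ^ 2 * q := by
    refine le_trans (le_of_eq ?_) (pr_not_adm_zero H)
    unfold pr
    congr 1
    ext e
    by_cases h : Adm Bad Cp Pr ∅ e <;> simp [h]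
  have hcardN : ∀ i : ι, ((Finset.univ.erase i : Finset ι).card : ℝ) ≤ N := by
    intro i
    rw [hN]
    exact_mod_cast Finset.card_le_univ _
  have r1 : av (fun e : ι → Ω => ∑ i, D (e i) ^ 2) ≤ N * V := by
    rw [av_sum, Finset.sum_congr rfl fun i _ => av_coord i (fun x => D x ^ 2), Finset.sum_const,
      nsmul_eq_mul, Finset.card_univ, ← hN]
    exact mul_le_mul_of_nonneg_left hV hN0
  have r3 : av (fun e : ι → Ω => ∑ i, cp0 (e i)) ≤ N * κ := by
    rw [av_sum, Finset.sum_congr rfl fun i _ => av_coord i (fun x => cp0 x),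
      Finset.sum_const, nsmul_eq_mul, Finset.card_univ, ← hN]
    exact mul_le_mul_of_nonneg_left hκ0 hN0
  have r4 : av (fun e : ι → Ω => ∑ i, ∑ j ∈ Finset.univ.erase i,
      (if Bad (e i) then 0 else cp2 (e i) (e j))) ≤ N ^ 2 * κ := by
    have hg : ∀ i j : ι, i ≠ j →
        av (fun e : ι → Ω => if Bad (e i) then 0 else cp2 (e i) (e j)) ≤ κ := by
      intro i j hij
      have h1 := av_mul_le (Ω := Ω) j (fun _ : ι → Ω => (1 : ℝ))
        (fun e => if Bad (e i) then 0 else cp2 (e i) (e j)) κ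
        (fun _ => zero_le_one) (fun _ _ => rfl) (by
          intro e
          have h2 : (fun x : Ω => (if Bad (Function.update e j x i) then (0 : ℝ) else
              cp2 (Function.update e j x i) (Function.update e j x j))) =
              fun x => if Bad (e i) then 0 else cp2 (e i) x := by
            ext x
            rw [Function.update_of_ne hij, Function.update_self]
          rw [h2]
          by_cases hb : Bad (e i)
          · simp only [hb, if_true]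
            rw [av1_zero]
            exact hκn
          · simp only [hb, if_false]
            exact hκ2 _ hb)
      simpa [av_const] using h1
    rw [av_sum]
    have h1 : ∀ i : ι, av (fun e : ι → Ω => ∑ j ∈ Finset.univ.erase i,
        (if Bad (e i) then 0 else cp2 (e i) (e j))) ≤ N * κ := by
      intro i
      rw [av_sum]
      refine (Finset.sum_le_card_nsmul _ _ κ fun j hj =>
        hg i j (Finset.ne_of_mem_erase hj).symm).trans ?_
      rw [nsmul_eq_mul]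
      exact mul_le_mul_of_nonneg_right (hcardN i) hκn
    refine (Finset.sum_le_card_nsmul _ _ (N * κ) fun i _ => h1 i).trans (le_of_eq ?_)
    rw [nsmul_eq_mul, Finset.card_univ, ← hN]
    ring
  have hRav : av R ≤ N ^ 2 * V + σ ^ 2 + N ^ 2 * κ + N ^ 4 * κ := by
    have hRe : av R = N * av (fun e : ι → Ω => ∑ i, D (e i) ^ 2) + σ ^ 2
        + N * av (fun e : ι → Ω => ∑ i, cp0 (e i))
        + N ^ 2 * av (fun e : ι → Ω => ∑ i, ∑ j ∈ Finset.univ.erase i,
          (if Bad (e i) then 0 else cp2 (e i) (e j))) := by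
      rw [hR, av_add, av_add, av_add, av_const, av_const_mul, av_const_mul, av_const_mul]
    rw [hRe]
    have u1 := mul_le_mul_of_nonneg_left r1 hN0
    have u3 := mul_le_mul_of_nonneg_left r3 hN0
    have u4 := mul_le_mul_of_nonneg_left r4 (sq_nonneg N)
    nlinarith
  have hC2 : 0 ≤ 4 * C ^ 2 := by positivity
  exact add_le_add (mul_le_mul_of_nonneg_left hRav hC2) hpr

/-- compact form -/
theorem mean_sq' [Nonempty Ω] {m : ℕ} {p q : ℝ} (H : Hyp (ι := ι) Bad Cp Pr m p q)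
    {D : Ω → ℝ} {V : ℝ} (hV : av1 (fun x => D x ^ 2) ≤ V)
    {cp0 : Ω → ℝ} (hcp0 : ∀ x, 0 ≤ cp0 x) {κ c0 cb cq : ℝ} (hκ : 0 ≤ κ)
    (hc0 : 0 ≤ c0) (hcb : p ≤ cb * V) (hcq : q ≤ cq * κ) (hcq0 : 0 ≤ cq) (hcb0 : 0 ≤ cb)
    (hκ0 : av1 cp0 ≤ c0 * κ)
    {cp2 : Ω → Ω → ℝ} (hcp2 : ∀ x x', 0 ≤ cp2 x x') (hκ2 : ∀ x, ¬ Bad x → av1 (cp2 x) ≤ c0 * κ)
    {Dt : (ι → Ω) → ℝ} (hDt0 : ∀ e, 0 ≤ Dt e) (hDt1 : ∀ e, Dt e ≤ 1) {C σ : ℝ} (hC : 0 ≤ C)
    (hS : ∀ e, Adm Bad Cp Pr ∅ e → Dt e ≤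
      C * (∑ i, D (e i) + σ + ∑ i, Real.sqrt (cp0 (e i))
        + ∑ i, ∑ j ∈ Finset.univ.erase i, Real.sqrt (cp2 (e i) (e j)))) :
    av (fun e => Dt e ^ 2) ≤
      (8 * C ^ 2 * (1 + c0) + 2 * (cb + cq)) * (1 + (Fintype.card ι : ℝ) ^ 4)
        * (V + σ ^ 2 + κ) := by
  have h := mean_sq H hV hcp0 hκ0 hcp2 hκ2 hDt0 hDt1 hC hS
  refine h.trans ?_
  set N : ℝ := (Fintype.card ι : ℝ) with hN
  have hN0 : 0 ≤ N := Nat.cast_nonneg _
  have hV0 : 0 ≤ V := (av1_nonneg fun x => sq_nonneg _).trans hV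
  have hσ2 : 0 ≤ σ ^ 2 := sq_nonneg _
  have hN1 : N ≤ N ^ 4 := by
    rcases Nat.eq_zero_or_pos (Fintype.card ι) with h0 | h0
    · rw [hN, h0]; simp
    · have : 1 ≤ N := by rw [hN]; exact_mod_cast h0
      calc N = N ^ 1 := (pow_one N).symm
        _ ≤ N ^ 4 := pow_le_pow_right₀ this (by norm_num)
  have hN2 : N ^ 2 ≤ N ^ 4 := by
    rcases Nat.eq_zero_or_pos (Fintype.card ι) with h0 | h0
    · rw [hN, h0]; simp
    · have : 1 ≤ N := by rw [hN]; exact_mod_cast h0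
      exact pow_le_pow_right₀ this (by norm_num)
  set T := V + σ ^ 2 + κ with hT
  have hT0 : 0 ≤ T := by positivity
  have hN4 : 0 ≤ N ^ 4 := by positivity
  have a1 : N ^ 2 * V + σ ^ 2 + N ^ 2 * (c0 * κ) + N ^ 4 * (c0 * κ)
      ≤ 2 * (1 + c0) * (1 + N ^ 4) * T := by
    have b1 : N ^ 2 * V ≤ N ^ 4 * T :=
      mul_le_mul hN2 (by rw [hT]; linarith) hV0 hN4
    have b2 : σ ^ 2 ≤ T := by rw [hT]; linarith
    have b3 : N ^ 2 * (c0 * κ) ≤ N ^ 4 * (c0 * T) :=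
      mul_le_mul hN2 (mul_le_mul_of_nonneg_left (by rw [hT]; linarith) hc0) (by positivity) hN4
    have b4 : N ^ 4 * (c0 * κ) ≤ N ^ 4 * (c0 * T) :=
      mul_le_mul_of_nonneg_left (mul_le_mul_of_nonneg_left (by rw [hT]; linarith) hc0) hN4
    have b5 : 0 ≤ c0 * T := by positivity
    have b6 : 0 ≤ N ^ 4 * T := by positivity
    nlinarith
  have a2 : N * (p + q) + N ^ 2 * q ≤ 2 * (cb + cq) * (1 + N ^ 4) * T := by
    have hp : p ≤ cb * T := hcb.trans (mul_le_mul_of_nonneg_left (by rw [hT]; linarith) hcb0)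
    have hq : q ≤ cq * T := hcq.trans (mul_le_mul_of_nonneg_left (by rw [hT]; linarith) hcq0)
    have hcbT : 0 ≤ cb * T := by positivity
    have hcqT : 0 ≤ cq * T := by positivity
    have b1 : N * (p + q) ≤ N ^ 4 * (cb * T + cq * T) :=
      (mul_le_mul_of_nonneg_left (add_le_add hp hq) hN0).trans
        (mul_le_mul_of_nonneg_right hN1 (by positivity))
    have b2 : N ^ 2 * q ≤ N ^ 4 * (cq * T) :=
      (mul_le_mul_of_nonneg_left hq (sq_nonneg N)).trans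
        (mul_le_mul_of_nonneg_right hN2 hcqT)
    nlinarith [mul_nonneg hN4 hcbT, mul_nonneg hN4 hcqT]
  have hC2 : 0 ≤ 4 * C ^ 2 := by positivity
  refine (add_le_add (mul_le_mul_of_nonneg_left a1 hC2) a2).trans (le_of_eq ?_)
  ring

end Crest.Agent.R166.MeanEq269
end

-- ▼ part R166/H2_269
section

/-!
# Row 166, section 30.4 (helper269): the one-step mean equation (H2)

`h2P`: `SMP d A rs ε C1` and `S0P d 1 A rs ε C0 CL0` imply `H2P d A rs C (H4.gm 1 rs ..)`.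
-/

set_option autoImplicit false

open Finset

namespace Crest.Agent.R166.H2

open Crest.Agent.R166 Stab269 SwP470 Rev811 Shape395 TreeDet350 MeanEq269 Spec30 MuU395 Glue269 H2a

variable {n d : ℕ} [NeZero d]

/-- bound of the imaginary parts at the good half-edges -/
def GoodM (d : ℕ) (A rs M : ℝ) : Prop :=
  ∀ (n : ℕ) (E s η : ℝ) (ω : Fin n → ℝ), Rng A n E s η ω → ∀ p : Equiv.Perm (HE n d), IsPort p →
    ∀ x : HE n d, ¬ BadP rs p s ω (ze E η) x →
      (Rr p s ω (ze E η) x.1 x.1).im + (Rr p s ω (ze E η) (p x).1 (p x).1).im ≤ M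

omit [NeZero d] in
theorem goodM {A rs : ℝ} (hd : 3 ≤ d) (hA2 : A ^ 2 < 4 * ((d : ℝ) - 1)) (hrs : rs ≤ 1 / 16) :
    GoodM d A rs 14 := by
  intro n E s η ω hR p hp x hx
  exact im_good hd hA2 hR.E hR.η0 hR.η1 hrs hp x hx

theorem sum_offDiag {ι : Type*} [Fintype ι] [DecidableEq ι] (f : ι → ι → ℝ) :
    ∑ jk ∈ (Finset.univ : Finset ι).offDiag, f jk.1 jk.2 =
      ∑ i, ∑ j ∈ Finset.univ.erase i, f i j := by
  rw [← Finset.sum_finset_product' (r := (Finset.univ : Finset ι).offDiag)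
    (s := Finset.univ) (t := fun i => Finset.univ.erase i)]
  intro p
  simp [Finset.mem_offDiag, eq_comm]

/-- number of leaves on one side -/
theorem card_Iside (σ : Bool) : (Iside (d := d) 1 σ).card = d - 1 := by
  classical
  have h1 : (Iside (d := d) 1 σ) = ({σ} : Finset Bool) ×ˢ (Finset.univ : Finset (Fin 1 → NZ d)) := by
    ext i
    simp only [Iside, Finset.mem_filter, Finset.mem_univ, true_and, Finset.mem_product,
      Finset.mem_singleton, and_true]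
  rw [h1, Finset.card_product, Finset.card_singleton, Finset.card_univ]
  simp [Fintype.card_subtype_compl]

omit [NeZero d] in
theorem pr_le_one {ι Ω : Type*} [Fintype ι] [DecidableEq ι] [Fintype Ω] [Nonempty Ω]
    (P : (ι → Ω) → Prop) : pr P ≤ 1 := by
  classical
  have h : pr P ≤ av (fun _ : ι → Ω => (1 : ℝ)) := by
    unfold pr
    refine av_mono fun e => ?_
    split_ifs <;> norm_num
  rwa [av_const] at h

theorem nonTL_eq (L : ℕ) (p : Equiv.Perm (HE n d)) :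
    (nonTL L p : ℝ) / (n * d) = pr1 (fun h : HE n d => ¬ TL L p h) := by
  classical
  unfold nonTL pr1 av1
  rw [Rev811.card_HE_real]
  congr 1
  rw [Finset.natCast_card_filter]
  refine Finset.sum_congr rfl fun b _ => ?_
  by_cases hb : TL L p b <;> simp [hb]

/-- crude bound of the output deviation on the admissible event, from `S0P` at depth `1` -/
theorem crude {A rs ε C0 CL0 y0 : ℝ} (hrs : 0 < rs) (hrs1 : rs ≤ 1) (hC0 : 0 ≤ C0)
    (hCL0 : 0 ≤ CL0) (hS0 : S0P d 1 A rs ε C0 CL0) {E s η : ℝ} {ω : Fin n → ℝ}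
    (hR : Rng A n E s η ω) {p : Equiv.Perm (HE n d)} (hp : IsPort p) {h0 : HE n d}
    (hadm : TreeDet350.Adm (d - 1) y0 (ze E η) (mc d (ze E η)))
    (b : BI d 1 → HE n d) (hv : BVal 1 p h0 b) (ha : AdmP 1 rs ε p s ω (ze E η) h0 ∅ b) :
    SpecA.Dv rs (np p h0 b) s ω (ze E η) h0 ≤
      (C0 * (2 * Cy y0 rs + 1) + CL0 * (Fintype.card (BI d 1) + 1)) *
        (∑ i, SpecA.Dv rs p s ω (ze E η) (b i) + |s| +
          ∑ i, Real.sqrt (cpl (Sv 1 p h0) (Rr p s ω (ze E η)) p (b i)) +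
          ∑ i, ∑ j ∈ Finset.univ.erase i,
            Real.sqrt (cpl2 (Rr p s ω (ze E η)) p (b i) (b j))) := by
  classical
  have hz : 0 < (ze E η).im := by simpa [ze] using hR.η0
  have hCy := Cy_pos hadm.hy hrs
  have h := hS0 n E s η ω hR p hp h0 b hv ha
  set D : HE n d → ℝ := fun x => SpecA.Dv rs p s ω (ze E η) x with hD
  have hD0 : ∀ x, 0 ≤ D x := fun x => by
    rw [hD]; simp only [dv_eq]; exact dv_nonneg hrs.le
  have hD1 : ∀ x, D x ≤ 1 := fun x => by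
    rw [hD]; simp only [dv_eq]; exact dv_le.trans hrs1
  set m := mc d (ze E η) with hm
  have hm1 : ‖m‖ ^ 2 ≤ 1 := by
    have := hadm.norm_le
    have := norm_nonneg m
    nlinarith
  have hy : ∀ x, ‖yP p s ω (ze E η) x‖ ≤ Cy y0 rs * D x := fun x =>
    uu_le_dv hadm hrs (im_B0_pos hp s ω hz x 0).le
  set SD : ℝ := ∑ i, D (b i) with hSD
  have hSD0 : 0 ≤ SD := Finset.sum_nonneg fun i _ => hD0 _
  have hside : ∀ σ, ‖m ^ (2 * 1) * ∑ i ∈ Iside 1 σ, yP p s ω (ze E η) (b i)‖ ≤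
      Cy y0 rs * SD := by
    intro σ
    rw [norm_mul, norm_pow]
    have h1 : ‖∑ i ∈ Iside (d := d) 1 σ, yP p s ω (ze E η) (b i)‖ ≤ Cy y0 rs * SD := by
      refine (norm_sum_le _ _).trans ?_
      rw [hSD, Finset.mul_sum]
      refine (Finset.sum_le_sum fun i _ => hy (b i)).trans ?_
      exact Finset.sum_le_sum_of_subset_of_nonneg (Finset.subset_univ _)
        (fun i _ _ => mul_nonneg hCy.le (hD0 _))
    calc ‖m‖ ^ (2 * 1) * ‖∑ i ∈ Iside (d := d) 1 σ, yP p s ω (ze E η) (b i)‖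
        ≤ 1 * (Cy y0 rs * SD) := mul_le_mul (by simpa using hm1) h1 (norm_nonneg _) zero_le_one
      _ = _ := one_mul _
  have hsq : ∑ i, SpecA.Dv rs p s ω (ze E η) (b i) ^ 2 ≤ SD := by
    rw [hSD]
    refine Finset.sum_le_sum fun i _ => ?_
    have h1 := hD0 (b i)
    have h2 := hD1 (b i)
    show D (b i) ^ 2 ≤ D (b i)
    nlinarith
  have hoff : (∑ jk ∈ (Finset.univ : Finset (BI d 1)).offDiag,
      SpecA.Dv rs p s ω (ze E η) (b jk.1) * SpecA.Dv rs p s ω (ze E η) (b jk.2)) ≤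
      Fintype.card (BI d 1) * SD := by
    rw [sum_offDiag (fun i j => D (b i) * D (b j)), hSD, Finset.mul_sum]
    refine Finset.sum_le_sum fun i _ => ?_
    have h1 : ∑ j ∈ Finset.univ.erase i, D (b i) * D (b j) ≤
        ∑ j ∈ (Finset.univ.erase i : Finset (BI d 1)), D (b i) := by
      refine Finset.sum_le_sum fun j _ => ?_
      calc D (b i) * D (b j) ≤ D (b i) * 1 := mul_le_mul_of_nonneg_left (hD1 _) (hD0 _)
        _ = D (b i) := mul_one _
    refine h1.trans ?_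
    rw [Finset.sum_const, nsmul_eq_mul]
    exact mul_le_mul_of_nonneg_right (by exact_mod_cast Finset.card_le_univ _) (hD0 _)
  have hce : cEs 1 p s ω (ze E η) h0 ∅ b =
      (∑ i, Real.sqrt (cpl (Sv 1 p h0) (Rr p s ω (ze E η)) p (b i))) +
        ∑ i, ∑ j ∈ Finset.univ.erase i,
          Real.sqrt (cpl2 (Rr p s ω (ze E η)) p (b i) (b j)) := by
    unfold cEs
    rw [GA_empty, Finset.compl_empty,
      sum_offDiag (fun i j => Real.sqrt (cpl2 (Rr p s ω (ze E η)) p (b i) (b j)))]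
  set c1 : ℝ := ∑ i, Real.sqrt (cpl (Sv 1 p h0) (Rr p s ω (ze E η)) p (b i)) with hc1
  set c2 : ℝ := ∑ i, ∑ j ∈ Finset.univ.erase i,
    Real.sqrt (cpl2 (Rr p s ω (ze E η)) p (b i) (b j)) with hc2
  have hc10 : 0 ≤ c1 := Finset.sum_nonneg fun i _ => Real.sqrt_nonneg _
  have hc20 : 0 ≤ c2 := Finset.sum_nonneg fun i _ => Finset.sum_nonneg fun j _ => Real.sqrt_nonneg _
  set N : ℝ := (Fintype.card (BI d 1) : ℝ) with hN
  have hN0 : 0 ≤ N := Nat.cast_nonneg _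
  have hs0 := abs_nonneg s
  rw [hce] at h
  have t1 : C0 * (‖m ^ (2 * 1) * ∑ i ∈ Iside 1 false, yP p s ω (ze E η) (b i)‖ +
      ‖m ^ (2 * 1) * ∑ i ∈ Iside 1 true, yP p s ω (ze E η) (b i)‖) ≤
      C0 * (2 * Cy y0 rs * SD) :=
    mul_le_mul_of_nonneg_left (by linarith [hside false, hside true]) hC0
  have t2 : C0 * ‖m‖ ^ (2 * 1) * (∑ i, SpecA.Dv rs p s ω (ze E η) (b i) ^ 2) ≤ C0 * SD := by
    have h1 : C0 * ‖m‖ ^ (2 * 1) ≤ C0 * 1 :=
      mul_le_mul_of_nonneg_left (by simpa using hm1) hC0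
    calc C0 * ‖m‖ ^ (2 * 1) * (∑ i, SpecA.Dv rs p s ω (ze E η) (b i) ^ 2)
        ≤ C0 * 1 * SD :=
          mul_le_mul h1 hsq (Finset.sum_nonneg fun i _ => sq_nonneg _) (by linarith)
      _ = C0 * SD := by ring
  have t3 : CL0 * ((∑ jk ∈ (Finset.univ : Finset (BI d 1)).offDiag,
      SpecA.Dv rs p s ω (ze E η) (b jk.1) * SpecA.Dv rs p s ω (ze E η) (b jk.2)) + |s| +
        (c1 + c2)) ≤ CL0 * (N * SD + |s| + (c1 + c2)) :=
    mul_le_mul_of_nonneg_left (by linarith) hCL0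
  have hcc : 0 ≤ |s| + c1 + c2 := add_nonneg (add_nonneg hs0 hc10) hc20
  have t4 : 0 ≤ C0 * (2 * Cy y0 rs + 1) * (|s| + c1 + c2) :=
    mul_nonneg (mul_nonneg hC0 (by linarith)) hcc
  have t5 : 0 ≤ CL0 * N * (|s| + c1 + c2) := mul_nonneg (mul_nonneg hCL0 hN0) hcc
  have t6 : 0 ≤ CL0 * SD := mul_nonneg hCL0 hSD0
  refine h.trans ((add_le_add (add_le_add t1 t2) t3).trans ?_)
  change _ ≤ (C0 * (2 * Cy y0 rs + 1) + CL0 * (N + 1)) * (SD + |s| + c1 + c2)
  have e : (C0 * (2 * Cy y0 rs + 1) + CL0 * (N + 1)) * (SD + |s| + c1 + c2) =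
      C0 * (2 * Cy y0 rs * SD) + C0 * SD + CL0 * (N * SD + |s| + (c1 + c2)) +
        (C0 * (2 * Cy y0 rs + 1) * (|s| + c1 + c2) + CL0 * N * (|s| + c1 + c2) + CL0 * SD) := by
    ring
  rw [e]
  exact le_add_of_nonneg_right (add_nonneg (add_nonneg t4 t5) t6)

/-- the coupling constant -/
noncomputable def cc (d : ℕ) (M : ℝ) : ℝ := 4 * ((d : ℝ) + 1) + 2 * M

omit [NeZero d] in
theorem cc_nonneg {M : ℝ} (hM : 0 ≤ M) : 0 ≤ cc d M := by unfold cc; positivity

/-- the hypotheses of the revealing lemma at depth `1` -/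
theorem hyp_one {A rs ε M : ℝ} (hε : 0 < ε) (hM0 : 0 ≤ M) (hM : GoodM d A rs M)
    {E s η : ℝ} {ω : Fin n → ℝ} (hR : Rng A n E s η ω) {p : Equiv.Perm (HE n d)} (hp : IsPort p)
    (h0 : HE n d) :
    Hyp (ι := BI d 1) (BadP rs p s ω (ze E η)) (CpW (Sv 1 p h0) (Rr p s ω (ze E η)) p ε)
      (PrW (Rr p s ω (ze E η)) p ε) 0 (pr1 (BadP rs p s ω (ze E η)))
      (cc d M / ε ^ 2 * (1 / (n * η))) := by
  have him : (ze E η).im = η := by simp [ze]
  have hz : 0 < (ze E η).im := by rw [him]; exact hR.η0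
  have hn : (0 : ℝ) < n := by exact_mod_cast hR.n0
  have hη := hR.η0
  have hc := cc_nonneg (d := d) hM0
  have hcard : ((Sv 1 p h0).card : ℝ) ≤ 2 * ((d : ℝ) + 1) := by exact_mod_cast card_Sv p h0
  refine hyp_ward (Hm_symm _ _ _) hz (Nat.pos_of_ne_zero (NeZero.ne d)) p (Sv 1 p h0) 0 hε _
    (fun x hx => hM n E s η ω hR p hp x hx) (by positivity) ?_ ?_
  · rw [him]
    have e : cc d M / ε ^ 2 * (1 / (n * η)) = cc d M / (n * η * ε ^ 2) := by
      field_simp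
    rw [e]
    refine div_le_div_of_nonneg_right ?_ (by positivity)
    unfold cc
    push_cast
    linarith
  · rw [him]
    have e : cc d M / ε ^ 2 * (1 / (n * η)) = cc d M / (n * η * ε ^ 2) := by
      field_simp
    rw [e]
    refine div_le_div_of_nonneg_right ?_ (by positivity)
    unfold cc
    have : (0 : ℝ) ≤ d := Nat.cast_nonneg _
    linarith

theorem cp0_le {M : ℝ} (hM0 : 0 ≤ M) {A : ℝ}
    {E s η : ℝ} {ω : Fin n → ℝ} (hR : Rng A n E s η ω) (p : Equiv.Perm (HE n d))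
    (h0 : HE n d) : av1 (cpl (Sv 1 p h0) (Rr p s ω (ze E η)) p) ≤ cc d M * (1 / (n * η)) := by
  have him : (ze E η).im = η := by simp [ze]
  have hz : 0 < (ze E η).im := by rw [him]; exact hR.η0
  have hn : (0 : ℝ) < n := by exact_mod_cast hR.n0
  have hη := hR.η0
  have hcard : ((Sv 1 p h0).card : ℝ) ≤ 2 * ((d : ℝ) + 1) := by exact_mod_cast card_Sv p h0
  rw [av1_cpl (Hm_symm _ _ _) hz (Nat.pos_of_ne_zero (NeZero.ne d)), him, mul_one_div]
  refine div_le_div_of_nonneg_right ?_ (by positivity)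
  unfold cc
  linarith

theorem cp2_le {A rs M : ℝ} (hM : GoodM d A rs M)
    {E s η : ℝ} {ω : Fin n → ℝ} (hR : Rng A n E s η ω) {p : Equiv.Perm (HE n d)} (hp : IsPort p)
    (x : HE n d) (hx : ¬ BadP rs p s ω (ze E η) x) :
    av1 (cpl2 (Rr p s ω (ze E η)) p x) ≤ cc d M * (1 / (n * η)) := by
  have him : (ze E η).im = η := by simp [ze]
  have hz : 0 < (ze E η).im := by rw [him]; exact hR.η0
  have hn : (0 : ℝ) < n := by exact_mod_cast hR.n0
  have hη := hR.η0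
  rw [av1_cpl2 (Hm_symm _ _ _) hz (Nat.pos_of_ne_zero (NeZero.ne d)), him, mul_one_div]
  refine div_le_div_of_nonneg_right ?_ (by positivity)
  have h1 := hM n E s η ω hR p hp x hx
  unfold cc
  have : (0 : ℝ) ≤ d := Nat.cast_nonneg _
  linarith

omit [NeZero d] in
theorem bad_le {A rs : ℝ} (hrs : 0 < rs) {E s η : ℝ} {ω : Fin n → ℝ} (_hR : Rng A n E s η ω)
    (p : Equiv.Perm (HE n d)) :
    pr1 (BadP rs p s ω (ze E η)) ≤ 1 / rs ^ 2 * SpecA.Vp rs p s ω (ze E η) := by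
  have h := pr1_bad_le (fun x => SpecA.Dv rs p s ω (ze E η) x) hrs
  rw [Vp_av1, one_div_mul_eq_div]
  exact h

/-- the constants -/
noncomputable def K1 (d : ℕ) [NeZero d] (y0 rs ε M C1 : ℝ) : ℝ :=
  2 * (Fintype.card (BI d 1) : ℝ) ^ 2 *
      (3 / 2 * C1 * (1 + Real.sqrt (cc d M)) + 3 * BB y0 * (1 / rs ^ 2 + cc d M / ε ^ 2)) +
    3 / 2 * C1

noncomputable def C3' (d : ℕ) [NeZero d] (y0 rs C0 CL0 : ℝ) : ℝ :=
  C0 * (2 * Cy y0 rs + 1) + CL0 * (Fintype.card (BI d 1) + 1)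

noncomputable def K2 (d : ℕ) [NeZero d] (y0 rs ε M C0 CL0 : ℝ) : ℝ :=
  (8 * C3' d y0 rs C0 CL0 ^ 2 * (1 + cc d M) + 2 * (1 / rs ^ 2 + cc d M / ε ^ 2)) *
    (1 + (Fintype.card (BI d 1) : ℝ) ^ 4)

theorem K1_nonneg {y0 rs ε M C1 : ℝ} (hy : 0 < y0) (hM : 0 ≤ M) (hC1 : 0 ≤ C1) :
    0 ≤ K1 d y0 rs ε M C1 := by
  have := BB_pos hy
  have := cc_nonneg (d := d) hM
  unfold K1
  positivity

theorem K2_nonneg {y0 rs ε M C0 CL0 : ℝ} (hM : 0 ≤ M) :
    0 ≤ K2 d y0 rs ε M C0 CL0 := by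
  have := cc_nonneg (d := d) hM
  unfold K2
  positivity

section inner

variable {A rs ε M C0 CL0 C1 y0 : ℝ} {E s η : ℝ} {ω : Fin n → ℝ} {p : Equiv.Perm (HE n d)}
  {h0 : HE n d}

omit [NeZero d] in
theorem norm_sq_m (hd : 3 ≤ d) {z m : ℂ} (h : TreeDet350.Adm (d - 1) y0 z m) :
    ‖((d : ℂ) - 1) * m ^ 2‖ ≤ 1 := by
  have h1 := h.b_normSq
  have e : ((d : ℂ) - 1) = ((d - 1 : ℕ) : ℂ) := by
    rw [Nat.cast_sub (by omega)]; simp
  rw [e, norm_mul, Complex.norm_natCast, norm_pow, ← Complex.normSq_eq_norm_sq]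
  exact h1

open Classical in
/-- first half: the one-step mean of the `u`-coordinate -/
theorem inner1 (hd : 3 ≤ d) (hrs : 0 < rs) (hε : 0 < ε) (hM0 : 0 ≤ M) (hM : GoodM d A rs M)
    (hC1 : 0 ≤ C1) (hSM : SMP d A rs ε C1) (hR : Rng A n E s η ω) (hp : IsPort p)
    (hadm : TreeDet350.Adm (d - 1) y0 (ze E η) (mc d (ze E η))) (hκ1 : 1 / (n * η) ≤ 1) :
    ‖avC (fun b : BI d 1 → HE n d => if BVal 1 p h0 b then
        (1 - mc d (ze E η) ^ 2) * yP (np p h0 b) s ω (ze E η) h0 else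
        (1 - mc d (ze E η) ^ 2) * mc d (ze E η) ^ 2 *
          ∑ i ∈ Iside 1 false, yP p s ω (ze E η) (b i)) -
      (1 - mc d (ze E η) ^ 2) * mc d (ze E η) ^ 2 * ((d : ℂ) - 1) *
        avc (yP p s ω (ze E η))‖ ≤
      K1 d y0 rs ε M C1 *
        (SpecA.Vp rs p s ω (ze E η) + |s| + Real.sqrt (1 / (n * η))) := by
  have hη := hR.η0
  have hn : (0 : ℝ) < n := by exact_mod_cast hR.n0
  have hne : Nonempty (HE n d) := ⟨(⟨0, hR.n0⟩, ⟨0, Nat.pos_of_ne_zero (NeZero.ne d)⟩)⟩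
  have hz : 0 < (ze E η).im := by simpa [ze] using hR.η0
  have hc := cc_nonneg (d := d) hM0
  have hBB := BB_pos hadm.hy
  set m := mc d (ze E η) with hm
  have hy : ∀ (p' : Equiv.Perm (HE n d)), IsPort p' → ∀ x, ‖yP p' s ω (ze E η) x‖ ≤ BB y0 :=
    fun p' hp' x => hadm.norm_uu_le (im_B0_pos hp' s ω hz x 0).le
  have ha := hadm.norm_a_le
  have hdm := norm_sq_m hd hadm
  have hcardI : ((Iside (d := d) 1 false).card : ℂ) = (d : ℂ) - 1 := by
    rw [card_Iside, Nat.cast_sub (by omega)]; simp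
  have hcardI' : ((Iside (d := d) 1 false).card : ℝ) = (d : ℝ) - 1 := by
    rw [card_Iside, Nat.cast_sub (by omega)]; simp
  have hm2 : ‖m‖ ^ 2 * ((d : ℝ) - 1) ≤ 1 := by
    have h1 : ‖((d : ℂ) - 1) * m ^ 2‖ = ‖m‖ ^ 2 * ((d : ℝ) - 1) := by
      rw [← hcardI, norm_mul, Complex.norm_natCast, norm_pow, hcardI', mul_comm]
    rw [h1] at hdm
    exact hdm
  -- bound of the linear term
  have hlin : ∀ b : BI d 1 → HE n d,
      ‖(1 - m ^ 2) * m ^ 2 * ∑ i ∈ Iside 1 false, yP p s ω (ze E η) (b i)‖ ≤ 3 / 2 * BB y0 := by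
    intro b
    rw [norm_mul, norm_mul, norm_pow]
    have h1 : ‖∑ i ∈ Iside (d := d) 1 false, yP p s ω (ze E η) (b i)‖ ≤
        ((d : ℝ) - 1) * BB y0 := by
      refine (norm_sum_le _ _).trans ?_
      refine (Finset.sum_le_card_nsmul _ _ (BB y0) fun i _ => hy p hp _).trans ?_
      rw [nsmul_eq_mul, hcardI']
    calc ‖1 - m ^ 2‖ * ‖m‖ ^ 2 * ‖∑ i ∈ Iside (d := d) 1 false, yP p s ω (ze E η) (b i)‖
        ≤ 3 / 2 * ‖m‖ ^ 2 * (((d : ℝ) - 1) * BB y0) := by
          refine mul_le_mul (mul_le_mul_of_nonneg_right ha (sq_nonneg _)) h1 (norm_nonneg _)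
            (by positivity)
      _ = 3 / 2 * (‖m‖ ^ 2 * ((d : ℝ) - 1)) * BB y0 := by ring
      _ ≤ 3 / 2 * 1 * BB y0 := by gcongr
      _ = 3 / 2 * BB y0 := by ring
  have key := mean_eq' (ι := BI d 1) (hyp_one hε hM0 hM hR hp h0)
    (D := fun x => SpecA.Dv rs p s ω (ze E η) x) (V := SpecA.Vp rs p s ω (ze E η))
    (fun x => by simp only [dv_eq]; exact dv_nonneg hrs.le)
    (le_of_eq (Vp_av1 rs p s ω (ze E η)).symm)
    (cp0 := cpl (Sv 1 p h0) (Rr p s ω (ze E η)) p) (fun x => cpl_nonneg _ _ _ _)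
    (κ := 1 / (n * η)) (c0 := cc d M) (cb := 1 / rs ^ 2) (cq := cc d M / ε ^ 2)
    (by positivity) hκ1 hc (bad_le hrs hR p) le_rfl (by positivity) (by positivity)
    (cp0_le hM0 hR p h0)
    (cp2 := cpl2 (Rr p s ω (ze E η)) p) (fun x x' => cpl2_nonneg _ _ _ _)
    (fun x hx => cp2_le hM hR hp x hx)
    (y := yP p s ω (ze E η))
    (f := fun b : BI d 1 → HE n d => if BVal 1 p h0 b then
        (1 - m ^ 2) * yP (np p h0 b) s ω (ze E η) h0 else
        (1 - m ^ 2) * m ^ 2 * ∑ i ∈ Iside 1 false, yP p s ω (ze E η) (b i))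
    (a := (1 - m ^ 2) * m ^ 2) (Iside 1 false) (B := 3 * BB y0)
    (by
      intro b
      by_cases hv : BVal 1 p h0 b
      · simp only [hv, if_true]
        have h1 : ‖(1 - m ^ 2) * yP (np p h0 b) s ω (ze E η) h0‖ ≤ 3 / 2 * BB y0 := by
          rw [norm_mul]
          exact mul_le_mul ha (hy _ (hv.isPort le_rfl hp) _) (norm_nonneg _) (by norm_num)
        refine (norm_sub_le _ _).trans ?_
        linarith [hlin b]
      · simp only [hv, if_false, sub_self, norm_zero]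
        positivity)
    (C := 3 / 2 * C1) (σ := |s|) (by positivity) (abs_nonneg s)
    (by
      intro b hb
      by_cases hv : BVal 1 p h0 b
      · simp only [hv, if_true]
        have h1 := hSM n E s η ω hR p hp h0 b hv hb
        rw [mul_assoc (1 - m ^ 2), ← mul_sub, norm_mul, mul_assoc (3 / 2 : ℝ)]
        exact mul_le_mul ha h1 (norm_nonneg _) (by norm_num)
      · simp only [hv, if_false, sub_self, norm_zero]
        have hD0 : ∀ x, 0 ≤ SpecA.Dv rs p s ω (ze E η) x := fun x => by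
          simp only [dv_eq]; exact dv_nonneg hrs.le
        have t1 : 0 ≤ ∑ i, SpecA.Dv rs p s ω (ze E η) (b i) ^ 2 :=
          Finset.sum_nonneg fun i _ => sq_nonneg _
        have t2 : 0 ≤ ∑ i, ∑ j ∈ Finset.univ.erase i,
            SpecA.Dv rs p s ω (ze E η) (b i) * SpecA.Dv rs p s ω (ze E η) (b j) :=
          Finset.sum_nonneg fun i _ => Finset.sum_nonneg fun j _ => mul_nonneg (hD0 _) (hD0 _)
        have t3 : 0 ≤ ∑ i, Real.sqrt (cpl (Sv 1 p h0) (Rr p s ω (ze E η)) p (b i)) :=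
          Finset.sum_nonneg fun i _ => Real.sqrt_nonneg _
        have t4 : 0 ≤ ∑ i, ∑ j ∈ Finset.univ.erase i,
            Real.sqrt (cpl2 (Rr p s ω (ze E η)) p (b i) (b j)) :=
          Finset.sum_nonneg fun i _ => Finset.sum_nonneg fun j _ => Real.sqrt_nonneg _
        refine mul_nonneg (mul_nonneg (by norm_num) hC1) ?_
        exact add_nonneg (add_nonneg (add_nonneg (add_nonneg t1 t2) (abs_nonneg s)) t3) t4)
  rw [hcardI] at key
  exact key

open Classical in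
/-- second half: the crude second moment of the output deviation at depth `1` -/
theorem inner2 (hrs : 0 < rs) (hrs1 : rs ≤ 1) (hε : 0 < ε) (hM0 : 0 ≤ M) (hM : GoodM d A rs M)
    (hC0 : 0 ≤ C0) (hCL0 : 0 ≤ CL0) (hS0 : S0P d 1 A rs ε C0 CL0) (hR : Rng A n E s η ω)
    (hp : IsPort p) (hadm : TreeDet350.Adm (d - 1) y0 (ze E η) (mc d (ze E η))) :
    av (fun b : BI d 1 → HE n d => (if BVal 1 p h0 b then
        SpecA.Dv rs (np p h0 b) s ω (ze E η) h0 else 0) ^ 2) ≤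
      K2 d y0 rs ε M C0 CL0 *
        (SpecA.Vp rs p s ω (ze E η) + |s| ^ 2 + 1 / (n * η)) := by
  have hη := hR.η0
  have hn : (0 : ℝ) < n := by exact_mod_cast hR.n0
  have hne : Nonempty (HE n d) := ⟨(⟨0, hR.n0⟩, ⟨0, Nat.pos_of_ne_zero (NeZero.ne d)⟩)⟩
  have hc := cc_nonneg (d := d) hM0
  have hCy := Cy_pos hadm.hy hrs
  have hC3 : 0 ≤ C3' d y0 rs C0 CL0 := by unfold C3'; positivity
  exact mean_sq' (ι := BI d 1) (hyp_one hε hM0 hM hR hp h0)
    (D := fun x => SpecA.Dv rs p s ω (ze E η) x) (V := SpecA.Vp rs p s ω (ze E η))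
    (le_of_eq (Vp_av1 rs p s ω (ze E η)).symm)
    (cp0 := cpl (Sv 1 p h0) (Rr p s ω (ze E η)) p) (fun x => cpl_nonneg _ _ _ _)
    (κ := 1 / (n * η)) (c0 := cc d M) (cb := 1 / rs ^ 2) (cq := cc d M / ε ^ 2)
    (by positivity) hc (bad_le hrs hR p) le_rfl (by positivity) (by positivity)
    (cp0_le hM0 hR p h0)
    (cp2 := cpl2 (Rr p s ω (ze E η)) p) (fun x x' => cpl2_nonneg _ _ _ _)
    (fun x hx => cp2_le hM hR hp x hx)
    (Dt := fun b : BI d 1 → HE n d => if BVal 1 p h0 b then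
        SpecA.Dv rs (np p h0 b) s ω (ze E η) h0 else 0)
    (by
      intro b
      by_cases hv : BVal 1 p h0 b
      · simp only [hv, if_true, dv_eq]; exact dv_nonneg hrs.le
      · simp only [hv, if_false]; exact le_rfl)
    (by
      intro b
      by_cases hv : BVal 1 p h0 b
      · simp only [hv, if_true, dv_eq]; exact dv_le.trans hrs1
      · simp only [hv, if_false]; exact zero_le_one)
    (C := C3' d y0 rs C0 CL0) (σ := |s|) hC3
    (by
      intro b hb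
      have hD0 : ∀ x, 0 ≤ SpecA.Dv rs p s ω (ze E η) x := fun x => by
        simp only [dv_eq]; exact dv_nonneg hrs.le
      by_cases hv : BVal 1 p h0 b
      · simp only [hv, if_true]
        exact crude hrs hrs1 hC0 hCL0 hS0 hR hp hadm b hv hb
      · simp only [hv, if_false]
        have t1 : 0 ≤ ∑ i, SpecA.Dv rs p s ω (ze E η) (b i) :=
          Finset.sum_nonneg fun i _ => hD0 _
        have t3 : 0 ≤ ∑ i, Real.sqrt (cpl (Sv 1 p h0) (Rr p s ω (ze E η)) p (b i)) :=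
          Finset.sum_nonneg fun i _ => Real.sqrt_nonneg _
        have t4 : 0 ≤ ∑ i, ∑ j ∈ Finset.univ.erase i,
            Real.sqrt (cpl2 (Rr p s ω (ze E η)) p (b i) (b j)) :=
          Finset.sum_nonneg fun i _ => Finset.sum_nonneg fun j _ => Real.sqrt_nonneg _
        exact mul_nonneg hC3 (add_nonneg (add_nonneg (add_nonneg t1 (abs_nonneg s)) t3) t4))

/-- the constant of `inner3` -/
noncomputable def K3c (d : ℕ) [NeZero d] (y0 rs ε M C0 CL0 C1 : ℝ) : ℝ :=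
  K1 d y0 rs ε M C1 + CM y0 rs * K2 d y0 rs ε M C0 CL0 + CM y0 rs

theorem K3c_nonneg (hy : 0 < y0) (hrs : 0 < rs) (hM : 0 ≤ M) (hC1 : 0 ≤ C1) :
    0 ≤ K3c d y0 rs ε M C0 CL0 C1 := by
  have h1 := K1_nonneg (d := d) (rs := rs) (ε := ε) hy hM hC1
  have h2 := K2_nonneg (d := d) (y0 := y0) (rs := rs) (ε := ε) (C0 := C0) (CL0 := CL0) hM
  have h3 := CM_nonneg hy hrs
  unfold K3c
  positivity

open Classical in
theorem inner3 (hd : 3 ≤ d) (hrs : 0 < rs) (hrs1 : rs ≤ 1) (hε : 0 < ε) (hM0 : 0 ≤ M)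
    (hM : GoodM d A rs M)
    (hC0 : 0 ≤ C0) (hCL0 : 0 ≤ CL0) (hS0 : S0P d 1 A rs ε C0 CL0)
    (hC1 : 0 ≤ C1) (hSM : SMP d A rs ε C1) (hR : Rng A n E s η ω) (hp : IsPort p)
    (hadm : TreeDet350.Adm (d - 1) y0 (ze E η) (mc d (ze E η))) (hκ1 : 1 / (n * η) ≤ 1) :
    ‖avC (fun b : BI d 1 → HE n d => if BVal 1 p h0 b then
        muA (rs / 2) (mc d (ze E η)) (B0 (np p h0 b) s ω (ze E η) h0) else
        (1 - mc d (ze E η) ^ 2) * mc d (ze E η) ^ 2 *
          ∑ i ∈ Iside 1 false, yP p s ω (ze E η) (b i)) -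
      (((d : ℂ) - 1) * mc d (ze E η) ^ 2) * SpecA.mup rs p s ω (ze E η)‖ ≤
      K3c d y0 rs ε M C0 CL0 C1 *
        (SpecA.Vp rs p s ω (ze E η) + |s| + Real.sqrt (1 / (n * η))) := by
  have hη := hR.η0
  have hn : (0 : ℝ) < n := by exact_mod_cast hR.n0
  have hne : Nonempty (HE n d) := ⟨(⟨0, hR.n0⟩, ⟨0, Nat.pos_of_ne_zero (NeZero.ne d)⟩)⟩
  have hz : 0 < (ze E η).im := by simpa [ze] using hR.η0
  have hCM := CM_nonneg hadm.hy hrs
  have hdm := norm_sq_m hd hadm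
  have i1 := inner1 (h0 := h0) hd hrs hε hM0 hM hC1 hSM hR hp hadm hκ1
  have i2 := inner2 (h0 := h0) (y0 := y0) hrs hrs1 hε hM0 hM hC0 hCL0 hS0 hR hp hadm
  have i3 := mup_sub hadm hz hrs hp s ω
  set m := mc d (ze E η) with hm
  set V := SpecA.Vp rs p s ω (ze E η) with hV
  set κ : ℝ := 1 / (n * η) with hκ
  have hκ0 : 0 ≤ κ := by rw [hκ]; positivity
  have hV0 : 0 ≤ V := by
    rw [hV, Vp_av1]; exact av1_nonneg fun x => sq_nonneg _
  set T0 := avc (yP p s ω (ze E η)) with hT0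
  set f : (BI d 1 → HE n d) → ℂ := fun b => if BVal 1 p h0 b then
        (1 - m ^ 2) * yP (np p h0 b) s ω (ze E η) h0 else
        (1 - m ^ 2) * m ^ 2 * ∑ i ∈ Iside 1 false, yP p s ω (ze E η) (b i) with hf
  set g : (BI d 1 → HE n d) → ℂ := fun b => if BVal 1 p h0 b then
        muA (rs / 2) m (B0 (np p h0 b) s ω (ze E η) h0) else
        (1 - m ^ 2) * m ^ 2 * ∑ i ∈ Iside 1 false, yP p s ω (ze E η) (b i) with hg
  have hfg : ‖avC g - avC f‖ ≤ CM y0 rs * (K2 d y0 rs ε M C0 CL0 * (V + |s| ^ 2 + κ)) := by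
    rw [avC_sub]
    refine (norm_avC_le _).trans ?_
    refine le_trans ?_ (mul_le_mul_of_nonneg_left i2 hCM)
    rw [← av_const_mul]
    refine av_mono fun b => ?_
    simp only [hf, hg]
    by_cases hv : BVal 1 p h0 b
    · simp only [hv, if_true]
      exact muA_sub hadm hrs (im_B0_pos (hv.isPort le_rfl hp) s ω hz h0 0).le
    · simp only [hv, if_false, sub_self, norm_zero]
      positivity
  have hT : ‖(1 - m ^ 2) * m ^ 2 * ((d : ℂ) - 1) * T0 -
      (((d : ℂ) - 1) * m ^ 2) * SpecA.mup rs p s ω (ze E η)‖ ≤ CM y0 rs * V := by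
    have e : (1 - m ^ 2) * m ^ 2 * ((d : ℂ) - 1) * T0 -
        (((d : ℂ) - 1) * m ^ 2) * SpecA.mup rs p s ω (ze E η) =
        -((((d : ℂ) - 1) * m ^ 2) * (SpecA.mup rs p s ω (ze E η) - (1 - m ^ 2) * T0)) := by
      ring
    rw [e, norm_neg, norm_mul]
    calc _ ≤ 1 * (CM y0 rs * V) := mul_le_mul hdm i3 (norm_nonneg _) zero_le_one
      _ = _ := one_mul _
  have hs2 : |s| ^ 2 ≤ |s| := by
    have := hR.s
    have := abs_nonneg s
    nlinarith
  have hκs : κ ≤ Real.sqrt κ := by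
    apply Real.le_sqrt_of_sq_le
    nlinarith
  have hK2 := K2_nonneg (d := d) (y0 := y0) (rs := rs) (ε := ε) (C0 := C0) (CL0 := CL0) hM0
  have hsq : 0 ≤ Real.sqrt κ := Real.sqrt_nonneg _
  have hs0 := abs_nonneg s
  have b1 : CM y0 rs * (K2 d y0 rs ε M C0 CL0 * (V + |s| ^ 2 + κ)) ≤
      CM y0 rs * K2 d y0 rs ε M C0 CL0 * (V + |s| + Real.sqrt κ) := by
    rw [← mul_assoc]
    exact mul_le_mul_of_nonneg_left (by linarith) (mul_nonneg hCM hK2)
  have b2 : CM y0 rs * V ≤ CM y0 rs * (V + |s| + Real.sqrt κ) :=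
    mul_le_mul_of_nonneg_left (by linarith) hCM
  have tri : ‖avC g - (((d : ℂ) - 1) * m ^ 2) * SpecA.mup rs p s ω (ze E η)‖ ≤
      ‖avC g - avC f‖ + ‖avC f - (1 - m ^ 2) * m ^ 2 * ((d : ℂ) - 1) * T0‖ +
        ‖(1 - m ^ 2) * m ^ 2 * ((d : ℂ) - 1) * T0 -
          (((d : ℂ) - 1) * m ^ 2) * SpecA.mup rs p s ω (ze E η)‖ := by
    have e : avC g - (((d : ℂ) - 1) * m ^ 2) * SpecA.mup rs p s ω (ze E η) =
        (avC g - avC f) + (avC f - (1 - m ^ 2) * m ^ 2 * ((d : ℂ) - 1) * T0) +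
          ((1 - m ^ 2) * m ^ 2 * ((d : ℂ) - 1) * T0 -
            (((d : ℂ) - 1) * m ^ 2) * SpecA.mup rs p s ω (ze E η)) := by ring
    rw [e]
    exact norm_add₃_le
  refine tri.trans ?_
  unfold K3c
  rw [add_mul, add_mul]
  linarith

end inner

omit [NeZero d] in
theorem book1 {K B Ci V s q κ' S τ : ℝ} (hK0 : 0 ≤ K) (hB0 : 0 ≤ B) (hCi0 : 0 ≤ Ci)
    (hV0 : 0 ≤ V) (hs0 : 0 ≤ s) (hS0 : 0 ≤ S) (h1 : q ≤ S) (h2 : κ' ≤ Ci * S) (hτs : τ ≤ S) :
    K * (V + s + q) + 2 * B * κ' + 2 * B * τ ≤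
      (K + 2 * B * Ci + 2 * B + 6 * B) * (V + s + S) := by
  have t1 : K * (V + s + q) ≤ K * (V + s + S) :=
    mul_le_mul_of_nonneg_left (by linarith) hK0
  have t2 : 2 * B * κ' ≤ 2 * B * (Ci * S) :=
    mul_le_mul_of_nonneg_left h2 (by positivity)
  have t3 : 2 * B * τ ≤ 2 * B * S := mul_le_mul_of_nonneg_left hτs (by positivity)
  have t4 : 0 ≤ (2 * B * Ci + 2 * B) * (V + s) := by positivity
  have t5 : 0 ≤ 6 * B * (V + s + S) := by positivity
  have e : (K + 2 * B * Ci + 2 * B + 6 * B) * (V + s + S) =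
      K * (V + s + S) + 2 * B * (Ci * S) + 2 * B * S + (2 * B * Ci + 2 * B) * (V + s) +
        6 * B * (V + s + S) := by ring
  rw [e]
  linarith

omit [NeZero d] in
theorem book2 {K B Ci V s S τ : ℝ} (hK0 : 0 ≤ K) (hB0 : 0 ≤ B) (hCi0 : 0 ≤ Ci)
    (hV0 : 0 ≤ V) (hs0 : 0 ≤ s) (hS1 : 1 ≤ S) (hτ1 : τ ≤ 1) :
    2 * B + 2 * B * 1 + 2 * B * τ ≤
      (K + 2 * B * Ci + 2 * B + 6 * B) * (V + s + S) := by
  have t0 : 2 * B * τ ≤ 2 * B * 1 := mul_le_mul_of_nonneg_left hτ1 (by positivity)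
  have t1 : 6 * B * 1 ≤ 6 * B * S := mul_le_mul_of_nonneg_left hS1 (by positivity)
  have hS0 : 0 ≤ S := by linarith
  have t2 : 0 ≤ (K + 2 * B * Ci + 2 * B) * (V + s + S) := by positivity
  have t3 : 0 ≤ 6 * B * (V + s) := by positivity
  have e : (K + 2 * B * Ci + 2 * B + 6 * B) * (V + s + S) =
      (K + 2 * B * Ci + 2 * B) * (V + s + S) + 6 * B * (V + s) + 6 * B * S := by ring
  rw [e]
  linarith

/-- **(H2)** -/
theorem h2P {A rs ε M C0 CL0 C1 : ℝ} (hd : 3 ≤ d) (hA2 : A ^ 2 < 4 * ((d : ℝ) - 1))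
    (hrs : 0 < rs) (hrs1 : rs ≤ 1) (hε : 0 < ε) (hM0 : 0 ≤ M) (hM : GoodM d A rs M)
    (hC0 : 0 ≤ C0) (hCL0 : 0 ≤ CL0) (hS0 : S0P d 1 A rs ε C0 CL0)
    (hC1 : 0 ≤ C1) (hSM : SMP d A rs ε C1) :
    ∃ C : ℝ, 0 < C ∧ H2P d A rs C (fun _ s ω z p => H4.gm 1 rs s ω z p) := by
  classical
  set y0 := y00 d A with hy0
  have hy : 0 < y0 := y00_pos (by omega) hA2
  have hBB := BB_pos hy
  set K := K3c d y0 rs ε M C0 CL0 C1 with hK
  have hK0 : 0 ≤ K := K3c_nonneg hy hrs hM0 hC1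
  set B : ℝ := 1 + 3 / 2 * BB y0 with hB
  have hB1 : 1 ≤ B := by rw [hB]; linarith
  have hB0 : 0 ≤ B := by linarith
  set Ci : ℝ := (SwInv356.Cinv d 1 : ℝ) with hCi
  have hCi0 : 0 ≤ Ci := Nat.cast_nonneg _
  refine ⟨K + 2 * B * Ci + 2 * B + 6 * B, by positivity, ?_⟩
  intro n E s η ω hR p hp
  have hη := hR.η0
  have hn : (0 : ℝ) < n := by exact_mod_cast hR.n0
  have hne : Nonempty (HE n d) := ⟨(⟨0, hR.n0⟩, ⟨0, Nat.pos_of_ne_zero (NeZero.ne d)⟩)⟩
  have hz : 0 < (ze E η).im := by simpa [ze] using hR.η0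
  have hadm : TreeDet350.Adm (d - 1) y0 (ze E η) (mc d (ze E η)) :=
    adm_of hd hA2 hR.E hη hR.η1
  have hdm := norm_sq_m hd hadm
  set m := mc d (ze E η) with hm
  set V := SpecA.Vp rs p s ω (ze E η) with hV
  have hV0 : 0 ≤ V := by
    rw [hV, Vp_av1]; exact av1_nonneg fun x => sq_nonneg _
  set κ : ℝ := 1 / (n * η) with hκ
  have hκ0 : 0 ≤ κ := by rw [hκ]; positivity
  set τ : ℝ := pr1 (fun h : HE n d => ¬ TL 1 p h) with hτ
  have hτ0 : 0 ≤ τ := pr1_nonneg _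
  have hτ1 : τ ≤ 1 := by
    have : pr1 (fun h : HE n d => ¬ TL 1 p h) ≤ av1 (fun _ : HE n d => (1 : ℝ)) := by
      unfold pr1
      apply av1_mono; intro x; split_ifs <;> norm_num
    exact this.trans (av1_le_const fun _ => le_rfl)
  set T : ℂ := (((d : ℂ) - 1) * m ^ 2) * SpecA.mup rs p s ω (ze E η) with hT
  have hmup : ‖SpecA.mup rs p s ω (ze E η)‖ ≤ rs := by
    rw [mup_avc]
    refine (norm_avc_le' _).trans (av1_le_const fun x => ?_)
    refine (muA_le (half_pos hrs) _ _).trans (le_of_eq (by ring))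
  have hTB : ‖T‖ ≤ B := by
    rw [hT, norm_mul]
    calc _ ≤ 1 * rs := mul_le_mul hdm hmup (norm_nonneg _) zero_le_one
      _ ≤ B := by linarith
  have hcardI' : ((Iside (d := d) 1 false).card : ℝ) = (d : ℝ) - 1 := by
    rw [card_Iside, Nat.cast_sub (by omega)]; simp
  have hm2 : ‖m‖ ^ 2 * ((d : ℝ) - 1) ≤ 1 := by
    have h1 : ‖((d : ℂ) - 1) * m ^ 2‖ = ‖m‖ ^ 2 * ((d : ℝ) - 1) := by
      have hc : ((Iside (d := d) 1 false).card : ℂ) = (d : ℂ) - 1 := by
        rw [card_Iside, Nat.cast_sub (by omega)]; simp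
      rw [← hc, norm_mul, Complex.norm_natCast, norm_pow, hcardI', mul_comm]
    rw [h1] at hdm
    exact hdm
  set G : HE n d → (BI d 1 → HE n d) → ℂ := fun _ b =>
    (1 - m ^ 2) * m ^ 2 * ∑ i ∈ Iside 1 false, yP p s ω (ze E η) (b i) with hG
  have hGB : ∀ h0 b, ‖G h0 b‖ ≤ B := by
    intro h0 b
    simp only [hG]
    rw [norm_mul, norm_mul, norm_pow]
    have h1 : ‖∑ i ∈ Iside (d := d) 1 false, yP p s ω (ze E η) (b i)‖ ≤
        ((d : ℝ) - 1) * BB y0 := by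
      refine (norm_sum_le _ _).trans ?_
      refine (Finset.sum_le_card_nsmul _ _ (BB y0) fun i _ =>
        hadm.norm_uu_le (im_B0_pos hp s ω hz (b i) 0).le).trans ?_
      rw [nsmul_eq_mul, hcardI']
    calc ‖1 - m ^ 2‖ * ‖m‖ ^ 2 * ‖∑ i ∈ Iside (d := d) 1 false, yP p s ω (ze E η) (b i)‖
        ≤ 3 / 2 * ‖m‖ ^ 2 * (((d : ℝ) - 1) * BB y0) := by
          refine mul_le_mul (mul_le_mul_of_nonneg_right hadm.norm_a_le (sq_nonneg _)) h1
            (norm_nonneg _) (by positivity)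
      _ = 3 / 2 * (‖m‖ ^ 2 * ((d : ℝ) - 1)) * BB y0 := by ring
      _ ≤ 3 / 2 * 1 * BB y0 := by gcongr
      _ ≤ B := by rw [hB]; linarith
  have hs0 := abs_nonneg s
  have hsq0 : 0 ≤ Real.sqrt (κ + τ) := Real.sqrt_nonneg _
  have hτs : τ ≤ Real.sqrt (κ + τ) := by
    apply Real.le_sqrt_of_sq_le
    nlinarith
  by_cases hκ1 : κ ≤ 1
  · have hX : 0 ≤ K * (V + |s| + Real.sqrt κ) := by positivity
    have h := glue_gm (L := 1) (B := B) (X := K * (V + |s| + Real.sqrt κ)) (cI := Ci / n)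
      hR.n0 hrs (by linarith : rs ≤ B) hGB hTB hX (by positivity)
      (fun h0 htl => pr_inv_le hR.n0 hp htl)
      (fun h0 _ => inner3 hd hrs hrs1 hε hM0 hM hC0 hCL0 hS0 hC1 hSM hR hp hadm hκ1)
    rw [nonTL_eq] at h
    refine h.trans ?_
    have hκs : κ ≤ Real.sqrt (κ + τ) := by
      apply Real.le_sqrt_of_sq_le
      nlinarith
    have h1 : Real.sqrt κ ≤ Real.sqrt (κ + τ) := Real.sqrt_le_sqrt (by linarith)
    have h2 : Ci / n ≤ Ci * Real.sqrt (κ + τ) := by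
      have h3 : 1 / (n : ℝ) ≤ κ := by
        rw [hκ]
        apply one_div_le_one_div_of_le (by positivity)
        nlinarith [hR.η1]
      calc Ci / n = Ci * (1 / n) := by ring
        _ ≤ Ci * Real.sqrt (κ + τ) := mul_le_mul_of_nonneg_left (h3.trans hκs) hCi0
    exact book1 hK0 hB0 hCi0 hV0 hs0 hsq0 h1 h2 hτs
  · push Not at hκ1
    have hX : 0 ≤ 2 * B := by positivity
    have h := glue_gm (L := 1) (B := B) (X := 2 * B) (cI := 1)
      hR.n0 hrs (by linarith : rs ≤ B) hGB hTB hX zero_le_one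
      (fun h0 htl => pr_le_one _)
      (fun h0 _ => by
        refine (norm_sub_le _ _).trans ?_
        have h1 : ‖avC (fun b : BI d 1 → HE n d => if BVal 1 p h0 b then
            muA (rs / 2) (mc d (ze E η)) (B0 (np p h0 b) s ω (ze E η) h0) else G h0 b)‖ ≤ B := by
          refine (norm_avC_le _).trans ?_
          have h2 : av (fun b : BI d 1 → HE n d => ‖(if BVal 1 p h0 b then
              muA (rs / 2) (mc d (ze E η)) (B0 (np p h0 b) s ω (ze E η) h0) else G h0 b)‖) ≤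
              av (fun _ : BI d 1 → HE n d => B) := by
            refine av_mono fun b => ?_
            split_ifs
            · refine (muA_le (half_pos hrs) _ _).trans ?_
              linarith
            · exact hGB h0 b
          rwa [av_const] at h2
        linarith)
    rw [nonTL_eq] at h
    refine h.trans ?_
    have h1 : 1 ≤ Real.sqrt (κ + τ) := by
      rw [Real.one_le_sqrt]
      linarith
    exact book2 hK0 hB0 hCi0 hV0 hs0 h1 hτ1

end Crest.Agent.R166.H2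
end

-- ▼ part R166/Comm_470
section

/-!
# Row 166: the structure `H4.Comm` for the ball-boundary moves (helper470)
-/

set_option autoImplicit false

namespace Crest.Agent.R166.SwP470

/-- the hypotheses `sm1`, `sm2` of `H4_269`, with `cL = 4 N`, `cD = |J|²` -/
theorem comm (n d L : ℕ) [NeZero d] (hn : 0 < n) :
    H4.Comm n d L (4 * (Fintype.card (BI d L) : ℝ))
      ((Fintype.card (SwComm356.J d L) : ℝ) ^ 2) where
  ch := fun p hp m => by
    have := card_Ch_bsw (mem_Ports.1 hp) m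
    exact_mod_cast this
  comm := by
    obtain ⟨Bad, h1, h2⟩ := SwComm356.hcomm n d L hn
    exact ⟨Bad, h1, fun p hp m m' hm => h2 p hp m (Finset.mem_univ _) m' (Finset.mem_univ _) hm⟩

end Crest.Agent.R166.SwP470
end

-- ▼ part R166/StepA_395
section

/-!
# Row 166, section 30.4 (helper395): assembly of `SpecA.StepA d` (`3 ≤ d`)

`StepIn d` = the remaining analytic inputs `S0P`, `S1P` (all depths, `C` independent of the depth)
and `H2P`; `stepL_of` : the one-step structure with the concrete `gV = H4.gV L`, `gm = H4.gm 1`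
for all large `L`; `stepA_of : StepIn d → SpecA.StepA d`.
-/

set_option autoImplicit false

open Finset

namespace Crest.Agent.R166.StepA395

open Crest.Agent.R166 Stab269 Rev811 Spec30 SwP470 MuU395 H1P395

variable {d : ℕ} [NeZero d]

/-- the analytic inputs -/
def StepIn (d : ℕ) [NeZero d] : Prop :=
  ∀ A : ℝ, 0 < A → A ^ 2 < 4 * ((d : ℝ) - 1) →
    ∃ rs C Cm : ℝ, 0 < rs ∧ rs ≤ 1 / 14 ∧ 0 ≤ C ∧ 0 ≤ Cm ∧
      (∀ L : ℕ, 1 ≤ L → ∃ ε CL : ℝ, 0 < ε ∧ 0 ≤ CL ∧ S0P d L A rs ε C CL ∧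
        S1P d L A rs ε C CL) ∧
      H2P d A rs Cm (fun _ s ω z p => H4.gm 1 rs s ω z p)

/-- fraction of the centres whose depth `L` ball is not a tree -/
noncomputable def errL (L : ℕ) {n : ℕ} (p : Equiv.Perm (HE n d)) : ℝ :=
  pr1 (fun h : HE n d => ¬ TL L p h)

/-- the one-step structure with the concrete one-step means, for all large depths -/
def StepC (d : ℕ) [NeZero d] : Prop :=
  ∀ A : ℝ, 0 < A → A ^ 2 < 4 * ((d : ℝ) - 1) →
    ∃ rs c : ℝ, 0 < rs ∧ rs ≤ 1 ∧ 0 < c ∧ ∃ L0 : ℕ, 1 ≤ L0 ∧ ∀ L : ℕ, L0 ≤ L → ∃ C : ℝ, 0 < C ∧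
      ∀ n : ℕ, 0 < n → (∀ p : Equiv.Perm (HE n d), 0 ≤ errL L p) ∧
        ∑ p ∈ Ports n d, errL L p ≤ C / n * (Ports n d).card ∧
        ∀ E s η : ℝ, |E| ≤ A → |s| ≤ 1 → 0 < η → η ≤ 1 →
          ∀ ω : Fin n → ℝ, (∀ v, |ω v| ≤ 1) →
            Multi383.Step (Ports n d) (fun p => SpecA.Vp rs p s ω (ze E η))
              (fun p => H4.gV L rs s ω (ze E η) p)
              (fun p => SpecA.mup rs p s ω (ze E η)) (fun p => H4.gm 1 rs s ω (ze E η) p)
              (fun p => errL L p)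
              (((d : ℂ) - 1) * mc d (ze E η) ^ 2) C c (1 / 4) (1 / (n * η)) s

theorem errL_sum (hd : 3 ≤ d) (L : ℕ) {n : ℕ} (hn : 0 < n) :
    ∑ p ∈ Ports n d, errL L p ≤ (Tree798.CT d L : ℝ) / n * (Ports n d).card := by
  classical
  have h := Tree798.sum_card_not_TL_le (n := n) (d := d) (by omega) L
  have hd' : (3 : ℝ) ≤ d := by exact_mod_cast hd
  have hn' : (0 : ℝ) < n := by exact_mod_cast hn
  have e : ∀ p : Equiv.Perm (HE n d), errL L p =
      ((Finset.univ.filter fun h : HE n d => ¬ TL L p h).card : ℝ) / (n * d) := by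
    intro p
    unfold errL
    rw [pr1_eq_card, IsPort.card_HE]
    push_cast
    congr!
  rw [Finset.sum_congr rfl fun p _ => e p, ← Finset.sum_div, div_le_iff₀ (by positivity)]
  refine h.trans ?_
  have h2 : (Tree798.CT d L : ℝ) / n * (Ports n d).card * (n * d) =
      (Tree798.CT d L * (Ports n d).card) * d := by
    field_simp
  rw [h2]
  have h3 : (0 : ℝ) ≤ Tree798.CT d L * (Ports n d).card := by
    refine le_trans ?_ h
    exact Finset.sum_nonneg fun _ _ => Nat.cast_nonneg _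
  nlinarith

theorem stepC_of (hd : 3 ≤ d) (hin : StepIn d) : StepC d := by
  classical
  intro A hA0 hA
  obtain ⟨rs, C0, Cm, hrs, hrs1, hC0, hCm, hS, hH2⟩ := hin A hA0 hA
  obtain ⟨L0, hL0, hH1⟩ := h1P_all hd hA hrs hrs1 hC0 hS
  have hd' : (3 : ℝ) ≤ d := by exact_mod_cast hd
  set c : ℝ := 2 * Real.sqrt ((d : ℝ) - 1) *
    ((1 - A ^ 2 / (4 * ((d : ℝ) - 1))) / ((d : ℝ) - 1 + 1)) with hc
  have hA1 : A ^ 2 / (4 * ((d : ℝ) - 1)) < 1 := by
    rw [div_lt_one (by linarith)]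
    exact hA
  have hc0 : 0 < c := by
    rw [hc]
    have h1 : 0 < Real.sqrt ((d : ℝ) - 1) := Real.sqrt_pos.2 (by linarith)
    have h2 : 0 < 1 - A ^ 2 / (4 * ((d : ℝ) - 1)) := by linarith
    have h3 : 0 < (d : ℝ) - 1 + 1 := by linarith
    positivity
  refine ⟨rs, c, hrs, by linarith, hc0, L0, hL0, fun L hL => ?_⟩
  have hL1 : 1 ≤ L := hL0.trans hL
  obtain ⟨C1, hC1, hone⟩ := hH1 L hL
  set cL : ℝ := 4 * (Fintype.card (BI d L) : ℝ) with hcL
  set cD : ℝ := (Fintype.card (SwComm356.J d L) : ℝ) ^ 2 with hcD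
  set cL1 : ℝ := 4 * (Fintype.card (BI d 1) : ℝ) with hcL1
  set cD1 : ℝ := (Fintype.card (SwComm356.J d 1) : ℝ) ^ 2 with hcD1
  have p1 : 0 ≤ cL := by positivity
  have p2 : 0 ≤ cD := by positivity
  have p3 : 0 ≤ cL1 := by positivity
  have p4 : 0 ≤ cD1 := by positivity
  set CTL : ℝ := |(Tree798.CT d L : ℝ)| with hCTL
  have p5 : 0 ≤ CTL := abs_nonneg _
  set C : ℝ := C1 + Cm + (1028 * cL + 2 * cD) + (2568 * cL1 + 4 * cD1) + CTL + 1 with hC
  refine ⟨C, by positivity, fun n hn => ⟨fun p => pr1_nonneg _, ?_, ?_⟩⟩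
  · have hn' : (0 : ℝ) < n := by exact_mod_cast hn
    refine (errL_sum hd L hn).trans ?_
    refine mul_le_mul_of_nonneg_right ?_ (Nat.cast_nonneg _)
    refine div_le_div_of_nonneg_right ?_ hn'.le
    have : (Tree798.CT d L : ℝ) ≤ CTL := le_abs_self _
    rw [hC]
    linarith
  · intro E s η hE hs hη hη1 ω hω
    have hn' : (0 : ℝ) < n := by exact_mod_cast hn
    have hR : Rng A n E s η ω := ⟨hn, hE, hs, hη, hη1, hω⟩
    have hκ : 0 ≤ 1 / ((n : ℝ) * η) := by positivity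
    have hcard : (0 : ℝ) ≤ ((Ports n d).card : ℝ) := Nat.cast_nonneg _
    have her : ∀ p : Equiv.Perm (HE n d), 0 ≤ errL L p := fun p => pr1_nonneg _
    have hV : ∀ p : Equiv.Perm (HE n d), 0 ≤ SpecA.Vp rs p s ω (ze E η) := by
      intro p
      rw [Vp_av1]
      exact av1_nonneg fun _ => sq_nonneg _
    constructor
    · intro p _
      exact hV p
    · intro p hp
      have h := hone n E s η ω hR p (mem_Ports.1 hp)
      refine h.trans ?_
      have h1 : 0 ≤ ‖SpecA.mup rs p s ω (ze E η)‖ ^ 2 + SpecA.Vp rs p s ω (ze E η) ^ 2 +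
          (1 / (n * η) + errL L p) + s ^ 2 := by
        have := her p
        positivity
      have h2 : C1 ≤ C := by rw [hC]; linarith
      have h3 := mul_le_mul_of_nonneg_right h2 h1
      have h4 : errL L p = pr1 (fun h : HE n d => ¬ TL L p h) := rfl
      rw [h4] at h3 ⊢
      linarith
    · intro p hp
      have h := hH2 n E s η ω hR p (mem_Ports.1 hp)
      refine h.trans ?_
      have h4 : pr1 (fun h : HE n d => ¬ TL 1 p h) ≤ errL L p :=
        pr1_mono fun h hh hT => hh (Tree798.TL_mono hL1 hT)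
      have h5 : Real.sqrt (1 / (n * η) + pr1 (fun h : HE n d => ¬ TL 1 p h)) ≤
          Real.sqrt (1 / (n * η) + errL L p) := Real.sqrt_le_sqrt (by linarith)
      have h6 : Cm ≤ C := by rw [hC]; linarith
      refine mul_le_mul h6 ?_ ?_ (by positivity)
      · linarith
      · have := hV p
        positivity
    · refine le_trans ?_ (ScaleV355.mc_nonres (by omega) (C0 := 1) ?_ hη hη1)
      · rw [hc]
        have hE2 : E ^ 2 ≤ A ^ 2 := by
          rw [← sq_abs E]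
          exact pow_le_pow_left₀ (abs_nonneg _) hE 2
        have h7 : E ^ 2 / (4 * ((d : ℝ) - 1)) ≤ A ^ 2 / (4 * ((d : ℝ) - 1)) :=
          div_le_div_of_nonneg_right hE2 (by linarith)
        refine mul_le_mul_of_nonneg_left ?_ (by positivity)
        refine div_le_div_of_nonneg_right ?_ (by linarith)
        linarith
      · have hE2 : E ^ 2 ≤ A ^ 2 := by
          rw [← sq_abs E]
          exact pow_le_pow_left₀ (abs_nonneg _) hE 2
        linarith
    · refine (H4.sm1 (by omega) hL1 hn p1 p2 (SwP470.comm n d L hn) s ω hη hη1 hrs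
        (by linarith)).trans ?_
      refine mul_le_mul_of_nonneg_right (mul_le_mul_of_nonneg_right ?_ hκ) hcard
      rw [hC]
      linarith
    · refine (H4.sm2 (by omega) le_rfl hn p3 p4 (SwP470.comm n d 1 hn) s ω hη hη1 hrs
        (by linarith)).trans ?_
      refine mul_le_mul_of_nonneg_right (mul_le_mul_of_nonneg_right ?_ hκ) hcard
      rw [hC]
      linarith

theorem stepA_of (hd : 3 ≤ d) (hin : StepIn d) : SpecA.StepA d := by
  intro A hA0 hA
  obtain ⟨rs, c, hrs, _, hc, L0, _, h⟩ := stepC_of hd hin A hA0 hA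
  obtain ⟨C, hC, hn⟩ := h L0 le_rfl
  refine ⟨rs, C, c, 1, hrs, hC, hc, one_pos, fun n hn0 => ?_⟩
  obtain ⟨h1, h2, h3⟩ := hn n hn0
  exact ⟨fun p => errL L0 p, h1, h2, fun E s η hE hs hη hη1 ω hω =>
    ⟨_, _, h3 E s η hE hs hη hη1 ω hω⟩⟩

end Crest.Agent.R166.StepA395
end

-- ▼ part R166/StepFin_395

/-!
# Row 166, section 30.4 (helper395): final instantiation of `StepIn`, `StepA`, `StepL`, `ThmA`
(`3 ≤ d`, clean case).
-/

set_option autoImplicit false

open Finset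

namespace Crest.Agent.R166.StepFin395

open Crest.Agent.R166 Stab269 Rev811 Spec30 SwP470 MuU395 H1P395 StepA395 Shape395

variable {d : ℕ} [NeZero d]

/-- tree estimates, all depths -/
def TAll (d : ℕ) [NeZero d] : Prop :=
  ∀ A : ℝ, A ^ 2 < 4 * ((d : ℝ) - 1) → ∀ L : ℕ, ∃ CLt : ℝ, 0 ≤ CLt ∧ ShapeP1789.TEst d L A CLt

/-- the H2 input -/
def H2All (d : ℕ) [NeZero d] : Prop :=
  ∀ A rs ε C1 C0 CL0 : ℝ, A ^ 2 < 4 * ((d : ℝ) - 1) → 0 < rs → rs ≤ 1 / 16 → 0 < ε → 0 ≤ C1 →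
    0 ≤ C0 → 0 ≤ CL0 → SMP d A rs ε C1 → S0P d 1 A rs ε C0 CL0 →
      ∃ Cm : ℝ, 0 ≤ Cm ∧ H2P d A rs Cm (fun _ s ω z p => H4.gm 1 rs s ω z p)

theorem S0P_mono {L : ℕ} {A rs ε C C' CL CL' : ℝ} (hrs : 0 ≤ rs) (hC : C ≤ C') (hCL : CL ≤ CL')
    (h : S0P d L A rs ε C CL) : S0P d L A rs ε C' CL' := by
  intro n E s η ω hR p hp h0 b hb hA
  refine (h n E s η ω hR p hp h0 b hb hA).trans ?_
  have hD : ∀ x : HE n d, 0 ≤ SpecA.Dv rs p s ω (ze E η) x := fun x => by
    rw [dv_eq]; exact dv_nonneg hrs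
  have h1 : 0 ≤ ‖mc d (ze E η) ^ (2 * L) * ∑ i ∈ Iside L false, yP p s ω (ze E η) (b i)‖ +
          ‖mc d (ze E η) ^ (2 * L) * ∑ i ∈ Iside L true, yP p s ω (ze E η) (b i)‖ := by
    positivity
  have h2 : 0 ≤ ‖mc d (ze E η)‖ ^ (2 * L) * (∑ i, SpecA.Dv rs p s ω (ze E η) (b i) ^ 2) := by
    positivity
  have h3 : 0 ≤ (∑ jk ∈ (Finset.univ : Finset (BI d L)).offDiag,
            SpecA.Dv rs p s ω (ze E η) (b jk.1) * SpecA.Dv rs p s ω (ze E η) (b jk.2)) + |s| +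
          cEs L p s ω (ze E η) h0 ∅ b := by
    have := ShapeP598.cEs_nonneg L p s ω (ze E η) h0 ∅ b
    have h4 : 0 ≤ ∑ jk ∈ (Finset.univ : Finset (BI d L)).offDiag,
            SpecA.Dv rs p s ω (ze E η) (b jk.1) * SpecA.Dv rs p s ω (ze E η) (b jk.2) :=
      Finset.sum_nonneg fun _ _ => mul_nonneg (hD _) (hD _)
    have := abs_nonneg s
    linarith
  have k1 := mul_le_mul_of_nonneg_right hC h1
  have k2 := mul_le_mul_of_nonneg_right hC h2
  have k3 := mul_le_mul_of_nonneg_right hCL h3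
  rw [mul_assoc C, mul_assoc C']
  linarith

theorem S1P_mono {L : ℕ} {A rs ε C C' CL CL' : ℝ} (hrs : 0 ≤ rs) (hC : C ≤ C') (hCL : CL ≤ CL')
    (h : S1P d L A rs ε C CL) : S1P d L A rs ε C' CL' := by
  intro n E s η ω hR p hp h0 b hb i hA
  refine (h n E s η ω hR p hp h0 b hb i hA).trans ?_
  have hD : ∀ x : HE n d, 0 ≤ SpecA.Dv rs p s ω (ze E η) x := fun x => by
    rw [dv_eq]; exact dv_nonneg hrs
  have h1 : 0 ≤ ‖mc d (ze E η)‖ ^ (2 * L) := by positivity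
  have h3 : 0 ≤ (∑ j ∈ ({i} : Finset (BI d L))ᶜ, SpecA.Dv rs p s ω (ze E η) (b j)) + |s| +
          cEs L p s ω (ze E η) h0 {i} b := by
    have := ShapeP598.cEs_nonneg L p s ω (ze E η) h0 {i} b
    have h4 : 0 ≤ ∑ j ∈ ({i} : Finset (BI d L))ᶜ, SpecA.Dv rs p s ω (ze E η) (b j) :=
      Finset.sum_nonneg fun _ _ => hD _
    have := abs_nonneg s
    linarith
  have k1 := mul_le_mul_of_nonneg_right hC h1
  have k3 := mul_le_mul_of_nonneg_right hCL h3
  linarith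

theorem goodC {A rs : ℝ} (hd : 3 ≤ d) (hA : A ^ 2 < 4 * ((d : ℝ) - 1)) (hrs : GoodE789.RsOK d A rs) :
    ShapeP598.GoodC d A rs (y00 d A / 8) := by
  intro n E s η ω hR p hp x hx y
  exact GoodE789.qf_ge hd hA hrs hp hR.E hR.η0 hR.η1 (not_le.1 hx) y

/-- **the analytic inputs** from the tree estimates and (H2) -/
theorem stepIn_of (hd : 3 ≤ d) (hT : TAll d) (hH : H2All d) : StepIn d := by
  intro A hA0 hA
  set y0 := y00 d A with hy0
  have hy : 0 < y0 := y00_pos (by omega) hA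
  have hy1 : y0 ≤ 1 := GoodE789.y00_le_one hd hA
  set rs : ℝ := y0 / 800 with hrs
  have hrs0 : 0 < rs := by rw [hrs]; positivity
  have hR : GoodE789.RsOK d A rs := GoodE789.rsOK_self hd hA
  have hG := goodC hd hA hR
  have hC2 : 0 ≤ C2 y0 (1 / (y0 / 2)) := by unfold C2; positivity
  have hBB := TreeDet350.BB_pos hy
  have hc : 0 < y0 / 8 := by positivity
  have hrs1 : rs ≤ 1 := by rw [hrs]; linarith
  have hrs8 : rs ≤ y0 / 8 := by rw [hrs]; linarith
  obtain ⟨CLt1, h1a, h1b⟩ := hT A hA 1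
  obtain ⟨C1, hC1, hSM⟩ := ShapeP598.sMP hd hA hrs0 hrs1 hrs8 hc hG h1a h1b 1
  have hS01 := ShapeP598.s0P hd hA hrs0 hrs1 hrs8 hc hG (L := 0) h1a h1b 1
  have hCN := ShapeP598.CN_pos (c := y0 / 8) hy hc
  have hCL0 : 0 ≤ 8 * CLt1 * (C3 y0 rs (1 / (y0 / 2)) ^ 2 + 1) + 2 * ShapeP598.CN y0 (y0 / 8) := by
    positivity
  obtain ⟨Cm, hCm, hH2⟩ := hH A rs 1 C1 _ _ hA hrs0 (by rw [hrs]; linarith) one_pos hC1
    (by positivity) hCL0 hSM hS01
  refine ⟨rs, max (4 + 8 * C2 y0 (1 / (y0 / 2))) (8 * TreeDet350.BB y0), Cm, hrs0,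
    by rw [hrs]; linarith, le_trans (by positivity) (le_max_left _ _), hCm, ?_, hH2⟩
  intro L hL
  obtain ⟨L', rfl⟩ : ∃ L', L = L' + 1 := ⟨L - 1, by omega⟩
  obtain ⟨CLt, ha, hb⟩ := hT A hA (L' + 1)
  have hS0 := ShapeP598.s0P hd hA hrs0 hrs1 hrs8 hc hG (L := L') ha hb 1
  have hS1 := ShapeP1789.s1P_of (L := L') 1 hd hA hR ha hb
  refine ⟨1, max (8 * CLt * (C3 y0 rs (1 / (y0 / 2)) ^ 2 + 1) + 2 * ShapeP598.CN y0 (y0 / 8))
    (ShapeP1789.CL1 d (L' + 1) y0 rs CLt), one_pos, le_trans (by positivity) (le_max_left _ _),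
    S0P_mono hrs0.le (le_max_left _ _) (le_max_left _ _) hS0,
    S1P_mono hrs0.le (le_max_right _ _) (le_max_right _ _) hS1⟩

/-- 501's form of the one-step structure -/
theorem stepL_of (h : StepC d) : Spec31.StepL d := by
  intro A hA0 hA
  obtain ⟨rs, c, h1, h2, h3, L0, _, h4⟩ := h A hA0 hA
  refine ⟨rs, c, 1, h1, h2, h3, one_pos, L0, fun L hL => ?_⟩
  obtain ⟨C, hC, hn⟩ := h4 L hL
  refine ⟨C, hC, fun n hn0 => ?_⟩
  obtain ⟨k1, k2, k3⟩ := hn n hn0
  exact ⟨fun p => errL L p, k1, k2, k3⟩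

theorem tAll (hd : 3 ≤ d) : TAll d := fun _ hA => TEst789.tEst hd hA

theorem h2All (hd : 3 ≤ d) : H2All d := by
  intro A rs ε C1 C0 CL0 hA hrs hrs1 hε hC1 hC0 hCL0 hSM hS0
  obtain ⟨C, hC, h⟩ := H2.h2P hd hA hrs (hrs1.trans (by norm_num)) hε (by norm_num : (0 : ℝ) ≤ 14)
    (H2.goodM hd hA hrs1) hC0 hCL0 hS0 hC1 hSM
  exact ⟨C, hC.le, h⟩

theorem stepIn (hd : 3 ≤ d) : StepIn d := stepIn_of hd (tAll hd) (h2All hd)

/-- the concrete one-step structure, all large depths -/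
theorem stepC (hd : 3 ≤ d) : StepC d := stepC_of hd (stepIn hd)

/-- 501's `StepL` -/
theorem stepL (hd : 3 ≤ d) : Spec31.StepL d := stepL_of (stepC hd)

/-- **(30.4)**: `StepA` -/
theorem stepA (hd : 3 ≤ d) : SpecA.StepA d := stepA_of hd (stepIn hd)

/-- **Theorem A** (clean case and `|s| ≤ 1`), `3 ≤ d` -/
theorem thmA (hd : 3 ≤ d) : SpecA.ThmA d := ThmA383.thmA_of_step d (stepA hd)

end Crest.Agent.R166.StepFin395
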