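import Mathlib

-- ▼ part R166/Bern_385
section

/-!
# Bernstein-type characterisation of Gaussian laws through orthogonal splittings (row 166, sec 42.5)

Pure analysis: a `C²` function `g` (later: a characteristic function) with
`g w = g (Q j w) * g (w - Q j w)` for a family of projections `Q j` which is
"irreducible" is the exponential of an affine + quadratic function.
-/

set_option autoImplicit false

open scoped RealInnerProductSpace ContDiff

namespace Crest.Agent.R166.Bern385

section Abstract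

variable {W : Type*} [NormedAddCommGroup W] [NormedSpace ℝ W]

/-- The logarithmic derivative. -/
noncomputable def al (g : W → ℂ) (w : W) : W →L[ℝ] ℂ := (g w)⁻¹ • fderiv ℝ g w

lemma al_contDiff {g : W → ℂ} (hg : ContDiff ℝ 2 g) (hne : ∀ w, g w ≠ 0) :
    ContDiff ℝ 1 (al g) := by
  have h1 : ContDiff ℝ 1 (fun w => (g w)⁻¹) := (hg.of_le (by norm_num)).inv hne
  have h2 : ContDiff ℝ 1 (fderiv ℝ g) := hg.fderiv_right (by norm_num)
  exact h1.smul h2

lemma al_apply (g : W → ℂ) (w u : W) : al g w u = (g w)⁻¹ * fderiv ℝ g w u := rfl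

variable {g : W → ℂ} {Q : W →L[ℝ] W}

lemma fderiv_split (hg : ContDiff ℝ 2 g) (hs : ∀ w, g w = g (Q w) * g (w - Q w)) (w u : W) :
    fderiv ℝ g w u = g (Q w) * fderiv ℝ g (w - Q w) (u - Q u)
      + g (w - Q w) * fderiv ℝ g (Q w) (Q u) := by
  have hd : Differentiable ℝ g := hg.differentiable (by norm_num)
  have h1 : HasFDerivAt (fun w => g (Q w)) ((fderiv ℝ g (Q w)).comp Q) w :=
    (hd (Q w)).hasFDerivAt.comp w Q.hasFDerivAt
  have h2 : HasFDerivAt (fun w => g (w - Q w))
      ((fderiv ℝ g (w - Q w)).comp (ContinuousLinearMap.id ℝ W - Q)) w :=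
    (hd (w - Q w)).hasFDerivAt.comp w ((hasFDerivAt_id w).sub Q.hasFDerivAt)
  have h3 := h1.mul h2
  have h4 : HasFDerivAt g _ w := h3.congr_of_eventuallyEq (Filter.Eventually.of_forall hs)
  rw [h4.fderiv]
  simp [smul_eq_mul]

lemma al_Q (hg : ContDiff ℝ 2 g) (hne : ∀ w, g w ≠ 0)
    (hQ : ∀ u, Q (Q u) = Q u) (hs : ∀ w, g w = g (Q w) * g (w - Q w)) (w u : W) :
    al g w (Q u) = al g (Q w) (Q u) := by
  rw [al_apply, al_apply, fderiv_split hg hs w (Q u)]
  rw [hQ, sub_self, map_zero, mul_zero, zero_add]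
  rw [hs w]
  have := hne (Q w); have := hne (w - Q w)
  field_simp

lemma al_Q' (hg : ContDiff ℝ 2 g) (hne : ∀ w, g w ≠ 0)
    (hQ : ∀ u, Q (Q u) = Q u) (hs : ∀ w, g w = g (Q w) * g (w - Q w)) (w u : W) :
    al g w (u - Q u) = al g (w - Q w) (u - Q u) := by
  rw [al_apply, al_apply, fderiv_split hg hs w (u - Q u)]
  have h0 : Q (u - Q u) = 0 := by rw [map_sub, hQ, sub_self]
  rw [h0, map_zero, mul_zero, add_zero, sub_zero]
  rw [hs w]
  have := hne (Q w); have := hne (w - Q w)
  field_simp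

/-- second logarithmic derivative -/
noncomputable def be (g : W → ℂ) (w : W) : W →L[ℝ] W →L[ℝ] ℂ := fderiv ℝ (al g) w

lemma be_apply_eq {g : W → ℂ} (hg : ContDiff ℝ 2 g) (hne : ∀ w, g w ≠ 0) (w u : W) :
    HasFDerivAt (fun w => al g w u) ((be g w).flip u) w := by
  have hd : Differentiable ℝ (al g) := (al_contDiff hg hne).differentiable (by norm_num)
  have h1 := (hd w).hasFDerivAt
  have h2 := h1.clm_apply (hasFDerivAt_const u w)
  convert! h2 using 1
  ext x
  simp [be]

/-- mixed and diagonal blocks of `be`. -/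
lemma be_block (hg : ContDiff ℝ 2 g) (hne : ∀ w, g w ≠ 0)
    (hQ : ∀ u, Q (Q u) = Q u) (hs : ∀ w, g w = g (Q w) * g (w - Q w)) (w v u : W) :
    be g w v (Q u) = be g (Q w) (Q v) (Q u) := by
  have h1 := be_apply_eq hg hne w (Q u)
  have h2 : HasFDerivAt (fun w => al g (Q w) (Q u)) (((be g (Q w)).flip (Q u)).comp Q) w :=
    (be_apply_eq hg hne (Q w) (Q u)).comp w Q.hasFDerivAt
  have h3 : (fun w => al g w (Q u)) = fun w => al g (Q w) (Q u) := by
    funext w; exact al_Q hg hne hQ hs w u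
  rw [h3] at h1
  have h4 := h1.unique h2
  have h5 := congrArg (fun L => L v) h4
  simpa using h5

lemma be_block' (hg : ContDiff ℝ 2 g) (hne : ∀ w, g w ≠ 0)
    (hQ : ∀ u, Q (Q u) = Q u) (hs : ∀ w, g w = g (Q w) * g (w - Q w)) (w v u : W) :
    be g w v (u - Q u) = be g (w - Q w) (v - Q v) (u - Q u) := by
  have h1 := be_apply_eq hg hne w (u - Q u)
  have h2 : HasFDerivAt (fun w => al g (w - Q w) (u - Q u))
      (((be g (w - Q w)).flip (u - Q u)).comp (ContinuousLinearMap.id ℝ W - Q)) w := by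
    have h0 : HasFDerivAt (fun w => w - Q w) (ContinuousLinearMap.id ℝ W - Q) w :=
      (hasFDerivAt_id w).sub Q.hasFDerivAt
    exact HasFDerivAt.comp (g := fun w => al g w (u - Q u)) w
      (be_apply_eq hg hne (w - Q w) (u - Q u)) h0
  have h3 : (fun w => al g w (u - Q u)) = fun w => al g (w - Q w) (u - Q u) := by
    funext w; exact al_Q' hg hne hQ hs w u
  rw [h3] at h1
  have h4 := h1.unique h2
  have h5 := congrArg (fun L => L v) h4
  simpa using h5

/-- A bilinear form is block diagonal for the projection `Q`. -/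
def Blk (Q : W →L[ℝ] W) (B : W →L[ℝ] W →L[ℝ] ℂ) : Prop :=
  (∀ u v, B (Q u) (v - Q v) = 0) ∧ ∀ u v, B (u - Q u) (Q v) = 0

lemma be_blk (hg : ContDiff ℝ 2 g) (hne : ∀ w, g w ≠ 0)
    (hQ : ∀ u, Q (Q u) = Q u) (hs : ∀ w, g w = g (Q w) * g (w - Q w)) (w : W) :
    Blk Q (be g w) := by
  constructor
  · intro u v
    rw [be_block' hg hne hQ hs, hQ, sub_self]; simp
  · intro u v
    rw [be_block hg hne hQ hs, map_sub, hQ, sub_self]; simp

lemma Blk.sub {B B' : W →L[ℝ] W →L[ℝ] ℂ} (h : Blk Q B) (h' : Blk Q B') : Blk Q (B - B') := by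
  constructor
  · intro u v; simp [h.1 u v, h'.1 u v]
  · intro u v
    have h1 := h.2 u v
    have h2 := h'.2 u v
    simp only [sub_apply]
    rw [h1, h2, sub_zero]

/-- **Abstract Bernstein theorem**: an irreducible splitting forces the exponential of a quadratic
function. -/
theorem exp_quadratic {ι : Type*} (Q : ι → W →L[ℝ] W) (hQ : ∀ j u, Q j (Q j u) = Q j u)
    (hg : ContDiff ℝ 2 g) (h0 : g 0 = 1) (hne : ∀ w, g w ≠ 0)
    (hs : ∀ j w, g w = g (Q j w) * g (w - Q j w)) (j0 : ι)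
    (hd1 : ∀ B : W →L[ℝ] W →L[ℝ] ℂ, (∀ j, Blk (Q j) B) →
      (∀ u v, B (Q j0 u) (Q j0 v) = 0) → B = 0)
    (hd2 : ∀ B : W →L[ℝ] W →L[ℝ] ℂ, (∀ j, Blk (Q j) B) →
      (∀ u v, B (u - Q j0 u) (v - Q j0 v) = 0) → B = 0) :
    ∃ (ℓ : W →L[ℝ] ℂ) (B : W →L[ℝ] W →L[ℝ] ℂ), (∀ j, Blk (Q j) B) ∧
      ∀ w, g w = Complex.exp (ℓ w + B w w / 2) := by
  have hblk : ∀ w j, Blk (Q j) (be g w) := fun w j => be_blk hg hne (hQ j) (hs j) w
  have hb1 : ∀ w, be g w = be g (Q j0 w) := by
    intro w
    rw [← sub_eq_zero]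
    apply hd1
    · intro j; exact (hblk w j).sub (hblk _ j)
    · intro u v
      simp only [sub_apply]
      rw [be_block hg hne (hQ j0) (hs j0) w, be_block hg hne (hQ j0) (hs j0) (Q j0 w)]
      simp only [hQ, sub_self]
  have hb2 : ∀ w, be g w = be g (w - Q j0 w) := by
    intro w
    rw [← sub_eq_zero]
    apply hd2
    · intro j; exact (hblk w j).sub (hblk _ j)
    · intro u v
      simp only [sub_apply]
      have e : (w - Q j0 w) - Q j0 (w - Q j0 w) = w - Q j0 w := by
        rw [map_sub, hQ, sub_self, sub_zero]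
      have h1 := be_block' hg hne (hQ j0) (hs j0) w (u - Q j0 u) v
      have h2 := be_block' hg hne (hQ j0) (hs j0) (w - Q j0 w) (u - Q j0 u) v
      rw [e] at h2
      rw [h1, h2, sub_self]
  have hb3 : ∀ w, be g w = be g 0 := by
    intro w
    rw [hb2 w, hb1 (w - Q j0 w), map_sub, hQ, sub_self]
  have hal : ∀ w, al g w = al g 0 + be g 0 w := by
    have hd : Differentiable ℝ (al g) := (al_contDiff hg hne).differentiable (by norm_num)
    have hd' : Differentiable ℝ (fun w => al g w - be g 0 w) :=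
      hd.sub (be g 0).differentiable
    have hz : ∀ w, fderiv ℝ (fun w => al g w - be g 0 w) w = 0 := by
      intro w
      have h1 : HasFDerivAt (fun w => al g w - be g 0 w) (be g w - be g 0) w :=
        (hd w).hasFDerivAt.sub (be g 0).hasFDerivAt
      rw [h1.fderiv, hb3 w]
      exact sub_self (be g 0)
    intro w
    have h2 := is_const_of_fderiv_eq_zero hd' hz w 0
    simp only [map_zero, sub_zero] at h2
    rw [← h2]; abel
  refine ⟨al g 0, be g 0, fun j => hblk 0 j, fun w => ?_⟩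
  -- one-dimensional ODE along the ray
  have hd : Differentiable ℝ g := hg.differentiable (by norm_num)
  let φ : ℝ → ℂ := fun t => g (t • w) * Complex.exp (-((t : ℂ) * al g 0 w + (t : ℂ) ^ 2 * be g 0 w w / 2))
  have hφ : ∀ t, HasDerivAt φ 0 t := by
    intro t
    have h1 : HasDerivAt (fun t : ℝ => g (t • w)) (fderiv ℝ g (t • w) w) t := by
      have h2 : HasDerivAt (fun t : ℝ => t • w) w t := by
        simpa using (hasDerivAt_id t).smul_const w
      exact (hd (t • w)).hasFDerivAt.comp_hasDerivAt t h2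
    have h3 : HasDerivAt (fun t : ℝ => ((t : ℂ))) 1 t := Complex.ofRealCLM.hasDerivAt
    have h4 : HasDerivAt (fun t : ℝ => -((t : ℂ) * al g 0 w + (t : ℂ) ^ 2 * be g 0 w w / 2))
        (-(al g 0 w + (t : ℂ) * be g 0 w w)) t := by
      have h5 := (h3.mul_const (al g 0 w)).add (((h3.pow 2).mul_const (be g 0 w w)).div_const 2)
      have h6 := h5.neg
      convert! h6 using 1
      push_cast
      ring
    have h7 := h1.mul h4.cexp
    have h8 : fderiv ℝ g (t • w) w = g (t • w) * (al g 0 w + (t : ℂ) * be g 0 w w) := by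
      have h9 : al g (t • w) w = al g 0 w + (t : ℂ) * be g 0 w w := by
        rw [hal (t • w)]; simp
      rw [al_apply] at h9
      rw [← h9]
      have := hne (t • w)
      field_simp
    convert! h7 using 1
    rw [h8]
    ring
  have hc : φ 1 = φ 0 := by
    have hdφ : Differentiable ℝ φ := fun t => (hφ t).differentiableAt
    exact is_const_of_deriv_eq_zero hdφ (fun t => (hφ t).deriv) 1 0
  simp only [φ, one_smul, zero_smul, h0, Complex.ofReal_one, Complex.ofReal_zero, one_mul,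
    one_pow, zero_mul, ne_eq, OfNat.ofNat_ne_zero, not_false_eq_true, zero_pow, zero_div,
    add_zero, neg_zero, Complex.exp_zero] at hc
  rw [Complex.exp_neg] at hc
  have hex := Complex.exp_ne_zero (al g 0 w + be g 0 w w / 2)
  rw [mul_inv_eq_iff_eq_mul₀ hex, one_mul] at hc
  exact hc

end Abstract

section Zero

variable {W : Type*} [NormedAddCommGroup W] [InnerProductSpace ℝ W] [FiniteDimensional ℝ W]



end Zero

end Crest.Agent.R166.Bern385
end

-- ▼ part R166/Bern2_385

/-!
# Bernstein theorem on a star (row 166, sec 42.5)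

`ι` = neighbours of a vertex, weights `a i > 0`, `A = ∑ a i`, at least three neighbours.
`W : ι → κ → ℝ` residuals with `∑ W i = 0`; for every `i` the vector `W i` is independent of
`(W j + a j / (A - a i) * W i)_j`. Then `W` is Gaussian with covariance
`(a i δ_ij - a i a j / A) ⊗ S`. Here: characteristic function form.
-/

set_option autoImplicit false

open scoped ContDiff
open Crest.Agent.R166.Bern385

namespace Crest.Agent.R166.Bern385

variable {ι κ : Type*} [Fintype ι] [DecidableEq ι] [Fintype κ]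

/-- coefficient of the dual projection on coordinate `i` -/
noncomputable def cf (a : ι → ℝ) (i : ι) (w : ι → κ → ℝ) (l : κ) : ℝ :=
  ((∑ j, a j) * w i l - ∑ j, a j * w j l) / ((∑ j, a j) - a i)

/-- dual projection on coordinate `i` -/
noncomputable def QL (a : ι → ℝ) (i : ι) : (ι → κ → ℝ) →ₗ[ℝ] (ι → κ → ℝ) where
  toFun w := Pi.single i (fun l => cf a i w l)
  map_add' u v := by
    rw [← Pi.single_add]
    congr 1
    funext l
    simp only [cf, Pi.add_apply, mul_add, Finset.sum_add_distrib]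
    ring
  map_smul' c u := by
    rw [RingHom.id_apply, ← Pi.single_smul]
    congr 1
    funext l
    simp only [cf, Pi.smul_apply, smul_eq_mul]
    have : ∑ j, a j * (c * u j l) = c * ∑ j, a j * u j l := by
      rw [Finset.mul_sum]; exact Finset.sum_congr rfl fun j _ => by ring
    rw [this]; ring

/-- continuous version -/
noncomputable def Q (a : ι → ℝ) (i : ι) : (ι → κ → ℝ) →L[ℝ] (ι → κ → ℝ) :=
  LinearMap.toContinuousLinearMap (QL a i)

lemma Q_apply (a : ι → ℝ) (i : ι) (w : ι → κ → ℝ) : Q a i w = Pi.single i (cf a i w) := rfl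

lemma sum_lt {a : ι → ℝ} (ha : ∀ i, 0 < a i) (h3 : 3 ≤ Fintype.card ι) (i : ι) :
    a i < ∑ j, a j := by
  have h2 : 1 < Fintype.card ι := by omega
  obtain ⟨j, hj⟩ := Fintype.exists_ne_of_one_lt_card h2 i
  calc a i < a i + a j := by linarith [ha j]
    _ = ∑ k ∈ {i, j}, a k := by rw [Finset.sum_pair (Ne.symm hj)]
    _ ≤ ∑ j, a j := Finset.sum_le_sum_of_subset_of_nonneg (Finset.subset_univ _)
        fun k _ _ => (ha k).le

lemma sum_lt2 {a : ι → ℝ} (ha : ∀ i, 0 < a i) (h3 : 3 ≤ Fintype.card ι) {i j : ι} (hij : i ≠ j) :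
    a i + a j < ∑ j, a j := by
  have : ∃ k, k ∉ ({i, j} : Finset ι) := by
    by_contra hcon
    push Not at hcon
    have h1 : (Finset.univ : Finset ι) ⊆ {i, j} := fun k _ => hcon k
    have h2 := Finset.card_le_card h1
    rw [Finset.card_univ] at h2
    have h3' := Finset.card_le_two (a := i) (b := j)
    omega
  obtain ⟨k, hk⟩ := this
  have h1 : ∑ l ∈ insert k ({i, j} : Finset ι), a l ≤ ∑ j, a j :=
    Finset.sum_le_sum_of_subset_of_nonneg (Finset.subset_univ _) fun l _ _ => (ha l).le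
  rw [Finset.sum_insert hk, Finset.sum_pair hij] at h1
  linarith [ha k]

lemma cf_single_self {a : ι → ℝ} (ha : ∀ i, 0 < a i) (h3 : 3 ≤ Fintype.card ι) (i : ι)
    (x : κ → ℝ) : cf a i (Pi.single i x) = x := by
  funext l
  have h1 : ∑ j, a j * (Pi.single i x : ι → κ → ℝ) j l = a i * x l := by
    rw [Finset.sum_eq_single i]
    · simp
    · intro j _ hj; simp [Pi.single_eq_of_ne hj]
    · simp
  have h2 : (∑ j, a j) - a i ≠ 0 := by have := sum_lt ha h3 i; linarith
  simp only [cf, h1, Pi.single_eq_same]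
  field_simp

lemma cf_single_ne {a : ι → ℝ} {i j : ι} (hij : j ≠ i) (x : κ → ℝ) :
    cf a i (Pi.single j x) = (-(a j / ((∑ j, a j) - a i))) • x := by
  funext l
  have h1 : ∑ k, a k * (Pi.single j x : ι → κ → ℝ) k l = a j * x l := by
    rw [Finset.sum_eq_single j]
    · simp
    · intro k _ hk; simp [Pi.single_eq_of_ne hk]
    · simp
  simp only [cf, h1, Pi.single_eq_of_ne (Ne.symm hij), Pi.smul_apply, smul_eq_mul, Pi.zero_apply]
  ring

lemma Q_single_self {a : ι → ℝ} (ha : ∀ i, 0 < a i) (h3 : 3 ≤ Fintype.card ι) (i : ι)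
    (x : κ → ℝ) : Q a i (Pi.single i x) = Pi.single i x := by
  rw [Q_apply, cf_single_self ha h3]

lemma Q_single_ne {a : ι → ℝ} {i j : ι} (hij : j ≠ i) (x : κ → ℝ) :
    Q a i (Pi.single j x) = (-(a j / ((∑ j, a j) - a i))) • (Pi.single i x : ι → κ → ℝ) := by
  rw [Q_apply, cf_single_ne hij, Pi.single_smul]

lemma Q_idem {a : ι → ℝ} (ha : ∀ i, 0 < a i) (h3 : 3 ≤ Fintype.card ι) (i : ι)
    (u : ι → κ → ℝ) : Q a i (Q a i u) = Q a i u := by
  rw [Q_apply a i u, Q_single_self ha h3]

/-! ### block forms -/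

section Forms

variable {a : ι → ℝ} {B : (ι → κ → ℝ) →L[ℝ] (ι → κ → ℝ) →L[ℝ] ℂ}

lemma B_single_single (ha : ∀ i, 0 < a i) (h3 : 3 ≤ Fintype.card ι)
    (hB : ∀ i, Blk (Q a i) B) {i j : ι} (hij : j ≠ i) (x y : κ → ℝ) :
    B (Pi.single i x) (Pi.single j y) =
      (-(a j / ((∑ j, a j) - a i)) : ℝ) • B (Pi.single i x) (Pi.single i y) := by
  have h := (hB i).1 (Pi.single i x) (Pi.single j y)
  rw [Q_single_self ha h3, Q_single_ne hij, map_sub, map_smul, sub_eq_zero] at h
  exact h

lemma B_single_single' (ha : ∀ i, 0 < a i) (h3 : 3 ≤ Fintype.card ι)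
    (hB : ∀ i, Blk (Q a i) B) {i j : ι} (hij : j ≠ i) (x y : κ → ℝ) :
    B (Pi.single i x) (Pi.single j y) =
      (-(a i / ((∑ j, a j) - a j)) : ℝ) • B (Pi.single j x) (Pi.single j y) := by
  have h := (hB j).2 (Pi.single i x) (Pi.single j y)
  rw [Q_single_self ha h3, Q_single_ne (Ne.symm hij), map_sub, map_smul] at h
  simp only [sub_apply, smul_apply] at h
  rw [sub_eq_zero] at h
  exact h

/-- proportionality of the diagonal blocks -/
lemma B_diag (ha : ∀ i, 0 < a i) (h3 : 3 ≤ Fintype.card ι)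
    (hB : ∀ i, Blk (Q a i) B) (i j : ι) (x y : κ → ℝ) :
    ((a j * ((∑ j, a j) - a j) : ℝ) : ℂ) * B (Pi.single i x) (Pi.single i y) =
      ((a i * ((∑ j, a j) - a i) : ℝ) : ℂ) * B (Pi.single j x) (Pi.single j y) := by
  by_cases hij : j = i
  · subst hij; rfl
  have h1 := B_single_single ha h3 hB hij x y
  have h2 := B_single_single' ha h3 hB hij x y
  rw [h1] at h2
  have hi : (∑ j, a j) - a i ≠ 0 := by have := sum_lt ha h3 i; linarith
  have hj : (∑ j, a j) - a j ≠ 0 := by have := sum_lt ha h3 j; linarith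
  have h4 : (((∑ j, a j) - a i : ℝ) : ℂ) ≠ 0 := by exact_mod_cast hi
  have h5 : (((∑ j, a j) - a j : ℝ) : ℂ) ≠ 0 := by exact_mod_cast hj
  simp only [Complex.real_smul, Complex.ofReal_neg, Complex.ofReal_div] at h2
  rw [neg_mul, neg_mul, neg_inj, div_mul_eq_mul_div, div_mul_eq_mul_div, div_eq_div_iff h4 h5] at h2
  push_cast at h2 ⊢
  linear_combination h2

lemma eq_sum_single (w : ι → κ → ℝ) : w = ∑ i, Pi.single i (w i) :=
  (Finset.univ_sum_single w).symm

/-- `B = K ⊗ S` -/
lemma B_eq_zero_of_diag (ha : ∀ i, 0 < a i) (h3 : 3 ≤ Fintype.card ι)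
    (hB : ∀ i, Blk (Q a i) B) (i0 : ι)
    (h0 : ∀ x y : κ → ℝ, B (Pi.single i0 x) (Pi.single i0 y) = 0) : B = 0 := by
  have hd : ∀ i, ∀ x y : κ → ℝ, B (Pi.single i x) (Pi.single i y) = 0 := by
    intro i x y
    have h := B_diag ha h3 hB i i0 x y
    rw [h0, mul_zero] at h
    have h1 : a i0 * ((∑ j, a j) - a i0) ≠ 0 := by
      have := sum_lt ha h3 i0
      have := ha i0
      apply mul_ne_zero <;> linarith
    rcases mul_eq_zero.1 h with h2 | h2
    · exact absurd (by exact_mod_cast h2) h1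
    · exact h2
  refine ContinuousLinearMap.ext fun u => ContinuousLinearMap.ext fun v => ?_
  have hz : ∀ i j, B (Pi.single j (u j)) (Pi.single i (v i)) = 0 := by
    intro i j
    by_cases hij : i = j
    · subst hij; exact hd _ _ _
    · rw [B_single_single ha h3 hB hij, hd, smul_zero]
  rw [eq_sum_single u, eq_sum_single v]
  simp only [map_sum, FunLike.coe_sum, Finset.sum_apply, zero_apply, hz, Finset.sum_const_zero]

lemma det1 (ha : ∀ i, 0 < a i) (h3 : 3 ≤ Fintype.card ι)
    (hB : ∀ i, Blk (Q a i) B) (i0 : ι) (h0 : ∀ u v, B (Q a i0 u) (Q a i0 v) = 0) : B = 0 := by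
  refine B_eq_zero_of_diag ha h3 hB i0 fun x y => ?_
  have := h0 (Pi.single i0 x) (Pi.single i0 y)
  rwa [Q_single_self ha h3, Q_single_self ha h3] at this

lemma det2 (ha : ∀ i, 0 < a i) (h3 : 3 ≤ Fintype.card ι)
    (hB : ∀ i, Blk (Q a i) B) (i0 : ι)
    (h0 : ∀ u v, B (u - Q a i0 u) (v - Q a i0 v) = 0) : B = 0 := by
  have h2 : 1 < Fintype.card ι := by omega
  obtain ⟨j, hj⟩ := Fintype.exists_ne_of_one_lt_card h2 i0
  refine B_eq_zero_of_diag ha h3 hB i0 fun x y => ?_
  have h := h0 (Pi.single j x) (Pi.single j y)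
  have hb1 := (hB i0).1 (Pi.single j x) (Pi.single j y)
  have hb2 := (hB i0).2 (Pi.single j x) (Pi.single j y)
  have h4 : B (Pi.single j x) (Pi.single j y) =
      B (Q a i0 (Pi.single j x)) (Q a i0 (Pi.single j y)) := by
    simp only [map_sub, sub_apply] at h hb1 hb2 ⊢
    linear_combination h + hb1 + hb2
  rw [Q_single_ne hj, Q_single_ne hj] at h4
  simp only [map_smul, smul_apply, Complex.real_smul] at h4
  have hd := B_diag ha h3 hB i0 j x y
  set A := ∑ j, a j with hA
  have hi : A - a i0 ≠ 0 := by have := sum_lt ha h3 i0; rw [hA]; linarith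
  have hiC : ((A : ℂ) - (a i0 : ℂ)) ≠ 0 := by exact_mod_cast hi
  have hlt := sum_lt2 ha h3 hj
  rw [← hA] at hlt
  have haj := ha j
  have hai := ha i0
  rw [h4] at hd
  push_cast at hd
  field_simp at hd
  have h6 : ((a j : ℂ) * (A - a j) * (A - a i0) - (a i0 : ℂ) * (a j : ℂ) ^ 2) *
      B (Pi.single i0 x) (Pi.single i0 y) = 0 := by
    linear_combination hd
  rcases mul_eq_zero.1 h6 with h7 | h7
  · exfalso
    have h8 : (a j * (A - a j) * (A - a i0) - a i0 * a j ^ 2 : ℝ) = 0 := by exact_mod_cast h7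
    have h9 : a j * (A - a j) * (A - a i0) - a i0 * a j ^ 2 = a j * (A * (A - a j - a i0)) := by
      ring
    have hApos : 0 < A := by linarith
    have : 0 < a j * (A * (A - a j - a i0)) := by
      apply mul_pos haj; apply mul_pos hApos; linarith
    rw [h9] at h8
    linarith
  · exact h7

end Forms

end Crest.Agent.R166.Bern385
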