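import Mathlib

-- ▼ part R166/COEalg_682
section

/-!
Row 166, section 51 (COE lemma), algebraic part: closing a port.
`cl U` = closing port `0` of the symmetric unitary `U` (reflection coefficient `1`).
-/

set_option autoImplicit false

namespace Crest.Agent.R166.COE682

open Matrix

/-- complex matrices -/
abbrev MM (m : ℕ) := Matrix (Fin m) (Fin m) ℂ

/-- symmetric unitary matrices for which `1 - U` is invertible (Cayley transforms of real
symmetric matrices). -/
structure Good {m : ℕ} (U : MM m) : Prop where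
  symm : Uᵀ = U
  unit : U ∈ unitaryGroup (Fin m) ℂ
  det1 : (1 - U).det ≠ 0

/-- symmetric unitary matrices -/
def Sy (m : ℕ) : Set (MM m) := {U | Uᵀ = U ∧ U ∈ unitaryGroup (Fin m) ℂ}

/-- closing port `0` with reflection coefficient `1` -/
noncomputable def cl {m : ℕ} (U : MM (m + 1)) : MM m :=
  fun i j => U i.succ j.succ + U i.succ 0 * (1 - U 0 0)⁻¹ * U 0 j.succ

variable {m : ℕ}

lemma sum_normSq_col {U : MM m} (hU : U ∈ unitaryGroup (Fin m) ℂ) (j : Fin m) :
    ∑ i, Complex.normSq (U i j) = 1 := by
  have h := (mem_unitaryGroup_iff'.1 hU)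
  have h2 := congrFun (congrFun h j) j
  simp only [Matrix.mul_apply, Matrix.star_apply, Matrix.one_apply_eq] at h2
  have h3 : ((∑ i, Complex.normSq (U i j) : ℝ) : ℂ) = 1 := by
    rw [← h2]
    push_cast
    refine Finset.sum_congr rfl fun i _ => ?_
    rw [Complex.normSq_eq_conj_mul_self]
    rfl
  exact_mod_cast h3

lemma sum_normSq_row {U : MM m} (hU : U ∈ unitaryGroup (Fin m) ℂ) (i : Fin m) :
    ∑ j, Complex.normSq (U i j) = 1 := by
  have h := (mem_unitaryGroup_iff.1 hU)
  have h2 := congrFun (congrFun h i) i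
  simp only [Matrix.mul_apply, Matrix.star_apply, Matrix.one_apply_eq] at h2
  have h3 : ((∑ j, Complex.normSq (U i j) : ℝ) : ℂ) = 1 := by
    rw [← h2]
    push_cast
    refine Finset.sum_congr rfl fun j _ => ?_
    rw [Complex.normSq_eq_conj_mul_self, mul_comm]
    rfl
  exact_mod_cast h3

lemma normSq_entry_le {U : MM m} (hU : U ∈ unitaryGroup (Fin m) ℂ) (i j : Fin m) :
    Complex.normSq (U i j) ≤ 1 := by
  rw [← sum_normSq_row hU i]
  exact Finset.single_le_sum (f := fun j => Complex.normSq (U i j))
    (fun j _ => Complex.normSq_nonneg _) (Finset.mem_univ j)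

lemma norm_entry_le {U : MM m} (hU : U ∈ unitaryGroup (Fin m) ℂ) (i j : Fin m) :
    ‖U i j‖ ≤ 1 := by
  have h := normSq_entry_le hU i j
  rw [Complex.normSq_eq_norm_sq] at h
  nlinarith [norm_nonneg (U i j)]

lemma col_zero_of_eq_one {U : MM (m + 1)} (hU : U ∈ unitaryGroup (Fin (m + 1)) ℂ)
    (hu : U 0 0 = 1) (i : Fin m) : U i.succ 0 = 0 := by
  have hs := sum_normSq_col hU 0
  rw [Fin.sum_univ_succ, hu] at hs
  simp only [map_one, add_eq_left] at hs
  have := (Finset.sum_eq_zero_iff_of_nonneg
    (fun i _ => Complex.normSq_nonneg (U (Fin.succ i) 0))).1 hs i (Finset.mem_univ i)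
  exact Complex.normSq_eq_zero.1 this

/-- `U 0 0 ≠ 1` for good `U` -/
lemma Good.u_ne {U : MM (m + 1)} (h : Good U) : U 0 0 ≠ 1 := by
  intro hu
  apply h.det1
  have h0 := col_zero_of_eq_one h.unit hu
  apply Matrix.det_eq_zero_of_column_eq_zero 0
  intro i
  refine Fin.cases ?_ (fun i => ?_) i
  · simp [hu]
  · simp [h0 i]

/-- the lift -/
noncomputable def lift (U : MM (m + 1)) : Matrix (Fin (m + 1)) (Fin m) ℂ :=
  fun i j => Fin.cases ((1 - U 0 0)⁻¹ * U 0 j.succ) (fun i' => if i' = j then 1 else 0) i

@[simp] lemma lift_zero (U : MM (m + 1)) (j : Fin m) :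
    lift U 0 j = (1 - U 0 0)⁻¹ * U 0 j.succ := rfl

@[simp] lemma lift_succ (U : MM (m + 1)) (i j : Fin m) :
    lift U i.succ j = if i = j then 1 else 0 := rfl

lemma mul_lift_zero {U : MM (m + 1)} (hu : U 0 0 ≠ 1) (j : Fin m) :
    (U * lift U) 0 j = lift U 0 j := by
  have h1 : (1 - U 0 0) ≠ 0 := sub_ne_zero.2 (Ne.symm hu)
  rw [Matrix.mul_apply, Fin.sum_univ_succ]
  simp only [lift_zero, lift_succ, mul_ite, mul_one, mul_zero, Finset.sum_ite_eq', Finset.mem_univ,
    if_true]
  field_simp
  ring

lemma mul_lift_succ (U : MM (m + 1)) (i j : Fin m) :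
    (U * lift U) i.succ j = cl U i j := by
  rw [Matrix.mul_apply, Fin.sum_univ_succ]
  simp only [lift_zero, lift_succ, mul_ite, mul_one, mul_zero, Finset.sum_ite_eq', Finset.mem_univ,
    if_true, cl]
  ring

lemma cl_transpose {U : MM (m + 1)} (h : Uᵀ = U) : (cl U)ᵀ = cl U := by
  have hs : ∀ i j, U i j = U j i := fun i j => by
    conv_lhs => rw [← h]
    rfl
  ext i j
  simp only [Matrix.transpose_apply, cl]
  rw [hs j.succ i.succ, hs j.succ 0, hs 0 i.succ]
  ring

lemma cl_unitary {U : MM (m + 1)} (hU : U ∈ unitaryGroup (Fin (m + 1)) ℂ) (hu : U 0 0 ≠ 1) :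
    cl U ∈ unitaryGroup (Fin m) ℂ := by
  rw [mem_unitaryGroup_iff']
  have h := mem_unitaryGroup_iff'.1 hU
  have h1 : (U * lift U)ᴴ * (U * lift U) = (lift U)ᴴ * lift U := by
    rw [Matrix.conjTranspose_mul, Matrix.mul_assoc, ← Matrix.mul_assoc Uᴴ]
    have : Uᴴ * U = 1 := h
    rw [this, Matrix.one_mul]
  ext i j
  have h2 := congrFun (congrFun h1 i) j
  rw [Matrix.mul_apply, Matrix.mul_apply, Fin.sum_univ_succ, Fin.sum_univ_succ] at h2
  simp only [Matrix.conjTranspose_apply, mul_lift_zero hu, mul_lift_succ] at h2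
  have h3 := add_left_cancel h2
  rw [Matrix.mul_apply]
  simp only [Matrix.star_apply]
  rw [h3]
  simp [Matrix.one_apply, lift_succ, eq_comm]

lemma cl_det1 {U : MM (m + 1)} (h : (1 - U).det ≠ 0) (hu : U 0 0 ≠ 1) :
    (1 - cl U).det ≠ 0 := by
  intro h0
  obtain ⟨x, hx, hx0⟩ := Matrix.exists_mulVec_eq_zero_iff.2 h0
  apply h
  refine Matrix.exists_mulVec_eq_zero_iff.1 ⟨lift U *ᵥ x, ?_, ?_⟩
  · intro h1
    apply hx
    ext i
    have := congrFun h1 i.succ
    simpa [Matrix.mulVec, dotProduct] using this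
  · rw [Matrix.mulVec_mulVec]
    have e0 : ∀ j, ((1 - U) * lift U : Matrix (Fin (m+1)) (Fin m) ℂ) 0 j = 0 := by
      intro j
      rw [Matrix.sub_mul, Matrix.one_mul, Matrix.sub_apply, mul_lift_zero hu, sub_self]
    have e1 : ∀ i j, ((1 - U) * lift U : Matrix (Fin (m+1)) (Fin m) ℂ) (Fin.succ i) j = (1 - Crest.Agent.R166.COE682.cl U : MM m) i j := by
      intro i j
      rw [Matrix.sub_mul, Matrix.one_mul, Matrix.sub_apply, mul_lift_succ, Matrix.sub_apply,
        lift_succ, Matrix.one_apply]
    ext i
    refine Fin.cases ?_ (fun i => ?_) i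
    · simp only [Matrix.mulVec, dotProduct, e0, zero_mul, Finset.sum_const_zero, Pi.zero_apply]
    · have := congrFun hx0 i
      simpa only [Matrix.mulVec, dotProduct, e1, Pi.zero_apply] using this

lemma Good.cl {U : MM (m + 1)} (h : Good U) : Good (cl U) :=
  ⟨cl_transpose h.symm, cl_unitary h.unit h.u_ne, cl_det1 h.det1 h.u_ne⟩

/-- determinant of a matrix with first row `(x, 0, …, 0)` -/
lemma det_row_zero (M : MM (m + 1)) (h : ∀ j : Fin m, M 0 j.succ = 0) :
    M.det = M 0 0 * (M.submatrix Fin.succ Fin.succ).det := by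
  rw [Matrix.det_succ_row_zero, Fin.sum_univ_succ]
  simp [h]

lemma det_col_zero (M : MM (m + 1)) (h : ∀ j : Fin m, M j.succ 0 = 0) :
    M.det = M 0 0 * (M.submatrix Fin.succ Fin.succ).det := by
  rw [Matrix.det_succ_column_zero, Fin.sum_univ_succ]
  simp [h]

/-- the corner indicator -/
def E00 : MM (m + 1) := fun i j => if i = 0 ∧ j = 0 then 1 else 0

lemma det_sub_E00 {U : MM (m + 1)} (hu : U 0 0 ≠ 1) :
    (U - E00).det = (U 0 0 - 1) * (cl U).det := by
  set K : MM (m + 1) := fun i j =>
    Fin.cases (motive := fun _ => ℂ) (if i = 0 then 1 else 0) (fun j' => lift U i j') j with hK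
  have hKd : K.det = 1 := by
    rw [det_col_zero K (by intro j; simp [hK, Fin.succ_ne_zero])]
    have : K.submatrix Fin.succ Fin.succ = 1 := by
      ext i j
      rw [Matrix.submatrix_apply, hK, Matrix.one_apply]
      simp
    rw [this]
    simp [hK]
  have h1 : ((U - E00) * K).det = (U 0 0 - 1) * (cl U).det := by
    have e0 : ((U - E00) * K : MM (m+1)) 0 0 = U 0 0 - 1 := by
      rw [Matrix.mul_apply, Fin.sum_univ_succ]
      simp [hK, E00, Fin.succ_ne_zero]
    have e1 : ∀ j : Fin m, ((U - E00) * K : MM (m+1)) 0 j.succ = 0 := by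
      intro j
      have hl := mul_lift_zero hu j
      rw [Matrix.mul_apply, Fin.sum_univ_succ] at hl
      rw [Matrix.mul_apply, Fin.sum_univ_succ]
      simp only [hK, E00, Matrix.sub_apply, Fin.succ_ne_zero, Fin.cases_succ, and_false, if_false,
        sub_zero, and_self, if_true]
      linear_combination hl
    have e2 : ((U - E00) * K).submatrix Fin.succ Fin.succ = cl U := by
      ext i j
      rw [← mul_lift_succ U i j, Matrix.submatrix_apply, Matrix.mul_apply, Matrix.mul_apply]
      refine Finset.sum_congr rfl fun l _ => ?_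
      simp [hK, E00, Fin.succ_ne_zero]
    rw [det_row_zero _ e1, e0, e2]
  rw [Matrix.det_mul, hKd, mul_one] at h1
  exact h1

lemma det_sub_E00' {U : MM (m + 1)} (hU : U ∈ unitaryGroup (Fin (m + 1)) ℂ) :
    (U - E00).det = U.det * (1 - star (U 0 0)) := by
  have h := mem_unitaryGroup_iff.1 hU
  have h1 : U - E00 = U * (1 - star U * E00) := by
    rw [Matrix.mul_sub, Matrix.mul_one, ← Matrix.mul_assoc, h, Matrix.one_mul]
  rw [h1, Matrix.det_mul]
  congr 1
  have hE : ∀ i j, (star U * E00 : MM (m+1)) i j = if j = 0 then star (U 0 i) else 0 := by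
    intro i j
    rw [Matrix.mul_apply, Fin.sum_univ_succ]
    by_cases hj : j = 0
    · simp [E00, hj, Fin.succ_ne_zero, Matrix.star_apply]
    · simp [E00, hj]
  rw [det_row_zero]
  · have : (1 - star U * E00).submatrix Fin.succ Fin.succ = (1 : MM m) := by
      ext i j
      simp [Matrix.sub_apply, hE, Fin.succ_ne_zero, Matrix.one_apply]
    rw [this]
    simp [Matrix.sub_apply, hE]
  · intro j
    simp [Matrix.sub_apply, hE, Fin.succ_ne_zero, (Fin.succ_ne_zero j).symm, Matrix.one_apply]

lemma cl_mem {U : MM (m + 1)} (h : U ∈ Sy (m + 1)) : cl U ∈ Sy m := by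
  refine ⟨cl_transpose h.1, ?_⟩
  by_cases hu : U 0 0 = 1
  · have h0 := col_zero_of_eq_one h.2 hu
    have hcl : ∀ i j : Fin m, cl U i j = U i.succ j.succ := by
      intro i j
      simp [cl, h0 i]
    rw [mem_unitaryGroup_iff']
    have h2 := mem_unitaryGroup_iff'.1 h.2
    ext i j
    have h3 := congrFun (congrFun h2 i.succ) j.succ
    rw [Matrix.mul_apply, Fin.sum_univ_succ] at h3
    have hs : ∀ i j, U i j = U j i := fun i j => by
      conv_lhs => rw [← h.1]
      rfl
    rw [Matrix.mul_apply]
    simp only [Matrix.star_apply, hcl, hs 0 j.succ, h0 j, mul_zero, zero_add] at h3 ⊢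
    rw [h3]
    simp [Matrix.one_apply]
  · exact cl_unitary h.2 hu

/-- **determinant of the closed matrix** -/
theorem det_cl {U : MM (m + 1)} (hU : U ∈ unitaryGroup (Fin (m + 1)) ℂ) (hu : U 0 0 ≠ 1) :
    (cl U).det = -(U.det * ((1 - star (U 0 0)) / (1 - U 0 0))) := by
  have h1 := det_sub_E00 (U := U) hu
  rw [det_sub_E00' hU] at h1
  have h2 : (1 - U 0 0) ≠ 0 := sub_ne_zero.2 (Ne.symm hu)
  field_simp
  linear_combination h1

end Crest.Agent.R166.COE682
end

-- ▼ part R166/COEtop_682

/-!
Row 166, section 51 (COE lemma), topology/measure set-up: the compact space `SymU m` of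
symmetric unitary matrices, the action of the unitary group, closing a port.
-/

set_option autoImplicit false

namespace Crest.Agent.R166.COE682

open Matrix MeasureTheory Topology Filter

/-- The type of symmetric unitary `m × m` matrices. -/
def SymU (m : ℕ) : Type := {U : MM m // U ∈ Sy m}

namespace SymU

variable {m : ℕ}

/-- the underlying matrix -/
def val (U : SymU m) : MM m := Subtype.val U

lemma mem (U : SymU m) : U.val ∈ Sy m := Subtype.property U

lemma symm (U : SymU m) : U.valᵀ = U.val := U.mem.1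

lemma unit (U : SymU m) : U.val ∈ unitaryGroup (Fin m) ℂ := U.mem.2

@[ext] lemma ext {U V : SymU m} (h : U.val = V.val) : U = V := Subtype.ext h

/-- constructor -/
def mk (U : MM m) (h : U ∈ Sy m) : SymU m := ⟨U, h⟩

@[simp] lemma val_mk (U : MM m) (h : U ∈ Sy m) : (mk U h).val = U := rfl

noncomputable instance : TopologicalSpace (SymU m) := instTopologicalSpaceSubtype

lemma continuous_val : Continuous (val : SymU m → MM m) := continuous_subtype_val

lemma continuous_iff {X : Type*} [TopologicalSpace X] {f : X → SymU m} :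
    Continuous f ↔ Continuous fun x => (f x).val := continuous_induced_rng

lemma continuousAt_iff {X : Type*} [TopologicalSpace X] {f : X → SymU m} {x : X} :
    ContinuousAt f x ↔ ContinuousAt (fun x => (f x).val) x :=
  Topology.IsInducing.subtypeVal.continuousAt_iff

lemma continuous_entry (i j : Fin m) : Continuous fun U : SymU m => U.val i j :=
  (continuous_apply_apply i j).comp continuous_val

instance : T2Space (SymU m) := inferInstanceAs (T2Space {U : MM m // U ∈ Sy m})

instance : SecondCountableTopology (MM m) :=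
  inferInstanceAs (SecondCountableTopology (Fin m → Fin m → ℂ))

instance : SecondCountableTopology (SymU m) :=
  inferInstanceAs (SecondCountableTopology {U : MM m // U ∈ Sy m})

instance : TopologicalSpace.MetrizableSpace (MM m) :=
  inferInstanceAs (TopologicalSpace.MetrizableSpace (Fin m → Fin m → ℂ))

instance : TopologicalSpace.MetrizableSpace (SymU m) :=
  inferInstanceAs (TopologicalSpace.MetrizableSpace {U : MM m // U ∈ Sy m})

lemma isClosed_Sy : IsClosed (Sy m) := by
  have h1 : IsClosed {U : MM m | Uᵀ = U} := isClosed_eq (by fun_prop) (by fun_prop)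
  have h2 : IsClosed {U : MM m | star U * U = 1} := isClosed_eq (by fun_prop) (by fun_prop)
  have : Sy m = {U : MM m | Uᵀ = U} ∩ {U : MM m | star U * U = 1} := by
    ext U
    simp only [Sy, Set.mem_ofPred_eq, Set.mem_inter_iff, mem_unitaryGroup_iff']
  rw [this]
  exact h1.inter h2

lemma isCompact_Sy : IsCompact (Sy m) := by
  have hK : IsCompact (Set.univ.pi fun _ : Fin m => Set.univ.pi fun _ : Fin m =>
      Metric.closedBall (0 : ℂ) 1) :=
    isCompact_univ_pi fun _ => isCompact_univ_pi fun _ => isCompact_closedBall 0 1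
  refine IsCompact.of_isClosed_subset hK isClosed_Sy ?_
  intro U hU i _ j _
  rw [mem_closedBall_zero_iff]
  exact norm_entry_le hU.2 i j

instance : CompactSpace (SymU m) := isCompact_iff_compactSpace.1 isCompact_Sy

noncomputable instance : MeasurableSpace (SymU m) := borel _

instance : BorelSpace (SymU m) := ⟨rfl⟩

instance : Nonempty (SymU m) := ⟨mk 1 ⟨Matrix.transpose_one, one_mem _⟩⟩

lemma norm_entry_le (U : SymU m) (i j : Fin m) : ‖U.val i j‖ ≤ 1 :=
  COE682.norm_entry_le U.unit i j

lemma entry_symm (U : SymU m) (i j : Fin m) : U.val i j = U.val j i := by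
  conv_lhs => rw [← U.symm]
  rfl

/-- closing port `0` -/
noncomputable def close (U : SymU (m + 1)) : SymU m := mk (cl U.val) (cl_mem U.mem)

@[simp] lemma val_close (U : SymU (m + 1)) : (close U).val = cl U.val := rfl

lemma continuousAt_close {U : SymU (m + 1)} (hu : U.val 0 0 ≠ 1) : ContinuousAt close U := by
  rw [continuousAt_iff]
  refine continuousAt_pi.2 fun i => continuousAt_pi.2 fun j => ?_
  simp only [val_close, cl]
  have h1 : (1 - U.val 0 0) ≠ 0 := sub_ne_zero.2 (Ne.symm hu)
  refine ContinuousAt.add (continuous_entry _ _).continuousAt (ContinuousAt.mul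
    (ContinuousAt.mul (continuous_entry _ _).continuousAt (ContinuousAt.inv₀ ?_ h1))
    (continuous_entry _ _).continuousAt)
  exact (continuous_const.sub (continuous_entry 0 0)).continuousAt

lemma measurable_close : Measurable (close : SymU (m + 1) → SymU m) := by
  let _ : MeasurableSpace (MM m) := MeasurableSpace.pi
  have _ : BorelSpace (MM m) := inferInstanceAs (BorelSpace (Fin m → Fin m → ℂ))
  have hc : Measurable fun U : SymU (m + 1) => (close U).val := by
    refine measurable_pi_iff.2 fun i => measurable_pi_iff.2 fun j => ?_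
    simp only [val_close, cl]
    have h : ∀ i j, Measurable fun U : SymU (m + 1) => U.val i j :=
      fun i j => (continuous_entry i j).measurable
    exact (h _ _).add (((h _ _).mul ((measurable_const.sub (h _ _)).inv)).mul (h _ _))
  have hind : Topology.IsInducing (val : SymU m → MM m) := Topology.IsInducing.subtypeVal
  have h3 : borel (SymU m) =
      MeasurableSpace.comap val (MeasurableSpace.pi : MeasurableSpace (MM m)) := by
    rw [hind.eq_induced, borel_comap]
    have hb : (MeasurableSpace.pi : MeasurableSpace (Fin m → Fin m → ℂ)) = borel _ :=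
      BorelSpace.measurable_eq
    exact congrArg (MeasurableSpace.comap (val : SymU m → (Fin m → Fin m → ℂ))) hb.symm
  intro s hs
  have hs' : MeasurableSet[borel (SymU m)] s := hs
  rw [h3] at hs'
  obtain ⟨t, ht, rfl⟩ := hs'
  exact hc ht

/-- the action `U ↦ V U Vᵀ` of the unitary group -/
instance : MulAction (unitaryGroup (Fin m) ℂ) (SymU m) where
  smul V U := mk (V.1 * U.val * V.1ᵀ) ⟨by
      rw [Matrix.transpose_mul, Matrix.transpose_mul, Matrix.transpose_transpose, U.symm,
        Matrix.mul_assoc], by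
      have hV : V.1ᵀ ∈ unitaryGroup (Fin m) ℂ := by
        rw [mem_unitaryGroup_iff]
        have h := mem_unitaryGroup_iff'.1 V.2
        have h2 := congrArg Matrix.transpose h
        rw [Matrix.transpose_mul, Matrix.transpose_one] at h2
        exact h2
      exact mul_mem (mul_mem V.2 U.unit) hV⟩
  one_smul U := by
    apply ext
    show (1 : MM m) * U.val * (1 : MM m)ᵀ = U.val
    simp
  mul_smul V W U := by
    apply ext
    show (V.1 * W.1) * U.val * (V.1 * W.1)ᵀ = V.1 * (W.1 * U.val * W.1ᵀ) * V.1ᵀ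
    rw [Matrix.transpose_mul]
    simp only [Matrix.mul_assoc]

@[simp] lemma val_smul (V : unitaryGroup (Fin m) ℂ) (U : SymU m) :
    (V • U).val = V.1 * U.val * V.1ᵀ := rfl

instance : ContinuousSMul (unitaryGroup (Fin m) ℂ) (SymU m) where
  continuous_smul := by
    rw [continuous_iff]
    show Continuous fun p : unitaryGroup (Fin m) ℂ × SymU m => p.1.1 * p.2.val * p.1.1ᵀ
    have h1 : Continuous fun p : unitaryGroup (Fin m) ℂ × SymU m => p.1.1 :=
      continuous_subtype_val.comp continuous_fst
    have h2 : Continuous fun p : unitaryGroup (Fin m) ℂ × SymU m => p.2.val :=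
      continuous_val.comp continuous_snd
    exact (h1.mul h2).mul h1.matrix_transpose

end SymU

end Crest.Agent.R166.COE682
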