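import Crest.Agent.R166.Spine_419
import Crest.Agent.R166.Gen_85

/-!
# Row 166, section 51: the closing map and the Cayley transform

* `cl U` : closing the last port, `A + b (1-d)⁻¹ bᵀ`.
* `Cay_symm`, `Cay_unitary` : the Cayley transform of a real symmetric matrix is a symmetric
  unitary.
* `cl_Cay` : `cl (Cay C)` is the Cayley transform of the principal corner of `C`.
-/

set_option autoImplicit false

noncomputable section

namespace Crest.Agent.R166.Cl85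

open Matrix Gen85


section Cay

variable {m : ℕ}

lemma quad_im {C : Matrix (Fin m) (Fin m) ℝ} (hC : Cᵀ = C) (v : Fin m → ℂ) :
    (star v ⬝ᵥ (toC C *ᵥ v)).im = 0 := by
  have h3 : star (star v ⬝ᵥ (toC C *ᵥ v)) = star v ⬝ᵥ (toC C *ᵥ v) := by
    have hH : (toC C)ᴴ = toC C := by rw [toC_conjTranspose, hC]
    calc star (star v ⬝ᵥ (toC C *ᵥ v)) = star (toC C *ᵥ v) ⬝ᵥ v := by
          rw [Matrix.star_dotProduct, star_star, dotProduct_comm]
      _ = star v ⬝ᵥ (toC C *ᵥ v) := by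
          rw [Matrix.star_mulVec, hH, ← Matrix.dotProduct_mulVec]
  exact Complex.conj_eq_iff_im.mp h3

lemma quad_one (v : Fin m → ℂ) : (star v ⬝ᵥ v) = ((∑ i, ‖v i‖ ^ 2 : ℝ) : ℂ) := by
  simp only [dotProduct, Pi.star_apply, RCLike.star_def]
  push_cast
  refine Finset.sum_congr rfl fun i _ => ?_
  rw [mul_comm, Complex.mul_conj, Complex.normSq_eq_norm_sq]
  push_cast; rfl

lemma quad_shift_im {C : Matrix (Fin m) (Fin m) ℝ} (hC : Cᵀ = C) (t : ℝ) (v : Fin m → ℂ) :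
    (star v ⬝ᵥ ((toC C + ((t : ℂ) * Complex.I) • (1 : Matrix (Fin m) (Fin m) ℂ)) *ᵥ v)).im =
      t * ∑ i, ‖v i‖ ^ 2 := by
  rw [Matrix.add_mulVec, dotProduct_add, Matrix.smul_mulVec, Matrix.one_mulVec,
    dotProduct_smul, Complex.add_im, quad_im hC, zero_add, quad_one, smul_eq_mul]
  generalize (∑ i, ‖v i‖ ^ 2 : ℝ) = S
  simp

lemma eq_zero_of_norm_sum {v : Fin m → ℂ} (h : ∑ i, ‖v i‖ ^ 2 = 0) : v = 0 := by
  ext i
  have h8 := (Finset.sum_eq_zero_iff_of_nonneg (fun i _ => by positivity)).mp h i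
    (Finset.mem_univ i)
  simpa using h8

lemma isUnit_shift {C : Matrix (Fin m) (Fin m) ℝ} (hC : Cᵀ = C) {t : ℝ} (ht : t ≠ 0) :
    IsUnit (toC C + ((t : ℂ) * Complex.I) • (1 : Matrix (Fin m) (Fin m) ℂ)).det := by
  rw [isUnit_iff_ne_zero]
  intro h0
  obtain ⟨v, hv, hv0⟩ := Matrix.exists_mulVec_eq_zero_iff.mpr h0
  have h1 := quad_shift_im hC t v
  rw [hv0] at h1
  simp only [dotProduct_zero, Complex.zero_im] at h1
  exact hv (eq_zero_of_norm_sum ((mul_eq_zero.mp h1.symm).resolve_left ht))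

/-- `(C + i)⁻¹` -/
def Wi (C : Matrix (Fin m) (Fin m) ℝ) : Matrix (Fin m) (Fin m) ℂ :=
  (toC C + Complex.I • (1 : Matrix (Fin m) (Fin m) ℂ))⁻¹

lemma isUnit_plus {C : Matrix (Fin m) (Fin m) ℝ} (hC : Cᵀ = C) :
    IsUnit (toC C + Complex.I • (1 : Matrix (Fin m) (Fin m) ℂ)).det := by
  have := isUnit_shift hC (one_ne_zero (α := ℝ))
  simpa using this


lemma mul_Wi {C : Matrix (Fin m) (Fin m) ℝ} (hC : Cᵀ = C) :
    (toC C + Complex.I • (1 : Matrix (Fin m) (Fin m) ℂ)) * Wi C = 1 :=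
  Matrix.mul_nonsing_inv _ (isUnit_plus hC)

lemma Wi_mul {C : Matrix (Fin m) (Fin m) ℝ} (hC : Cᵀ = C) :
    Wi C * (toC C + Complex.I • (1 : Matrix (Fin m) (Fin m) ℂ)) = 1 :=
  Matrix.nonsing_inv_mul _ (isUnit_plus hC)

lemma Cay_def (C : Matrix (Fin m) (Fin m) ℝ) :
    Cay C = (toC C - Complex.I • (1 : Matrix (Fin m) (Fin m) ℂ)) * Wi C := rfl




lemma Wi_comm {C : Matrix (Fin m) (Fin m) ℝ} (hC : Cᵀ = C) :
    Wi C * (toC C - Complex.I • (1 : Matrix (Fin m) (Fin m) ℂ)) =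
      (toC C - Complex.I • (1 : Matrix (Fin m) (Fin m) ℂ)) * Wi C := by
  have h : toC C - Complex.I • (1 : Matrix (Fin m) (Fin m) ℂ) =
      (toC C + Complex.I • (1 : Matrix (Fin m) (Fin m) ℂ)) - (2 * Complex.I) • 1 := by
    rw [two_mul, add_smul]; abel
  rw [h, Matrix.sub_mul, Matrix.mul_sub, mul_Wi hC, Wi_mul hC, Matrix.smul_mul, Matrix.mul_smul,
    Matrix.one_mul, Matrix.mul_one]

theorem Cay_unitary {C : Matrix (Fin m) (Fin m) ℝ} (hC : Cᵀ = C) :
    Cay C ∈ unitaryGroup (Fin m) ℂ := by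
  rw [mem_unitaryGroup_iff, star_eq_conjTranspose]
  have hH : (toC C)ᴴ = toC C := by rw [toC_conjTranspose, hC]
  have h1 : (toC C + Complex.I • (1 : Matrix (Fin m) (Fin m) ℂ))ᴴ =
      toC C - Complex.I • (1 : Matrix (Fin m) (Fin m) ℂ) := by
    rw [conjTranspose_add, conjTranspose_smul, conjTranspose_one, hH]
    simp [sub_eq_add_neg]
  have h2 : (toC C - Complex.I • (1 : Matrix (Fin m) (Fin m) ℂ))ᴴ =
      toC C + Complex.I • (1 : Matrix (Fin m) (Fin m) ℂ) := by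
    rw [conjTranspose_sub, conjTranspose_smul, conjTranspose_one, hH]
    simp [sub_eq_add_neg]
  have h3 : (Wi C)ᴴ * (toC C - Complex.I • (1 : Matrix (Fin m) (Fin m) ℂ)) = 1 := by
    rw [← h1, ← conjTranspose_mul, mul_Wi hC, conjTranspose_one]
  rw [Cay_def, conjTranspose_mul, h2]
  calc (toC C - Complex.I • (1 : Matrix (Fin m) (Fin m) ℂ)) * Wi C *
        ((Wi C)ᴴ * (toC C + Complex.I • (1 : Matrix (Fin m) (Fin m) ℂ)))
      = (toC C - Complex.I • (1 : Matrix (Fin m) (Fin m) ℂ)) * (Wi C * (Wi C)ᴴ) *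
        (toC C + Complex.I • (1 : Matrix (Fin m) (Fin m) ℂ)) := by simp only [Matrix.mul_assoc]
    _ = 1 := by
      have h4 : (toC C - Complex.I • (1 : Matrix (Fin m) (Fin m) ℂ)) * (Wi C)ᴴ = 1 :=
        mul_eq_one_comm.mp h3
      have h5 : Wi C * (Wi C)ᴴ = (Wi C)ᴴ * Wi C := by
        have e1 : (toC C - Complex.I • (1 : Matrix (Fin m) (Fin m) ℂ)) * (Wi C * (Wi C)ᴴ) =
            Wi C := by
          rw [← Matrix.mul_assoc, ← Wi_comm hC, Matrix.mul_assoc, h4, Matrix.mul_one]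
        calc Wi C * (Wi C)ᴴ = ((Wi C)ᴴ * (toC C - Complex.I • (1 : Matrix (Fin m) (Fin m) ℂ))) *
              (Wi C * (Wi C)ᴴ) := by rw [h3, Matrix.one_mul]
          _ = (Wi C)ᴴ * Wi C := by rw [Matrix.mul_assoc, e1]
      rw [h5, ← Matrix.mul_assoc, h4, Matrix.one_mul, Wi_mul hC]

end Cay

/-! ### The corner identity -/

section Corner

variable {m : ℕ}

/-- principal corner of a matrix -/
def crn {R : Type*} (C : Matrix (Fin (m + 1)) (Fin (m + 1)) R) : Matrix (Fin m) (Fin m) R :=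
  C.submatrix Fin.castSucc Fin.castSucc







end Corner

end Crest.Agent.R166.Cl85
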