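import Mathlib

/-!
# R166, section 10: resolvent toolkit, part 1 (helper789)

`cx`, `imM`, `qf`, Siegel half space `Sieg`, resolvent `Res`, Ward identities,
finite perturbations.
-/

set_option autoImplicit false
set_option linter.unusedSectionVars false

open Matrix Complex

namespace Crest.Agent.R166.Res789

variable {V : Type*} [Fintype V] [DecidableEq V]
variable {P : Type*} [Fintype P] [DecidableEq P]
variable {Q : Type*} [Fintype Q] [DecidableEq Q]

/-- complexification of a real matrix -/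
def cx {m n : Type*} (A : Matrix m n ℝ) : Matrix m n ℂ := A.map Complex.ofRealHom

/-- entrywise imaginary part -/
def imM {m n : Type*} (A : Matrix m n ℂ) : Matrix m n ℝ := A.map Complex.im

/-- entrywise real part -/
def reM {m n : Type*} (A : Matrix m n ℂ) : Matrix m n ℝ := A.map Complex.re

@[simp] lemma cx_apply {m n : Type*} (A : Matrix m n ℝ) (i : m) (j : n) : cx A i j = (A i j : ℂ) :=
  rfl

@[simp] lemma imM_apply {m n : Type*} (A : Matrix m n ℂ) (i : m) (j : n) :
    imM A i j = (A i j).im := rfl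

@[simp] lemma reM_apply {m n : Type*} (A : Matrix m n ℂ) (i : m) (j : n) :
    reM A i j = (A i j).re := rfl

lemma cx_mul {m n : Type*} (A : Matrix m P ℝ) (B : Matrix P n ℝ) : cx (A * B) = cx A * cx B := by
  unfold cx; exact Matrix.map_mul

lemma cx_transpose {m n : Type*} (A : Matrix m n ℝ) : cx Aᵀ = (cx A)ᵀ := rfl

@[simp] lemma cx_one {m : Type*} [DecidableEq m] : cx (1 : Matrix m m ℝ) = 1 := by
  unfold cx; exact Matrix.map_one _ (by simp) (by simp)

@[simp] lemma cx_zero {m n : Type*} : cx (0 : Matrix m n ℝ) = 0 := by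
  ext i j; simp

lemma cx_add {m n : Type*} (A B : Matrix m n ℝ) : cx (A + B) = cx A + cx B := by
  ext i j; simp

lemma cx_sub {m n : Type*} (A B : Matrix m n ℝ) : cx (A - B) = cx A - cx B := by
  ext i j; simp

lemma cx_neg {m n : Type*} (A : Matrix m n ℝ) : cx (-A) = -cx A := by
  ext i j; simp

lemma cx_smul {m n : Type*} (c : ℝ) (A : Matrix m n ℝ) : cx (c • A) = (c : ℂ) • cx A := by
  ext i j; simp

lemma cx_conjTranspose {m n : Type*} (A : Matrix m n ℝ) : (cx A)ᴴ = cx Aᵀ := by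
  ext i j; simp

lemma cx_submatrix {m n m' n' : Type*} (A : Matrix m n ℝ) (f : m' → m) (g : n' → n) :
    cx (A.submatrix f g) = (cx A).submatrix f g := rfl

lemma imM_submatrix {m n m' n' : Type*} (A : Matrix m n ℂ) (f : m' → m) (g : n' → n) :
    imM (A.submatrix f g) = (imM A).submatrix f g := rfl



/-- the quadratic form of a real symmetric matrix on complex vectors -/
def qf (Y : Matrix P P ℝ) (u : P → ℂ) : ℝ := (star u ⬝ᵥ (cx Y *ᵥ u)).re

lemma qf_expand (Y : Matrix P P ℝ) (u : P → ℂ) :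
    qf Y u = ∑ i, ∑ j, Y i j * ((u i).re * (u j).re + (u i).im * (u j).im) := by
  unfold qf
  simp only [dotProduct, mulVec, Pi.star_apply, cx_apply, RCLike.star_def, Finset.mul_sum,
    Complex.re_sum]
  refine Finset.sum_congr rfl fun i _ => Finset.sum_congr rfl fun j _ => ?_
  simp
  ring

lemma qf_ofReal (Y : Matrix P P ℝ) (u : P → ℝ) :
    qf Y (fun i => (u i : ℂ)) = u ⬝ᵥ (Y *ᵥ u) := by
  rw [qf_expand]
  simp only [ofReal_re, ofReal_im, mul_zero, add_zero, dotProduct, mulVec, Finset.mul_sum]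
  refine Finset.sum_congr rfl fun i _ => Finset.sum_congr rfl fun j _ => ?_
  ring


lemma qf_smul_mat (c : ℝ) (Y : Matrix P P ℝ) (u : P → ℂ) : qf (c • Y) u = c * qf Y u := by
  simp only [qf_expand, Matrix.smul_apply, smul_eq_mul, Finset.mul_sum, mul_assoc]


@[simp] lemma qf_one (u : P → ℂ) : qf (1 : Matrix P P ℝ) u = ∑ i, ‖u i‖ ^ 2 := by
  unfold qf
  rw [cx_one, Matrix.one_mulVec]
  simp only [dotProduct, Pi.star_apply, RCLike.star_def, Complex.re_sum]
  refine Finset.sum_congr rfl fun i _ => ?_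
  rw [← Complex.normSq_eq_norm_sq, ← Complex.normSq_eq_conj_mul_self]
  simp

lemma qf_smul_vec (Y : Matrix P P ℝ) (c : ℂ) (u : P → ℂ) : qf Y (c • u) = ‖c‖ ^ 2 * qf Y u := by
  unfold qf
  rw [Matrix.mulVec_smul, star_smul, smul_dotProduct, dotProduct_smul, smul_eq_mul, smul_eq_mul,
    ← mul_assoc]
  have : star c * c = ((‖c‖ ^ 2 : ℝ) : ℂ) := by
    rw [← Complex.normSq_eq_norm_sq, Complex.normSq_eq_conj_mul_self]; rfl
  rw [this, Complex.re_ofReal_mul]

lemma qf_neg_vec (Y : Matrix P P ℝ) (u : P → ℂ) : qf Y (-u) = qf Y u := by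
  have := qf_smul_vec Y (-1) u
  simpa using this

/-- conjugation does not change the form of a real matrix -/
lemma qf_star (Y : Matrix P P ℝ) (u : P → ℂ) : qf Y (star u) = qf Y u := by
  simp only [qf_expand]
  refine Finset.sum_congr rfl fun i _ => Finset.sum_congr rfl fun j _ => ?_
  simp

/-- for a complex symmetric matrix `Im (u^* Z u)` is the form of the entrywise imaginary part -/
lemma im_form {Z : Matrix P P ℂ} (hZ : Zᵀ = Z) (u : P → ℂ) :
    (star u ⬝ᵥ (Z *ᵥ u)).im = qf (imM Z) u := by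
  have hs : ∀ i j, Z i j = Z j i := fun i j => by
    have := congrFun (congrFun hZ j) i
    simpa using this
  rw [qf_expand]
  simp only [dotProduct, mulVec, Pi.star_apply, RCLike.star_def, Finset.mul_sum, Complex.im_sum,
    imM_apply]
  have h1 : ∀ i j, ((starRingEnd ℂ) (u i) * (Z i j * u j)).im =
      (Z i j).im * ((u i).re * (u j).re + (u i).im * (u j).im) +
        (Z i j).re * ((u i).re * (u j).im - (u i).im * (u j).re) := by
    intro i j
    simp
    ring
  simp only [h1, Finset.sum_add_distrib]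
  have h2 : ∑ i, ∑ j, (Z i j).re * ((u i).re * (u j).im - (u i).im * (u j).re) = 0 := by
    have h3 : ∑ i, ∑ j, (Z i j).re * ((u i).re * (u j).im - (u i).im * (u j).re) =
        - ∑ i, ∑ j, (Z i j).re * ((u i).re * (u j).im - (u i).im * (u j).re) := by
      conv_lhs => rw [Finset.sum_comm]
      rw [← Finset.sum_neg_distrib]
      refine Finset.sum_congr rfl fun i _ => ?_
      rw [← Finset.sum_neg_distrib]
      refine Finset.sum_congr rfl fun j _ => ?_
      rw [hs j i]
      ring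
    linarith
  rw [h2, add_zero]

/-- the Siegel upper half space -/
structure Sieg (Z : Matrix P P ℂ) : Prop where
  symm : Zᵀ = Z
  pos : ∀ u : P → ℂ, u ≠ 0 → 0 < qf (imM Z) u

lemma Sieg.nonneg {Z : Matrix P P ℂ} (h : Sieg Z) (u : P → ℂ) : 0 ≤ qf (imM Z) u := by
  by_cases hu : u = 0
  · subst hu
    simp [qf_expand]
  · exact (h.pos u hu).le

lemma Sieg.form {Z : Matrix P P ℂ} (h : Sieg Z) (u : P → ℂ) :
    (star u ⬝ᵥ (Z *ᵥ u)).im = qf (imM Z) u := im_form h.symm u

lemma imM_symm {Z : Matrix P P ℂ} (h : Zᵀ = Z) : (imM Z)ᵀ = imM Z := by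
  ext i j
  have := congrFun (congrFun h i) j
  simp only [Matrix.transpose_apply, imM_apply] at this ⊢
  rw [this]

lemma Sieg.posDef {Z : Matrix P P ℂ} (h : Sieg Z) : (imM Z).PosDef := by
  refine Matrix.PosDef.of_dotProduct_mulVec_pos ?_ ?_
  · rw [Matrix.IsHermitian, Matrix.conjTranspose_eq_transpose_of_trivial]
    exact imM_symm h.symm
  · intro x hx
    have h1 := h.pos (fun i => (x i : ℂ)) (by
      intro h0
      apply hx
      ext i
      have := congrFun h0 i
      simpa using this)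
    rw [qf_ofReal] at h1
    simpa using h1

lemma qf_pos_of_posDef {Y : Matrix P P ℝ} (h : Y.PosDef) {u : P → ℂ} (hu : u ≠ 0) :
    0 < qf Y u := by
  have key : qf Y u = (fun i => (u i).re) ⬝ᵥ (Y *ᵥ fun i => (u i).re) +
      (fun i => (u i).im) ⬝ᵥ (Y *ᵥ fun i => (u i).im) := by
    rw [qf_expand]
    simp only [dotProduct, mulVec, Finset.mul_sum, ← Finset.sum_add_distrib]
    refine Finset.sum_congr rfl fun i _ => Finset.sum_congr rfl fun j _ => ?_
    ring
  have nn : ∀ x : P → ℝ, 0 ≤ x ⬝ᵥ (Y *ᵥ x) := by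
    intro x
    have := h.posSemidef.dotProduct_mulVec_nonneg x
    simpa using this
  have pp : ∀ x : P → ℝ, x ≠ 0 → 0 < x ⬝ᵥ (Y *ᵥ x) := by
    intro x hx
    have := h.dotProduct_mulVec_pos hx
    simpa using this
  rw [key]
  by_cases h1 : (fun i => (u i).re) = (0 : P → ℝ)
  · have h2 : (fun i => (u i).im) ≠ (0 : P → ℝ) := by
      intro h2
      apply hu
      ext i
      exact Complex.ext (congrFun h1 i) (congrFun h2 i)
    exact add_pos_of_nonneg_of_pos (nn _) (pp _ h2)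
  · exact add_pos_of_pos_of_nonneg (pp _ h1) (nn _)

lemma Sieg.of_posDef {Z : Matrix P P ℂ} (h : Zᵀ = Z) (h2 : (imM Z).PosDef) : Sieg Z :=
  ⟨h, fun _ hu => qf_pos_of_posDef h2 hu⟩

lemma Sieg.isUnit_det {Z : Matrix P P ℂ} (h : Sieg Z) : IsUnit Z.det := by
  rw [isUnit_iff_ne_zero]
  intro h0
  obtain ⟨v, hv, hv0⟩ := Matrix.exists_mulVec_eq_zero_iff.2 h0
  have := h.pos v hv
  rw [← h.form, hv0] at this
  simp at this

lemma Sieg.mul_inv {Z : Matrix P P ℂ} (h : Sieg Z) : Z * Z⁻¹ = 1 :=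
  Matrix.mul_nonsing_inv _ h.isUnit_det

lemma Sieg.inv_mul {Z : Matrix P P ℂ} (h : Sieg Z) : Z⁻¹ * Z = 1 :=
  Matrix.nonsing_inv_mul _ h.isUnit_det

/-- `u^* (-Z⁻¹) u` has imaginary part the form of `Im Z` at `Z⁻¹ u` -/
lemma Sieg.im_form_neg_inv {Z : Matrix P P ℂ} (h : Sieg Z) (u : P → ℂ) :
    (star u ⬝ᵥ ((-Z⁻¹) *ᵥ u)).im = qf (imM Z) (Z⁻¹ *ᵥ u) := by
  set w := Z⁻¹ *ᵥ u with hw
  have hu : u = Z *ᵥ w := by
    rw [hw, Matrix.mulVec_mulVec, h.mul_inv, Matrix.one_mulVec]
  rw [Matrix.neg_mulVec, ← hw, dotProduct_neg, Complex.neg_im]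
  have h1 : star u ⬝ᵥ w = star (star w ⬝ᵥ u) := Matrix.star_dotProduct _ _
  rw [h1, hu, ← h.form]
  simp

lemma Sieg.neg_inv {Z : Matrix P P ℂ} (h : Sieg Z) : Sieg (-Z⁻¹) := by
  have hs : (-Z⁻¹)ᵀ = -Z⁻¹ := by
    rw [Matrix.transpose_neg, Matrix.transpose_nonsing_inv, h.symm]
  refine ⟨hs, fun u hu => ?_⟩
  rw [← im_form hs, h.im_form_neg_inv]
  apply h.pos
  intro h0
  apply hu
  have : Z *ᵥ (Z⁻¹ *ᵥ u) = 0 := by rw [h0, Matrix.mulVec_zero]
  rwa [Matrix.mulVec_mulVec, h.mul_inv, Matrix.one_mulVec] at this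

lemma Sieg.qf_neg_inv {Z : Matrix P P ℂ} (h : Sieg Z) (u : P → ℂ) :
    qf (imM (-Z⁻¹)) u = qf (imM Z) (Z⁻¹ *ᵥ u) := by
  rw [← h.neg_inv.form, h.im_form_neg_inv]

lemma imM_add_cx {m n : Type*} (Z : Matrix m n ℂ) (W : Matrix m n ℝ) :
    imM (Z + cx W) = imM Z := by
  ext i j; simp

lemma Sieg.add_real {Z : Matrix P P ℂ} (h : Sieg Z) {W : Matrix P P ℝ} (hW : Wᵀ = W) :
    Sieg (Z + cx W) := by
  refine ⟨?_, ?_⟩
  · rw [Matrix.transpose_add, h.symm, ← cx_transpose, hW]
  · intro u hu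
    rw [imM_add_cx]
    exact h.pos u hu

lemma qf_submatrix (Y : Matrix P P ℝ) {f : Q → P} (hf : Function.Injective f) (u : Q → ℂ) :
    qf (Y.submatrix f f) u = qf Y (fun i => ∑ q, if f q = i then u q else 0) := by
  set g : P → ℂ := fun i => ∑ q, if f q = i then u q else 0 with hg
  have h0 : ∀ q, g (f q) = u q := by
    intro q
    rw [hg]
    simp only
    rw [Finset.sum_eq_single q]
    · simp
    · intro b _ hb
      rw [if_neg]
      exact fun h => hb (hf h)
    · simp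
  have h1 : ∀ i, i ∉ Set.range f → g i = 0 := by
    intro i hi
    rw [hg]
    apply Finset.sum_eq_zero
    intro q _
    rw [if_neg]
    exact fun h => hi ⟨q, h⟩
  rw [qf_expand, qf_expand]
  have key : ∀ F : P → ℝ, (∀ i, i ∉ Set.range f → F i = 0) → ∑ i, F i = ∑ q, F (f q) := by
    intro F hF
    rw [← Finset.sum_subset (Finset.subset_univ (Finset.univ.image f))]
    · rw [Finset.sum_image (fun a _ b _ hab => hf hab)]
    · intro x _ hx
      apply hF
      rintro ⟨q, rfl⟩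
      exact hx (Finset.mem_image_of_mem _ (Finset.mem_univ _))
  rw [key (fun i => ∑ j, Y i j * ((g i).re * (g j).re + (g i).im * (g j).im))]
  · refine Finset.sum_congr rfl fun p _ => ?_
    rw [key (fun j => Y (f p) j * ((g (f p)).re * (g j).re + (g (f p)).im * (g j).im))]
    · refine Finset.sum_congr rfl fun q _ => ?_
      simp only [h0, Matrix.submatrix_apply]
    · intro j hj
      simp [h1 j hj]
  · intro i hi
    apply Finset.sum_eq_zero
    intro j _
    simp [h1 i hi]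

lemma Sieg.submatrix {Z : Matrix P P ℂ} (h : Sieg Z) {f : Q → P} (hf : Function.Injective f) :
    Sieg (Z.submatrix f f) := by
  refine ⟨?_, fun u hu => ?_⟩
  · rw [Matrix.transpose_submatrix, h.symm]
  · rw [imM_submatrix, qf_submatrix _ hf]
    apply h.pos
    intro h0
    apply hu
    ext q
    have := congrFun h0 (f q)
    simp only [Pi.zero_apply] at this ⊢
    rw [Finset.sum_eq_single q] at this
    · simpa using this
    · intro b _ hb
      rw [if_neg]
      exact fun h => hb (hf h)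
    · simp

/-- resolvent -/
noncomputable def Res (H : Matrix V V ℝ) (z : ℂ) : Matrix V V ℂ := (cx H - z • 1)⁻¹

lemma sieg_smul_one_sub {H : Matrix V V ℝ} (hH : Hᵀ = H) {z : ℂ} (hz : 0 < z.im) :
    Sieg (z • (1 : Matrix V V ℂ) - cx H) := by
  refine ⟨?_, fun u hu => ?_⟩
  · rw [Matrix.transpose_sub, Matrix.transpose_smul, Matrix.transpose_one, ← cx_transpose, hH]
  · have h1 : imM (z • (1 : Matrix V V ℂ) - cx H) = z.im • (1 : Matrix V V ℝ) := by
      ext i j
      by_cases hij : i = j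
      · subst hij; simp
      · simp [hij]
    rw [h1, qf_smul_mat, qf_one]
    apply mul_pos hz
    obtain ⟨i, hi⟩ : ∃ i, u i ≠ 0 := by
      by_contra hcon
      push Not at hcon
      exact hu (funext hcon)
    exact Finset.sum_pos' (fun _ _ => by positivity) ⟨i, Finset.mem_univ _, by positivity⟩

lemma Res_eq_neg (H : Matrix V V ℝ) (z : ℂ) : Res H z = -(z • (1 : Matrix V V ℂ) - cx H)⁻¹ := by
  unfold Res
  have : cx H - z • (1 : Matrix V V ℂ) = -(z • (1 : Matrix V V ℂ) - cx H) := by abel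
  rw [this]
  by_cases h : IsUnit (z • (1 : Matrix V V ℂ) - cx H).det
  · apply Matrix.inv_eq_right_inv
    rw [neg_mul_neg, Matrix.mul_nonsing_inv _ h]
  · rw [Matrix.nonsing_inv_apply_not_isUnit _ h, Matrix.nonsing_inv_apply_not_isUnit, neg_zero]
    rw [Matrix.det_neg]
    intro h2
    apply h
    rw [isUnit_iff_ne_zero] at h2 ⊢
    exact right_ne_zero_of_mul h2

theorem Res_sieg {H : Matrix V V ℝ} (hH : Hᵀ = H) {z : ℂ} (hz : 0 < z.im) : Sieg (Res H z) := by
  rw [Res_eq_neg]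
  exact (sieg_smul_one_sub hH hz).neg_inv

lemma isUnit_det_sub {H : Matrix V V ℝ} (hH : Hᵀ = H) {z : ℂ} (hz : 0 < z.im) :
    IsUnit (cx H - z • (1 : Matrix V V ℂ)).det := by
  have h := (sieg_smul_one_sub hH hz).isUnit_det
  have : cx H - z • (1 : Matrix V V ℂ) = -(z • (1 : Matrix V V ℂ) - cx H) := by abel
  rw [this, Matrix.det_neg]
  rw [isUnit_iff_ne_zero] at h ⊢
  exact mul_ne_zero (pow_ne_zero _ (by norm_num)) h

theorem sub_mul_Res {H : Matrix V V ℝ} (hH : Hᵀ = H) {z : ℂ} (hz : 0 < z.im) :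
    (cx H - z • (1 : Matrix V V ℂ)) * Res H z = 1 :=
  Matrix.mul_nonsing_inv _ (isUnit_det_sub hH hz)

theorem Res_mul_sub {H : Matrix V V ℝ} (hH : Hᵀ = H) {z : ℂ} (hz : 0 < z.im) :
    Res H z * (cx H - z • (1 : Matrix V V ℂ)) = 1 :=
  Matrix.nonsing_inv_mul _ (isUnit_det_sub hH hz)

lemma Res_transpose {H : Matrix V V ℝ} (hH : Hᵀ = H) {z : ℂ} (hz : 0 < z.im) :
    (Res H z)ᵀ = Res H z := (Res_sieg hH hz).symm

/-- first resolvent identity -/
theorem Res_sub {H : Matrix V V ℝ} (hH : Hᵀ = H) {z w : ℂ} (hz : 0 < z.im) (hw : 0 < w.im) :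
    Res H z - Res H w = (z - w) • (Res H z * Res H w) := by
  have h1 : Res H z * ((cx H - w • (1 : Matrix V V ℂ)) - (cx H - z • 1)) * Res H w =
      Res H z - Res H w := by
    rw [mul_sub, sub_mul, mul_assoc, sub_mul_Res hH hw, mul_one, Res_mul_sub hH hz, one_mul]
  rw [← h1]
  have : (cx H - w • (1 : Matrix V V ℂ)) - (cx H - z • 1) = (z - w) • (1 : Matrix V V ℂ) := by
    rw [sub_smul]; abel
  rw [this]
  simp

/-- Ward identity: `Im R = η R R^*` -/
theorem ward {H : Matrix V V ℝ} (hH : Hᵀ = H) {z : ℂ} (hz : 0 < z.im) :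
    cx (imM (Res H z)) = (z.im : ℂ) • (Res H z * (Res H z)ᴴ) := by
  set R := Res H z with hR
  set A := cx H - z • (1 : Matrix V V ℂ) with hA
  have h1 : A * R = 1 := sub_mul_Res hH hz
  have h2 : Rᴴ * Aᴴ = 1 := by
    rw [← Matrix.conjTranspose_mul, h1, Matrix.conjTranspose_one]
  have h2' : Aᴴ * Rᴴ = 1 := by
    have := mul_eq_one_comm.1 h2
    exact this
  have h1' : R * A = 1 := mul_eq_one_comm.1 h1
  have h3 : R - Rᴴ = R * (Aᴴ - A) * Rᴴ := by
    rw [mul_sub, sub_mul, mul_assoc, h2', mul_one, h1', one_mul]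
  have h4 : Aᴴ - A = (2 * (z.im : ℂ) * I) • (1 : Matrix V V ℂ) := by
    rw [hA, Matrix.conjTranspose_sub, cx_conjTranspose, hH, Matrix.conjTranspose_smul,
      Matrix.conjTranspose_one]
    have : (z - star z) = 2 * (z.im : ℂ) * I := by
      apply Complex.ext <;> simp
      ring
    rw [← this, sub_smul]
    abel
  have h5 : ∀ i j, R j i = R i j := by
    intro i j
    have := congrFun (congrFun (Res_transpose hH hz) i) j
    simpa using this
  have h6 : R - Rᴴ = (2 * I) • cx (imM R) := by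
    ext i j
    simp only [Matrix.sub_apply, Matrix.conjTranspose_apply, Matrix.smul_apply, cx_apply,
      imM_apply, smul_eq_mul, h5 i j]
    apply Complex.ext <;> simp
    ring
  rw [h6, h4] at h3
  have h7 : (2 * I) • cx (imM R) = (2 * I) • ((z.im : ℂ) • (R * Rᴴ)) := by
    rw [h3]
    simp only [mul_smul_comm, mul_one, smul_mul_assoc, smul_smul]
    congr 1
    ring
  have h8 : (2 * I : ℂ) ≠ 0 := by simp
  have h9 := congrArg (fun M => (2 * I : ℂ)⁻¹ • M) h7
  simpa [smul_smul, inv_mul_cancel₀ h8] using h9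

end Crest.Agent.R166.Res789
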