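import Crest.Agent.R166.Exc_501
import Crest.Agent.R166.Res_789
import Crest.Agent.R166.Defs_419
import Crest.Agent.R166.Cyc_798
import Crest.Agent.R166.Spine_419
import Crest.Agent.R166.Ports_269

-- ▼ part R166/ExcB_501
section

/-!
Row 166, section 31.5 (helper501): unique continuation and the bound of the resolvent at exceptional
vertices.
-/

set_option autoImplicit false

namespace Crest.Agent.R166.Exc501

open Finset Classical

noncomputable section

variable {V : Type*} [Fintype V]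

/-- unique continuation from the annulus `bl (r+2) \ bl r` to the centre. -/
theorem uniq_cont {G : SimpleGraph V} {v : V} {d M r : ℕ} (hd : Reg G d) (hd3 : 3 ≤ d)
    (hM : (d+1)^(r+1) ≤ M) (hNM : NM G M)
    (f : V → ℂ) (e : V → ℝ) (E0 δ A : ℝ) (hE : ∀ x, |e x| ≤ E0) (hδ : 0 ≤ δ) (hA : 0 ≤ A)
    (hf : ∀ x ∈ bl G v (r+1), ‖∑ w ∈ nb G x, f w - (e x : ℂ) * f x‖ ≤ δ)
    (hann : ∀ w ∈ bl G v (r+2), w ∉ bl G v r → ‖f w‖ ≤ A) :
    ‖f v‖ ≤ (E0 + d + 1)^(r+1) * (A + δ) := by
  have hE0 : 0 ≤ E0 := (abs_nonneg _).trans (hE v)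
  set c : ℝ := E0 + d + 1 with hc
  have hc1 : 1 ≤ c := by
    have : (0:ℝ) ≤ d := Nat.cast_nonneg d
    rw [hc]; linarith
  have main : ∀ j : ℕ, j ≤ r + 1 → ∀ u ∈ bl G v (r+2), r + 1 - j ≤ lev G v u →
      ‖f u‖ ≤ c^j * (A + δ) := by
    intro j
    induction j with
    | zero =>
      intro _ u hu hl
      simp only [pow_zero, one_mul]
      have := hann u hu (not_mem_bl_of_lt (by omega))
      linarith
    | succ j ih =>
      intro hj u hu hl
      have ihj := ih (by omega)
      have hb0 : δ ≤ c^j * (A + δ) := by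
        have h1 : (1:ℝ) ≤ c^j := one_le_pow₀ hc1
        nlinarith
      rcases Nat.lt_or_ge (lev G v u) (r + 1 - j) with hlt | hge
      swap
      · calc ‖f u‖ ≤ c^j * (A + δ) := ihj u hu hge
          _ ≤ c^(j+1) * (A + δ) := by
            gcongr
            · omega
      · -- `lev u = r - j`
        have hk : lev G v u = r - j := by omega
        set k := r - j with hkdef
        have huk : u ∈ bl G v k := by
          have := mem_bl_lev hu
          rwa [hk] at this
        obtain ⟨x, hx1, hx2, hx3⟩ := exists_good_child (M := M) hd hd3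
          (by
            refine le_trans ?_ hM
            exact Nat.pow_le_pow_right (by omega) (by omega)) hNM huk hk
        have hxk : x ∈ bl G v (k+1) := adj_mem_bl huk hx1
        have hxr : x ∈ bl G v (r+1) := bl_mono (by omega) hxk
        have hlx : k < lev G v x := by
          by_contra hle
          exact hx2 ((mem_bl_iff_lev hxk).2 (not_lt.1 hle))
        have hfx : ‖f x‖ ≤ c^j * (A + δ) := ihj x (bl_mono (by omega) hxk) (by omega)
        have hother : ∀ w ∈ (nb G x).erase u, ‖f w‖ ≤ c^j * (A + δ) := by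
          intro w hw
          rw [Finset.mem_erase, mem_nb] at hw
          have hw2 : w ∈ bl G v (k+2) := adj_mem_bl hxk hw.2
          have hwk : w ∉ bl G v k := fun h => hw.1 (hx3 w h hw.2)
          have : k < lev G v w := by
            by_contra hle
            exact hwk ((mem_bl_iff_lev hw2).2 (not_lt.1 hle))
          exact ihj w (bl_mono (by omega) hw2) (by omega)
        have hux : u ∈ nb G x := by simpa using hx1.symm
        have hsum : ∑ w ∈ nb G x, f w = f u + ∑ w ∈ (nb G x).erase u, f w := by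
          rw [Finset.add_sum_erase _ _ hux]
        have hid : f u = (∑ w ∈ nb G x, f w - (e x : ℂ) * f x) + (e x : ℂ) * f x -
            ∑ w ∈ (nb G x).erase u, f w := by
          rw [hsum]; ring
        have hcard : ((nb G x).erase u).card = d - 1 := by
          rw [Finset.card_erase_of_mem hux, hd x]
        have h1 : ‖∑ w ∈ (nb G x).erase u, f w‖ ≤ (d - 1 : ℕ) * (c^j * (A + δ)) := by
          calc ‖∑ w ∈ (nb G x).erase u, f w‖ ≤ ∑ w ∈ (nb G x).erase u, ‖f w‖ := norm_sum_le _ _
            _ ≤ ∑ _w ∈ (nb G x).erase u, (c^j * (A + δ)) := Finset.sum_le_sum hother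
            _ = (d - 1 : ℕ) * (c^j * (A + δ)) := by rw [Finset.sum_const, hcard, nsmul_eq_mul]
        have h2 : ‖(e x : ℂ) * f x‖ ≤ E0 * (c^j * (A + δ)) := by
          rw [norm_mul, Complex.norm_real, Real.norm_eq_abs]
          exact mul_le_mul (hE x) hfx (norm_nonneg _) hE0
        have h3 := hf x hxr
        have h4 : ((d - 1 : ℕ) : ℝ) ≤ d := by exact_mod_cast Nat.sub_le d 1
        have hb00 : 0 ≤ c^j * (A + δ) := hδ.trans hb0
        calc ‖f u‖ = ‖(∑ w ∈ nb G x, f w - (e x : ℂ) * f x) + (e x : ℂ) * f x -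
            ∑ w ∈ (nb G x).erase u, f w‖ := by rw [← hid]
          _ ≤ ‖(∑ w ∈ nb G x, f w - (e x : ℂ) * f x) + (e x : ℂ) * f x‖ +
            ‖∑ w ∈ (nb G x).erase u, f w‖ := norm_sub_le _ _
          _ ≤ (‖∑ w ∈ nb G x, f w - (e x : ℂ) * f x‖ + ‖(e x : ℂ) * f x‖) +
            ‖∑ w ∈ (nb G x).erase u, f w‖ := by gcongr; exact norm_add_le _ _
          _ ≤ (δ + E0 * (c^j * (A + δ))) + (d - 1 : ℕ) * (c^j * (A + δ)) := by
            gcongr
          _ ≤ (c^j * (A + δ) + E0 * (c^j * (A + δ))) + d * (c^j * (A + δ)) := by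
            gcongr
          _ = c^(j+1) * (A + δ) := by rw [hc]; ring
  exact main (r+1) le_rfl v self_mem_bl (by omega)

open Crest.Agent.R166.Res789

variable [DecidableEq V]


/-- Ward identity, diagonal entries. -/
theorem ward_diag {H : Matrix V V ℝ} (hH : H.transpose = H) {z : ℂ} (hz : 0 < z.im) (x : V) :
    (Res789.Res H z x x).im = z.im * ∑ y, ‖Res789.Res H z x y‖ ^ 2 := by
  have h := congrFun (congrFun (ward hH hz) x) x
  simp only [cx_apply, imM_apply, Matrix.smul_apply, Matrix.mul_apply, Matrix.conjTranspose_apply,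
    smul_eq_mul] at h
  have h2 : ∀ y, Res789.Res H z x y * star (Res789.Res H z x y) =
      ((‖Res789.Res H z x y‖ ^ 2 : ℝ) : ℂ) := by
    intro y
    rw [Complex.star_def, Complex.mul_conj, Complex.normSq_eq_norm_sq]
  simp only [h2] at h
  rw [← Complex.ofReal_sum, ← Complex.ofReal_mul] at h
  exact Complex.ofReal_injective h


lemma norm_sq_le_im {H : Matrix V V ℝ} (hH : H.transpose = H) {z : ℂ} (hz : 0 < z.im) (x y : V) :
    ‖Res789.Res H z x y‖ ^ 2 ≤ (Res789.Res H z x x).im / z.im := by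
  rw [ward_diag hH hz, mul_div_cancel_left₀ _ hz.ne']
  exact Finset.single_le_sum (f := fun y => ‖Res789.Res H z x y‖ ^ 2)
    (fun _ _ => by positivity) (Finset.mem_univ y)

lemma norm_diag_le {H : Matrix V V ℝ} (hH : H.transpose = H) {z : ℂ} (hz : 0 < z.im) (x : V) :
    ‖Res789.Res H z x x‖ ≤ 1 / z.im := by
  have h1 := norm_sq_le_im hH hz x x
  have h2 : (Res789.Res H z x x).im ≤ ‖Res789.Res H z x x‖ := (Complex.im_le_norm _)
  rcases eq_or_lt_of_le (norm_nonneg (Res789.Res H z x x)) with h0 | h0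
  · rw [← h0]; positivity
  · have h3 : ‖Res789.Res H z x x‖ ^ 2 ≤ ‖Res789.Res H z x x‖ / z.im :=
      h1.trans (by gcongr)
    rw [le_div_iff₀ hz] at h3 ⊢
    nlinarith

lemma im_diag_le {H : Matrix V V ℝ} (hH : H.transpose = H) {z : ℂ} (hz : 0 < z.im) (x : V) :
    (Res789.Res H z x x).im ≤ 1 / z.im :=
  (Complex.im_le_norm _).trans (norm_diag_le hH hz x)

lemma norm_entry_le {H : Matrix V V ℝ} (hH : H.transpose = H) {z : ℂ} (hz : 0 < z.im) (x y : V) :
    ‖Res789.Res H z x y‖ ≤ 1 / z.im := by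
  have h1 := norm_sq_le_im hH hz x y
  have h2 : (Res789.Res H z x x).im / z.im ≤ (1 / z.im) ^ 2 := by
    rw [pow_two, ← div_eq_mul_one_div]
    exact div_le_div_of_nonneg_right (im_diag_le hH hz x) hz.le
  exact (pow_le_pow_iff_left₀ (norm_nonneg _) (by positivity) (by norm_num)).1 (h1.trans h2)

/-- bound of the diagonal resolvent entry at the centre of the annulus by the entries on the
annulus. -/
theorem res_center_le {G : SimpleGraph V} {v : V} {d M r : ℕ} (hd : Reg G d) (hd3 : 3 ≤ d)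
    (hM : (d+1)^(r+1) ≤ M) (hNM : NM G M) {H : Matrix V V ℝ} {q : V → ℝ}
    (hH : ∀ x y, H x y = (if G.Adj x y then 1 else 0) + (if x = y then q x else 0))
    {z : ℂ} (hz : 0 < z.im) {E0 B : ℝ} (hE : ∀ x, |z.re - q x| ≤ E0)
    (hann : ∀ w ∈ bl G v (r+2), w ∉ bl G v r → (Res789.Res H z w w).im ≤ B) :
    ‖Res789.Res H z v v‖ ≤ (E0 + d + 1)^(r+1) * (Real.sqrt (B / z.im) + 2) := by
  have hsym : H.transpose = H := by
    ext x y
    rw [Matrix.transpose_apply, hH, hH]
    by_cases hxy : x = y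
    · subst hxy; rfl
    · rw [if_neg hxy, if_neg (Ne.symm hxy)]
      simp only [G.adj_comm]
  apply uniq_cont hd hd3 hM hNM (fun x => Res789.Res H z x v) (fun x => z.re - q x) E0 2
    (Real.sqrt (B / z.im)) hE (by norm_num) (Real.sqrt_nonneg _)
  · intro x _
    have h1 := congrFun (congrFun (sub_mul_Res hsym hz) x) v
    rw [Matrix.sub_mul, Matrix.sub_apply, Matrix.smul_mul, Matrix.one_mul, Matrix.smul_apply,
      Matrix.mul_apply] at h1
    have h2 : ∑ j, cx H x j * Res789.Res H z j v =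
        ∑ w ∈ nb G x, Res789.Res H z w v + (q x : ℂ) * Res789.Res H z x v := by
      simp only [cx_apply, hH]
      push_cast
      simp only [add_mul, Finset.sum_add_distrib]
      congr 1
      · rw [nb, Finset.sum_filter]
        apply Finset.sum_congr rfl
        intro j _
        split_ifs <;> simp
      · rw [Finset.sum_eq_single x]
        · simp
        · intro b _ hb
          rw [if_neg (Ne.symm hb)]; simp
        · simp
    rw [h2] at h1
    have h3 : ∑ w ∈ nb G x, Res789.Res H z w v - ((z.re - q x : ℝ) : ℂ) * Res789.Res H z x v =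
        (1 : Matrix V V ℂ) x v + Complex.I * (z.im : ℂ) * Res789.Res H z x v := by
      have hz' : z = (z.re : ℂ) + (z.im : ℂ) * Complex.I := (Complex.re_add_im z).symm
      have h4 : z • Res789.Res H z x v = (z.re : ℂ) * Res789.Res H z x v +
          Complex.I * (z.im : ℂ) * Res789.Res H z x v := by
        rw [smul_eq_mul]
        nth_rewrite 1 [hz']
        ring
      rw [h4] at h1
      push_cast
      linear_combination h1
    show ‖∑ w ∈ nb G x, Res789.Res H z w v - ((z.re - q x : ℝ) : ℂ) * Res789.Res H z x v‖ ≤ 2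
    rw [h3]
    have h5 : ‖(1 : Matrix V V ℂ) x v‖ ≤ 1 := by
      rw [Matrix.one_apply]; split_ifs <;> simp
    have h6 : ‖Complex.I * (z.im : ℂ) * Res789.Res H z x v‖ ≤ 1 := by
      rw [norm_mul, norm_mul, Complex.norm_I, one_mul, Complex.norm_real, Real.norm_eq_abs,
        abs_of_pos hz]
      calc z.im * ‖Res789.Res H z x v‖ ≤ z.im * (1 / z.im) := by
            gcongr; exact norm_entry_le hsym hz x v
        _ = 1 := by field_simp
    calc _ ≤ _ := norm_add_le _ _
      _ ≤ 2 := by linarith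
  · intro w hw hw'
    show ‖Res789.Res H z w v‖ ≤ Real.sqrt (B / z.im)
    apply Real.le_sqrt_of_sq_le
    exact (norm_sq_le_im hsym hz w v).trans (div_le_div_of_nonneg_right (hann w hw hw') hz.le)

end

end Crest.Agent.R166.Exc501
end

-- ▼ part R166/ExcC_501
section

/-!
Row 166, section 31.5 (helper501): probability estimates: `P(¬ NM) ≤ C/n`, `E #{v : EL v} ≤ C`.
-/

set_option autoImplicit false

namespace Crest.Agent.R166.Exc501

open Finset Classical Crest.ProbabilityR.RandomMatrix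

noncomputable section

variable {V : Type*} [Fintype V]

lemma mem_Reg_iff {d : ℕ} {G : SimpleGraph V} : G ∈ Sw798.Reg V d ↔ Reg G d := by
  rw [Sw798.mem_Reg]
  constructor
  · intro h v
    have := h v
    unfold Sw798.dg at this
    rw [← this]
    unfold nb
    congr
  · intro h v
    have := h v
    unfold Sw798.dg
    rw [← this]
    unfold nb
    congr

lemma edIn_eq {G : SimpleGraph V} {S : Finset V} : edIn G S = Sw798.eIn G S := by
  ext e
  rw [Sw798.mem_eIn]
  simp [edIn]

lemma not_NM_iff {G : SimpleGraph V} {M : ℕ} :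
    ¬ NM G M ↔ ∃ S : Finset V, S.card ≤ M ∧ S.card + 1 ≤ (Sw798.eIn G S).card := by
  unfold NM
  push Not
  simp only [eIn, edIn_eq]
  constructor
  · rintro ⟨S, h1, h2⟩; exact ⟨S, h1, h2⟩
  · rintro ⟨S, h1, h2⟩; exact ⟨S, h1, h2⟩

/-- `P(¬ NM) ≤ C/n` -/
theorem card_not_NM_le {d : ℕ} (hd : 1 ≤ d) (M : ℕ) :
    (((Sw798.Reg V d).filter fun G => ¬ NM G M).card : ℝ) ≤
      Sw798.CM d M / Fintype.card V * (Sw798.Reg V d).card := by
  have := Sw798.card_excess_le (V := V) hd M
  refine le_trans (le_of_eq ?_) this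
  congr 2
  apply Finset.filter_congr
  intro G _
  rw [not_NM_iff]

/-- the constant in `sum_card_cyc_le` -/
def CE (d M : ℕ) : ℝ :=
  (M + 1) * (M * (2 ^ ((M + 1) ^ 2) * (6 * d + 8 + 4 * M : ℝ) ^ M))

/-- expected number of vertices contained in a set `S`, `|S| ≤ M`, which spans at least `|S|` edges -/
theorem sum_card_small_le {d : ℕ} (hd : 1 ≤ d) (M : ℕ) :
    (∑ G ∈ Sw798.Reg V d, ((Finset.univ.filter fun v : V =>
      ∃ S : Finset V, v ∈ S ∧ S.card ≤ M ∧ S.card ≤ (Sw798.eIn G S).card).card : ℝ)) ≤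
      CE d M * (Sw798.Reg V d).card := by
  rcases Nat.eq_zero_or_pos (Fintype.card V) with h0 | hpos
  · have hV : IsEmpty V := Fintype.card_eq_zero_iff.1 h0
    have hz : ∀ G : SimpleGraph V, (Finset.univ.filter fun v : V =>
      ∃ S : Finset V, v ∈ S ∧ S.card ≤ M ∧ S.card ≤ (Sw798.eIn G S).card) = ∅ := by
      intro G; ext v; exact (hV.false v).elim
    simp only [hz, Finset.card_empty, Nat.cast_zero, Finset.sum_const_zero]
    unfold CE
    positivity
  have hnpos : (0 : ℝ) < Fintype.card V := by exact_mod_cast hpos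
  set C : ℝ := 6 * d + 8 + 4 * M with hC
  have hC1 : 1 ≤ C := by
    have : (0 : ℝ) ≤ d := Nat.cast_nonneg d
    have : (0 : ℝ) ≤ M := Nat.cast_nonneg M
    rw [hC]; linarith
  -- the vertex count is bounded by a sum of indicators
  have h1 : ∀ G ∈ Sw798.Reg V d, (((Finset.univ.filter fun v : V =>
      ∃ S : Finset V, v ∈ S ∧ S.card ≤ M ∧ S.card ≤ (Sw798.eIn G S).card).card : ℕ) : ℝ) ≤
      ∑ k ∈ Finset.range (M+1), ∑ S ∈ (Finset.univ : Finset V).powersetCard k,
        ∑ F ∈ S.sym2.powersetCard k, (if G ∈ Sw798.RegF V d F then (M : ℝ) else 0) := by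
    intro G hG
    have hsub : (Finset.univ.filter fun v : V =>
        ∃ S : Finset V, v ∈ S ∧ S.card ≤ M ∧ S.card ≤ (Sw798.eIn G S).card) ⊆
        (Finset.range (M+1)).biUnion fun k => ((Finset.univ : Finset V).powersetCard k).biUnion
          fun S => (S.sym2.powersetCard k).biUnion fun F =>
            (if G ∈ Sw798.RegF V d F then S else ∅) := by
      intro v hv
      rw [Finset.mem_filter] at hv
      obtain ⟨_, S, hvS, hS, hcard⟩ := hv
      obtain ⟨F, hF1, hF2⟩ := Finset.exists_subset_card_eq hcard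
      simp only [Finset.mem_biUnion, Finset.mem_range, Finset.mem_powersetCard]
      refine ⟨S.card, by omega, S, ⟨Finset.subset_univ _, rfl⟩, F, ⟨?_, hF2⟩, ?_⟩
      · intro f hf
        rw [Finset.mem_sym2_iff]
        exact (Sw798.mem_eIn.1 (hF1 hf)).2
      · rw [if_pos]
        · exact hvS
        · exact Sw798.mem_RegF.2 ⟨hG, fun f hf => (Sw798.mem_eIn.1 (hF1 hf)).1⟩
    have h2 := Finset.card_le_card hsub
    have h3 := h2.trans (Finset.card_biUnion_le.trans (Finset.sum_le_sum fun k _ =>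
      Finset.card_biUnion_le.trans (Finset.sum_le_sum fun S _ => Finset.card_biUnion_le)))
    have h4 : (((Finset.univ.filter fun v : V =>
        ∃ S : Finset V, v ∈ S ∧ S.card ≤ M ∧ S.card ≤ (Sw798.eIn G S).card).card : ℕ) : ℝ) ≤
        ∑ k ∈ Finset.range (M+1), ∑ S ∈ (Finset.univ : Finset V).powersetCard k,
        ∑ F ∈ S.sym2.powersetCard k,
          (((if G ∈ Sw798.RegF V d F then S else ∅ : Finset V).card : ℕ) : ℝ) := by
      exact_mod_cast h3
    refine h4.trans ?_
    refine Finset.sum_le_sum fun k hk => Finset.sum_le_sum fun S hS => Finset.sum_le_sum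
      fun F hF => ?_
    split_ifs
    · have hk' : k ≤ M := by simpa [Nat.lt_succ_iff] using hk
      have := (Finset.mem_powersetCard.1 hS).2
      exact_mod_cast (this.le.trans hk')
    · simp
  calc _ ≤ ∑ G ∈ Sw798.Reg V d, ∑ k ∈ Finset.range (M+1),
        ∑ S ∈ (Finset.univ : Finset V).powersetCard k,
        ∑ F ∈ S.sym2.powersetCard k, (if G ∈ Sw798.RegF V d F then (M : ℝ) else 0) :=
        Finset.sum_le_sum h1
    _ = ∑ k ∈ Finset.range (M+1), ∑ S ∈ (Finset.univ : Finset V).powersetCard k,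
        ∑ F ∈ S.sym2.powersetCard k, ∑ G ∈ Sw798.Reg V d,
          (if G ∈ Sw798.RegF V d F then (M : ℝ) else 0) := by
        rw [Finset.sum_comm]
        refine Finset.sum_congr rfl fun k _ => ?_
        rw [Finset.sum_comm]
        refine Finset.sum_congr rfl fun S _ => ?_
        rw [Finset.sum_comm]
    _ ≤ ∑ k ∈ Finset.range (M+1), ∑ S ∈ (Finset.univ : Finset V).powersetCard k,
        ∑ F ∈ S.sym2.powersetCard k,
          (M : ℝ) * ((C / Fintype.card V) ^ k * (Sw798.Reg V d).card) := by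
        refine Finset.sum_le_sum fun k hk => Finset.sum_le_sum fun S hS => Finset.sum_le_sum
          fun F hF => ?_
        have hk' : k ≤ M := by simpa [Nat.lt_succ_iff] using hk
        have hF2 := (Finset.mem_powersetCard.1 hF).2
        have h5 := Sw798.card_RegF_le (V := V) hd M F (by omega)
        rw [hF2] at h5
        have h6 : ∑ G ∈ Sw798.Reg V d, (if G ∈ Sw798.RegF V d F then (M : ℝ) else 0) ≤
            (Sw798.RegF V d F).card * M := by
          rw [← Finset.sum_filter, Finset.sum_const, nsmul_eq_mul]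
          gcongr
          intro G hG
          exact (Finset.mem_filter.1 hG).2
        calc _ ≤ _ := h6
          _ ≤ ((C / Fintype.card V) ^ k * (Sw798.Reg V d).card) * M := by gcongr
          _ = _ := by ring
    _ ≤ ∑ k ∈ Finset.range (M+1), ((M : ℝ) * (2 ^ ((M + 1) ^ 2) * C ^ M)) *
          (Sw798.Reg V d).card := by
        refine Finset.sum_le_sum fun k hk => ?_
        have hk' : k ≤ M := by simpa [Nat.lt_succ_iff] using hk
        calc _ ≤ ∑ S ∈ (Finset.univ : Finset V).powersetCard k, (2 ^ ((M + 1) ^ 2) : ℝ) *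
              ((M : ℝ) * ((C / Fintype.card V) ^ k * (Sw798.Reg V d).card)) := by
              refine Finset.sum_le_sum fun S hS => ?_
              have hScard : S.card = k := (Finset.mem_powersetCard.1 hS).2
              rw [Finset.sum_const, nsmul_eq_mul]
              gcongr
              have h7 : (S.sym2.powersetCard k).card ≤ 2 ^ ((M + 1) ^ 2) := by
                rw [Finset.card_powersetCard]
                refine (Nat.choose_le_two_pow _ _).trans ?_
                apply Nat.pow_le_pow_right (by norm_num)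
                rw [Finset.card_sym2, hScard]
                calc (k + 1).choose 2 ≤ (M + 1).choose 2 := Nat.choose_le_choose 2 (by omega)
                  _ = (M + 1) * M / 2 := by rw [Nat.choose_two_right]; simp
                  _ ≤ (M + 1) * M := Nat.div_le_self _ _
                  _ ≤ (M + 1) ^ 2 := by nlinarith
              exact_mod_cast h7
          _ = (((Finset.univ : Finset V).powersetCard k).card : ℝ) * ((2 ^ ((M + 1) ^ 2) : ℝ) *
              ((M : ℝ) * ((C / Fintype.card V) ^ k * (Sw798.Reg V d).card))) := by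
              rw [Finset.sum_const, nsmul_eq_mul]
          _ ≤ ((Fintype.card V : ℝ) ^ k) * ((2 ^ ((M + 1) ^ 2) : ℝ) *
              ((M : ℝ) * ((C / Fintype.card V) ^ k * (Sw798.Reg V d).card))) := by
              gcongr
              rw [Finset.card_powersetCard, Finset.card_univ]
              exact_mod_cast Nat.choose_le_pow _ _
          _ = (M : ℝ) * (2 ^ ((M + 1) ^ 2) * C ^ k) * (Sw798.Reg V d).card := by
              rw [div_pow]
              field_simp
          _ ≤ _ := by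
              gcongr
    _ = CE d M * (Sw798.Reg V d).card := by
        rw [Finset.sum_const, nsmul_eq_mul, Finset.card_range, CE]
        push_cast
        rw [← hC]
        ring

/-- expected number of exceptional vertices -/
theorem sum_card_EL_le {d : ℕ} (hd : 1 ≤ d) (L : ℕ) :
    (∑ G ∈ Sw798.Reg V d, ((Finset.univ.filter fun v : V => EL G L v).card : ℝ)) ≤
      CE d ((d+1)^L) * (Sw798.Reg V d).card := by
  refine le_trans (Finset.sum_le_sum fun G hG => ?_) (sum_card_small_le (V := V) hd ((d+1)^L))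
  have : (Finset.univ.filter fun v : V => EL G L v) ⊆ (Finset.univ.filter fun v : V =>
      ∃ S : Finset V, v ∈ S ∧ S.card ≤ (d+1)^L ∧ S.card ≤ (Sw798.eIn G S).card) := by
    intro v hv
    rw [Finset.mem_filter] at hv ⊢
    refine ⟨hv.1, bl G v L, self_mem_bl, card_bl_le (mem_Reg_iff.1 hG) v L, ?_⟩
    have := hv.2
    unfold EL eIn at this
    rwa [edIn_eq] at this
  exact_mod_cast Finset.card_le_card this

end

end Crest.Agent.R166.Exc501
end

-- ▼ part R166/CleanOut_501
section

/-!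
Row 166, section 31 (helper501): outputs of the clean case, part 1: from the tail bound on tree-like
vertices (`UI0`) to the full uniform integrability (`UIf`) and `NoEsc d 0 E`.
-/

set_option autoImplicit false

namespace Crest.Agent.R166.Out501

open Finset Classical MeasureTheory Crest.ProbabilityR.RandomMatrix Crest.Agent.R166
open Crest.Agent.R166.Exc501 (bl nb EL NM)

noncomputable section

/-- "the fraction of regular graphs violating `Q` is at most `ε`". -/
def FracLe (n d : ℕ) (ε : ℝ) (Q : SimpleGraph (Fin n) → Prop) : Prop :=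
  (((regularGraphs n d).filter fun G => ¬ Q G).card : ℝ) ≤ ε * (regularGraphs n d).card

lemma FracLe.mono {n d : ℕ} {ε ε' : ℝ} {Q Q' : SimpleGraph (Fin n) → Prop}
    (h : FracLe n d ε Q) (hε : ε ≤ ε') (hQ : ∀ G ∈ regularGraphs n d, Q G → Q' G) :
    FracLe n d ε' Q' := by
  unfold FracLe at *
  calc (((regularGraphs n d).filter fun G => ¬ Q' G).card : ℝ) ≤
        (((regularGraphs n d).filter fun G => ¬ Q G).card : ℝ) := by
        exact_mod_cast Finset.card_le_card (by
          intro G hG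
          rw [Finset.mem_filter] at hG ⊢
          exact ⟨hG.1, fun h' => hG.2 (hQ G hG.1 h')⟩)
    _ ≤ ε * (regularGraphs n d).card := h
    _ ≤ ε' * (regularGraphs n d).card := by gcongr

lemma FracLe.and_of {n d : ℕ} {ε ε' : ℝ} {Q Q' Q'' : SimpleGraph (Fin n) → Prop}
    (h : FracLe n d ε Q) (h' : FracLe n d ε' Q') (hQ : ∀ G ∈ regularGraphs n d, Q G → Q' G → Q'' G) :
    FracLe n d (ε + ε') Q'' := by
  unfold FracLe at *
  have hsub : ((regularGraphs n d).filter fun G => ¬ Q'' G) ⊆
      ((regularGraphs n d).filter fun G => ¬ Q G) ∪ ((regularGraphs n d).filter fun G => ¬ Q' G) := by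
    intro G hG
    rw [Finset.mem_filter] at hG
    rw [Finset.mem_union, Finset.mem_filter, Finset.mem_filter]
    by_cases hq : Q G
    · exact Or.inr ⟨hG.1, fun hq' => hG.2 (hQ G hG.1 hq hq')⟩
    · exact Or.inl ⟨hG.1, hq⟩
  have h1 : (((regularGraphs n d).filter fun G => ¬ Q'' G).card : ℝ) ≤
      (((regularGraphs n d).filter fun G => ¬ Q G).card : ℝ) +
      (((regularGraphs n d).filter fun G => ¬ Q' G).card : ℝ) := by
    exact_mod_cast (Finset.card_le_card hsub).trans (Finset.card_union_le _ _)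
  refine h1.trans ?_
  rw [add_mul]
  exact add_le_add h h'

lemma FracLe.and {n d : ℕ} {ε ε' : ℝ} {Q Q' : SimpleGraph (Fin n) → Prop}
    (h : FracLe n d ε Q) (h' : FracLe n d ε' Q') : FracLe n d (ε + ε') (fun G => Q G ∧ Q' G) :=
  h.and_of h' fun _ _ h1 h2 => ⟨h1, h2⟩

/-- Markov inequality for graph functionals -/
lemma fracLe_of_sum_le {n d : ℕ} {C T : ℝ} (hT : 0 < T) (f : SimpleGraph (Fin n) → ℝ)
    (hf : ∀ G, 0 ≤ f G)
    (h : ∑ G ∈ regularGraphs n d, f G ≤ C * (regularGraphs n d).card) :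
    FracLe n d (C / T) (fun G => f G ≤ T) := by
  unfold FracLe
  have h1 : (((regularGraphs n d).filter fun G => ¬ (f G ≤ T)).card : ℝ) * T ≤
      ∑ G ∈ regularGraphs n d, f G := by
    calc (((regularGraphs n d).filter fun G => ¬ (f G ≤ T)).card : ℝ) * T
        = ∑ _G ∈ (regularGraphs n d).filter fun G => ¬ (f G ≤ T), T := by
          rw [Finset.sum_const, nsmul_eq_mul]
      _ ≤ ∑ G ∈ (regularGraphs n d).filter fun G => ¬ (f G ≤ T), f G := by
          refine Finset.sum_le_sum fun G hG => ?_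
          rw [Finset.mem_filter] at hG
          exact (not_le.1 hG.2).le
      _ ≤ ∑ G ∈ regularGraphs n d, f G :=
          Finset.sum_le_sum_of_subset_of_nonneg (Finset.filter_subset _ _) fun G _ _ => hf G
  rw [div_mul_eq_mul_div, le_div_iff₀ hT]
  linarith

/-- from fractions of graphs to `Whp`. -/
theorem whp_of_fracLe {n d : ℕ} {ε : ℝ} (hne : (regularGraphs n d).Nonempty)
    {Q : SimpleGraph (Fin n) → Prop} {P : SimpleGraph (Fin n) → (Fin n → ℝ) → Prop}
    (h : FracLe n d ε Q) (hQP : ∀ G ∈ regularGraphs n d, Q G → ∀ ω, P G ω) : Whp n d ε P := by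
  unfold Whp law
  have hcard : (0 : ℝ) < (regularGraphs n d).card := by exact_mod_cast Finset.card_pos.2 hne
  -- bad graphs
  have hsub : {x : SimpleGraph (Fin n) × (Fin n → ℝ) | ¬ P x.1 x.2} ⊆
      {G | G ∉ regularGraphs n d ∨ ¬ Q G} ×ˢ (Set.univ : Set (Fin n → ℝ)) := by
    intro x hx
    rw [Set.mem_prod]
    refine ⟨?_, Set.mem_univ _⟩
    by_contra hcon
    simp only [Set.mem_ofPred_eq, not_or, not_not] at hcon
    exact hx (hQP x.1 hcon.1 hcon.2 x.2)
  refine (measure_mono hsub).trans ?_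
  rw [Measure.prod_prod, measure_univ, mul_one]
  unfold gLaw
  rw [Measure.smul_apply, Measure.finsetSum_apply, smul_eq_mul]
  have h1 : ∑ G ∈ regularGraphs n d,
      (Measure.dirac G) {G : SimpleGraph (Fin n) | G ∉ regularGraphs n d ∨ ¬ Q G} =
      (((regularGraphs n d).filter fun G => ¬ Q G).card : ENNReal) := by
    rw [Finset.card_filter]
    push_cast
    refine Finset.sum_congr rfl fun G hG => ?_
    rw [Measure.dirac_apply]
    by_cases hq : Q G
    · simp [hq, hG]
    · simp [hq]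
  rw [h1]
  have h2 : (((regularGraphs n d).card : ENNReal))⁻¹ *
      (((regularGraphs n d).filter fun G => ¬ Q G).card : ENNReal) =
      ENNReal.ofReal ((((regularGraphs n d).filter fun G => ¬ Q G).card : ℝ) /
        (regularGraphs n d).card) := by
    rw [ENNReal.ofReal_div_of_pos hcard, ENNReal.ofReal_natCast, ENNReal.ofReal_natCast,
      ENNReal.div_eq_inv_mul]
  rw [h2]
  apply ENNReal.ofReal_le_ofReal
  rw [div_le_iff₀ hcard]
  exact h

variable {n : ℕ}

/-- adjacency matrix in the form `Hm G 0 0` -/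
abbrev A0 (G : SimpleGraph (Fin n)) : Matrix (Fin n) (Fin n) ℝ := Hm G 0 (fun _ => 0)

lemma Hm_zero (G : SimpleGraph (Fin n)) (ω : Fin n → ℝ) : Hm G 0 ω = A0 G := by
  unfold A0 Hm
  simp

lemma A0_apply (G : SimpleGraph (Fin n)) (x y : Fin n) :
    A0 G x y = (if G.Adj x y then 1 else 0) + (if x = y then (0 : ℝ) else 0) := by
  unfold A0 Hm
  simp [SimpleGraph.adjMatrix_apply]

lemma A0_symm (G : SimpleGraph (Fin n)) : (A0 G).transpose = A0 G := by
  ext x y
  rw [Matrix.transpose_apply, A0_apply, A0_apply]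
  simp [G.adj_comm]

lemma mem_regularGraphs {d : ℕ} {G : SimpleGraph (Fin n)} :
    G ∈ regularGraphs n d ↔ Exc501.Reg G d := by
  unfold regularGraphs Exc501.Reg nb
  rw [Finset.mem_filter]
  simp

lemma zz_im {E K : ℝ} : (zz E K n).im = K / n := by
  simp [zz]

lemma zz_re {E K : ℝ} : (zz E K n).re = E := by
  simp [zz]

/-- tail of the diagonal entries on the tree-like vertices (`¬ EL`). -/
def tailT (G : SimpleGraph (Fin n)) (E K M : ℝ) (L : ℕ) : ℝ :=
  vAvg fun v => if ¬ EL G L v ∧ M < ‖Res (A0 G) (zz E K n) v v‖ then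
    ‖Res (A0 G) (zz E K n) v v‖ else 0

/-- tail of all the diagonal entries. -/
def tailA (G : SimpleGraph (Fin n)) (E K M : ℝ) : ℝ :=
  vAvg fun v => if M < ‖Res (A0 G) (zz E K n) v v‖ then
    ‖Res (A0 G) (zz E K n) v v‖ else 0

/-- output of 31.4. -/
def UI0 (d : ℕ) (E : ℝ) : Prop :=
  ∃ L : ℕ, ∀ κ : ℝ, 0 < κ → ∀ ε : ℝ, 0 < ε → ∃ M : ℝ, ∀ K : ℝ, κ ≤ K → ∃ N : ℕ, ∀ n : ℕ, N ≤ n →
    (regularGraphs n d).Nonempty → FracLe n d ε (fun G => tailT G E K M L ≤ ε)

/-- full uniform integrability, uniformly in `K ≥ κ`. -/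
def UIf (d : ℕ) (E : ℝ) : Prop :=
  ∀ κ : ℝ, 0 < κ → ∀ ε : ℝ, 0 < ε → ∃ M : ℝ, ∀ K : ℝ, κ ≤ K → ∃ N : ℕ, ∀ n : ℕ, N ≤ n →
    (regularGraphs n d).Nonempty → FracLe n d ε (fun G => tailA G E K M ≤ ε)

lemma vAvg_mono {f g : Fin n → ℝ} (h : ∀ v, f v ≤ g v) : vAvg f ≤ vAvg g := by
  unfold vAvg
  exact div_le_div_of_nonneg_right (Finset.sum_le_sum fun v _ => h v) (Nat.cast_nonneg _)

lemma tailT_antitone {G : SimpleGraph (Fin n)} {E K M M' : ℝ} {L : ℕ} (h : M ≤ M') :
    tailT G E K M' L ≤ tailT G E K M L := by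
  unfold tailT
  refine vAvg_mono fun v => ?_
  split_ifs with h1 h2 h2
  · exact le_rfl
  · exact absurd ⟨h1.1, h.trans_lt h1.2⟩ h2
  · positivity
  · exact le_rfl

/-- deterministic step: bound of `‖R_vv‖` at an exceptional vertex. -/
theorem exc_vertex_bound {d L M0 : ℕ} (hd3 : 3 ≤ d) {G : SimpleGraph (Fin n)}
    (hG : G ∈ regularGraphs n d) (hNM : NM G M0) (hM1 : (d+1)^(2*L+1) ≤ M0)
    (hM2 : 2*(d+1)^L + 1 ≤ M0) {E K M ε : ℝ} (hn : 0 < n) (hK : 0 < K) (hM : 0 ≤ M) (hε : 0 ≤ ε)
    (htail : tailT G E K M L ≤ ε) {v : Fin n} (hv : EL G L v) :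
    ‖Res (A0 G) (zz E K n) v v‖ ≤
      (|E| + d + 1)^(2*L+1) * (Real.sqrt ((M + n * ε) / (K / n)) + 2) := by
  have hreg := mem_regularGraphs.1 hG
  have hnR : (0:ℝ) < n := by exact_mod_cast hn
  have hz : 0 < (zz E K n).im := by rw [zz_im]; positivity
  have hB : ∀ w : Fin n, ¬ EL G L w → ‖Res (A0 G) (zz E K n) w w‖ ≤ M + n * ε := by
    intro w hw
    by_cases hlt : M < ‖Res (A0 G) (zz E K n) w w‖
    · have h1 : ‖Res (A0 G) (zz E K n) w w‖ / n ≤ tailT G E K M L := by
        unfold tailT vAvg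
        refine div_le_div_of_nonneg_right ?_ (Nat.cast_nonneg _)
        have h5 := Finset.single_le_sum (s := (Finset.univ : Finset (Fin n))) (f := fun v =>
          if ¬ EL G L v ∧ M < ‖Res (A0 G) (zz E K n) v v‖ then
            ‖Res (A0 G) (zz E K n) v v‖ else 0) (fun v _ => by
              split_ifs <;> positivity) (Finset.mem_univ w)
        refine le_trans (le_of_eq ?_) h5
        rw [if_pos ⟨hw, hlt⟩]
      have h2 := h1.trans htail
      rw [div_le_iff₀ hnR] at h2
      linarith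
    · have : 0 ≤ n * ε := by positivity
      linarith [not_lt.1 hlt]
  have key := Exc501.res_center_le (v := v) (r := 2*L) hreg hd3 hM1 hNM
    (H := A0 G) (q := fun _ => 0) (fun x y => A0_apply G x y) hz (E0 := |E|) (B := M + n * ε)
    (by intro x; simp [zz_re]) (by
      intro w hw hw'
      have hwn : ¬ EL G L w := Exc501.not_EL_of_annulus hreg hM2 hNM hv
        (by simpa using hw) hw'
      exact (Complex.im_le_norm _).trans (hB w hwn))
  rw [zz_im] at key
  exact key

/-- number of exceptional vertices -/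
def nExc (G : SimpleGraph (Fin n)) (L : ℕ) : ℝ := ((Finset.univ.filter fun v => EL G L v).card : ℝ)

theorem uif_of_ui0 {d : ℕ} (hd3 : 3 ≤ d) {E : ℝ} (h : UI0 d E) : UIf d E := by
  obtain ⟨L, hL⟩ := h
  intro κ hκ ε hε
  set M0 : ℕ := (d+1)^(2*L+1) + (2*(d+1)^L + 1) with hM0
  -- bound on the number of exceptional vertices
  set CEE : ℝ := Exc501.CE d ((d+1)^L) with hCEE
  have hCE0 : 0 ≤ CEE := by rw [hCEE]; unfold Exc501.CE; positivity
  set T : ℝ := 4 * (CEE + 1) / ε with hT
  have hT0 : 0 < T := by rw [hT]; positivity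
  set C : ℝ := (|E| + d + 1)^(2*L+1) with hC
  have hC0 : 0 < C := by rw [hC]; positivity
  -- choice of ε1
  set x : ℝ := ε / (8 * T * C) with hx
  have hx0 : 0 < x := by rw [hx]; positivity
  set ε1 : ℝ := min (ε / 4) (κ * x ^ 2 / 2) with hε1
  have hε1' : 0 < ε1 := by rw [hε1]; positivity
  obtain ⟨M, hM⟩ := hL κ hκ ε1 hε1'
  refine ⟨max M 0, fun K hK => ?_⟩
  obtain ⟨N1, hN1⟩ := hM K hK
  -- thresholds on n
  obtain ⟨N2, hN2⟩ := exists_nat_ge (4 * Sw798.CM d M0 / ε)
  obtain ⟨N3, hN3⟩ := exists_nat_ge (2 * (max M 0) / (κ * x ^ 2))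
  obtain ⟨N4, hN4⟩ := exists_nat_ge (16 * T * C / ε)
  refine ⟨max (max N1 N2) (max (max N3 N4) 1), fun n hn hne => ?_⟩
  have hn1 : N1 ≤ n := le_trans (le_max_left _ _) (le_trans (le_max_left _ _) hn)
  have hn2 : N2 ≤ n := le_trans (le_max_right _ _) (le_trans (le_max_left _ _) hn)
  have hn3 : N3 ≤ n := le_trans (le_max_left _ _) (le_trans (le_max_left _ _)
    (le_trans (le_max_right _ _) hn))
  have hn4 : N4 ≤ n := le_trans (le_max_right _ _) (le_trans (le_max_left _ _)
    (le_trans (le_max_right _ _) hn))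
  have hn5 : 1 ≤ n := le_trans (le_max_right _ _) (le_trans (le_max_right _ _) hn)
  have hnR : (0:ℝ) < n := by exact_mod_cast hn5
  have hKpos : 0 < K := hκ.trans_le hK
  have f1 := hN1 n hn1 hne
  have f2 : FracLe n d (ε / 4) (fun G => NM G M0) := by
    unfold FracLe
    have h1 := Exc501.card_not_NM_le (V := Fin n) (d := d) (by omega) M0
    rw [← Sw798.regularGraphs_eq] at h1
    refine h1.trans ?_
    refine mul_le_mul_of_nonneg_right ?_ (Nat.cast_nonneg _)
    rw [Fintype.card_fin, div_le_iff₀ hnR]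
    have h2 : 4 * Sw798.CM d M0 / ε ≤ n := hN2.trans (by exact_mod_cast hn2)
    rw [div_le_iff₀ hε] at h2
    linarith
  have f3 : FracLe n d (ε / 4) (fun G => nExc G L ≤ T) := by
    have h1 := Exc501.sum_card_EL_le (V := Fin n) (d := d) (by omega) L
    rw [← Sw798.regularGraphs_eq] at h1
    have h2 := fracLe_of_sum_le (n := n) (d := d) (C := CEE) hT0 (fun G => nExc G L)
      (fun G => Nat.cast_nonneg _) h1
    refine h2.mono ?_ (fun _ _ h => h)
    rw [hT]
    rw [div_div_eq_mul_div, div_le_div_iff₀ (by positivity) (by norm_num)]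
    nlinarith
  refine ((f1.and f2).and f3).mono ?_ ?_
  · have : ε1 ≤ ε / 4 := min_le_left _ _
    linarith
  · rintro G hG ⟨⟨h1, h2⟩, h3⟩
    have h1' : tailT G E K (max M 0) L ≤ ε1 := (tailT_antitone (le_max_left _ _)).trans h1
    have hbd : ∀ v, EL G L v → ‖Res (A0 G) (zz E K n) v v‖ ≤
        C * (Real.sqrt ((max M 0 + n * ε1) / (K / n)) + 2) := by
      intro v hv
      exact exc_vertex_bound hd3 hG h2 (by omega) (by omega) (by omega) hKpos
        (le_max_right _ _) hε1'.le h1' hv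
    -- the square root
    have hsq : Real.sqrt ((max M 0 + n * ε1) / (K / n)) ≤ n * x := by
      apply Real.sqrt_le_iff.2
      refine ⟨by positivity, ?_⟩
      rw [div_le_iff₀ (by positivity)]
      have e1 : max M 0 ≤ n * (κ * x ^ 2 / 2) := by
        have : 2 * (max M 0) / (κ * x ^ 2) ≤ n := hN3.trans (by exact_mod_cast hn3)
        rw [div_le_iff₀ (by positivity)] at this
        linarith
      have e2 : ε1 ≤ κ * x ^ 2 / 2 := min_le_right _ _
      have e3 : (n:ℝ) * ε1 ≤ n * (κ * x ^ 2 / 2) := by gcongr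
      calc max M 0 + n * ε1 ≤ n * (κ * x ^ 2) := by linarith
        _ ≤ n * (K * x ^ 2) := by gcongr
        _ = (n * x) ^ 2 * (K / n) := by field_simp
    have hsplit : tailA G E K (max M 0) ≤ tailT G E K (max M 0) L +
        nExc G L * (C * (n * x + 2)) / n := by
      unfold tailA tailT vAvg nExc
      rw [← add_div]
      gcongr
      rw [Finset.card_filter]
      push_cast
      rw [Finset.sum_mul, ← Finset.sum_add_distrib]
      refine Finset.sum_le_sum fun v _ => ?_
      by_cases hv : EL G L v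
      · have hb := hbd v hv
        have hb2 : ‖Res (A0 G) (zz E K n) v v‖ ≤ C * (n * x + 2) := hb.trans (by gcongr)
        have hb3 : 0 ≤ C * (n * x + 2) := by positivity
        simp only [hv, not_true_eq_false, false_and, if_false, if_true, one_mul, zero_add]
        split_ifs
        · exact hb2
        · exact hb3
      · simp [hv]
    have hfin : nExc G L * (C * (n * x + 2)) / n ≤ ε / 4 := by
      have e1 : nExc G L * (C * (n * x + 2)) ≤ T * (C * (n * x + 2)) := by gcongr
      have e2 : T * (C * (n * x)) = n * (ε / 8) := by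
        rw [hx]; field_simp
      have e3 : T * (C * 2) ≤ n * (ε / 8) := by
        have : 16 * T * C / ε ≤ n := hN4.trans (by exact_mod_cast hn4)
        rw [div_le_iff₀ hε] at this
        linarith
      rw [div_le_iff₀ hnR]
      calc nExc G L * (C * (n * x + 2)) ≤ T * (C * (n * x + 2)) := e1
        _ = T * (C * (n * x)) + T * (C * 2) := by ring
        _ ≤ ε / 4 * n := by linarith
    have : ε1 ≤ ε / 4 := min_le_left _ _
    linarith

/-- no mass escape in the clean case. -/
theorem noEsc_of_uif {d : ℕ} {E : ℝ} (h : UIf d E) : NoEsc d 0 E := by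
  intro K hK ε hε
  obtain ⟨M, hM⟩ := h K hK ε hε
  obtain ⟨N, hN⟩ := hM K le_rfl
  refine ⟨M, max N 1, fun n hn hne => ?_⟩
  have hnN : N ≤ n := le_trans (le_max_left _ _) hn
  have hn1 : 1 ≤ n := le_trans (le_max_right _ _) hn
  have hnR : (0:ℝ) < n := by exact_mod_cast hn1
  refine whp_of_fracLe hne (hN n hnN hne) ?_
  intro G _ hQ ω
  rw [Hm_zero]
  refine le_trans ?_ hQ
  unfold tailA
  refine vAvg_mono fun v => ?_
  have h1 : (Res (A0 G) (zz E K n) v v).im ≤ ‖Res (A0 G) (zz E K n) v v‖ := Complex.im_le_norm _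
  split_ifs with h2 h3 h3
  · exact h1
  · exact absurd (h2.trans_le h1) h3
  · positivity
  · exact le_rfl

end

end Crest.Agent.R166.Out501
end

-- ▼ part R166/CleanOut2_501

/-!
Row 166, section 31 (helper501): outputs of the clean case, part 2: `LocLim`, `NearClean`, `NonDeg`,
`ImFix`, `ImLim` for `s = 0` from the block law `BlkLaw0` (= Theorem A at `s = 0`), the full uniform
integrability `UIf` and the facts on the clean block.
-/

set_option autoImplicit false

namespace Crest.Agent.R166.Out501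

open Finset Classical MeasureTheory Crest.ProbabilityR.RandomMatrix Crest.Agent.R166
open Crest.Agent.R166.Exc501 (bl nb EL NM)

noncomputable section

lemma bnorm_nonneg (A : Matrix (Fin 2) (Fin 2) ℂ) : 0 ≤ bnorm A :=
  le_trans (norm_nonneg (A 0 0)) (le_trans (le_max_left _ _) (le_max_left _ _))

lemma entry_le_bnorm (A : Matrix (Fin 2) (Fin 2) ℂ) (i j : Fin 2) : ‖A i j‖ ≤ bnorm A := by
  unfold bnorm
  fin_cases i <;> fin_cases j
  · exact le_trans (le_max_left _ _) (le_max_left _ _)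
  · exact le_trans (le_max_right _ _) (le_max_left _ _)
  · exact le_trans (le_max_left _ _) (le_max_right _ _)
  · exact le_trans (le_max_right _ _) (le_max_right _ _)

lemma bnorm_le {A : Matrix (Fin 2) (Fin 2) ℂ} {c : ℝ} (h : ∀ i j, ‖A i j‖ ≤ c) : bnorm A ≤ c :=
  max_le (max_le (h _ _) (h _ _)) (max_le (h _ _) (h _ _))

lemma bnorm_add_le (A B : Matrix (Fin 2) (Fin 2) ℂ) : bnorm (A + B) ≤ bnorm A + bnorm B :=
  bnorm_le fun i j => (norm_add_le _ _).trans (add_le_add (entry_le_bnorm A i j)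
    (entry_le_bnorm B i j))

lemma bnorm_neg (A : Matrix (Fin 2) (Fin 2) ℂ) : bnorm (-A) = bnorm A := by
  unfold bnorm
  simp

lemma bnorm_sub_comm (A B : Matrix (Fin 2) (Fin 2) ℂ) : bnorm (A - B) = bnorm (B - A) := by
  rw [← bnorm_neg, neg_sub]

lemma bnorm_tri (A B C : Matrix (Fin 2) (Fin 2) ℂ) : bnorm (A - C) ≤ bnorm (A - B) + bnorm (B - C) := by
  have : A - C = (A - B) + (B - C) := by abel
  rw [this]; exact bnorm_add_le _ _

variable {n : ℕ}

lemma eAvg_mono {G : SimpleGraph (Fin n)} {f g : Fin n → Fin n → ℝ} (h : ∀ u w, f u w ≤ g u w) :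
    eAvg G f ≤ eAvg G g := by
  unfold eAvg
  exact div_le_div_of_nonneg_right (Finset.sum_le_sum fun v _ => h _ _) (Nat.cast_nonneg _)

lemma eAvg_add {G : SimpleGraph (Fin n)} (f g : Fin n → Fin n → ℝ) :
    eAvg G (fun u w => f u w + g u w) = eAvg G f + eAvg G g := by
  unfold eAvg
  rw [Finset.sum_add_distrib, add_div]

lemma eAvg_const_mul {G : SimpleGraph (Fin n)} (c : ℝ) (f : Fin n → Fin n → ℝ) :
    eAvg G (fun u w => c * f u w) = c * eAvg G f := by
  unfold eAvg
  rw [← Finset.mul_sum, mul_div_assoc]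

lemma eAvg_const_le {G : SimpleGraph (Fin n)} {c : ℝ} (hc : 0 ≤ c) :
    eAvg G (fun _ _ => c) ≤ c := by
  unfold eAvg
  rw [Finset.sum_const, nsmul_eq_mul]
  rcases Nat.eq_zero_or_pos (darts G).card with h | h
  · rw [h]; simpa using hc
  · have : (0:ℝ) < (darts G).card := by exact_mod_cast h
    rw [mul_div_assoc, mul_div_cancel₀]
    exact this.ne'

/-- indicator that the block is far from `B` -/
def farI (r : ℝ) (B A : Matrix (Fin 2) (Fin 2) ℂ) : ℝ := if bnorm (A - B) ≤ r then 0 else 1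

lemma farI_nonneg (r : ℝ) (B A : Matrix (Fin 2) (Fin 2) ℂ) : 0 ≤ farI r B A := by
  unfold farI; split_ifs <;> norm_num


lemma farI_mono {r r' : ℝ} {B B' A : Matrix (Fin 2) (Fin 2) ℂ} (h : r + bnorm (B - B') ≤ r') :
    farI r' B' A ≤ farI r B A := by
  unfold farI
  split_ifs with h1 h2 h2
  · exact le_rfl
  · norm_num
  · exfalso
    exact h1 ((bnorm_tri A B B').trans (by linarith))
  · exact le_rfl

/-- **Block law, clean case** (= Theorem A at `s = 0`). -/
def BlkLaw0 (d : ℕ) (E : ℝ) : Prop :=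
  ∀ δ : ℝ, 0 < δ → ∃ K0 : ℝ, 0 < K0 ∧ ∃ N : ℕ, ∀ n : ℕ, N ≤ n →
    (regularGraphs n d).Nonempty → FracLe n d δ (fun G => ∀ η : ℝ, K0 / n ≤ η → η ≤ 1 →
      eAvg G (fun u w => farI δ (Bclean d (ze E η)) (Blk (Res (A0 G) (ze E η)) u w)) ≤ δ)

/-- facts on the clean block -/
structure CleanFacts (d : ℕ) (E ρ : ℝ) : Prop where
  cont : ∀ δ : ℝ, 0 < δ → ∃ η0 : ℝ, 0 < η0 ∧ ∀ η : ℝ, 0 < η → η ≤ η0 →
    bnorm (Bclean d (ze E η) - Bclean d (E : ℂ)) ≤ δ
  im : (Bclean d (E : ℂ) 0 0).im = Real.pi * ρ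
  pd : ∃ c : ℝ, 0 < c ∧ ∀ x : Fin 2 → ℝ, c * (x 0 ^ 2 + x 1 ^ 2) ≤
    ∑ a, ∑ b, x a * (Bclean d (E : ℂ) a b).im * x b

theorem locLim_clean {d : ℕ} {E ρ : ℝ} (hB : BlkLaw0 d E) (hC : CleanFacts d E ρ) :
    LocLim d 0 E := by
  intro ε hε
  set δ : ℝ := ε / 8 with hδ
  have hδ0 : 0 < δ := by positivity
  obtain ⟨η1, hη1, hcont⟩ := hC.cont δ hδ0
  obtain ⟨K0, hK0, N0, hN0⟩ := hB δ hδ0
  refine ⟨min η1 1, by positivity, K0, hK0, fun η hη hηle K hK => ?_⟩
  obtain ⟨N1, hN1⟩ := exists_nat_ge (K0 / η)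
  obtain ⟨N2, hN2⟩ := exists_nat_ge (K / min η1 1)
  refine ⟨max (max N0 N1) (max N2 1), fun n hn hne => ?_⟩
  have hn0 : N0 ≤ n := le_trans (le_max_left _ _) (le_trans (le_max_left _ _) hn)
  have hn1 : N1 ≤ n := le_trans (le_max_right _ _) (le_trans (le_max_left _ _) hn)
  have hn2 : N2 ≤ n := le_trans (le_max_left _ _) (le_trans (le_max_right _ _) hn)
  have hn3 : 1 ≤ n := le_trans (le_max_right _ _) (le_trans (le_max_right _ _) hn)
  have hnR : (0:ℝ) < n := by exact_mod_cast hn3
  have hδε : δ ≤ ε := by rw [hδ]; linarith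
  refine whp_of_fracLe hne ((hN0 n hn0 hne).mono hδε fun _ _ h => h) ?_
  intro G _ hG ω
  rw [Hm_zero]
  have hmin : 0 < min η1 1 := by positivity
  have hKpos : 0 < K := hK0.trans_le hK
  have hKn : K / n ≤ min η1 1 := by
    have : K / min η1 1 ≤ n := hN2.trans (by exact_mod_cast hn2)
    rw [div_le_iff₀ hmin] at this
    rw [div_le_iff₀ hnR]
    linarith
  have hKn0 : 0 < K / n := by positivity
  have hη' : K0 / n ≤ η := by
    have : K0 / η ≤ n := hN1.trans (by exact_mod_cast hn1)
    rw [div_le_iff₀ hη] at this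
    rw [div_le_iff₀ hnR]
    linarith
  have a1 := hG (K / n) (by gcongr) (hKn.trans (min_le_right _ _))
  have a2 := hG η hη' (hηle.trans (min_le_right _ _))
  have c1 := hcont (K / n) hKn0 (hKn.trans (min_le_left _ _))
  have c2 := hcont η hη (hηle.trans (min_le_left _ _))
  have hmain : eAvg G (fun u w => min 1 (bnorm (Blk (Res (A0 G) (zz E K n)) u w -
        Blk (Res (A0 G) (ze E η)) u w))) ≤
      eAvg G (fun u w => (farI δ (Bclean d (ze E (K / n))) (Blk (Res (A0 G) (ze E (K / n))) u w) +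
        farI δ (Bclean d (ze E η)) (Blk (Res (A0 G) (ze E η)) u w)) + 4 * δ) := by
    refine eAvg_mono fun u w => ?_
    have hzz : zz E K n = ze E (K / n) := rfl
    rw [hzz]
    set A1 := Blk (Res (A0 G) (ze E (K / n))) u w with hA1
    set A2 := Blk (Res (A0 G) (ze E η)) u w with hA2
    by_cases h1 : bnorm (A1 - Bclean d (ze E (K / n))) ≤ δ
    · by_cases h2 : bnorm (A2 - Bclean d (ze E η)) ≤ δ
      · have t1 := bnorm_tri A1 (Bclean d (ze E (K / n))) A2
        have t2 := bnorm_tri (Bclean d (ze E (K / n))) (Bclean d (E : ℂ)) A2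
        have t3 := bnorm_tri (Bclean d (E : ℂ)) (Bclean d (ze E η)) A2
        rw [bnorm_sub_comm (Bclean d (E : ℂ)) (Bclean d (ze E η))] at t3
        rw [bnorm_sub_comm (Bclean d (ze E η)) A2] at t3
        have t4 := farI_nonneg δ (Bclean d (ze E (K / n))) A1
        have t5 := farI_nonneg δ (Bclean d (ze E η)) A2
        exact (min_le_right _ _).trans (by linarith)
      · have t4 := farI_nonneg δ (Bclean d (ze E (K / n))) A1
        have t5 : farI δ (Bclean d (ze E η)) A2 = 1 := by unfold farI; rw [if_neg h2]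
        exact (min_le_left _ _).trans (by linarith)
    · have t4 : farI δ (Bclean d (ze E (K / n))) A1 = 1 := by unfold farI; rw [if_neg h1]
      have t5 := farI_nonneg δ (Bclean d (ze E η)) A2
      exact (min_le_left _ _).trans (by linarith)
  refine hmain.trans ?_
  rw [eAvg_add, eAvg_add]
  have h4 : eAvg G (fun _ _ => 4 * δ) ≤ 4 * δ := eAvg_const_le (by positivity)
  have : δ + δ + 4 * δ ≤ ε := by rw [hδ]; linarith
  linarith

theorem nearClean_clean {d : ℕ} {E ρ : ℝ} (hB : BlkLaw0 d E) (hC : CleanFacts d E ρ) {r : ℝ}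
    (hr : 0 < r) : NearClean d 0 E r := by
  set δ : ℝ := min (1/4) (r/2) with hδ
  have hδ0 : 0 < δ := by positivity
  obtain ⟨η1, hη1, hcont⟩ := hC.cont δ hδ0
  obtain ⟨K0, hK0, N0, hN0⟩ := hB δ hδ0
  refine ⟨min η1 1, by positivity, fun η hη hηle => ?_⟩
  obtain ⟨N1, hN1⟩ := exists_nat_ge (K0 / η)
  refine ⟨max (max N0 N1) 1, fun n hn hne => ?_⟩
  have hn0 : N0 ≤ n := le_trans (le_max_left _ _) (le_trans (le_max_left _ _) hn)
  have hn1 : N1 ≤ n := le_trans (le_max_right _ _) (le_trans (le_max_left _ _) hn)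
  have hn3 : 1 ≤ n := le_trans (le_max_right _ _) hn
  have hnR : (0:ℝ) < n := by exact_mod_cast hn3
  refine whp_of_fracLe hne ((hN0 n hn0 hne).mono (min_le_left _ _) fun _ _ h => h) ?_
  intro G _ hG ω
  rw [Hm_zero]
  have hη' : K0 / n ≤ η := by
    have : K0 / η ≤ n := hN1.trans (by exact_mod_cast hn1)
    rw [div_le_iff₀ hη] at this
    rw [div_le_iff₀ hnR]
    linarith
  have a2 := hG η hη' (hηle.trans (min_le_right _ _))
  have c2 := hcont η hη (hηle.trans (min_le_left _ _))
  refine le_trans ?_ (a2.trans (min_le_left _ _))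
  refine eAvg_mono fun u w => ?_
  have h5 : δ ≤ r / 2 := min_le_right _ _
  exact farI_mono (r := δ) (r' := r) (B := Bclean d (ze E η)) (B' := Bclean d (E : ℂ))
    (by linarith)

theorem nonDeg_clean {d : ℕ} {E ρ : ℝ} (hB : BlkLaw0 d E) (hC : CleanFacts d E ρ) :
    NonDeg d 0 E := by
  intro ε hε
  obtain ⟨c, hc, hpd⟩ := hC.pd
  set δ : ℝ := min ε (c/8) with hδ
  have hδ0 : 0 < δ := by positivity
  obtain ⟨η1, hη1, hcont⟩ := hC.cont δ hδ0
  obtain ⟨K0, hK0, N0, hN0⟩ := hB δ hδ0
  refine ⟨c / 2, by positivity, min η1 1, by positivity, fun η hη hηle => ?_⟩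
  obtain ⟨N1, hN1⟩ := exists_nat_ge (K0 / η)
  refine ⟨max (max N0 N1) 1, fun n hn hne => ?_⟩
  have hn0 : N0 ≤ n := le_trans (le_max_left _ _) (le_trans (le_max_left _ _) hn)
  have hn1 : N1 ≤ n := le_trans (le_max_right _ _) (le_trans (le_max_left _ _) hn)
  have hn3 : 1 ≤ n := le_trans (le_max_right _ _) hn
  have hnR : (0:ℝ) < n := by exact_mod_cast hn3
  refine whp_of_fracLe hne ((hN0 n hn0 hne).mono (min_le_left _ _) fun _ _ h => h) ?_
  intro G _ hG ω
  rw [Hm_zero]
  have hη' : K0 / n ≤ η := by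
    have : K0 / η ≤ n := hN1.trans (by exact_mod_cast hn1)
    rw [div_le_iff₀ hη] at this
    rw [div_le_iff₀ hnR]
    linarith
  have a2 := hG η hη' (hηle.trans (min_le_right _ _))
  have c2 := hcont η hη (hηle.trans (min_le_left _ _))
  refine le_trans ?_ (a2.trans (min_le_left _ _))
  refine eAvg_mono fun u w => ?_
  set A := Blk (Res (A0 G) (ze E η)) u w with hA
  unfold farI
  by_cases h1 : bnorm (A - Bclean d (ze E η)) ≤ δ
  · rw [if_pos h1, if_pos]
    intro x
    have hdist : ∀ a b, ‖A a b - Bclean d (E : ℂ) a b‖ ≤ c / 4 := by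
      intro a b
      have h2 : bnorm (A - Bclean d (E : ℂ)) ≤ c / 4 := by
        have h5 : δ ≤ c / 8 := min_le_right _ _
        exact (bnorm_tri A (Bclean d (ze E η)) _).trans (by linarith)
      exact (entry_le_bnorm (A - Bclean d (E : ℂ)) a b).trans h2
    have hterm : ∀ a b, x a * (Bclean d (E : ℂ) a b).im * x b - c / 4 * (|x a| * |x b|) ≤
        x a * (A a b).im * x b := by
      intro a b
      have h3 : |(A a b).im - (Bclean d (E : ℂ) a b).im| ≤ c / 4 := by
        rw [← Complex.sub_im]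
        exact (Complex.abs_im_le_norm _).trans (hdist a b)
      have h4 : |x a * ((A a b).im - (Bclean d (E : ℂ) a b).im) * x b| ≤ c / 4 * (|x a| * |x b|) := by
        rw [abs_mul, abs_mul]
        calc |x a| * |(A a b).im - (Bclean d (E : ℂ) a b).im| * |x b| ≤
              |x a| * (c / 4) * |x b| := by gcongr
          _ = c / 4 * (|x a| * |x b|) := by ring
      have h5 := (abs_le.1 h4).1
      nlinarith
    have hsum := hpd x
    simp only [Fin.sum_univ_two] at hsum ⊢
    have t00 := hterm 0 0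
    have t01 := hterm 0 1
    have t10 := hterm 1 0
    have t11 := hterm 1 1
    have s0 : |x 0| * |x 0| = x 0 ^ 2 := by rw [← pow_two, sq_abs]
    have s1 : |x 1| * |x 1| = x 1 ^ 2 := by rw [← pow_two, sq_abs]
    have s01 : 2 * (|x 0| * |x 1|) ≤ x 0 ^ 2 + x 1 ^ 2 := by
      have := sq_nonneg (|x 0| - |x 1|)
      nlinarith
    nlinarith
  · rw [if_neg h1]
    split_ifs <;> norm_num

/-- vertex averages are edge averages -/
lemma vAvg_eq_eAvg {d : ℕ} (hd : 0 < d) {G : SimpleGraph (Fin n)} (hG : G ∈ regularGraphs n d)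
    (f : Fin n → ℝ) : vAvg f = eAvg G (fun u _ => f u) := by
  have hreg := mem_regularGraphs.1 hG
  have h1 : ∀ f : Fin n → ℝ, ∑ p ∈ darts G, f p.1 = d * ∑ v, f v := by
    intro f
    unfold darts
    rw [Finset.sum_filter, Fintype.sum_prod_type, Finset.mul_sum]
    refine Finset.sum_congr rfl fun v _ => ?_
    simp only
    rw [← Finset.sum_filter, Finset.sum_const, nsmul_eq_mul]
    congr 1
    have := hreg v
    unfold nb at this
    rw [← this]
  have h2 : ((darts G).card : ℝ) = d * n := by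
    have := h1 (fun _ => 1)
    simpa using this
  unfold vAvg eAvg
  rw [h1, h2, mul_div_mul_left]
  exact_mod_cast hd.ne'

lemma mn_im {G : SimpleGraph (Fin n)} {z : ℂ} :
    (mn (A0 G) z).im = vAvg (fun v => (Res (A0 G) z v v).im) := by
  unfold mn vAvg Matrix.trace
  rw [Complex.div_natCast_im, Complex.im_sum]
  rfl

/-- general estimate of the imaginary part of the trace -/
lemma im_estimate {d : ℕ} (hd : 0 < d) {G : SimpleGraph (Fin n)} (hG : G ∈ regularGraphs n d)
    {E ρ η δ δ' M t : ℝ} (hC : (Bclean d (E : ℂ) 0 0).im = Real.pi * ρ) (hδ : 0 ≤ δ) (hM : 0 ≤ M)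
    (hn : 0 < n)
    (hfar : eAvg G (fun u w => farI δ (Bclean d (ze E η)) (Blk (Res (A0 G) (ze E η)) u w)) ≤ δ)
    (hcl : bnorm (Bclean d (ze E η) - Bclean d (E : ℂ)) ≤ δ')
    (htail : vAvg (fun v => if M < ‖Res (A0 G) (ze E η) v v‖ then
      ‖Res (A0 G) (ze E η) v v‖ else 0) ≤ t) :
    |(mn (A0 G) (ze E η)).im - Real.pi * ρ| ≤ (δ + δ') + δ * (M + |Real.pi * ρ|) + t := by
  rw [mn_im]
  have hδ' : 0 ≤ δ' := (bnorm_nonneg _).trans hcl
  have hpt : ∀ u w : Fin n, |(Res (A0 G) (ze E η) u u).im - Real.pi * ρ| ≤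
      (δ + δ') + (M + |Real.pi * ρ|) *
        farI δ (Bclean d (ze E η)) (Blk (Res (A0 G) (ze E η)) u w) +
      (if M < ‖Res (A0 G) (ze E η) u u‖ then ‖Res (A0 G) (ze E η) u u‖ else 0) := by
    intro u w
    have h0 : 0 ≤ (if M < ‖Res (A0 G) (ze E η) u u‖ then ‖Res (A0 G) (ze E η) u u‖ else 0) := by
      split_ifs <;> positivity
    by_cases h1 : bnorm (Blk (Res (A0 G) (ze E η)) u w - Bclean d (ze E η)) ≤ δ
    · have hf : farI δ (Bclean d (ze E η)) (Blk (Res (A0 G) (ze E η)) u w) = 0 := by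
        unfold farI; rw [if_pos h1]
      rw [hf, mul_zero, add_zero]
      have h2 := (bnorm_tri (Blk (Res (A0 G) (ze E η)) u w) (Bclean d (ze E η))
        (Bclean d (E : ℂ))).trans (add_le_add h1 hcl)
      have h3 := (entry_le_bnorm _ 0 0).trans h2
      have h4 : |(Res (A0 G) (ze E η) u u).im - Real.pi * ρ| ≤
          ‖(Blk (Res (A0 G) (ze E η)) u w - Bclean d (E : ℂ)) 0 0‖ := by
        rw [← hC]
        have : (Res (A0 G) (ze E η) u u).im - (Bclean d (E : ℂ) 0 0).im =
            ((Blk (Res (A0 G) (ze E η)) u w - Bclean d (E : ℂ)) 0 0).im := by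
          rw [Matrix.sub_apply, Complex.sub_im]; rfl
        rw [this]
        exact Complex.abs_im_le_norm _
      linarith
    · have hf : farI δ (Bclean d (ze E η)) (Blk (Res (A0 G) (ze E η)) u w) = 1 := by
        unfold farI; rw [if_neg h1]
      rw [hf, mul_one]
      have h3 : |(Res (A0 G) (ze E η) u u).im| ≤ M +
          (if M < ‖Res (A0 G) (ze E η) u u‖ then ‖Res (A0 G) (ze E η) u u‖ else 0) := by
        have := Complex.abs_im_le_norm (Res (A0 G) (ze E η) u u)
        split_ifs with h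
        · linarith
        · linarith [not_lt.1 h]
      have h4 := abs_sub (Res (A0 G) (ze E η) u u).im (Real.pi * ρ)
      linarith
  have hnR : (0:ℝ) < n := by exact_mod_cast hn
  have h5 : vAvg (fun v => (Res (A0 G) (ze E η) v v).im) - Real.pi * ρ =
      vAvg (fun v => (Res (A0 G) (ze E η) v v).im - Real.pi * ρ) := by
    unfold vAvg
    rw [Finset.sum_sub_distrib, sub_div]
    simp only [Finset.sum_const, Finset.card_univ, Fintype.card_fin, nsmul_eq_mul]
    field_simp
  have h6 : |vAvg (fun v => (Res (A0 G) (ze E η) v v).im - Real.pi * ρ)| ≤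
      vAvg (fun v => |(Res (A0 G) (ze E η) v v).im - Real.pi * ρ|) := by
    unfold vAvg
    rw [abs_div, abs_of_pos hnR]
    exact div_le_div_of_nonneg_right (Finset.abs_sum_le_sum_abs _ _) hnR.le
  rw [h5]
  refine h6.trans ?_
  rw [vAvg_eq_eAvg hd hG]
  refine (eAvg_mono (g := fun u w => (δ + δ') + (M + |Real.pi * ρ|) *
        farI δ (Bclean d (ze E η)) (Blk (Res (A0 G) (ze E η)) u w) +
      (if M < ‖Res (A0 G) (ze E η) u u‖ then ‖Res (A0 G) (ze E η) u u‖ else 0)) hpt).trans ?_
  rw [eAvg_add, eAvg_add, eAvg_const_mul (M + |Real.pi * ρ|)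
    (fun u w => farI δ (Bclean d (ze E η)) (Blk (Res (A0 G) (ze E η)) u w)),
    ← vAvg_eq_eAvg hd hG (fun u =>
    if M < ‖Res (A0 G) (ze E η) u u‖ then ‖Res (A0 G) (ze E η) u u‖ else 0)]
  have h7 : eAvg G (fun _ _ => δ + δ') ≤ δ + δ' := eAvg_const_le (by positivity)
  have h8 : (M + |Real.pi * ρ|) * eAvg G (fun u w => farI δ (Bclean d (ze E η))
      (Blk (Res (A0 G) (ze E η)) u w)) ≤ (M + |Real.pi * ρ|) * δ := by
    gcongr
  linarith

theorem imFix_clean {d : ℕ} (hd : 0 < d) {E ρ : ℝ} (hB : BlkLaw0 d E) (hC : CleanFacts d E ρ) :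
    ImFix d 0 E ρ := by
  intro ε hε
  obtain ⟨η1, hη1, hcont⟩ := hC.cont (ε/8) (by positivity)
  refine ⟨min η1 1, by positivity, fun η hη hηle => ?_⟩
  -- here `δ` may depend on `η`
  set M : ℝ := 1 / η with hM
  have hM0 : 0 < M := by positivity
  set δ : ℝ := min (ε/8) (ε / (4 * (M + |Real.pi * ρ|))) with hδ
  have hden : 0 < M + |Real.pi * ρ| := by positivity
  have hδ0 : 0 < δ := by positivity
  obtain ⟨K0, hK0, N0, hN0⟩ := hB δ hδ0
  obtain ⟨N1, hN1⟩ := exists_nat_ge (K0 / η)
  refine ⟨max (max N0 N1) 1, fun n hn hne => ?_⟩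
  have hn0 : N0 ≤ n := le_trans (le_max_left _ _) (le_trans (le_max_left _ _) hn)
  have hn1 : N1 ≤ n := le_trans (le_max_right _ _) (le_trans (le_max_left _ _) hn)
  have hn3 : 1 ≤ n := le_trans (le_max_right _ _) hn
  have hnR : (0:ℝ) < n := by exact_mod_cast hn3
  have hδ1 : δ ≤ ε / 8 := min_le_left _ _
  refine whp_of_fracLe hne ((hN0 n hn0 hne).mono (hδ1.trans (by linarith)) fun _ _ h => h) ?_
  intro G hGr hG ω
  rw [Hm_zero]
  have hη' : K0 / n ≤ η := by
    have : K0 / η ≤ n := hN1.trans (by exact_mod_cast hn1)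
    rw [div_le_iff₀ hη] at this
    rw [div_le_iff₀ hnR]
    linarith
  have a2 := hG η hη' (hηle.trans (min_le_right _ _))
  have c2 := hcont η hη (hηle.trans (min_le_left _ _))
  have htail : vAvg (fun v : Fin n => if M < ‖Res (A0 G) (ze E η) v v‖ then
      ‖Res (A0 G) (ze E η) v v‖ else 0) ≤ 0 := by
    have hz : (ze E η).im = η := by simp [ze]
    have : ∀ v : Fin n, ¬ (M < ‖Res (A0 G) (ze E η) v v‖) := by
      intro v
      have := Exc501.norm_diag_le (A0_symm G) (z := ze E η) (by rw [hz]; exact hη) v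
      rw [hz] at this
      exact not_lt.2 this
    simp [this, vAvg]
  have key := im_estimate hd hGr hC.im hδ0.le hM0.le (by omega) a2 c2 htail
  refine key.trans ?_
  have h9 : δ * (M + |Real.pi * ρ|) ≤ ε / 4 := by
    have : δ ≤ ε / (4 * (M + |Real.pi * ρ|)) := min_le_right _ _
    calc δ * (M + |Real.pi * ρ|) ≤ ε / (4 * (M + |Real.pi * ρ|)) * (M + |Real.pi * ρ|) := by gcongr
      _ = ε / 4 := by field_simp
  linarith

theorem imLim_clean {d : ℕ} (hd : 0 < d) {E ρ : ℝ} (hB : BlkLaw0 d E) (hU : UIf d E)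
    (hC : CleanFacts d E ρ) : ImLim d 0 E ρ := by
  intro ε hε
  obtain ⟨M', hM'⟩ := hU 1 one_pos (ε/8) (by positivity)
  set M : ℝ := max M' 1 with hM
  have hM0 : 0 < M := by positivity
  set δ : ℝ := min (ε/8) (ε / (4 * (M + |Real.pi * ρ|))) with hδ
  have hden : 0 < M + |Real.pi * ρ| := by positivity
  have hδ0 : 0 < δ := by positivity
  obtain ⟨η1, hη1, hcont⟩ := hC.cont (ε/8) (by positivity)
  obtain ⟨K0, hK0, N0, hN0⟩ := hB δ hδ0
  refine ⟨max K0 1, by positivity, fun K hK => ?_⟩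
  obtain ⟨N1, hN1⟩ := hM' K ((le_max_right _ _).trans hK)
  obtain ⟨N2, hN2⟩ := exists_nat_ge (K / min η1 1)
  refine ⟨max (max N0 N1) (max N2 1), fun n hn hne => ?_⟩
  have hn0 : N0 ≤ n := le_trans (le_max_left _ _) (le_trans (le_max_left _ _) hn)
  have hn1 : N1 ≤ n := le_trans (le_max_right _ _) (le_trans (le_max_left _ _) hn)
  have hn2 : N2 ≤ n := le_trans (le_max_left _ _) (le_trans (le_max_right _ _) hn)
  have hn3 : 1 ≤ n := le_trans (le_max_right _ _) (le_trans (le_max_right _ _) hn)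
  have hnR : (0:ℝ) < n := by exact_mod_cast hn3
  have hδ1 : δ ≤ ε / 8 := min_le_left _ _
  refine whp_of_fracLe hne (((hN0 n hn0 hne).and (hN1 n hn1 hne)).mono
    (by linarith) fun _ _ h => h) ?_
  intro G hGr hG ω
  rw [Hm_zero]
  have hmin : 0 < min η1 1 := by positivity
  have hKpos : 0 < K := lt_of_lt_of_le (by positivity) hK
  have hKn : K / n ≤ min η1 1 := by
    have : K / min η1 1 ≤ n := hN2.trans (by exact_mod_cast hn2)
    rw [div_le_iff₀ hmin] at this
    rw [div_le_iff₀ hnR]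
    linarith
  have hKn0 : 0 < K / n := by positivity
  have hK0K : K0 ≤ K := (le_max_left _ _).trans hK
  have a1 := hG.1 (K / n) (by gcongr) (hKn.trans (min_le_right _ _))
  have c1 := hcont (K / n) hKn0 (hKn.trans (min_le_left _ _))
  have htail : vAvg (fun v : Fin n => if M < ‖Res (A0 G) (ze E (K/n)) v v‖ then
      ‖Res (A0 G) (ze E (K/n)) v v‖ else 0) ≤ ε / 8 := by
    refine le_trans ?_ hG.2
    unfold tailA
    refine vAvg_mono fun v => ?_
    have hzz : zz E K n = ze E (K / n) := rfl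
    rw [hzz]
    split_ifs with h1 h2 h2
    · exact le_rfl
    · exact absurd ((le_max_left M' 1).trans_lt h1) h2
    · positivity
    · exact le_rfl
  have key := im_estimate hd hGr hC.im hδ0.le hM0.le (by omega) a1 c1 htail
  have hzz : zz E K n = ze E (K / n) := rfl
  rw [hzz]
  refine key.trans ?_
  have h9 : δ * (M + |Real.pi * ρ|) ≤ ε / 4 := by
    have : δ ≤ ε / (4 * (M + |Real.pi * ρ|)) := min_le_right _ _
    calc δ * (M + |Real.pi * ρ|) ≤ ε / (4 * (M + |Real.pi * ρ|)) * (M + |Real.pi * ρ|) := by gcongr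
      _ = ε / 4 := by field_simp
  linarith

end

end Crest.Agent.R166.Out501
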