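import Crest.Agent.R166.DecP_789
import Crest.Agent.R166.Dec_598
import Crest.Agent.R166.SwP2_470
import Crest.Agent.R166.Dec2_598
import Crest.Agent.R166.Rev2_811
import Crest.Agent.R166.ScaleV_355
import Crest.Agent.R166.TreeT_327

-- ▼ part R166/DecP2_789
section

/-!
# R166, section 30.3, port side, part 2 (helper789)

Abstract data `Dat` of a resampling move: tree vertices `φ : T → Fin n`, leaves `t : ι → T`,
boundary half-edges `τ i`, chosen half-edges `b i`, new pairing `p'`; `A` = the exceptional set.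
* `Phi` : the index embedding of `Dec598.Idx T (Bt ι A) J`;
* `hpert` : the perturbation in the form of `Dec598.pert`;
* `hdec` : decoupling of the tree after the removal of the boundary edges.
-/

set_option autoImplicit false
set_option linter.unusedSectionVars false

open Matrix Finset

namespace Crest.Agent.R166.DecP789

open Crest.Agent.R166 Crest.Agent.R166.Stab269
open Crest.Agent.R166.Dec598 (edgeM lift emb Idx sS eJ pert uI)

variable {n d : ℕ}

/-! ## edge matrices as sums -/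

lemma edgeM_sum {κ : Type*} [Fintype κ] [DecidableEq κ] (x y : κ → Fin n) :
    edgeM x y = ∑ k, (E1 (x k) (y k) + E1 (y k) (x k)) := by
  ext a b
  rw [Dec598.edgeM_apply, Matrix.sum_apply]
  rfl

lemma edgeM_EE {κ : Type*} [Fintype κ] [DecidableEq κ] (x y : κ → HE n d) :
    edgeM (fun k => (x k).1) (fun k => (y k).1) = ∑ k, EE (x k) (y k) := by
  rw [edgeM_sum]; rfl

/-- the data of a resampling move -/
structure Dat {T ι : Type*} (p p' : Equiv.Perm (HE n d)) (φ : T → Fin n) (t : ι → T)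
    (τ b : ι → HE n d) : Prop where
  port : IsPort p
  port' : IsPort p'
  move : IsMove p p' τ b
  bdry : IsBdry p φ τ
  leaf : ∀ i, φ (t i) = (τ i).1
  aa : ∀ i j, (p (τ i)).1 = (p (τ j)).1 → i = j
  uu : ∀ i j, (b i).1 = (b j).1 → i = j
  ww : ∀ i j, (p (b i)).1 = (p (b j)).1 → i = j
  au : ∀ i j, (p (τ i)).1 ≠ (b j).1
  aw : ∀ i j, (p (τ i)).1 ≠ (p (b j)).1
  uw : ∀ i j, (b i).1 ≠ (p (b j)).1
  phiu : ∀ x j, φ x ≠ (b j).1
  phiw : ∀ x j, φ x ≠ (p (b j)).1

section main

variable {T ι : Type*} [Fintype T] [DecidableEq T] [Fintype ι] [DecidableEq ι]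

/-- exceptional choices -/
abbrev At (A : Finset ι) : Type _ := {i // i ∈ A}
/-- good choices -/
abbrev Jt (A : Finset ι) : Type _ := {i // i ∉ A}
/-- the sites of the system besides the tree: `a_i` (all `i`), `u_i`, `w_i` (`i ∈ A`) -/
abbrev Bt (A : Finset ι) : Type _ := ι ⊕ (Fin 2 × At A)

/-- the two endpoints of a chosen half-edge -/
def endp (p : Equiv.Perm (HE n d)) (h : HE n d) (x : Fin 2) : Fin n := if x = 0 then h.1 else (p h).1

/-- sites of `B` -/
def PhiB (p : Equiv.Perm (HE n d)) (τ b : ι → HE n d) (A : Finset ι) : Bt A → Fin n :=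
  Sum.elim (fun i => (p (τ i)).1) (fun x => endp p (b x.2.1) x.1)

/-- the index embedding -/
def Phi (p : Equiv.Perm (HE n d)) (φ : T → Fin n) (τ b : ι → HE n d) (A : Finset ι) :
    Idx T (Bt A) (Jt A) → Fin n :=
  Sum.elim φ (Sum.elim (PhiB p τ b A) (fun x => endp p (b x.2.1) x.1))

/-- partner sites `a_j` of the good edges -/
def aJ (A : Finset ι) : Jt A → Bt A := fun j => Sum.inl j.1

/-- sites `u_a` of the exceptional edges -/
def uA (A : Finset ι) : At A → Bt A := fun a => Sum.inr (0, a)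

/-- parents of the leaves -/
def tt (t : ι → T) (A : Finset ι) : At A ⊕ Jt A → T := Sum.elim (fun a => t a.1) (fun j => t j.1)

/-- the perturbation inside the system `T ⊕ B` -/
def U1 (t : ι → T) (A : Finset ι) (UT : Matrix T T ℝ) : Matrix (T ⊕ Bt A) (T ⊕ Bt A) ℝ :=
  lift (emb (Sum.inl : T → T ⊕ Bt A)) UT -
    edgeM (fun i : ι => (Sum.inl (t i) : T ⊕ Bt A)) (fun i => Sum.inr (Sum.inl i)) -
    edgeM (fun a : At A => (Sum.inr (Sum.inr (0, a)) : T ⊕ Bt A)) (fun a => Sum.inr (Sum.inr (1, a)))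
    + edgeM (fun a : At A => (Sum.inr (Sum.inl a.1) : T ⊕ Bt A)) (fun a => Sum.inr (Sum.inr (1, a)))

lemma U1_symm (t : ι → T) (A : Finset ι) {UT : Matrix T T ℝ} (hU : UTᵀ = UT) :
    (U1 t A UT)ᵀ = U1 t A UT := by
  unfold U1
  rw [Matrix.transpose_add, Matrix.transpose_sub, Matrix.transpose_sub, Dec598.lift_symm _ hU,
    Dec598.edgeM_symm, Dec598.edgeM_symm, Dec598.edgeM_symm]

variable {p p' : Equiv.Perm (HE n d)} {φ : T → Fin n} {t : ι → T} {τ b : ι → HE n d}

lemma endp_zero (p : Equiv.Perm (HE n d)) (h : HE n d) : endp p h 0 = h.1 := rfl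

lemma endp_one (p : Equiv.Perm (HE n d)) (h : HE n d) : endp p h 1 = (p h).1 := rfl

lemma Dat.endp_inj (hD : Dat p p' φ t τ b) {i j : ι} {x y : Fin 2}
    (h : endp p (b i) x = endp p (b j) y) : i = j ∧ x = y := by
  fin_cases x <;> fin_cases y <;>
    simp only [Fin.zero_eta, Fin.mk_one, endp_zero, endp_one] at h ⊢
  · exact ⟨hD.uu _ _ h, trivial⟩
  · exact absurd h (hD.uw _ _)
  · exact absurd h.symm (hD.uw _ _)
  · exact ⟨hD.ww _ _ h, trivial⟩

lemma Dat.a_ne_endp (hD : Dat p p' φ t τ b) (i j : ι) (x : Fin 2) :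
    (p (τ i)).1 ≠ endp p (b j) x := by
  fin_cases x
  · exact hD.au i j
  · exact hD.aw i j

lemma Dat.phi_ne_endp (hD : Dat p p' φ t τ b) (s : T) (j : ι) (x : Fin 2) :
    φ s ≠ endp p (b j) x := by
  fin_cases x
  · exact hD.phiu s j
  · exact hD.phiw s j

lemma Dat.phi_ne_a (hD : Dat p p' φ t τ b) (s : T) (i : ι) : φ s ≠ (p (τ i)).1 :=
  fun h => hD.bdry.out i ⟨s, h⟩

theorem Dat.PhiB_injective (hD : Dat p p' φ t τ b) (A : Finset ι) :
    Function.Injective (PhiB p τ b A) := by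
  rintro (i | ⟨x, i⟩) (j | ⟨y, j⟩) h
  · simp only [PhiB, Sum.elim_inl] at h
    rw [hD.aa _ _ h]
  · simp only [PhiB, Sum.elim_inl, Sum.elim_inr] at h
    exact absurd h (hD.a_ne_endp _ _ _)
  · simp only [PhiB, Sum.elim_inl, Sum.elim_inr] at h
    exact absurd h.symm (hD.a_ne_endp _ _ _)
  · simp only [PhiB, Sum.elim_inr] at h
    obtain ⟨h1, h2⟩ := hD.endp_inj h
    rw [h2, Subtype.ext h1]

theorem Dat.Phi_injective (hD : Dat p p' φ t τ b) (A : Finset ι) :
    Function.Injective (Phi p φ τ b A) := by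
  rintro (s | x | ⟨x, i⟩) (s' | y | ⟨y, j⟩) h
  · simp only [Phi, Sum.elim_inl] at h
    rw [hD.bdry.inj h]
  · exfalso
    rcases y with y | ⟨y, j⟩
    · exact hD.phi_ne_a _ _ h
    · exact hD.phi_ne_endp _ _ _ h
  · exact absurd h (hD.phi_ne_endp _ _ _)
  · exfalso
    rcases x with x | ⟨x, j⟩
    · exact hD.phi_ne_a _ _ h.symm
    · exact hD.phi_ne_endp _ _ _ h.symm
  · have h1 : PhiB p τ b A x = PhiB p τ b A y := h
    rw [hD.PhiB_injective A h1]
  · exfalso
    rcases x with x | ⟨x, i⟩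
    · exact hD.a_ne_endp _ _ _ h
    · have := (hD.endp_inj (i := i.1) (j := j.1) h).1
      exact j.2 (this ▸ i.2)
  · exact absurd h.symm (hD.phi_ne_endp _ _ _)
  · exfalso
    rcases y with y | ⟨y, j⟩
    · exact hD.a_ne_endp _ _ _ h.symm
    · have := (hD.endp_inj (i := i.1) (j := j.1) h).1
      exact i.2 (this ▸ j.2)
  · obtain ⟨h1, h2⟩ := hD.endp_inj (i := i.1) (j := j.1) h
    have h2' : x = y := h2
    rw [h2', Subtype.ext h1]

/-- sums over `ι` split into `A` and its complement -/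
lemma sum_split {M : Type*} [AddCommMonoid M] (A : Finset ι) (F : ι → M) :
    ∑ i, F i = ∑ a : At A, F a.1 + ∑ j : Jt A, F j.1 := by
  have h := (Fintype.sum_subtype_add_sum_subtype (fun i => i ∈ A) F).symm
  convert h

/-- the lift of the inner perturbation -/
lemma lift_U1 (hD : Dat p p' φ t τ b) (A : Finset ι) (UT : Matrix T T ℝ) :
    lift (emb (Phi p φ τ b A ∘ sS)) (U1 t A UT) =
      lift (emb φ) UT - ∑ i, EE (τ i) (p (τ i)) -
        ∑ a : At A, EE (b a.1) (p (b a.1)) + ∑ a : At A, EE (p (τ a.1)) (p (b a.1)) := by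
  unfold U1
  rw [Dec598.lift_add, lift_sub, lift_sub, Dec598.lift_lift, Dec598.emb_comp, Dec598.lift_edgeM,
    Dec598.lift_edgeM, Dec598.lift_edgeM]
  have e1 : (Phi p φ τ b A ∘ sS) ∘ (Sum.inl : T → T ⊕ Bt A) = φ := rfl
  have e2 : edgeM ((Phi p φ τ b A ∘ sS) ∘ fun i : ι => (Sum.inl (t i) : T ⊕ Bt A))
      ((Phi p φ τ b A ∘ sS) ∘ fun i => Sum.inr (Sum.inl i)) = ∑ i, EE (τ i) (p (τ i)) := by
    rw [← edgeM_EE]
    congr 1
    funext i
    exact hD.leaf i
  have e3 : edgeM ((Phi p φ τ b A ∘ sS) ∘ fun a : At A => (Sum.inr (Sum.inr (0, a)) : T ⊕ Bt A))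
      ((Phi p φ τ b A ∘ sS) ∘ fun a => Sum.inr (Sum.inr (1, a))) =
      ∑ a : At A, EE (b a.1) (p (b a.1)) := by
    rw [← edgeM_EE]; rfl
  have e4 : edgeM ((Phi p φ τ b A ∘ sS) ∘ fun a : At A => (Sum.inr (Sum.inl a.1) : T ⊕ Bt A))
      ((Phi p φ τ b A ∘ sS) ∘ fun a => Sum.inr (Sum.inr (1, a))) =
      ∑ a : At A, EE (p (τ a.1)) (p (b a.1)) := by
    rw [← edgeM_EE]; rfl
  rw [e1, e2, e3, e4]

/-- **(hpert)** the perturbation in the form of `Dec598.pert` -/
theorem hpert (hD : Dat p p' φ t τ b) (A : Finset ι) (UT : Matrix T T ℝ) (s : ℝ)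
    (ω : Fin n → ℝ) :
    Hm (graphOf p') s ω + lift (emb φ) UT = Hm (graphOf p) s ω +
      lift (emb (Phi p φ τ b A)) (pert (U1 t A UT) (aJ A) (uA A) (tt t A)) := by
  have hmv := hD.move.Hm_move hD.port hD.port' s ω
  unfold pert
  rw [Dec598.lift_add, Dec598.lift_add, lift_sub, Dec598.lift_lift, Dec598.emb_comp,
    Dec598.lift_edgeM, Dec598.lift_edgeM, Dec598.lift_edgeM, lift_U1 hD A UT]
  have e1 : edgeM ((Phi p φ τ b A) ∘ fun j : Jt A => eJ j 0) ((Phi p φ τ b A) ∘ fun j => eJ j 1) =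
      ∑ j : Jt A, EE (b j.1) (p (b j.1)) := by
    rw [← edgeM_EE]; rfl
  have e2 : edgeM ((Phi p φ τ b A) ∘ fun j : Jt A => (Sum.inr (Sum.inl (aJ A j)) :
      Idx T (Bt A) (Jt A))) ((Phi p φ τ b A) ∘ fun j => eJ j 1) =
      ∑ j : Jt A, EE (p (τ j.1)) (p (b j.1)) := by
    rw [← edgeM_EE]; rfl
  have e3 : edgeM ((Phi p φ τ b A) ∘ fun i : At A ⊕ Jt A => (Sum.inl (tt t A i) :
      Idx T (Bt A) (Jt A))) ((Phi p φ τ b A) ∘ fun i => Sum.inr (uI (uA A) i)) =
      ∑ i, EE (τ i) (b i) := by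
    have h1 : edgeM ((Phi p φ τ b A) ∘ fun i : At A ⊕ Jt A => (Sum.inl (tt t A i) :
      Idx T (Bt A) (Jt A))) ((Phi p φ τ b A) ∘ fun i => Sum.inr (uI (uA A) i)) =
      edgeM (fun i : At A ⊕ Jt A => (Sum.elim (fun a : At A => τ a.1) (fun j : Jt A => τ j.1) i).1)
        (fun i : At A ⊕ Jt A => (Sum.elim (fun a : At A => b a.1) (fun j : Jt A => b j.1) i).1) := by
      congr 1
      · funext i
        rcases i with a | j
        · exact hD.leaf a.1
        · exact hD.leaf j.1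
      · funext i
        rcases i with a | j <;> rfl
    rw [h1, edgeM_EE, Fintype.sum_sum_type, sum_split A (fun i => EE (τ i) (b i))]
    rfl
  rw [e1, e2, e3, hmv]
  have s1 := sum_split A (fun i => EE (p (τ i)) (p (b i)))
  have s2 := sum_split A (fun i => EE (b i) (p (b i)))
  simp only [Finset.sum_sub_distrib, Finset.sum_add_distrib]
  rw [s1, s2]
  abel

/-- the Hamiltonian of the tree -/
noncomputable def hT (p : Equiv.Perm (HE n d)) (φ : T → Fin n) (s : ℝ) (ω : Fin n → ℝ)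
    (UT : Matrix T T ℝ) : Matrix T T ℝ := (Hm (graphOf p) s ω).submatrix φ φ + UT

lemma hT_symm (p : Equiv.Perm (HE n d)) (φ : T → Fin n) (s : ℝ) (ω : Fin n → ℝ)
    {UT : Matrix T T ℝ} (hU : UTᵀ = UT) : (hT p φ s ω UT)ᵀ = hT p φ s ω UT := by
  unfold hT
  rw [Matrix.transpose_add, Matrix.transpose_submatrix, Hm_symm, hU]

/-- the Hamiltonian after the inner perturbation -/
noncomputable def H1 (p : Equiv.Perm (HE n d)) (φ : T → Fin n) (t : ι → T) (τ b : ι → HE n d)
    (A : Finset ι) (s : ℝ) (ω : Fin n → ℝ) (UT : Matrix T T ℝ) : Matrix (Fin n) (Fin n) ℝ :=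
  Hm (graphOf p) s ω + lift (emb (Phi p φ τ b A ∘ sS)) (U1 t A UT)

lemma H1_eq (hD : Dat p p' φ t τ b) (A : Finset ι) (s : ℝ) (ω : Fin n → ℝ)
    (UT : Matrix T T ℝ) :
    H1 p φ t τ b A s ω UT = Hcut p τ s ω + lift (emb φ) UT +
      ∑ a : At A, (EE (p (τ a.1)) (p (b a.1)) - EE (b a.1) (p (b a.1))) := by
  unfold H1 Hcut
  rw [lift_U1 hD A UT, Finset.sum_sub_distrib]
  abel

lemma E1_zero_left {x y a b : Fin n} (h : a ≠ x) : E1 x y a b = 0 := by
  unfold E1; rw [if_neg (fun h' => h h'.1)]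


lemma EE_zero {h h' : HE n d} {x y : Fin n} (h1 : x ≠ h.1) (h2 : x ≠ h'.1) :
    EE h h' x y = 0 := by
  unfold EE
  rw [Matrix.add_apply, E1_zero_left h1, E1_zero_left h2, add_zero]

lemma H1_row (hD : Dat p p' φ t τ b) (A : Finset ι) (s : ℝ) (ω : Fin n → ℝ)
    (UT : Matrix T T ℝ) (x : T) (y : Fin n) :
    H1 p φ t τ b A s ω UT (φ x) y = Hcut p τ s ω (φ x) y + lift (emb φ) UT (φ x) y := by
  rw [H1_eq hD, Matrix.add_apply, Matrix.add_apply, Matrix.sum_apply, Finset.sum_eq_zero, add_zero]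
  intro a _
  rw [Matrix.sub_apply, EE_zero (hD.phi_ne_a x a.1) (hD.phiw x a.1),
    EE_zero (hD.phiu x a.1) (hD.phiw x a.1), sub_zero]

lemma H1_cross (hD : Dat p p' φ t τ b) (A : Finset ι) (s : ℝ) (ω : Fin n → ℝ)
    (UT : Matrix T T ℝ) {x y : Fin n} (hx : x ∈ Set.range φ) (hy : y ∉ Set.range φ) :
    H1 p φ t τ b A s ω UT x y = 0 := by
  obtain ⟨x, rfl⟩ := hx
  rw [H1_row hD, Hcut_cross hD.port hD.bdry s ω ⟨x, rfl⟩ hy,
    Dec598.lift_emb_right UT (φ x) (fun a h => hy ⟨a, h.symm⟩), add_zero]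

lemma H1_sub (hD : Dat p p' φ t τ b) (A : Finset ι) (s : ℝ) (ω : Fin n → ℝ)
    (UT : Matrix T T ℝ) :
    (H1 p φ t τ b A s ω UT).submatrix φ φ = hT p φ s ω UT := by
  ext x y
  rw [Matrix.submatrix_apply, H1_row hD, Hcut_inner hD.bdry s ω ⟨x, rfl⟩ ⟨y, rfl⟩,
    Dec598.lift_emb_apply hD.bdry.inj]
  rfl

lemma H1_symm (p : Equiv.Perm (HE n d)) (φ : T → Fin n) (t : ι → T) (τ b : ι → HE n d)
    (A : Finset ι) (s : ℝ) (ω : Fin n → ℝ) {UT : Matrix T T ℝ} (hU : UTᵀ = UT) :
    (H1 p φ t τ b A s ω UT)ᵀ = H1 p φ t τ b A s ω UT := by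
  unfold H1
  rw [Matrix.transpose_add, Hm_symm, Dec598.lift_symm _ (U1_symm t A hU)]

/-- the matrix of the rest of the system, after the removal of the boundary edges -/
noncomputable def SgB (p : Equiv.Perm (HE n d)) (φ : T → Fin n) (t : ι → T) (τ b : ι → HE n d)
    (A : Finset ι) (s : ℝ) (ω : Fin n → ℝ) (UT : Matrix T T ℝ) (z : ℂ) :
    Matrix (Bt A) (Bt A) ℂ :=
  (Res789.Res (H1 p φ t τ b A s ω UT) z).submatrix (PhiB p τ b A) (PhiB p τ b A)

theorem siegel_SgB (hD : Dat p p' φ t τ b) (A : Finset ι) (s : ℝ) (ω : Fin n → ℝ)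
    {UT : Matrix T T ℝ} (hU : UTᵀ = UT) {z : ℂ} (hz : 0 < z.im) :
    Res598.Siegel (SgB p φ t τ b A s ω UT z) :=
  ((Res789.Res_sieg (H1_symm p φ t τ b A s ω hU) hz).submatrix
    (hD.PhiB_injective A)).siegel

lemma PhiS_injective (hD : Dat p p' φ t τ b) (A : Finset ι) :
    Function.Injective (Phi p φ τ b A ∘ sS) :=
  (hD.Phi_injective A).comp Dec598.sS_injective

/-- **(hdec)** decoupling of the tree -/
theorem hdec (hD : Dat p p' φ t τ b) (A : Finset ι) (s : ℝ) (ω : Fin n → ℝ)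
    {UT : Matrix T T ℝ} (hU : UTᵀ = UT) {z : ℂ} (hz : 0 < z.im) :
    Res598.mob (U1 t A UT) ((Res789.Res (Hm (graphOf p) s ω) z).submatrix
      (Phi p φ τ b A ∘ sS) (Phi p φ τ b A ∘ sS)) =
      fromBlocks (Res789.Res (hT p φ s ω UT) z) 0 0 (SgB p φ t τ b A s ω UT z) := by
  have h1 := Dec598.Res_lift (Hm_symm (graphOf p) s ω) (PhiS_injective hD A) (U1_symm t A hU) hz
  rw [← h1]
  obtain ⟨h2, h3⟩ := Res_decoupled_range (H1_symm p φ t τ b A s ω hU) hz hD.bdry.inj
    (fun x y hx hy => H1_cross hD A s ω UT hx hy)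
  have h4 : Hm (graphOf p) s ω + lift (emb (Phi p φ τ b A ∘ sS)) (U1 t A UT) =
      H1 p φ t τ b A s ω UT := rfl
  rw [h4]
  have hns : ∀ y : Bt A, PhiB p τ b A y ∉ Set.range φ := by
    rintro y ⟨x, hx⟩
    rcases y with y | ⟨y, j⟩
    · exact hD.phi_ne_a _ _ hx
    · exact hD.phi_ne_endp _ _ _ hx
  ext (x | x) (y | y)
  · have := congrFun (congrFun h3 x) y
    rw [H1_sub hD] at this
    exact this
  · exact h2 _ _ ⟨x, rfl⟩ (hns y)
  · have hsym := congrFun (congrFun (Res789.Res_transpose (H1_symm p φ t τ b A s ω hU) hz)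
      (PhiB p τ b A x)) (φ y)
    rw [Matrix.transpose_apply] at hsym
    have := h2 _ _ ⟨y, rfl⟩ (hns x)
    rw [hsym] at this
    exact this
  · rfl

end main

end Crest.Agent.R166.DecP789
end

-- ▼ part R166/DecP3_789
section

/-!
# R166, section 30.3, port side, part 3 (helper789)

* `dat_np` : the ball-boundary resampling `SwP470.np` gives a `Dat`;
* couplings: `cS = cpl (GA S0 p A b)`, `cP = cpl2` (811's quantities);
* `dec_port` : the deterministic decoupling theorem for port-numbered graphs;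
* `root_corner` : the root corner is the cavity block `B0 p' s ω z h0`.
-/

set_option autoImplicit false
set_option linter.unusedSectionVars false

open Matrix Finset

namespace Crest.Agent.R166.DecP789

open Crest.Agent.R166 Crest.Agent.R166.Stab269
open Crest.Agent.R166.Dec598 (edgeM lift Idx sS eJ pert uI treeOut leafXi cT cS cP)
open Crest.Agent.R166.SwP470 (BVal bv TL BI NZ NZw wd rt tau ab np)
open Crest.Agent.R166.Rev811 (GA cpl cpl2 gS)

variable {n d : ℕ}

/-! ## the resampling move as `Dat` -/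

section np

variable [NeZero d] {p : Equiv.Perm (HE n d)} {h0 : HE n d} {L : ℕ} {b : BI d L → HE n d}

theorem isMove_np (hL : 1 ≤ L) (hp : IsPort p) (h : BVal L p h0 b) :
    IsMove p (np p h0 b) (tau p h0) b := by
  have hV := h.val hL hp
  have hS := SwP470.isSP_of_isPort hp
  have hpab : ∀ i : BI d L, p (ab p h0 i) = tau p h0 i := fun i => hp.inv _
  refine ⟨?_, ?_, ?_, ?_, ?_, ?_, ?_, ?_, ?_⟩
  · intro i
    have := hV.cj_t hS i
    rw [hpab] at this
    exact this
  · intro i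
    exact hV.cj_a i
  · intro x h1 h2 h3 h4
    have ho : SwP470.Out p (ab p h0) b x := by
      refine ⟨fun i => (h2 i).symm, fun i => (h3 i).symm, fun i => ?_, fun i => (h4 i).symm⟩
      rw [hpab]; exact (h1 i).symm
    exact ho.cj hS
  · intro i j hij
    apply hV.aa
    change (p (tau p h0 i)).1 = (p (tau p h0 j)).1
    rw [hij]
  · intro i j hij
    exact hV.uu i j (by rw [hij])
  · intro i j hij
    have := hV.ta i j
    rw [hpab] at this
    exact this (by rw [hij]; rfl)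
  · intro i j hij
    have := hV.tu i j
    rw [hpab] at this
    exact this (by rw [hij])
  · intro i j hij
    have := hV.tw i j
    rw [hpab] at this
    exact this (by rw [hij])
  · intro i j hij
    exact hV.uw i j (by rw [hij])

variable {T : Type*} [Fintype T] [DecidableEq T] {φ : T → Fin n}

/-- the boundary of the interior ball -/
theorem isBdry_of_range (hL : 1 ≤ L) (hp : IsPort p) (htl : TL L p h0)
    (hφ : Function.Injective φ)
    (hr : ∀ x, x ∈ Set.range φ ↔ ∃ s w, NZw w ∧ w.length < L ∧ bv p h0 s w = x) :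
    IsBdry p φ (tau p h0 : BI d L → HE n d) := by
  refine ⟨hφ, ?_, ?_, ?_, ?_⟩
  · intro i j hij
    have h1 : bv p h0 i.1 (wd i.2) = bv p h0 j.1 (wd j.2) := by
      change (p (tau p h0 i)).1 = (p (tau p h0 j)).1
      rw [hij]
    have := htl _ _ _ _ (SwP470.wd_NZw i.2) (SwP470.wd_NZw j.2) (SwP470.wd_length i.2).le
      (SwP470.wd_length j.2).le h1
    exact Prod.ext this.1 (SwP470.wd_inj this.2)
  · intro i hi
    obtain ⟨s, w, hw, hl, he⟩ := (hr _).1 hi
    have h1 : bv p h0 s w = bv p h0 i.1 (wd i.2) := he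
    have := htl _ _ _ _ hw (SwP470.wd_NZw i.2) hl.le (SwP470.wd_length i.2).le h1
    have h4 := congrArg List.length this.2
    rw [SwP470.wd_length] at h4
    omega
  · intro h hh hnh
    obtain ⟨s, w, hw, hl, he⟩ := (hr _).1 hh
    -- `h` is a port of the vertex of `w`
    have hk : h = rot (h.2 - (p (desc p (rt p h0 s) w)).2) (p (desc p (rt p h0 s) w)) := by
      have he' : (p (desc p (rt p h0 s) w)).1 = h.1 := he
      refine Prod.ext he'.symm ?_
      simp [rot]
    set k := h.2 - (p (desc p (rt p h0 s) w)).2 with hkdef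
    by_cases hk0 : k = 0
    · exfalso
      apply hnh
      rw [hk0, rot_zero] at hk
      rw [hk, hp.inv]
      obtain ⟨s', w', hw', hl', he'⟩ := SwP470.desc_fst (p := p) (h0 := h0) hp s w hw
      exact (hr _).2 ⟨s', w', hw', by omega, he'.symm⟩
    · have hd1 : h = desc p (rt p h0 s) (w ++ [k]) := by
        rw [SwP470.desc_snoc]; exact hk
      have hNZ : NZw (w ++ [k]) := by
        intro x hx
        rw [List.mem_append] at hx
        rcases hx with hx | hx
        · exact hw x hx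
        · rw [List.mem_singleton] at hx
          rw [hx]; exact hk0
      rcases Nat.lt_or_ge (w.length + 1) L with h1 | h1
      · exfalso
        apply hnh
        rw [hd1]
        exact (hr _).2 ⟨s, w ++ [k], hNZ, by simpa using h1, rfl⟩
      · obtain ⟨f, hf⟩ := SwP470.exists_wd hNZ (L := L) (by simp; omega)
        exact ⟨(s, f), by rw [hd1, ← hf]; rfl⟩
  · intro i
    obtain ⟨w', h1, h2, h3⟩ := SwP470.tau_fst (p := p) (h0 := h0) hL i
    exact (hr _).2 ⟨i.1, w', h1, by omega, h3.symm⟩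

/-- **the ball-boundary resampling as a `Dat`** -/
theorem dat_np (hL : 1 ≤ L) (hp : IsPort p) (h : BVal L p h0 b)
    (hφ : Function.Injective φ)
    (hr : ∀ x, x ∈ Set.range φ ↔ ∃ s w, NZw w ∧ w.length < L ∧ bv p h0 s w = x)
    {t : BI d L → T} (ht : ∀ i, φ (t i) = (tau p h0 i).1) :
    Dat p (np p h0 b) φ t (tau p h0) b := by
  have hV := h.val hL hp
  refine ⟨hp, h.isPort hL hp, isMove_np hL hp h, isBdry_of_range hL hp h.tl hφ hr, ht,
    hV.aa, hV.uu, hV.ww, hV.au, hV.aw, hV.uw, ?_, ?_⟩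
  · intro x j
    obtain ⟨s, w, hw, hl, he⟩ := (hr (φ x)).1 ⟨x, rfl⟩
    rw [← he]
    exact h.bu s w j hw hl.le
  · intro x j
    obtain ⟨s, w, hw, hl, he⟩ := (hr (φ x)).1 ⟨x, rfl⟩
    rw [← he]
    exact h.bw s w j hw hl.le

end np

/-! ## couplings -/

section coupling

variable {V : Type*} [Fintype V] [DecidableEq V]
variable {P Q : Type*} [Fintype P] [DecidableEq P] [Fintype Q] [DecidableEq Q]

lemma qf_equiv (e : P ≃ Q) (Y : Matrix Q Q ℝ) (u : Q → ℂ) :
    Res789.qf (Y.submatrix e e) (u ∘ e) = Res789.qf Y u := by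
  rw [Res789.qf_expand, Res789.qf_expand, ← Equiv.sum_comp e]
  refine Finset.sum_congr rfl fun i _ => ?_
  rw [← Equiv.sum_comp e]
  rfl

lemma gam_equiv (e : P ≃ Q) (g : Q → V) (R : Matrix V V ℂ) (y : V) :
    Res789.gam (g ∘ e) R y = Res789.gam g R y := by
  unfold Res789.gam
  congr 1
  have h1 : (Res789.imM (R.submatrix (g ∘ e) (g ∘ e))) =
      (Res789.imM (R.submatrix g g)).submatrix e e := rfl
  rw [h1, Matrix.inv_submatrix_equiv, ← qf_equiv e]
  rfl

/-- the coupling only depends on the range -/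
lemma gam_image {f : P → V} (hf : Function.Injective f) (S : Finset V)
    (hS : ∀ x, x ∈ S ↔ ∃ q, f q = x) (R : Matrix V V ℂ) (y : V) :
    Res789.gam f R y = Res789.gam (fun x : S => x.1) R y := by
  let e : P ≃ S := Equiv.ofBijective (fun q => ⟨f q, (hS _).2 ⟨q, rfl⟩⟩) (by
    constructor
    · intro a b hab
      exact hf (congrArg Subtype.val hab)
    · rintro ⟨x, hx⟩
      obtain ⟨q, hq⟩ := (hS x).1 hx
      exact ⟨q, Subtype.ext hq⟩)
  rw [← gam_equiv e]
  rfl

lemma gam_sq {f : P → V} (hf : Function.Injective f) {R : Matrix V V ℂ} (hR : Res789.Sieg R)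
    (y : V) : Res789.gam f R y ^ 2 =
      Res598.qf (Res598.imM (R.submatrix f f))⁻¹ (fun q => R (f q) y) := by
  rw [Res789.qf_eq598, Res789.gam]
  exact Real.sq_sqrt (Res789.qf_inv_nonneg (hR.submatrix hf).posDef _)

end coupling

section main

variable {T ι : Type*} [Fintype T] [DecidableEq T] [Fintype ι] [DecidableEq ι]
variable {p p' : Equiv.Perm (HE n d)} {φ : T → Fin n} {t : ι → T} {τ b : ι → HE n d}

/-- the vertices of the tree and the outer boundary vertices `a_i` -/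
def S0 (p : Equiv.Perm (HE n d)) (φ : T → Fin n) (τ : ι → HE n d) : Finset (Fin n) :=
  Finset.univ.image φ ∪ Finset.univ.image (fun i => (p (τ i)).1)

lemma card_S0_le (p : Equiv.Perm (HE n d)) (φ : T → Fin n) (τ : ι → HE n d) :
    (S0 p φ τ).card ≤ Fintype.card T + Fintype.card ι := by
  unfold S0
  refine (Finset.card_union_le _ _).trans (add_le_add ?_ ?_)
  · exact Finset.card_image_le
  · exact Finset.card_image_le

/-- the block of `R` on the whole system -/
noncomputable def Zs (p : Equiv.Perm (HE n d)) (φ : T → Fin n) (τ b : ι → HE n d)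
    (A : Finset ι) (s : ℝ) (ω : Fin n → ℝ) (z : ℂ) :
    Matrix (Idx T (Bt A) (Jt A)) (Idx T (Bt A) (Jt A)) ℂ :=
  (Res789.Res (Hm (graphOf p) s ω) z).submatrix (Phi p φ τ b A) (Phi p φ τ b A)

lemma siegel_Zs (hD : Dat p p' φ t τ b) (A : Finset ι) (s : ℝ) (ω : Fin n → ℝ) {z : ℂ}
    (hz : 0 < z.im) : Res598.Siegel (Zs p φ τ b A s ω z) :=
  ((Res789.Res_sieg (Hm_symm _ s ω) hz).submatrix (hD.Phi_injective A)).siegel

lemma mem_GA (A : Finset ι) (x : Fin n) :
    x ∈ GA (S0 p φ τ) p A b ↔ ∃ q, (Phi p φ τ b A ∘ sS) q = x := by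
  unfold GA S0
  simp only [Finset.mem_union, Finset.mem_image, Finset.mem_univ, true_and, Finset.mem_biUnion,
    Finset.mem_insert, Finset.mem_singleton]
  constructor
  · rintro ((⟨a, rfl⟩ | ⟨i, rfl⟩) | ⟨i, hi, rfl | rfl⟩)
    · exact ⟨Sum.inl a, rfl⟩
    · exact ⟨Sum.inr (Sum.inl i), rfl⟩
    · exact ⟨Sum.inr (Sum.inr (0, ⟨i, hi⟩)), rfl⟩
    · exact ⟨Sum.inr (Sum.inr (1, ⟨i, hi⟩)), rfl⟩
  · rintro ⟨a | i | ⟨x, i⟩, rfl⟩
    · exact Or.inl (Or.inl ⟨a, rfl⟩)
    · exact Or.inl (Or.inr ⟨i, rfl⟩)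
    · refine Or.inr ⟨i.1, i.2, ?_⟩
      fin_cases x
      · exact Or.inl rfl
      · exact Or.inr rfl

/-- **the coupling of 598 is the coupling of 811** -/
theorem cS_eq (hD : Dat p p' φ t τ b) (A : Finset ι) (s : ℝ) (ω : Fin n → ℝ) {z : ℂ}
    (hz : 0 < z.im) (j : Jt A) :
    cS (Zs p φ τ b A s ω z) j =
      cpl (GA (S0 p φ τ) p A b) (Res789.Res (Hm (graphOf p) s ω) z) p (b j.1) := by
  unfold cS cpl gS
  rw [← gam_image (PhiS_injective hD A) _ (mem_GA A), ← gam_image (PhiS_injective hD A) _ (mem_GA A),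
    gam_sq (PhiS_injective hD A) (Res789.Res_sieg (Hm_symm _ s ω) hz),
    gam_sq (PhiS_injective hD A) (Res789.Res_sieg (Hm_symm _ s ω) hz), Fin.sum_univ_two]
  rfl

theorem cP_eq (A : Finset ι) (s : ℝ) (ω : Fin n → ℝ) (z : ℂ) (j k : Jt A) :
    cP (Zs p φ τ b A s ω z) j k =
      cpl2 (Res789.Res (Hm (graphOf p) s ω) z) p (b j.1) (b k.1) := by
  unfold cP cpl2
  rw [Fin.sum_univ_two, Fin.sum_univ_two, Fin.sum_univ_two]
  have e : ∀ x y : Fin 2, Zs p φ τ b A s ω z (eJ j x) (eJ k y) =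
      Res789.Res (Hm (graphOf p) s ω) z (endp p (b j.1) x) (endp p (b k.1) y) := fun _ _ => rfl
  simp only [e, endp_zero, endp_one]
  ring

/-- total coupling in the terms of 811 -/
noncomputable def cE (S : Finset (Fin n)) (R : Matrix (Fin n) (Fin n) ℂ)
    (p : Equiv.Perm (HE n d)) (b : ι → HE n d) (A : Finset ι) (c : ℝ) : ℝ :=
  2 * (∑ j ∈ Aᶜ, Real.sqrt (cpl (GA S p A b) R p (b j))) / Real.sqrt c +
    (∑ jk ∈ (Aᶜ).offDiag, Real.sqrt (cpl2 R p (b jk.1) (b jk.2))) / c

lemma sum_Jt (A : Finset ι) (F : ι → ℝ) : ∑ j : Jt A, F j.1 = ∑ j ∈ Aᶜ, F j := by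
  have h1 := sum_split A F
  have h2 := Finset.sum_add_sum_compl A F
  have h3 : ∑ a : At A, F a.1 = ∑ a ∈ A, F a := Finset.sum_coe_sort A F
  linarith

theorem cT_eq (hD : Dat p p' φ t τ b) (A : Finset ι) (s : ℝ) (ω : Fin n → ℝ) {z : ℂ}
    (hz : 0 < z.im) (c : ℝ) :
    cT c (Zs p φ τ b A s ω z) =
      cE (S0 p φ τ) (Res789.Res (Hm (graphOf p) s ω) z) p b A c := by
  unfold cT cE
  congr 2
  · congr 1
    rw [← sum_Jt A (fun j => Real.sqrt (cpl (GA (S0 p φ τ) p A b)
      (Res789.Res (Hm (graphOf p) s ω) z) p (b j)))]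
    refine Finset.sum_congr rfl fun j _ => ?_
    rw [cS_eq hD A s ω hz]
  · have h1 : ∀ j k : Jt A, (if j = k then (0 : ℝ) else Real.sqrt (cP (Zs p φ τ b A s ω z) j k)) =
        (if j.1 = k.1 then 0 else Real.sqrt (cpl2 (Res789.Res (Hm (graphOf p) s ω) z) p
          (b j.1) (b k.1))) := by
      intro j k
      rw [cP_eq]
      by_cases h : j = k
      · rw [if_pos h, if_pos (congrArg Subtype.val h)]
      · rw [if_neg h, if_neg (fun h' => h (Subtype.ext h'))]
    simp only [h1]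
    have h2 : ∀ j : Jt A, ∑ k : Jt A, (if j.1 = k.1 then (0 : ℝ) else
        Real.sqrt (cpl2 (Res789.Res (Hm (graphOf p) s ω) z) p (b j.1) (b k.1))) =
        ∑ k ∈ Aᶜ, (if j.1 = k then (0 : ℝ) else
        Real.sqrt (cpl2 (Res789.Res (Hm (graphOf p) s ω) z) p (b j.1) (b k))) := fun j =>
      sum_Jt A (fun k => if j.1 = k then (0 : ℝ) else
        Real.sqrt (cpl2 (Res789.Res (Hm (graphOf p) s ω) z) p (b j.1) (b k)))
    simp only [h2]
    rw [sum_Jt A (fun j => ∑ k ∈ Aᶜ, (if j = k then (0 : ℝ) else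
        Real.sqrt (cpl2 (Res789.Res (Hm (graphOf p) s ω) z) p (b j) (b k)))),
      ← Finset.sum_product']
    rw [← Finset.diag_union_offDiag, Finset.sum_union (Finset.disjoint_diag_offDiag _)]
    have h3 : ∑ x ∈ (Aᶜ).diag, (if x.1 = x.2 then (0 : ℝ) else
        Real.sqrt (cpl2 (Res789.Res (Hm (graphOf p) s ω) z) p (b x.1) (b x.2))) = 0 := by
      apply Finset.sum_eq_zero
      intro x hx
      rw [if_pos (Finset.mem_diag.1 hx).2]
    rw [h3, zero_add]
    refine Finset.sum_congr rfl fun x hx => ?_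
    rw [if_neg (Finset.mem_offDiag.1 hx).2.2]

/-- blocks of the good edges -/
lemma Zs_eJ (A : Finset ι) (s : ℝ) (ω : Fin n → ℝ) (z : ℂ) (j : Jt A) :
    (Zs p φ τ b A s ω z).submatrix (eJ j) (eJ j) = BE p s ω z (b j.1) := by
  ext x y
  fin_cases x <;> fin_cases y <;> rfl

/-- 598's cavity block is 269's -/
lemma B0_bridge (hp : IsPort p) (s : ℝ) (ω : Fin n → ℝ) {z : ℂ} (hz : 0 < z.im) (h : HE n d) :
    Dec598.B0 (BE p s ω z h) = B0 p s ω z h := by
  have h1 : Res598.Siegel (BE p s ω z h) := (sieg_BE hp s ω hz h).siegel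
  unfold Dec598.B0 B0 cavB
  have h2 := Res598.mob_inv h1 Dec598.neg_Wm_symm
  have h3 : Res598.cx (-Dec598.Wm) = -W2 := by
    ext i j
    fin_cases i <;> fin_cases j <;> simp [Dec598.Wm, W2]
  rw [h3, ← sub_eq_add_neg] at h2
  rw [← h2, Matrix.nonsing_inv_nonsing_inv _
    (Res598.siegel_mob h1 Dec598.neg_Wm_symm).isUnit]

lemma uA_injective (A : Finset ι) : Function.Injective (uA A) := by
  intro a a' h
  have := Sum.inr_injective h
  exact (Prod.mk.inj this).2

/-- **30.3, deterministic decoupling for port-numbered graphs** -/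
theorem dec_port (hD : Dat p p' φ t τ b) (A : Finset ι) (s : ℝ) (ω : Fin n → ℝ)
    {UT : Matrix T T ℝ} (hU : UTᵀ = UT) {z : ℂ} (hz : 0 < z.im) {c : ℝ} (hc : 0 < c)
    (hB : ∀ j, j ∉ A → ∀ y : Fin 2 → ℂ,
      c * ∑ i, ‖y i‖ ^ 2 ≤ Res598.qf (Res598.imM (BE p s ω z (b j))) y)
    (hlt : cE (S0 p φ τ) (Res789.Res (Hm (graphOf p) s ω) z) p b A c < 1) :
    Res598.Near (cE (S0 p φ τ) (Res789.Res (Hm (graphOf p) s ω) z) p b A c /
        (1 - cE (S0 p φ τ) (Res789.Res (Hm (graphOf p) s ω) z) p b A c))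
      (treeOut (Res789.Res (hT p φ s ω UT) z) (tt t A)
        (leafXi (SgB p φ t τ b A s ω UT z) (fun j : Jt A => B0 p s ω z (b j.1)) (aJ A) (uA A)))
      ((Res789.Res (Hm (graphOf p') s ω + lift (Dec598.emb φ) UT) z).submatrix φ φ) := by
  have hZ := siegel_Zs hD A s ω hz
  have hRT : Res598.Siegel (Res789.Res (hT p φ s ω UT) z) :=
    (Res789.Res_sieg (hT_symm p φ s ω hU) hz).siegel
  have hS1 : (Zs p φ τ b A s ω z).submatrix sS sS =
      (Res789.Res (Hm (graphOf p) s ω) z).submatrix (Phi p φ τ b A ∘ sS) (Phi p φ τ b A ∘ sS) :=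
    rfl
  have hd := hdec hD A s ω hU hz
  rw [← hS1] at hd
  have hB' : ∀ (j : Jt A) (y : Fin 2 → ℂ), c * ∑ i, ‖y i‖ ^ 2 ≤
      Res598.qf (Res598.imM ((Zs p φ τ b A s ω z).submatrix (eJ j) (eJ j))) y := by
    intro j y
    rw [Zs_eJ]
    exact hB j.1 j.2 y
  have key := Dec598.dec_main hZ (U1_symm t A hU) hRT (siegel_SgB hD A s ω hU hz) hd (aJ A)
    (uA_injective A) (tt t A) hc hB' (by rw [cT_eq hD A s ω hz]; exact hlt)
  rw [cT_eq hD A s ω hz] at key
  have e1 : (fun j : Jt A => Dec598.B0 ((Zs p φ τ b A s ω z).submatrix (eJ j) (eJ j))) =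
      fun j : Jt A => B0 p s ω z (b j.1) := by
    funext j
    rw [Zs_eJ, B0_bridge hD.port s ω hz]
  rw [e1] at key
  have e2 : (Res598.mob (pert (U1 t A UT) (aJ A) (uA A) (tt t A)) (Zs p φ τ b A s ω z)).submatrix
      Sum.inl Sum.inl =
      (Res789.Res (Hm (graphOf p') s ω + lift (Dec598.emb φ) UT) z).submatrix φ φ := by
    rw [hpert hD A UT s ω]
    have h1 := Dec598.Res_lift (Hm_symm (graphOf p) s ω) (hD.Phi_injective A)
      (Dec598.pert_symm (U1_symm t A hU) (aJ A) (uA A) (tt t A)) hz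
    have h2 := congrArg (fun M : Matrix (Idx T (Bt A) (Jt A)) (Idx T (Bt A) (Jt A)) ℂ =>
      M.submatrix Sum.inl Sum.inl) h1
    exact h2.symm
  rw [e2] at key
  exact key

/-! ## the root corner -/

/-- minus the root edge -/
def UR (r0 r1 : T) : Matrix T T ℝ := -edgeM (fun _ : Unit => r0) (fun _ => r1)

lemma UR_symm (r0 r1 : T) : (UR r0 r1)ᵀ = UR r0 r1 := by
  unfold UR
  rw [Matrix.transpose_neg, Dec598.edgeM_symm]

/-- **the root corner is the cavity block** -/
theorem root_corner (hp' : IsPort p') (s : ℝ) (ω : Fin n → ℝ) {z : ℂ} (hz : 0 < z.im)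
    {h0 : HE n d} {r0 r1 : T} (h0r : φ r0 = h0.1) (h1r : φ r1 = (p' h0).1) :
    ((Res789.Res (Hm (graphOf p') s ω + lift (Dec598.emb φ) (UR r0 r1)) z).submatrix φ φ).submatrix
      ![r0, r1] ![r0, r1] = B0 p' s ω z h0 := by
  rw [ScaleV355.B0_eq hp' s ω hz]
  have e1 : Hm (graphOf p') s ω + lift (Dec598.emb φ) (UR r0 r1) = ScaleV355.H0m p' s ω h0 := by
    unfold ScaleV355.H0m UR
    congr 1
    rw [Dec598.lift_neg, Dec598.lift_edgeM]
    have h1 : Res789.emb ![h0.1, (p' h0).1] (-ScaleV355.Wr) =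
        - (E1 h0.1 (p' h0).1 + E1 (p' h0).1 h0.1) := by
      have hne : h0.1 ≠ (p' h0).1 := (hp'.noloop h0).symm
      ext x y
      rw [Res789.emb_apply]
      simp only [Fin.sum_univ_two, ScaleV355.Wr, Matrix.neg_apply, Matrix.add_apply, E1]
      by_cases a1 : x = h0.1 <;> by_cases a2 : y = (p' h0).1 <;> by_cases a3 : x = (p' h0).1 <;>
        by_cases a4 : y = h0.1 <;>
        simp [a1, a2, a3, a4, hne, hne.symm, eq_comm]
    rw [h1, edgeM_sum]
    simp only [Finset.univ_unique, Finset.sum_singleton, Function.comp_apply, h0r, h1r]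
  rw [e1]
  ext x y
  have hφ : ∀ x : Fin 2, φ (![r0, r1] x) = ![h0.1, (p' h0).1] x := by
    intro x
    fin_cases x
    · exact h0r
    · exact h1r
  simp only [Matrix.submatrix_apply, hφ]

end main

end Crest.Agent.R166.DecP789
end

-- ▼ part R166/DecP4_789

/-!
# R166, section 30.3, port side, part 4 (helper789)

The tree of 327 with roots `Bool` and letters `NZ d` (nonzero ports):
* `phi p h0 L : Tr Bool (NZ d) L → Fin n`, injective with range the ball of depth `< L`;
* `leafT L i = par L (layE (L+1) i)`, parent of the boundary index `i : BI d (L+1)`;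
* `hT_eq` : the tree Hamiltonian is `hTree (fun x => s * ω (phi x))`;
* `dat_tree` : the resampling move as a `Dat` with these types.
-/

set_option autoImplicit false
set_option linter.unusedSectionVars false

open Matrix Finset

namespace Crest.Agent.R166.DecP789

open Crest.Agent.R166 Crest.Agent.R166.Stab269
open Crest.Agent.R166.Dec598 (edgeM lift)
open Crest.Agent.R166.SwP470 (BVal bv TL BI NZ NZw wd rt tau ab np)
open Crest.Agent.R166.TreeT327

variable {n d : ℕ} [NeZero d]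

/-- the ball vertex of a tree vertex -/
def phi (p : Equiv.Perm (HE n d)) (h0 : HE n d) (L : ℕ) (x : Tr Bool (NZ d) L) : Fin n :=
  bv p h0 (rtT x) ((wordT x).map Subtype.val)

/-- the parent of a boundary index -/
def leafT (L : ℕ) (i : BI d (L + 1)) : Tr Bool (NZ d) (L + 1) := par L (layE (L + 1) i)

lemma NZw_map (w : List (NZ d)) : NZw (w.map Subtype.val) := by
  intro k hk
  obtain ⟨a, _, rfl⟩ := List.mem_map.1 hk
  exact a.2

lemma exists_map {w : List (Fin d)} (hw : NZw w) :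
    ∃ v : List (NZ d), v.map Subtype.val = w := by
  induction w with
  | nil => exact ⟨[], rfl⟩
  | cons a w ih =>
    obtain ⟨v, hv⟩ := ih (fun k hk => hw k (List.mem_cons_of_mem _ hk))
    exact ⟨⟨a, hw a List.mem_cons_self⟩ :: v, by simp [hv]⟩

lemma map_inj {v w : List (NZ d)} (h : v.map Subtype.val = w.map Subtype.val) : v = w :=
  List.map_injective_iff.2 Subtype.val_injective h

variable {p : Equiv.Perm (HE n d)} {h0 : HE n d} {L : ℕ}

theorem phi_injective (htl : TL L p h0) : Function.Injective (phi p h0 L) := by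
  intro x y h
  have hx := wordT_length x
  have hy := wordT_length y
  have := htl _ _ _ _ (NZw_map _) (NZw_map _) (by simpa using hx.le) (by simpa using hy.le) h
  exact trExt this.1 (map_inj this.2)

theorem phi_range (x : Fin n) : x ∈ Set.range (phi p h0 L) ↔
    ∃ s w, NZw w ∧ w.length < L ∧ bv p h0 s w = x := by
  constructor
  · rintro ⟨y, rfl⟩
    exact ⟨rtT y, _, NZw_map _, by simpa using wordT_length y, rfl⟩
  · rintro ⟨s, w, hw, hl, rfl⟩
    obtain ⟨v, rfl⟩ := exists_map hw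
    obtain ⟨y, h1, h2⟩ := exists_tr s v (L := L) (by simpa using hl)
    exact ⟨y, by rw [phi, h1, h2]⟩

/-- the word of a boundary index -/
lemma wd_eq (i : BI d (L + 1)) :
    wd i.2 = (wordT (leafT L i)).map Subtype.val ++ [(i.2 (Fin.last L)).1] := by
  have h1 := wordL_layE (L + 1) i
  have h2 := wordT_par L (layE (L + 1) i)
  have h3 : (layE (L + 1) i).2 = i.2 (Fin.last L) := rfl
  rw [h2, h3] at h1
  have h4 : wd i.2 = (List.ofFn i.2).map Subtype.val := by
    unfold wd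
    rw [List.map_ofFn]
    rfl
  rw [h4, ← h1, List.map_append]
  rfl

lemma rtT_leafT (i : BI d (L + 1)) : rtT (leafT L i) = i.1 := rtL_layE (L + 1) i

theorem phi_leafT (i : BI d (L + 1)) : phi p h0 (L + 1) (leafT L i) = (tau p h0 i).1 := by
  unfold phi tau
  rw [wd_eq, SwP470.desc_fst_snoc, rtT_leafT]

/-- **the resampling move with 327's tree types** -/
theorem dat_tree (hp : IsPort p) {b : BI d (L + 1) → HE n d} (h : BVal (L + 1) p h0 b) :
    Dat p (np p h0 b) (phi p h0 (L + 1)) (leafT L) (tau p h0) b :=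
  dat_np (Nat.succ_le_succ (Nat.zero_le L)) hp h (phi_injective h.tl)
    (fun x => phi_range x) (fun i => phi_leafT i)

/-! ## the tree Hamiltonian -/

/-- neighbours of a ball vertex -/
theorem adj_bv (hp : IsPort p) (s : Bool) (w : List (Fin d)) (v : Fin n) :
    (graphOf p).Adj (bv p h0 s w) v ↔
      (∃ k, k ≠ 0 ∧ v = bv p h0 s (w ++ [k])) ∨
        v = (desc p (rt p h0 s) w).1 := by
  rw [hp.adj_iff]
  set g := p (desc p (rt p h0 s) w) with hg
  have hbv : bv p h0 s w = g.1 := rfl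
  constructor
  · rintro ⟨i, hi⟩
    have hk : ((bv p h0 s w, i) : HE n d) = rot (i - g.2) g := by
      refine Prod.ext hbv ?_
      simp [rot]
    rw [hk] at hi
    by_cases hk0 : i - g.2 = 0
    · right
      rw [hk0, rot_zero, hg, hp.inv] at hi
      exact hi.symm
    · left
      refine ⟨i - g.2, hk0, ?_⟩
      unfold bv
      rw [SwP470.desc_snoc]
      exact hi.symm
  · rintro (⟨k, _, rfl⟩ | rfl)
    · refine ⟨g.2 + k, ?_⟩
      have : ((bv p h0 s w, g.2 + k) : HE n d) = rot k g := Prod.ext hbv rfl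
      rw [this]
      unfold bv
      rw [SwP470.desc_snoc]
    · refine ⟨g.2, ?_⟩
      have : ((bv p h0 s w, g.2) : HE n d) = g := Prod.ext hbv rfl
      rw [this, hg, hp.inv]

/-- adjacency inside the ball -/
theorem adj_phi (hp : IsPort p) (htl : TL L p h0) (x y : Tr Bool (NZ d) L) :
    (graphOf p).Adj (phi p h0 L x) (phi p h0 L y) ↔
      (Ch x y ∨ Ch y x) ∨ (wordT x = [] ∧ wordT y = [] ∧ rtT x ≠ rtT y) := by
  have hx := wordT_length x
  have hy := wordT_length y
  unfold phi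
  rw [adj_bv hp]
  constructor
  · rintro (⟨k, hk, he⟩ | he)
    · -- `y` is a child of `x`
      left; left
      have hNZ : NZw ((wordT x).map Subtype.val ++ [k]) := by
        intro a ha
        rw [List.mem_append] at ha
        rcases ha with ha | ha
        · exact NZw_map _ a ha
        · rw [List.mem_singleton] at ha
          rw [ha]; exact hk
      have := htl _ _ _ _ (NZw_map _) hNZ (by simpa using hy.le) (by simp; omega) he
      refine ⟨this.1.symm, ⟨k, hk⟩, map_inj ?_⟩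
      rw [this.2, List.map_append]
      rfl
    · -- parent or other root
      rcases List.eq_nil_or_concat (wordT x) with hnil | ⟨w', a, hw⟩
      · right
        rw [hnil, List.map_nil, SwP470.desc_fst_nil hp] at he
        have := htl _ _ _ _ (NZw_map _) (by simp [NZw]) (by simpa using hy.le) (by simp) he
        refine ⟨hnil, ?_, ?_⟩
        · apply map_inj
          rw [this.2]; rfl
        · rw [this.1]
          cases rtT x <;> simp
      · left; right
        rw [List.concat_eq_append] at hw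
        have hl : (wordT x).length = w'.length + 1 := by rw [hw]; simp
        rw [hw, List.map_append, List.map_singleton, SwP470.desc_fst_snoc] at he
        have := htl _ _ _ _ (NZw_map _) (NZw_map _) (by simpa using hy.le)
          (by simp; omega) he
        exact ⟨this.1, a, by rw [hw, map_inj this.2]⟩
  · rintro ((⟨h1, a, h2⟩ | ⟨h1, a, h2⟩) | ⟨h1, h2, h3⟩)
    · left
      exact ⟨a.1, a.2, by rw [h1, h2, List.map_append]; rfl⟩
    · right
      rw [h2, List.map_append, List.map_singleton, SwP470.desc_fst_snoc, h1]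
    · right
      rw [h1, h2, List.map_nil, SwP470.desc_fst_nil hp]
      have : rtT y = !rtT x := by
        cases hx' : rtT x <;> cases hy' : rtT y <;> simp_all
      rw [this]

lemma root_iff (r : Bool) (x : Tr Bool (NZ d) (L + 1)) :
    x = root L r ↔ wordT x = [] ∧ rtT x = r := by
  constructor
  · rintro rfl
    exact ⟨wordT_root L r, rtT_root L r⟩
  · rintro ⟨h1, h2⟩
    exact trExt (by rw [rtT_root, h2]) (by rw [wordT_root, h1])

/-- **the tree Hamiltonian** -/
theorem hT_eq (hp : IsPort p) (htl : TL (L + 1) p h0) (s : ℝ) (ω : Fin n → ℝ) :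
    hT p (phi p h0 (L + 1)) s ω (UR (root L false) (root L true)) =
      hTree (fun x => s * ω (phi p h0 (L + 1) x)) := by
  classical
  ext x y
  unfold hT hTree UR
  rw [Matrix.add_apply, Matrix.submatrix_apply, Hm_apply, Matrix.add_apply, Matrix.neg_apply,
    Dec598.edgeM_apply, adjT_apply, Matrix.diagonal_apply]
  simp only [Finset.univ_unique, Finset.sum_singleton]
  have hnroot : (x = root L false ∧ y = root L true) ∨ (x = root L true ∧ y = root L false) ↔
      (wordT x = [] ∧ wordT y = [] ∧ rtT x ≠ rtT y) := by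
    rw [root_iff, root_iff, root_iff, root_iff]
    constructor
    · rintro (⟨⟨h1, h2⟩, ⟨h3, h4⟩⟩ | ⟨⟨h1, h2⟩, ⟨h3, h4⟩⟩)
      · exact ⟨h1, h3, by rw [h2, h4]; simp⟩
      · exact ⟨h1, h3, by rw [h2, h4]; simp⟩
    · rintro ⟨h1, h3, h5⟩
      cases hx : rtT x <;> cases hy : rtT y
      · exact absurd (hx.trans hy.symm) h5
      · exact Or.inl ⟨⟨h1, rfl⟩, ⟨h3, rfl⟩⟩
      · exact Or.inr ⟨⟨h1, rfl⟩, ⟨h3, rfl⟩⟩
      · exact absurd (hx.trans hy.symm) h5
  have hexcl : (x = root L false ∧ y = root L true) → ¬ (x = root L true ∧ y = root L false) := by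
    rintro ⟨h1, h2⟩ ⟨h3, _⟩
    have := (root_iff (L := L) false x).1 h1
    have h4 := (root_iff (L := L) true x).1 h3
    rw [this.2] at h4
    exact absurd h4.2 (by simp)
  have hsum : ((if x = root L false ∧ y = root L true then (1 : ℝ) else 0) +
      (if x = root L true ∧ y = root L false then 1 else 0)) =
      if wordT x = [] ∧ wordT y = [] ∧ rtT x ≠ rtT y then 1 else 0 := by
    by_cases h1 : x = root L false ∧ y = root L true
    · rw [if_pos h1, if_neg (hexcl h1), if_pos (hnroot.1 (Or.inl h1)), add_zero]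
    · by_cases h2 : x = root L true ∧ y = root L false
      · rw [if_neg h1, if_pos h2, if_pos (hnroot.1 (Or.inr h2)), zero_add]
      · rw [if_neg h1, if_neg h2, if_neg (fun h => (hnroot.2 h).elim h1 h2), zero_add]
  rw [hsum]
  have hadj := adj_phi hp htl x y
  have hinj : (phi p h0 (L + 1) x = phi p h0 (L + 1) y) ↔ x = y := (phi_injective htl).eq_iff
  have hdis : (Ch x y ∨ Ch y x) → ¬ (wordT x = [] ∧ wordT y = [] ∧ rtT x ≠ rtT y) := by
    rintro (⟨h1, _⟩ | ⟨h1, _⟩) ⟨_, _, h3⟩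
    · exact h3 h1
    · exact h3 h1.symm
  by_cases hxy : x = y
  · subst hxy
    rw [if_pos rfl, if_pos rfl]
    have h1 : ¬ (graphOf p).Adj (phi p h0 (L + 1) x) (phi p h0 (L + 1) x) :=
      (graphOf p).loopless.irrefl _
    have h2 : ¬ (wordT x = [] ∧ wordT x = [] ∧ rtT x ≠ rtT x) := fun h => h.2.2 rfl
    have h3 : ¬ (Ch x x ∨ Ch x x) := fun h => h1 (hadj.2 (Or.inl h))
    rw [if_neg h1, if_neg h2, if_neg h3]
    ring
  · have hxy' : phi p h0 (L + 1) x ≠ phi p h0 (L + 1) y := fun h => hxy (hinj.1 h)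
    rw [if_neg hxy', if_neg hxy]
    by_cases hc : Ch x y ∨ Ch y x
    · rw [if_pos (hadj.2 (Or.inl hc)), if_neg (hdis hc), if_pos hc]
      ring
    · by_cases hr : wordT x = [] ∧ wordT y = [] ∧ rtT x ≠ rtT y
      · rw [if_pos (hadj.2 (Or.inr hr)), if_pos hr, if_neg hc]
        ring
      · rw [if_neg (fun h => (hadj.1 h).elim hc hr), if_neg hr, if_neg hc]
        ring

/-- the roots -/
lemma phi_root_false (hp : IsPort p) : phi p h0 (L + 1) (root L false) = h0.1 := by
  unfold phi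
  rw [rtT_root, wordT_root]
  simp [bv, rt, hp.inv]

lemma phi_root_true : phi p h0 (L + 1) (root L true) = (p h0).1 := by
  unfold phi
  rw [rtT_root, wordT_root]
  simp [bv, rt]

/-- the root half-edge is not touched by the move -/
lemma np_root (hp : IsPort p) {b : BI d (L + 1) → HE n d} (h : BVal (L + 1) p h0 b) :
    np p h0 b h0 = p h0 := by
  have := h.np_interior (Nat.succ_le_succ (Nat.zero_le L)) hp true (w := []) (by simp [NZw])
    (by simp)
  simpa [rt] using this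

/-! ## final form -/

set_option synthInstance.maxSize 4000
set_option synthInstance.maxHeartbeats 400000
set_option maxHeartbeats 1000000

open Crest.Agent.R166.Dec598 (treeOut leafXi)

/-- the potential on the tree -/
def Vt (p : Equiv.Perm (HE n d)) (h0 : HE n d) (L : ℕ) (s : ℝ) (ω : Fin n → ℝ) :
    Tr Bool (NZ d) L → ℝ := fun x => s * ω (phi p h0 L x)

/-- the vertices of the tree and its outer boundary -/
noncomputable def S0t (p : Equiv.Perm (HE n d)) (h0 : HE n d) (L : ℕ) : Finset (Fin n) :=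
  S0 p (phi p h0 (L + 1)) (tau p h0 : BI d (L + 1) → HE n d)

/-- the leaf matrix of the decoupled system -/
noncomputable def XiP (p : Equiv.Perm (HE n d)) (h0 : HE n d) (L : ℕ) (b : BI d (L + 1) → HE n d)
    (A : Finset (BI d (L + 1))) (s : ℝ) (ω : Fin n → ℝ) (z : ℂ) :
    Matrix (At A ⊕ Jt A) (At A ⊕ Jt A) ℂ :=
  leafXi (SgB p (phi p h0 (L + 1)) (leafT L) (tau p h0) b A s ω
    (UR (root L false) (root L true)) z) (fun j : Jt A => B0 p s ω z (b j.1)) (aJ A) (uA A)


end Crest.Agent.R166.DecP789
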