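import Crest.Agent.R166.Res3_789
import Crest.Agent.R166.Ports_269
import Crest.Agent.R166.Stab_269
import Crest.Agent.R166.Mob2_598

-- ▼ part R166/Res4_789
section

/-!
# R166, section 10: resolvent toolkit, part 4 (helper789)

Vector form of (10.2), invariant couplings `Coup`, (10.7) cavity comparison, and (10.3) Schur
complement formulas.
-/

set_option autoImplicit false
set_option linter.unusedSectionVars false

open Matrix Complex

namespace Crest.Agent.R166.Res789

variable {V : Type*} [Fintype V] [DecidableEq V]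
variable {P : Type*} [Fintype P] [DecidableEq P]
variable {Q : Type*} [Fintype Q] [DecidableEq Q]

open Res598 (nq Near)

/-! ## vector form of (10.2) -/






/-! ## invariant couplings -/

/-- the index sets `f`, `g` are `κ`-coupled:
`‖(Im R_f)^{-1/2} R_{fg} (Im R_g)^{-1/2}‖ ≤ κ` -/
def Coup (κ : ℝ) (f : P → V) (g : Q → V) (R : Matrix V V ℂ) : Prop :=
  ∀ (x : P → ℂ) (y : Q → ℂ), ‖x ⬝ᵥ (R.submatrix f g *ᵥ y)‖ ≤
    κ * nq (imM (R.submatrix f f)) x * nq (imM (R.submatrix g g)) y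

lemma Coup.symm {κ : ℝ} {f : P → V} {g : Q → V} {R : Matrix V V ℂ} (hR : Rᵀ = R)
    (h : Coup κ f g R) : Coup κ g f R := by
  intro x y
  have h1 := h y x
  have e : x ⬝ᵥ (R.submatrix g f *ᵥ y) = y ⬝ᵥ (R.submatrix f g *ᵥ x) := by
    rw [Matrix.dotProduct_mulVec x, ← Matrix.mulVec_transpose, Matrix.transpose_submatrix, hR,
      dotProduct_comm]
  rw [e]
  refine h1.trans (le_of_eq ?_)
  ring

lemma Coup.mono {κ κ' : ℝ} {f : P → V} {g : Q → V} {R : Matrix V V ℂ} (h : Coup κ f g R)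
    (hk : κ ≤ κ') : Coup κ' f g R := fun x y =>
  (h x y).trans (mul_le_mul_of_nonneg_right (mul_le_mul_of_nonneg_right hk
    (Res598.nq_nonneg _ _)) (Res598.nq_nonneg _ _))






/-! ## (10.7) -/











/-! ## (10.3) Schur complement -/

section schur

variable {S T : Type*} [Fintype S] [DecidableEq S] [Fintype T] [DecidableEq T]

lemma fromBlocks_symm {A : Matrix S S ℝ} {B : Matrix S T ℝ} {D : Matrix T T ℝ} (hA : Aᵀ = A)
    (hD : Dᵀ = D) : (fromBlocks A B Bᵀ D)ᵀ = fromBlocks A B Bᵀ D := by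
  rw [Matrix.fromBlocks_transpose, hA, hD, Matrix.transpose_transpose]

lemma cx_fromBlocks (A : Matrix S S ℝ) (B : Matrix S T ℝ) (C : Matrix T S ℝ) (D : Matrix T T ℝ) :
    cx (fromBlocks A B C D) = fromBlocks (cx A) (cx B) (cx C) (cx D) := by
  unfold cx; rw [Matrix.fromBlocks_map]

lemma toBlocks₁₁_eq (R : Matrix (S ⊕ T) (S ⊕ T) ℂ) : R.toBlocks₁₁ = R.submatrix Sum.inl Sum.inl :=
  rfl

/-- the four block equations `(H - z) R = 1` and `R (H - z) = 1` -/
lemma schur_eqs {A : Matrix S S ℝ} {B : Matrix S T ℝ} {D : Matrix T T ℝ} (hA : Aᵀ = A)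
    (hD : Dᵀ = D) {z : ℂ} (hz : 0 < z.im) :
    let R := Res (fromBlocks A B Bᵀ D) z
    ((cx A - z • 1) * R.toBlocks₁₁ + cx B * R.toBlocks₂₁ = 1) ∧
    ((cx A - z • 1) * R.toBlocks₁₂ + cx B * R.toBlocks₂₂ = 0) ∧
    (cx Bᵀ * R.toBlocks₁₁ + (cx D - z • 1) * R.toBlocks₂₁ = 0) ∧
    (cx Bᵀ * R.toBlocks₁₂ + (cx D - z • 1) * R.toBlocks₂₂ = 1) := by
  intro R
  have h := sub_mul_Res (fromBlocks_symm (B := B) hA hD) hz
  change (cx (fromBlocks A B Bᵀ D) - z • 1) * R = 1 at h
  have e1 : cx (fromBlocks A B Bᵀ D) - z • (1 : Matrix (S ⊕ T) (S ⊕ T) ℂ) =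
      fromBlocks (cx A - z • 1) (cx B) (cx Bᵀ) (cx D - z • 1) := by
    rw [cx_fromBlocks, ← Matrix.fromBlocks_one, Matrix.fromBlocks_smul, sub_eq_add_neg,
      Matrix.fromBlocks_neg, Matrix.fromBlocks_add]
    simp [sub_eq_add_neg]
  rw [e1, ← Matrix.fromBlocks_toBlocks R, Matrix.fromBlocks_multiply, ← Matrix.fromBlocks_one,
    Matrix.fromBlocks_inj] at h
  obtain ⟨h1, h2, h3, h4⟩ := h
  exact ⟨h1, h2, h3, h4⟩

/-- `R_{TS} = - R^{(S)} H_{TS} R_{S}` -/
theorem schur₂₁ {A : Matrix S S ℝ} {B : Matrix S T ℝ} {D : Matrix T T ℝ} (hA : Aᵀ = A)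
    (hD : Dᵀ = D) {z : ℂ} (hz : 0 < z.im) :
    (Res (fromBlocks A B Bᵀ D) z).toBlocks₂₁ =
      -(Res D z * cx Bᵀ * (Res (fromBlocks A B Bᵀ D) z).toBlocks₁₁) := by
  obtain ⟨_, _, h3, _⟩ := schur_eqs (B := B) hA hD hz
  have h := congrArg (fun M => Res D z * M) h3
  simp only [Matrix.mul_add, Matrix.mul_zero, ← Matrix.mul_assoc, Res_mul_sub hD hz,
    Matrix.one_mul] at h
  exact eq_neg_of_add_eq_zero_right h

/-- `R_{TT} = R^{(S)} - R^{(S)} H_{TS} R_{ST}` -/
theorem schur₂₂' {A : Matrix S S ℝ} {B : Matrix S T ℝ} {D : Matrix T T ℝ} (hA : Aᵀ = A)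
    (hD : Dᵀ = D) {z : ℂ} (hz : 0 < z.im) :
    (Res (fromBlocks A B Bᵀ D) z).toBlocks₂₂ =
      Res D z - Res D z * cx Bᵀ * (Res (fromBlocks A B Bᵀ D) z).toBlocks₁₂ := by
  obtain ⟨_, _, _, h4⟩ := schur_eqs (B := B) hA hD hz
  have h := congrArg (fun M => Res D z * M) h4
  simp only [Matrix.mul_add, Matrix.mul_one, ← Matrix.mul_assoc, Res_mul_sub hD hz,
    Matrix.one_mul] at h
  exact eq_sub_of_add_eq' h

/-- `R_S = (H_S - z - H_{ST} R^{(S)} H_{TS})⁻¹` -/
theorem schur₁₁_inv {A : Matrix S S ℝ} {B : Matrix S T ℝ} {D : Matrix T T ℝ} (hA : Aᵀ = A)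
    (hD : Dᵀ = D) {z : ℂ} (hz : 0 < z.im) :
    ((Res (fromBlocks A B Bᵀ D) z).toBlocks₁₁)⁻¹ =
      cx A - z • 1 - cx B * Res D z * cx Bᵀ := by
  obtain ⟨h1, _, _, _⟩ := schur_eqs (B := B) hA hD hz
  apply Matrix.inv_eq_left_inv
  rw [schur₂₁ hA hD hz, Matrix.mul_neg, ← sub_eq_add_neg] at h1
  rw [Matrix.sub_mul]
  simp only [Matrix.mul_assoc] at h1 ⊢
  exact h1

theorem schur₁₁ {A : Matrix S S ℝ} {B : Matrix S T ℝ} {D : Matrix T T ℝ} (hA : Aᵀ = A)
    (hD : Dᵀ = D) {z : ℂ} (hz : 0 < z.im) :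
    (Res (fromBlocks A B Bᵀ D) z).toBlocks₁₁ =
      (cx A - z • 1 - cx B * Res D z * cx Bᵀ)⁻¹ := by
  have hs : Sieg ((Res (fromBlocks A B Bᵀ D) z).toBlocks₁₁) := by
    rw [toBlocks₁₁_eq]
    exact (Res_sieg (fromBlocks_symm hA hD) hz).submatrix Sum.inl_injective
  rw [← schur₁₁_inv hA hD hz, Matrix.nonsing_inv_nonsing_inv _ hs.isUnit_det]


end schur

/-! ## reindexing, general vertex sets -/

/-- reindexing of the resolvent -/
theorem Res_submatrix_equiv {V' : Type*} [Fintype V'] [DecidableEq V'] (H : Matrix V V ℝ)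
    (z : ℂ) (e : V' ≃ V) : Res (H.submatrix e e) z = (Res H z).submatrix e e := by
  unfold Res
  rw [← Matrix.inv_submatrix_equiv]
  congr 1
  rw [cx_submatrix]
  ext i j
  simp only [Matrix.sub_apply, Matrix.submatrix_apply, Matrix.smul_apply, Matrix.one_apply,
    EmbeddingLike.apply_eq_iff_eq]

section subtypes

variable (p : V → Prop) [DecidablePred p]

/-- restriction of a matrix to the complement of `{p}` -/
def rst {R : Type*} (H : Matrix V V R) : Matrix {x // ¬ p x} {x // ¬ p x} R :=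
  H.submatrix Subtype.val Subtype.val

/-- restriction to `{p}` -/
def rst' {R : Type*} (H : Matrix V V R) : Matrix {x // p x} {x // p x} R :=
  H.submatrix Subtype.val Subtype.val

lemma submatrix_sumCompl {H : Matrix V V ℝ} (hH : Hᵀ = H) :
    H.submatrix (Equiv.sumCompl p) (Equiv.sumCompl p) =
      fromBlocks (rst' p H) (H.submatrix Subtype.val Subtype.val)
        ((H.submatrix (Subtype.val : {x // p x} → V) (Subtype.val : {x // ¬ p x} → V))ᵀ)
        (rst p H) := by
  ext i j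
  rcases i with i | i <;> rcases j with j | j
  · rfl
  · rfl
  · have := congrFun (congrFun hH i.1) j.1
    simp only [Matrix.transpose_apply] at this
    simp [← this]
  · rfl



/-- a decoupled matrix has a decoupled resolvent -/
theorem Res_decoupled {H : Matrix V V ℝ} (hH : Hᵀ = H) {z : ℂ} (hz : 0 < z.im)
    (h0 : ∀ x y, p x → ¬ p y → H x y = 0) :
    (∀ x y, p x → ¬ p y → Res H z x y = 0) ∧ rst' p (Res H z) = Res (rst' p H) z ∧
      rst p (Res H z) = Res (rst p H) z := by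
  have hA : (rst' p H)ᵀ = rst' p H := by unfold rst'; rw [Matrix.transpose_submatrix, hH]
  have hD : (rst p H)ᵀ = rst p H := by unfold rst; rw [Matrix.transpose_submatrix, hH]
  have hB : H.submatrix (Subtype.val : {x // p x} → V) (Subtype.val : {x // ¬ p x} → V) = 0 := by
    ext x y
    exact h0 x.1 y.1 x.2 y.2
  have e0 := submatrix_sumCompl p hH
  have h11 := schur₁₁ (B := H.submatrix (Subtype.val : {x // p x} → V)
    (Subtype.val : {x // ¬ p x} → V)) hA hD hz
  have h21 := schur₂₁ (B := H.submatrix (Subtype.val : {x // p x} → V)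
    (Subtype.val : {x // ¬ p x} → V)) hA hD hz
  have h22 := schur₂₂' (B := H.submatrix (Subtype.val : {x // p x} → V)
    (Subtype.val : {x // ¬ p x} → V)) hA hD hz
  rw [← e0, Res_submatrix_equiv, hB] at h11 h21 h22
  simp only [Matrix.transpose_zero, cx_zero, Matrix.mul_zero, Matrix.zero_mul, sub_zero,
    neg_zero] at h11 h21 h22
  refine ⟨fun x y hx hy => ?_, h11, h22⟩
  have h := congrFun (congrFun h21 ⟨y, hy⟩) ⟨x, hx⟩
  have h' : Res H z y x = 0 := h
  have := congrFun (congrFun (Res_transpose hH hz) x) y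
  rw [Matrix.transpose_apply] at this
  rw [← this]; exact h'

end subtypes

end Crest.Agent.R166.Res789
end

-- ▼ part R166/DecP_789

/-!
# R166, section 30.3, port side, part 1 (helper789)

* `Hm (graphOf p) s ω` as a sum over half-edges;
* `IsMove p p' τ a b`: the simultaneous switching of the boundary half-edges `τ i` (`a i = p (τ i)`)
  with the chosen half-edges `b i`: new pairs `τ i — b i`, `a i — p (b i)`;
* `Hm_move`: the perturbation of the Hamiltonian.
-/

set_option autoImplicit false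
set_option linter.unusedSectionVars false

open Matrix Finset

namespace Crest.Agent.R166.DecP789

open Crest.Agent.R166 Crest.Agent.R166.Stab269

variable {n d : ℕ}

/-- the elementary matrix with entry 1 at `(x,y)` -/
def E1 (x y : Fin n) : Matrix (Fin n) (Fin n) ℝ :=
  fun a b => if a = x ∧ b = y then 1 else 0

/-- the symmetric matrix of the pair of half-edges `h`, `h'` -/
def EE (h h' : HE n d) : Matrix (Fin n) (Fin n) ℝ := E1 h.1 h'.1 + E1 h'.1 h.1




/-- the adjacency matrix as a sum over half-edges -/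
theorem adj_sum {p : Equiv.Perm (HE n d)} (hp : IsPort p) (x y : Fin n)
    [Decidable ((graphOf p).Adj x y)] :
    (if (graphOf p).Adj x y then (1 : ℝ) else 0) = ∑ h : HE n d, E1 h.1 (p h).1 x y := by
  classical
  by_cases hxy : (graphOf p).Adj x y
  · rw [if_pos hxy]
    obtain ⟨i, hi⟩ := hp.adj_iff.1 hxy
    rw [Finset.sum_eq_single ((x, i) : HE n d)]
    · simp [E1, hi]
    · intro h _ hne
      unfold E1
      rw [if_neg]
      rintro ⟨h1, h2⟩
      apply hne
      apply hp.fst_inj h1.symm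
      rw [← h2, hi]
    · simp
  · rw [if_neg hxy]
    symm
    apply Finset.sum_eq_zero
    intro h _
    unfold E1
    rw [if_neg]
    rintro ⟨h1, h2⟩
    apply hxy
    rw [h1, h2]
    exact hp.adj_half h

theorem Hm_sum {p : Equiv.Perm (HE n d)} (hp : IsPort p) (s : ℝ) (ω : Fin n → ℝ) :
    Hm (graphOf p) s ω = (∑ h : HE n d, E1 h.1 (p h).1) + s • Matrix.diagonal ω := by
  classical
  ext x y
  rw [Hm_apply, adj_sum hp, Matrix.add_apply, Matrix.sum_apply, Matrix.smul_apply,
    Matrix.diagonal_apply, smul_eq_mul]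

/-- **the simultaneous switching**: `τ i` boundary half-edges, `b i` chosen half-edges. -/
structure IsMove {ι : Type*} (p p' : Equiv.Perm (HE n d)) (τ b : ι → HE n d) : Prop where
  /-- new partner of the boundary half-edge -/
  ntau : ∀ i, p' (τ i) = b i
  /-- new partner of the outer half-edge -/
  nout : ∀ i, p' (p (τ i)) = p (b i)
  /-- other half-edges are unchanged -/
  rest : ∀ h, (∀ i, h ≠ τ i) → (∀ i, h ≠ p (τ i)) → (∀ i, h ≠ b i) → (∀ i, h ≠ p (b i)) →
    p' h = p h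
  /-- the `4 |ι|` half-edges are distinct -/
  tau_inj : Function.Injective τ
  b_inj : Function.Injective b
  tau_out : ∀ i j, τ i ≠ p (τ j)
  tau_b : ∀ i j, τ i ≠ b j
  tau_c : ∀ i j, τ i ≠ p (b j)
  b_c : ∀ i j, b i ≠ p (b j)

namespace IsMove

variable {ι : Type*} [Fintype ι] [DecidableEq ι] {p p' : Equiv.Perm (HE n d)} {τ b : ι → HE n d}

/-- the four families of moved half-edges -/
def fam (p : Equiv.Perm (HE n d)) (τ b : ι → HE n d) : ι × Fin 4 → HE n d :=
  fun x => ![τ x.1, p (τ x.1), b x.1, p (b x.1)] x.2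

theorem fam_injective (hp : IsPort p) (hm : IsMove p p' τ b) :
    Function.Injective (fam p τ b) := by
  have h1 : ∀ i j, p (τ i) ≠ b j := fun i j h => by
    have := congrArg p h
    rw [hp.inv] at this
    exact hm.tau_c i j this
  have h2 : ∀ i j, p (τ i) ≠ p (b j) := fun i j h => hm.tau_b i j (p.injective h)
  rintro ⟨i, x⟩ ⟨j, y⟩ h
  unfold fam at h
  fin_cases x <;> fin_cases y <;> simp only [Fin.zero_eta, Fin.mk_one, Fin.reduceFinMk,
    Matrix.cons_val_zero, Matrix.cons_val_one, Matrix.cons_val] at h ⊢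
  · rw [hm.tau_inj h]
  · exact absurd h (hm.tau_out i j)
  · exact absurd h (hm.tau_b i j)
  · exact absurd h (hm.tau_c i j)
  · exact absurd h.symm (hm.tau_out j i)
  · rw [hm.tau_inj (p.injective h)]
  · exact absurd h (h1 i j)
  · exact absurd h (h2 i j)
  · exact absurd h.symm (hm.tau_b j i)
  · exact absurd h.symm (h1 j i)
  · rw [hm.b_inj h]
  · exact absurd h (hm.b_c i j)
  · exact absurd h.symm (hm.tau_c j i)
  · exact absurd h.symm (h2 j i)
  · exact absurd h.symm (hm.b_c j i)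
  · rw [hm.b_inj (p.injective h)]

theorem eq_of_notMem (hm : IsMove p p' τ b) {h : HE n d}
    (hh : h ∉ Finset.univ.image (fam p τ b)) : p' h = p h := by
  have key : ∀ x, h ≠ fam p τ b x := fun x hx =>
    hh (Finset.mem_image.2 ⟨x, Finset.mem_univ _, hx.symm⟩)
  exact hm.rest h (fun i => key (i, 0)) (fun i => key (i, 1)) (fun i => key (i, 2))
    (fun i => key (i, 3))

/-- `p'` on the outer chosen half-edges -/
theorem nb (hp' : IsPort p') (hm : IsMove p p' τ b) (i : ι) : p' (b i) = τ i := by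
  rw [← hm.ntau, hp'.inv]

theorem nc (hp' : IsPort p') (hm : IsMove p p' τ b) (i : ι) : p' (p (b i)) = p (τ i) := by
  rw [← hm.nout, hp'.inv]

/-- **the perturbation of the Hamiltonian** -/
theorem Hm_move (hp : IsPort p) (hp' : IsPort p') (hm : IsMove p p' τ b) (s : ℝ)
    (ω : Fin n → ℝ) :
    Hm (graphOf p') s ω = Hm (graphOf p) s ω +
      ∑ i, (EE (τ i) (b i) + EE (p (τ i)) (p (b i)) - EE (τ i) (p (τ i)) -
        EE (b i) (p (b i))) := by
  classical
  rw [Hm_sum hp, Hm_sum hp']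
  have key : ∀ F : HE n d → HE n d → Matrix (Fin n) (Fin n) ℝ,
      ∑ h : HE n d, (F h (p' h) - F h (p h)) =
      ∑ i, ((F (τ i) (b i) - F (τ i) (p (τ i))) +
        (F (p (τ i)) (p (b i)) - F (p (τ i)) (τ i)) +
        (F (b i) (τ i) - F (b i) (p (b i))) +
        (F (p (b i)) (p (τ i)) - F (p (b i)) (b i))) := by
    intro F
    rw [← Finset.sum_subset (Finset.subset_univ (Finset.univ.image (fam p τ b)))]
    · rw [Finset.sum_image (fun x _ y _ h => fam_injective hp hm h), Fintype.sum_prod_type]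
      refine Finset.sum_congr rfl fun i _ => ?_
      rw [Fin.sum_univ_four]
      simp only [fam, Matrix.cons_val_zero, Matrix.cons_val_one, Matrix.cons_val]
      rw [hm.ntau, hm.nout, hm.nb hp', hm.nc hp', hp.inv, hp.inv]
    · intro h _ hh
      rw [hm.eq_of_notMem hh, sub_self]
  have h1 := key (fun h h' => E1 h.1 h'.1)
  rw [Finset.sum_sub_distrib] at h1
  have h2 : (∑ h : HE n d, E1 h.1 (p' h).1) = (∑ h : HE n d, E1 h.1 (p h).1) +
      ∑ i, (EE (τ i) (b i) + EE (p (τ i)) (p (b i)) - EE (τ i) (p (τ i)) -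
        EE (b i) (p (b i))) := by
    rw [← sub_eq_iff_eq_add'] 
    rw [h1]
    refine Finset.sum_congr rfl fun i _ => ?_
    unfold EE
    abel
  rw [h2]
  abel

end IsMove

/-! ## elementary matrices on an index type -/

section elem

variable {κ : Type*} [Fintype κ] [DecidableEq κ]

/-- elementary matrix on an index type -/
def eg (i j : κ) : Matrix κ κ ℝ := fun a b => if a = i ∧ b = j then 1 else 0

/-- symmetric elementary matrix -/
def es (i j : κ) : Matrix κ κ ℝ := eg i j + eg j i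



lemma lift_eg (Φ : κ → Fin n) (i j : κ) :
    Dec598.lift (Dec598.emb Φ) (eg i j) = E1 (Φ i) (Φ j) := by
  ext x y
  simp only [Dec598.lift, Matrix.mul_apply, Dec598.emb, Matrix.transpose_apply, eg, E1]
  rw [Finset.sum_eq_single j]
  · rw [Finset.sum_eq_single i]
    · by_cases h1 : x = Φ i <;> by_cases h2 : y = Φ j <;> simp [h1, h2]
    · intro b _ hb
      rw [if_neg (c := b = i ∧ j = j) (fun h => hb h.1)]
      simp
    · simp
  · intro b _ hb
    rw [Finset.sum_eq_zero]
    · simp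
    · intro a _
      rw [if_neg (c := a = i ∧ b = j) (fun h => hb h.2)]
      simp
  · simp


lemma lift_neg (P : Matrix (Fin n) κ ℝ) (V : Matrix κ κ ℝ) :
    Dec598.lift P (-V) = -Dec598.lift P V := by
  simp [Dec598.lift]

lemma lift_sub (P : Matrix (Fin n) κ ℝ) (V V' : Matrix κ κ ℝ) :
    Dec598.lift P (V - V') = Dec598.lift P V - Dec598.lift P V' := by
  rw [sub_eq_add_neg, Dec598.lift_add, lift_neg, sub_eq_add_neg]


lemma lift_es (Φ : κ → Fin n) {i j : κ} {h h' : HE n d} (hi : Φ i = h.1) (hj : Φ j = h'.1) :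
    Dec598.lift (Dec598.emb Φ) (es i j) = EE h h' := by
  unfold es EE
  rw [Dec598.lift_add, lift_eg, lift_eg, hi, hj]

end elem

/-! ## the tree is disconnected after the removal of the boundary edges -/

section tree

variable {ι : Type*} [Fintype ι] [DecidableEq ι]
variable {T : Type*} [Fintype T] [DecidableEq T]

/-- the boundary half-edges `τ i` are exactly the half-edges leaving the set `φ(T)` -/
structure IsBdry (p : Equiv.Perm (HE n d)) (φ : T → Fin n) (τ : ι → HE n d) : Prop where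
  inj : Function.Injective φ
  tau_inj : Function.Injective τ
  out : ∀ i, (p (τ i)).1 ∉ Set.range φ
  closed : ∀ h : HE n d, h.1 ∈ Set.range φ → (p h).1 ∉ Set.range φ → ∃ i, h = τ i
  tau_mem : ∀ i, (τ i).1 ∈ Set.range φ

/-- the Hamiltonian with the boundary edges removed -/
noncomputable def Hcut (p : Equiv.Perm (HE n d)) (τ : ι → HE n d) (s : ℝ) (ω : Fin n → ℝ) :
    Matrix (Fin n) (Fin n) ℝ := Hm (graphOf p) s ω - ∑ i, EE (τ i) (p (τ i))


theorem Hcut_cross {p : Equiv.Perm (HE n d)} (hp : IsPort p) {φ : T → Fin n} {τ : ι → HE n d}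
    (hb : IsBdry p φ τ) (s : ℝ) (ω : Fin n → ℝ) {x y : Fin n} (hx : x ∈ Set.range φ)
    (hy : y ∉ Set.range φ) : Hcut p τ s ω x y = 0 := by
  classical
  have hxy : x ≠ y := fun h => hy (h ▸ hx)
  unfold Hcut
  rw [Hm_sum hp, Matrix.sub_apply, Matrix.add_apply, Matrix.smul_apply,
    Matrix.diagonal_apply_ne _ hxy, smul_zero, add_zero, Matrix.sum_apply, Matrix.sum_apply,
    sub_eq_zero]
  have h1 : ∀ i, EE (τ i) (p (τ i)) x y = E1 (τ i).1 (p (τ i)).1 x y := by
    intro i
    unfold EE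
    rw [Matrix.add_apply]
    have : E1 (p (τ i)).1 (τ i).1 x y = 0 := by
      unfold E1
      rw [if_neg]
      rintro ⟨h, _⟩
      exact hb.out i (h ▸ hx)
    rw [this, add_zero]
  simp only [h1]
  rw [← Finset.sum_subset (Finset.subset_univ (Finset.univ.image τ))]
  · rw [Finset.sum_image (fun a _ b _ h => hb.tau_inj h)]
  · intro h _ hh
    unfold E1
    rw [if_neg]
    rintro ⟨h2, h3⟩
    obtain ⟨i, hi⟩ := hb.closed h (h2 ▸ hx) (h3 ▸ hy)
    exact hh (Finset.mem_image.2 ⟨i, Finset.mem_univ _, hi.symm⟩)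

/-- inside the tree the boundary edges are not seen -/
theorem Hcut_inner {p : Equiv.Perm (HE n d)} {φ : T → Fin n} {τ : ι → HE n d}
    (hb : IsBdry p φ τ) (s : ℝ) (ω : Fin n → ℝ) {x y : Fin n} (hx : x ∈ Set.range φ)
    (hy : y ∈ Set.range φ) : Hcut p τ s ω x y = Hm (graphOf p) s ω x y := by
  classical
  unfold Hcut
  rw [Matrix.sub_apply, Matrix.sum_apply, Finset.sum_eq_zero, sub_zero]
  intro i _
  unfold EE
  rw [Matrix.add_apply]
  unfold E1
  rw [if_neg, if_neg, add_zero]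
  · rintro ⟨h, _⟩
    exact hb.out i (h ▸ hx)
  · rintro ⟨_, h⟩
    exact hb.out i (h ▸ hy)

end tree

/-- a decoupled set: the resolvent on the range of an injection -/
theorem Res_decoupled_range {T : Type*} [Fintype T] [DecidableEq T]
    {H : Matrix (Fin n) (Fin n) ℝ} (hH : Hᵀ = H) {z : ℂ} (hz : 0 < z.im) {φ : T → Fin n}
    (hφ : Function.Injective φ)
    (h0 : ∀ x y, x ∈ Set.range φ → y ∉ Set.range φ → H x y = 0) :
    (∀ x y, x ∈ Set.range φ → y ∉ Set.range φ → Res789.Res H z x y = 0) ∧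
      (Res789.Res H z).submatrix φ φ = Res789.Res (H.submatrix φ φ) z := by
  classical
  obtain ⟨q, hq⟩ : ∃ q : Fin n → Prop, ∀ x, q x ↔ x ∈ Set.range φ := ⟨_, fun _ => Iff.rfl⟩
  obtain ⟨h1, h2, _⟩ := Res789.Res_decoupled q hH hz
    (fun x y hx hy => h0 x y ((hq x).1 hx) (fun h => hy ((hq y).2 h)))
  refine ⟨fun x y hx hy => h1 x y ((hq x).2 hx) (fun h => hy ((hq y).1 h)), ?_⟩
  let e : T ≃ {x // q x} := Equiv.ofBijective (fun t => ⟨φ t, (hq _).2 ⟨t, rfl⟩⟩) (by
    constructor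
    · intro a b hab
      exact hφ (congrArg Subtype.val hab)
    · rintro ⟨x, hx⟩
      obtain ⟨t, ht⟩ := (hq x).1 hx
      exact ⟨t, Subtype.ext ht⟩)
  have h3 := congrArg (fun M => Matrix.submatrix M e e) h2
  have h4 : (Res789.rst' q (Res789.Res H z)).submatrix e e =
      (Res789.Res H z).submatrix φ φ := rfl
  have h5 : (Res789.rst' q H).submatrix e e = H.submatrix φ φ := rfl
  rw [h4, ← Res789.Res_submatrix_equiv, h5] at h3
  exact h3

end Crest.Agent.R166.DecP789
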