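import Mathlib
import Crest.Agent.R166.Defs_419

/-!
Row 166, section 32 (graph half), helper420: Poisson kernel facts.

* `poisson_tendsto`: Poisson regularisation of a measure with a continuous density near `E`.
-/

set_option autoImplicit false

namespace Crest.Agent.R166.DosA420

open MeasureTheory Filter Topology Set

noncomputable section

/-- Poisson kernel (without the factor `1/π`) -/
def pk (E η : ℝ) (x : ℝ) : ℝ := η / ((x - E) ^ 2 + η ^ 2)

theorem pk_nonneg {E η : ℝ} (hη : 0 ≤ η) (x : ℝ) : 0 ≤ pk E η x := by
  unfold pk; positivity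

theorem continuous_pk {E η : ℝ} (hη : 0 < η) : Continuous (pk E η) := by
  unfold pk
  refine continuous_const.div (by fun_prop) fun x => ?_
  positivity

theorem pk_le {E η : ℝ} (hη : 0 < η) (x : ℝ) : pk E η x ≤ 1 / η := by
  unfold pk
  rw [div_le_div_iff₀ (by positivity) hη]
  nlinarith [sq_nonneg (x - E)]




end

end Crest.Agent.R166.DosA420
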