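import Crest.Agent.R166.GaussQ_286
import Crest.Agent.R166.Noise_547
import Crest.Agent.R166.Spine_419

/-!
# Row 166 (helper286): spectral form of the test arrays

* `spArr c g` : `∑ c_i g_i g_iᵀ`
* `testArr_eq` : `testArr H e g = spArr (1 / (n (λ_i - e))) (O g)`
* `integral_testArr`, `TestVal_eq`
* `mn_re`, `mn_im`
* `TestVal_orth` : exact `O(m)`-invariance
-/

set_option autoImplicit false
set_option linter.unusedSectionVars false

noncomputable section

open MeasureTheory ProbabilityTheory Matrix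
open Crest.Agent.R166.Noise547 (ev ev_orth ev_compl fM)

namespace Crest.Agent.R166.SpArr286

open Gauss286

variable {ι κ : Type*} [Fintype ι] [Fintype κ]

/-- `∑ c_i g_i g_iᵀ` -/
def spArr (c : ι → ℝ) (g : ι → κ → ℝ) : Matrix κ κ ℝ :=
  Matrix.of fun k l => ∑ i, c i * g i k * g i l

lemma spArr_apply (c : ι → ℝ) (g : ι → κ → ℝ) (k l : κ) :
    spArr c g k l = ∑ i, c i * g i k * g i l := rfl




lemma spArr_smul (t : ℝ) (c : ι → ℝ) (g : ι → κ → ℝ) :
    spArr (fun i => t * c i) g = t • spArr c g := by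
  ext k l
  simp only [Matrix.smul_apply, spArr_apply, smul_eq_mul, Finset.mul_sum]
  exact Finset.sum_congr rfl fun i _ => by ring

lemma continuous_spArr (c : ι → ℝ) : Continuous fun g : ι → κ → ℝ => spArr c g := by
  refine continuous_pi fun k => continuous_pi fun l => ?_
  exact continuous_finsetSum _ fun i _ => by fun_prop

/-- left multiplication by an orthogonal matrix, as a measurable equivalence -/
def leftEquiv [DecidableEq ι] (O : Matrix ι ι ℝ) (h1 : O * Oᵀ = 1) (h2 : Oᵀ * O = 1) :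
    (ι → κ → ℝ) ≃ᵐ (ι → κ → ℝ) where
  toFun g i k := ∑ j, O i j * g j k
  invFun g i k := ∑ j, Oᵀ i j * g j k
  left_inv g := by
    have h : Oᵀ * (O * Matrix.of g) = Matrix.of g := by rw [← Matrix.mul_assoc, h2, Matrix.one_mul]
    ext i k
    exact congrFun (congrFun h i) k
  right_inv g := by
    have h : O * (Oᵀ * Matrix.of g) = Matrix.of g := by rw [← Matrix.mul_assoc, h1, Matrix.one_mul]
    ext i k
    exact congrFun (congrFun h i) k
  measurable_toFun := measurable_left O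
  measurable_invFun := measurable_left Oᵀ

/-- right multiplication by an orthogonal matrix, as a measurable equivalence -/
def rightEquiv [DecidableEq κ] (P : Matrix κ κ ℝ) (h1 : P * Pᵀ = 1) (h2 : Pᵀ * P = 1) :
    (ι → κ → ℝ) ≃ᵐ (ι → κ → ℝ) where
  toFun g i k := ∑ l, g i l * P l k
  invFun g i k := ∑ l, g i l * Pᵀ l k
  left_inv g := by
    have h : Matrix.of g * P * Pᵀ = Matrix.of g := by rw [Matrix.mul_assoc, h1, Matrix.mul_one]
    ext i k
    exact congrFun (congrFun h i) k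
  right_inv g := by
    have h : Matrix.of g * Pᵀ * P = Matrix.of g := by rw [Matrix.mul_assoc, h2, Matrix.mul_one]
    ext i k
    exact congrFun (congrFun h i) k
  measurable_toFun := measurable_right P
  measurable_invFun := measurable_right Pᵀ

/-- left invariance, arbitrary functions -/
theorem integral_left [DecidableEq ι] {E : Type*} [NormedAddCommGroup E] [NormedSpace ℝ E]
    (O : Matrix ι ι ℝ) (h1 : O * Oᵀ = 1) (h2 : Oᵀ * O = 1) (F : (ι → κ → ℝ) → E) :
    ∫ g, F (fun i k => ∑ j, O i j * g j k) ∂(gm ι κ) = ∫ g, F g ∂(gm ι κ) := by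
  classical
  have hmp : MeasurePreserving (leftEquiv (κ := κ) O h1 h2) (gm ι κ) (gm ι κ) :=
    ⟨(leftEquiv O h1 h2).measurable, gm_map_left O h1⟩
  exact hmp.integral_comp' F

/-- right invariance, arbitrary functions -/
theorem integral_right [DecidableEq κ] {E : Type*} [NormedAddCommGroup E] [NormedSpace ℝ E]
    (P : Matrix κ κ ℝ) (h1 : P * Pᵀ = 1) (h2 : Pᵀ * P = 1) (F : (ι → κ → ℝ) → E) :
    ∫ g, F (fun i k => ∑ l, g i l * P l k) ∂(gm ι κ) = ∫ g, F g ∂(gm ι κ) := by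
  have hmp : MeasurePreserving (rightEquiv (ι := ι) P h1 h2) (gm ι κ) (gm ι κ) :=
    ⟨(rightEquiv P h1 h2).measurable, gm_map_right P h2⟩
  exact hmp.integral_comp' F


/-- general form: `gᵀ f(H) g = ∑ f(λ_i) (O g)_i (O g)_iᵀ`, `O` = eigenvectors -/
lemma transpose_fM_mul [DecidableEq ι] {H : Matrix ι ι ℝ} (hH : H.IsHermitian) (f : ℝ → ℝ)
    (g : ι → κ → ℝ) :
    (Matrix.of g)ᵀ * fM hH f * Matrix.of g =
      spArr (fun i => f (hH.eigenvalues i)) (fun i k => ∑ j, ev hH i j * g j k) := by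
  ext k l
  simp only [Matrix.mul_apply, Matrix.transpose_apply, Matrix.of_apply, spArr_apply,
    Noise547.fM_apply, Finset.sum_mul, Finset.mul_sum]
  calc ∑ y, ∑ x, ∑ i, g x k * (f (hH.eigenvalues i) * (ev hH i x * ev hH i y)) * g y l
      = ∑ y, ∑ i, ∑ x, g x k * (f (hH.eigenvalues i) * (ev hH i x * ev hH i y)) * g y l :=
        Finset.sum_congr rfl fun y _ => Finset.sum_comm
    _ = ∑ i, ∑ y, ∑ x, g x k * (f (hH.eigenvalues i) * (ev hH i x * ev hH i y)) * g y l :=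
        Finset.sum_comm
    _ = _ := Finset.sum_congr rfl fun i _ => Finset.sum_congr rfl fun y _ =>
        Finset.sum_congr rfl fun x _ => by ring

/-- the matrix of eigenvectors -/
def evM [DecidableEq ι] {H : Matrix ι ι ℝ} (hH : H.IsHermitian) : Matrix ι ι ℝ :=
  Matrix.of fun i j => ev hH i j

lemma evM_mul_transpose [DecidableEq ι] {H : Matrix ι ι ℝ} (hH : H.IsHermitian) :
    evM hH * (evM hH)ᵀ = 1 := by
  ext i j
  rw [Matrix.mul_apply, Matrix.one_apply]
  simp only [evM, Matrix.of_apply, Matrix.transpose_apply]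
  exact ev_orth hH i j

lemma transpose_mul_evM [DecidableEq ι] {H : Matrix ι ι ℝ} (hH : H.IsHermitian) :
    (evM hH)ᵀ * evM hH = 1 := by
  ext i j
  rw [Matrix.mul_apply, Matrix.one_apply]
  simp only [evM, Matrix.of_apply, Matrix.transpose_apply]
  exact ev_compl hH i j


lemma inv_sub_smul [DecidableEq ι] {H : Matrix ι ι ℝ} (hH : H.IsHermitian) {e : ℝ}
    (he : ∀ i, hH.eigenvalues i ≠ e) :
    (H - e • (1 : Matrix ι ι ℝ))⁻¹ = fM hH (fun t => (t - e)⁻¹) := by
  apply Matrix.inv_eq_right_inv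
  have h1 : H - e • (1 : Matrix ι ι ℝ) = fM hH (fun t => t - e) := by
    have h2 := Noise547.fM_sub hH (fun t => t) (fun _ => e)
    have h3 := Noise547.fM_const_mul hH e (fun _ => 1)
    rw [Noise547.fM_one] at h3
    simp only [mul_one] at h3
    rw [← h2, h3, Noise547.fM_id]
  rw [h1, Noise547.fM_mul, ← Noise547.fM_one hH]
  refine Noise547.fM_congr hH fun i => ?_
  exact mul_inv_cancel₀ (sub_ne_zero.mpr (he i))

section Arr

variable {n m : ℕ} {H : Matrix (Fin n) (Fin n) ℝ}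

lemma testArr_eq (hH : H.IsHermitian) {e : ℝ} (he : ∀ i, hH.eigenvalues i ≠ e)
    (g : Fin n → Fin m → ℝ) :
    testArr H e g = spArr (fun i => ((n : ℝ) * (hH.eigenvalues i - e))⁻¹)
      (fun i k => ∑ j, ev hH i j * g j k) := by
  unfold testArr
  rw [inv_sub_smul hH he, transpose_fM_mul, ← spArr_smul]
  congr 1
  ext i
  rw [mul_inv, one_div]

/-- integral form, arbitrary observables -/
theorem integral_testArr (hH : H.IsHermitian) {e : ℝ} (he : ∀ i, hH.eigenvalues i ≠ e)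
    {E : Type*} [NormedAddCommGroup E] [NormedSpace ℝ E] (F : Matrix (Fin m) (Fin m) ℝ → E) :
    ∫ g, F (testArr H e g) ∂(gaussM n m) =
      ∫ g, F (spArr (fun i => ((n : ℝ) * (hH.eigenvalues i - e))⁻¹) g) ∂(gm (Fin n) (Fin m)) := by
  simp only [testArr_eq hH he]
  exact integral_left (evM hH) (evM_mul_transpose hH) (transpose_mul_evM hH)
    (fun g => F (spArr (fun i => ((n : ℝ) * (hH.eigenvalues i - e))⁻¹) g))

/-! ### The normalised trace -/

/-- rescaled eigenvalues -/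
def hl (hH : H.IsHermitian) (E : ℝ) (i : Fin n) : ℝ := (n : ℝ) * (hH.eigenvalues i - E)

lemma mn_eq (hH : H.IsHermitian) {z : ℂ} (hz : z.im ≠ 0) :
    mn H z = (∑ i, ((hH.eigenvalues i : ℂ) - z)⁻¹) / n := by
  unfold mn
  congr 1
  simp only [Matrix.trace, Matrix.diag, Noise547.res_apply hH hz]
  rw [Finset.sum_comm]
  refine Finset.sum_congr rfl fun i _ => ?_
  rw [← Finset.mul_sum]
  have h : ∑ x, (ev hH i x : ℂ) * (ev hH i x : ℂ) = 1 := by
    have h1 := ev_orth hH i i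
    rw [if_pos rfl] at h1
    exact_mod_cast congrArg (fun t : ℝ => (t : ℂ)) h1
  rw [h, mul_one]

lemma inv_zz (hn : 0 < n) {K : ℝ} (hK : 0 < K) (l E : ℝ) :
    ((l : ℂ) - zz E K n)⁻¹ / n =
      (((n : ℝ) * (l - E) / (((n : ℝ) * (l - E)) ^ 2 + K ^ 2) : ℝ) : ℂ) +
        ((K / (((n : ℝ) * (l - E)) ^ 2 + K ^ 2) : ℝ) : ℂ) * Complex.I := by
  have hn' : (n : ℝ) ≠ 0 := by exact_mod_cast hn.ne'
  have hn'' : (n : ℂ) ≠ 0 := by exact_mod_cast hn.ne'
  set y : ℝ := (n : ℝ) * (l - E) with hy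
  have hd : y ^ 2 + K ^ 2 ≠ 0 := by positivity
  have hdc : (y : ℂ) ^ 2 + (K : ℂ) ^ 2 ≠ 0 := by exact_mod_cast hd
  have e1 : ((l : ℂ) - zz E K n) * n = (y : ℂ) - K * Complex.I := by
    unfold zz
    rw [hy]
    push_cast
    field_simp
    ring
  have e2 : ((l : ℂ) - zz E K n)⁻¹ / n = ((y : ℂ) - K * Complex.I)⁻¹ := by
    rw [← e1, mul_inv, div_eq_mul_inv]
  have hne : (y : ℂ) - K * Complex.I ≠ 0 := by
    intro h
    have := congrArg Complex.im h
    simp at this
    exact hK.ne' this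
  rw [e2]
  symm
  apply eq_inv_of_mul_eq_one_left
  push_cast
  have hI : Complex.I ^ 2 = -1 := Complex.I_sq
  field_simp
  ring_nf
  rw [hI]
  ring

lemma mn_zz (hH : H.IsHermitian) (hn : 0 < n) {K : ℝ} (hK : 0 < K) (E : ℝ) :
    mn H (zz E K n) = ((∑ i, hl hH E i / (hl hH E i ^ 2 + K ^ 2) : ℝ) : ℂ) +
      ((∑ i, K / (hl hH E i ^ 2 + K ^ 2) : ℝ) : ℂ) * Complex.I := by
  have hz : (zz E K n).im ≠ 0 := by
    have hn' : (0 : ℝ) < n := by exact_mod_cast hn
    have : (zz E K n).im = K / n := by simp [zz]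
    rw [this]
    positivity
  rw [mn_eq hH hz, Finset.sum_div]
  simp only [inv_zz hn hK]
  rw [Finset.sum_add_distrib, ← Finset.sum_mul]
  simp only [hl, Complex.ofReal_sum]

/-- `Re m_n(E + iK/n) = ∑ y/(y² + K²)` -/
theorem mn_re (hH : H.IsHermitian) (hn : 0 < n) {K : ℝ} (hK : 0 < K) (E : ℝ) :
    (mn H (zz E K n)).re = ∑ i, hl hH E i / (hl hH E i ^ 2 + K ^ 2) := by
  rw [mn_zz hH hn hK, Complex.add_re, Complex.ofReal_re, Complex.mul_I_re, Complex.ofReal_im,
    neg_zero, add_zero]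

/-- `Im m_n(E + iK/n) = ∑ K/(y² + K²)` -/
theorem mn_im (hH : H.IsHermitian) (hn : 0 < n) {K : ℝ} (hK : 0 < K) (E : ℝ) :
    (mn H (zz E K n)).im = ∑ i, K / (hl hH E i ^ 2 + K ^ 2) := by
  rw [mn_zz hH hn hK, Complex.add_im, Complex.ofReal_im, Complex.mul_I_im, Complex.ofReal_re,
    zero_add]

/-! ### `TestVal` in terms of the eigenvalues -/

lemma mul_sub_shift (hn : 0 < n) (l E x : ℝ) :
    (n : ℝ) * (l - (E + x / n)) = (n : ℝ) * (l - E) - x := by
  have hn' : (n : ℝ) ≠ 0 := by exact_mod_cast hn.ne'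
  field_simp
  ring

/-- for `x` outside the rescaled spectrum -/
theorem integral_uOf (hH : H.IsHermitian) (hn : 0 < n) (E ρ K : ℝ) {x : ℝ}
    (hx : ∀ i, hl hH E i ≠ x) (f : Matrix (Fin m) (Fin m) ℂ → ℝ) :
    ∫ g, f (uOf H E ρ K x g) ∂(gaussM n m) =
      ∫ g, f (Cay ((1 / (Real.pi * ρ)) • (spArr (fun i => (hl hH E i - x)⁻¹) g -
        (mn H (zz E K n)).re • (1 : Matrix (Fin m) (Fin m) ℝ)))) ∂(gm (Fin n) (Fin m)) := by
  have hn' : (n : ℝ) ≠ 0 := by exact_mod_cast hn.ne'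
  have he : ∀ i, hH.eigenvalues i ≠ E + x / n := by
    intro i h
    apply hx i
    unfold hl
    rw [h]
    field_simp
    ring
  have h := integral_testArr (m := m) hH he (fun M => f (Cay ((1 / (Real.pi * ρ)) • (M -
    (mn H (zz E K n)).re • (1 : Matrix (Fin m) (Fin m) ℝ)))))
  simp only [mul_sub_shift hn] at h
  exact h

/-- **spectral form of `TestVal`** -/
theorem TestVal_eq (hH : H.IsHermitian) (hn : 0 < n) (E ρ K δ : ℝ)
    (f : Matrix (Fin m) (Fin m) ℂ → ℝ) :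
    TestVal H E ρ K δ m f = δ⁻¹ * ∫ x in (0 : ℝ)..δ,
      ∫ g, f (Cay ((1 / (Real.pi * ρ)) • (spArr (fun i => (hl hH E i - x)⁻¹) g -
        (mn H (zz E K n)).re • (1 : Matrix (Fin m) (Fin m) ℝ)))) ∂(gm (Fin n) (Fin m)) := by
  unfold TestVal
  congr 1
  apply intervalIntegral.integral_congr_ae
  have hfin : (Set.range (hl hH E)).Finite := Set.finite_range _
  have hae : ∀ᵐ x ∂(volume : Measure ℝ), x ∉ Set.range (hl hH E) :=
    measure_eq_zero_iff_ae_notMem.mp (Set.Finite.measure_zero hfin volume)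
  filter_upwards [hae] with x hx _
  refine integral_uOf hH hn E ρ K (fun i h => hx ⟨i, h⟩) f

/-! ### Exact orthogonal invariance -/

lemma testArr_right (e : ℝ) (g : Fin n → Fin m → ℝ) (P : Matrix (Fin m) (Fin m) ℝ) :
    testArr H e (fun i k => ∑ l, g i l * P l k) = Pᵀ * testArr H e g * P := by
  unfold testArr
  have h : Matrix.of (fun i k => ∑ l, g i l * P l k) = Matrix.of g * P := rfl
  rw [h, Matrix.transpose_mul, Matrix.mul_smul, Matrix.smul_mul]
  simp only [Matrix.mul_assoc]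

/-- Cayley transform of a conjugated matrix -/
lemma Cay_conj {P : Matrix (Fin m) (Fin m) ℝ} (h1 : P * Pᵀ = 1) (C : Matrix (Fin m) (Fin m) ℝ) :
    Cay (Pᵀ * C * P) = (P.map (fun x : ℝ => (x : ℂ)))ᵀ * Cay C * P.map (fun x : ℝ => (x : ℂ)) := by
  set Q : Matrix (Fin m) (Fin m) ℂ := P.map (fun x : ℝ => (x : ℂ)) with hQ
  have h1' : Q * Qᵀ = 1 := by
    have := congrArg (fun M : Matrix (Fin m) (Fin m) ℝ => M.map (algebraMap ℝ ℂ)) h1
    rw [Matrix.map_mul, Matrix.map_one _ (map_zero _) (map_one _), Matrix.transpose_map] at this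
    exact this
  have h2' : Qᵀ * Q = 1 := mul_eq_one_comm.mp h1'
  have hmap : (Pᵀ * C * P).map (fun x : ℝ => (x : ℂ)) = Qᵀ * C.map (fun x : ℝ => (x : ℂ)) * Q := by
    have := Matrix.map_mul (L := Pᵀ * C) (M := P) (f := algebraMap ℝ ℂ)
    have h3 := Matrix.map_mul (L := Pᵀ) (M := C) (f := algebraMap ℝ ℂ)
    rw [h3, Matrix.transpose_map] at this
    exact this
  unfold Cay
  rw [hmap]
  set D := C.map (fun x : ℝ => (x : ℂ))
  have e1 : Qᵀ * D * Q - Complex.I • (1 : Matrix (Fin m) (Fin m) ℂ) =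
      Qᵀ * (D - Complex.I • 1) * Q := by
    rw [Matrix.mul_sub, Matrix.sub_mul, Matrix.mul_smul, Matrix.smul_mul, Matrix.mul_one, h2']
  have e2 : Qᵀ * D * Q + Complex.I • (1 : Matrix (Fin m) (Fin m) ℂ) =
      Qᵀ * (D + Complex.I • 1) * Q := by
    rw [Matrix.mul_add, Matrix.add_mul, Matrix.mul_smul, Matrix.smul_mul, Matrix.mul_one, h2']
  have hQi : Q⁻¹ = Qᵀ := Matrix.inv_eq_right_inv h1'
  have hQti : (Qᵀ)⁻¹ = Q := Matrix.inv_eq_right_inv h2'
  rw [e1, e2, Matrix.mul_inv_rev, Matrix.mul_inv_rev, hQi, hQti]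
  calc Qᵀ * (D - Complex.I • 1) * Q * (Qᵀ * ((D + Complex.I • 1)⁻¹ * Q))
      = Qᵀ * (D - Complex.I • 1) * (Q * Qᵀ) * ((D + Complex.I • 1)⁻¹ * Q) := by
        simp only [Matrix.mul_assoc]
    _ = _ := by rw [h1', Matrix.mul_one]; simp only [Matrix.mul_assoc]

lemma uOf_right {P : Matrix (Fin m) (Fin m) ℝ} (h1 : P * Pᵀ = 1) (h2 : Pᵀ * P = 1)
    (E ρ K x : ℝ) (g : Fin n → Fin m → ℝ) :
    uOf H E ρ K x (fun i k => ∑ l, g i l * P l k) =
      (P.map (fun x : ℝ => (x : ℂ)))ᵀ * uOf H E ρ K x g * P.map (fun x : ℝ => (x : ℂ)) := by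
  unfold uOf
  rw [← Cay_conj h1]
  congr 1
  rw [testArr_right, Matrix.mul_smul, Matrix.smul_mul, Matrix.mul_sub, Matrix.sub_mul,
    Matrix.mul_smul, Matrix.smul_mul, Matrix.mul_one, h2]

/-- **exact orthogonal invariance of `TestVal`** -/
theorem TestVal_orth (E ρ K δ : ℝ) {P : Matrix (Fin m) (Fin m) ℝ} (h : P ∈ Matrix.orthogonalGroup (Fin m) ℝ)
    (f : Matrix (Fin m) (Fin m) ℂ → ℝ) :
    TestVal H E ρ K δ m (fun U => f (P.map (fun x : ℝ => (x : ℂ)) * U *
      (P.map (fun x : ℝ => (x : ℂ))).transpose)) = TestVal H E ρ K δ m f := by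
  have h1 : P * Pᵀ = 1 := (Matrix.mem_orthogonalGroup_iff (Fin m) ℝ).mp h
  have h2 : Pᵀ * P = 1 := mul_eq_one_comm.mp h1
  unfold TestVal
  congr 2
  ext x
  have h3 := integral_right (ι := Fin n) (κ := Fin m) Pᵀ
    (by rw [Matrix.transpose_transpose]; exact h2) (by rw [Matrix.transpose_transpose]; exact h1)
    (fun g => f (uOf H E ρ K x g))
  rw [show gaussM n m = gm (Fin n) (Fin m) from rfl, ← h3]
  refine integral_congr_ae (Filter.Eventually.of_forall fun g => ?_)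
  simp only
  rw [uOf_right (P := Pᵀ) (by rw [Matrix.transpose_transpose]; exact h2)
    (by rw [Matrix.transpose_transpose]; exact h1)]
  rfl

end Arr

end Crest.Agent.R166.SpArr286
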