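import Crest.Agent.R166.DosA_420
import Crest.Agent.R166.Noise_547
import Crest.Agent.R166.SpArr_286
import Crest.Agent.R166.EnvC_536
import Crest.Agent.R166.Spine_419

/-!
Row 166, section 32 (graph half), helper420.

* `Whp` calculus: `whp_mono`, `whp_and`, `whp_finset`, `whp_base`.
* `im_mn_ze`: imaginary part of the normalised trace = average of the Poisson kernel.
* `MomLim`: convergence of the normalised traces of the powers to the tree moments.
* `imFix_of_momLim`: `MomLim` + density of the tree DOS near `E` imply `ImFix`.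
-/

set_option autoImplicit false

namespace Crest.Agent.R166.DosB420

open MeasureTheory Filter Topology Set Crest.ProbabilityR.RandomMatrix
open Crest.Agent.R166.DosA420

/-! ### `Whp` calculus -/

section Whp

variable {n d : ℕ}

theorem whp_mono {ε ε' : ℝ} (hε : ε ≤ ε') {P Q : SimpleGraph (Fin n) → (Fin n → ℝ) → Prop}
    (h : Whp n d ε P) (hPQ : ∀ G ω, P G ω → Q G ω) : Whp n d ε' Q := by
  unfold Whp at h ⊢
  refine (measure_mono ?_).trans (h.trans (ENNReal.ofReal_le_ofReal hε))
  intro x hx hP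
  exact hx (hPQ _ _ hP)

theorem whp_and {ε ε' : ℝ} (h0 : 0 ≤ ε) (h0' : 0 ≤ ε')
    {P Q : SimpleGraph (Fin n) → (Fin n → ℝ) → Prop}
    (h : Whp n d ε P) (h' : Whp n d ε' Q) : Whp n d (ε + ε') (fun G ω => P G ω ∧ Q G ω) := by
  unfold Whp at h h' ⊢
  rw [ENNReal.ofReal_add h0 h0']
  refine le_trans (le_trans (measure_mono ?_) (measure_union_le _ _)) (add_le_add h h')
  intro x hx
  simp only [mem_ofPred_eq, not_and_or] at hx
  exact hx

/-- combination of two `Whp` facts -/
theorem whp_and_mono {ε ε' δ : ℝ} (h0 : 0 ≤ ε) (h0' : 0 ≤ ε') (hδ : ε + ε' ≤ δ)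
    {P Q R : SimpleGraph (Fin n) → (Fin n → ℝ) → Prop}
    (h : Whp n d ε P) (h' : Whp n d ε' Q) (hPQ : ∀ G ω, P G ω → Q G ω → R G ω) : Whp n d δ R :=
  whp_mono hδ (whp_and h0 h0' h h') fun G ω hh => hPQ G ω hh.1 hh.2

/-- finite intersections -/
theorem whp_finset {κ : Type*} (S : Finset κ) {ε : ℝ} (h0 : 0 ≤ ε)
    {P : κ → SimpleGraph (Fin n) → (Fin n → ℝ) → Prop} (h : ∀ k ∈ S, Whp n d ε (P k)) :
    Whp n d (S.card * ε) (fun G ω => ∀ k ∈ S, P k G ω) := by
  classical
  induction S using Finset.induction_on with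
  | empty =>
    simp [Whp]
  | insert a S ha ih =>
    have h1 := ih fun k hk => h k (Finset.mem_insert_of_mem hk)
    have h2 := h a (Finset.mem_insert_self a S)
    refine whp_and_mono h0 (mul_nonneg (Nat.cast_nonneg _) h0) ?_ h2 h1 ?_
    · rw [Finset.card_insert_of_notMem ha]
      push_cast
      linarith
    · intro G ω hP hS k hk
      rcases Finset.mem_insert.1 hk with rfl | hk
      · exact hP
      · exact hS k hk

/-- the a.s. facts: the graph is `d`-regular, the potentials are in `[-1,1]` -/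
theorem whp_base : Whp n d 0 (fun G ω => G ∈ regularGraphs n d ∧ ∀ i, |ω i| ≤ 1) := by
  rw [Whp_iff]
  have : ∀ p ∈ Ports n d, (potentialLaw n)
      {ω | ¬ (graphOf p ∈ regularGraphs n d ∧ ∀ i, |ω i| ≤ 1)} = 0 := by
    intro p hp
    have h1 := Env536.potentialLaw_ae n
    rw [ae_iff] at h1
    refine measure_mono_null ?_ h1
    intro ω hω
    simp only [mem_ofPred_eq] at hω ⊢
    intro hcon
    exact hω ⟨(mem_Ports.1 hp).graphOf_mem, hcon⟩
  rw [Finset.sum_eq_zero this]
  simp

/-- one may use the a.s. facts -/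
theorem whp_of_base {ε : ℝ} (h0 : 0 ≤ ε) {P Q : SimpleGraph (Fin n) → (Fin n → ℝ) → Prop}
    (h : Whp n d ε P)
    (hPQ : ∀ G ω, G ∈ regularGraphs n d → (∀ i, |ω i| ≤ 1) → P G ω → Q G ω) : Whp n d ε Q :=
  whp_and_mono h0 le_rfl (by rw [add_zero]) h whp_base fun G ω h1 h2 => hPQ G ω h2.1 h2.2 h1

end Whp

/-! ### spectral facts -/

section spec

variable {n : ℕ} {H : Matrix (Fin n) (Fin n) ℝ}

theorem ze_im (E η : ℝ) : (ze E η).im = η := by simp [ze]

theorem ze_re (E η : ℝ) : (ze E η).re = E := by simp [ze]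


theorem inv_im (E : ℝ) {η : ℝ} (l : ℝ) : (((l : ℂ) - ze E η)⁻¹).im = pk E η l := by
  rw [Complex.inv_im, Complex.normSq_apply]
  simp only [Complex.sub_re, Complex.sub_im, Complex.ofReal_re, Complex.ofReal_im, ze_im, ze_re,
    pk]
  congr 1 <;> ring

/-- imaginary part of the normalised trace -/
theorem im_mn_ze (hH : H.IsHermitian) {E η : ℝ} (hη : 0 < η) :
    (mn H (ze E η)).im = (∑ i, pk E η (hH.eigenvalues i)) / n := by
  rw [SpArr286.mn_eq hH (by rw [ze_im]; exact hη.ne')]
  have h1 : ((n : ℕ) : ℂ) = ((n : ℝ) : ℂ) := by push_cast; rfl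
  rw [h1, Complex.div_ofReal_im, Complex.im_sum]
  simp only [inv_im]

theorem Hm_herm {n : ℕ} (G : SimpleGraph (Fin n)) (s : ℝ) (ω : Fin n → ℝ) :
    (Hm G s ω).IsHermitian := by
  classical
  unfold Hm
  exact (G.isHermitian_adjMatrix ℝ).add ((Matrix.isHermitian_diagonal ω).smul (IsSelfAdjoint.all s))

/-- row sums of `|Hm|` -/
theorem sum_abs_Hm_le {n d : ℕ} {G : SimpleGraph (Fin n)} (hG : G ∈ regularGraphs n d) {s : ℝ}
    (hs : 0 ≤ s) {ω : Fin n → ℝ} (hω : ∀ i, |ω i| ≤ 1) (x : Fin n) :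
    ∑ y, |Hm G s ω x y| ≤ (d : ℝ) + s := by
  classical
  unfold regularGraphs at hG
  rw [Finset.mem_filter] at hG
  have hdeg := hG.2 x
  calc ∑ y, |Hm G s ω x y| ≤ ∑ y, ((if G.Adj x y then (1:ℝ) else 0) + if x = y then s else 0) := by
        refine Finset.sum_le_sum fun y _ => ?_
        unfold Hm
        rw [Matrix.add_apply]
        refine (abs_add_le _ _).trans (add_le_add ?_ ?_)
        · rw [SimpleGraph.adjMatrix_apply]
          split_ifs <;> simp
        · rw [Matrix.smul_apply, Matrix.diagonal_apply]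
          split_ifs with h
          · rw [smul_eq_mul, abs_mul, abs_of_nonneg hs]
            calc s * |ω x| ≤ s * 1 := mul_le_mul_of_nonneg_left (hω x) hs
              _ = s := mul_one s
          · simp
    _ = (d : ℝ) + s := by
        rw [Finset.sum_add_distrib, Finset.sum_ite_eq, if_pos (Finset.mem_univ _)]
        congr 1
        rw [← Finset.sum_filter, Finset.sum_const, nsmul_eq_mul, mul_one]
        norm_cast

theorem abs_eig_le {n d : ℕ} {G : SimpleGraph (Fin n)} (hG : G ∈ regularGraphs n d) {s : ℝ}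
    (hs : 0 ≤ s) {ω : Fin n → ℝ} (hω : ∀ i, |ω i| ≤ 1) (i : Fin n) :
    |(Hm_herm G s ω).eigenvalues i| ≤ (d : ℝ) + s :=
  Noise547.eig_abs_le _ (sum_abs_Hm_le hG hs hω) i

end spec

/-! ### From moments to the Poisson kernel -/

/-- convergence of the moments of the empirical spectral measure to the tree moments -/
def MomLim (d : ℕ) (s : ℝ) : Prop :=
  ∀ k : ℕ, ∀ ε : ℝ, 0 < ε → ∃ N : ℕ, ∀ n : ℕ, N ≤ n → (regularGraphs n d).Nonempty →
    Whp n d ε fun G ω => |((Hm G s ω) ^ k).trace / n - treeMoment d s k| ≤ ε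

/-- polynomial traces converge -/
theorem polyLim {d : ℕ} {s : ℝ} (hM : MomLim d s) {ν : Measure ℝ} [IsProbabilityMeasure ν]
    (hν : IsTreeDOS d s ν) (hs : 0 ≤ s) (P : Polynomial ℝ) {ε : ℝ} (hε : 0 < ε) :
    ∃ N : ℕ, ∀ n : ℕ, N ≤ n → (regularGraphs n d).Nonempty →
      Whp n d ε fun G ω =>
        |(Polynomial.aeval (Hm G s ω) P).trace / n - ∫ x, P.eval x ∂ν| ≤ ε := by
  classical
  set A : ℝ := ∑ k ∈ P.support, |P.coeff k| with hA
  have hA0 : 0 ≤ A := Finset.sum_nonneg fun k _ => abs_nonneg _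
  set δ : ℝ := min (ε / (A + 1)) (ε / (P.support.card + 1)) with hδ
  have hδ0 : 0 < δ := lt_min (by positivity) (by positivity)
  choose N hN using fun k => hM k δ hδ0
  refine ⟨P.support.sup N, fun n hn hne => ?_⟩
  have h1 : ∀ k ∈ P.support, Whp n d δ fun G ω =>
      |((Hm G s ω) ^ k).trace / n - treeMoment d s k| ≤ δ := fun k hk =>
    hN k n (le_trans (Finset.le_sup hk) hn) hne
  have h2 := whp_finset P.support hδ0.le h1
  refine whp_mono ?_ h2 ?_
  · have h3 : δ ≤ ε / (P.support.card + 1) := min_le_right _ _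
    calc (P.support.card : ℝ) * δ ≤ P.support.card * (ε / (P.support.card + 1)) :=
          mul_le_mul_of_nonneg_left h3 (Nat.cast_nonneg _)
      _ ≤ ε := by
          rw [mul_div_assoc', div_le_iff₀ (by positivity)]
          nlinarith
  · intro G ω hk
    have hint : ∀ k : ℕ, Integrable (fun x : ℝ => x ^ k) ν := by
      intro k
      have hL : 0 ≤ (d : ℝ) + s := by positivity
      refine Integrable.of_bound (by fun_prop) (((d : ℝ) + s) ^ k) ?_
      have h5 : ∀ᵐ x ∂ν, x ∈ Icc (-((d : ℝ) + s)) (d + s) := by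
        rw [ae_iff]
        exact hν.2.1
      filter_upwards [h5] with x hx
      rw [Real.norm_eq_abs, abs_pow]
      exact pow_le_pow_left₀ (abs_nonneg _) (abs_le.2 hx) k
    have e1 : (Polynomial.aeval (Hm G s ω) P).trace / n =
        ∑ k ∈ P.support, P.coeff k * (((Hm G s ω) ^ k).trace / n) := by
      rw [Polynomial.aeval_eq_sum_range' (Nat.lt_succ_self _), Matrix.trace_sum, Finset.sum_div]
      symm
      refine Finset.sum_subset_zero_on_sdiff ?_ ?_ ?_
      · intro k hk
        rw [Finset.mem_range, Nat.lt_succ_iff]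
        exact Polynomial.le_natDegree_of_mem_supp k hk
      · intro k hk
        rw [Finset.mem_sdiff, Polynomial.notMem_support_iff] at hk
        rw [hk.2, zero_smul, Matrix.trace_zero, zero_div]
      · intro k _
        rw [Matrix.trace_smul, smul_eq_mul, mul_div_assoc]
    have e2 : ∫ x, P.eval x ∂ν = ∑ k ∈ P.support, P.coeff k * treeMoment d s k := by
      have e3 : ∀ x : ℝ, P.eval x = ∑ k ∈ P.support, P.coeff k * x ^ k := fun x => by
        rw [Polynomial.eval_eq_sum, Polynomial.sum_def]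
      simp only [e3]
      rw [integral_finsetSum _ fun k _ => (hint k).const_mul _]
      refine Finset.sum_congr rfl fun k _ => ?_
      rw [integral_const_mul, hν.2.2 k]
    rw [e1, e2, ← Finset.sum_sub_distrib]
    calc |∑ k ∈ P.support, (P.coeff k * (((Hm G s ω) ^ k).trace / n) -
            P.coeff k * treeMoment d s k)|
        ≤ ∑ k ∈ P.support, |P.coeff k| * δ := by
          refine (Finset.abs_sum_le_sum_abs _ _).trans (Finset.sum_le_sum fun k hk' => ?_)
          rw [← mul_sub, abs_mul]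
          exact mul_le_mul_of_nonneg_left (hk k hk') (abs_nonneg _)
      _ = A * δ := by rw [← Finset.sum_mul]
      _ ≤ A * (ε / (A + 1)) := mul_le_mul_of_nonneg_left (min_le_left _ _) hA0
      _ ≤ ε := by
          rw [mul_div_assoc', div_le_iff₀ (by positivity)]
          nlinarith

/-- **convergence of the spectral averages of continuous functions** -/
theorem dosLim {d : ℕ} {s : ℝ} (hM : MomLim d s) {ν : Measure ℝ}
    (hν : IsTreeDOS d s ν) (hs : 0 ≤ s) {f : ℝ → ℝ} (hf : Continuous f) {ε : ℝ} (hε : 0 < ε) :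
    ∃ N : ℕ, ∀ n : ℕ, N ≤ n → (regularGraphs n d).Nonempty →
      Whp n d ε fun G ω =>
        |(∑ i, f ((Hm_herm G s ω).eigenvalues i)) / n - ∫ x, f x ∂ν| ≤ ε := by
  have := hν.1
  obtain ⟨P, hP⟩ := Noise547.exists_poly hf ((d : ℝ) + s) (show 0 < ε / 3 by positivity)
  obtain ⟨N, hN⟩ := polyLim hM hν hs P (show 0 < ε / 3 by positivity)
  refine ⟨max N 1, fun n hn hne => ?_⟩
  have h1 := hN n (le_trans (le_max_left _ _) hn) hne
  have hn1 : 1 ≤ n := le_trans (le_max_right _ _) hn
  have : Nonempty (Fin n) := ⟨⟨0, hn1⟩⟩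
  have hL : 0 ≤ (d : ℝ) + s := by positivity
  have h5 : ∀ᵐ x ∂ν, x ∈ Icc (-((d : ℝ) + s)) (d + s) := by
    rw [ae_iff]
    exact hν.2.1
  refine whp_mono (show ε / 3 ≤ ε by linarith)
    (whp_of_base (by positivity) h1 (Q := fun G ω =>
      |(∑ i, f ((Hm_herm G s ω).eigenvalues i)) / n - ∫ x, f x ∂ν| ≤ ε) ?_) fun G ω h => h
  intro G ω hG hω h
  have h2 := Noise547.logdet_poly (Hm_herm G s ω) (f := f) P (ε := ε / 3)
    (fun i => hP _ (abs_eig_le hG hs hω i))
  rw [Fintype.card_fin] at h2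
  have h3 : |∫ x, f x ∂ν - ∫ x, P.eval x ∂ν| ≤ ε / 3 := by
    have hfi : Integrable f ν := by
      obtain ⟨M, hM'⟩ := isCompact_Icc.exists_bound_of_continuousOn
        (s := Icc (-((d : ℝ) + s)) (d + s)) hf.continuousOn
      refine Integrable.of_bound hf.aestronglyMeasurable M ?_
      filter_upwards [h5] with x hx using hM' x hx
    have hPi : Integrable (fun x => P.eval x) ν := by
      obtain ⟨M, hM'⟩ := isCompact_Icc.exists_bound_of_continuousOn
        (s := Icc (-((d : ℝ) + s)) (d + s)) P.continuous.continuousOn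
      refine Integrable.of_bound P.continuous.aestronglyMeasurable M ?_
      filter_upwards [h5] with x hx using hM' x hx
    rw [← integral_sub hfi hPi]
    have h6 := norm_integral_le_of_norm_le_const (μ := ν) (f := fun x => f x - P.eval x)
      (C := ε / 3) (by
        filter_upwards [h5] with x hx
        rw [Real.norm_eq_abs]
        exact hP x (abs_le.2 hx))
    simpa using h6
  have h7 := abs_sub_le ((∑ i, f ((Hm_herm G s ω).eigenvalues i)) / n)
    ((Polynomial.aeval (Hm G s ω) P).trace / n) (∫ x, f x ∂ν)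
  have h8 := abs_sub_le ((Polynomial.aeval (Hm G s ω) P).trace / n) (∫ x, P.eval x ∂ν)
    (∫ x, f x ∂ν)
  have h9 : |∫ x, P.eval x ∂ν - ∫ x, f x ∂ν| ≤ ε / 3 := by rw [abs_sub_comm]; exact h3
  linarith


end Crest.Agent.R166.DosB420
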