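import Mathlib
import Crest.Agent.R166.Defs_419
import Crest.Agent.R166.TreeDefs_350
/-!
Row 166, sections 32 (tree half) + 70: SPECIFICATION (Props only, no proofs) by helper350.

`b = d - 1`.  `XX b s z ω` = cavity value at the root of the infinite `b`-ary tree, `PT b` = iid
`unif` potentials on `List (Fin b)` (HEAD = first step from the root), `sub j ω` = disorder seen from
the `j`-th child.  Node `p : List (Fin b)` has the cavity value `XX b s z (fun q => ω (p ++ q))`.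
-/
set_option autoImplicit false

namespace Crest.Agent.R166.TreeSpec350

open MeasureTheory Crest.Agent.R166.TreeDet350 Crest.Agent.R166.TreeDefs350

noncomputable section

/-! ### T1: existence and deterministic properties of the cavity field (all `ω`, no bound on `ω`) -/

/-- `q = b / (b + η²)`: `γ(x,y) = |x-y| / (2 √(Im x Im y))` is contracted by `q` at each level. -/
def T1_cauchy (b : ℕ) (s : ℝ) : Prop :=
  ∀ (η : ℝ), 0 < η → ∀ z : ℂ, η ≤ z.im → ∀ (ω : List (Fin b) → ℝ) (N : ℕ),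
    ‖Xn b s z (N + 1) ω - Xn b s z N ω‖ ≤ b / η ^ 3 * (b / (b + η ^ 2)) ^ N

structure T1 (b : ℕ) (s : ℝ) : Prop where
  tendsto : ∀ z : ℂ, 0 < z.im → ∀ ω : List (Fin b) → ℝ,
    Filter.Tendsto (fun N => Xn b s z N ω) Filter.atTop (nhds (XX b s z ω))
  unif : ∀ η : ℝ, 0 < η → TendstoUniformlyOn
    (fun N (p : ℂ × (List (Fin b) → ℝ)) => Xn b s p.1 N p.2) (fun p => XX b s p.1 p.2)
    Filter.atTop {p | η ≤ p.1.im}
  recur : ∀ z : ℂ, 0 < z.im → ∀ ω : List (Fin b) → ℝ,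
    XX b s z ω = cav z (s * ω []) fun j => XX b s z (sub j ω)
  im_pos : ∀ z : ℂ, 0 < z.im → ∀ ω : List (Fin b) → ℝ, 0 < (XX b s z ω).im
  norm_le : ∀ z : ℂ, 0 < z.im → ∀ ω : List (Fin b) → ℝ, ‖XX b s z ω‖ ≤ 1 / z.im
  meas : ∀ z : ℂ, 0 < z.im → Measurable (XX b s z)
  diff : ∀ ω : List (Fin b) → ℝ, DifferentiableOn ℂ (fun z => XX b s z ω) {z | 0 < z.im}

/-! ### T2: the law of (root potential, the `b` subtrees) -/

def T2 (b : ℕ) : Prop :=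
  (PT b).map (fun ω => (ω [], fun j : Fin b => sub j ω)) =
    unif.prod (Measure.pi fun _ : Fin b => PT b)

/-- node version: the disorder seen from a node has the law `PT b` -/
def T2_node (b : ℕ) : Prop :=
  ∀ p : List (Fin b), MeasurePreserving (fun ω : List (Fin b) → ℝ => fun q => ω (p ++ q))
    (PT b) (PT b)

/-! ### T4: Wegner and non-degeneracy -/

def T4_wegner (b : ℕ) (s : ℝ) : Prop :=
  ∀ z : ℂ, 0 < z.im → ∀ t : ℝ, 0 < t →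
    (PT b) {ω | t < ‖XX b s z ω‖} ≤ ENNReal.ofReal (1 / (s * t))

/-- if `D` is a bounded set of energies in the upper half plane and
`P(Im X < κ₀) ≤ 1/2` on `D` for some `κ₀ > 0` then `P(Im X < κ) → 0` uniformly on `D`.
(`q(κ) ≤ q(κ M²)^b + C/M`, take `κ → 0` and then `M → ∞`; `q* ≤ q*^b`, `q* ≤ 1/2` ⟹ `q* = 0`.) -/
def T4_nondeg (b : ℕ) (s : ℝ) : Prop :=
  ∀ (D : Set ℂ) (R κ₀ : ℝ), (∀ z ∈ D, 0 < z.im ∧ ‖z‖ ≤ R) → 0 < κ₀ →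
    (∀ z ∈ D, (PT b) {ω | (XX b s z ω).im < κ₀} ≤ ENNReal.ofReal (1 / 2)) →
    ∀ ε : ℝ, 0 < ε → ∃ κ : ℝ, 0 < κ ∧ ∀ z ∈ D,
      (PT b) {ω | (XX b s z ω).im < κ} ≤ ENNReal.ofReal ε

/-! ### T5/T6 (helper350): Theorem A on the tree and the limit `η → 0`.
`J = {E : |E| ≤ 2 √b - κ}`. -/

/-- square mean of `u` is `≤ C s²` for all `0 < Im z ≤ 2 √b` -/
def T5 (b : ℕ) : Prop :=
  ∀ κ : ℝ, 0 < κ → ∃ s0 > 0, ∃ C > 0, ∀ s : ℝ, 0 < s → s < s0 → ∀ z m : ℂ,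
    |z.re| ≤ 2 * Real.sqrt b - κ → 0 < z.im → z.im ≤ 2 * Real.sqrt b →
    0 < m.im → m * (z + b * m) = -1 →
    ∫ ω, ‖uu m (XX b s z ω)‖ ^ 2 ∂(PT b) ≤ C * s ^ 2

/-- uniform continuity of `z ↦ X(z)` in the pseudo-hyperbolic metric, up to the real axis -/
def T6 (b : ℕ) : Prop :=
  ∀ κ : ℝ, 0 < κ → ∃ s0 > 0, ∀ s : ℝ, 0 < s → s < s0 → ∀ ε : ℝ, 0 < ε → ∃ δ > 0, ∀ z z' : ℂ,
    |z.re| ≤ 2 * Real.sqrt b - κ → 0 < z.im → z.im ≤ 2 * Real.sqrt b →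
    |z'.re| ≤ 2 * Real.sqrt b - κ → 0 < z'.im → z'.im ≤ 2 * Real.sqrt b → ‖z - z'‖ ≤ δ →
    ∫ ω, rho (XX b s z ω) (XX b s z' ω) ^ 2 ∂(PT b) ≤ ε

/-- non-degeneracy, uniformly up to the real axis -/
def T6_nondeg (b : ℕ) : Prop :=
  ∀ κ : ℝ, 0 < κ → ∃ s0 > 0, ∀ s : ℝ, 0 < s → s < s0 → ∀ ε : ℝ, 0 < ε → ∃ δ > 0, ∃ M > 0,
    ∀ z : ℂ, |z.re| ≤ 2 * Real.sqrt b - κ → 0 < z.im → z.im ≤ 2 * Real.sqrt b →
    (PT b) {ω | (XX b s z ω).im < δ ∨ M < ‖XX b s z ω‖} ≤ ENNReal.ofReal ε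


/-! ### T8: averaged Green function near the real axis (input of the Stieltjes inversion) -/

def T8 (b : ℕ) : Prop :=
  ∀ κ : ℝ, 0 < κ → ∃ s0 > 0, ∀ s : ℝ, 0 < s → s < s0 →
    ∃ ρ : ℝ → ℝ, ContinuousOn ρ {E | |E| < 2 * Real.sqrt b - κ} ∧
      (∃ c > 0, ∀ E : ℝ, |E| < 2 * Real.sqrt b - κ → c ≤ ρ E) ∧
      ∀ ε : ℝ, 0 < ε → ∃ η0 > 0, ∀ η : ℝ, 0 < η → η ≤ η0 →
        ∀ E : ℝ, |E| < 2 * Real.sqrt b - κ → |(Gav b s (ze E η)).im - Real.pi * ρ E| ≤ ε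

end

end Crest.Agent.R166.TreeSpec350
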