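import Crest.Agent.R166.Spec_D_350
import Crest.Agent.R166.TreeT1_383
import Mathlib
import Crest.Agent.R166.Defs_419
import Crest.Agent.R166.DosA_420
import Crest.Agent.R166.TreeWalk_356
import Crest.Agent.R166.Noise_547
import Crest.Agent.R166.TreeT2_251

-- ▼ part R166/T8_355
section

/-!
# R166, section 32/70 (T8), helper355: the averaged Green function up to the real axis

`Th s S = ∫ Im(-1/(S - s w)) d unif(w)`; `0 ≤ Th ≤ π/(2s)`, `|Th s S - Th s T| ≤ (2π/s) ρ(S,T)`.
-/

set_option autoImplicit false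

open MeasureTheory Complex

namespace Crest.Agent.R166.T8355

open Crest.Agent.R166 Crest.Agent.R166.TreeDet350 Crest.Agent.R166.TreeDefs350
  Crest.Agent.R166.TreeSpec350

noncomputable section

/-! ### integration against the uniform law -/

lemma integral_unif (f : ℝ → ℝ) : ∫ w, f w ∂unif = (1 / 2) * ∫ w in (-1 : ℝ)..1, f w := by
  unfold unif
  rw [integral_smul_nnreal_measure, intervalIntegral.integral_of_le (by norm_num),
    integral_Icc_eq_integral_Ioc]
  rw [NNReal.smul_def]
  simp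

/-- `Im (-1/(S - t)) = Im S / |S - t|²` -/
lemma im_neg_inv (S : ℂ) (t : ℝ) : (-1 / (S - t)).im = S.im / ((S.re - t) ^ 2 + S.im ^ 2) := by
  have h1 : normSq (S - t) = (S.re - t) ^ 2 + S.im ^ 2 := by
    rw [normSq_apply]; simp; ring
  rw [Complex.div_im, h1]
  simp [neg_div]

/-- the averaged resolvent -/
def Th (s : ℝ) (S : ℂ) : ℝ := ∫ w, (-1 / (S - (s * w : ℝ))).im ∂unif

lemma fw_nonneg {s : ℝ} {S : ℂ} (hS : 0 < S.im) (w : ℝ) : 0 ≤ (-1 / (S - (s * w : ℝ))).im := by
  rw [im_neg_inv]; positivity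

lemma Th_nonneg {s : ℝ} {S : ℂ} (hS : 0 < S.im) : 0 ≤ Th s S :=
  integral_nonneg fun w => fw_nonneg hS w

lemma continuous_fw {s : ℝ} {S : ℂ} (hS : 0 < S.im) :
    Continuous fun w : ℝ => (-1 / (S - (s * w : ℝ))).im := by
  have : (fun w : ℝ => (-1 / (S - (s * w : ℝ))).im) =
      fun w : ℝ => S.im / ((S.re - s * w) ^ 2 + S.im ^ 2) := by
    funext w; rw [im_neg_inv]
  rw [this]
  refine continuous_const.div (by fun_prop) fun w => ?_
  positivity

lemma Th_le {s : ℝ} (hs : 0 < s) {S : ℂ} (hS : 0 < S.im) : Th s S ≤ Real.pi / (2 * s) := by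
  unfold Th
  rw [integral_unif]
  have hd : ∀ w ∈ Set.uIcc (-1 : ℝ) 1, HasDerivAt
      (fun w : ℝ => (-1 / s) * Real.arctan ((S.re - s * w) / S.im))
      ((-1 / (S - (s * w : ℝ))).im) w := by
    intro w _
    have h1 : HasDerivAt (fun w : ℝ => (S.re - s * w) / S.im) (-s / S.im) w := by
      have := (((hasDerivAt_id w).const_mul s).const_sub S.re).div_const S.im
      simpa using this
    have h2 := (h1.arctan).const_mul (-1 / s)
    refine h2.congr_deriv ?_
    rw [im_neg_inv]
    have hne : (S.re - s * w) ^ 2 + S.im ^ 2 ≠ 0 := by positivity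
    have hne2 : 1 + ((S.re - s * w) / S.im) ^ 2 ≠ 0 := by positivity
    field_simp
    ring
  rw [intervalIntegral.integral_eq_sub_of_hasDerivAt hd
    ((continuous_fw hS).intervalIntegrable _ _)]
  have h3 := Real.arctan_lt_pi_div_two ((S.re - s * (-1)) / S.im)
  have h4 := Real.neg_pi_div_two_lt_arctan ((S.re - s * 1) / S.im)
  have h5 : (-1 / s) * Real.arctan ((S.re - s * 1) / S.im) -
      (-1 / s) * Real.arctan ((S.re - s * (-1)) / S.im) ≤ Real.pi / s := by
    have e : (-1 / s) * Real.arctan ((S.re - s * 1) / S.im) -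
      (-1 / s) * Real.arctan ((S.re - s * (-1)) / S.im) =
      (Real.arctan ((S.re - s * (-1)) / S.im) - Real.arctan ((S.re - s * 1) / S.im)) / s := by
      ring
    rw [e, div_le_div_iff_of_pos_right hs]
    linarith
  calc (1 : ℝ) / 2 * _ ≤ 1 / 2 * (Real.pi / s) := by
        exact mul_le_mul_of_nonneg_left h5 (by norm_num)
    _ = Real.pi / (2 * s) := by field_simp

/-- hyperbolic comparison of two points -/
lemma norm_sub_le_rho {x y : ℂ} (hx : 0 < x.im) (hy : 0 < y.im) (hr : rho x y ≤ 1 / 2) :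
    ‖x - y‖ ≤ 4 * rho x y * y.im := by
  have h1 := norm_sub_eq_rho hx hy
  have h2 : ‖x - (starRingEnd ℂ) y‖ ≤ ‖x - y‖ + 2 * y.im := by
    have e : x - (starRingEnd ℂ) y = (x - y) + (y - (starRingEnd ℂ) y) := by ring
    rw [e]
    refine (norm_add_le _ _).trans ?_
    rw [Complex.sub_conj, norm_mul, Complex.norm_I, mul_one, Complex.norm_real, Real.norm_eq_abs,
      abs_of_pos (by linarith)]
  have h0 := rho_nonneg x y
  have h3 : ‖x - y‖ ≤ rho x y * (‖x - y‖ + 2 * y.im) := by
    rw [h1]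
    nlinarith [norm_nonneg (x - (starRingEnd ℂ) y)]
  nlinarith [norm_nonneg (x - y)]

lemma integrable_fw {s : ℝ} {S : ℂ} (hS : 0 < S.im) :
    Integrable (fun w : ℝ => (-1 / (S - (s * w : ℝ))).im) unif := by
  refine Integrable.of_bound (C := 1 / S.im) (continuous_fw hS).aestronglyMeasurable ?_
  refine Filter.Eventually.of_forall fun w => ?_
  rw [Real.norm_eq_abs, abs_of_nonneg (fw_nonneg hS w), im_neg_inv,
    div_le_div_iff₀ (by positivity) hS]
  nlinarith [sq_nonneg (S.re - s * w)]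

/-- **Lipschitz bound of the averaged resolvent in the pseudo-hyperbolic distance** -/
theorem Th_sub_le {s : ℝ} (hs : 0 < s) {S T : ℂ} (hS : 0 < S.im) (hT : 0 < T.im) :
    |Th s S - Th s T| ≤ 2 * Real.pi / s * rho S T := by
  have hpi := Real.pi_pos
  by_cases hr : rho S T ≤ 1 / 2
  · have h1 : |Th s S - Th s T| ≤ ∫ w, 4 * rho S T * (-1 / (T - (s * w : ℝ))).im ∂unif := by
      unfold Th
      rw [← integral_sub (integrable_fw hS) (integrable_fw hT)]
      refine (abs_integral_le_integral_abs).trans ?_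
      refine integral_mono ((integrable_fw hS).sub (integrable_fw hT)).abs
        ((integrable_fw hT).const_mul _) fun w => ?_
      have hSw : 0 < (S - (s * w : ℝ)).im := by simpa using hS
      have hTw : 0 < (T - (s * w : ℝ)).im := by simpa using hT
      have hS0 := ne_zero_of_im_pos hSw
      have hT0 := ne_zero_of_im_pos hTw
      have e : rho (-1 / (S - (s * w : ℝ))) (-1 / (T - (s * w : ℝ))) = rho S T := by
        rw [rho_neg_inv hS0 hT0]
        unfold rho
        congr 1
        · congr 1; ring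
        · congr 1
          rw [map_sub, Complex.conj_ofReal]; ring
      have hPS : 0 < (-1 / (S - (s * w : ℝ))).im := by rw [im_neg_inv]; positivity
      have hPT : 0 < (-1 / (T - (s * w : ℝ))).im := by rw [im_neg_inv]; positivity
      have h2 := norm_sub_le_rho hPS hPT (by rw [e]; exact hr)
      rw [e] at h2
      refine le_trans ?_ h2
      have h3 := Complex.abs_im_le_norm (-1 / (S - (s * w : ℝ)) - -1 / (T - (s * w : ℝ)))
      rw [Complex.sub_im] at h3
      exact h3
    rw [integral_const_mul] at h1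
    have h2 := Th_le hs hT
    have h3 : 4 * rho S T * Th s T ≤ 4 * rho S T * (Real.pi / (2 * s)) :=
      mul_le_mul_of_nonneg_left h2 (mul_nonneg (by norm_num) (rho_nonneg _ _))
    refine h1.trans (h3.trans (le_of_eq ?_))
    field_simp
    ring
  · push Not at hr
    have h1 := Th_le hs hS
    have h2 := Th_le hs hT
    have h3 := Th_nonneg (s := s) hS
    have h4 := Th_nonneg (s := s) hT
    have h5 : |Th s S - Th s T| ≤ Real.pi / (2 * s) := by
      rw [abs_le]; constructor <;> linarith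
    refine h5.trans ?_
    have h6 : Real.pi / (2 * s) ≤ 2 * Real.pi / s * (1 / 2) := by
      rw [div_mul_eq_mul_div, div_le_div_iff₀ (by positivity) hs]
      nlinarith [mul_pos hpi hs]
    refine h6.trans (mul_le_mul_of_nonneg_left hr.le (by positivity))

/-- moving the energy -/
lemma rho_add_le {z z' W : ℂ} (hz : 0 < z.im) (hz' : 0 < z'.im) (hW : 0 < W.im) :
    rho (z + W) (z' + W) ≤ ‖z - z'‖ / (2 * W.im) := by
  unfold rho
  have e : z + W - (z' + W) = z - z' := by ring
  rw [e]
  refine div_le_div_of_nonneg_left (norm_nonneg _) (by positivity) ?_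
  refine le_trans ?_ (Complex.abs_im_le_norm _)
  have : (z + W - (starRingEnd ℂ) (z' + W)).im = z.im + z'.im + 2 * W.im := by
    simp; ring
  rw [this, abs_of_pos (by positivity)]
  linarith

/-! ### the cavity average -/

variable {b : ℕ} {s : ℝ}

/-- the sum at the root of the `d`-regular tree -/
def SX (b : ℕ) (s : ℝ) (z : ℂ) (Ω : Fin (b + 1) → List (Fin b) → ℝ) : ℂ :=
  z + ∑ i, XX b s z (Ω i)

/-- the law of the `b+1` subtrees -/
abbrev PP (b : ℕ) : Measure (Fin (b + 1) → List (Fin b) → ℝ) := Measure.pi fun _ => PT b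

lemma SX_im (hT : T1 b s) {z : ℂ} (hz : 0 < z.im) (Ω : Fin (b + 1) → List (Fin b) → ℝ) :
    z.im < (SX b s z Ω).im := by
  unfold SX
  rw [Complex.add_im, Complex.im_sum]
  have : 0 < ∑ i, (XX b s z (Ω i)).im :=
    Finset.sum_pos (fun i _ => hT.im_pos z hz _) ⟨0, Finset.mem_univ _⟩
  linarith

lemma measurable_SX (hT : T1 b s) {z : ℂ} (hz : 0 < z.im) : Measurable (SX b s z) := by
  unfold SX
  refine measurable_const.add (Finset.measurable_sum _ fun i _ => ?_)
  exact (hT.meas z hz).comp (measurable_pi_apply i)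

lemma norm_neg_inv_le {z S : ℂ} (hz : 0 < z.im) (hS : z.im ≤ S.im) (t : ℝ) :
    ‖-1 / (S - t)‖ ≤ 1 / z.im := by
  rw [norm_div, norm_neg, norm_one]
  refine div_le_div_of_nonneg_left zero_le_one hz ?_
  refine le_trans ?_ (Complex.abs_im_le_norm _)
  rw [Complex.sub_im, Complex.ofReal_im, sub_zero]
  exact hS.trans (le_abs_self _)

/-- `Im Gav = E Th(S)` -/
theorem Gav_im (hT : T1 b s) {z : ℂ} (hz : 0 < z.im) :
    (Gav b s z).im = ∫ Ω, Th s (SX b s z Ω) ∂PP b := by
  unfold Gav
  have hmeas : Measurable (fun p : ℝ × (Fin (b + 1) → List (Fin b) → ℝ) =>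
      -1 / (SX b s z p.2 - ((s * p.1 : ℝ) : ℂ))) := by
    refine measurable_const.div (((measurable_SX hT hz).comp measurable_snd).sub ?_)
    exact Complex.measurable_ofReal.comp (measurable_fst.const_mul s)
  have hbound : ∀ p : ℝ × (Fin (b + 1) → List (Fin b) → ℝ),
      ‖-1 / (SX b s z p.2 - ((s * p.1 : ℝ) : ℂ))‖ ≤ 1 / z.im := fun p =>
    norm_neg_inv_le hz (SX_im hT hz p.2).le _
  have hint : Integrable (fun p : ℝ × (Fin (b + 1) → List (Fin b) → ℝ) =>
      -1 / (SX b s z p.2 - ((s * p.1 : ℝ) : ℂ))) (unif.prod (PP b)) :=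
    Integrable.of_bound (C := 1 / z.im) hmeas.aestronglyMeasurable
      (Filter.Eventually.of_forall hbound)
  have e1 : ∫ w : ℝ, ∫ ω : Fin (b + 1) → List (Fin b) → ℝ,
      -1 / (z - (s * w : ℝ) + ∑ i, XX b s z (ω i)) ∂(Measure.pi fun _ => PT b) ∂unif =
      ∫ w : ℝ, ∫ ω : Fin (b + 1) → List (Fin b) → ℝ,
      -1 / (SX b s z ω - (s * w : ℝ)) ∂(PP b) ∂unif := by
    refine integral_congr_ae (Filter.Eventually.of_forall fun w => ?_)
    refine integral_congr_ae (Filter.Eventually.of_forall fun ω => ?_)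
    simp only [SX]
    congr 1
    ring
  rw [e1, integral_integral_swap hint]
  have h2 : ∀ Ω : Fin (b + 1) → List (Fin b) → ℝ, Integrable (fun w : ℝ =>
      -1 / (SX b s z Ω - ((s * w : ℝ) : ℂ))) unif := fun Ω =>
    Integrable.of_bound (C := 1 / z.im)
      (hmeas.comp (measurable_id.prodMk measurable_const)).aestronglyMeasurable
      (Filter.Eventually.of_forall fun w => hbound (w, Ω))
  have h3 : Integrable (fun Ω => ∫ w, -1 / (SX b s z Ω - ((s * w : ℝ) : ℂ)) ∂unif) (PP b) :=
    hint.integral_prod_right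
  rw [← Complex.imCLM_apply, ← Complex.imCLM.integral_comp_comm h3]
  refine integral_congr_ae (Filter.Eventually.of_forall fun Ω => ?_)
  simp only
  rw [← Complex.imCLM.integral_comp_comm (h2 Ω)]
  rfl

lemma measurable_ThSX (hT : T1 b s) {z : ℂ} (hz : 0 < z.im) :
    AEStronglyMeasurable (fun Ω => Th s (SX b s z Ω)) (PP b) := by
  have hmeas : Measurable (fun p : (Fin (b + 1) → List (Fin b) → ℝ) × ℝ =>
      (-1 / (SX b s z p.1 - ((s * p.2 : ℝ) : ℂ))).im) := by
    refine Complex.measurable_im.comp ?_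
    refine measurable_const.div (((measurable_SX hT hz).comp measurable_fst).sub ?_)
    exact Complex.measurable_ofReal.comp (measurable_snd.const_mul s)
  exact (hmeas.stronglyMeasurable.integral_prod_right').aestronglyMeasurable

lemma integrable_ThSX (hs : 0 < s) (hT : T1 b s) {z : ℂ} (hz : 0 < z.im) :
    Integrable (fun Ω => Th s (SX b s z Ω)) (PP b) := by
  refine Integrable.of_bound (C := Real.pi / (2 * s)) (measurable_ThSX hT hz) ?_
  refine Filter.Eventually.of_forall fun Ω => ?_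
  have h := hz.trans (SX_im hT hz Ω)
  rw [Real.norm_eq_abs, abs_of_nonneg (Th_nonneg h)]
  exact Th_le hs h

/-- pointwise comparison of two energies -/
lemma Th_SX_sub_le (hs : 0 < s) (hT : T1 b s) {z z' : ℂ} (hz : 0 < z.im) (hz' : 0 < z'.im)
    {δ : ℝ} (hδ : 0 < δ) (Ω : Fin (b + 1) → List (Fin b) → ℝ) :
    |Th s (SX b s z Ω) - Th s (SX b s z' Ω)| ≤ 2 * Real.pi / s *
      (∑ i, rho (XX b s z (Ω i)) (XX b s z' (Ω i)) +
        ((if (XX b s z' (Ω 0)).im < δ then 1 else 0) + ‖z - z'‖ / (2 * δ))) := by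
  have hpi := Real.pi_pos
  set W' : ℂ := ∑ i, XX b s z' (Ω i) with hW'
  have hWim : 0 < W'.im := by
    rw [hW', Complex.im_sum]
    exact Finset.sum_pos (fun i _ => hT.im_pos z' hz' _) ⟨0, Finset.mem_univ _⟩
  have h1 : |Th s (SX b s z Ω) - Th s (z + W')| ≤ 2 * Real.pi / s *
      ∑ i, rho (XX b s z (Ω i)) (XX b s z' (Ω i)) := by
    refine (Th_sub_le hs (hz.trans (SX_im hT hz Ω)) (by rw [Complex.add_im]; linarith)).trans ?_
    refine mul_le_mul_of_nonneg_left ?_ (by positivity)
    obtain ⟨j, hj, h⟩ := rho_sum_le_max (Finset.univ : Finset (Fin (b + 1))) ⟨0, Finset.mem_univ _⟩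
      (fun i => XX b s z (Ω i)) (fun i => XX b s z' (Ω i)) z hz.le
      (fun i _ => hT.im_pos z hz _) (fun i _ => hT.im_pos z' hz' _)
    refine h.trans ?_
    exact Finset.single_le_sum (f := fun i => rho (XX b s z (Ω i)) (XX b s z' (Ω i)))
      (fun i _ => rho_nonneg _ _) hj
  have h2 : |Th s (z + W') - Th s (SX b s z' Ω)| ≤ 2 * Real.pi / s *
      ((if (XX b s z' (Ω 0)).im < δ then 1 else 0) + ‖z - z'‖ / (2 * δ)) := by
    have hS' : SX b s z' Ω = z' + W' := rfl
    rw [hS']
    refine (Th_sub_le hs (by rw [Complex.add_im]; linarith)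
      (by rw [Complex.add_im]; linarith)).trans ?_
    refine mul_le_mul_of_nonneg_left ?_ (by positivity)
    split_ifs with hc
    · have h3 := rho_le_one (x := z + W') (y := z' + W') (by rw [Complex.add_im]; linarith)
        (by rw [Complex.add_im]; linarith)
      have : 0 ≤ ‖z - z'‖ / (2 * δ) := by positivity
      linarith
    · push Not at hc
      rw [zero_add]
      refine (rho_add_le hz hz' hWim).trans ?_
      refine div_le_div_of_nonneg_left (norm_nonneg _) (by positivity) ?_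
      have h4 : (XX b s z' (Ω 0)).im ≤ W'.im := by
        rw [hW', Complex.im_sum]
        exact Finset.single_le_sum (f := fun i => (XX b s z' (Ω i)).im)
          (fun i _ => (hT.im_pos z' hz' _).le) (Finset.mem_univ 0)
      linarith
  calc |Th s (SX b s z Ω) - Th s (SX b s z' Ω)|
      ≤ |Th s (SX b s z Ω) - Th s (z + W')| + |Th s (z + W') - Th s (SX b s z' Ω)| :=
        abs_sub_le _ _ _
    _ ≤ _ := by rw [mul_add]; exact add_le_add h1 h2

lemma measurable_rhoXX (hT : T1 b s) {z z' : ℂ} (hz : 0 < z.im) (hz' : 0 < z'.im) :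
    Measurable fun ω => rho (XX b s z ω) (XX b s z' ω) := by
  unfold rho
  have h1 := hT.meas z hz
  have h2 := hT.meas z' hz'
  exact (h1.sub h2).norm.div ((h1.sub (Complex.continuous_conj.measurable.comp h2)).norm)

lemma integrable_rhoXX (hT : T1 b s) {z z' : ℂ} (hz : 0 < z.im) (hz' : 0 < z'.im) :
    Integrable (fun ω => rho (XX b s z ω) (XX b s z' ω)) (PT b) := by
  refine Integrable.of_bound (C := 1) (measurable_rhoXX hT hz hz').aestronglyMeasurable ?_
  refine Filter.Eventually.of_forall fun ω => ?_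
  rw [Real.norm_eq_abs, abs_of_nonneg (rho_nonneg _ _)]
  exact rho_le_one (hT.im_pos z hz _) (hT.im_pos z' hz' _)

lemma integrable_rhoXX_sq (hT : T1 b s) {z z' : ℂ} (hz : 0 < z.im) (hz' : 0 < z'.im) :
    Integrable (fun ω => rho (XX b s z ω) (XX b s z' ω) ^ 2) (PT b) := by
  refine Integrable.of_bound (C := 1) ((measurable_rhoXX hT hz hz').pow_const 2).aestronglyMeasurable
    ?_
  refine Filter.Eventually.of_forall fun ω => ?_
  have h1 := rho_le_one (hT.im_pos z hz ω) (hT.im_pos z' hz' ω)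
  have h0 := rho_nonneg (XX b s z ω) (XX b s z' ω)
  rw [Real.norm_eq_abs, abs_of_nonneg (by positivity)]
  nlinarith

lemma integral_eval {f : (List (Fin b) → ℝ) → ℝ} (hf : Measurable f) (i : Fin (b + 1)) :
    ∫ Ω, f (Ω i) ∂PP b = ∫ ω, f ω ∂PT b := by
  have h := measurePreserving_eval (fun _ : Fin (b + 1) => PT b) i
  rw [← h.map_eq, integral_map h.measurable.aemeasurable hf.aestronglyMeasurable]

lemma integrable_eval {f : (List (Fin b) → ℝ) → ℝ}
    (hi : Integrable f (PT b)) (i : Fin (b + 1)) :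
    Integrable (fun Ω : Fin (b + 1) → List (Fin b) → ℝ => f (Ω i)) (PP b) :=
  (measurePreserving_eval (fun _ : Fin (b + 1) => PT b) i).integrable_comp_of_integrable hi

/-- **comparison of two energies** -/
theorem Gav_sub_le (hs : 0 < s) (hT : T1 b s) {z z' : ℂ} (hz : 0 < z.im) (hz' : 0 < z'.im)
    {δ t ε1 ε2 : ℝ} (hδ : 0 < δ) (ht : 0 < t)
    (h1 : ∫ ω, rho (XX b s z ω) (XX b s z' ω) ^ 2 ∂(PT b) ≤ ε1) (hε2 : 0 ≤ ε2)
    (h2 : (PT b) {ω | (XX b s z' ω).im < δ} ≤ ENNReal.ofReal ε2) :
    |(Gav b s z).im - (Gav b s z').im| ≤ 2 * Real.pi / s *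
      ((b + 1) * (t / 2 + ε1 / (2 * t)) + (ε2 + ‖z - z'‖ / (2 * δ))) := by
  classical
  have hpi := Real.pi_pos
  have hmr := measurable_rhoXX hT hz hz'
  have hir := integrable_rhoXX hT hz hz'
  set I : (List (Fin b) → ℝ) → ℝ := fun ω => if (XX b s z' ω).im < δ then 1 else 0 with hI
  have hset : MeasurableSet {ω : List (Fin b) → ℝ | (XX b s z' ω).im < δ} :=
    measurableSet_lt (Complex.measurable_im.comp (hT.meas z' hz')) measurable_const
  have hIm : Measurable I := Measurable.ite hset measurable_const measurable_const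
  have hIi : Integrable I (PT b) := by
    refine Integrable.of_bound (C := 1) hIm.aestronglyMeasurable ?_
    refine Filter.Eventually.of_forall fun ω => ?_
    simp only [hI]
    split_ifs <;> simp
  have hII : ∫ ω, I ω ∂PT b ≤ ε2 := by
    have e : I = Set.indicator {ω : List (Fin b) → ℝ | (XX b s z' ω).im < δ} 1 := by
      funext ω
      simp only [hI, Set.indicator, Set.mem_ofPred_eq, Pi.one_apply]
    rw [e, integral_indicator_one hset]
    exact ENNReal.toReal_le_of_le_ofReal hε2 h2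
  have hr1 : ∫ ω, rho (XX b s z ω) (XX b s z' ω) ∂PT b ≤ t / 2 + ε1 / (2 * t) := by
    calc ∫ ω, rho (XX b s z ω) (XX b s z' ω) ∂PT b
        ≤ ∫ ω, (t / 2 + rho (XX b s z ω) (XX b s z' ω) ^ 2 / (2 * t)) ∂PT b := by
          refine integral_mono hir ((integrable_const _).add
            ((integrable_rhoXX_sq hT hz hz').div_const _)) fun ω => ?_
          simp only
          rw [← sub_nonneg]
          have : t / 2 + rho (XX b s z ω) (XX b s z' ω) ^ 2 / (2 * t) -
              rho (XX b s z ω) (XX b s z' ω) =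
              (t - rho (XX b s z ω) (XX b s z' ω)) ^ 2 / (2 * t) := by
            field_simp; ring
          rw [this]; positivity
      _ = t / 2 + (∫ ω, rho (XX b s z ω) (XX b s z' ω) ^ 2 ∂PT b) / (2 * t) := by
          rw [integral_add (integrable_const _) ((integrable_rhoXX_sq hT hz hz').div_const _),
            integral_const, integral_div]
          simp
      _ ≤ _ := by
          have : (∫ ω, rho (XX b s z ω) (XX b s z' ω) ^ 2 ∂PT b) / (2 * t) ≤ ε1 / (2 * t) :=
            div_le_div_of_nonneg_right h1 (by positivity)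
          linarith
  have hsumint : Integrable (fun Ω : Fin (b + 1) → List (Fin b) → ℝ =>
      ∑ i, rho (XX b s z (Ω i)) (XX b s z' (Ω i))) (PP b) :=
    integrable_finsetSum _ fun i _ => integrable_eval hir i
  have hrest : Integrable (fun Ω : Fin (b + 1) → List (Fin b) → ℝ =>
      (I (Ω 0) + ‖z - z'‖ / (2 * δ))) (PP b) :=
    (integrable_eval hIi 0).add (integrable_const _)
  rw [Gav_im hT hz, Gav_im hT hz', ← integral_sub (integrable_ThSX hs hT hz)
    (integrable_ThSX hs hT hz')]
  calc |∫ Ω, (Th s (SX b s z Ω) - Th s (SX b s z' Ω)) ∂PP b|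
      ≤ ∫ Ω, |Th s (SX b s z Ω) - Th s (SX b s z' Ω)| ∂PP b := abs_integral_le_integral_abs
    _ ≤ ∫ Ω, 2 * Real.pi / s * (∑ i, rho (XX b s z (Ω i)) (XX b s z' (Ω i)) +
        (I (Ω 0) + ‖z - z'‖ / (2 * δ))) ∂PP b := by
        refine integral_mono ((integrable_ThSX hs hT hz).sub (integrable_ThSX hs hT hz')).abs
          ((hsumint.add hrest).const_mul _) fun Ω => ?_
        exact Th_SX_sub_le hs hT hz hz' hδ Ω
    _ = 2 * Real.pi / s * ((b + 1) * (∫ ω, rho (XX b s z ω) (XX b s z' ω) ∂PT b) +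
        ((∫ ω, I ω ∂PT b) + ‖z - z'‖ / (2 * δ))) := by
        rw [integral_const_mul, integral_add hsumint hrest, integral_finsetSum _ fun i _ =>
          integrable_eval hir i, integral_add (integrable_eval hIi 0) (integrable_const _),
          integral_eval hIm]
        simp only [integral_eval hmr]
        simp
    _ ≤ _ := by
        refine mul_le_mul_of_nonneg_left ?_ (by positivity)
        refine add_le_add ?_ (add_le_add hII le_rfl)
        exact mul_le_mul_of_nonneg_left hr1 (by positivity)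

/-! ### lower bound -/

lemma Th_ge {S : ℂ} {R δ : ℝ} (hδ : 0 < δ) (hS : δ ≤ S.im) (hs : 0 < s) (hR : ‖S‖ + s ≤ R) :
    δ / R ^ 2 ≤ Th s S := by
  unfold Th
  have hS0 : 0 < S.im := hδ.trans_le hS
  have hR0 : 0 < R := by have := norm_nonneg S; linarith
  rw [integral_unif]
  have h1 : ∫ w in (-1 : ℝ)..1, δ / R ^ 2 ≤ ∫ w in (-1 : ℝ)..1, (-1 / (S - (s * w : ℝ))).im := by
    refine intervalIntegral.integral_mono_on (by norm_num) (by simp)
      ((continuous_fw hS0).intervalIntegrable _ _) fun w hw => ?_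
    rw [im_neg_inv]
    refine div_le_div₀ hS0.le hS (by positivity) ?_
    have h2 : |S.re - s * w| ≤ |S.re| + s := by
      refine (abs_sub _ _).trans ?_
      rw [abs_mul, abs_of_pos hs]
      have : |w| ≤ 1 := abs_le.2 hw
      nlinarith
    have h3 : (S.re - s * w) ^ 2 ≤ (|S.re| + s) ^ 2 := by
      rw [← sq_abs]; gcongr
    have h4 : ‖S‖ ^ 2 = S.re ^ 2 + S.im ^ 2 := by
      rw [← normSq_eq_norm_sq, normSq_apply]; ring
    have h5 : |S.re| ≤ ‖S‖ := Complex.abs_re_le_norm S
    have h6 : (|S.re| + s) ^ 2 + S.im ^ 2 ≤ (‖S‖ + s) ^ 2 := by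
      have : |S.re| ^ 2 = S.re ^ 2 := sq_abs _
      nlinarith
    have h7 : (‖S‖ + s) ^ 2 ≤ R ^ 2 := by
      have := norm_nonneg S
      gcongr
    linarith
  have h2 : ∫ w in (-1 : ℝ)..1, δ / R ^ 2 = 2 * (δ / R ^ 2) := by
    rw [intervalIntegral.integral_const]; norm_num
  rw [h2] at h1
  linarith

/-- lower bound of `Im Gav` from the non-degeneracy -/
theorem Gav_ge (hs : 0 < s) (hT : T1 b s) {z : ℂ} (hz : 0 < z.im) {δ M R : ℝ} (hδ : 0 < δ)
    (hR : ‖z‖ + (b + 1) * M + s ≤ R) (hR0 : 0 < R)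
    (h : (PT b) {ω | (XX b s z ω).im < δ ∨ M < ‖XX b s z ω‖} ≤
      ENNReal.ofReal (1 / (2 * (b + 1)))) :
    δ / (2 * R ^ 2) ≤ (Gav b s z).im := by
  classical
  rw [Gav_im hT hz]
  set A : Set (List (Fin b) → ℝ) := {ω | (XX b s z ω).im < δ ∨ M < ‖XX b s z ω‖} with hA
  have hAm : MeasurableSet A :=
    (measurableSet_lt (Complex.measurable_im.comp (hT.meas z hz)) measurable_const).union
      (measurableSet_lt measurable_const (hT.meas z hz).norm)
  set I : (List (Fin b) → ℝ) → ℝ := A.indicator 1 with hI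
  have hIm : Measurable I := measurable_one.indicator hAm
  have hIi : Integrable I (PT b) := by
    refine Integrable.of_bound (C := 1) hIm.aestronglyMeasurable ?_
    refine Filter.Eventually.of_forall fun ω => ?_
    simp only [hI, Set.indicator]
    split_ifs <;> simp
  have hII : ∫ ω, I ω ∂PT b ≤ 1 / (2 * (b + 1)) := by
    rw [hI, integral_indicator_one hAm]
    exact ENNReal.toReal_le_of_le_ofReal (by positivity) h
  have hpt : ∀ Ω : Fin (b + 1) → List (Fin b) → ℝ,
      δ / R ^ 2 * (1 - ∑ i, I (Ω i)) ≤ Th s (SX b s z Ω) := by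
    intro Ω
    have hTh := Th_nonneg (s := s) (hz.trans (SX_im hT hz Ω))
    have hI0 : ∀ ω, 0 ≤ I ω := fun ω => by
      simp only [hI, Set.indicator]; split_ifs <;> simp
    by_cases hc : ∃ i, Ω i ∈ A
    · obtain ⟨i, hi⟩ := hc
      have h1 : I (Ω i) = 1 := by simp [hI, hi]
      have h2 : I (Ω i) ≤ ∑ i, I (Ω i) :=
        Finset.single_le_sum (f := fun i => I (Ω i)) (fun i _ => hI0 _) (Finset.mem_univ i)
      have h3 : 1 - ∑ i, I (Ω i) ≤ 0 := by linarith
      exact (mul_nonpos_of_nonneg_of_nonpos (by positivity) h3).trans hTh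
    · push Not at hc
      have hc' : ∀ i, δ ≤ (XX b s z (Ω i)).im ∧ ‖XX b s z (Ω i)‖ ≤ M := by
        intro i
        have := hc i
        simp only [hA, Set.mem_ofPred_eq, not_or, not_lt] at this
        exact this
      have h1 : ∑ i, I (Ω i) = 0 := by
        refine Finset.sum_eq_zero fun i _ => ?_
        simp [hI, hc i]
      rw [h1, sub_zero, mul_one]
      refine Th_ge hδ ?_ hs ?_
      · unfold SX
        rw [Complex.add_im, Complex.im_sum]
        have : (XX b s z (Ω 0)).im ≤ ∑ i, (XX b s z (Ω i)).im :=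
          Finset.single_le_sum (f := fun i => (XX b s z (Ω i)).im)
            (fun i _ => (hT.im_pos z hz _).le) (Finset.mem_univ 0)
        linarith [(hc' 0).1]
      · refine le_trans ?_ hR
        unfold SX
        have h2 : ‖∑ i, XX b s z (Ω i)‖ ≤ (b + 1) * M := by
          refine (norm_sum_le _ _).trans ?_
          calc ∑ i, ‖XX b s z (Ω i)‖ ≤ ∑ _i : Fin (b + 1), M :=
                Finset.sum_le_sum fun i _ => (hc' i).2
            _ = (b + 1) * M := by
                rw [Finset.sum_const, Finset.card_univ, Fintype.card_fin, nsmul_eq_mul]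
                push_cast; ring
        have h3 := norm_add_le z (∑ i, XX b s z (Ω i))
        linarith
  have hsumint : Integrable (fun Ω : Fin (b + 1) → List (Fin b) → ℝ =>
      ∑ i, I (Ω i)) (PP b) :=
    integrable_finsetSum _ fun i _ => integrable_eval hIi i
  calc δ / (2 * R ^ 2) ≤ δ / R ^ 2 * (1 - (b + 1) * ∫ ω, I ω ∂PT b) := by
        have h1 : (b + 1) * ∫ ω, I ω ∂PT b ≤ 1 / 2 := by
          calc (b + 1) * ∫ ω, I ω ∂PT b ≤ (b + 1) * (1 / (2 * (b + 1))) :=
                mul_le_mul_of_nonneg_left hII (by positivity)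
            _ = 1 / 2 := by field_simp
        have h2 : δ / (2 * R ^ 2) = δ / R ^ 2 * (1 / 2) := by field_simp
        rw [h2]
        refine mul_le_mul_of_nonneg_left (by linarith) (by positivity)
    _ = ∫ Ω, δ / R ^ 2 * (1 - ∑ i, I (Ω i)) ∂PP b := by
        rw [integral_const_mul, integral_sub (integrable_const _) hsumint,
          integral_finsetSum _ fun i _ => integrable_eval hIi i]
        simp only [integral_eval hIm]
        simp
    _ ≤ ∫ Ω, Th s (SX b s z Ω) ∂PP b :=
        integral_mono (((integrable_const _).sub hsumint).const_mul _)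
          (integrable_ThSX hs hT hz) hpt

/-! ### extension to the real axis -/

lemma ze_re (E η : ℝ) : (ze E η).re = E := by unfold ze; simp

lemma ze_im (E η : ℝ) : (ze E η).im = η := by unfold ze; simp

lemma norm_ze_sub (E E' η η' : ℝ) : ‖ze E η - ze E' η'‖ ≤ |E - E'| + |η - η'| := by
  have e : ze E η - ze E' η' = ((E - E' : ℝ) : ℂ) + Complex.I * ((η - η' : ℝ) : ℂ) := by
    unfold ze; push_cast; ring
  rw [e]
  refine (norm_add_le _ _).trans ?_
  rw [norm_mul, Complex.norm_I, one_mul, Complex.norm_real, Complex.norm_real]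
  rfl

/-- a function uniformly continuous on the box has a continuous boundary value -/
theorem boundary_value (F : ℂ → ℝ) (a h : ℝ) (hh : 0 < h)
    (hF : ∀ ε : ℝ, 0 < ε → ∃ δ : ℝ, 0 < δ ∧ ∀ E E' η η' : ℝ, |E| ≤ a → |E'| ≤ a → 0 < η → η ≤ h →
      0 < η' → η' ≤ h → |E - E'| ≤ δ → |η - η'| ≤ δ → |F (ze E η) - F (ze E' η')| ≤ ε) :
    ∃ g : ℝ → ℝ, ContinuousOn g {E | |E| ≤ a} ∧
      (∀ ε : ℝ, 0 < ε → ∃ η0 : ℝ, 0 < η0 ∧ ∀ η : ℝ, 0 < η → η ≤ η0 → ∀ E : ℝ, |E| ≤ a →
        |F (ze E η) - g E| ≤ ε) ∧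
      ∀ c : ℝ, (∀ E η : ℝ, |E| ≤ a → 0 < η → η ≤ h → c ≤ F (ze E η)) →
        ∀ E : ℝ, |E| ≤ a → c ≤ g E := by
  set e : ℕ → ℝ := fun k => h / (k + 1) with he
  have hepos : ∀ k, 0 < e k := fun k => by simp only [he]; positivity
  have hele : ∀ k, e k ≤ h := fun k => by
    simp only [he]
    exact div_le_self hh.le (by have : (0 : ℝ) ≤ k := Nat.cast_nonneg k; linarith)
  have helim : Filter.Tendsto e Filter.atTop (nhds 0) := by
    simp only [he]
    have := (tendsto_one_div_add_atTop_nhds_zero_nat (𝕜 := ℝ)).const_mul h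
    simpa [div_eq_mul_inv] using this
  have hsmall : ∀ δ : ℝ, 0 < δ → ∃ N : ℕ, ∀ k, N ≤ k → e k ≤ δ := by
    intro δ hδ
    obtain ⟨N, hN⟩ := (Metric.tendsto_atTop.1 helim) δ hδ
    refine ⟨N, fun k hk => ?_⟩
    have := hN k hk
    rw [Real.dist_eq, sub_zero, abs_of_pos (hepos k)] at this
    exact this.le
  have hcauchy : ∀ E : ℝ, |E| ≤ a → CauchySeq fun k => F (ze E (e k)) := by
    intro E hE
    rw [Metric.cauchySeq_iff']
    intro ε hε
    obtain ⟨δ, hδ, H⟩ := hF (ε / 2) (half_pos hε)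
    obtain ⟨N, hN⟩ := hsmall δ hδ
    refine ⟨N, fun k hk => ?_⟩
    rw [Real.dist_eq]
    refine lt_of_le_of_lt (H E E (e k) (e N) hE hE (hepos k) (hele k) (hepos N) (hele N)
      (by simpa using hδ.le) ?_) (half_lt_self hε)
    have h1 := hN k hk
    have h2 := hN N le_rfl
    have h3 := hepos k
    have h4 := hepos N
    rw [abs_le]; constructor <;> linarith
  have hex : ∀ E : ℝ, ∃ l : ℝ, |E| ≤ a → Filter.Tendsto (fun k => F (ze E (e k))) Filter.atTop
      (nhds l) := by
    intro E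
    by_cases hE : |E| ≤ a
    · obtain ⟨l, hl⟩ := cauchySeq_tendsto_of_complete (hcauchy E hE)
      exact ⟨l, fun _ => hl⟩
    · exact ⟨0, fun h' => absurd h' hE⟩
  choose g hlim using hex
  refine ⟨g, ?_, ?_, ?_⟩
  · -- continuity
    rw [Metric.continuousOn_iff]
    intro E hE ε hε
    obtain ⟨δ, hδ, H⟩ := hF (ε / 2) (half_pos hε)
    refine ⟨δ, hδ, fun E' hE' hd => ?_⟩
    rw [Real.dist_eq] at hd ⊢
    refine lt_of_le_of_lt ?_ (half_lt_self hε)
    have h1 := ((hlim E' hE').sub (hlim E hE)).abs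
    refine le_of_tendsto h1 (Filter.Eventually.of_forall fun k => ?_)
    exact H E' E (e k) (e k) hE' hE (hepos k) (hele k) (hepos k) (hele k) hd.le (by simpa using hδ.le)
  · intro ε hε
    obtain ⟨δ, hδ, H⟩ := hF ε hε
    refine ⟨min δ h, lt_min hδ hh, fun η hη hle E hE => ?_⟩
    have h1 := ((hlim E hE).const_sub (F (ze E η))).abs
    obtain ⟨N, hN⟩ := hsmall δ hδ
    refine le_of_tendsto h1 ?_
    filter_upwards [Filter.eventually_ge_atTop N] with k hk
    refine H E E η (e k) hE hE hη (hle.trans (min_le_right _ _)) (hepos k) (hele k)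
      (by simpa using hδ.le) ?_
    have h2 := hN k hk
    have h3 := hepos k
    have h4 := hle.trans (min_le_left _ _)
    rw [abs_le]; constructor <;> linarith
  · intro c hc E hE
    exact ge_of_tendsto (hlim E hE)
      (Filter.Eventually.of_forall fun k => hc E (e k) hE (hepos k) (hele k))

/-- **(T8)** -/
theorem T8_of (hb : 1 ≤ b) (h6 : T6 b) (hnd : T6_nondeg b) : T8 b := by
  have hT : ∀ s : ℝ, T1 b s := fun s => TreeT1.t1 b s
  intro κ hκ
  have hpi := Real.pi_pos
  obtain ⟨s1, hs1, H6⟩ := h6 κ hκ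
  obtain ⟨s2, hs2, Hnd⟩ := hnd κ hκ
  have hb0 : (0 : ℝ) < b := by exact_mod_cast hb
  have hsq : 0 < Real.sqrt b := Real.sqrt_pos.2 hb0
  set a : ℝ := 2 * Real.sqrt b - κ with ha
  set h : ℝ := 2 * Real.sqrt b with hh
  have hh0 : 0 < h := by positivity
  refine ⟨min s1 s2, lt_min hs1 hs2, fun s hs hss => ?_⟩
  have H6 := H6 s hs (hss.trans_le (min_le_left _ _))
  have Hnd := Hnd s hs (hss.trans_le (min_le_right _ _))
  have hT := hT s
  set K : ℝ := 2 * Real.pi / s with hK
  have hK0 : 0 < K := by positivity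
  have hunif : ∀ ε : ℝ, 0 < ε → ∃ δ : ℝ, 0 < δ ∧ ∀ E E' η η' : ℝ, |E| ≤ a → |E'| ≤ a → 0 < η →
      η ≤ h → 0 < η' → η' ≤ h → |E - E'| ≤ δ → |η - η'| ≤ δ →
      |(fun z => (Gav b s z).im) (ze E η) - (fun z => (Gav b s z).im) (ze E' η')| ≤ ε := by
    intro ε hε
    set e : ℝ := ε / (4 * K) with he
    have he0 : 0 < e := by positivity
    set t : ℝ := e / (b + 1) with ht
    have ht0 : 0 < t := by positivity
    obtain ⟨δ1, hδ1, H6⟩ := H6 (t ^ 2) (by positivity)
    obtain ⟨δ2, hδ2, M, hM, Hnd⟩ := Hnd e he0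
    refine ⟨min (δ1 / 2) (δ2 * e), lt_min (by positivity) (by positivity),
      fun E E' η η' hE hE' hη hηh hη' hη'h hd1 hd2 => ?_⟩
    have hz : 0 < (ze E η).im := by rw [ze_im]; exact hη
    have hz' : 0 < (ze E' η').im := by rw [ze_im]; exact hη'
    have hn := norm_ze_sub E E' η η'
    have hn1 : ‖ze E η - ze E' η'‖ ≤ δ1 := by
      have h1 := hd1.trans (min_le_left _ _)
      have h2 := hd2.trans (min_le_left _ _)
      linarith
    have hn2 : ‖ze E η - ze E' η'‖ ≤ 2 * (δ2 * e) := by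
      have h1 := hd1.trans (min_le_right _ _)
      have h2 := hd2.trans (min_le_right _ _)
      linarith
    have h1 := H6 (ze E η) (ze E' η') (by rw [ze_re]; exact hE) hz (by rw [ze_im]; exact hηh)
      (by rw [ze_re]; exact hE') hz' (by rw [ze_im]; exact hη'h) hn1
    have h2 := Hnd (ze E' η') (by rw [ze_re]; exact hE') hz' (by rw [ze_im]; exact hη'h)
    have h3 := Gav_sub_le hs hT hz hz' hδ2 ht0 h1 he0.le
      ((measure_mono fun ω hω => Or.inl hω).trans h2)
    refine h3.trans ?_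
    have h4 : ‖ze E η - ze E' η'‖ / (2 * δ2) ≤ e := by
      rw [div_le_iff₀ (by positivity)]; linarith
    have h5 : ((b : ℝ) + 1) * (t / 2 + t ^ 2 / (2 * t)) = e := by
      rw [ht]; field_simp; ring
    rw [h5]
    calc K * (e + (e + ‖ze E η - ze E' η'‖ / (2 * δ2))) ≤ K * (e + (e + e)) := by gcongr
      _ = 3 / 4 * ε := by rw [he]; field_simp; ring
      _ ≤ ε := by linarith
  obtain ⟨g, hg1, hg2, hg3⟩ := boundary_value (fun z => (Gav b s z).im) a h hh0 hunif
  obtain ⟨δ, hδ, M, hM, Hnd1⟩ := Hnd (1 / (2 * (b + 1))) (by positivity)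
  set R : ℝ := a ^ 2 + 1 + h + (b + 1) * M + s with hR
  have hR0 : 0 < R := by positivity
  have hlow : ∀ E : ℝ, |E| ≤ a → δ / (2 * R ^ 2) ≤ g E := by
    refine hg3 _ fun E η hE hη hηh => ?_
    have hz : 0 < (ze E η).im := by rw [ze_im]; exact hη
    refine Gav_ge hs hT hz hδ ?_ hR0
      (Hnd1 (ze E η) (by rw [ze_re]; exact hE) hz (by rw [ze_im]; exact hηh))
    have h1 : ‖ze E η‖ ≤ |E| + η := by
      have := norm_ze_sub E 0 η 0
      have e0 : ze 0 0 = 0 := by unfold ze; simp
      rw [e0, sub_zero, sub_zero, sub_zero, abs_of_pos hη] at this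
      exact this
    have h2 : |E| ≤ a ^ 2 + 1 := by nlinarith [sq_nonneg (a - 1)]
    linarith
  refine ⟨fun E => g E / Real.pi, ?_, ⟨δ / (2 * R ^ 2) / Real.pi, by positivity, fun E hE => ?_⟩,
    fun ε hε => ?_⟩
  · exact (hg1.mono fun E (hE : |E| < a) => (le_of_lt hE : |E| ≤ a)).div_const _
  · exact div_le_div_of_nonneg_right (hlow E (le_of_lt hE)) hpi.le
  · obtain ⟨η0, hη0, H⟩ := hg2 ε hε
    refine ⟨η0, hη0, fun η hη hle E hE => ?_⟩
    have e1 : Real.pi * (g E / Real.pi) = g E := by field_simp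
    rw [e1]
    exact H η hη hle E (le_of_lt hE)

end

end Crest.Agent.R166.T8355
end

-- ▼ part R166/StInv_390
section
/-!
Row 166, section 70 (M2), helper390: Stieltjes inversion.

If the Stieltjes transform of a probability measure `ν` satisfies
`Im ∫ (x - (E+iη))⁻¹ dν → π ρ(E)` uniformly on the open set `U`, with `ρ` continuous on `U`, then
`ν` has density `ρ` on `U`.
-/
set_option autoImplicit false

namespace Crest.Agent.R166.StInv390

open MeasureTheory Set Filter Topology Crest.Agent.R166.DosA420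

noncomputable section

theorem ze_im_inv (E η x : ℝ) :
    (((x : ℂ) - ze E η)⁻¹).im = pk E η x := by
  have h1 : (x : ℂ) - ze E η = ((x - E : ℝ) : ℂ) + ((-η : ℝ) : ℂ) * Complex.I := by
    simp only [ze]; push_cast; ring
  rw [h1, Complex.inv_im]
  simp only [Complex.normSq_add_mul_I, Complex.add_im, Complex.ofReal_im, Complex.mul_im,
    Complex.ofReal_re, Complex.I_im, mul_one, Complex.I_re, mul_zero, add_zero, zero_add, neg_neg,
    pk]
  congr 1
  ring

theorem im_stieltjes {ν : Measure ℝ} [IsProbabilityMeasure ν] {E η : ℝ} (hη : 0 < η) :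
    (∫ x : ℝ, ((x : ℂ) - ze E η)⁻¹ ∂ν).im = ∫ x, pk E η x ∂ν := by
  have hne : ∀ x : ℝ, (x : ℂ) - ze E η ≠ 0 := fun x h => by
    have := congrArg Complex.im h
    simp [ze] at this
    exact hη.ne' this
  have hi : Integrable (fun x : ℝ => ((x : ℂ) - ze E η)⁻¹) ν := by
    refine Integrable.of_bound (Continuous.inv₀ (by fun_prop) hne).aestronglyMeasurable (1 / η) ?_
    refine Eventually.of_forall fun x => ?_
    rw [norm_inv, one_div]
    apply inv_anti₀ hη
    have h1 : |((x : ℂ) - ze E η).im| = η := by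
      simp [ze, abs_of_pos hη]
    have h2 := Complex.abs_im_le_norm ((x : ℂ) - ze E η)
    rwa [h1] at h2
  have := integral_im hi
  simp only [RCLike.im_eq_complex_im] at this
  rw [← this]
  refine integral_congr_ae (Eventually.of_forall fun x => ?_)
  exact ze_im_inv E η x

/-- the Poisson integral of a bounded continuous function -/
theorem poisson_subst {f : ℝ → ℝ} {η : ℝ} (hη : 0 < η) (x : ℝ) :
    ∫ E, f E * pk E η x = ∫ t, f (x + η * t) * (1 + t ^ 2)⁻¹ := by
  have h1 : ∫ E, f E * pk E η x = ∫ E, f (x + E) * pk (x + E) η x :=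
    (integral_add_left_eq_self (fun E => f E * pk E η x) x).symm
  have h2 := Measure.integral_comp_mul_left (fun E => f (x + E) * pk (x + E) η x) η
  rw [h1]
  have h3 : ∫ E, f (x + E) * pk (x + E) η x = η * ∫ t, f (x + η * t) * pk (x + η * t) η x := by
    rw [h2, abs_of_pos (inv_pos.mpr hη), smul_eq_mul, ← mul_assoc, mul_inv_cancel₀ hη.ne', one_mul]
  rw [h3, ← integral_const_mul]
  refine integral_congr_ae (Eventually.of_forall fun t => ?_)
  simp only [pk]
  have : (x - (x + η * t)) ^ 2 + η ^ 2 = η ^ 2 * (1 + t ^ 2) := by ring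
  rw [this]
  have h4 : (1 + t ^ 2) ≠ 0 := by positivity
  field_simp

theorem poisson_conv {f : ℝ → ℝ} (hf : Continuous f) {M : ℝ} (hM : ∀ x, |f x| ≤ M) (x : ℝ) :
    Tendsto (fun η : ℝ => ∫ E, f E * pk E η x) (𝓝[>] 0) (𝓝 (Real.pi * f x)) := by
  have h1 : Tendsto (fun η : ℝ => ∫ t, f (x + η * t) * (1 + t ^ 2)⁻¹) (𝓝[>] 0)
      (𝓝 (∫ t, f x * (1 + t ^ 2)⁻¹)) := by
    refine tendsto_integral_filter_of_dominated_convergence (fun t => M * (1 + t ^ 2)⁻¹) ?_ ?_ ?_ ?_
    · refine Eventually.of_forall fun η => Continuous.aestronglyMeasurable ?_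
      have : ∀ t : ℝ, 1 + t ^ 2 ≠ 0 := fun t => by positivity
      exact (hf.comp (by fun_prop)).mul (Continuous.inv₀ (by fun_prop) this)
    · refine Eventually.of_forall fun η => Eventually.of_forall fun t => ?_
      have : (0 : ℝ) ≤ (1 + t ^ 2)⁻¹ := by positivity
      rw [norm_mul, Real.norm_eq_abs, Real.norm_of_nonneg this]
      exact mul_le_mul_of_nonneg_right (hM _) this
    · exact integrable_inv_one_add_sq.const_mul _
    · refine Eventually.of_forall fun t => ?_
      have h2 : Tendsto (fun η : ℝ => f (x + η * t)) (𝓝 0) (𝓝 (f (x + 0 * t))) :=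
        (hf.comp (by fun_prop : Continuous fun η : ℝ => x + η * t)).tendsto 0
      rw [zero_mul, add_zero] at h2
      exact (h2.mono_left nhdsWithin_le_nhds).mul_const _
  rw [integral_const_mul, integral_univ_inv_one_add_sq, mul_comm] at h1
  refine h1.congr' ?_
  filter_upwards [self_mem_nhdsWithin] with η hη
  exact (poisson_subst hη x).symm

theorem poisson_bound {f : ℝ → ℝ} {M : ℝ} (hM : ∀ x, |f x| ≤ M) {η : ℝ}
    (hη : 0 < η) (x : ℝ) : |∫ E, f E * pk E η x| ≤ M * Real.pi := by
  rw [poisson_subst hη, ← integral_univ_inv_one_add_sq, ← integral_const_mul]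
  refine (abs_integral_le_integral_abs).trans ?_
  refine integral_mono_of_nonneg (Eventually.of_forall fun t => abs_nonneg _)
    (integrable_inv_one_add_sq.const_mul _) (Eventually.of_forall fun t => ?_)
  have : (0 : ℝ) ≤ (1 + t ^ 2)⁻¹ := by positivity
  simp only [abs_mul]
  rw [abs_of_nonneg this]
  exact mul_le_mul_of_nonneg_right (hM _) this

theorem fubini {ν : Measure ℝ} [IsProbabilityMeasure ν] {f : ℝ → ℝ} (hf : Integrable f)
    {η : ℝ} (hη : 0 < η) :
    ∫ E, f E * (∫ x, pk E η x ∂ν) = ∫ x, (∫ E, f E * pk E η x) ∂ν := by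
  simp_rw [← integral_const_mul]
  refine integral_integral_swap ?_
  have h1 : Integrable (fun p : ℝ × ℝ => f p.1) (volume.prod ν) := hf.comp_fst ν
  have hc : Continuous fun p : ℝ × ℝ => pk p.1 η p.2 := by
    unfold pk
    refine continuous_const.div (by fun_prop) fun p => ?_
    positivity
  refine h1.mul_bdd (c := 1 / η) hc.aestronglyMeasurable (Eventually.of_forall fun p => ?_)
  rw [Real.norm_of_nonneg (pk_nonneg hη.le _)]
  exact pk_le hη _

theorem rho_bound {ν : Measure ℝ} [IsProbabilityMeasure ν] {U : Set ℝ} {ρ : ℝ → ℝ}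
    (h : ∀ ε : ℝ, 0 < ε → ∃ η0 > 0, ∀ η : ℝ, 0 < η → η ≤ η0 → ∀ E ∈ U,
      |(∫ x : ℝ, ((x : ℂ) - ze E η)⁻¹ ∂ν).im - Real.pi * ρ E| ≤ ε) :
    ∃ B : ℝ, ∀ E ∈ U, |ρ E| ≤ B := by
  obtain ⟨η0, hη0, h1⟩ := h 1 one_pos
  refine ⟨(1 + 1 / η0) / Real.pi, ?_⟩
  intro E hE
  have h2 := h1 η0 hη0 le_rfl E hE
  rw [im_stieltjes hη0] at h2
  have h3 : |∫ x, pk E η0 x ∂ν| ≤ 1 / η0 := by
    have := norm_integral_le_of_norm_le_const (μ := ν) (f := pk E η0) (C := 1 / η0)
      (Eventually.of_forall fun x => by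
        rw [Real.norm_of_nonneg (pk_nonneg hη0.le _)]
        exact pk_le hη0 _)
    simpa using this
  rw [le_div_iff₀ Real.pi_pos]
  have h4 : |ρ E| * Real.pi = |Real.pi * ρ E| := by
    rw [abs_mul, abs_of_pos Real.pi_pos, mul_comm]
  rw [h4]
  have h5 := abs_sub_abs_le_abs_sub (Real.pi * ρ E) (∫ x, pk E η0 x ∂ν)
  rw [abs_sub_comm] at h5
  linarith

theorem integrable_mul_rho {U : Set ℝ} (hU : IsOpen U) {ρ : ℝ → ℝ} (hρ : ContinuousOn ρ U)
    (hb : ∃ B : ℝ, ∀ E ∈ U, |ρ E| ≤ B) {f : ℝ → ℝ} (hfi : Integrable f)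
    (hfU : ∀ x, x ∉ U → f x = 0) : Integrable fun E => f E * ρ E := by
  obtain ⟨B, hB⟩ := hb
  have e : (fun E => f E * ρ E) = U.indicator (fun E => f E * ρ E) := by
    funext E
    by_cases hE : E ∈ U
    · rw [indicator_of_mem hE]
    · rw [indicator_of_notMem hE, hfU E hE, zero_mul]
  rw [e, integrable_indicator_iff hU.measurableSet]
  refine hfi.integrableOn.mul_bdd (c := B) (hρ.aestronglyMeasurable hU.measurableSet) ?_
  rw [ae_restrict_iff' hU.measurableSet]
  exact Eventually.of_forall fun E hE => by rw [Real.norm_eq_abs]; exact hB E hE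

/-- test function identity -/
theorem test_eq {ν : Measure ℝ} [IsProbabilityMeasure ν] {U : Set ℝ} (hU : IsOpen U) {ρ : ℝ → ℝ}
    (hρ : ContinuousOn ρ U)
    (h : ∀ ε : ℝ, 0 < ε → ∃ η0 > 0, ∀ η : ℝ, 0 < η → η ≤ η0 → ∀ E ∈ U,
      |(∫ x : ℝ, ((x : ℂ) - ze E η)⁻¹ ∂ν).im - Real.pi * ρ E| ≤ ε)
    {f : ℝ → ℝ} (hfc : Continuous f) (hfi : Integrable f) {M : ℝ} (hM : ∀ x, |f x| ≤ M)
    (hfU : ∀ x, x ∉ U → f x = 0) :
    ∫ x, f x ∂ν = ∫ E, f E * ρ E := by
  have hfρ : Integrable fun E => f E * ρ E := integrable_mul_rho hU hρ (rho_bound h) hfi hfU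
  -- the limit of the double integral, two ways
  have hlim1 : Tendsto (fun η : ℝ => ∫ x, (∫ E, f E * pk E η x) ∂ν) (𝓝[>] 0)
      (𝓝 (∫ x, Real.pi * f x ∂ν)) := by
    refine tendsto_integral_filter_of_dominated_convergence (fun _ => M * Real.pi) ?_ ?_ ?_ ?_
    · filter_upwards [self_mem_nhdsWithin] with η hη
      have hη' : (0 : ℝ) < η := hη
      have hc : Continuous fun p : ℝ × ℝ => f p.2 * pk p.2 η p.1 := by
        unfold pk
        refine (by fun_prop : Continuous fun p : ℝ × ℝ => f p.2).mul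
          (continuous_const.div (by fun_prop) fun p => ?_)
        positivity
      exact (hc.stronglyMeasurable.integral_prod_right').aestronglyMeasurable
    · filter_upwards [self_mem_nhdsWithin] with η hη
      exact Eventually.of_forall fun x => by
        rw [Real.norm_eq_abs]; exact poisson_bound hM hη x
    · exact integrable_const _
    · exact Eventually.of_forall fun x => poisson_conv hfc hM x
  have hlim2 : Tendsto (fun η : ℝ => ∫ E, f E * (∫ x, pk E η x ∂ν)) (𝓝[>] 0)
      (𝓝 (Real.pi * ∫ E, f E * ρ E)) := by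
    rw [Metric.tendsto_nhdsWithin_nhds]
    intro ε hε
    have hI : 0 ≤ ∫ E, |f E| := integral_nonneg fun E => abs_nonneg _
    obtain ⟨η0, hη0, h1⟩ := h (ε / (2 * (1 + ∫ E, |f E|))) (by positivity)
    refine ⟨η0, hη0, fun {η} hη hd => ?_⟩
    have hη' : (0 : ℝ) < η := hη
    rw [Real.dist_eq, sub_zero, abs_of_pos hη'] at hd
    rw [Real.dist_eq, ← integral_const_mul]
    have hi1 : Integrable fun E => f E * (∫ x, pk E η x ∂ν) := by
      refine hfi.mul_bdd (c := 1 / η) ?_ ?_
      · have hc : Continuous fun p : ℝ × ℝ => pk p.1 η p.2 := by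
          unfold pk
          refine continuous_const.div (by fun_prop) fun p => ?_
          positivity
        exact (hc.stronglyMeasurable.integral_prod_right').aestronglyMeasurable
      · refine Eventually.of_forall fun E => ?_
        have := norm_integral_le_of_norm_le_const (μ := ν) (f := pk E η) (C := 1 / η)
          (Eventually.of_forall fun x => by
            rw [Real.norm_of_nonneg (pk_nonneg hη'.le _)]
            exact pk_le hη' _)
        simpa using this
    rw [← integral_sub hi1 (hfρ.const_mul _)]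
    refine (abs_integral_le_integral_abs).trans_lt ?_
    have h6 : ∫ E, |f E * (∫ x, pk E η x ∂ν) - Real.pi * (f E * ρ E)| ≤
        ∫ E, (ε / (2 * (1 + ∫ E, |f E|))) * |f E| := by
      refine integral_mono_of_nonneg (Eventually.of_forall fun _ => abs_nonneg _)
        (hfi.abs.const_mul _) (Eventually.of_forall fun E => ?_)
      by_cases hE : E ∈ U
      · have h2 := h1 η hη' hd.le E hE
        rw [im_stieltjes hη'] at h2
        have e : f E * (∫ x, pk E η x ∂ν) - Real.pi * (f E * ρ E)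
            = f E * ((∫ x, pk E η x ∂ν) - Real.pi * ρ E) := by ring
        simp only [e, abs_mul]
        rw [mul_comm]
        exact mul_le_mul_of_nonneg_right h2 (abs_nonneg _)
      · simp [hfU E hE]
    refine h6.trans_lt ?_
    rw [integral_const_mul]
    have h7 : ε / (2 * (1 + ∫ E, |f E|)) * ∫ E, |f E| ≤ ε / 2 := by
      rw [div_mul_eq_mul_div, div_le_div_iff₀ (by positivity) two_pos]
      nlinarith
    linarith
  have hlim3 : Tendsto (fun η : ℝ => ∫ x, (∫ E, f E * pk E η x) ∂ν) (𝓝[>] 0)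
      (𝓝 (Real.pi * ∫ E, f E * ρ E)) := by
    refine hlim2.congr' ?_
    filter_upwards [self_mem_nhdsWithin] with η hη
    exact fubini hfi hη
  have h8 := tendsto_nhds_unique hlim1 hlim3
  rw [integral_const_mul] at h8
  exact mul_left_cancel₀ Real.pi_pos.ne' h8

theorem exists_weight {U : Set ℝ} (hU : IsOpen U) :
    ∃ a : ℝ → ℝ, Continuous a ∧ (∀ x, 0 ≤ a x) ∧ (∀ x, a x ≤ 1) ∧ (∀ x, x ∉ U → a x = 0) ∧
      ∀ x ∈ U, 0 < a x := by
  by_cases hUc : Uᶜ.Nonempty
  · refine ⟨fun x => min 1 (Metric.infDist x Uᶜ),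
      continuous_const.min (Metric.continuous_infDist_pt _), fun x => ?_, fun x => min_le_left _ _,
      fun x hx => ?_, fun x hx => ?_⟩
    · have := Metric.infDist_nonneg (x := x) (s := Uᶜ)
      positivity
    · have h1 : Metric.infDist x Uᶜ = 0 := Metric.infDist_zero_of_mem hx
      simp [h1]
    · have h1 : 0 < Metric.infDist x Uᶜ := by
        rw [← (hU.isClosed_compl).notMem_iff_infDist_pos hUc]
        exact fun h => h hx
      positivity
  · have hU' : ∀ x, x ∈ U := fun x => by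
      by_contra hx
      exact hUc ⟨x, hx⟩
    exact ⟨fun _ => 1, continuous_const, fun _ => zero_le_one, fun _ => le_rfl,
      fun x hx => absurd (hU' x) hx, fun _ _ => one_pos⟩

/-- **Stieltjes inversion** -/
theorem stieltjes_inversion {ν : Measure ℝ} [IsProbabilityMeasure ν] {U : Set ℝ} (hU : IsOpen U)
    {ρ : ℝ → ℝ} (hρ : ContinuousOn ρ U)
    (h : ∀ ε : ℝ, 0 < ε → ∃ η0 > 0, ∀ η : ℝ, 0 < η → η ≤ η0 → ∀ E ∈ U,
      |(∫ x : ℝ, ((x : ℂ) - ze E η)⁻¹ ∂ν).im - Real.pi * ρ E| ≤ ε) :
    ν.restrict U = (volume.restrict U).withDensity fun E => ENNReal.ofReal (ρ E) := by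
  -- positivity and boundedness of `ρ`
  have hρ0 : ∀ E ∈ U, 0 ≤ ρ E := by
    intro E hE
    by_contra hneg
    push Not at hneg
    obtain ⟨η0, hη0, h1⟩ := h (-(Real.pi * ρ E) / 2) (by nlinarith [Real.pi_pos])
    have h2 := h1 η0 hη0 le_rfl E hE
    rw [im_stieltjes hη0] at h2
    have h3 : 0 ≤ ∫ x, pk E η0 x ∂ν := integral_nonneg fun x => pk_nonneg hη0.le x
    have h4 := (abs_le.mp h2).2
    nlinarith [Real.pi_pos]
  -- the weight
  obtain ⟨a, hac, ha0, ha1, haU, hapos⟩ := exists_weight hU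
  set w : ℝ → ℝ := fun x => a x * (1 + x ^ 2)⁻¹ with hw
  have hwc : Continuous w := by
    have : ∀ t : ℝ, 1 + t ^ 2 ≠ 0 := fun t => by positivity
    exact hac.mul (Continuous.inv₀ (by fun_prop) this)
  have hw0 : ∀ x, 0 ≤ w x := fun x => by
    have := ha0 x
    positivity
  have hwle : ∀ x, w x ≤ (1 + x ^ 2)⁻¹ := fun x => by
    have h1 : (0 : ℝ) ≤ (1 + x ^ 2)⁻¹ := by positivity
    have := mul_le_mul_of_nonneg_right (ha1 x) h1
    rwa [one_mul] at this
  have hw1 : ∀ x, w x ≤ 1 := fun x => (hwle x).trans (by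
    apply inv_le_one_of_one_le₀; nlinarith [sq_nonneg x])
  have hwU : ∀ x, x ∉ U → w x = 0 := fun x hx => by
    simp [hw, haU x hx]
  have hwpos : ∀ x ∈ U, 0 < w x := fun x hx => by
    have h1 := hapos x hx
    positivity
  have hwi : Integrable w := by
    refine integrable_inv_one_add_sq.mono' hwc.aestronglyMeasurable
      (Eventually.of_forall fun x => ?_)
    rw [Real.norm_of_nonneg (hw0 x)]
    exact hwle x
  set W : ℝ → ENNReal := fun x => ENNReal.ofReal (w x) with hW
  have hWm : Measurable W := hwc.measurable.ennreal_ofReal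
  have hρm : AEMeasurable (fun E => ENNReal.ofReal (ρ E)) (volume.restrict U) :=
    (hρ.aemeasurable hU.measurableSet).ennreal_ofReal
  set μ1 := ν.restrict U with hμ1
  set μ2 := (volume.restrict U).withDensity fun E => ENNReal.ofReal (ρ E) with hμ2
  have hae1 : ∀ᵐ x ∂μ1, x ∈ U := ae_restrict_mem hU.measurableSet
  have hae2 : ∀ᵐ x ∂μ2, x ∈ U :=
    (withDensity_absolutelyContinuous _ _).ae_le (ae_restrict_mem hU.measurableSet)
  have hfin : IsFiniteMeasure (μ1.withDensity W) := by
    refine isFiniteMeasure_withDensity_ofReal ?_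
    have : Integrable w μ1 := Integrable.of_bound hwc.aestronglyMeasurable 1
      (Eventually.of_forall fun x => by rw [Real.norm_of_nonneg (hw0 x)]; exact hw1 x)
    exact this.2
  have key : μ1.withDensity W = μ2.withDensity W := by
    refine ext_of_forall_lintegral_eq_of_IsFiniteMeasure fun g => ?_
    have hgm : Measurable fun x => (g x : ENNReal) :=
      g.continuous.measurable.coe_nnreal_ennreal
    rw [lintegral_withDensity_eq_lintegral_mul _ hWm hgm,
      lintegral_withDensity_eq_lintegral_mul _ hWm hgm]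
    -- the test function
    set f : ℝ → ℝ := fun x => w x * (g x : ℝ) with hf
    have hfc : Continuous f := hwc.mul (NNReal.continuous_coe.comp g.continuous)
    have hf0 : ∀ x, 0 ≤ f x := fun x => mul_nonneg (hw0 x) (g x).coe_nonneg
    obtain ⟨C, hC⟩ : ∃ C : ℝ, ∀ x, (g x : ℝ) ≤ C := by
      exact ⟨(nndist g 0 : NNReal), fun x => by
        exact_mod_cast BoundedContinuousFunction.NNReal.upper_bound g x⟩
    have hC0 : 0 ≤ C := (g 0).coe_nonneg.trans (hC 0)
    have hfM : ∀ x, |f x| ≤ C := fun x => by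
      rw [abs_of_nonneg (hf0 x)]
      calc w x * (g x : ℝ) ≤ 1 * C :=
            mul_le_mul (hw1 x) (hC x) (g x).coe_nonneg zero_le_one
        _ = C := one_mul C
    have hfi : Integrable f := by
      refine (hwi.mul_const C).mono' hfc.aestronglyMeasurable (Eventually.of_forall fun x => ?_)
      rw [Real.norm_of_nonneg (hf0 x)]
      exact mul_le_mul_of_nonneg_left (hC x) (hw0 x)
    have hfU : ∀ x, x ∉ U → f x = 0 := fun x hx => by simp only [hf, hwU x hx, zero_mul]
    have hmain := test_eq hU hρ h hfc hfi hfM hfU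
    have hfν : Integrable f ν := Integrable.of_bound hfc.aestronglyMeasurable C
      (Eventually.of_forall fun x => hfM x)
    have hfρ := integrable_mul_rho hU hρ (rho_bound h) hfi hfU
    have hWg : ∀ x, W x * (g x : ENNReal) = ENNReal.ofReal (f x) := fun x => by
      simp only [hW, hf]
      rw [ENNReal.ofReal_mul (hw0 x), ENNReal.ofReal_coe_nnreal]
    have hL : ∫⁻ x, (W * fun x => (g x : ENNReal)) x ∂μ1 = ENNReal.ofReal (∫ x, f x ∂ν) := by
      rw [ofReal_integral_eq_lintegral_ofReal hfν (Eventually.of_forall hf0), hμ1,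
        ← lintegral_indicator hU.measurableSet]
      refine lintegral_congr fun x => ?_
      by_cases hx : x ∈ U
      · rw [indicator_of_mem hx, Pi.mul_apply, hWg]
      · rw [indicator_of_notMem hx, hfU x hx, ENNReal.ofReal_zero]
    have hR : ∫⁻ x, (W * fun x => (g x : ENNReal)) x ∂μ2
        = ENNReal.ofReal (∫ x, f x * ρ x) := by
      rw [hμ2, lintegral_withDensity_eq_lintegral_mul₀ hρm (hWm.mul hgm).aemeasurable,
        ofReal_integral_eq_lintegral_ofReal hfρ, ← lintegral_indicator hU.measurableSet]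
      · refine lintegral_congr fun x => ?_
        by_cases hx : x ∈ U
        · rw [indicator_of_mem hx, Pi.mul_apply, Pi.mul_apply, hWg,
            ENNReal.ofReal_mul (hf0 x), mul_comm]
        · rw [indicator_of_notMem hx, hfU x hx, zero_mul, ENNReal.ofReal_zero]
      · refine Eventually.of_forall fun x => ?_
        by_cases hx : x ∈ U
        · exact mul_nonneg (hf0 x) (hρ0 x hx)
        · simp [hfU x hx]
    rw [hL, hR, hmain]
  have hi1 := withDensity_inv_same (μ := μ1) hWm
    (by filter_upwards [hae1] with x hx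
        simp only [hW, ne_eq, ENNReal.ofReal_eq_zero, not_le]
        exact hwpos x hx)
    (Eventually.of_forall fun x => ENNReal.ofReal_ne_top)
  have hi2 := withDensity_inv_same (μ := μ2) hWm
    (by filter_upwards [hae2] with x hx
        simp only [hW, ne_eq, ENNReal.ofReal_eq_zero, not_le]
        exact hwpos x hx)
    (Eventually.of_forall fun x => ENNReal.ofReal_ne_top)
  rw [← hi1, ← hi2, key]

/-- (70, M2), verbatim `Master423.StmtM2` -/
theorem stmtM2 : ∀ (ν : Measure ℝ) [IsProbabilityMeasure ν] (U : Set ℝ) (ρ : ℝ → ℝ), IsOpen U →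
    ContinuousOn ρ U → (∀ t ∈ U, 0 ≤ ρ t) →
    (∀ ε : ℝ, 0 < ε → ∃ η0 : ℝ, 0 < η0 ∧ ∀ η : ℝ, 0 < η → η ≤ η0 → ∀ E ∈ U,
      |(∫ x, ((x : ℂ) - ze E η)⁻¹ ∂ν).im - Real.pi * ρ E| ≤ ε) →
    ν.restrict U = (volume.restrict U).withDensity (fun t => ENNReal.ofReal (ρ t)) :=
  fun _ _ _ _ hU hρ _ h => stieltjes_inversion hU hρ h

end

end Crest.Agent.R166.StInv390
end

-- ▼ part R166/Ball_356
section

/-!
# Row 166, section 70 (M1), concrete half (helper356)

Finite balls of the tree `Env536.Node d`: `V N = {x // x.2.length ≤ N}`, the matrix `HN s N Ω`,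
its powers at the root, its Green function at the root, and the limit `N → ∞`.
-/

set_option autoImplicit false

open Finset MeasureTheory Filter Topology

namespace Crest.Agent.R166.Ball356

open Crest.ProbabilityR.RandomMatrix Crest.Agent.R166.Env536 Crest.Agent.R166.TreeDefs350
  Crest.Agent.R166.TreeWalk356

variable {d : ℕ} [NeZero d]

/-- nodes of depth at most `N` -/
abbrev V (d : ℕ) [NeZero d] (N : ℕ) : Type := {x : Node d // x.2.length ≤ N}

instance (N : ℕ) : Finite (V d N) := by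
  have h : Set.Finite {x : Node d | x.2.length ≤ N} := by
    have h1 : {x : Node d | x.2.length ≤ N} ⊆
        (Set.univ : Set Bool) ×ˢ {l : List (Lt d) | l.length ≤ N} := by
      intro x hx
      exact ⟨Set.mem_univ _, hx⟩
    exact (Set.finite_univ.prod (List.finite_length_le (Lt d) N)).subset h1
  exact h

noncomputable instance (N : ℕ) : Fintype (V d N) := Fintype.ofFinite _

/-- the root -/
def r0 : Node d := (true, [])

/-- the root in the ball -/
def rN (N : ℕ) : V d N := ⟨r0, by simp [r0]⟩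

/-- the matrix on the ball -/
def HN (s : ℝ) (N : ℕ) (Ω : Node d → ℝ) : Matrix (V d N) (V d N) ℝ := fun x y =>
  (if y.1 = par x.1 ∨ x.1 = par y.1 then 1 else 0) + if x = y then s * Ω x.1 else 0

/-- extension by zero -/
def ext {𝕜 : Type*} [Zero 𝕜] {N : ℕ} (f : V d N → 𝕜) (x : Node d) : 𝕜 :=
  if h : x.2.length ≤ N then f ⟨x, h⟩ else 0

/-- child -/
def ch (x : Node d) (k : Lt d) : Node d := (x.1, k :: x.2)

lemma par_ch (x : Node d) (k : Lt d) : par (ch x k) = x := rfl

lemma ch_inj (x : Node d) : Function.Injective (ch x) := by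
  intro k k' h
  simp only [ch, Prod.mk.injEq, List.cons.injEq] at h
  exact h.2.1

/-- the neighbours of `x` -/
lemma nbr_iff (x y : Node d) : (y = par x ∨ x = par y) ↔ (y = par x ∨ ∃ k, y = ch x k) := by
  constructor
  · rintro (h | h)
    · exact Or.inl h
    · rcases y with ⟨b, _ | ⟨k, l⟩⟩
      · left
        rw [h]
        simp [par]
      · right
        refine ⟨k, ?_⟩
        rw [h]
        rfl
  · rintro (h | ⟨k, h⟩)
    · exact Or.inl h
    · right; rw [h, par_ch]

lemma ch_ne_par (x : Node d) (k : Lt d) : ch x k ≠ par x := by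
  intro h
  have h1 := par_len x
  rw [← h] at h1
  simp [ch] at h1

lemma sum_row {𝕜 : Type*} [Semiring 𝕜] (s : 𝕜) {N : ℕ} (Ω : Node d → 𝕜) (f : V d N → 𝕜)
    (x : V d N) :
    ∑ y : V d N, ((if y.1 = par x.1 ∨ x.1 = par y.1 then (1 : 𝕜) else 0) +
      if x = y then s * Ω x.1 else 0) * f y =
    ext f (par x.1) + ∑ k : Lt d, ext f (ch x.1 k) + s * Ω x.1 * f x := by
  classical
  simp only [add_mul, Finset.sum_add_distrib, ite_mul, one_mul, zero_mul, Finset.sum_ite_eq,
    Finset.mem_univ, if_true]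
  congr 1
  have hpar : (par x.1).2.length ≤ N := (par_len x.1).trans x.2
  have h1 : (univ.filter fun y : V d N => y.1 = par x.1 ∨ x.1 = par y.1) =
      insert (⟨par x.1, hpar⟩ : V d N)
        (univ.filter fun y : V d N => ∃ k, y.1 = ch x.1 k) := by
    ext y
    simp only [Finset.mem_filter, Finset.mem_univ, true_and, Finset.mem_insert]
    rw [nbr_iff, Subtype.ext_iff]
  rw [← Finset.sum_filter, h1, Finset.sum_insert]
  · congr 1
    · unfold ext; rw [dif_pos hpar]
    · -- children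
      have h2 : ∀ k : Lt d, ext f (ch x.1 k) =
          ∑ y : V d N, if y.1 = ch x.1 k then f y else 0 := by
        intro k
        unfold ext
        split_ifs with h
        · rw [Finset.sum_eq_single (⟨ch x.1 k, h⟩ : V d N)]
          · rw [if_pos rfl]
          · intro b _ hb
            rw [if_neg]
            intro hb'
            exact hb (Subtype.ext hb')
          · intro h'; exact absurd (Finset.mem_univ _) h'
        · rw [Finset.sum_eq_zero]
          intro y _
          rw [if_neg]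
          intro hy
          apply h
          rw [← hy]
          exact y.2
      simp only [h2]
      rw [Finset.sum_comm, Finset.sum_filter]
      apply Finset.sum_congr rfl
      intro y _
      by_cases hy : ∃ k, y.1 = ch x.1 k
      · rw [if_pos hy]
        obtain ⟨k, hk⟩ := hy
        rw [Finset.sum_eq_single k]
        · rw [if_pos hk]
        · intro k' _ hk'
          rw [if_neg]
          intro h
          exact hk' (ch_inj x.1 (h.symm.trans hk))
        · intro h'; exact absurd (Finset.mem_univ _) h'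
      · rw [if_neg hy]
        symm
        apply Finset.sum_eq_zero
        intro k _
        rw [if_neg (fun h => hy ⟨k, h⟩)]
  · simp only [Finset.mem_filter, Finset.mem_univ, true_and, not_exists]
    intro k h
    exact ch_ne_par x.1 k h.symm

lemma HN_mulVec (s : ℝ) {N : ℕ} (Ω : Node d → ℝ) (f : V d N → ℝ) (x : V d N) :
    (HN s N Ω).mulVec f x = Tl s Ω (ext f) x.1 := by
  rw [Tl_apply]
  have h := sum_row s Ω f x
  have h2 : ext f x.1 = f x := by unfold ext; rw [dif_pos x.2]
  rw [h2]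
  exact h

lemma HN_symm (s : ℝ) (N : ℕ) (Ω : Node d → ℝ) : (HN s N Ω).IsHermitian := by
  ext x y
  simp only [HN, Matrix.conjTranspose_apply, star_trivial]
  congr 1
  · simp only [or_comm]
  · by_cases h : x = y
    · subst h; rfl
    · rw [if_neg h, if_neg (Ne.symm h)]

/-- powers at the root -/
lemma HN_pow (s : ℝ) {N : ℕ} (Ω : Node d → ℝ) (F : Node d → ℝ) (k : ℕ) (x : V d N)
    (hx : x.1.2.length + k ≤ N) :
    ((HN s N Ω) ^ k).mulVec (fun y => F y.1) x = ((Tl s Ω) ^ k) F x.1 := by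
  induction k generalizing x with
  | zero => simp
  | succ k ih =>
    rw [pow_succ', ← Matrix.mulVec_mulVec, HN_mulVec, pow_succ', Module.End.mul_apply, Tl_apply,
      Tl_apply]
    have key : ∀ y : Node d, y.2.length + k ≤ N →
        ext (((HN s N Ω) ^ k).mulVec (fun y => F y.1)) y = ((Tl s Ω) ^ k) F y := by
      intro y hy
      have hy' : y.2.length ≤ N := by omega
      unfold ext
      rw [dif_pos hy']
      exact ih ⟨y, hy'⟩ hy
    rw [key (par x.1) (by have := par_len x.1; omega), key x.1 (by omega)]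
    congr 2
    apply Finset.sum_congr rfl
    intro j _
    exact key _ (by simp only [List.length_cons]; omega)

lemma HN_pow_root (s : ℝ) {N : ℕ} (Ω : Node d → ℝ) {k : ℕ} (hk : k ≤ N) :
    ((HN s N Ω) ^ k) (rN N) (rN N) = ((Tl s Ω) ^ k) (Pi.single (r0 : Node d) (1 : ℝ)) r0 := by
  classical
  have h := HN_pow s Ω (Pi.single (r0 : Node d) (1 : ℝ)) k (rN N) (by simp [rN, r0]; omega)
  have h2 : (fun y : V d N => (Pi.single (r0 : Node d) (1 : ℝ) : Node d → ℝ) y.1) =
      Pi.single (rN N) 1 := by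
    funext y
    by_cases hy : y = rN N
    · subst hy; simp [rN]
    · rw [Pi.single_eq_of_ne hy, Pi.single_eq_of_ne]
      intro h; exact hy (Subtype.ext h)
  rw [h2, Matrix.mulVec_single_one] at h
  exact h


/-- (C1) row sums -/
theorem HN_row (s : ℝ) (hs : 0 ≤ s) (N : ℕ) (Ω : Node d → ℝ) (hΩ : ∀ x, |Ω x| ≤ 1) (x : V d N) :
    ∑ y, |HN s N Ω x y| ≤ d + s := by
  classical
  have h1 : ∀ y, |HN s N Ω x y| ≤ ((if y.1 = par x.1 ∨ x.1 = par y.1 then (1 : ℝ) else 0) +
      if x = y then s * |Ω x.1| else 0) * 1 := by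
    intro y
    rw [mul_one]
    refine (abs_add_le _ _).trans (add_le_add ?_ ?_)
    · split_ifs <;> simp
    · split_ifs
      · rw [abs_mul, abs_of_nonneg hs]
      · simp
  refine (Finset.sum_le_sum fun y _ => h1 y).trans ?_
  rw [sum_row s (fun x => |Ω x|) (fun _ => 1) x]
  have h2 : ∀ y : Node d, ext (fun _ : V d N => (1 : ℝ)) y ≤ 1 := by
    intro y; unfold ext; split_ifs <;> simp
  have h3 : Fintype.card (Lt d) + 1 = d := by
    have : Fintype.card (Lt d) = d - 1 := by
      rw [Fintype.card_subtype_compl, Fintype.card_fin, Fintype.card_unique]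
    rw [this]
    have := Nat.pos_of_ne_zero (NeZero.ne d)
    omega
  have h4 : ∑ k : Lt d, ext (fun _ : V d N => (1 : ℝ)) (ch x.1 k) ≤ Fintype.card (Lt d) := by
    refine (Finset.sum_le_sum fun k _ => h2 _).trans ?_
    simp
  have h5 : (d : ℝ) = Fintype.card (Lt d) + 1 := by exact_mod_cast h3.symm
  have h6 := mul_le_mul_of_nonneg_left (hΩ x.1) hs
  have h7 := h2 (par x.1)
  rw [h5]
  linarith

end Crest.Agent.R166.Ball356
end

-- ▼ part R166/Ball2_356
section

/-!
# Row 166, section 70 (M1), concrete half, part 2: Green function of the ball (helper356)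
-/

set_option autoImplicit false

open Finset MeasureTheory Filter Topology

namespace Crest.Agent.R166.Ball356

open Crest.ProbabilityR.RandomMatrix Crest.Agent.R166.Env536 Crest.Agent.R166.TreeDefs350
  Crest.Agent.R166.TreeWalk356

section green

variable {d : ℕ} [NeZero d]

/-- cavity value at the node `x` with `M` more levels below -/
noncomputable def cN (s : ℝ) (z : ℂ) (Ω : Node d → ℝ) : ℕ → Node d → ℂ
  | 0, x => -1 / (z - s * Ω x)
  | M + 1, x => -1 / (z - s * Ω x + ∑ k : Lt d, cN s z Ω M (ch x k))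

/-- denominators -/
noncomputable def dN (s : ℝ) (z : ℂ) (Ω : Node d → ℝ) : ℕ → Node d → ℂ
  | 0, x => z - s * Ω x
  | M + 1, x => z - s * Ω x + ∑ k : Lt d, cN s z Ω M (ch x k)

lemma cN_eq (s : ℝ) (z : ℂ) (Ω : Node d → ℝ) (M : ℕ) (x : Node d) :
    cN s z Ω M x = -1 / dN s z Ω M x := by
  cases M <;> rfl

lemma im_neg_inv_pos {w : ℂ} (hw : 0 < w.im) : 0 < (-1 / w).im := by
  rw [neg_div, Complex.neg_im, one_div, Complex.inv_im, neg_div, neg_neg]
  have h0 : w ≠ 0 := fun h => by rw [h] at hw; simp at hw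
  exact div_pos hw (Complex.normSq_pos.2 h0)

lemma norm_neg_inv_le {w : ℂ} {t : ℝ} (ht : 0 < t) (hw : t ≤ w.im) : ‖-1 / w‖ ≤ 1 / t := by
  rw [norm_div, norm_neg, norm_one]
  apply one_div_le_one_div_of_le ht
  exact hw.trans ((le_abs_self _).trans (Complex.abs_im_le_norm w))

lemma cN_im_pos (s : ℝ) {z : ℂ} (hz : 0 < z.im) (Ω : Node d → ℝ) (M : ℕ) (x : Node d) :
    0 < (cN s z Ω M x).im := by
  induction M generalizing x with
  | zero =>
    apply im_neg_inv_pos
    simpa using hz
  | succ M ih =>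
    apply im_neg_inv_pos
    have h : (z - s * Ω x + ∑ k : Lt d, cN s z Ω M (ch x k)).im =
        z.im + ∑ k : Lt d, (cN s z Ω M (ch x k)).im := by
      simp [Complex.im_sum]
    rw [h]
    have := Finset.sum_nonneg fun (k : Lt d) (_ : k ∈ univ) => (ih (ch x k)).le
    linarith

lemma dN_im (s : ℝ) {z : ℂ} (hz : 0 < z.im) (Ω : Node d → ℝ) (M : ℕ) (x : Node d) :
    z.im ≤ (dN s z Ω M x).im := by
  cases M with
  | zero => simp [dN]
  | succ M =>
    have h : (dN s z Ω (M + 1) x).im = z.im + ∑ k : Lt d, (cN s z Ω M (ch x k)).im := by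
      simp [dN, Complex.im_sum]
    rw [h]
    have := Finset.sum_nonneg fun (k : Lt d) (_ : k ∈ univ) => (cN_im_pos s hz Ω M (ch x k)).le
    linarith

lemma dN_ne (s : ℝ) {z : ℂ} (hz : 0 < z.im) (Ω : Node d → ℝ) (M : ℕ) (x : Node d) :
    dN s z Ω M x ≠ 0 := by
  intro h
  have := dN_im s hz Ω M x
  rw [h] at this
  simp at this
  linarith

lemma cN_mul (s : ℝ) {z : ℂ} (hz : 0 < z.im) (Ω : Node d → ℝ) (M : ℕ) (x : Node d) :
    cN s z Ω M x * dN s z Ω M x = -1 := by
  rw [cN_eq, div_mul_cancel₀ _ (dN_ne s hz Ω M x)]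

/-- denominator of the Green function at the root of the ball of depth `N + 1` -/
noncomputable def dG (s : ℝ) (z : ℂ) (N : ℕ) (Ω : Node d → ℝ) : ℂ :=
  z - s * Ω r0 + ∑ k : Lt d, cN s z Ω N (ch r0 k) + cN s z Ω (N + 1) (false, [])

/-- Green function at the root of the ball of depth `N + 1` -/
noncomputable def GN (s : ℝ) (z : ℂ) (N : ℕ) (Ω : Node d → ℝ) : ℂ := -1 / dG s z N Ω

lemma dG_im (s : ℝ) {z : ℂ} (hz : 0 < z.im) (N : ℕ) (Ω : Node d → ℝ) :
    z.im ≤ (dG s z N Ω).im := by
  have h : (dG s z N Ω).im = z.im + ∑ k : Lt d, (cN s z Ω N (ch r0 k)).im +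
      (cN s z Ω (N + 1) (false, [])).im := by
    simp [dG, Complex.im_sum]
  rw [h]
  have h1 := Finset.sum_nonneg fun (k : Lt d) (_ : k ∈ univ) => (cN_im_pos s hz Ω N (ch r0 k)).le
  have h2 := cN_im_pos s hz Ω (N + 1) ((false, []) : Node d)
  linarith

lemma norm_GN_le (s : ℝ) {z : ℂ} (hz : 0 < z.im) (N : ℕ) (Ω : Node d → ℝ) :
    ‖GN s z N Ω‖ ≤ 1 / z.im := norm_neg_inv_le hz (dG_im s hz N Ω)

lemma GN_mul (s : ℝ) {z : ℂ} (hz : 0 < z.im) (N : ℕ) (Ω : Node d → ℝ) :
    GN s z N Ω * dG s z N Ω = -1 := by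
  have h0 : dG s z N Ω ≠ 0 := by
    intro h
    have := dG_im s hz N Ω
    rw [h] at this
    simp at this
    linarith
  unfold GN
  rw [div_mul_cancel₀ _ h0]

/-- the Green vector on the nodes, `b` = side, ball of depth `N + 1` -/
noncomputable def fvA (s : ℝ) (z : ℂ) (N : ℕ) (Ω : Node d → ℝ) (b : Bool) : List (Lt d) → ℂ
  | [] => if b then GN s z N Ω else -cN s z Ω (N + 1) (false, []) * GN s z N Ω
  | k :: l => -cN s z Ω (N - l.length) (b, k :: l) * fvA s z N Ω b l

/-- the Green vector -/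
noncomputable def fv (s : ℝ) (z : ℂ) (N : ℕ) (Ω : Node d → ℝ) (x : Node d) : ℂ :=
  fvA s z N Ω x.1 x.2

lemma fv_root (s : ℝ) (z : ℂ) (N : ℕ) (Ω : Node d → ℝ) : fv s z N Ω r0 = GN s z N Ω := rfl

lemma fv_ch (s : ℝ) (z : ℂ) (N : ℕ) (Ω : Node d → ℝ) (x : Node d) (k : Lt d) :
    fv s z N Ω (ch x k) = -cN s z Ω (N - x.2.length) (ch x k) * fv s z N Ω x := rfl

/-- for `x ≠ r0`: `fv x = -c x * fv (par x)` -/
lemma fv_ne_root (s : ℝ) (z : ℂ) (N : ℕ) (Ω : Node d → ℝ) {x : Node d} (hx : x ≠ r0) :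
    fv s z N Ω x = -cN s z Ω (N + 1 - x.2.length) x * fv s z N Ω (par x) := by
  rcases x with ⟨b, _ | ⟨k, l⟩⟩
  · cases b
    · rfl
    · exact absurd rfl hx
  · show -cN s z Ω (N - l.length) (b, k :: l) * fvA s z N Ω b l = _
    simp only [List.length_cons, Nat.add_sub_add_right]
    rfl

/-- children sum -/
lemma sum_fv_ch (s : ℝ) (z : ℂ) (N : ℕ) (Ω : Node d → ℝ) (x : Node d) (hx : x.2.length ≤ N + 1) :
    ∑ k : Lt d, ext (fun y : V d (N + 1) => fv s z N Ω y.1) (ch x k) =
      - (dN s z Ω (N + 1 - x.2.length) x - (z - s * Ω x)) * fv s z N Ω x := by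
  rcases Nat.lt_or_ge x.2.length (N + 1) with h | h
  · have h1 : N + 1 - x.2.length = (N - x.2.length) + 1 := by omega
    rw [h1, dN]
    have h2 : ∀ k : Lt d, ext (fun y : V d (N + 1) => fv s z N Ω y.1) (ch x k) =
        -cN s z Ω (N - x.2.length) (ch x k) * fv s z N Ω x := by
      intro k
      unfold ext
      rw [dif_pos (by simp only [ch, List.length_cons]; omega)]
      exact fv_ch s z N Ω x k
    simp only [h2]
    rw [← Finset.sum_mul, Finset.sum_neg_distrib]
    ring
  · have h1 : N + 1 - x.2.length = 0 := by omega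
    rw [h1, dN]
    have h2 : ∀ k : Lt d, ext (fun y : V d (N + 1) => fv s z N Ω y.1) (ch x k) = 0 := by
      intro k
      unfold ext
      rw [dif_neg (by simp only [ch, List.length_cons]; omega)]
    simp only [h2]
    simp

/-- (C3) `(HN - z) fv = δ_root` -/
theorem HN_green (s : ℝ) {z : ℂ} (hz : 0 < z.im) (N : ℕ) (Ω : Node d → ℝ) :
    ((HN s (N + 1) Ω).map (fun x : ℝ => (x : ℂ)) -
      z • (1 : Matrix (V d (N + 1)) (V d (N + 1)) ℂ)).mulVec (fun y => fv s z N Ω y.1) =
      Pi.single (rN (N + 1)) 1 := by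
  classical
  funext x
  have h1 : ((HN s (N + 1) Ω).map (fun x : ℝ => (x : ℂ)) -
      z • (1 : Matrix (V d (N + 1)) (V d (N + 1)) ℂ)).mulVec (fun y => fv s z N Ω y.1) x =
      (ext (fun y : V d (N + 1) => fv s z N Ω y.1) (par x.1) +
        ∑ k : Lt d, ext (fun y : V d (N + 1) => fv s z N Ω y.1) (ch x.1 k) +
        s * Ω x.1 * fv s z N Ω x.1) - z * fv s z N Ω x.1 := by
    rw [Matrix.sub_mulVec, Matrix.smul_mulVec, Matrix.one_mulVec]
    simp only [Pi.sub_apply, Pi.smul_apply, smul_eq_mul]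
    congr 1
    rw [← sum_row (s : ℂ) (fun x => (Ω x : ℂ)) (fun y : V d (N + 1) => fv s z N Ω y.1) x]
    simp only [Matrix.mulVec, dotProduct, Matrix.map_apply, HN]
    apply Finset.sum_congr rfl
    intro y _
    congr 1
    push_cast
    congr 1 <;> split_ifs <;> simp
  rw [h1, sum_fv_ch s z N Ω x.1 x.2]
  have hpar : ext (fun y : V d (N + 1) => fv s z N Ω y.1) (par x.1) = fv s z N Ω (par x.1) := by
    unfold ext
    rw [dif_pos ((par_len x.1).trans x.2)]
  rw [hpar]
  by_cases hx : x.1 = r0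
  · have hx' : x = rN (N + 1) := Subtype.ext hx
    subst hx'
    rw [Pi.single_eq_same]
    show fv s z N Ω (par (r0 : Node d)) + -(dN s z Ω (N + 1 - (r0 : Node d).2.length) r0 -
      (z - s * Ω r0)) * fv s z N Ω r0 + s * Ω r0 * fv s z N Ω r0 - z * fv s z N Ω r0 = 1
    have e1 : fv s z N Ω (par (r0 : Node d)) = -cN s z Ω (N + 1) (false, []) * GN s z N Ω := rfl
    have e2 : dN s z Ω (N + 1 - (r0 : Node d).2.length) r0 =
        z - s * Ω r0 + ∑ k : Lt d, cN s z Ω N (ch r0 k) := rfl
    rw [e1, e2, fv_root]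
    have e3 := GN_mul s hz N Ω
    unfold dG at e3
    linear_combination -e3
  · have hx' : x ≠ rN (N + 1) := fun h => hx (by rw [h]; rfl)
    rw [Pi.single_eq_of_ne hx']
    have e1 := fv_ne_root s z N Ω hx
    have e2 := cN_mul s hz Ω (N + 1 - x.1.2.length) x.1
    rw [e1]
    linear_combination (fv s z N Ω (par x.1)) * e2

end green

end Crest.Agent.R166.Ball356
private theorem rz_6440141943 : type_of% @_root_.Crest.Agent.R166.Ball356.cN.eq_def := @_root_.Crest.Agent.R166.Ball356.cN.eq_def -- L21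
private theorem rz_a0b2796b24 : type_of% @_root_.Crest.Agent.R166.Ball356.cN.eq_1 := @_root_.Crest.Agent.R166.Ball356.cN.eq_1 -- L21
private theorem rz_cfb5fa302b : type_of% @_root_.Crest.Agent.R166.Ball356.dN.eq_1 := @_root_.Crest.Agent.R166.Ball356.dN.eq_1 -- L26
end

-- ▼ part R166/Ball3_356
section

/-!
# Row 166, section 70 (M1), concrete half, part 3: `∫ GN → Gav`, moments (helper356)
-/

set_option autoImplicit false

open Finset MeasureTheory Filter Topology

namespace Crest.Agent.R166.Ball356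

open Crest.ProbabilityR.RandomMatrix Crest.Agent.R166.Env536 Crest.Agent.R166.TreeDefs350
  Crest.Agent.R166.TreeWalk356

/-- the law of the potentials on the nodes -/
noncomputable def PN (d : ℕ) [NeZero d] : Measure (Node d → ℝ) :=
  Measure.infinitePi fun _ : Node d => unif

instance (d : ℕ) [NeZero d] : IsProbabilityMeasure (PN d) := by unfold PN; infer_instance

section cav

variable {b : ℕ}

/-- letters -/
def lt (j : Fin b) : Lt (b + 1) := ⟨j.succ, Fin.succ_ne_zero j⟩

lemma lt_bij : Function.Bijective (lt : Fin b → Lt (b + 1)) := by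
  constructor
  · intro i j h
    have := congrArg Subtype.val h
    exact Fin.succ_injective _ this
  · rintro ⟨k, hk⟩
    obtain ⟨j, rfl⟩ := Fin.exists_succ_eq.2 hk
    exact ⟨j, rfl⟩

/-- letters as an equivalence -/
noncomputable def le : Fin b ≃ Lt (b + 1) := Equiv.ofBijective lt lt_bij

@[simp] lemma le_apply (j : Fin b) : le j = lt j := rfl

/-- the disorder seen from the node `x` -/
def om (x : Node (b + 1)) (Ω : Node (b + 1) → ℝ) : List (Fin b) → ℝ := fun p =>
  Ω (x.1, (p.map lt).reverse ++ x.2)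

lemma sub_om (x : Node (b + 1)) (Ω : Node (b + 1) → ℝ) (j : Fin b) :
    sub j (om x Ω) = om (ch x (lt j)) Ω := by
  funext p
  simp [sub, om, ch]

lemma om_nil (x : Node (b + 1)) (Ω : Node (b + 1) → ℝ) : om x Ω [] = Ω x := rfl

lemma sum_lt {M : Type*} [AddCommMonoid M] (f : Lt (b + 1) → M) :
    ∑ k, f k = ∑ j : Fin b, f (lt j) := (Equiv.sum_comp le f).symm

lemma cN_eq_Xn (s : ℝ) (z : ℂ) (Ω : Node (b + 1) → ℝ) (M : ℕ) (x : Node (b + 1)) :
    cN s z Ω M x = Xn b s z M (om x Ω) := by
  induction M generalizing x with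
  | zero => simp [cN, Xn, om_nil]
  | succ M ih =>
    simp only [cN, Xn, TreeDet350.cav, om_nil]
    rw [sum_lt]
    simp only [ih, sub_om]
    push_cast
    rfl

/-- root potential and the `b + 1` subtrees -/
def TT (Ω : Node (b + 1) → ℝ) : ℝ × (Fin (b + 1) → List (Fin b) → ℝ) :=
  (Ω r0, Fin.cons (om (false, []) Ω) (fun j => om (ch r0 (lt j)) Ω))

/-- limit Green function -/
noncomputable def GF (s : ℝ) (z : ℂ) (x : ℝ × (Fin (b + 1) → List (Fin b) → ℝ)) : ℂ :=
  -1 / (z - (s * x.1 : ℝ) + ∑ i, XX b s z (x.2 i))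

lemma tendsto_GN (s : ℝ) {z : ℂ} (hz : 0 < z.im) (Ω : Node (b + 1) → ℝ) :
    Tendsto (fun N => GN s z N Ω) atTop (𝓝 (GF s z (TT Ω))) := by
  have hX : ∀ ω : List (Fin b) → ℝ, Tendsto (fun N => Xn b s z N ω) atTop (𝓝 (XX b s z ω)) :=
    (TreeT1.t1 b s).tendsto z hz
  have hd : Tendsto (fun N => dG s z N Ω) atTop
      (𝓝 (z - (s * (TT Ω).1 : ℝ) + ∑ i, XX b s z ((TT Ω).2 i))) := by
    have h1 : ∀ N, dG s z N Ω = z - (s * (TT Ω).1 : ℝ) +
        (Xn b s z (N + 1) (om (false, []) Ω) + ∑ j : Fin b, Xn b s z N (om (ch r0 (lt j)) Ω)) := by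
      intro N
      unfold dG
      rw [sum_lt, cN_eq_Xn]
      simp only [cN_eq_Xn, TT]
      push_cast
      ring
    simp only [h1]
    have h2 : ∑ i, XX b s z ((TT Ω).2 i) = XX b s z (om (false, []) Ω) +
        ∑ j : Fin b, XX b s z (om (ch r0 (lt j)) Ω) := by
      rw [Fin.sum_univ_succ]
      simp [TT]
    rw [h2]
    refine tendsto_const_nhds.add ?_
    refine Tendsto.add ((hX _).comp (tendsto_add_atTop_nat 1)) ?_
    exact tendsto_finsetSum _ fun j _ => hX _
  have hne : z - (s * (TT Ω).1 : ℝ) + ∑ i, XX b s z ((TT Ω).2 i) ≠ 0 := by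
    intro h
    have h3 : z.im ≤ (z - (s * (TT Ω).1 : ℝ) + ∑ i, XX b s z ((TT Ω).2 i)).im := by
      refine ge_of_tendsto' ((Complex.continuous_im.tendsto _).comp hd) fun N => ?_
      exact dG_im s hz N Ω
    rw [h] at h3
    simp at h3
    linarith
  unfold GN GF
  exact tendsto_const_nhds.div hd hne

lemma measurable_om (x : Node (b + 1)) :
    Measurable (om x : (Node (b + 1) → ℝ) → List (Fin b) → ℝ) :=
  measurable_pi_lambda _ fun _ => measurable_pi_apply _

lemma measurable_TT : Measurable (TT : (Node (b + 1) → ℝ) → ℝ × (Fin (b + 1) → List (Fin b) → ℝ)) := by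
  refine (measurable_pi_apply _).prodMk (measurable_pi_lambda _ fun i => ?_)
  refine Fin.cases ?_ (fun j => ?_) i
  · exact measurable_om _
  · exact measurable_om _

lemma measurable_GN (s : ℝ) (z : ℂ) (N : ℕ) :
    Measurable (GN s z N : (Node (b + 1) → ℝ) → ℂ) := by
  have h1 : ∀ (M : ℕ) (x : Node (b + 1)), Measurable fun Ω : Node (b + 1) → ℝ => cN s z Ω M x := by
    intro M x
    simp only [cN_eq_Xn]
    exact (TreeT1.measurable_Xn s z M).comp (measurable_om x)
  unfold GN dG
  refine measurable_const.div (((measurable_const.sub (measurable_const.mul ?_)).add ?_).add ?_)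
  · exact Complex.measurable_ofReal.comp (measurable_pi_apply _)
  · exact Finset.measurable_sum _ fun k _ => h1 _ _
  · exact h1 _ _

lemma measurable_GF (s : ℝ) {z : ℂ} (hz : 0 < z.im) :
    Measurable (GF s z : ℝ × (Fin (b + 1) → List (Fin b) → ℝ) → ℂ) := by
  have hX : Measurable (XX b s z) := (TreeT1.t1 b s).meas z hz
  unfold GF
  refine measurable_const.div ((measurable_const.sub ?_).add ?_)
  · exact Complex.measurable_ofReal.comp (measurable_const.mul measurable_fst)
  · exact Finset.measurable_sum _ fun i _ => hX.comp ((measurable_pi_apply i).comp measurable_snd)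

lemma norm_GF_le (s : ℝ) {z : ℂ} (hz : 0 < z.im) (x : ℝ × (Fin (b + 1) → List (Fin b) → ℝ)) :
    ‖GF s z x‖ ≤ 1 / z.im := by
  apply norm_neg_inv_le hz
  have h1 : (z - (s * x.1 : ℝ) + ∑ i, XX b s z (x.2 i)).im =
      z.im + ∑ i, (XX b s z (x.2 i)).im := by
    simp [Complex.im_sum]
  rw [h1]
  have := Finset.sum_nonneg fun (i : Fin (b + 1)) (_ : i ∈ univ) =>
    ((TreeT1.t1 b s).im_pos z hz (x.2 i)).le
  linarith

/-! ### the law of `TT` -/

/-- letters of `Node` as letters of the `b + 1`-ary tree -/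
noncomputable def e' (k : Lt (b + 1)) : Fin (b + 1) := (le.symm k).castSucc

lemma e'_lt (j : Fin b) : e' (lt j) = j.castSucc := by
  unfold e'
  rw [← le_apply, Equiv.symm_apply_apply]

lemma e'_inj : Function.Injective (e' : Lt (b + 1) → Fin (b + 1)) :=
  (Fin.castSucc_injective b).comp le.symm.injective

/-- nodes as words of the `b + 1`-ary tree -/
noncomputable def JJ (x : Node (b + 1)) : List (Fin (b + 1)) :=
  if x.1 then
    match x.2.reverse with
    | [] => []
    | k :: r => k.1 :: r.map e'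
  else 0 :: x.2.reverse.map e'

lemma JJ_inj : Function.Injective (JJ : Node (b + 1) → List (Fin (b + 1))) := by
  rintro ⟨s1, l1⟩ ⟨s2, l2⟩ h
  have hmap : Function.Injective (List.map (e' : Lt (b + 1) → Fin (b + 1))) :=
    List.map_injective_iff.2 e'_inj
  cases s1 <;> cases s2
  · simp only [JJ, Bool.false_eq_true, if_false, List.cons.injEq, true_and] at h
    have := List.reverse_injective (hmap h)
    rw [this]
  · simp only [JJ, Bool.false_eq_true, if_false, if_true] at h
    rcases h2 : l2.reverse with _ | ⟨k, r⟩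
    · rw [h2] at h; simp at h
    · rw [h2] at h
      simp only [List.cons.injEq] at h
      exact absurd h.1.symm k.2
  · simp only [JJ, Bool.false_eq_true, if_false, if_true] at h
    rcases h2 : l1.reverse with _ | ⟨k, r⟩
    · rw [h2] at h; simp at h
    · rw [h2] at h
      simp only [List.cons.injEq] at h
      exact absurd h.1 k.2
  · simp only [JJ, if_true] at h
    rcases h1 : l1.reverse with _ | ⟨k, r⟩ <;> rcases h2 : l2.reverse with _ | ⟨k', r'⟩
    · have e1 := List.reverse_eq_nil_iff.1 h1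
      have e2 := List.reverse_eq_nil_iff.1 h2
      rw [e1, e2]
    · rw [h1, h2] at h; simp at h
    · rw [h1, h2] at h; simp at h
    · rw [h1, h2] at h
      simp only [List.cons.injEq] at h
      have e1 : k = k' := Subtype.ext h.1
      have e2 : r = r' := hmap h.2
      have e3 : l1.reverse = l2.reverse := by rw [h1, h2, e1, e2]
      rw [List.reverse_injective e3]

/-- restriction of the disorder to the `b`-ary subtree -/
def rst (ω : List (Fin (b + 1)) → ℝ) : List (Fin b) → ℝ := fun p => ω (p.map Fin.castSucc)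

lemma measurable_rst : Measurable (rst : (List (Fin (b + 1)) → ℝ) → List (Fin b) → ℝ) :=
  measurable_pi_lambda _ fun _ => measurable_pi_apply _

lemma map_rst : (PT (b + 1)).map rst = PT b := by
  have h : Function.Injective (List.map (Fin.castSucc : Fin b → Fin (b + 1))) :=
    List.map_injective_iff.2 (Fin.castSucc_injective b)
  exact Measure.map_infinitePi_infinitePi_of_inj (P := fun _ : List (Fin (b + 1)) => unif) h

lemma TT_JJ (ω : List (Fin (b + 1)) → ℝ) :
    TT (fun x => ω (JJ x)) = (ω [], fun i => rst (sub i ω)) := by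
  have hm : ∀ p : List (Fin b), (p.map lt).map e' = p.map Fin.castSucc := by
    intro p
    rw [List.map_map]
    apply List.map_congr_left
    intro j _
    exact e'_lt j
  unfold TT
  refine Prod.ext ?_ ?_
  · show ω (JJ r0) = ω []
    simp [JJ, r0]
  · funext i
    refine Fin.cases ?_ (fun j => ?_) i
    · funext p
      simp only [Fin.cons_zero, om, rst, sub, JJ, Bool.false_eq_true, if_false, List.append_nil,
        List.reverse_reverse, hm]
    · funext p
      simp only [Fin.cons_succ, om, rst, sub, JJ, ch, r0, if_true, List.reverse_append,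
        List.reverse_cons, List.reverse_nil, List.nil_append, List.reverse_reverse,
        List.cons_append, hm]
      rfl

theorem map_TT : (PN (b + 1)).map TT = unif.prod (Measure.pi fun _ : Fin (b + 1) => PT b) := by
  have h1 : (PT (b + 1)).map (fun ω (x : Node (b + 1)) => ω (JJ x)) = PN (b + 1) :=
    Measure.map_infinitePi_infinitePi_of_inj (P := fun _ : List (Fin (b + 1)) => unif) JJ_inj
  have hmJ : Measurable (fun (ω : List (Fin (b + 1)) → ℝ) (x : Node (b + 1)) => ω (JJ x)) :=
    measurable_pi_lambda _ fun _ => measurable_pi_apply _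
  have h2 : TT ∘ (fun (ω : List (Fin (b + 1)) → ℝ) (x : Node (b + 1)) => ω (JJ x)) =
      (Prod.map id (fun (y : Fin (b + 1) → List (Fin (b + 1)) → ℝ) i => rst (y i))) ∘
        (fun ω : List (Fin (b + 1)) → ℝ => (ω [], fun j : Fin (b + 1) => sub j ω)) := by
    funext ω
    exact TT_JJ ω
  have hmr : Measurable (fun (y : Fin (b + 1) → List (Fin (b + 1)) → ℝ) i => rst (b := b) (y i)) :=
    measurable_pi_lambda _ fun i => measurable_rst.comp (measurable_pi_apply i)
  rw [← h1, Measure.map_map measurable_TT hmJ, h2, ← Measure.map_map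
    (measurable_id.prodMap hmr) TreeT2_251.measurable_split,
    TreeT2_251.T2_proof (b + 1)]
  rw [← Measure.map_prod_map _ _ measurable_id hmr, Measure.map_id]
  congr 1
  rw [Measure.pi_map_pi (fun i => measurable_rst.aemeasurable)]
  simp only [map_rst]

end cav

end Crest.Agent.R166.Ball356
end

-- ▼ part R166/Ball4_356
section

/-!
# Row 166, section 70 (M1), concrete half, part 4: limits and moments (helper356)
-/

set_option autoImplicit false

open Finset MeasureTheory Filter Topology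

namespace Crest.Agent.R166.Ball356

open Crest.ProbabilityR.RandomMatrix Crest.Agent.R166.Env536 Crest.Agent.R166.TreeDefs350
  Crest.Agent.R166.TreeWalk356

section lim

variable {b : ℕ}

/-- (C4) the averaged Green function of the balls converges to `Gav` -/
theorem tendsto_integral_GN (s : ℝ) {z : ℂ} (hz : 0 < z.im) :
    Tendsto (fun N => ∫ Ω, GN s z N Ω ∂(PN (b + 1))) atTop (𝓝 (Gav b s z)) := by
  have h1 : Gav b s z = ∫ Ω, GF s z (TT Ω) ∂(PN (b + 1)) := by
    rw [← integral_map (f := GF s z) measurable_TT.aemeasurable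
      (measurable_GF s hz).aestronglyMeasurable, map_TT, integral_prod]
    · rfl
    · exact Integrable.of_bound (measurable_GF s hz).aestronglyMeasurable (1 / z.im)
        (ae_of_all _ fun x => norm_GF_le s hz x)
  rw [h1]
  refine tendsto_integral_of_dominated_convergence (fun _ => 1 / z.im) ?_ ?_ ?_ ?_
  · exact fun N => (measurable_GN s z N).aestronglyMeasurable
  · exact integrable_const _
  · exact fun N => ae_of_all _ fun Ω => norm_GN_le s hz N Ω
  · exact ae_of_all _ fun Ω => tendsto_GN s hz Ω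


end lim

section moments

variable {d : ℕ} [NeZero d]

lemma unif_ae : ∀ᵐ x ∂unif, |x| ≤ 1 := by
  have h : ∀ᵐ x ∂(volume.restrict (Set.Icc (-1 : ℝ) 1)), |x| ≤ 1 := by
    filter_upwards [ae_restrict_mem measurableSet_Icc] with x hx
    exact abs_le.2 hx
  unfold unif
  exact Measure.ae_smul_measure h _

/-- (C5) the potentials are in the cube -/
theorem ae_cube : ∀ᵐ Ω ∂(PN d), ∀ x, |Ω x| ≤ 1 := by
  rw [ae_all_iff]
  intro x
  have h := (measurePreserving_eval_infinitePi (fun _ : Node d => unif) x)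
  exact h.quasiMeasurePreserving.ae unif_ae




end moments

end Crest.Agent.R166.Ball356
end

-- ▼ part R166/MomFun_390
section
/-!
Row 166, section 70 (M1), abstract half (helper390).

* `exists_measure`: a positive functional on `ℝ[X]` (positive on `[-R,R]`) is a probability measure
  on `[-R,R]`.
-/
set_option autoImplicit false

namespace Crest.Agent.R166.MomFun390

open MeasureTheory Polynomial Set

noncomputable section

/-! ### A1: positive functionals on polynomials -/

theorem exists_measure {R : ℝ} (hR : 0 < R) (L : ℝ[X] →ₗ[ℝ] ℝ) (h1 : L 1 = 1)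
    (hpos : ∀ p : ℝ[X], (∀ x ∈ Icc (-R) R, 0 ≤ p.eval x) → 0 ≤ L p) :
    ∃ ν : Measure ℝ, IsProbabilityMeasure ν ∧ ν (Icc (-R) R)ᶜ = 0 ∧
      ∀ p : ℝ[X], ∫ x, p.eval x ∂ν = L p := by
  classical
  set K : Set ℝ := Icc (-R) R with hK
  have hKc : IsCompact K := isCompact_Icc
  haveI : CompactSpace K := isCompact_iff_compactSpace.mp hKc
  let T : ℝ[X] →ₗ[ℝ] C(K, ℝ) := (toContinuousMapOnAlgHom K).toLinearMap
  have hT : ∀ (p : ℝ[X]) (x : K), T p x = p.eval (x : ℝ) := fun p x => by
    simp [T]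
  have hker : LinearMap.ker T ≤ LinearMap.ker L := by
    intro p hp
    rw [LinearMap.mem_ker] at hp ⊢
    have h0 : ∀ x ∈ K, p.eval x = 0 := fun x hx => by
      have := hT p ⟨x, hx⟩
      rw [hp] at this
      simpa using this.symm
    apply le_antisymm
    · have := hpos (-p) (fun x hx => by simp [h0 x hx])
      simpa using this
    · exact hpos p (fun x hx => by simp [h0 x hx])
  let F : LinearMap.range T →ₗ[ℝ] ℝ :=
    ((LinearMap.ker T).liftQ L hker) ∘ₗ T.quotKerEquivRange.symm.toLinearMap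
  have hF : ∀ (p : ℝ[X]) (h : T p ∈ LinearMap.range T), F ⟨T p, h⟩ = L p := by
    intro p h
    simp only [F, LinearMap.comp_apply, LinearEquiv.coe_coe]
    rw [LinearMap.quotKerEquivRange_symm_apply_image]
    simp
  let f : C(K, ℝ) →ₗ.[ℝ] ℝ := ⟨LinearMap.range T, F⟩
  obtain ⟨g, hg, hgp⟩ := riesz_extension (PointedCone.positive ℝ C(K, ℝ)) f
    (by
      rintro ⟨x, ⟨p, rfl⟩⟩ hx
      have hx' : (0 : C(K, ℝ)) ≤ T p := by simpa using hx
      have : f ⟨T p, ⟨p, rfl⟩⟩ = L p := hF p _
      rw [this]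
      refine hpos p (fun y hy => ?_)
      have h8 : (0 : ℝ) ≤ T p ⟨y, hy⟩ := hx' ⟨y, hy⟩
      rwa [hT] at h8)
    (by
      intro y
      refine ⟨⟨T (C ‖y‖), ⟨_, rfl⟩⟩, ?_⟩
      rw [PointedCone.mem_positive]
      intro x
      have h2 : -‖y‖ ≤ y x := (abs_le.mp (by
        simpa using y.norm_coe_le_norm x)).1
      have h3 := hT (C ‖y‖) x
      show (0 : ℝ) ≤ T (C ‖y‖) x + y x
      rw [h3, eval_C]
      linarith)
  have hgT : ∀ p, g (T p) = L p := fun p => by
    have := hg ⟨T p, ⟨p, rfl⟩⟩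
    simp only at this
    rw [this]
    exact hF p _
  have hgpos : ∀ x : C(K, ℝ), 0 ≤ x → 0 ≤ g x := fun x hx => hgp x (by
    simpa using hx)
  let Λ : CompactlySupportedContinuousMap K ℝ →ₚ[ℝ] ℝ :=
  { toFun h := g h.toContinuousMap
    map_add' u v := by
      rw [← map_add]; rfl
    map_smul' c u := by
      simp only [RingHom.id_apply]
      rw [← map_smul]; rfl
    monotone' u v huv := by
      have h4 : (0 : C(K, ℝ)) ≤ v.toContinuousMap - u.toContinuousMap := by
        intro x
        have := huv x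
        exact sub_nonneg.mpr this
      have := hgpos _ h4
      rw [map_sub] at this
      simpa using this }
  let μ : Measure K := RealRMK.rieszMeasure Λ
  have hμ : ∀ h : C(K, ℝ), ∫ x, h x ∂μ = g h := fun h => by
    have := RealRMK.integral_rieszMeasure Λ ⟨h, HasCompactSupport.of_compactSpace _⟩
    exact this
  haveI : IsFiniteMeasure μ := by
    show IsFiniteMeasure (RealRMK.rieszMeasure Λ)
    infer_instance
  have hμ1 : IsProbabilityMeasure μ := by
    have h5 := hμ (T 1)
    rw [hgT, h1] at h5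
    have h6 : (fun x : K => T 1 x) = fun _ => (1 : ℝ) := by
      funext x
      rw [hT]; simp
    rw [h6] at h5
    simp only [integral_const, smul_eq_mul, mul_one] at h5
    constructor
    have h7 := h5
    rw [Measure.real, ENNReal.toReal_eq_one_iff] at h7
    exact h7
  refine ⟨μ.map Subtype.val, ?_, ?_, ?_⟩
  · exact Measure.isProbabilityMeasure_map (by fun_prop)
  · rw [Measure.map_apply (by fun_prop) hKc.measurableSet.compl]
    simp
  · intro p
    rw [integral_map (φ := Subtype.val) (by fun_prop)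
      (p.continuous.aestronglyMeasurable)]
    rw [← hgT p, ← hμ (T p)]
    refine integral_congr_ae (Filter.Eventually.of_forall fun x => ?_)
    simp only [hT]

/-! ### A2: spectral data of a real symmetric matrix -/

open Matrix in
theorem spec {I : Type*} [Fintype I] [DecidableEq I] (A : Matrix I I ℝ) (hA : A.IsSymm) {R : ℝ}
    (hrow : ∀ i, ∑ j, |A i j| ≤ R) :
    ∃ (lam : I → ℝ) (V : Matrix I I ℝ), (∀ r l, ∑ i, V r i * V l i = if r = l then 1 else 0) ∧
      (∀ i k, ∑ j, A k j * V j i = lam i * V k i) ∧ ∀ i, |lam i| ≤ R := by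
  have hH : A.IsHermitian := by
    rw [Matrix.IsHermitian, Matrix.conjTranspose_eq_transpose_of_trivial]
    exact hA
  refine ⟨hH.eigenvalues, (hH.eigenvectorUnitary : Matrix I I ℝ), ?_, ?_, ?_⟩
  · intro r l
    have h := congrFun (congrFun (Unitary.coe_mul_star_self hH.eigenvectorUnitary) r) l
    rw [Matrix.mul_apply] at h
    simp only [Matrix.star_apply, star_trivial, Matrix.one_apply] at h
    exact h
  · intro i k
    have h := congrFun (hH.mulVec_eigenvectorBasis i) k
    simp only [Matrix.mulVec, dotProduct, Pi.smul_apply, smul_eq_mul] at h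
    simpa only [Matrix.IsHermitian.eigenvectorUnitary_apply] using h
  · intro i
    have hv : Module.End.HasEigenvalue (Matrix.toLin' A) (hH.eigenvalues i) := by
      apply Module.End.hasEigenvalue_of_hasEigenvector (x := ⇑(hH.eigenvectorBasis i))
      rw [Module.End.hasEigenvector_iff, Module.End.mem_eigenspace_iff]
      refine ⟨?_, ?_⟩
      · rw [Matrix.toLin'_apply]
        exact hH.mulVec_eigenvectorBasis i
      · intro h0
        have := hH.eigenvectorBasis.orthonormal.ne_zero i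
        apply this
        ext j
        exact congrFun h0 j
    obtain ⟨k, hk⟩ := eigenvalue_mem_ball hv
    rw [Metric.mem_closedBall, Real.dist_eq] at hk
    have h2 := hrow k
    rw [← Finset.add_sum_erase _ _ (Finset.mem_univ k)] at h2
    simp only [Real.norm_eq_abs] at hk
    calc |hH.eigenvalues i| = |A k k + (hH.eigenvalues i - A k k)| := by ring_nf
      _ ≤ |A k k| + |hH.eigenvalues i - A k k| := abs_add_le _ _
      _ ≤ R := by linarith

section data

variable {I : Type*} [Fintype I] [DecidableEq I] {A : Matrix I I ℝ} {lam : I → ℝ}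
  {V : Matrix I I ℝ}

theorem pow_apply (h1 : ∀ r l, ∑ i, V r i * V l i = if r = l then 1 else 0)
    (h2 : ∀ i k, ∑ j, A k j * V j i = lam i * V k i) (r l : I) (n : ℕ) :
    (A ^ n) r l = ∑ i, lam i ^ n * V r i * V l i := by
  induction n generalizing r with
  | zero => simp [h1, Matrix.one_apply]
  | succ n ih =>
    rw [pow_succ', Matrix.mul_apply]
    simp_rw [ih, Finset.mul_sum]
    rw [Finset.sum_comm]
    refine Finset.sum_congr rfl fun i _ => ?_
    calc ∑ x, A r x * (lam i ^ n * V x i * V l i)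
        = (lam i ^ n * V l i) * ∑ x, A r x * V x i := by
          rw [Finset.mul_sum]; exact Finset.sum_congr rfl fun x _ => by ring
      _ = _ := by rw [h2]; ring

theorem aeval_apply (h1 : ∀ r l, ∑ i, V r i * V l i = if r = l then 1 else 0)
    (h2 : ∀ i k, ∑ j, A k j * V j i = lam i * V k i) (r l : I) (p : ℝ[X]) :
    (aeval A p) r l = ∑ i, p.eval (lam i) * V r i * V l i := by
  rw [aeval_eq_sum_range, Matrix.sum_apply]
  simp_rw [eval_eq_sum_range, Finset.sum_mul]
  rw [Finset.sum_comm]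
  refine Finset.sum_congr rfl fun n _ => ?_
  rw [Matrix.smul_apply, pow_apply h1 h2, smul_eq_mul, Finset.mul_sum]
  exact Finset.sum_congr rfl fun i _ => by ring

theorem resolvent_apply (hA : A.IsSymm) (h1 : ∀ r l, ∑ i, V r i * V l i = if r = l then 1 else 0)
    (h2 : ∀ i k, ∑ j, A k j * V j i = lam i * V k i) {z : ℂ} (hz : z.im ≠ 0) {r : I}
    {φ : I → ℂ} (hφ : ∀ i, ∑ j, (A i j : ℂ) * φ j - z * φ i = if i = r then 1 else 0) :
    φ r = ∑ i, (V r i : ℂ) ^ 2 * ((lam i : ℂ) - z)⁻¹ := by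
  have hne : ∀ i, (lam i : ℂ) - z ≠ 0 := fun i h => hz (by
    have := congrArg Complex.im h
    simpa using this)
  have hc : ∀ i, ∑ j, (V j i : ℂ) * φ j = (V r i : ℂ) * ((lam i : ℂ) - z)⁻¹ := by
    intro i
    rw [eq_mul_inv_iff_mul_eq₀ (hne i)]
    have e1 : ∑ k, (V k i : ℂ) * (∑ j, (A k j : ℂ) * φ j - z * φ k) = (V r i : ℂ) := by
      simp_rw [hφ]
      simp
    rw [← e1]
    simp_rw [mul_sub]
    rw [Finset.sum_sub_distrib]
    have e2 : ∑ k, (V k i : ℂ) * ∑ j, (A k j : ℂ) * φ j
        = ∑ j, ((lam i : ℂ) * (V j i : ℂ)) * φ j := by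
      simp_rw [Finset.mul_sum]
      rw [Finset.sum_comm]
      refine Finset.sum_congr rfl fun j _ => ?_
      have e3 := h2 i j
      have e4 : ((∑ k, A j k * V k i : ℝ) : ℂ) = ((lam i * V j i : ℝ) : ℂ) := by rw [e3]
      push_cast at e4
      rw [← e4, Finset.sum_mul]
      refine Finset.sum_congr rfl fun k _ => ?_
      rw [hA.apply k j]
      ring
    rw [e2, Finset.sum_mul, Finset.sum_mul, ← Finset.sum_sub_distrib,
      ← Finset.sum_sub_distrib]
    refine Finset.sum_congr rfl fun j _ => ?_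
    ring
  have e5 : φ r = ∑ j, (∑ i, (V r i : ℂ) * (V j i : ℂ)) * φ j := by
    have : ∀ j, ∑ i, (V r i : ℂ) * (V j i : ℂ) = if r = j then 1 else 0 := fun j => by
      have := h1 r j
      have h6 : ((∑ i, V r i * V j i : ℝ) : ℂ) = ((if r = j then 1 else 0 : ℝ) : ℂ) := by rw [this]
      push_cast at h6
      rw [h6]
      split_ifs <;> simp
    simp_rw [this]
    simp
  rw [e5]
  simp_rw [Finset.sum_mul]
  rw [Finset.sum_comm]
  refine Finset.sum_congr rfl fun i _ => ?_
  have := hc i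
  calc ∑ x, (V r i : ℂ) * (V x i : ℂ) * φ x = (V r i : ℂ) * ∑ x, (V x i : ℂ) * φ x := by
        rw [Finset.mul_sum]; exact Finset.sum_congr rfl fun x _ => by ring
    _ = _ := by rw [this]; ring

end data

theorem aeval_nonneg {I : Type*} [Fintype I] [DecidableEq I] (A : Matrix I I ℝ) (hA : A.IsSymm)
    {R : ℝ} (hrow : ∀ i, ∑ j, |A i j| ≤ R) (r : I) (p : ℝ[X])
    (hp : ∀ x ∈ Icc (-R) R, 0 ≤ p.eval x) : 0 ≤ (aeval A p) r r := by
  obtain ⟨lam, V, h1, h2, h3⟩ := spec A hA hrow
  rw [aeval_apply h1 h2]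
  refine Finset.sum_nonneg fun i _ => ?_
  rw [mul_assoc]
  exact mul_nonneg (hp _ (abs_le.mp (h3 i))) (mul_self_nonneg _)

theorem aeval_abs_le {I : Type*} [Fintype I] [DecidableEq I] (A : Matrix I I ℝ) (hA : A.IsSymm)
    {R : ℝ} (hrow : ∀ i, ∑ j, |A i j| ≤ R) (r : I) (p : ℝ[X]) {M : ℝ}
    (hp : ∀ x ∈ Icc (-R) R, |p.eval x| ≤ M) : |(aeval A p) r r| ≤ M := by
  obtain ⟨lam, V, h1, h2, h3⟩ := spec A hA hrow
  rw [aeval_apply h1 h2]
  have h4 : ∑ i, V r i * V r i = 1 := by rw [h1]; simp
  calc |∑ i, p.eval (lam i) * V r i * V r i| ≤ ∑ i, |p.eval (lam i) * V r i * V r i| :=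
        Finset.abs_sum_le_sum_abs _ _
    _ ≤ ∑ i, M * (V r i * V r i) := by
        refine Finset.sum_le_sum fun i _ => ?_
        rw [mul_assoc, abs_mul, abs_of_nonneg (mul_self_nonneg (V r i))]
        exact mul_le_mul_of_nonneg_right (hp _ (abs_le.mp (h3 i))) (mul_self_nonneg _)
    _ = M := by rw [← Finset.mul_sum, h4, mul_one]

/-! ### A3: resolvent entries are approximated by polynomials -/

theorem resolvent_sub_le {I : Type*} [Fintype I] [DecidableEq I] (A : Matrix I I ℝ)
    (hA : A.IsSymm) {R : ℝ} (hrow : ∀ i, ∑ j, |A i j| ≤ R) {z : ℂ} (hz : z.im ≠ 0) {r : I}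
    {φ : I → ℂ} (hφ : ∀ i, ∑ j, (A i j : ℂ) * φ j - z * φ i = if i = r then 1 else 0)
    {p q : ℝ[X]} {ε : ℝ}
    (hpq : ∀ x ∈ Icc (-R) R, ‖((x : ℂ) - z)⁻¹ - ((p.eval x : ℝ) + (q.eval x : ℝ) * Complex.I)‖ ≤ ε) :
    ‖φ r - (((aeval A p) r r : ℝ) + ((aeval A q) r r : ℝ) * Complex.I)‖ ≤ ε := by
  obtain ⟨lam, V, h1, h2, h3⟩ := spec A hA hrow
  have h4 : ∑ i, V r i * V r i = 1 := by rw [h1]; simp
  rw [resolvent_apply hA h1 h2 hz hφ, aeval_apply h1 h2, aeval_apply h1 h2]
  push_cast
  rw [Finset.sum_mul, ← Finset.sum_add_distrib, ← Finset.sum_sub_distrib]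
  calc ‖∑ i, ((V r i : ℂ) ^ 2 * ((lam i : ℂ) - z)⁻¹ - (((p.eval (lam i) : ℝ) : ℂ) * V r i * V r i +
          ((q.eval (lam i) : ℝ) : ℂ) * V r i * V r i * Complex.I))‖
      ≤ ∑ i, ‖((V r i : ℂ) ^ 2 * ((lam i : ℂ) - z)⁻¹ - (((p.eval (lam i) : ℝ) : ℂ) * V r i * V r i +
          ((q.eval (lam i) : ℝ) : ℂ) * V r i * V r i * Complex.I))‖ := norm_sum_le _ _
    _ ≤ ∑ i, ε * (V r i * V r i) := by
        refine Finset.sum_le_sum fun i _ => ?_
        have e : ((V r i : ℂ) ^ 2 * ((lam i : ℂ) - z)⁻¹ - (((p.eval (lam i) : ℝ) : ℂ) * V r i * V r i +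
          ((q.eval (lam i) : ℝ) : ℂ) * V r i * V r i * Complex.I))
          = ((V r i * V r i : ℝ) : ℂ) * (((lam i : ℂ) - z)⁻¹ -
            ((p.eval (lam i) : ℝ) + (q.eval (lam i) : ℝ) * Complex.I)) := by
          push_cast; ring
        rw [e, norm_mul, Complex.norm_real, Real.norm_eq_abs,
          abs_of_nonneg (mul_self_nonneg (V r i)), mul_comm]
        exact mul_le_mul_of_nonneg_right (hpq _ (abs_le.mp (h3 i))) (mul_self_nonneg _)
    _ = ε := by rw [← Finset.mul_sum, h4, mul_one]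

theorem exists_poly (R : ℝ) {z : ℂ} (hz : z.im ≠ 0) {ε : ℝ} (hε : 0 < ε) :
    ∃ p q : ℝ[X], ∀ x ∈ Icc (-R) R,
      ‖((x : ℂ) - z)⁻¹ - ((p.eval x : ℝ) + (q.eval x : ℝ) * Complex.I)‖ ≤ ε := by
  have hne : ∀ x : ℝ, (x : ℂ) - z ≠ 0 := fun x h => hz (by
    have := congrArg Complex.im h
    simpa using this)
  have hc : Continuous fun x : ℝ => ((x : ℂ) - z)⁻¹ :=
    Continuous.inv₀ (by fun_prop) hne
  obtain ⟨p, hp⟩ := exists_polynomial_near_of_continuousOn (-R) R
    (fun x => (((x : ℂ) - z)⁻¹).re) (Complex.continuous_re.comp hc).continuousOn (ε / 2)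
    (by positivity)
  obtain ⟨q, hq⟩ := exists_polynomial_near_of_continuousOn (-R) R
    (fun x => (((x : ℂ) - z)⁻¹).im) (Complex.continuous_im.comp hc).continuousOn (ε / 2)
    (by positivity)
  refine ⟨p, q, fun x hx => ?_⟩
  have h5 := hp x hx
  have h6 := hq x hx
  set w := ((x : ℂ) - z)⁻¹
  calc ‖w - ((p.eval x : ℝ) + (q.eval x : ℝ) * Complex.I)‖
      ≤ |(w - ((p.eval x : ℝ) + (q.eval x : ℝ) * Complex.I)).re| +
        |(w - ((p.eval x : ℝ) + (q.eval x : ℝ) * Complex.I)).im| :=
        Complex.norm_le_abs_re_add_abs_im _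
    _ = |p.eval x - w.re| + |q.eval x - w.im| := by
        rw [abs_sub_comm (p.eval x), abs_sub_comm (q.eval x)]
        simp
    _ ≤ ε := by linarith

/-! ### A4: glue -/

section glue

open Filter Topology

variable {Ω : Type*} [MeasurableSpace Ω] (P : Measure Ω) [IsProbabilityMeasure P]

theorem measurable_pow {I : Type*} [Fintype I] [DecidableEq I] {A : Ω → Matrix I I ℝ}
    (hA : ∀ i j, Measurable fun ω => A ω i j) (k : ℕ) (i j : I) :
    Measurable fun ω => (A ω ^ k) i j := by
  induction k generalizing i with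
  | zero => simp only [pow_zero]; exact measurable_const
  | succ k ih =>
    simp_rw [pow_succ', Matrix.mul_apply]
    exact Finset.measurable_sum _ fun l _ => (hA i l).mul (ih l)

theorem aeval_sum {I : Type*} [Fintype I] [DecidableEq I] (A : Matrix I I ℝ) (r : I) (p : ℝ[X]) :
    (aeval A p) r r = ∑ k ∈ Finset.range (p.natDegree + 1), p.coeff k * (A ^ k) r r := by
  rw [aeval_eq_sum_range, Matrix.sum_apply]
  rfl

/-- the functional of a sequence of moments -/
def LL (mom : ℕ → ℝ) : ℝ[X] →ₗ[ℝ] ℝ :=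
  Polynomial.lsum fun k => LinearMap.toSpanSingleton ℝ ℝ (mom k)

theorem LL_apply (mom : ℕ → ℝ) (p : ℝ[X]) :
    LL mom p = ∑ k ∈ Finset.range (p.natDegree + 1), p.coeff k * mom k := by
  rw [LL, Polynomial.lsum_apply, Polynomial.sum_over_range]
  · rfl
  · intro n; simp

theorem integrable_pow {I : Type*} [Fintype I] [DecidableEq I] {A : Ω → Matrix I I ℝ} {R : ℝ}
    (hsymm : ∀ ω, (A ω).IsSymm) (hrow : ∀ᵐ ω ∂P, ∀ i, ∑ j, |A ω i j| ≤ R)
    (hA : ∀ i j, Measurable fun ω => A ω i j) (k : ℕ) (r : I) :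
    Integrable (fun ω => (A ω ^ k) r r) P := by
  refine Integrable.of_bound (measurable_pow hA k r r).aestronglyMeasurable (R ^ k) ?_
  filter_upwards [hrow] with ω hω
  have h := aeval_abs_le (A ω) (hsymm ω) hω r (X ^ k) (M := R ^ k) (fun x hx => by
    rw [eval_pow, eval_X, abs_pow]
    exact pow_le_pow_left₀ (abs_nonneg _) (abs_le.mpr hx) k)
  simpa using h

theorem integral_aeval {I : Type*} [Fintype I] [DecidableEq I] {A : Ω → Matrix I I ℝ} {R : ℝ}
    (hsymm : ∀ ω, (A ω).IsSymm) (hrow : ∀ᵐ ω ∂P, ∀ i, ∑ j, |A ω i j| ≤ R)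
    (hA : ∀ i j, Measurable fun ω => A ω i j) (r : I) {mom : ℕ → ℝ} {N : ℕ}
    (hmom : ∀ k, k ≤ N → ∫ ω, ((A ω) ^ k) r r ∂P = mom k) (p : ℝ[X]) (hp : p.natDegree ≤ N) :
    ∫ ω, (aeval (A ω) p) r r ∂P = LL mom p := by
  simp_rw [aeval_sum, LL_apply]
  rw [integral_finsetSum]
  · refine Finset.sum_congr rfl fun k hk => ?_
    rw [integral_const_mul, hmom k]
    have := Finset.mem_range.mp hk
    omega
  · intro k _
    exact (integrable_pow P hsymm hrow hA k r).const_mul _

theorem integrable_aeval {I : Type*} [Fintype I] [DecidableEq I] {A : Ω → Matrix I I ℝ} {R : ℝ}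
    (hsymm : ∀ ω, (A ω).IsSymm) (hrow : ∀ᵐ ω ∂P, ∀ i, ∑ j, |A ω i j| ≤ R)
    (hA : ∀ i j, Measurable fun ω => A ω i j) (r : I) (p : ℝ[X]) :
    Integrable (fun ω => (aeval (A ω) p) r r) P := by
  simp_rw [aeval_sum]
  exact integrable_finsetSum _ fun k _ => (integrable_pow P hsymm hrow hA k r).const_mul _

theorem exists_dos {I : ℕ → Type*} [∀ N, Fintype (I N)] [∀ N, DecidableEq (I N)]
    {R : ℝ} (hR : 0 < R) (mom : ℕ → ℝ) (A : ∀ N, Ω → Matrix (I N) (I N) ℝ) (r : ∀ N, I N)
    (hsymm : ∀ N ω, (A N ω).IsSymm) (hrow : ∀ N, ∀ᵐ ω ∂P, ∀ i, ∑ j, |A N ω i j| ≤ R)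
    (hmeas : ∀ N i j, Measurable fun ω => A N ω i j)
    (hmom : ∀ N k, k ≤ N → ∫ ω, ((A N ω) ^ k) (r N) (r N) ∂P = mom k) :
    ∃ ν : Measure ℝ, IsProbabilityMeasure ν ∧ ν (Icc (-R) R)ᶜ = 0 ∧
      (∀ k : ℕ, ∫ x, x ^ k ∂ν = mom k) ∧
      ∀ z : ℂ, z.im ≠ 0 → ∀ φ : ∀ N, Ω → I N → ℂ,
        (∀ N, AEStronglyMeasurable (fun ω => φ N ω (r N)) P) →
        (∀ N, ∀ᵐ ω ∂P, ∀ i, ∑ j, (A N ω i j : ℂ) * φ N ω j - z * φ N ω i =
          if i = r N then 1 else 0) →
        Tendsto (fun N => ∫ ω, φ N ω (r N) ∂P) atTop (𝓝 (∫ x : ℝ, ((x : ℂ) - z)⁻¹ ∂ν)) := by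
  have hL1 : LL mom 1 = 1 := by
    rw [LL_apply]
    have h0 := hmom 0 0 le_rfl
    simp only [pow_zero, Matrix.one_apply_eq, integral_const, probReal_univ, smul_eq_mul,
      mul_one] at h0
    simp [← h0]
  have hLpos : ∀ p : ℝ[X], (∀ x ∈ Icc (-R) R, 0 ≤ p.eval x) → 0 ≤ LL mom p := by
    intro p hp
    rw [← integral_aeval P (hsymm p.natDegree) (hrow p.natDegree) (hmeas p.natDegree)
      (r p.natDegree) (hmom p.natDegree) p le_rfl]
    refine integral_nonneg_of_ae ?_
    filter_upwards [hrow p.natDegree] with ω hω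
    exact aeval_nonneg _ (hsymm _ ω) hω _ p hp
  obtain ⟨ν, hν1, hν2, hν3⟩ := exists_measure hR (LL mom) hL1 hLpos
  refine ⟨ν, hν1, hν2, fun k => ?_, fun z hz φ hφm hφ => ?_⟩
  · have h := hν3 (X ^ k)
    simp only [eval_pow, eval_X] at h
    rw [h, LL_apply]
    simp [Polynomial.coeff_X_pow]
  · rw [Metric.tendsto_atTop]
    intro ε hε
    obtain ⟨p, q, hpq⟩ := exists_poly R hz (ε := ε / 3) (by positivity)
    refine ⟨max p.natDegree q.natDegree, fun N hN => ?_⟩
    have hNp : p.natDegree ≤ N := le_trans (le_max_left _ _) hN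
    have hNq : q.natDegree ≤ N := le_trans (le_max_right _ _) hN
    set W : ℂ := (LL mom p : ℝ) + (LL mom q : ℝ) * Complex.I with hW
    -- the measure side
    have hν_ae : ∀ᵐ x ∂ν, x ∈ Icc (-R) R := by
      rw [ae_iff]
      exact hν2
    have hne : ∀ x : ℝ, (x : ℂ) - z ≠ 0 := fun x h => hz (by
      have := congrArg Complex.im h
      simpa using this)
    have hc : Continuous fun x : ℝ => ((x : ℂ) - z)⁻¹ :=
      Continuous.inv₀ (by fun_prop) hne
    have hint : ∀ f : ℝ → ℂ, Continuous f → Integrable f ν := by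
      intro f hf
      obtain ⟨M, hM⟩ := isCompact_Icc.exists_bound_of_continuousOn (s := Icc (-R) R) hf.continuousOn
      exact Integrable.of_bound hf.aestronglyMeasurable M (by
        filter_upwards [hν_ae] with x hx using hM x hx)
    have hpc : Continuous fun x : ℝ => ((p.eval x : ℝ) : ℂ) + (q.eval x : ℝ) * Complex.I := by
      have := p.continuous
      have := q.continuous
      fun_prop
    have hA : ‖∫ x : ℝ, ((x : ℂ) - z)⁻¹ ∂ν - W‖ ≤ ε / 3 := by
      have h1 : W = ∫ x : ℝ, (((p.eval x : ℝ) : ℂ) + (q.eval x : ℝ) * Complex.I) ∂ν := by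
        rw [integral_add (hint _ (by have := p.continuous; fun_prop))
          (hint _ (by have := q.continuous; fun_prop)), integral_mul_const, integral_complex_ofReal,
          integral_complex_ofReal, hν3, hν3]
      rw [h1, ← integral_sub (hint _ hc) (hint _ hpc)]
      refine (norm_integral_le_of_norm_le_const (C := ε / 3) ?_).trans ?_
      · filter_upwards [hν_ae] with x hx using hpq x hx
      · simp
    -- the matrix side
    set g : Ω → ℂ := fun ω => ((aeval (A N ω) p) (r N) (r N) : ℝ) +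
      ((aeval (A N ω) q) (r N) (r N) : ℝ) * Complex.I with hg
    have hip := integrable_aeval P (hsymm N) (hrow N) (hmeas N) (r N) p
    have hiq := integrable_aeval P (hsymm N) (hrow N) (hmeas N) (r N) q
    have hgi : Integrable g P := hip.ofReal.add (hiq.ofReal.mul_const _)
    have hclose : ∀ᵐ ω ∂P, ‖φ N ω (r N) - g ω‖ ≤ ε / 3 := by
      filter_upwards [hrow N, hφ N] with ω h1 h2
      exact resolvent_sub_le (A N ω) (hsymm N ω) h1 hz h2 hpq
    have hdi : Integrable (fun ω => φ N ω (r N) - g ω) P :=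
      Integrable.of_bound ((hφm N).sub hgi.aestronglyMeasurable) (ε / 3) hclose
    have hφi : Integrable (fun ω => φ N ω (r N)) P := by
      have := hdi.add hgi
      refine this.congr (Eventually.of_forall fun ω => ?_)
      simp
    have hB : ‖∫ ω, φ N ω (r N) ∂P - W‖ ≤ ε / 3 := by
      have h1 : W = ∫ ω, g ω ∂P := by
        rw [hg, integral_add hip.ofReal (hiq.ofReal.mul_const _), integral_mul_const,
          integral_complex_ofReal, integral_complex_ofReal,
          integral_aeval P (hsymm N) (hrow N) (hmeas N) (r N) (hmom N) p hNp,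
          integral_aeval P (hsymm N) (hrow N) (hmeas N) (r N) (hmom N) q hNq]
      rw [h1, ← integral_sub hφi hgi]
      refine (norm_integral_le_of_norm_le_const (C := ε / 3) hclose).trans ?_
      simp
    rw [dist_eq_norm]
    calc ‖∫ ω, φ N ω (r N) ∂P - ∫ x : ℝ, ((x : ℂ) - z)⁻¹ ∂ν‖
        = ‖(∫ ω, φ N ω (r N) ∂P - W) - (∫ x : ℝ, ((x : ℂ) - z)⁻¹ ∂ν - W)‖ := by
          congr 1; ring
      _ ≤ ‖∫ ω, φ N ω (r N) ∂P - W‖ + ‖∫ x : ℝ, ((x : ℂ) - z)⁻¹ ∂ν - W‖ := norm_sub_le _ _
      _ < ε := by linarith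

end glue

end

end Crest.Agent.R166.MomFun390
end

-- ▼ part R166/DosM1_356

/-!
# Row 166, section 70 (M1): the density-of-states measure of the tree operator (helper356)

`exists_treeDOS`: for every `b` and `s ≥ 0` there is a measure `ν` with `IsTreeDOS (b + 1) s ν` and
`∫ (x - z)⁻¹ dν = Gav b s z` for all `z` in the upper half plane (abstract part: helper390).
-/

set_option autoImplicit false

open Finset MeasureTheory Filter Topology

namespace Crest.Agent.R166.DosM1356

open Crest.ProbabilityR.RandomMatrix Crest.Agent.R166.Env536 Crest.Agent.R166.TreeDefs350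
  Crest.Agent.R166.TreeWalk356 Crest.Agent.R166.Ball356

/-- **(M1)** existence of the density-of-states measure and its Stieltjes transform -/
theorem exists_treeDOS (b : ℕ) (s : ℝ) (hs : 0 ≤ s) :
    ∃ ν : Measure ℝ, IsTreeDOS (b + 1) s ν ∧
      ∀ z : ℂ, 0 < z.im → ∫ x : ℝ, ((x : ℂ) - z)⁻¹ ∂ν = Gav b s z := by
  have hR : (0 : ℝ) < ((b + 1 : ℕ) : ℝ) + s := by positivity
  obtain ⟨ν, h1, h2, h3, h4⟩ := MomFun390.exists_dos (P := PN (b + 1))
    (I := fun N => V (b + 1) (N + 1)) hR (treeMoment (b + 1) s)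
    (fun N Ω => HN s (N + 1) Ω) (fun N => rN (N + 1))
    (fun N Ω => by
      have := HN_symm s (N + 1) Ω
      rw [Matrix.IsHermitian, Matrix.conjTranspose_eq_transpose_of_trivial] at this
      exact this)
    (fun N => by
      filter_upwards [ae_cube (d := b + 1)] with Ω hΩ x
      exact HN_row s hs (N + 1) Ω hΩ x)
    (fun N i j => by
      unfold HN
      refine measurable_const.add ?_
      by_cases h : i = j
      · simp only [h, if_true]
        exact measurable_const.mul (measurable_pi_apply _)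
      · simp only [h, if_false]
        exact measurable_const)
    (fun N k hk => by
      simp only [HN_pow_root s _ (Nat.le_succ_of_le hk)]
      exact integral_Tl_pow s k)
  refine ⟨ν, ⟨h1, h2, h3⟩, ?_⟩
  intro z hz
  have h5 := h4 z hz.ne' (fun N Ω y => fv s z N Ω y.1)
    (fun N => (measurable_GN s z N).aestronglyMeasurable)
    (fun N => ae_of_all _ fun Ω x => by
      classical
      have h6 := congrFun (HN_green s hz N Ω) x
      rw [Matrix.sub_mulVec, Matrix.smul_mulVec, Matrix.one_mulVec] at h6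
      simp only [Pi.sub_apply, Pi.smul_apply, smul_eq_mul, Matrix.mulVec, dotProduct,
        Matrix.map_apply] at h6
      rw [h6, Pi.single_apply])
  exact tendsto_nhds_unique h5 (tendsto_integral_GN s hz)

end Crest.Agent.R166.DosM1356
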