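import Crest.Agent.R166.Words_955
import Crest.Agent.R166.Ports_269

/-!
Row 166 (helper974): empirical laws of port-numbered graphs as probability measures on `Conf d S`.
-/

set_option autoImplicit false

namespace Crest.Agent.R166.Emp974

open MeasureTheory Filter Topology Crest.Agent.R166.Words955

variable {d : ℕ} [NeZero d] {V : Type*} [Fintype V]

section general

variable {S : Type*} [MeasurableSpace S]


theorem emp_univ [Nonempty V] (p : V × Fin d → V × Fin d) (c : V × Fin d → S) :
    (emp p c) Set.univ = 1 := by
  have hne : Nonempty (V × Fin d) := inferInstance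
  rw [emp, Measure.smul_apply, Measure.finsetSum_apply]
  simp only [measure_univ, Finset.sum_const, Finset.card_univ, nsmul_eq_mul, mul_one, smul_eq_mul]
  refine ENNReal.inv_mul_cancel ?_ (ENNReal.natCast_ne_top _)
  exact_mod_cast Fintype.card_ne_zero

instance emp_isProb [Nonempty V] (p : V × Fin d → V × Fin d) (c : V × Fin d → S) :
    IsProbabilityMeasure (emp p c) := ⟨emp_univ p c⟩

/-- the empirical law as a `ProbabilityMeasure` -/
noncomputable def empP [Nonempty V] (p : V × Fin d → V × Fin d) (c : V × Fin d → S) :
    ProbabilityMeasure (Conf d S) := ⟨emp p c, inferInstance⟩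

@[simp] theorem coe_empP [Nonempty V] (p : V × Fin d → V × Fin d) (c : V × Fin d → S) :
    ((empP p c : ProbabilityMeasure (Conf d S)) : Measure (Conf d S)) = emp p c := rfl

theorem integrable_emp [MeasurableSingletonClass (Conf d S)] {E : Type*} [NormedAddCommGroup E]
    (p : V × Fin d → V × Fin d) (c : V × Fin d → S) (f : Conf d S → E) :
    Integrable f (emp p c) := by
  have h1 : Integrable f (∑ h : V × Fin d, Measure.dirac (conf p c h)) := by
    rw [integrable_finsetSum_measure]
    intro h _
    exact integrable_dirac (by simp)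
  unfold emp
  rcases eq_or_ne (Fintype.card (V × Fin d)) 0 with h0 | h0
  · have : IsEmpty (V × Fin d) := Fintype.card_eq_zero_iff.1 h0
    simp
  · refine h1.smul_measure ?_
    exact ENNReal.inv_ne_top.2 (by exact_mod_cast h0)

/-- integral against the empirical law = average over the half-edges -/
theorem integral_emp [MeasurableSingletonClass (Conf d S)] {E : Type*} [NormedAddCommGroup E]
    [NormedSpace ℝ E] [CompleteSpace E]
    (p : V × Fin d → V × Fin d) (c : V × Fin d → S) (f : Conf d S → E) :
    ∫ ξ, f ξ ∂(emp p c)
      = ((Fintype.card (V × Fin d) : ℝ)⁻¹) • ∑ h : V × Fin d, f (conf p c h) := by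
  rw [emp, integral_smul_measure, integral_finsetSum_measure]
  · simp only [integral_dirac]
    congr 1
    simp
  · intro h _
    exact integrable_dirac (by simp)

theorem map_emp {S' : Type*} [MeasurableSpace S'] (p : V × Fin d → V × Fin d)
    (c : V × Fin d → S) {g : Conf d S → Conf d S'} (hg : Measurable g) :
    (emp p c).map g = ((Fintype.card (V × Fin d) : ENNReal)⁻¹) •
      ∑ h : V × Fin d, Measure.dirac (g (conf p c h)) := by
  unfold emp
  rw [Measure.map_smul, ← Measure.mapₗ_apply_of_measurable hg, map_sum]
  congr 1
  refine Finset.sum_congr rfl fun h _ => ?_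
  rw [Measure.mapₗ_apply_of_measurable hg]
  exact Measure.map_dirac' hg (conf p c h)

/-- empirical laws are invariant -/
theorem inv_emp [PortAct d S] (hr : ∀ i : Fin d, Measurable (PortAct.rs i : S → S))
    (p : V × Fin d → V × Fin d) (hp : ∀ h, p (p h) = h) (c : V × Fin d → S)
    (hc : ∀ v l i, c (v, l + i) = PortAct.rs i (c (v, l))) : Inv (emp p c) := by
  constructor
  · rw [map_emp p c measurable_cross]
    unfold emp
    congr 1
    have hb : Function.Bijective p := (show Function.Involutive p from hp).bijective
    rw [← hb.sum_comp (fun h => Measure.dirac (conf p c h))]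
    refine Finset.sum_congr rfl fun h _ => ?_
    rw [conf_flip p hp]
  · intro i
    rw [map_emp p c (measurable_rotn hr i)]
    unfold emp
    congr 1
    have hb : Function.Bijective (fun h : V × Fin d => (h.1, h.2 + i)) := by
      rw [Fintype.bijective_iff_injective_and_card]
      refine ⟨?_, rfl⟩
      rintro ⟨v, a⟩ ⟨w, b⟩ hab
      simp only [Prod.mk.injEq, add_left_inj] at hab
      exact Prod.ext hab.1 hab.2
    rw [← hb.sum_comp (fun h => Measure.dirac (conf p c h))]
    refine Finset.sum_congr rfl fun h _ => ?_
    rw [conf_rot p c hc]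


end general

/-! ### Weak limits of invariant measures -/

section weak

variable {S : Type*} [TopologicalSpace S] [MeasurableSpace S] [BorelSpace (Conf d S)]
  [HasOuterApproxClosed (Conf d S)]

theorem map_eq_of_tendsto {A : Type*} {l : Filter A} [l.NeBot]
    {μ : A → ProbabilityMeasure (Conf d S)} {P : ProbabilityMeasure (Conf d S)}
    (h : Tendsto μ l (𝓝 P)) {g : Conf d S → Conf d S} (hg : Continuous g)
    (hμ : ∀ᶠ a in l, (μ a : Measure (Conf d S)).map g = μ a) :
    (P : Measure (Conf d S)).map g = P := by
  have h1 : Tendsto (fun a => (μ a).map (f := g) hg.aemeasurable) l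
      (𝓝 (P.map (f := g) hg.aemeasurable)) :=
    (ProbabilityMeasure.continuous_map hg).continuousAt.tendsto.comp h
  have h2 : (fun a => (μ a).map (f := g) hg.aemeasurable) =ᶠ[l] μ := by
    filter_upwards [hμ] with a ha
    apply ProbabilityMeasure.toMeasure_injective
    rw [ProbabilityMeasure.toMeasure_map]
    exact ha
  have h3 : Tendsto μ l (𝓝 (P.map (f := g) hg.aemeasurable)) := h1.congr' h2
  have h4 := tendsto_nhds_unique h3 h
  have h5 := congrArg (fun Q : ProbabilityMeasure (Conf d S) => (Q : Measure (Conf d S))) h4
  simpa only [ProbabilityMeasure.toMeasure_map] using h5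

theorem inv_of_tendsto [PortAct d S]
    (hr : ∀ i : Fin d, Continuous (PortAct.rs i : S → S)) {A : Type*} {l : Filter A} [l.NeBot]
    {μ : A → ProbabilityMeasure (Conf d S)} {P : ProbabilityMeasure (Conf d S)}
    (h : Tendsto μ l (𝓝 P)) (hμ : ∀ᶠ a in l, Inv (μ a : Measure (Conf d S))) :
    Inv (P : Measure (Conf d S)) := by
  refine ⟨map_eq_of_tendsto h continuous_cross (hμ.mono fun a ha => ha.1), fun i => ?_⟩
  exact map_eq_of_tendsto h (continuous_rotn hr i) (hμ.mono fun a ha => ha.2 i)

end weak

end Crest.Agent.R166.Emp974
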