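import Crest.Agent.R166.EntTree_397
import Crest.Agent.R166.UppView_724
import Crest.Agent.R166.Words_955
import Crest.Agent.R166.Count_674

/-!
Row 166, section 40.8, bridge (helper397).

Part 1: views with backtracking (`Upp724.viewOf`) versus the non-backtracking half-edge views
`EntTree397.S/Vw/Ed`: they carry the same information.
Part 2: uniform laws; entropy of stars and edges = `HV`, `HE`.
-/

set_option autoImplicit false

namespace Crest.Agent.R166.EntBridge397

open MeasureTheory Finset Crest.Agent.R166.Ent397 Crest.Agent.R166.EntTree397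
open Crest.Agent.R166.Upp724 (View viewOf starOf)

universe u v

/-! ### Rotations -/

section Rot

variable {Ω : Type v} {A : Type u} {m : ℕ} {c : Ω → A} {π ρ : Ω → Ω}

theorem rot_branch' (cyc : ∀ h, ρ^[m + 1] h = h) (j k : Fin (m + 1)) (h : Ω) :
    ρ^[k.val] (ρ^[j.val] h) = ρ^[(k + j : Fin (m + 1)).val] h := by
  rw [← Function.iterate_add_apply, Fin.val_add]
  have h1 : ∀ q, ρ^[(m + 1) * q] h = h := by
    intro q
    rw [Function.iterate_mul]
    have : (ρ^[m + 1]) = id := funext cyc
    rw [this]; simp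
  conv_lhs => rw [← Nat.mod_add_div (k.val + j.val) (m + 1)]
  rw [Function.iterate_add_apply, h1]

theorem colk' (col : ∀ h h', c (ρ h) = c (ρ h') ↔ c h = c h') (k : ℕ) (h h' : Ω) :
    c (ρ^[k] h) = c (ρ^[k] h') ↔ c h = c h' := by
  induction k generalizing h h' with
  | zero => exact Iff.rfl
  | succ k ih => rw [Function.iterate_succ_apply, Function.iterate_succ_apply, ih, col]

/-- rotating the root port does not change the information of the full view -/
theorem Vw_rot (cyc : ∀ h, ρ^[m + 1] h = h) (col : ∀ h h', c (ρ h) = c (ρ h') ↔ c h = c h')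
    (r : ℕ) (j : Fin (m + 1)) (h h' : Ω)
    (e : (Vw c π ρ r h : A × (Fin (m + 1) → ST A m r)) = Vw c π ρ r h') :
    (Vw c π ρ r (ρ^[j.val] h) : A × (Fin (m + 1) → ST A m r)) = Vw c π ρ r (ρ^[j.val] h') := by
  rw [Vw_eq_iff] at e ⊢
  refine ⟨(colk' col j.val h h').2 e.1, fun k => ?_⟩
  rw [rot_branch' cyc, rot_branch' cyc]
  exact e.2 _

theorem Vw_det (r : ℕ) (h h' : Ω)
    (e : (Vw c π ρ (r + 1) h : A × (Fin (m + 1) → ST A m (r + 1))) = Vw c π ρ (r + 1) h') :
    (Vw c π ρ r h : A × (Fin (m + 1) → ST A m r)) = Vw c π ρ r h' := by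
  rw [Vw_eq_iff] at e ⊢
  exact ⟨e.1, fun k => S_det c π ρ r _ _ (e.2 k)⟩

/-- the full view around a neighbour is determined by the larger full view -/
theorem Vw_nbr (cyc : ∀ h, ρ^[m + 1] h = h) (col : ∀ h h', c (ρ h) = c (ρ h') ↔ c h = c h')
    (invol : ∀ h, π (π h) = h) (r : ℕ) (j : Fin (m + 1)) (h h' : Ω)
    (e : (Vw c π ρ (r + 1) h : A × (Fin (m + 1) → ST A m (r + 1))) = Vw c π ρ (r + 1) h') :
    (Vw c π ρ r (π (ρ^[j.val] h)) : A × (Fin (m + 1) → ST A m r)) =
      Vw c π ρ r (π (ρ^[j.val] h')) := by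
  rw [← Vw_iff_pair, invol, invol]
  refine ⟨((Vw_eq_iff c π ρ (r + 1) h h').1 e).2 j, ?_⟩
  have e1 := Vw_rot cyc col r j h h' (Vw_det r h h' e)
  exact S_det c π ρ r _ _ ((Vw_iff_pair c π ρ r _ _).2 e1).1

end Rot

/-! ### Port graphs -/

section Port

variable {V T : Type} {m : ℕ}

/-- rotate the port -/
def rho (h : V × Fin (m + 1)) : V × Fin (m + 1) := (h.1, h.2 + 1)

/-- half-edge colour `(label, vertex colour)` -/
def lb (f : V → T) (h : V × Fin (m + 1)) : Fin (m + 1) × T := (h.2, f h.1)





variable {p : V × Fin (m + 1) → V × Fin (m + 1)} {f : V → T}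










end Port

/-! ### Uniform laws -/

section Unif

variable {X : Type*} [Fintype X] [MeasurableSpace X] [MeasurableSingletonClass X]

/-- uniform law on a finite type -/
noncomputable def unif (X : Type*) [Fintype X] [MeasurableSpace X] : Measure X :=
  ((Fintype.card X : ENNReal)⁻¹) • ∑ x : X, Measure.dirac x


theorem unif_apply (s : Set X) [DecidablePred (· ∈ s)] :
    unif X s = (Fintype.card X : ENNReal)⁻¹ * ((univ.filter fun x => x ∈ s).card : ENNReal) := by
  have hs : MeasurableSet s := (Set.toFinite s).measurableSet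
  unfold unif
  rw [Measure.smul_apply, Measure.finsetSum_apply, smul_eq_mul]
  congr 1
  simp only [Measure.dirac_apply' _ hs, Set.indicator_apply, Pi.one_apply]
  rw [Finset.sum_ite, Finset.sum_const_zero, add_zero, Finset.sum_const, nsmul_eq_mul, mul_one]

instance instProbUnif [Nonempty X] : IsProbabilityMeasure (unif X) := ⟨by
  classical
  rw [unif_apply Set.univ]
  have : (univ.filter fun x : X => x ∈ (Set.univ : Set X)) = univ := by ext; simp
  rw [this, Finset.card_univ]
  exact ENNReal.inv_mul_cancel (by simp) (by simp)⟩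





end Unif

/-! ### Entropies of stars and edges -/

section Bridge

variable {V T : Type} [Fintype V] [Nonempty V] [MeasurableSpace V] [MeasurableSingletonClass V]
  [Fintype T] {m : ℕ} (p : V × Fin (m + 1) → V × Fin (m + 1)) (f : V → T)





end Bridge

/-! ### The counting functional of `Count_674` -/

section Count

variable {V : Type} [Fintype V] [DecidableEq V] [Nonempty V] [MeasurableSpace V]
  [MeasurableSingletonClass V] {m : ℕ}



end Count

/-! ### Factor maps -/

section Factor

universe w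

variable {Ω : Type v} {Ω' : Type w} {A : Type u} {m : ℕ} {c : Ω → A} {π ρ : Ω → Ω}
  {π' ρ' : Ω' → Ω'} {θ : Ω' → Ω}





variable [MeasurableSpace Ω] [MeasurableSpace Ω'] {μ : Measure Ω} {μ' : Measure Ω'}



variable [Fintype A]







end Factor

/-! ### Continuity -/

section Cont

open Filter Topology

variable {A : Type u} {m : ℕ}








end Cont

/-! ### Configurations on the tree -/

section ConfSec

open Crest.Agent.R166.Words955

variable {m : ℕ} {Sg : Type*} [MeasurableSpace Sg] [PortAct (m + 1) Sg]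

theorem rotn_iter (k : ℕ) (ξ : Conf (m + 1) Sg) :
    (rotn 1)^[k] ξ = rotn (Fin.ofNat (m + 1) k) ξ := by
  induction k with
  | zero =>
    have : Fin.ofNat (m + 1) 0 = 0 := rfl
    rw [this, rotn_zero]; rfl
  | succ k ih =>
    rw [Function.iterate_succ_apply', ih, rotn_rotn]
    have : Fin.ofNat (m + 1) (k + 1) = 1 + Fin.ofNat (m + 1) k := by
      apply Fin.ext
      simp [Fin.val_add, Fin.ofNat, Nat.add_mod, add_comm]
    rw [this]

theorem rotn_cyc (ξ : Conf (m + 1) Sg) : (rotn 1)^[m + 1] ξ = ξ := by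
  rw [rotn_iter]
  have : Fin.ofNat (m + 1) (m + 1) = 0 := by
    apply Fin.ext
    simp [Fin.ofNat]
  rw [this, rotn_zero]

/-- (B2) an invariant law on configurations and an equivariant finite colour give `Stat` -/
theorem stat_conf {A : Type*} {P : Measure (Conf (m + 1) Sg)} (hP : Inv P)
    (hr : ∀ i : Fin (m + 1), Measurable (PortAct.rs i : Sg → Sg))
    {C : Conf (m + 1) Sg → A} (hC : FM C)
    (col : ∀ ξ ξ', C (rotn 1 ξ) = C (rotn 1 ξ') ↔ C ξ = C ξ') :
    Stat P m C cross (rotn 1) where
  fm := hC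
  mpπ := ⟨measurable_cross, hP.1⟩
  mpρ := ⟨measurable_rotn hr 1, hP.2 1⟩
  invol := cross_cross
  cyc := rotn_cyc
  col := col

variable {V : Type} [Fintype V] [MeasurableSpace V] [MeasurableSingletonClass V]




end ConfSec

end Crest.Agent.R166.EntBridge397
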