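import Crest.Agent.R166.TreeLike3_942
import Crest.Agent.R166.SimpleP_356
import Crest.Agent.R166.Words_955

/-!
Row 166, section 40.5 (helper942): tree-likeness for port-numbered simple graphs
(uniform law on `Ports n d`) and in terms of the words of `Words_955`.
-/

set_option autoImplicit false

namespace Crest.Agent.R166.TreeLike942

open Finset
open scoped Nat
open Crest.Agent.R166.Words955

noncomputable section

/-- `#{p ∈ Ports : ≥ ε n non-tree-like vertices} ≤ exp (-c n log n) #Ports` -/
theorem superexp_Ports (d R : ℕ) (hd : 1 ≤ d) (ε : ℝ) (hε : 0 < ε) :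
    ∃ c : ℝ, 0 < c ∧ ∃ n0 : ℕ, ∀ n ≥ n0, ∀ S : Finset (Equiv.Perm (HE n d)), S ⊆ Ports n d →
      (∀ p ∈ S, ε * n ≤ (Nat.card {v : Fin n // ¬ TreeAt Prod.fst p R v} : ℝ)) →
      (S.card : ℝ) ≤ Real.exp (-c * n * Real.log n) * ((Ports n d).card : ℝ) := by
  classical
  obtain ⟨c, hc, n1, h1⟩ := superexp_pairings d R ε hε
  obtain ⟨C, n2, h2⟩ := Simple356.exists_np_le_Ports d hd
  have hev := (tendsto_natCast_atTop_atTop (R := ℝ)).eventually_ge_atTop (2 * C / c)
  obtain ⟨n3, h3⟩ := Filter.eventually_atTop.1 hev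
  refine ⟨c / 2, by positivity, max (max n1 n2) (max n3 1), fun n hn S hS hb => ?_⟩
  have hn1 : n1 ≤ n := le_trans (le_trans (le_max_left _ _) (le_max_left _ _)) hn
  have hn2 : n2 ≤ n := le_trans (le_trans (le_max_right _ _) (le_max_left _ _)) hn
  have hn3 : n3 ≤ n := le_trans (le_trans (le_max_left _ _) (le_max_right _ _)) hn
  have hn4 : 1 ≤ n := le_trans (le_trans (le_max_right _ _) (le_max_right _ _)) hn
  have hnpos : (0:ℝ) < n := by exact_mod_cast hn4
  have h4 := h1 n hn1 S (fun p hp => ⟨(mem_Ports.1 (hS hp)).isPairing, hb p hp⟩)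
  rcases Nat.even_or_odd (n * d) with hev | hodd
  · obtain ⟨k, hk⟩ := hev
    have h5 := h2 n hn2 ⟨k, hk⟩
    have hnp : PairCount356.np (n * d) = (n * d - 1)‼ := by
      have : n * d = 2 * k := by omega
      rw [this, PairCount356.np_even]
    rw [hnp] at h5
    have h6 : ((n * d - 1)‼ : ℝ) ≤ (n : ℝ) ^ C * ((Ports n d).card : ℝ) := by exact_mod_cast h5
    have h7 : (n : ℝ) ^ C = Real.exp (C * Real.log n) := by
      rw [Real.exp_nat_mul, Real.exp_log hnpos]
    have h8 : 2 * C / c ≤ n := h3 n hn3
    have h9 : 0 ≤ Real.log n := Real.log_nonneg (by exact_mod_cast hn4)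
    calc (S.card : ℝ) ≤ ((n * d - 1)‼ : ℝ) * Real.exp (-c * n * Real.log n) := h4
      _ ≤ ((n : ℝ) ^ C * ((Ports n d).card : ℝ)) * Real.exp (-c * n * Real.log n) :=
          mul_le_mul_of_nonneg_right h6 (Real.exp_pos _).le
      _ = Real.exp (C * Real.log n + -c * n * Real.log n) * ((Ports n d).card : ℝ) := by
          rw [h7, Real.exp_add]; ring
      _ ≤ Real.exp (-(c/2) * n * Real.log n) * ((Ports n d).card : ℝ) := by
          apply mul_le_mul_of_nonneg_right _ (Nat.cast_nonneg _)
          apply Real.exp_le_exp.2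
          rw [div_le_iff₀ hc] at h8
          nlinarith
  · have h5 : Ports n d = ∅ := by
      have h6 := Simple356.card_Ports_le_np n d
      obtain ⟨k, hk⟩ := hodd
      rw [hk, PairCount356.np_odd] at h6
      exact card_eq_zero.1 (by omega)
    rw [h5] at hS ⊢
    rw [subset_empty.1 hS]
    simp

/-- the same as a statement about probabilities tending to zero -/
theorem tree_whp_Ports (d R : ℕ) (hd : 1 ≤ d) (ε δ : ℝ) (hε : 0 < ε) (hδ : 0 < δ) :
    ∃ n0 : ℕ, ∀ n ≥ n0, ∀ S : Finset (Equiv.Perm (HE n d)), S ⊆ Ports n d →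
      (∀ p ∈ S, ε * n ≤ (Nat.card {v : Fin n // ¬ TreeAt Prod.fst p R v} : ℝ)) →
      (S.card : ℝ) ≤ δ * ((Ports n d).card : ℝ) := by
  obtain ⟨c, hc, n1, h1⟩ := superexp_Ports d R hd ε hε
  have ht : Filter.Tendsto (fun n : ℕ => Real.exp (-c * n * Real.log n)) Filter.atTop
      (nhds 0) := by
    refine Real.tendsto_exp_atBot.comp ?_
    have h2 : Filter.Tendsto (fun n : ℕ => (n:ℝ) * Real.log n) Filter.atTop Filter.atTop :=
      tendsto_natCast_atTop_atTop.atTop_mul_atTop₀
        (Real.tendsto_log_atTop.comp tendsto_natCast_atTop_atTop)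
    have h3 := h2.const_mul_atTop_of_neg (show -c < 0 by linarith)
    refine h3.congr fun n => by ring
  obtain ⟨n2, h2⟩ := Filter.eventually_atTop.1 (ht.eventually_le_const hδ)
  refine ⟨max n1 n2, fun n hn S hS hb => ?_⟩
  refine (h1 n (le_trans (le_max_left _ _) hn) S hS hb).trans ?_
  exact mul_le_mul_of_nonneg_right (h2 n (le_trans (le_max_right _ _) hn)) (Nat.cast_nonneg _)

section words
variable {V : Type*} {d : ℕ}

/-- the half-edges followed by the word `w` from the half-edge `h` -/
def hlist (p : V × Fin d → V × Fin d) : List (Fin d) → V × Fin d → List (V × Fin d)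
  | [], _ => []
  | i :: w, h => (h.1, h.2 + i) :: hlist p w (p (h.1, h.2 + i))

theorem length_hlist (p : V × Fin d → V × Fin d) (w : List (Fin d)) (h : V × Fin d) :
    (hlist p w h).length = w.length := by
  induction w generalizing h with
  | nil => rfl
  | cons i w ih => simp [hlist, ih]

theorem isWalk_hlist (p : V × Fin d → V × Fin d) (w : List (Fin d)) (h : V × Fin d) :
    IsWalk Prod.fst p h.1 (hlist p w h) (walk p w h).1 := by
  induction w generalizing h with
  | nil => simp [hlist, walk, IsWalk]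
  | cons i w ih => exact ⟨rfl, ih _⟩

theorem hlist_injective [NeZero d] (p : V × Fin d → V × Fin d) (w w' : List (Fin d))
    (h : V × Fin d) (hw : hlist p w h = hlist p w' h) : w = w' := by
  induction w generalizing w' h with
  | nil =>
    cases w' with
    | nil => rfl
    | cons i w' => simp [hlist] at hw
  | cons i w ih =>
    cases w' with
    | nil => simp [hlist] at hw
    | cons i' w' =>
      simp only [hlist, List.cons.injEq, Prod.mk.injEq, add_right_inj, true_and] at hw
      obtain ⟨h1, h2⟩ := hw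
      subst h1
      rw [ih w' _ h2]

theorem reduced_hlist_aux [NeZero d] (p : V × Fin d → V × Fin d) (w : List (Fin d))
    (hw : ∀ a ∈ w, a ≠ 0) (x : V × Fin d) :
    (x :: hlist p w (p x)).IsChain (fun x y => y ≠ p x) := by
  induction w generalizing x with
  | nil => exact List.isChain_singleton _
  | cons i w ih =>
    rw [hlist, List.isChain_cons_cons]
    refine ⟨?_, ih (fun a ha => hw a (by simp [ha])) _⟩
    intro h
    have h1 := congrArg Prod.snd h
    simp only at h1
    exact hw i (by simp) (by simpa using h1)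

theorem reduced_hlist [NeZero d] (p : V × Fin d → V × Fin d) (w : TW d) (h : V × Fin d) :
    Reduced p (hlist p w.1 h) := by
  obtain ⟨w, hw⟩ := w
  cases w with
  | nil => exact List.IsChain.nil
  | cons i w => exact reduced_hlist_aux p w (by simpa using hw) _

/-- at a tree-like vertex different words of length `≤ R` lead to different vertices -/
theorem treeAt_words [NeZero d] {p : V × Fin d → V × Fin d} {R : ℕ} {h : V × Fin d}
    (ht : TreeAt Prod.fst p R h.1) {w w' : TW d} (hw : w.len ≤ R) (hw' : w'.len ≤ R)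
    (he : (walk p w.1 h).1 = (walk p w'.1 h).1) : w = w' := by
  apply TW.ext
  apply hlist_injective p w.1 w'.1 h
  refine ht _ _ _ (isWalk_hlist p w.1 h) ?_ (reduced_hlist p w h) (reduced_hlist p w' h) ?_ ?_
  · rw [he]; exact isWalk_hlist p w'.1 h
  · rw [length_hlist]; exact hw
  · rw [length_hlist]; exact hw'

/-- set form -/
theorem treeAt_injOn [NeZero d] {p : V × Fin d → V × Fin d} {R : ℕ} {h : V × Fin d}
    (ht : TreeAt Prod.fst p R h.1) :
    Set.InjOn (fun w : TW d => (walk p w.1 h).1) {w | w.len ≤ R} :=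
  fun _ hw _ hw' he => treeAt_words ht hw hw' he

/-- the half-edges with a non-injective word map of radius `R` are at most `d` times the
non-tree-like vertices -/
theorem card_bad_half_le {n : ℕ} [NeZero d] (p : Equiv.Perm (HE n d)) (R : ℕ) :
    Nat.card {h : HE n d // ¬ Set.InjOn (fun w : TW d => (walk p w.1 h).1) {w | w.len ≤ R}} ≤
      Nat.card {v : Fin n // ¬ TreeAt Prod.fst p R v} * d := by
  classical
  have : Nat.card ({v : Fin n // ¬ TreeAt Prod.fst p R v} × Fin d) =
      Nat.card {v : Fin n // ¬ TreeAt Prod.fst p R v} * d := by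
    rw [Nat.card_prod, Nat.card_eq_fintype_card (α := Fin d), Fintype.card_fin]
  rw [← this]
  refine Nat.card_le_card_of_injective (fun h => (⟨h.1.1, fun ht => h.2 (treeAt_injOn ht)⟩, h.1.2))
    ?_
  intro a b hab
  simp only [Prod.mk.injEq, Subtype.mk.injEq] at hab
  exact Subtype.ext (Prod.ext hab.1 hab.2)

end words

end

end Crest.Agent.R166.TreeLike942
private theorem rz_eb955ca24b : type_of% @_root_.Crest.Agent.R166.TreeLike942.hlist.eq_def := @_root_.Crest.Agent.R166.TreeLike942.hlist.eq_def -- L91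
private theorem rz_bc0972cb6c : type_of% @_root_.Crest.Agent.R166.TreeLike942.hlist.eq_1 := @_root_.Crest.Agent.R166.TreeLike942.hlist.eq_1 -- L91
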