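import Mathlib
import Crest.Agent.R166.Words_955
import Crest.Agent.R166.TreeLike4_942
import Crest.Agent.R166.Seq_980
import Crest.Agent.R166.TreeDefs_350

-- ▼ part R166/EnvLaw_289
section

/-!
Row 166 (helper289): the iid law of (label, datum) over the vertices of the `d`-regular tree.

`uFin d` = uniform law on the labels, `siteLaw d τ` = (uniform label) × `τ`,
`envLaw d τ` = product of `siteLaw d τ` over all words.  It is invariant under `cross` and `rotn`.
-/

set_option autoImplicit false

namespace Crest.Agent.R166.EnvLaw289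

open MeasureTheory ProbabilityTheory Crest.Agent.R166.Words955

noncomputable section

/-- the uniform law on `Fin d` -/
def uFin (d : ℕ) : Measure (Fin d) := (d : ENNReal)⁻¹ • Measure.count

/-- law of (label, datum) at one vertex -/
def siteLaw (d : ℕ) {T : Type*} [MeasurableSpace T] (τ : Measure T) : Measure (Fin d × T) :=
  (uFin d).prod τ

/-- the iid law on configurations -/
def envLaw (d : ℕ) [NeZero d] {T : Type*} [MeasurableSpace T] (τ : Measure T) :
    Measure (Conf d (Fin d × T)) :=
  Measure.infinitePi fun _ : TW d => siteLaw d τ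

variable {d : ℕ} [NeZero d] {T : Type*} [MeasurableSpace T] (τ : Measure T)

instance uFin_prob : IsProbabilityMeasure (uFin d) := by
  constructor
  rw [uFin, Measure.smul_apply, Measure.count_univ, smul_eq_mul]
  simp only [ENat.card_eq_coe_fintype_card, Fintype.card_fin, ENat.toENNReal_coe]
  exact ENNReal.inv_mul_cancel (by exact_mod_cast NeZero.ne d) (ENNReal.natCast_ne_top d)

instance siteLaw_prob [IsProbabilityMeasure τ] : IsProbabilityMeasure (siteLaw d τ) := by
  unfold siteLaw; infer_instance

instance envLaw_prob [IsProbabilityMeasure τ] : IsProbabilityMeasure (envLaw d τ) := by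
  unfold envLaw; infer_instance

omit [NeZero d] in
/-- the uniform law is invariant under permutations of the labels -/
theorem uFin_map (e : Fin d ≃ Fin d) : (uFin d).map e = uFin d := by
  refine Measure.ext_of_singleton fun i => ?_
  rw [Measure.map_apply (measurable_of_finite _) (MeasurableSet.singleton i)]
  have h : e ⁻¹' {i} = {e.symm i} := by
    ext j
    simp [Equiv.eq_symm_apply]
  rw [h, uFin, Measure.smul_apply, Measure.smul_apply, Measure.count_singleton,
    Measure.count_singleton]

/-- rotation of the label of a datum -/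
def rl (k : Fin d) (x : Fin d × T) : Fin d × T := (k + x.1, x.2)

omit [NeZero d] in
theorem measurable_rl (k : Fin d) : Measurable (rl k : Fin d × T → Fin d × T) := by
  have : Measurable (fun j : Fin d => k + j) := measurable_of_finite _
  exact (this.comp measurable_fst).prodMk measurable_snd

/-- the law of a site is invariant under rotation of the label -/
theorem siteLaw_rl [IsProbabilityMeasure τ] (k : Fin d) :
    (siteLaw d τ).map (rl k) = siteLaw d τ := by
  have h1 : (rl k : Fin d × T → Fin d × T) = Prod.map (Equiv.addLeft k) id := by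
    funext x; rfl
  rw [h1, siteLaw, ← Measure.map_prod_map _ _ (measurable_of_finite _) measurable_id,
    uFin_map, Measure.map_id]

omit [NeZero d] [MeasurableSpace T] in
/-- the port action on sites is `rl` up to commutativity -/
theorem rs_eq_rl (k : Fin d) (x : Fin d × T) :
    (PortAct.rs k x : Fin d × T) = rl k x := by
  show (x.1 + k, x.2) = (k + x.1, x.2)
  rw [add_comm]

theorem map_comp_perm [IsProbabilityMeasure τ] (f : TW d → TW d) (hf : Function.Injective f) :
    (envLaw d τ).map (fun (ξ : Conf d (Fin d × T)) w => ξ (f w)) = envLaw d τ :=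
  Measure.map_infinitePi_infinitePi_of_inj (P := fun _ : TW d => siteLaw d τ) hf

/-- invariance under the edge flip -/
theorem envLaw_cross [IsProbabilityMeasure τ] : (envLaw d τ).map cross = envLaw d τ :=
  map_comp_perm τ TW.cr TW.cr_involutive.injective

theorem rt_injective (i : Fin d) : Function.Injective (TW.rt i : TW d → TW d) := by
  intro w w' h
  have h1 : TW.rt (-i) (TW.rt i w) = TW.rt (-i) (TW.rt i w') := by rw [h]
  rw [TW.rt_rt, TW.rt_rt, add_neg_cancel, TW.rt_zero, TW.rt_zero] at h1
  exact h1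

/-- invariance under the rotations of the root port -/
theorem envLaw_rotn [IsProbabilityMeasure τ] (i : Fin d) :
    (envLaw d τ).map (rotn i) = envLaw d τ := by
  classical
  have h1 : (rotn i : Conf d (Fin d × T) → Conf d (Fin d × T)) =
      (fun (ξ : Conf d (Fin d × T)) w => ξ (TW.rt i w)) ∘
        (fun (ξ : Conf d (Fin d × T)) w => (if w = TW.nil then rl i else id) (ξ w)) := by
    funext ξ w
    by_cases h : w = TW.nil
    · subst h
      simp only [rotn, if_true, Function.comp, TW.rt_nil]
      exact rs_eq_rl i _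
    · have h2 : TW.rt i w ≠ TW.nil := fun hh => h (TW.rt_eq_nil.1 hh)
      simp only [rotn, h, h2, if_false, Function.comp, id]
  have hm : ∀ w : TW d, Measurable
      ((if w = TW.nil then rl i else id : Fin d × T → Fin d × T)) := by
    intro w
    split_ifs
    · exact measurable_rl i
    · exact measurable_id
  have h2 : (envLaw d τ).map
      (fun (ξ : Conf d (Fin d × T)) w => (if w = TW.nil then rl i else id) (ξ w)) =
        envLaw d τ := by
    have h3 := Measure.infinitePi_map_pi (μ := fun _ : TW d => siteLaw d τ)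
      (f := fun w : TW d => (if w = TW.nil then rl i else id : Fin d × T → Fin d × T)) hm
    rw [envLaw]
    refine h3.trans ?_
    congr 1
    funext w
    split_ifs
    · exact siteLaw_rl τ i
    · exact Measure.map_id
  rw [h1, ← Measure.map_map, h2]
  · exact map_comp_perm τ (TW.rt i) (rt_injective i)
  · exact measurable_pi_lambda _ fun w => measurable_pi_apply _
  · exact measurable_pi_lambda _ fun w => (hm w).comp (measurable_pi_apply w)


/-- the one-site marginals -/
theorem envLaw_eval [IsProbabilityMeasure τ] (w : TW d) :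
    (envLaw d τ).map (fun ξ => ξ w) = siteLaw d τ :=
  Measure.infinitePi_map_eval (fun _ : TW d => siteLaw d τ) w

/-- the coordinates are independent -/
theorem envLaw_iIndep [IsProbabilityMeasure τ] :
    iIndepFun (fun (w : TW d) (ξ : Conf d (Fin d × T)) => ξ w) (envLaw d τ) :=
  iIndepFun_infinitePi (P := fun _ : TW d => siteLaw d τ) (X := fun _ x => x)
    (fun _ => measurable_id)


/-- marginals along an injective family of words -/
theorem envLaw_map_inj [IsProbabilityMeasure τ] {ι : Type*} (f : ι → TW d)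
    (hf : Function.Injective f) :
    (envLaw d τ).map (fun (ξ : Conf d (Fin d × T)) i => ξ (f i)) =
      Measure.infinitePi fun _ : ι => siteLaw d τ :=
  Measure.map_infinitePi_infinitePi_of_inj (P := fun _ : TW d => siteLaw d τ) hf

end

end Crest.Agent.R166.EnvLaw289
end

-- ▼ part R166/LLN_289
section

/-!
Row 166 (helper289), F3/(E1): law of large numbers for local functions of (labels, data) seen from
a uniform half-edge of a uniform port-numbered `d`-regular graph.

Method: `Ports n d` is invariant under conjugation by vertex rotations `rho r`; given `p` the pairs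
`(r v, f v)` are iid over the vertices; the views of half-edges at distance `> 2a` are independent;
at tree-like half-edges the law of the view is exactly `envLaw`.
-/

set_option autoImplicit false

namespace Crest.Agent.R166.LLN289

open MeasureTheory ProbabilityTheory Crest.Agent.R166.Words955 Crest.Agent.R166.EnvLaw289
open Crest.Agent.R166.TreeLike942

noncomputable section

/-! ### Rotations of the ports at the vertices -/

section rot

variable {n d : ℕ} [NeZero d]

/-- rotation of the ports of each vertex `v` by `r v` -/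
def rho (r : Fin n → Fin d) : Equiv.Perm (HE n d) where
  toFun h := (h.1, r h.1 + h.2)
  invFun h := (h.1, -(r h.1) + h.2)
  left_inv h := by simp
  right_inv h := by simp

@[simp] theorem rho_apply (r : Fin n → Fin d) (h : HE n d) : rho r h = (h.1, r h.1 + h.2) := rfl

@[simp] theorem rho_inv_apply (r : Fin n → Fin d) (h : HE n d) :
    (rho r)⁻¹ h = (h.1, -(r h.1) + h.2) := rfl

theorem conjP_rho_apply (r : Fin n → Fin d) (p : Equiv.Perm (HE n d)) (h : HE n d) :
    conjP (rho r) p (rho r h) = rho r (p h) := by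
  rw [conjP_apply]
  congr 2
  exact (rho r).symm_apply_apply h

theorem walk_conj (r : Fin n → Fin d) (p : Equiv.Perm (HE n d)) (w : List (Fin d))
    (h : HE n d) : walk (conjP (rho r) p) w (rho r h) = rho r (walk p w h) := by
  induction w generalizing h with
  | nil => rfl
  | cons i w ih =>
    have h1 : (((rho r h).1, (rho r h).2 + i) : HE n d) = rho r (h.1, h.2 + i) := by
      simp [add_assoc]
    rw [walk, walk, h1, conjP_rho_apply, ih]

theorem isPort_conj {p : Equiv.Perm (HE n d)} (hp : IsPort p) (r : Fin n → Fin d) :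
    IsPort (conjP (rho r) p) where
  inv := conjP_inv_inv _ _ hp.inv
  noloop h := by
    rw [conjP_apply]
    intro h1
    exact hp.noloop ((rho r)⁻¹ h) (by simpa using h1)
  simple v i j h := by
    rw [conjP_apply, conjP_apply] at h
    simp only [rho_apply, rho_inv_apply] at h
    have := hp.simple v _ _ h
    simpa using this

/-- `Ports` is invariant under the rotations -/
theorem sum_Ports_conj {α : Type*} [AddCommMonoid α] (r : Fin n → Fin d)
    (F : Equiv.Perm (HE n d) → α) :
    ∑ p ∈ Ports n d, F (conjP (rho r) p) = ∑ p ∈ Ports n d, F p := by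
  refine Finset.sum_bij' (fun p _ => conjP (rho r) p) (fun p _ => conjP (rho (-r)) p) ?_ ?_ ?_ ?_ ?_
  · intro p hp
    exact mem_Ports.2 (isPort_conj (mem_Ports.1 hp) r)
  · intro p hp
    exact mem_Ports.2 (isPort_conj (mem_Ports.1 hp) (-r))
  · intro p _
    rw [conjP_conjP]
    have : rho (-r) * rho r = 1 := by
      ext1 h
      simp [Equiv.Perm.mul_apply]
    rw [this]
    simp [conjP]
  · intro p _
    rw [conjP_conjP]
    have : rho r * rho (-r) = 1 := by
      ext1 h
      simp [Equiv.Perm.mul_apply]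
    rw [this]
    simp [conjP]
  · intro p _
    rfl

omit [NeZero d] in
/-- walks are injective in the starting half-edge -/
theorem walk_injective (p : Equiv.Perm (HE n d)) (w : List (Fin d)) :
    Function.Injective (walk p w : HE n d → HE n d) := by
  induction w with
  | nil => exact fun _ _ h => h
  | cons i w ih =>
    intro h h' hh
    have h1 := p.injective (ih hh)
    simp only [Prod.mk.injEq, add_left_inj] at h1
    exact Prod.ext h1.1 h1.2

end rot

/-! ### Views -/

section view

variable {n d : ℕ} [NeZero d] {T : Type*}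

/-- the configuration seen from `h`, with data `x v = (rotation, datum)` at the vertices -/
def view (p : Equiv.Perm (HE n d)) (h : HE n d) (x : Fin n → Fin d × T) : Conf d (Fin d × T) :=
  fun w => rl (walk p w.1 h).2 (x (walk p w.1 h).1)

theorem conf_conj (p : Equiv.Perm (HE n d)) (r : Fin n → Fin d) (f : Fin n → T) (h : HE n d) :
    conf (conjP (rho r) p) (lab f) (rho r h) = view p h (fun v => (r v, f v)) := by
  funext w
  simp only [conf, walk_conj]
  simp only [view, lab, rho_apply, rl]
  rw [add_comm]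

/-- `g` depends only on the words of length `≤ a` -/
def Loc (a : ℕ) (g : Conf d (Fin d × T) → ℝ) : Prop :=
  ∀ ξ ξ' : Conf d (Fin d × T), (∀ w : TW d, w.len ≤ a → ξ w = ξ' w) → g ξ = g ξ'

/-- the sum over half-edges in the rotated graph -/
theorem sum_conf_conj (p : Equiv.Perm (HE n d)) (r : Fin n → Fin d) (f : Fin n → T)
    (g : Conf d (Fin d × T) → ℝ) :
    ∑ h, g (conf (conjP (rho r) p) (lab f) h) = ∑ h, g (view p h (fun v => (r v, f v))) := by
  rw [← Equiv.sum_comp (rho r) (fun h => g (conf (conjP (rho r) p) (lab f) h))]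
  simp only [conf_conj]

/-- words of length `≤ a` -/
abbrev BW (d : ℕ) [NeZero d] (a : ℕ) : Type := {w : TW d // w ∈ TW.ball d a}

/-- extension of a configuration on the ball -/
def ext (a : ℕ) (y : BW d a → Fin d × T) : Conf d (Fin d × T) := fun w =>
  if hw : w ∈ TW.ball d a then y ⟨w, hw⟩
  else y ⟨TW.nil, by simp [TW.len, TW.nil]⟩

theorem Loc.ext {a : ℕ} {g : Conf d (Fin d × T) → ℝ} (hg : Loc a g) (ξ : Conf d (Fin d × T)) :
    g (ext a (fun b => ξ b.1)) = g ξ := by
  apply hg
  intro w hw
  have : w ∈ TW.ball d a := TW.mem_ball.2 hw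
  simp [LLN289.ext, this]

variable [MeasurableSpace T]

theorem measurable_ext (a : ℕ) :
    Measurable (ext a : (BW d a → Fin d × T) → Conf d (Fin d × T)) := by
  refine measurable_pi_lambda _ fun _w => ?_
  unfold ext
  split_ifs
  · exact measurable_pi_apply _
  · exact measurable_pi_apply _

theorem measurable_view (p : Equiv.Perm (HE n d)) (h : HE n d) :
    Measurable (view p h : (Fin n → Fin d × T) → Conf d (Fin d × T)) :=
  measurable_pi_lambda _ fun _w => (measurable_rl _).comp (measurable_pi_apply _)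

/-- the iid law on the vertices -/
def vLaw (n d : ℕ) (τ : Measure T) : Measure (Fin n → Fin d × T) :=
  Measure.pi fun _ => siteLaw d τ

instance (τ : Measure T) [IsProbabilityMeasure τ] : IsProbabilityMeasure (vLaw n d τ) := by
  unfold vLaw; infer_instance

/-- **exact law of the view at a tree-like half-edge** -/
theorem integral_view (τ : Measure T) [IsProbabilityMeasure τ] (p : Equiv.Perm (HE n d))
    (h : HE n d) (a : ℕ)
    (hinj : Set.InjOn (fun w : TW d => (walk p w.1 h).1) {w | w.len ≤ a})
    {g : Conf d (Fin d × T) → ℝ} (hg : Measurable g) (hloc : Loc a g) :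
    ∫ x, g (view p h x) ∂(vLaw n d τ) = ∫ ξ, g ξ ∂(envLaw d τ) := by
  classical
  -- the law of the restricted view
  have hv : Function.Injective (fun b : BW d a => (walk p b.1.1 h).1) := by
    intro b b' hb
    exact Subtype.ext (hinj (TW.mem_ball.1 b.2) (TW.mem_ball.1 b'.2) hb)
  have h1 : (vLaw n d τ).map (fun x (b : BW d a) => view p h x b.1) =
      Measure.infinitePi fun _ : BW d a => siteLaw d τ := by
    have e1 : (fun (x : Fin n → Fin d × T) (b : BW d a) => view p h x b.1) =
        (fun (y : BW d a → Fin d × T) b => rl (walk p b.1.1 h).2 (y b)) ∘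
          (fun x (b : BW d a) => x (walk p b.1.1 h).1) := rfl
    rw [e1, ← Measure.map_map, vLaw, ← Measure.infinitePi_eq_pi,
      Measure.map_infinitePi_infinitePi_of_inj (P := fun _ : Fin n => siteLaw d τ) hv,
      Measure.infinitePi_map_pi (μ := fun _ : BW d a => siteLaw d τ)
        (f := fun b : BW d a => rl (walk p b.1.1 h).2) (fun b => measurable_rl _)]
    · congr 1
      funext b
      exact siteLaw_rl τ _
    · exact measurable_pi_lambda _ fun b => (measurable_rl _).comp (measurable_pi_apply _)
    · exact measurable_pi_lambda _ fun b => measurable_pi_apply _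
  have h2 : (envLaw d τ).map (fun (ξ : Conf d (Fin d × T)) (b : BW d a) => ξ b.1) =
      Measure.infinitePi fun _ : BW d a => siteLaw d τ :=
    envLaw_map_inj τ (fun b : BW d a => b.1) Subtype.val_injective
  have hge : AEStronglyMeasurable (fun y : BW d a → Fin d × T => g (ext a y))
      (Measure.infinitePi fun _ : BW d a => siteLaw d τ) :=
    (hg.comp (measurable_ext a)).aestronglyMeasurable
  have hm1 : Measurable (fun (x : Fin n → Fin d × T) (b : BW d a) => view p h x b.1) :=
    measurable_pi_lambda _ fun b => (measurable_pi_apply _).comp (measurable_view p h)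
  have hm2 : Measurable (fun (ξ : Conf d (Fin d × T)) (b : BW d a) => ξ b.1) :=
    measurable_pi_lambda _ fun b => measurable_pi_apply _
  calc ∫ x, g (view p h x) ∂(vLaw n d τ)
      = ∫ x, g (ext a (fun b => view p h x b.1)) ∂(vLaw n d τ) := by
        simp only [hloc.ext]
    _ = ∫ y, g (ext a y) ∂((vLaw n d τ).map (fun x (b : BW d a) => view p h x b.1)) := by
        rw [integral_map hm1.aemeasurable]
        rw [h1]; exact hge
    _ = ∫ y, g (ext a y) ∂((envLaw d τ).map
          (fun (ξ : Conf d (Fin d × T)) (b : BW d a) => ξ b.1)) := by rw [h1, h2]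
    _ = ∫ ξ, g (ext a (fun b => ξ b.1)) ∂(envLaw d τ) := by
        rw [integral_map hm2.aemeasurable]
        rw [h2]; exact hge
    _ = ∫ ξ, g ξ ∂(envLaw d τ) := by simp only [hloc.ext]

/-- vertices of the ball of radius `a` seen from `h` -/
def vtx (p : Equiv.Perm (HE n d)) (a : ℕ) (h : HE n d) : Finset (Fin n) :=
  (TW.ball d a).image fun w => (walk p w.1 h).1

/-- **views of half-edges with disjoint balls are independent** -/
theorem indep_view (τ : Measure T) [IsProbabilityMeasure τ] (p : Equiv.Perm (HE n d))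
    (h h' : HE n d) (a : ℕ) (hd : Disjoint (vtx p a h) (vtx p a h'))
    {g : Conf d (Fin d × T) → ℝ} (hg : Measurable g) (hloc : Loc a g) :
    IndepFun (fun x => g (view p h x)) (fun x => g (view p h' x)) (vLaw n d τ) := by
  classical
  have hi : iIndepFun (fun (v : Fin n) (x : Fin n → Fin d × T) => x v) (vLaw n d τ) :=
    iIndepFun_pi (X := fun _ x => x) (fun _ => aemeasurable_id)
  have hi2 := hi.indepFun_finset (vtx p a h) (vtx p a h') hd (fun v => measurable_pi_apply v)
  have hmem : ∀ (k : HE n d) (b : BW d a), (walk p b.1.1 k).1 ∈ vtx p a k := fun k b =>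
    Finset.mem_image.2 ⟨b.1, b.2, rfl⟩
  let φ : ∀ k : HE n d, (vtx p a k → Fin d × T) → ℝ := fun k y =>
    g (ext a (fun b => rl (walk p b.1.1 k).2 (y ⟨(walk p b.1.1 k).1, hmem k b⟩)))
  have hφ : ∀ k, Measurable (φ k) := by
    intro k
    refine hg.comp ((measurable_ext a).comp ?_)
    exact measurable_pi_lambda _ fun b => (measurable_rl _).comp (measurable_pi_apply _)
  have h3 := hi2.comp (hφ h) (hφ h')
  have e : ∀ k : HE n d, (φ k ∘ fun (x : Fin n → Fin d × T) (i : vtx p a k) => x i) =
      fun x => g (view p k x) := by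
    intro k
    funext x
    exact hloc.ext (view p k x)
  rw [e h, e h'] at h3
  exact h3

/-- number of half-edges whose ball meets the ball of a given half-edge -/
theorem card_meet (p : Equiv.Perm (HE n d)) (a : ℕ) (h : HE n d) :
    (Finset.univ.filter fun h' => ¬ Disjoint (vtx p a h) (vtx p a h')).card ≤
      (TW.ball d a).card * (TW.ball d a).card * d := by
  classical
  have hsub : (Finset.univ.filter fun h' => ¬ Disjoint (vtx p a h) (vtx p a h')) ⊆
      ((TW.ball d a) ×ˢ ((TW.ball d a) ×ˢ (Finset.univ : Finset (Fin d)))).biUnion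
        (fun t => Finset.univ.filter fun h' : HE n d =>
          walk p t.2.1.1 h' = ((walk p t.1.1 h).1, t.2.2)) := by
    intro h' hh'
    rw [Finset.mem_filter, Finset.not_disjoint_iff] at hh'
    obtain ⟨_, v, hv, hv'⟩ := hh'
    obtain ⟨w, hw, hwv⟩ := Finset.mem_image.1 hv
    obtain ⟨w', hw', hwv'⟩ := Finset.mem_image.1 hv'
    refine Finset.mem_biUnion.2 ⟨(w, w', (walk p w'.1 h').2), ?_, ?_⟩
    · simp [Finset.mem_product] at hw hw' ⊢
      exact ⟨hw, hw'⟩
    · refine Finset.mem_filter.2 ⟨Finset.mem_univ _, ?_⟩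
      refine Prod.ext ?_ rfl
      simp only
      rw [hwv, hwv']
  refine (Finset.card_le_card hsub).trans ?_
  refine (Finset.card_biUnion_le_card_mul _ _ 1 ?_).trans ?_
  · intro t _
    refine Finset.card_le_one.2 ?_
    intro x hx y hy
    have h1 := (Finset.mem_filter.1 hx).2
    have h2 := (Finset.mem_filter.1 hy).2
    exact walk_injective p t.2.1.1 (h1.trans h2.symm)
  · rw [mul_one, Finset.card_product, Finset.card_product, Finset.card_univ, Fintype.card_fin,
      mul_assoc]

/-- constant of the variance bound -/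
def CB (d : ℕ) [NeZero d] (a : ℕ) : ℕ := (TW.ball d a).card * (TW.ball d a).card * d

theorem memLp_view (τ : Measure T) [IsProbabilityMeasure τ] (p : Equiv.Perm (HE n d))
    (h : HE n d) {g : Conf d (Fin d × T) → ℝ} (hg : Measurable g) (hb : ∀ ξ, |g ξ| ≤ 1) :
    MemLp (fun x => g (view p h x)) 2 (vLaw n d τ) := by
  refine MemLp.of_bound (hg.comp (measurable_view p h)).aestronglyMeasurable 1 ?_
  exact Filter.Eventually.of_forall fun x => by rw [Real.norm_eq_abs]; exact hb _

/-- covariance of two bounded functions -/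
theorem abs_cov_le {Ω : Type*} [MeasurableSpace Ω] (μ : Measure Ω) [IsProbabilityMeasure μ]
    {X Y : Ω → ℝ} (hX : ∀ x, |X x| ≤ 1) (hY : ∀ x, |Y x| ≤ 1) : cov[X, Y; μ] ≤ 4 := by
  have hmX : |μ[X]| ≤ 1 := by
    have := norm_integral_le_of_norm_le_const (μ := μ) (f := X) (C := 1)
      (Filter.Eventually.of_forall fun x => by rw [Real.norm_eq_abs]; exact hX x)
    simpa using this
  have hmY : |μ[Y]| ≤ 1 := by
    have := norm_integral_le_of_norm_le_const (μ := μ) (f := Y) (C := 1)
      (Filter.Eventually.of_forall fun x => by rw [Real.norm_eq_abs]; exact hY x)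
    simpa using this
  have h1 : |cov[X, Y; μ]| ≤ 4 := by
    rw [covariance]
    have := norm_integral_le_of_norm_le_const (μ := μ)
      (f := fun x => (X x - μ[X]) * (Y x - μ[Y])) (C := 4)
      (Filter.Eventually.of_forall fun x => by
        rw [Real.norm_eq_abs, abs_mul]
        have h2 : |X x - μ[X]| ≤ 2 := by
          have := abs_sub (X x) (μ[X])
          have := hX x
          linarith
        have h3 : |Y x - μ[Y]| ≤ 2 := by
          have := abs_sub (Y x) (μ[Y])
          have := hY x
          linarith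
        calc |X x - μ[X]| * |Y x - μ[Y]| ≤ 2 * 2 :=
              mul_le_mul h2 h3 (abs_nonneg _) (by norm_num)
          _ = 4 := by norm_num)
    simpa using this
  exact (le_abs_self _).trans h1

/-- **variance bound** -/
theorem var_sum_view (τ : Measure T) [IsProbabilityMeasure τ] (p : Equiv.Perm (HE n d))
    (a : ℕ) {g : Conf d (Fin d × T) → ℝ} (hg : Measurable g) (hb : ∀ ξ, |g ξ| ≤ 1)
    (hloc : Loc a g) :
    Var[fun x => ∑ h, g (view p h x); vLaw n d τ] ≤ 4 * CB d a * (n * d) := by
  classical
  rw [variance_fun_sum (fun h => memLp_view τ p h hg hb)]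
  calc ∑ h, ∑ h', cov[fun x => g (view p h x), fun x => g (view p h' x); vLaw n d τ]
      ≤ ∑ h : HE n d, ∑ h' : HE n d,
          (if ¬ Disjoint (vtx p a h) (vtx p a h') then (4 : ℝ) else 0) := by
        refine Finset.sum_le_sum fun h _ => Finset.sum_le_sum fun h' _ => ?_
        by_cases hd : Disjoint (vtx p a h) (vtx p a h')
        · rw [if_neg (not_not.2 hd),
            (indep_view τ p h h' a hd hg hloc).covariance_eq_zero (memLp_view τ p h hg hb)
            (memLp_view τ p h' hg hb)]
        · rw [if_pos hd]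
          exact abs_cov_le (vLaw n d τ) (fun x => hb _) (fun x => hb _)
    _ ≤ ∑ _h : HE n d, (4 * CB d a : ℝ) := by
        refine Finset.sum_le_sum fun h _ => ?_
        rw [← Finset.sum_filter, Finset.sum_const, nsmul_eq_mul, mul_comm]
        have := card_meet p a h
        have h2 : (((Finset.univ.filter fun h' => ¬ Disjoint (vtx p a h) (vtx p a h')).card : ℕ) : ℝ)
          ≤ CB d a := by exact_mod_cast this
        linarith
    _ = 4 * CB d a * (n * d) := by
        rw [Finset.sum_const, Finset.card_univ, IsPort.card_HE, nsmul_eq_mul]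
        push_cast
        ring

/-- half-edges whose word map is not injective on the ball of radius `a` -/
def badH (p : Equiv.Perm (HE n d)) (a : ℕ) : Finset (HE n d) := by
  classical exact Finset.univ.filter fun h =>
    ¬ Set.InjOn (fun w : TW d => (walk p w.1 h).1) {w | w.len ≤ a}

theorem abs_integral_le_one {Ω : Type*} [MeasurableSpace Ω] (μ : Measure Ω)
    [IsProbabilityMeasure μ] {X : Ω → ℝ} (hX : ∀ x, |X x| ≤ 1) : |∫ x, X x ∂μ| ≤ 1 := by
  have := norm_integral_le_of_norm_le_const (μ := μ) (f := X) (C := 1)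
    (Filter.Eventually.of_forall fun x => by rw [Real.norm_eq_abs]; exact hX x)
  simpa using this

/-- the mean of the average -/
theorem mean_sum_view (τ : Measure T) [IsProbabilityMeasure τ] (p : Equiv.Perm (HE n d))
    (a : ℕ) {g : Conf d (Fin d × T) → ℝ} (hg : Measurable g) (hb : ∀ ξ, |g ξ| ≤ 1)
    (hloc : Loc a g) :
    |(∫ x, ∑ h, g (view p h x) ∂(vLaw n d τ)) - (n * d) * ∫ ξ, g ξ ∂(envLaw d τ)| ≤
      2 * (badH p a).card := by
  classical
  have hint : ∀ h : HE n d, Integrable (fun x => g (view p h x)) (vLaw n d τ) := fun h =>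
    (memLp_view τ p h hg hb).integrable (by norm_num)
  rw [integral_finsetSum _ (fun h _ => hint h)]
  have e : ((n : ℝ) * d) * ∫ ξ, g ξ ∂(envLaw d τ) =
      ∑ _h : HE n d, ∫ ξ, g ξ ∂(envLaw d τ) := by
    rw [Finset.sum_const, Finset.card_univ, IsPort.card_HE, nsmul_eq_mul]
    push_cast
    ring
  rw [e, ← Finset.sum_sub_distrib]
  refine (Finset.abs_sum_le_sum_abs _ _).trans ?_
  calc ∑ h : HE n d, |(∫ x, g (view p h x) ∂(vLaw n d τ)) - ∫ ξ, g ξ ∂(envLaw d τ)|
      ≤ ∑ h : HE n d, (if h ∈ badH p a then (2 : ℝ) else 0) := by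
        refine Finset.sum_le_sum fun h _ => ?_
        split_ifs with hbad
        · have h1 := abs_integral_le_one (vLaw n d τ) (X := fun x => g (view p h x))
            (fun x => hb _)
          have h2 := abs_integral_le_one (envLaw d τ) (X := g) hb
          have h3 := abs_sub (∫ x, g (view p h x) ∂(vLaw n d τ)) (∫ ξ, g ξ ∂(envLaw d τ))
          linarith
        · have hinj : Set.InjOn (fun w : TW d => (walk p w.1 h).1) {w | w.len ≤ a} := by
            by_contra hcon
            exact hbad (by simp [badH, hcon])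
          rw [integral_view τ p h a hinj hg hloc, sub_self, abs_zero]
    _ = 2 * (badH p a).card := by
        rw [← Finset.sum_filter, Finset.sum_const, nsmul_eq_mul, mul_comm]
        congr 3
        ext h
        simp

/-- **quenched law of large numbers** (given `p`, over the rotations and the data) -/
theorem quenched (τ : Measure T) [IsProbabilityMeasure τ] (hn : 0 < n)
    (p : Equiv.Perm (HE n d)) (a : ℕ) {g : Conf d (Fin d × T) → ℝ} (hg : Measurable g)
    (hb : ∀ ξ, |g ξ| ≤ 1) (hloc : Loc a g) {ε : ℝ} (hε : 0 < ε)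
    (hbad : ((badH p a).card : ℝ) ≤ ε / 4 * (n * d)) :
    vLaw n d τ {x | ε < |(∑ h, g (view p h x)) / (n * d) - ∫ ξ, g ξ ∂(envLaw d τ)|} ≤
      ENNReal.ofReal (16 * CB d a / (ε ^ 2 * (n * d))) := by
  classical
  have hd0 : 0 < d := Nat.pos_of_ne_zero (NeZero.ne d)
  have hN : (0 : ℝ) < n * d := by positivity
  set S : (Fin n → Fin d × T) → ℝ := fun x => ∑ h, g (view p h x) with hS
  have hSm : MemLp S 2 (vLaw n d τ) := by
    have := memLp_finsetSum (μ := vLaw n d τ) (p := 2) (Finset.univ : Finset (HE n d))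
      (f := fun h x => g (view p h x)) (fun h _ => memLp_view τ p h hg hb)
    exact this
  have hc : 0 < ε / 2 * (n * d) := by positivity
  have h1 := meas_ge_le_variance_div_sq hSm hc
  have hsub : {x | ε < |S x / (n * d) - ∫ ξ, g ξ ∂(envLaw d τ)|} ⊆
      {x | ε / 2 * (n * d) ≤ |S x - (vLaw n d τ)[S]|} := by
    intro x hx
    simp only [Set.mem_ofPred_eq] at hx ⊢
    have h2 := mean_sum_view τ p a hg hb hloc
    set m := ∫ ξ, g ξ ∂(envLaw d τ) with hm
    have h3 : |S x - (n * d) * m| = |S x / (n * d) - m| * (n * d) := by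
      rw [← abs_of_pos hN, ← abs_mul, abs_of_pos hN]
      congr 1
      field_simp
    have h4 : ε * (n * d) < |S x - (n * d) * m| := by
      rw [h3]
      exact mul_lt_mul_of_pos_right hx hN
    have h5 : |S x - (n * d) * m| ≤ |S x - (vLaw n d τ)[S]| + |(vLaw n d τ)[S] - (n * d) * m| :=
      abs_sub_le _ _ _
    have h6 : |(vLaw n d τ)[S] - (n * d) * m| ≤ ε / 2 * (n * d) := by
      refine h2.trans ?_
      calc 2 * ((badH p a).card : ℝ) ≤ 2 * (ε / 4 * (n * d)) := by linarith
        _ = ε / 2 * (n * d) := by ring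
    linarith
  refine (measure_mono hsub).trans (h1.trans (ENNReal.ofReal_le_ofReal ?_))
  rw [div_le_div_iff₀ (by positivity) (by positivity)]
  have h7 := var_sum_view τ p a hg hb hloc
  calc Var[S; vLaw n d τ] * (ε ^ 2 * (n * d)) ≤ (4 * CB d a * (n * d)) * (ε ^ 2 * (n * d)) := by
        gcongr
    _ = 16 * CB d a * (ε / 2 * (n * d)) ^ 2 := by ring

end view

/-! ### The law of large numbers over `Ports × data` -/

section main

variable {d : ℕ} [NeZero d] {T : Type*} [MeasurableSpace T]

/-- averaging over the rotations -/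
theorem sum_Ports_rot {n : ℕ} (τ : Measure T) [IsProbabilityMeasure τ]
    {g : Conf d (Fin d × T) → ℝ} (hg : Measurable g) (B : Set ℝ) (hB : MeasurableSet B) :
    ∑ p ∈ Ports n d, (Measure.pi fun _ : Fin n => τ) {f | (∑ h, g (conf p (lab f) h)) ∈ B} =
      ∑ p ∈ Ports n d, vLaw n d τ {x | (∑ h, g (view p h x)) ∈ B} := by
  classical
  have hmeas : ∀ p : Equiv.Perm (HE n d), MeasurableSet
      {x : Fin n → Fin d × T | (∑ h, g (view p h x)) ∈ B} := by
    intro p
    have : Measurable (fun x : Fin n → Fin d × T => ∑ h, g (view p h x)) :=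
      Finset.measurable_sum _ fun h _ => hg.comp (measurable_view p h)
    exact this hB
  -- the law `vLaw` as a product
  have hlaw : ∀ p : Equiv.Perm (HE n d), vLaw n d τ {x | (∑ h, g (view p h x)) ∈ B} =
      ∫⁻ r, (Measure.pi fun _ : Fin n => τ)
        {f | (∑ h, g (view p h (fun v => (r v, f v)))) ∈ B} ∂(Measure.pi fun _ : Fin n => uFin d) := by
    intro p
    have hmp := measurePreserving_arrowProdEquivProdArrow (Fin d) T (Fin n)
      (fun _ => uFin d) (fun _ => τ)
    have h1 := hmp.symm.measure_preimage (hmeas p).nullMeasurableSet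
    have e1 : vLaw n d τ = Measure.pi fun _ : Fin n => (uFin d).prod τ := rfl
    rw [e1, ← h1, Measure.prod_apply]
    · rfl
    · exact (MeasurableEquiv.measurable _) (hmeas p)
  have hr : ∀ r : Fin n → Fin d,
      ∑ p ∈ Ports n d, (Measure.pi fun _ : Fin n => τ)
        {f | (∑ h, g (view p h (fun v => (r v, f v)))) ∈ B} =
      ∑ p ∈ Ports n d, (Measure.pi fun _ : Fin n => τ) {f | (∑ h, g (conf p (lab f) h)) ∈ B} := by
    intro r
    rw [← sum_Ports_conj r (fun p => (Measure.pi fun _ : Fin n => τ)
      {f | (∑ h, g (conf p (lab f) h)) ∈ B})]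
    refine Finset.sum_congr rfl fun p _ => ?_
    congr 1
    ext f
    simp only [Set.mem_ofPred_eq]
    rw [sum_conf_conj]
  simp only [hlaw]
  rw [← lintegral_finsetSum' _ (fun p _ => (measurable_of_finite _).aemeasurable)]
  simp only [hr]
  rw [lintegral_const, measure_univ, mul_one]

theorem card_badH_le {n : ℕ} (p : Equiv.Perm (HE n d)) (a : ℕ) :
    (badH p a).card ≤ Nat.card {v : Fin n // ¬ TreeAt Prod.fst p a v} * d := by
  classical
  refine le_trans (le_of_eq ?_) (card_bad_half_le p a)
  rw [Nat.subtype_card (badH p a)]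
  intro h
  simp [badH]

/-- **law of large numbers for local functions of (labels, data)**, uniform over all local
functions of radius `a` bounded by `1` and all laws of the data -/
theorem lln (d a : ℕ) [NeZero d] {ε δ : ℝ} (hε : 0 < ε) (hδ : 0 < δ) :
    ∃ N : ℕ, ∀ n ≥ N, ∀ (T : Type*) [MeasurableSpace T] (τ : Measure T)
      [IsProbabilityMeasure τ] (g : Conf d (Fin d × T) → ℝ), Measurable g → (∀ ξ, |g ξ| ≤ 1) →
      Loc a g →
      ∑ p ∈ Ports n d, (Measure.pi fun _ : Fin n => τ)
        {f | ε < |(∑ h, g (conf p (lab f) h)) / (n * d) - ∫ ξ, g ξ ∂(envLaw d τ)|} ≤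
          ENNReal.ofReal δ * ((Ports n d).card : ENNReal) := by
  classical
  have hd0 : 0 < d := Nat.pos_of_ne_zero (NeZero.ne d)
  have hd0' : (0 : ℝ) < d := by exact_mod_cast hd0
  obtain ⟨N1, h1⟩ := tree_whp_Ports d a hd0 (ε / 4) (δ / 2) (by positivity) (by positivity)
  obtain ⟨N2, h2⟩ := exists_nat_gt (16 * CB d a / (ε ^ 2 * d) / (δ / 2))
  refine ⟨max (max N1 N2) 1, fun n hn T _ τ _ g hg hb hloc => ?_⟩
  have hn1 : N1 ≤ n := (le_max_left _ _).trans ((le_max_left _ _).trans hn)
  have hn2 : N2 ≤ n := (le_max_right _ _).trans ((le_max_left _ _).trans hn)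
  have hn3 : 1 ≤ n := (le_max_right _ _).trans hn
  have hn0 : (0 : ℝ) < n := by exact_mod_cast hn3
  set m := ∫ ξ, g ξ ∂(envLaw d τ) with hm
  have hB : MeasurableSet {y : ℝ | ε < |y / (n * d) - m|} :=
    measurableSet_lt measurable_const (((measurable_id.div_const _).sub_const _).norm)
  have h3 := sum_Ports_rot (n := n) τ hg {y : ℝ | ε < |y / (n * d) - m|} hB
  simp only [Set.mem_ofPred_eq] at h3
  rw [h3]
  -- bad port numberings
  set Pb := (Ports n d).filter fun p => ε / 4 * (n * d) < ((badH p a).card : ℝ) with hPb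
  have h4 : (Pb.card : ℝ) ≤ δ / 2 * ((Ports n d).card : ℝ) := by
    refine h1 n hn1 Pb (Finset.filter_subset _ _) fun p hp => ?_
    have h5 := (Finset.mem_filter.1 hp).2
    have h6 : ((badH p a).card : ℝ) ≤
        (Nat.card {v : Fin n // ¬ TreeAt Prod.fst p a v} : ℝ) * d := by
      exact_mod_cast card_badH_le p a
    have h7 : ε / 4 * n * d ≤ (Nat.card {v : Fin n // ¬ TreeAt Prod.fst p a v} : ℝ) * d := by
      calc ε / 4 * n * d = ε / 4 * (n * d) := by ring
        _ ≤ _ := h5.le.trans h6
    exact le_of_mul_le_mul_right h7 hd0'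
  have h8 : ENNReal.ofReal (16 * CB d a / (ε ^ 2 * (n * d))) ≤ ENNReal.ofReal (δ / 2) := by
    apply ENNReal.ofReal_le_ofReal
    have h9 : 16 * CB d a / (ε ^ 2 * d) / (δ / 2) < n :=
      h2.trans_le (by exact_mod_cast hn2)
    rw [div_lt_iff₀ (by positivity)] at h9
    rw [div_le_iff₀ (by positivity)]
    rw [div_lt_iff₀ (by positivity)] at h9
    nlinarith
  have hle : ∀ p ∈ Ports n d, vLaw n d τ {x | ε < |(∑ h, g (view p h x)) / (n * d) - m|} ≤
      (if p ∈ Pb then 1 else 0) + ENNReal.ofReal (δ / 2) := by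
    intro p hp
    split_ifs with hpb
    · exact prob_le_one.trans le_self_add
    · rw [zero_add]
      refine (quenched τ hn3 p a hg hb hloc hε ?_).trans h8
      by_contra hcon
      exact hpb (Finset.mem_filter.2 ⟨hp, not_le.1 hcon⟩)
  refine (Finset.sum_le_sum hle).trans ?_
  rw [Finset.sum_add_distrib, Finset.sum_const, nsmul_eq_mul, ← Finset.sum_filter,
    Finset.sum_const, nsmul_eq_mul, mul_one]
  have h10 : ((Ports n d).filter fun p => p ∈ Pb) = Pb := by
    ext p
    simp [hPb]
  rw [h10]
  have h11 : (Pb.card : ENNReal) ≤ ENNReal.ofReal (δ / 2) * ((Ports n d).card : ENNReal) := by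
    rw [← ENNReal.ofReal_natCast, ← ENNReal.ofReal_natCast,
      ← ENNReal.ofReal_mul (by positivity)]
    exact ENNReal.ofReal_le_ofReal h4
  calc (Pb.card : ENNReal) + ((Ports n d).card : ENNReal) * ENNReal.ofReal (δ / 2)
      ≤ ENNReal.ofReal (δ / 2) * ((Ports n d).card : ENNReal) +
        ((Ports n d).card : ENNReal) * ENNReal.ofReal (δ / 2) := by gcongr
    _ = (ENNReal.ofReal (δ / 2) + ENNReal.ofReal (δ / 2)) * ((Ports n d).card : ENNReal) := by ring
    _ = ENNReal.ofReal δ * ((Ports n d).card : ENNReal) := by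
        rw [← ENNReal.ofReal_add (by positivity) (by positivity), add_halves]

/-- the same for the normalised law of the port numberings -/
theorem lln' (d a : ℕ) [NeZero d] {ε δ : ℝ} (hε : 0 < ε) (hδ : 0 < δ) :
    ∃ N : ℕ, ∀ n ≥ N, ∀ (T : Type*) [MeasurableSpace T] (τ : Measure T)
      [IsProbabilityMeasure τ] (g : Conf d (Fin d × T) → ℝ), Measurable g → (∀ ξ, |g ξ| ≤ 1) →
      Loc a g →
      ((Ports n d).card : ENNReal)⁻¹ * ∑ p ∈ Ports n d, (Measure.pi fun _ : Fin n => τ)
        {f | ε < |(∑ h, g (conf p (lab f) h)) / (n * d) - ∫ ξ, g ξ ∂(envLaw d τ)|} ≤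
          ENNReal.ofReal δ := by
  obtain ⟨N, hN⟩ := lln d a hε hδ
  refine ⟨N, fun n hn T _ τ _ g hg hb hloc => ?_⟩
  have h1 := hN n hn T τ g hg hb hloc
  rcases Nat.eq_zero_or_pos (Ports n d).card with h0 | h0
  · rw [Finset.card_eq_zero.1 h0]
    simp
  · have h2 : ((Ports n d).card : ENNReal) ≠ 0 := by exact_mod_cast h0.ne'
    have h3 : ((Ports n d).card : ENNReal) ≠ ⊤ := ENNReal.natCast_ne_top _
    calc _ ≤ ((Ports n d).card : ENNReal)⁻¹ *
          (ENNReal.ofReal δ * ((Ports n d).card : ENNReal)) := by gcongr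
      _ = ENNReal.ofReal δ := by
          rw [mul_comm (ENNReal.ofReal δ), ← mul_assoc, ENNReal.inv_mul_cancel h2 h3, one_mul]

end main

end

end Crest.Agent.R166.LLN289
end

-- ▼ part R166/Erg_424
section

/-!
# R166 / Erg_424 (helper424)

Field `erg` of `LimProc` (Spec_B2_385): ergodicity of the product environment on the port-numbered
tree under the group generated by the rotation around the base vertex and the rotation around the
other end of the root edge.
-/

set_option autoImplicit false

open MeasureTheory ProbabilityTheory Filter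
open scoped ENNReal Topology

namespace Crest.Agent.R166.Erg424

open Crest.Agent.R166.Words955

/-! ### abstract zero-one law -/

section abstract

variable {Ω ι : Type*} [mΩ : MeasurableSpace Ω] {P : Measure Ω}

/-- A bounded function measurable with respect to an independent family of σ-algebras, invariant
(a.e.) under measure preserving maps which move larger and larger blocks off themselves, is a.e.
constant. -/
theorem const_of_move [IsProbabilityMeasure P] {m : ι → MeasurableSpace Ω} (hle : ∀ i, m i ≤ mΩ)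
    (hind : iIndep m P) (B C : ℕ → Set ι) (hmono : Monotone B) (hB : ∀ i, ∃ n, i ∈ B n)
    (hdis : ∀ n, Disjoint (B n) (C n)) (γ : ℕ → Ω → Ω)
    (hγ : ∀ n, MeasurePreserving (γ n) P P)
    (hγm : ∀ n, Measurable[⨆ i ∈ C n, m i, ⨆ i ∈ B n, m i] (γ n))
    (f : Ω → ℝ) (hf : Measurable[⨆ i, m i] f) (A : ℝ) (hA : ∀ x, |f x| ≤ A)
    (hinv : ∀ n, f ∘ γ n =ᵐ[P] f) : ∃ c : ℝ, f =ᵐ[P] fun _ => c := by
  have hA0 : 0 ≤ A := by
    obtain ⟨x⟩ : Nonempty Ω := by
      by_contra hne
      rw [not_nonempty_iff] at hne
      have h1 : P Set.univ = 1 := measure_univ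
      rw [Set.eq_empty_of_isEmpty (Set.univ : Set Ω), measure_empty] at h1
      exact zero_ne_one h1
    exact (abs_nonneg _).trans (hA x)
  -- filtration
  let 𝓕 : Filtration ℕ mΩ :=
    { seq := fun n => ⨆ i ∈ B n, m i
      mono' := fun a b hab => by
        refine iSup₂_le fun i hi => ?_
        exact le_iSup₂_of_le i (hmono hab hi) le_rfl
      le' := fun n => iSup₂_le fun i _ => hle i }
  have hsup : ⨆ n, 𝓕 n = ⨆ i, m i := by
    apply le_antisymm
    · exact iSup_le fun n => iSup₂_le fun i _ => le_iSup m i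
    · refine iSup_le fun i => ?_
      obtain ⟨n, hn⟩ := hB i
      exact le_iSup_of_le n (le_iSup₂_of_le i hn le_rfl)
  have htot : (⨆ i, m i) ≤ mΩ := iSup_le hle
  have hfm : Measurable f := hf.mono htot le_rfl
  have hfi : Integrable f P :=
    Integrable.of_bound hfm.aestronglyMeasurable A
      (Eventually.of_forall fun x => by rw [Real.norm_eq_abs]; exact hA x)
  have hfs : StronglyMeasurable[⨆ n, 𝓕 n] f := by
    rw [hsup]; exact hf.stronglyMeasurable
  have hlim := hfi.tendsto_eLpNorm_condExp hfs
  set c : ℝ := ∫ x, f x ∂P with hc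
  -- bound at level n
  have key : ∀ n, |∫ x, f x * f x ∂P - c * c| ≤
      2 * A * (eLpNorm (P[f | 𝓕 n] - f) 1 P).toReal := by
    intro n
    set g : Ω → ℝ := P[f | 𝓕 n] with hg
    have hgs : StronglyMeasurable[𝓕 n] g := stronglyMeasurable_condExp
    have hgm : Measurable g := (hgs.measurable).mono (𝓕.le n) le_rfl
    have hgi : Integrable g P := integrable_condExp
    have hgA : ∀ᵐ x ∂P, |g x| ≤ A := by
      exact ae_bdd_abs_condExp_of_ae_bdd_abs (Eventually.of_forall fun x => hA x)
    have hgint : ∫ x, g x ∂P = c := integral_condExp (𝓕.le n)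
    have hγn := hγ n
    -- independence of g and g ∘ γ
    have hindep : IndepFun g (g ∘ γ n) P := by
      have h1 : Indep (⨆ i ∈ B n, m i) (⨆ i ∈ C n, m i) P :=
        indep_iSup_of_disjoint hle hind (hdis n)
      rw [IndepFun_iff_Indep]
      refine indep_of_indep_of_le_left (indep_of_indep_of_le_right h1 ?_) ?_
      · have h2 : Measurable[⨆ i ∈ C n, m i] (g ∘ γ n) := by
          have h3 : Measurable[⨆ i ∈ B n, m i] g := hgs.measurable
          exact h3.comp (hγm n)
        exact h2.comap_le
      · exact hgs.measurable.comap_le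
    have hcomp : ∀ {u : Ω → ℝ}, Measurable u → ∫ x, u (γ n x) ∂P = ∫ x, u x ∂P := by
      intro u hu
      have h := integral_map (μ := P) hγn.measurable.aemeasurable (f := u)
        hu.aestronglyMeasurable
      rw [hγn.map_eq] at h
      exact h.symm
    have hprod : ∫ x, g x * g (γ n x) ∂P = c * c := by
      have h1 := hindep.integral_fun_mul_eq_mul_integral hgm.aestronglyMeasurable
        (hgm.comp hγn.measurable).aestronglyMeasurable
      have h2 : ∫ x, (g ∘ γ n) x ∂P = c := by
        rw [← hgint]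
        exact hcomp hgm
      rw [hgint, h2] at h1
      exact h1
    have hff : ∫ x, f x * f x ∂P = ∫ x, f x * f (γ n x) ∂P := by
      refine integral_congr_ae ?_
      filter_upwards [hinv n] with x hx
      have hx' : f (γ n x) = f x := hx
      rw [hx']
    have hgAγ : ∀ᵐ x ∂P, |g (γ n x)| ≤ A := hγn.quasiMeasurePreserving.ae hgA
    -- integrability
    have hd : Integrable (fun x => |g x - f x|) P := (hgi.sub hfi).abs
    have hdγ : Integrable (fun x => |g (γ n x) - f (γ n x)|) P := hγn.integrable_comp_of_integrable hd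
    have hi1 : Integrable (fun x => f x * f (γ n x)) P := by
      refine Integrable.of_bound (hfm.mul (hfm.comp hγn.measurable)).aestronglyMeasurable (A * A)
        (Eventually.of_forall fun x => ?_)
      rw [Real.norm_eq_abs, abs_mul]
      exact mul_le_mul (hA _) (hA _) (abs_nonneg _) hA0
    have hi2 : Integrable (fun x => g x * g (γ n x)) P := by
      refine Integrable.of_bound (hgm.mul (hgm.comp hγn.measurable)).aestronglyMeasurable (A * A) ?_
      filter_upwards [hgA, hgAγ] with x h1 h2
      rw [Real.norm_eq_abs, abs_mul]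
      exact mul_le_mul h1 h2 (abs_nonneg _) hA0
    have hdint : ∫ x, |g x - f x| ∂P = (eLpNorm (g - f) 1 P).toReal := by
      rw [eLpNorm_one_eq_lintegral_enorm,
        ← integral_norm_eq_lintegral_enorm (hgi.sub hfi).aestronglyMeasurable]
      rfl
    rw [hff, ← hprod, ← integral_sub hi1 hi2]
    calc |∫ x, (f x * f (γ n x) - g x * g (γ n x)) ∂P|
        ≤ ∫ x, |f x * f (γ n x) - g x * g (γ n x)| ∂P := abs_integral_le_integral_abs
      _ ≤ ∫ x, (A * |g (γ n x) - f (γ n x)| + A * |g x - f x|) ∂P := by
          refine integral_mono_ae (hi1.sub hi2).abs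
            ((hdγ.const_mul A).add (hd.const_mul A)) ?_
          filter_upwards [hgAγ] with x hx
          have e : f x * f (γ n x) - g x * g (γ n x) =
              -(f x * (g (γ n x) - f (γ n x)) + g (γ n x) * (g x - f x)) := by ring
          rw [e, abs_neg]
          refine (abs_add_le _ _).trans ?_
          rw [abs_mul, abs_mul]
          exact add_le_add (mul_le_mul_of_nonneg_right (hA x) (abs_nonneg _))
            (mul_le_mul_of_nonneg_right hx (abs_nonneg _))
      _ = 2 * A * (eLpNorm (g - f) 1 P).toReal := by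
          rw [integral_add (hdγ.const_mul A) (hd.const_mul A), integral_const_mul,
            integral_const_mul]
          have h3 : ∫ x, |g (γ n x) - f (γ n x)| ∂P = ∫ x, |g x - f x| ∂P :=
            hcomp (u := fun x => |g x - f x|) (by fun_prop)
          rw [h3, hdint]; ring
  -- conclusion: the variance vanishes
  have hlim2 : Tendsto (fun n => 2 * A * (eLpNorm (P[f | 𝓕 n] - f) 1 P).toReal) atTop (𝓝 0) := by
    have h1 := (ENNReal.tendsto_toReal ENNReal.zero_ne_top).comp hlim
    have h2 := h1.const_mul (2 * A)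
    simpa using h2
  have hvar : ∫ x, f x * f x ∂P = c * c := by
    have h1 : |∫ x, f x * f x ∂P - c * c| ≤ 0 := ge_of_tendsto' hlim2 key
    have h2 := abs_nonpos_iff.1 h1
    linarith
  have hi3 : Integrable (fun x => f x * f x) P := by
    refine Integrable.of_bound (hfm.mul hfm).aestronglyMeasurable (A * A)
      (Eventually.of_forall fun x => ?_)
    rw [Real.norm_eq_abs, abs_mul]
    exact mul_le_mul (hA _) (hA _) (abs_nonneg _) hA0
  have hzero : ∫ x, (f x - c) ^ 2 ∂P = 0 := by
    have e : ∀ x, (f x - c) ^ 2 = f x * f x - 2 * c * f x + c * c := fun x => by ring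
    simp only [e]
    have h1 : ∫ x, (f x * f x - 2 * c * f x + c * c) ∂P =
        ∫ x, (f x * f x - 2 * c * f x) ∂P + ∫ _x, c * c ∂P :=
      integral_add (hi3.sub (hfi.const_mul (2 * c))) (integrable_const _)
    have h2 : ∫ x, (f x * f x - 2 * c * f x) ∂P =
        ∫ x, f x * f x ∂P - ∫ x, 2 * c * f x ∂P :=
      integral_sub hi3 (hfi.const_mul (2 * c))
    rw [h1, h2, integral_const_mul, hvar, integral_const, ← hc]
    simp only [probReal_univ, smul_eq_mul]
    ring
  refine ⟨c, ?_⟩
  have hi4 : Integrable (fun x => (f x - c) ^ 2) P := by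
    refine Integrable.of_bound ((hfm.sub_const c).pow_const 2).aestronglyMeasurable ((A + |c|) ^ 2)
      (Eventually.of_forall fun x => ?_)
    rw [Real.norm_eq_abs, abs_pow]
    have h1 : |f x - c| ≤ A + |c| := (abs_sub _ _).trans (by linarith [hA x])
    exact pow_le_pow_left₀ (abs_nonneg _) h1 2
  have h5 := (integral_eq_zero_iff_of_nonneg (fun x => sq_nonneg (f x - c)) hi4).1 hzero
  filter_upwards [h5] with x hx
  have hx' : (f x - c) ^ 2 = 0 := hx
  have := pow_eq_zero_iff (two_ne_zero) |>.1 hx'
  linarith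

end abstract

/-! ### moving the ball off itself -/

section move

variable {d : ℕ} [NeZero d]

/-- the bijection of the vertices induced by `step 1` -/
def sg (w : TW d) : TW d := TW.rt 1 (TW.cr w)

theorem one_ne_zero' (h2 : 2 ≤ d) : (1 : Fin d) ≠ 0 := by
  intro h
  have h1 := congrArg Fin.val h
  rw [Fin.val_one', Nat.mod_eq_of_lt (by omega)] at h1
  simp at h1

theorem sg_uSide (h2 : 2 ≤ d) {w : TW d} (hw : TW.uSide w) :
    TW.uSide (sg w) ∧ (sg w).len = w.len + 1 := by
  obtain ⟨w, hw'⟩ := w
  have h0 : (TW.cr ⟨w, hw'⟩ : TW d).1 = 0 :: w := by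
    cases w with
    | nil => simp [TW.cr, TW.crL]
    | cons a w =>
      have : a ≠ 0 := by
        intro ha; apply hw; simp [ha]
      simp [TW.cr, TW.crL, this]
  have h1 : (sg ⟨w, hw'⟩ : TW d).1 = 1 :: w := by
    unfold sg TW.rt
    simp only [h0, TW.rtL, zero_add]
  constructor
  · unfold TW.uSide
    rw [h1]
    simp only [List.head?_cons, ne_eq, Option.some.injEq]
    exact one_ne_zero' h2
  · unfold TW.len
    rw [h1]
    simp

theorem sg_not_uSide {w : TW d} (hw : ¬ TW.uSide w) : (sg w).len + 1 = w.len := by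
  obtain ⟨w, hw'⟩ := w
  unfold TW.uSide at hw
  rw [not_not] at hw
  cases w with
  | nil => simp at hw
  | cons a w =>
    simp only [List.head?_cons, Option.some.injEq] at hw
    subst hw
    unfold sg
    rw [TW.len_rt]
    unfold TW.len TW.cr
    simp [TW.crL]

theorem len_iterate_uSide (h2 : 2 ≤ d) (k : ℕ) {w : TW d} (hw : TW.uSide w) :
    TW.uSide (sg^[k] w) ∧ (sg^[k] w).len = w.len + k := by
  induction k generalizing w with
  | zero => exact ⟨hw, rfl⟩
  | succ k ih =>
    rw [Function.iterate_succ_apply]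
    have h1 := sg_uSide h2 hw
    have h3 := ih h1.1
    exact ⟨h3.1, by rw [h3.2, h1.2]; ring⟩

theorem le_len_iterate (h2 : 2 ≤ d) (k : ℕ) (w : TW d) : k ≤ (sg^[k] w).len + w.len := by
  induction k generalizing w with
  | zero => exact Nat.zero_le _
  | succ k ih =>
    rw [Function.iterate_succ_apply]
    by_cases hw : TW.uSide w
    · have h1 := sg_uSide h2 hw
      have h3 := len_iterate_uSide h2 k h1.1
      rw [h3.2, h1.2]; omega
    · have h1 := sg_not_uSide hw
      have h3 := ih (sg w)
      omega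

variable {S : Type*} [PortAct d S]

theorem step_one_apply (w : TW d) : ∃ j : Fin d, ∀ ξ : Conf d S,
    step 1 ξ w = PortAct.rs j (ξ (sg w)) := by
  by_cases h : TW.cr w = TW.nil
  · refine ⟨1, fun ξ => ?_⟩
    simp [step, cross, rotn, sg, h]
  · refine ⟨0, fun ξ => ?_⟩
    simp [step, cross, rotn, sg, h, PortAct.rs_zero]

theorem step_iterate_apply (k : ℕ) (w : TW d) : ∃ j : Fin d, ∀ ξ : Conf d S,
    (step 1)^[k] ξ w = PortAct.rs j (ξ (sg^[k] w)) := by
  induction k with
  | zero => exact ⟨0, fun ξ => by simp [PortAct.rs_zero]⟩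
  | succ k ih =>
    obtain ⟨j, hj⟩ := ih
    obtain ⟨i, hi⟩ := step_one_apply (S := S) (sg^[k] w)
    refine ⟨j + i, fun ξ => ?_⟩
    rw [Function.iterate_succ_apply, hj (step 1 ξ), hi ξ, ← PortAct.rs_add,
      ← Function.iterate_succ_apply' sg]

end move

/-! ### ergodicity -/

section erg

variable {d : ℕ} [NeZero d] {S : Type*} [MeasurableSpace S] [PortAct d S]
  {Ω : Type*} [mΩ : MeasurableSpace Ω] {P : Measure Ω}

/-- **Ergodicity of an independent environment** under the rotations `rr` and `pp ∘ rr ∘ pp`. -/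
theorem erg_env [IsProbabilityMeasure P] (h2 : 2 ≤ d)
    (hrs : ∀ i : Fin d, Measurable (PortAct.rs i : S → S))
    (e : Ω → Conf d S) (he : Measurable e) (pp rr : Ω → Ω) (hpp : MeasurePreserving pp P P)
    (hrr : MeasurePreserving rr P P) (epp : ∀ h, e (pp h) = cross (e h))
    (err : ∀ h, e (rr h) = rotn 1 (e h)) (hind : iIndepFun (fun w h => e h w) P)
    (f : Ω → ℝ) (hf : Measurable[MeasurableSpace.comap e inferInstance] f)
    (h1 : ∀ᵐ h ∂P, f (rr h) = f h) (h3 : ∀ᵐ h ∂P, f (pp (rr (pp h))) = f h) :
    ∃ c : ℝ, ∀ᵐ h ∂P, f h = c := by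
  -- reduce to a bounded function
  set F : Ω → ℝ := fun h => Real.arctan (f h) with hF
  set m : TW d → MeasurableSpace Ω := fun w => MeasurableSpace.comap (fun h => e h w) inferInstance
    with hm
  have hcomap : (⨆ w, m w) = MeasurableSpace.comap e inferInstance := by
    rw [hm, MeasurableSpace.pi, MeasurableSpace.comap_iSup]
    simp only [MeasurableSpace.comap_comp]
    rfl
  have hFm : Measurable[⨆ w, m w] F := by
    rw [hcomap]
    exact Real.measurable_arctan.comp hf
  have hle : ∀ w, m w ≤ mΩ := fun w => ((measurable_pi_apply w).comp he).comap_le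
  have hind' : iIndep m P := hind.iIndep
  -- the moving maps
  have hstep : ∀ h, e (pp (rr h)) = step 1 (e h) := fun h => by rw [epp, err]; rfl
  have hiter : ∀ (k : ℕ) (h : Ω), e ((pp ∘ rr)^[k] h) = (step 1)^[k] (e h) := by
    intro k
    induction k with
    | zero => intro h; rfl
    | succ k ih =>
      intro h
      rw [Function.iterate_succ_apply, ih, Function.iterate_succ_apply]
      congr 1
      exact hstep h
  have hpr : MeasurePreserving (pp ∘ rr) P P := hpp.comp hrr
  let γ : ℕ → Ω → Ω := fun n => (pp ∘ rr)^[2 * (n + 1)]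
  have hγ : ∀ n, MeasurePreserving (γ n) P P := fun n => hpr.iterate _
  have hinv2 : ∀ᵐ h ∂P, F ((pp ∘ rr)^[2] h) = F h := by
    have h4 := hrr.quasiMeasurePreserving.ae h3
    filter_upwards [h1, h4] with h hh1 hh4
    have : (pp ∘ rr)^[2] h = pp (rr (pp (rr h))) := rfl
    rw [this]
    simp only [hF]
    rw [hh4, hh1]
  have hinv : ∀ k, ∀ᵐ h ∂P, F ((pp ∘ rr)^[2 * k] h) = F h := by
    intro k
    induction k with
    | zero => exact Eventually.of_forall fun h => rfl
    | succ k ih =>
      have h4 := (hpr.iterate 2).quasiMeasurePreserving.ae ih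
      filter_upwards [h4, hinv2] with h hh4 hh2
      have : (pp ∘ rr)^[2 * (k + 1)] h = (pp ∘ rr)^[2 * k] ((pp ∘ rr)^[2] h) := by
        rw [← Function.iterate_add_apply]
        rfl
      rw [this, hh4, hh2]
  let B : ℕ → Set (TW d) := fun n => {w | w.len ≤ n}
  let C : ℕ → Set (TW d) := fun n => {w | n < w.len}
  have hγm : ∀ n, Measurable[⨆ w ∈ C n, m w, ⨆ w ∈ B n, m w] (γ n) := by
    intro n
    rw [measurable_iff_comap_le]
    rw [MeasurableSpace.comap_iSup]
    refine iSup_le fun w => ?_
    rw [MeasurableSpace.comap_iSup]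
    refine iSup_le fun hw => ?_
    rw [hm]
    simp only [MeasurableSpace.comap_comp]
    obtain ⟨j, hj⟩ := step_iterate_apply (S := S) (2 * (n + 1)) w
    have hfun : ((fun h => e h w) ∘ γ n) =
        PortAct.rs j ∘ fun h => e h (sg^[2 * (n + 1)] w) := by
      funext h
      show e ((pp ∘ rr)^[2 * (n + 1)] h) w = _
      rw [hiter, hj]
      rfl
    rw [hfun, ← MeasurableSpace.comap_comp]
    have hmem : sg^[2 * (n + 1)] w ∈ C n := by
      have hw' : w.len ≤ n := hw
      have := le_len_iterate h2 (2 * (n + 1)) w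
      show n < _
      omega
    refine le_trans (MeasurableSpace.comap_mono (hrs j).comap_le) ?_
    exact le_iSup₂_of_le (f := fun w (_ : w ∈ C n) =>
      MeasurableSpace.comap (fun h => e h w) inferInstance) _ hmem le_rfl
  obtain ⟨c, hc⟩ := const_of_move (P := P) hle hind' B C
    (fun a b hab w hw => le_trans hw hab) (fun w => ⟨w.len, show w.len ≤ w.len from le_rfl⟩)
    (fun n => Set.disjoint_left.2 fun w (hw : w.len ≤ n) (hw' : n < w.len) => by omega)
    γ hγ hγm F hFm (Real.pi / 2)
    (fun x => abs_le.2 ⟨(Real.neg_pi_div_two_lt_arctan _).le, (Real.arctan_lt_pi_div_two _).le⟩)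
    (fun n => hinv (n + 1))
  refine ⟨Real.tan c, ?_⟩
  filter_upwards [hc] with h hh
  have hh' : Real.arctan (f h) = c := hh
  rw [← hh', Real.tan_arctan]

/-- independence of the coordinates from a product law -/
theorem iIndepFun_of_map_eq [IsProbabilityMeasure P] {ν : Measure S} [IsProbabilityMeasure ν]
    {e : Ω → Conf d S} (he : Measurable e)
    (hlaw : P.map e = Measure.infinitePi fun _ : TW d => ν) :
    iIndepFun (fun w h => e h w) P := by
  have hm : ∀ w : TW d, Measurable fun h => e h w := fun w => (measurable_pi_apply w).comp he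
  rw [iIndepFun_iff_map_fun_eq_infinitePi_map hm]
  have h1 : ∀ w : TW d, P.map (fun h => e h w) = ν := by
    intro w
    have h2 : P.map (fun h => e h w) = (P.map e).map (Function.eval w) := by
      rw [Measure.map_map (measurable_pi_apply w) he]
      rfl
    rw [h2, hlaw, Measure.infinitePi_map_eval]
  simp only [h1]
  exact hlaw

/-- **Ergodicity of an iid environment**: `P.map e` = product law. -/
theorem erg_of_map_eq [IsProbabilityMeasure P] (h2 : 2 ≤ d)
    (hrs : ∀ i : Fin d, Measurable (PortAct.rs i : S → S)) {ν : Measure S}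
    [IsProbabilityMeasure ν] {e : Ω → Conf d S} (he : Measurable e)
    (hlaw : P.map e = Measure.infinitePi fun _ : TW d => ν)
    {pp rr : Ω → Ω} (hpp : MeasurePreserving pp P P)
    (hrr : MeasurePreserving rr P P) (epp : ∀ h, e (pp h) = cross (e h))
    (err : ∀ h, e (rr h) = rotn 1 (e h))
    (f : Ω → ℝ) (hf : Measurable[MeasurableSpace.comap e inferInstance] f)
    (h1 : ∀ᵐ h ∂P, f (rr h) = f h) (h3 : ∀ᵐ h ∂P, f (pp (rr (pp h))) = f h) :
    ∃ c : ℝ, ∀ᵐ h ∂P, f h = c :=
  erg_env h2 hrs e he pp rr hpp hrr epp err (iIndepFun_of_map_eq he hlaw) f hf h1 h3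

end erg

/-! ### the concrete case: configurations with colours `(label, datum, extra)` -/

section concrete

variable {d : ℕ} [NeZero d] {T X : Type*} [MeasurableSpace T] [MeasurableSpace X]

omit [NeZero d] in
/-- the rotation of the labels is measurable -/
theorem measurable_rs (i : Fin d) : Measurable (PortAct.rs i : Fin d × T → Fin d × T) := by
  show Measurable fun x : Fin d × T => (x.1 + i, x.2)
  exact ((measurable_of_countable fun a : Fin d => a + i).comp measurable_fst).prodMk
    measurable_snd

/-- projection of a configuration with extra data on the environment `(label, ω)` -/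
def envP (ξ : Conf d (Fin d × (T × X))) : Conf d (Fin d × T) := fun w => ((ξ w).1, (ξ w).2.1)

theorem measurable_envP : Measurable (envP : Conf d (Fin d × (T × X)) → Conf d (Fin d × T)) := by
  refine measurable_pi_lambda _ fun w => ?_
  exact (measurable_fst.comp (measurable_pi_apply w)).prodMk
    (measurable_fst.comp (measurable_snd.comp (measurable_pi_apply w)))

omit [MeasurableSpace T] [MeasurableSpace X] in
theorem envP_cross (ξ : Conf d (Fin d × (T × X))) : envP (cross ξ) = cross (envP ξ) := rfl

omit [MeasurableSpace T] [MeasurableSpace X] in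
theorem envP_rotn (i : Fin d) (ξ : Conf d (Fin d × (T × X))) :
    envP (rotn i ξ) = rotn i (envP ξ) := by
  funext w
  by_cases h : w = TW.nil
  · subst h
    simp [envP, rotn, PortAct.rs]
  · simp [envP, rotn, h]

/-- **`LimProc.erg`** for `Ω = Conf d (label, ω, extra)`, `pp = cross`, `rr = rotn 1`,
`Env = comap envP`, when the law of the environment is the product law. -/
theorem erg_conf (h2 : 2 ≤ d) (P : Measure (Conf d (Fin d × (T × X)))) [IsProbabilityMeasure P]
    (hP : Inv P) {ν : Measure (Fin d × T)} [IsProbabilityMeasure ν]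
    (hlaw : P.map envP = Measure.infinitePi fun _ : TW d => ν)
    (f : Conf d (Fin d × (T × X)) → ℝ)
    (hf : Measurable[MeasurableSpace.comap envP inferInstance] f)
    (h1 : ∀ᵐ h ∂P, f (rotn 1 h) = f h) (h3 : ∀ᵐ h ∂P, f (cross (rotn 1 (cross h))) = f h) :
    ∃ c : ℝ, ∀ᵐ h ∂P, f h = c :=
  erg_of_map_eq h2 measurable_rs measurable_envP hlaw ⟨measurable_cross, hP.1⟩
    ⟨measurable_rotn measurable_rs 1, hP.2 1⟩ envP_cross (envP_rotn 1) f hf h1 h3

end concrete

end Crest.Agent.R166.Erg424
end

-- ▼ part R166/LimEnv_289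

/-!
Row 166 (helper289), F3/(E1), limit part: the environment (labels, potentials) is iid under the
limit law `S.P` of an extracted sequence `S : Seq d k`, as soon as the countably many law of large
numbers events `GEnv` (each of probability `→ 1`) contain `U j` eventually.
-/

set_option autoImplicit false

namespace Crest.Agent.R166.LimEnv289

open MeasureTheory Filter Topology BoundedContinuousFunction
open Crest.ProbabilityR.RandomMatrix
open Crest.Agent.R166.Words955 Crest.Agent.R166.EnvLaw289 Crest.Agent.R166.LLN289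
open Crest.Agent.R166.LimLaw980 Crest.Agent.R166.Seq980 Crest.Agent.R166.Erg424
open Crest.Agent.R166.TreeDefs350 (unif)

noncomputable section

theorem potentialLaw_eq (n : ℕ) : potentialLaw n = Measure.pi fun _ : Fin n => unif := rfl

/-- **law of large numbers over `portLaw`** -/
theorem lln_port (d a : ℕ) [NeZero d] {ε δ : ℝ} (hε : 0 < ε) (hδ : 0 < δ) :
    ∃ N : ℕ, ∀ n ≥ N, ∀ g : Conf d (Fin d × ℝ) → ℝ, Measurable g → (∀ ξ, |g ξ| ≤ 1) → Loc a g →
      portLaw d n {x | ε < |(∑ h, g (conf x.1 (lab x.2) h)) / (n * d) -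
        ∫ ξ, g ξ ∂(envLaw d unif)|} ≤ ENNReal.ofReal δ := by
  obtain ⟨N, hN⟩ := lln' d a hε hδ
  refine ⟨N, fun n hn g hg hb hloc => ?_⟩
  have h1 := hN n hn ℝ unif g hg hb hloc
  rw [portLaw_apply, potentialLaw_eq]
  exact h1

/-! ### Characters of the environment -/

/-- real coordinates of the environment -/
def embE (d : ℕ) [NeZero d] (ξ : Conf d (Fin d × ℝ)) : TW d × Bool → ℝ := fun t =>
  if t.2 then (((ξ t.1).1 : ℕ) : ℝ) else (ξ t.1).2

theorem continuous_embE (d : ℕ) [NeZero d] : Continuous (embE d) := by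
  refine continuous_pi fun t => ?_
  obtain ⟨w, b⟩ := t
  cases b
  · simp only [embE, Bool.false_eq_true, if_false]
    exact continuous_snd.comp (continuous_apply w)
  · simp only [embE, if_true]
    have h1 : Continuous fun ξ : Conf d (Fin d × ℝ) => (ξ w).1 :=
      continuous_fst.comp (continuous_apply w)
    have h2 : Continuous fun l : Fin d => (((l : ℕ)) : ℝ) := continuous_of_discreteTopology
    exact h2.comp h1

theorem injective_embE (d : ℕ) [NeZero d] : Function.Injective (embE d) := by
  intro ξ ξ' h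
  funext w
  have h0 := congrFun h (w, true)
  have h1 := congrFun h (w, false)
  simp only [embE, if_true, Nat.cast_inj] at h0
  simp only [embE, Bool.false_eq_true, if_false] at h1
  exact Prod.ext (Fin.ext h0) h1

/-- real and imaginary parts of the characters of the environment -/
def gq (d : ℕ) [NeZero d] (q : (TW d × Bool) →₀ ℚ) (b : Bool) (ξ : Conf d (Fin d × ℝ)) : ℝ :=
  if b then Real.cos (phase q (embE d ξ)) else Real.sin (phase q (embE d ξ))

theorem continuous_gq (d : ℕ) [NeZero d] (q : (TW d × Bool) →₀ ℚ) (b : Bool) :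
    Continuous (gq d q b) := by
  have h1 := (continuous_phase q).comp (continuous_embE d)
  unfold gq
  cases b
  · simp only [Bool.false_eq_true, if_false]
    exact Real.continuous_sin.comp h1
  · simp only [if_true]
    exact Real.continuous_cos.comp h1

theorem abs_gq_le (d : ℕ) [NeZero d] (q : (TW d × Bool) →₀ ℚ) (b : Bool)
    (ξ : Conf d (Fin d × ℝ)) : |gq d q b ξ| ≤ 1 := by
  unfold gq
  split_ifs
  · exact Real.abs_cos_le_one _
  · exact Real.abs_sin_le_one _

theorem loc_gq (d : ℕ) [NeZero d] (q : (TW d × Bool) →₀ ℚ) (b : Bool) :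
    ∃ a : ℕ, Loc a (gq d q b) := by
  refine ⟨q.support.sup fun t => t.1.len, fun ξ ξ' h => ?_⟩
  have h1 : phase q (embE d ξ) = phase q (embE d ξ') := by
    unfold phase Finsupp.sum
    refine Finset.sum_congr rfl fun t ht => ?_
    have h2 : ξ t.1 = ξ' t.1 :=
      h t.1 (Finset.le_sup (f := fun t : TW d × Bool => t.1.len) ht)
    simp only [embE, h2]
  simp only [gq, h1]

/-- index of the law of large numbers events -/
abbrev EIx (d : ℕ) [NeZero d] : Type := ((TW d × Bool) →₀ ℚ) × Bool × ℕ

instance (d : ℕ) [NeZero d] : Countable (EIx d) := inferInstance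

/-- the law of large numbers events -/
def GEnv (d : ℕ) [NeZero d] (i : EIx d) (n : ℕ) : Set (PS d n) :=
  {x | |(∑ h, gq d i.1 i.2.1 (conf x.1 (lab x.2) h)) / (n * d) -
    ∫ ξ, gq d i.1 i.2.1 ξ ∂(envLaw d unif)| ≤ 1 / ((i.2.2 : ℝ) + 1)}

/-- the events have probability `→ 1` (hypothesis `hG0` of `Seq980.exists_seq`) -/
theorem GEnv_whp (d : ℕ) [NeZero d] (i : EIx d) (δ : ℝ) (hδ : 0 < δ) :
    ∃ N : ℕ, ∀ n, N ≤ n → portLaw d n (GEnv d i n)ᶜ ≤ ENNReal.ofReal δ := by
  obtain ⟨a, ha⟩ := loc_gq d i.1 i.2.1
  have hε : 0 < 1 / ((i.2.2 : ℝ) + 1) := by positivity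
  obtain ⟨N, hN⟩ := lln_port d a hε hδ
  refine ⟨N, fun n hn => ?_⟩
  have h1 := hN n hn _ (continuous_gq d i.1 i.2.1).measurable (abs_gq_le d i.1 i.2.1) ha
  have h2 : (GEnv d i n)ᶜ = {x : PS d n |
      1 / ((i.2.2 : ℝ) + 1) < |(∑ h, gq d i.1 i.2.1 (conf x.1 (lab x.2) h)) / (n * d) -
        ∫ ξ, gq d i.1 i.2.1 ξ ∂(envLaw d unif)|} := by
    ext x
    simp [GEnv]
  rw [h2]
  exact h1

/-- the same events indexed by natural numbers -/
def GEnvN (d : ℕ) [NeZero d] (i : ℕ) (n : ℕ) : Set (PS d n) :=
  GEnv d ((exists_surjective_nat (EIx d)).choose i) n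

theorem GEnvN_whp (d : ℕ) [NeZero d] (i : ℕ) (δ : ℝ) (hδ : 0 < δ) :
    ∃ N : ℕ, ∀ n, N ≤ n → portLaw d n (GEnvN d i n)ᶜ ≤ ENNReal.ofReal δ :=
  GEnv_whp d _ δ hδ

theorem GEnvN_surj (d : ℕ) [NeZero d] (i : EIx d) : ∃ m, GEnvN d m = GEnv d i := by
  obtain ⟨m, hm⟩ := (exists_surjective_nat (EIx d)).choose_spec i
  exact ⟨m, by unfold GEnvN; rw [hm]⟩

theorem continuous_envP {d : ℕ} [NeZero d] {X : Type*} [TopologicalSpace X] :
    Continuous (envP : Conf d (Fin d × (ℝ × X)) → Conf d (Fin d × ℝ)) := by
  refine continuous_pi fun w => ?_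
  exact (continuous_fst.comp (continuous_apply w)).prodMk
    (continuous_fst.comp (continuous_snd.comp (continuous_apply w)))

/-- test functions on the limit space -/
def φq (d k : ℕ) [NeZero d] (q : (TW d × Bool) →₀ ℚ) (b : Bool) : Conf d (S1 d k) →ᵇ ℝ :=
  BoundedContinuousFunction.ofNormedAddCommGroup (fun ξ => gq d q b (envP ξ))
    ((continuous_gq d q b).comp continuous_envP) 1
    (fun ξ => by rw [Real.norm_eq_abs]; exact abs_gq_le d q b _)

/-- values of the integrals under the limit law -/
theorem integral_gq {d k : ℕ} [NeZero d] (S : Seq d k)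
    (hG : ∀ i : EIx d, ∀ᶠ j in atTop, S.U j ⊆ GEnv d i (S.n j))
    (q : (TW d × Bool) →₀ ℚ) (b : Bool) :
    ∫ ξ, gq d q b (envP ξ) ∂S.P = ∫ ξ, gq d q b ξ ∂(envLaw d unif) := by
  have key : ∀ m : ℕ, |(∫ ξ, gq d q b (envP ξ) ∂S.P) - ∫ ξ, gq d q b ξ ∂(envLaw d unif)| ≤
      2 * (1 / ((m : ℝ) + 1)) := by
    intro m
    have h1 := S.lim (φq d k q b) (1 / ((m : ℝ) + 1)) (by positivity)
    obtain ⟨j, hj1, hj2⟩ := (h1.and (hG (q, b, m))).exists
    obtain ⟨x, hx⟩ := S.nonempty j
    have h3 := hj1 x hx
    have h4 : |(∑ h, gq d q b (conf x.1 (lab x.2) h)) / ((S.n j : ℝ) * d) -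
      ∫ ξ, gq d q b ξ ∂(envLaw d unif)| ≤ 1 / ((m : ℝ) + 1) := hj2 hx
    have h5 : ∫ ξ, (φq d k q b) ξ ∂(emp x.1 (col x.2 (S.F j x))) =
        (∑ h, gq d q b (conf x.1 (lab x.2) h)) / ((S.n j : ℝ) * d) := by
      rw [Seq980.integral_emp x.1 (col x.2 (S.F j x)) (φq d k q b)
        (φq d k q b).continuous.stronglyMeasurable]
      rw [IsPort.card_HE, smul_eq_mul, mul_comm, ← div_eq_mul_inv]
      push_cast
      rfl
    have h6 : ∫ ξ, (φq d k q b) ξ ∂S.P = ∫ ξ, gq d q b (envP ξ) ∂S.P := rfl
    rw [h5, h6] at h3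
    rw [abs_sub_comm] at h3
    calc |(∫ ξ, gq d q b (envP ξ) ∂S.P) - ∫ ξ, gq d q b ξ ∂(envLaw d unif)|
        ≤ |(∫ ξ, gq d q b (envP ξ) ∂S.P) -
            (∑ h, gq d q b (conf x.1 (lab x.2) h)) / ((S.n j : ℝ) * d)| +
          |(∑ h, gq d q b (conf x.1 (lab x.2) h)) / ((S.n j : ℝ) * d) -
            ∫ ξ, gq d q b ξ ∂(envLaw d unif)| := abs_sub_le _ _ _
      _ ≤ 1 / ((m : ℝ) + 1) + 1 / ((m : ℝ) + 1) := add_le_add h3 h4
      _ = 2 * (1 / ((m : ℝ) + 1)) := by ring
  have hlim : Tendsto (fun m : ℕ => 2 * (1 / ((m : ℝ) + 1))) atTop (𝓝 (2 * 0)) :=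
    tendsto_one_div_add_atTop_nhds_zero_nat.const_mul 2
  rw [mul_zero] at hlim
  have h0 := ge_of_tendsto' hlim key
  exact sub_eq_zero.1 (abs_nonpos_iff.1 h0)

/-- **the environment is iid under the limit law** -/
theorem env_law {d k : ℕ} [NeZero d] (S : Seq d k)
    (hG : ∀ i : EIx d, ∀ᶠ j in atTop, S.U j ⊆ GEnv d i (S.n j)) :
    S.P.map envP = envLaw d unif := by
  have hp := S.prob
  have hm : Measurable (envP : Conf d (S1 d k) → Conf d (Fin d × ℝ)) := measurable_envP
  have hprob : IsProbabilityMeasure (S.P.map (envP : Conf d (S1 d k) → Conf d (Fin d × ℝ))) :=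
    Measure.isProbabilityMeasure_map hm.aemeasurable
  refine ext_of_ech (embE d) (continuous_embE d) (injective_embE d) fun q => ?_
  have hre : ∀ μ : Measure (Conf d (Fin d × ℝ)), IsProbabilityMeasure μ →
      ∫ ξ, ech (embE d) (continuous_embE d) q ξ ∂μ =
        ((∫ ξ, gq d q true ξ ∂μ : ℝ) : ℂ) + ((∫ ξ, gq d q false ξ ∂μ : ℝ) : ℂ) * Complex.I := by
    intro μ hμ
    have h1 := integral_re_add_im (μ := μ) ((ech (embE d) (continuous_embE d) q).integrable μ)
    rw [← h1]
    have e1 : ∀ ξ, RCLike.re (ech (embE d) (continuous_embE d) q ξ) = gq d q true ξ := by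
      intro ξ
      simp only [ech_apply, gq, if_true, RCLike.re_to_complex]
      rw [mul_comm, Complex.exp_ofReal_mul_I_re]
    have e2 : ∀ ξ, RCLike.im (ech (embE d) (continuous_embE d) q ξ) = gq d q false ξ := by
      intro ξ
      simp only [ech_apply, gq, Bool.false_eq_true, if_false, RCLike.im_to_complex]
      rw [mul_comm, Complex.exp_ofReal_mul_I_im]
    simp only [e1, e2]
    rfl
  rw [hre _ hprob, hre _ (envLaw_prob unif)]
  have e : ∀ b, ∫ ξ, gq d q b ξ ∂(S.P.map envP) = ∫ ξ, gq d q b ξ ∂(envLaw d unif) := by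
    intro b
    rw [integral_map hm.aemeasurable (continuous_gq d q b).aestronglyMeasurable]
    exact integral_gq S hG q b
  rw [e true, e false]

/-- version for the natural-number indexed events -/
theorem env_law_N {d k : ℕ} [NeZero d] (S : Seq d k)
    (hG : ∀ i : ℕ, ∀ᶠ j in atTop, S.U j ⊆ GEnvN d i (S.n j)) :
    S.P.map envP = envLaw d unif := by
  refine env_law S fun i => ?_
  obtain ⟨m, hm⟩ := GEnvN_surj d i
  have := hG m
  rw [hm] at this
  exact this

end

end Crest.Agent.R166.LimEnv289
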