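import Crest.Agent.R166.Lim_47
import Crest.Agent.R166.Ent_397
import Crest.Agent.R166.Words_955
import Crest.Agent.R166.UppView_724
import Crest.Agent.R166.EntTree_397
import Crest.Agent.R166.Spec_B2_385
import Crest.Agent.R166.UppCell_724

-- ▼ part R166/Lim2_47
section

/-!
Row 166, section 40.10 (helper47): from finite-alphabet conditional mutual information to
approximate conditional independence of σ-algebras.
-/

set_option autoImplicit false

namespace Crest.Agent.R166.Lim47

open MeasureTheory ProbabilityTheory Filter Topology Crest.Agent.R166.Ent397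

section FiniteRV

variable {Ω : Type*} {m0 : MeasurableSpace Ω} {P : Measure Ω} [IsProbabilityMeasure P]
  {α β γ : Type*} [Fintype α] [Fintype β] [Fintype γ]

/-- the σ-algebra generated by a finitely valued map -/
abbrev sg {Ω α : Type*} (X : Ω → α) : MeasurableSpace Ω := MeasurableSpace.comap X ⊤

omit [IsProbabilityMeasure P] in
theorem sg_le {X : Ω → α} (hX : FM X) : sg X ≤ m0 := by
  rintro s ⟨T, -, rfl⟩
  exact hX.preimage T

omit [Fintype α] in
theorem sg_mono_of_det {Ω : Type*} {α β : Type*} {X : Ω → α} {Y : Ω → β}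
    (h : ∀ ω ω', Y ω = Y ω' → X ω = X ω') : sg X ≤ sg Y := by
  rintro s ⟨T, -, rfl⟩
  refine ⟨Y '' (X ⁻¹' T), trivial, ?_⟩
  ext ω
  simp only [Set.mem_preimage, Set.mem_image]
  constructor
  · rintro ⟨ω', h1, h2⟩
    rw [← h ω' ω h2]; exact h1
  · intro h1
    exact ⟨ω, h1, rfl⟩

/-- a function measurable w.r.t. `sg X` factors through `X` -/
theorem exists_factor {Ω : Type*} {α : Type*} [Nonempty Ω] {X : Ω → α} {f : Ω → ℝ}
    (hf : Measurable[sg X] f) : ∃ φ : α → ℝ, f = fun ω => φ (X ω) := by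
  refine exists_eq_comp fun ω ω' h => ?_
  obtain ⟨T, -, hT⟩ := hf (measurableSet_singleton (f ω'))
  have h1 : ω' ∈ X ⁻¹' T := by rw [hT]; simp
  have h2 : ω ∈ X ⁻¹' T := by
    simp only [Set.mem_preimage] at h1 ⊢
    rw [h]; exact h1
  rw [hT] at h2
  simpa using h2

theorem integral_fm {X : Ω → α} (hX : FM X) (F : α → ℝ) :
    ∫ ω, F (X ω) ∂P = ∑ a, F a * lw P X a := by
  classical
  have h1 : ∀ ω, F (X ω) = ∑ a, (X ⁻¹' {a}).indicator (fun _ => F a) ω := by
    intro ω
    rw [Finset.sum_eq_single (X ω)]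
    · simp
    · intro b _ hb
      simp [Set.indicator, hb.symm]
    · simp
  simp_rw [h1]
  rw [integral_finsetSum]
  · refine Finset.sum_congr rfl fun a _ => ?_
    rw [integral_indicator_const _ (hX a), smul_eq_mul, mul_comm]
    rfl
  · intro a _
    exact (integrable_const _).indicator (hX a)

/-- conditional expectation given a finitely valued map -/
theorem condExp_sg {Z : Ω → γ} (hZ : FM Z) {f : Ω → ℝ} (hf : Integrable f P) :
    P[f|sg Z] =ᵐ[P] fun ω => (∫ x in Z ⁻¹' {Z ω}, f x ∂P) / lw P Z (Z ω) := by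
  classical
  have hle : sg Z ≤ m0 := sg_le hZ
  set c : γ → ℝ := fun z => (∫ x in Z ⁻¹' {z}, f x ∂P) / lw P Z z with hc
  have hmeas : Measurable[sg Z] fun ω => c (Z ω) := by
    have h1 : Measurable[sg Z, ⊤] Z := comap_measurable Z
    exact @Measurable.comp _ _ _ (sg Z) ⊤ _ c Z (fun _ _ => trivial) h1
  have hint : Integrable (fun ω => c (Z ω)) P := by
    refine Integrable.of_bound (hmeas.mono hle le_rfl).aestronglyMeasurable
      (∑ z, |c z|) (ae_of_all _ fun ω => ?_)
    rw [Real.norm_eq_abs]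
    exact Finset.single_le_sum (f := fun z => |c z|) (fun z _ => abs_nonneg _) (Finset.mem_univ _)
  symm
  refine ae_eq_condExp_of_forall_setIntegral_eq hle hf (fun s _ _ => hint.integrableOn) ?_
    hmeas.stronglyMeasurable.aestronglyMeasurable
  rintro s ⟨T, -, rfl⟩ -
  have hdec : Z ⁻¹' T = ⋃ z ∈ (Finset.univ.filter fun z => z ∈ T), Z ⁻¹' {z} := by
    ext ω; simp
  have hdisj : Set.Pairwise (↑(Finset.univ.filter fun z => z ∈ T))
      (Function.onFun Disjoint fun z => Z ⁻¹' {z}) := by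
    intro a _ b _ hab
    refine Set.disjoint_left.2 fun ω h1 h2 => hab ?_
    simp only [Set.mem_preimage, Set.mem_singleton_iff] at h1 h2
    exact h1.symm.trans h2
  rw [hdec, integral_biUnion_finset _ (fun z _ => hZ z) hdisj (fun z _ => hint.integrableOn),
    integral_biUnion_finset _ (fun z _ => hZ z) hdisj (fun z _ => hf.integrableOn)]
  refine Finset.sum_congr rfl fun z _ => ?_
  have h1 : ∫ ω in Z ⁻¹' {z}, c (Z ω) ∂P = ∫ ω in Z ⁻¹' {z}, c z ∂P := by
    refine setIntegral_congr_fun (hZ z) fun ω hω => ?_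
    simp only [Set.mem_preimage, Set.mem_singleton_iff] at hω
    simp only [hω]
  rw [h1, setIntegral_const, smul_eq_mul]
  change lw P Z z * c z = _
  by_cases h0 : lw P Z z = 0
  · rw [h0, zero_mul]
    have h2 : P (Z ⁻¹' {z}) = 0 := by
      have : P.real (Z ⁻¹' {z}) = 0 := h0
      rwa [measureReal_eq_zero_iff] at this
    rw [Measure.restrict_eq_zero.2 h2, integral_zero_measure]
  · simp only [hc]
    field_simp

/-- **Pinsker.** Small conditional mutual information implies approximate conditional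
independence. -/
theorem approxCI_of_condMI {X : Ω → α} {Y : Ω → β} {Z : Ω → γ} (hX : FM X) (hY : FM Y)
    (hZ : FM Z) {I : ℝ} (hI : condMI P X Y Z ≤ I) :
    ApproxCI P (sg X) (sg Y) (sg Z) (2 * Real.sqrt I) := by
  classical
  have hne : Nonempty Ω := P.nonempty_of_neZero
  intro f g hf hg hfb hgb
  have hfm : Measurable f := hf.mono (sg_le hX) le_rfl
  have hgm : Measurable g := hg.mono (sg_le hY) le_rfl
  have hfi : Integrable f P := integrable_of_bdd hfm hfb
  have hgi : Integrable g P := integrable_of_bdd hgm hgb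
  obtain ⟨φ0, hφ0⟩ := exists_factor hf
  obtain ⟨ψ0, hψ0⟩ := exists_factor hg
  -- clip the factors
  set φ : α → ℝ := fun a => clip (φ0 a) with hφ
  set ψ : β → ℝ := fun a => clip (ψ0 a) with hψ
  have hfφ : f = fun ω => φ (X ω) := by
    funext ω
    have h1 := hfb ω
    rw [hφ0] at h1 ⊢
    exact (clip_of_abs_le h1).symm
  have hgψ : g = fun ω => ψ (Y ω) := by
    funext ω
    have h1 := hgb ω
    rw [hψ0] at h1 ⊢
    exact (clip_of_abs_le h1).symm
  have hφb : ∀ a, |φ a| ≤ 1 := fun a => abs_clip_le _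
  have hψb : ∀ a, |ψ a| ≤ 1 := fun a => abs_clip_le _
  -- first integral
  have e1 : ∫ ω, f ω * g ω ∂P = ∑ t : α × β × γ, (φ t.1 * ψ t.2.1) *
      lw P (fun ω => (X ω, Y ω, Z ω)) t := by
    rw [hfφ, hgψ]
    exact integral_fm (P := P) (hX.pair (hY.pair hZ)) (fun t : α × β × γ => φ t.1 * ψ t.2.1)
  -- set integrals
  have eF : ∀ z, ∫ ω in Z ⁻¹' {z}, f ω ∂P = ∑ a, φ a * lw P (fun ω => (X ω, Z ω)) (a, z) := by
    intro z
    rw [← integral_indicator (hZ z)]
    have h1 : (Z ⁻¹' {z}).indicator f = fun ω => (fun t : α × γ => if t.2 = z then φ t.1 else 0)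
        (X ω, Z ω) := by
      funext ω
      rw [hfφ]
      simp only [Set.indicator, Set.mem_preimage, Set.mem_singleton_iff]
    rw [h1, integral_fm (P := P) (hX.pair hZ), Fintype.sum_prod_type]
    refine Finset.sum_congr rfl fun a _ => ?_
    rw [Finset.sum_eq_single z]
    · simp
    · intro b _ hb; simp [hb]
    · simp
  have eG : ∀ z, ∫ ω in Z ⁻¹' {z}, g ω ∂P = ∑ b, ψ b * lw P (fun ω => (Y ω, Z ω)) (b, z) := by
    intro z
    rw [← integral_indicator (hZ z)]
    have h1 : (Z ⁻¹' {z}).indicator g = fun ω => (fun t : β × γ => if t.2 = z then ψ t.1 else 0)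
        (Y ω, Z ω) := by
      funext ω
      rw [hgψ]
      simp only [Set.indicator, Set.mem_preimage, Set.mem_singleton_iff]
    rw [h1, integral_fm (P := P) (hY.pair hZ), Fintype.sum_prod_type]
    refine Finset.sum_congr rfl fun a _ => ?_
    rw [Finset.sum_eq_single z]
    · simp
    · intro b _ hb; simp [hb]
    · simp
  -- second integral
  have e2 : ∫ ω, (P[f|sg Z]) ω * (P[g|sg Z]) ω ∂P = ∑ t : α × β × γ, (φ t.1 * ψ t.2.1) *
      Ent397.mk P X Y Z t := by
    have h1 : ∫ ω, (P[f|sg Z]) ω * (P[g|sg Z]) ω ∂P =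
        ∫ ω, (fun z => ((∫ x in Z ⁻¹' {z}, f x ∂P) / lw P Z z) *
          ((∫ x in Z ⁻¹' {z}, g x ∂P) / lw P Z z)) (Z ω) ∂P := by
      refine integral_congr_ae ?_
      filter_upwards [condExp_sg (P := P) hZ hfi, condExp_sg (P := P) hZ hgi] with ω h1 h2
      rw [h1, h2]
    rw [h1]
    refine (integral_fm (P := P) hZ (fun z => ((∫ x in Z ⁻¹' {z}, f x ∂P) / lw P Z z) *
          ((∫ x in Z ⁻¹' {z}, g x ∂P) / lw P Z z))).trans ?_
    have h2 : ∀ z, ((∫ x in Z ⁻¹' {z}, f x ∂P) / lw P Z z) *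
          ((∫ x in Z ⁻¹' {z}, g x ∂P) / lw P Z z) * lw P Z z =
        ∑ a, ∑ b, (φ a * ψ b) * Ent397.mk P X Y Z (a, b, z) := by
      intro z
      rw [eF, eG]
      simp only [Ent397.mk]
      by_cases h0 : lw P Z z = 0
      · simp [h0]
      · rw [div_mul_div_comm, div_mul_eq_mul_div, mul_div_mul_right _ _ h0, Finset.sum_mul_sum,
          Finset.sum_div]
        refine Finset.sum_congr rfl fun a _ => ?_
        rw [Finset.sum_div]
        refine Finset.sum_congr rfl fun b _ => ?_
        ring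
    rw [Finset.sum_congr rfl fun z _ => h2 z, Fintype.sum_prod_type]
    simp only [Fintype.sum_prod_type]
    rw [Finset.sum_comm]
    refine Finset.sum_congr rfl fun a _ => ?_
    rw [Finset.sum_comm]
  unfold defect
  rw [e1, e2]
  refine (abs_sum_sub_mk_le P hX hY hZ (fun t : α × β × γ => φ t.1 * ψ t.2.1) 1 ?_).trans ?_
  · intro t
    show |φ t.1 * ψ t.2.1| ≤ 1
    rw [abs_mul]
    nlinarith [hφb t.1, hψb t.2.1, abs_nonneg (φ t.1), abs_nonneg (ψ t.2.1)]
  · rw [mul_one]
    exact mul_le_mul_of_nonneg_left (Real.sqrt_le_sqrt hI) (by norm_num)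

end FiniteRV

end Crest.Agent.R166.Lim47
end

-- ▼ part R166/View_47
section

/-!
Row 166, sections 40.8-40.10 (helper47): vertex views of configurations on the tree and the
σ-algebras they generate.
-/

set_option autoImplicit false

namespace Crest.Agent.R166.View47

open MeasureTheory Crest.Agent.R166.Words955 Crest.Agent.R166.Upp724
  Crest.Agent.R166.EntTree397 Crest.Agent.R166.Ent397 Crest.Agent.R166.Lim47

variable {d : ℕ} [NeZero d] {T : Type*} {A : Type}

/-- label of the root half-edge -/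
def lb (ξ : Conf d (Fin d × T)) : Fin d := (ξ TW.nil).1

/-- vertex datum at the root -/
def dt (ξ : Conf d (Fin d × T)) : T := (ξ TW.nil).2

/-- apply a map to the vertex data -/
def mapC {T' : Type*} (q : T → T') (ξ : Conf d (Fin d × T)) : Conf d (Fin d × T') :=
  fun w => ((ξ w).1, q (ξ w).2)

/-- vertex view of radius `r`, in absolute port numbering -/
def vview : (r : ℕ) → Conf d (Fin d × A) → View A (Fin d) r
  | 0, ξ => dt ξ
  | r + 1, ξ => (dt ξ, fun i => (lb (step (i - lb ξ) ξ), vview r (step (i - lb ξ) ξ)))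

theorem lb_conf {V : Type*} (p : V × Fin d → V × Fin d) (f : V → T) (h : V × Fin d) :
    lb (conf p (lab f) h) = h.2 := rfl

theorem dt_conf {V : Type*} (p : V × Fin d → V × Fin d) (f : V → T) (h : V × Fin d) :
    dt (conf p (lab f) h) = f h.1 := rfl

theorem mapC_conf {V : Type*} {T' : Type*} (q : T → T') (p : V × Fin d → V × Fin d) (f : V → T)
    (h : V × Fin d) : mapC q (conf p (lab f) h) = conf p (lab fun v => q (f v)) h := rfl

theorem mapC_cross {T' : Type*} (q : T → T') (ξ : Conf d (Fin d × T)) :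
    mapC q (cross ξ) = cross (mapC q ξ) := rfl

theorem mapC_rotn {T' : Type*} (q : T → T') (i : Fin d) (ξ : Conf d (Fin d × T)) :
    mapC q (rotn i ξ) = rotn i (mapC q ξ) := by
  funext w
  by_cases h : w = TW.nil
  · simp only [mapC, rotn, h, if_true]; rfl
  · simp only [mapC, rotn, h, if_false]

theorem mapC_step {T' : Type*} (q : T → T') (i : Fin d) (ξ : Conf d (Fin d × T)) :
    mapC q (step i ξ) = step i (mapC q ξ) := by
  rw [step, mapC_cross, mapC_rotn]; rfl

theorem lb_mapC {T' : Type*} (q : T → T') (ξ : Conf d (Fin d × T)) : lb (mapC q ξ) = lb ξ := rfl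

theorem dt_mapC {T' : Type*} (q : T → T') (ξ : Conf d (Fin d × T)) :
    dt (mapC q ξ) = q (dt ξ) := rfl

theorem lb_rotn (i : Fin d) (ξ : Conf d (Fin d × T)) : lb (rotn i ξ) = lb ξ + i := by
  simp only [lb, rotn, if_true]; rfl

theorem dt_rotn (i : Fin d) (ξ : Conf d (Fin d × T)) : dt (rotn i ξ) = dt ξ := by
  simp only [dt, rotn, if_true]; rfl

theorem step_rotn (i j : Fin d) (ξ : Conf d (Fin d × T)) :
    step i (rotn j ξ) = step (i + j) ξ := by
  rw [step, rotn_rotn]; rfl

theorem vview_zero (ξ : Conf d (Fin d × A)) : vview 0 ξ = dt ξ := rfl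

theorem vview_succ (r : ℕ) (ξ : Conf d (Fin d × A)) : vview (r + 1) ξ =
    (dt ξ, fun i => (lb (step (i - lb ξ) ξ), vview r (step (i - lb ξ) ξ))) := rfl

/-- the vertex view does not depend on the root port -/
theorem vview_rotn (r : ℕ) (j : Fin d) (ξ : Conf d (Fin d × A)) :
    vview r (rotn j ξ) = vview r ξ := by
  cases r with
  | zero => exact dt_rotn j ξ
  | succ r =>
    rw [vview_succ, vview_succ, dt_rotn, lb_rotn]
    have : ∀ i : Fin d, step (i - (lb ξ + j)) (rotn j ξ) = step (i - lb ξ) ξ := fun i => by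
      rw [step_rotn]
      congr 1
      abel
    exact congrArg (fun f => ((dt ξ, f) : A × (Fin d → Fin d × View A (Fin d) r)))
      (funext fun i => by rw [this])

/-- the view of a finite graph -/
theorem vview_conf {V : Type} (p : V × Fin d → V × Fin d) (hp : ∀ h, p (p h) = h)
    (f : V → A) (r : ℕ) (h : V × Fin d) : vview r (conf p (lab f) h) = viewOf p f r h.1 := by
  induction r generalizing h with
  | zero => rfl
  | succ r ih =>
    have h1 : ∀ i : Fin d, step (i - lb (conf p (lab f) h)) (conf p (lab f) h) =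
        conf p (lab f) (p (h.1, i)) := fun i => by
      rw [lb_conf, ← conf_step p hp (lab f) (fun v l i => lab_rot f v l i)]
      congr 3
      abel
    rw [vview_succ, dt_conf]
    have h2 : (fun i => (lb (step (i - lb (conf p (lab f) h)) (conf p (lab f) h)),
        vview r (step (i - lb (conf p (lab f) h)) (conf p (lab f) h)))) =
        fun i => ((p (h.1, i)).2, viewOf p f r (p (h.1, i)).1) := by
      funext i
      rw [h1, ih, lb_conf]
    rw [h2]
    rfl

/-- navigation in a view: label and datum reached by the word `w` (relative to the root label) -/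
def nav : (r : ℕ) → Fin d → View A (Fin d) r → List (Fin d) → Fin d × A
  | 0, l, x, _ => (l, x)
  | _ + 1, l, x, [] => (l, x.1)
  | r + 1, l, x, i :: w => nav r (x.2 (i + l)).1 (x.2 (i + l)).2 w

theorem nav_vview (r : ℕ) (w : List (Fin d)) (hw : w.length ≤ r) (ξ : Conf d (Fin d × A)) :
    nav r (lb ξ) (vview r ξ) w = reroot w ξ TW.nil := by
  induction r generalizing w ξ with
  | zero =>
    have : w = [] := List.length_eq_zero_iff.1 (Nat.le_zero.1 hw)
    subst this
    rfl
  | succ r ih =>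
    cases w with
    | nil => rfl
    | cons i w =>
      have hw' : w.length ≤ r := by simpa using hw
      rw [vview_succ]
      show nav r (lb (step (i + lb ξ - lb ξ) ξ)) (vview r (step (i + lb ξ - lb ξ) ξ)) w = _
      rw [add_sub_cancel_right, ih w hw' (step i ξ)]
      rfl

/-- label and datum at the tree vertex `w` from the view -/
theorem nav_vview_TW (r : ℕ) (w : TW d) (hw : w.len ≤ r) (ξ : Conf d (Fin d × A)) :
    nav r (lb ξ) (vview r ξ) w.1 = ξ w := by
  rw [nav_vview r w.1 hw, reroot_nil]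


end Crest.Agent.R166.View47
end

-- ▼ part R166/View2_47
section

/-!
Row 166, sections 40.8-40.10 (helper47): what a vertex view knows; one-sided views and outward
words; refinement.
-/

set_option autoImplicit false

namespace Crest.Agent.R166.View47

open MeasureTheory Crest.Agent.R166.Words955 Crest.Agent.R166.Upp724
  Crest.Agent.R166.EntTree397 Crest.Agent.R166.Ent397 Crest.Agent.R166.Lim47

section det

variable {d : ℕ} [NeZero d] {T : Type*} {A A' : Type}

theorem len_cr_le (w : TW d) : (TW.cr w).len ≤ w.len + 1 := by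
  obtain ⟨w, hw⟩ := w
  cases w with
  | nil => simp [TW.cr, TW.crL, TW.len]
  | cons a w =>
    by_cases ha : a = 0
    · simp only [TW.cr, TW.crL, ha, if_true, TW.len, List.length_cons]; omega
    · simp [TW.cr, TW.crL, ha, TW.len]

theorem rotn_congr {r : ℕ} {ξ ξ' : Conf d (Fin d × T)} (h : ∀ w : TW d, w.len ≤ r → ξ w = ξ' w)
    (j : Fin d) : ∀ w : TW d, w.len ≤ r → rotn j ξ w = rotn j ξ' w := by
  intro w hw
  by_cases h0 : w = TW.nil
  · subst h0
    simp only [rotn, if_true, h _ hw]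
  · simp only [rotn, h0, if_false]
    exact h _ (by rw [TW.len_rt]; exact hw)

theorem step_congr {r : ℕ} {ξ ξ' : Conf d (Fin d × T)}
    (h : ∀ w : TW d, w.len ≤ r + 1 → ξ w = ξ' w) (j : Fin d) :
    ∀ w : TW d, w.len ≤ r → step j ξ w = step j ξ' w := by
  intro w hw
  exact rotn_congr h j _ ((len_cr_le w).trans (by omega))

/-- the view is determined by the values on the ball -/
theorem vview_congr (r : ℕ) {ξ ξ' : Conf d (Fin d × A)}
    (h : ∀ w : TW d, w.len ≤ r → ξ w = ξ' w) : vview r ξ = vview r ξ' := by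
  induction r generalizing ξ ξ' with
  | zero =>
    rw [vview_zero, vview_zero, dt, dt, h TW.nil (by simp [TW.len, TW.nil])]
  | succ r ih =>
    have h0 : ξ TW.nil = ξ' TW.nil := h TW.nil (by simp [TW.len, TW.nil])
    have hd : dt ξ = dt ξ' := by rw [dt, dt, h0]
    have hl : lb ξ = lb ξ' := by rw [lb, lb, h0]
    rw [vview_succ, vview_succ, hd, hl]
    have h2 : (fun i => (lb (step (i - lb ξ') ξ), vview r (step (i - lb ξ') ξ))) =
        fun i => (lb (step (i - lb ξ') ξ'), vview r (step (i - lb ξ') ξ')) := by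
      funext i
      have h3 := step_congr (r := r) h (i - lb ξ')
      have h4 : lb (step (i - lb ξ') ξ) = lb (step (i - lb ξ') ξ') :=
        congrArg Prod.fst (h3 TW.nil (by simp [TW.len, TW.nil]))
      rw [ih h3, h4]
    rw [h2]

/-- the pair (label, view) determines the values on the ball -/
theorem ball_of_vview (r : ℕ) {ξ ξ' : Conf d (Fin d × A)} (hl : lb ξ = lb ξ')
    (hv : vview r ξ = vview r ξ') : ∀ w : TW d, w.len ≤ r → ξ w = ξ' w := by
  intro w hw
  rw [← nav_vview_TW r w hw ξ, ← nav_vview_TW r w hw ξ', hl, hv]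

/-- refinement of views -/
theorem vview_ref {r r' : ℕ} (hr : r ≤ r') (q : T → A) (q' : T → A')
    (hq : ∀ x x', q' x = q' x' → q x = q x') {ξ ξ' : Conf d (Fin d × T)}
    (hl : lb ξ = lb ξ') (hv : vview r' (mapC q' ξ) = vview r' (mapC q' ξ')) :
    vview r (mapC q ξ) = vview r (mapC q ξ') := by
  refine vview_congr r fun w hw => ?_
  have h := ball_of_vview r' (ξ := mapC q' ξ) (ξ' := mapC q' ξ') hl hv w (hw.trans hr)
  simp only [mapC, Prod.mk.injEq] at h ⊢
  exact ⟨h.1, hq _ _ h.2⟩

end det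

section meas

variable {d : ℕ} [NeZero d] {T : Type*} [MeasurableSpace T] {A : Type} [Finite A]

theorem measurable_lb : Measurable (lb : Conf d (Fin d × T) → Fin d) :=
  measurable_fst.comp (measurable_pi_apply _)

theorem measurable_dt : Measurable (dt : Conf d (Fin d × T) → T) :=
  measurable_snd.comp (measurable_pi_apply _)

theorem measurable_rs (i : Fin d) : Measurable (PortAct.rs i : Fin d × T → Fin d × T) := by
  refine Measurable.prodMk ?_ measurable_snd
  exact (measurable_from_top (f := fun l : Fin d => l + i)).comp measurable_fst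


theorem FM_lb : FM (lb : Conf d (Fin d × T) → Fin d) := fun a =>
  measurable_lb (measurableSet_singleton a)

theorem FM_vview (r : ℕ) {q : T → A} (hq : FM q) :
    FM (fun ξ : Conf d (Fin d × T) => vview r (mapC q ξ)) := by
  by_cases hT : Nonempty (Conf d (Fin d × T))
  · have hY : FM (fun ξ : Conf d (Fin d × T) => fun w : TW.ball d r => mapC q ξ w.1) := by
      refine FM.pi fun w => ?_
      refine FM.pair (X := fun ξ : Conf d (Fin d × T) => (ξ w.1).1)
        (Y := fun ξ : Conf d (Fin d × T) => q (ξ w.1).2) ?_ ?_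
      · intro a
        exact (measurable_fst.comp (measurable_pi_apply w.1)) (measurableSet_singleton a)
      · exact hq.comp_right (measurable_snd.comp (measurable_pi_apply w.1))
    refine FM_of_det hY fun ξ ξ' h => vview_congr r fun w hw => ?_
    exact congrFun h ⟨w, TW.mem_ball.2 hw⟩
  · intro a
    have : (fun ξ : Conf d (Fin d × T) => vview r (mapC q ξ)) ⁻¹' {a} = ∅ := by
      ext ξ
      exact absurd ⟨ξ⟩ hT
    rw [this]; exact MeasurableSet.empty

end meas

section outward

variable {Ω : Type*} {A B : Type} {m : ℕ}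

/-- one-sided views are monotone in the information of the colour -/
theorem S_ref {c : Ω → A} {c' : Ω → B} {π ρ : Ω → Ω} (hc : ∀ h h', c' h = c' h' → c h = c h')
    (r : ℕ) : ∀ h h' : Ω, (S c' π ρ r h : ST B m r) = S c' π ρ r h' →
      (S c π ρ r h : ST A m r) = S c π ρ r h' := by
  induction r with
  | zero => exact hc
  | succ r ih =>
    intro h h' e
    rw [S_succ_eq_iff] at e ⊢
    exact ⟨hc _ _ e.1, fun k => ih _ _ (e.2 k)⟩

/-- the one-sided view determines the colours at the outward words -/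
theorem S_wd {c : Ω → A} {π ρ : Ω → Ω} (w : List ℕ) (hw : B2.OutW (m + 1) w) :
    ∀ (R : ℕ), w.length ≤ R → ∀ h h' : Ω, (S c π ρ R h : ST A m R) = S c π ρ R h' →
      c (B2.wd π ρ w h) = c (B2.wd π ρ w h') := by
  induction w with
  | nil =>
    intro R _ h h' e
    exact S_det_zero c π ρ R h h' e
  | cons j w ih =>
    intro R hR h h' e
    cases R with
    | zero => simp at hR
    | succ R =>
      rw [S_succ_eq_iff] at e
      obtain ⟨h1, h2⟩ := hw j (by simp)
      have h3 := e.2 ⟨j - 1, by omega⟩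
      have h4 : j - 1 + 1 = j := by omega
      simp only [h4] at h3
      exact ih (fun i hi => hw i (by simp [hi])) R (by simpa using hR) _ _ h3

end outward

end Crest.Agent.R166.View47
end

-- ▼ part R166/Lev_47

/-!
Row 166, section 40.10 (helper47): the level-`m` quantisation.

* `cell L D M x` : index of the cell `[-L + D i, -L + D (i+1))`, `i < M`, clipped;
* values: `L = 2^m`, `D = 8^-m`, `M = 2 * 16^m` (so `L * D → 0`);
* potential: `L = 1`, `D = 2 / 2^m`, `M = 2^m`;
* `RefQ` : refining sequences of quantisers.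
-/

set_option autoImplicit false

namespace Crest.Agent.R166.Lev47

open MeasureTheory Filter Topology Crest.Agent.R166.Words955 Crest.Agent.R166.Upp724
  Crest.Agent.R166.EntTree397 Crest.Agent.R166.Ent397 Crest.Agent.R166.Lim47
  Crest.Agent.R166.View47

/-- index of the cell of `x` -/
noncomputable def cell (L D : ℝ) (M : ℕ) [NeZero M] (x : ℝ) : Fin M :=
  ⟨min (M - 1) ⌊(x + L) / D⌋₊, by have := NeZero.pos M; omega⟩

theorem measurable_cell (L D : ℝ) (M : ℕ) [NeZero M] : Measurable (cell L D M) := by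
  have h1 : Measurable fun x : ℝ => min (M - 1) ⌊(x + L) / D⌋₊ :=
    measurable_const.min (Nat.measurable_floor.comp ((measurable_id.add_const L).div_const D))
  have h2 : cell L D M = (fun j : ℕ => (Fin.ofNat M j)) ∘ fun x : ℝ => min (M - 1) ⌊(x + L) / D⌋₊ := by
    funext x
    apply Fin.ext
    simp only [cell, Function.comp, Fin.ofNat]
    rw [Nat.mod_eq_of_lt]
    have := NeZero.pos M; omega
  rw [h2]
  exact measurable_from_top.comp h1

theorem FM_cell (L D : ℝ) (M : ℕ) [NeZero M] : FM (cell L D M) := fun b =>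
  measurable_cell L D M (measurableSet_singleton b)

/-- the lower end point of the cell of `x` is `D`-close to `x` -/
theorem abs_lo_sub {L D : ℝ} (hD : 0 < D) {M : ℕ} [NeZero M] {x : ℝ} (h1 : -L ≤ x)
    (h2 : x ≤ -L + D * M) : |lo L D (cell L D M x) - x| ≤ D := by
  have hM : 1 ≤ M := NeZero.pos M
  have hu : 0 ≤ (x + L) / D := div_nonneg (by linarith) hD.le
  have hf1 : (⌊(x + L) / D⌋₊ : ℝ) ≤ (x + L) / D := Nat.floor_le hu
  have hf2 : (x + L) / D < ⌊(x + L) / D⌋₊ + 1 := Nat.lt_floor_add_one _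
  rw [le_div_iff₀ hD] at hf1
  rw [div_lt_iff₀ hD] at hf2
  unfold lo cell
  simp only
  rcases le_or_gt ⌊(x + L) / D⌋₊ (M - 1) with h | h
  · rw [min_eq_right h, abs_le]
    constructor <;> nlinarith
  · rw [min_eq_left h.le, abs_le, Nat.cast_sub hM]
    have h3 : (M : ℝ) ≤ ⌊(x + L) / D⌋₊ := by exact_mod_cast (by omega : M ≤ ⌊(x + L) / D⌋₊)
    push_cast
    constructor <;> nlinarith

/-- the representative is not much larger than the value -/
theorem abs_lo_cell_le {L D : ℝ} (hD : 0 < D) (hL : 0 ≤ L) {M : ℕ} [NeZero M]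
    (hM : D * M = 2 * L) (x : ℝ) : |lo L D (cell L D M x)| ≤ |x| + D := by
  have hM1 : 1 ≤ M := NeZero.pos M
  rcases lt_or_ge x (-L) with h | h
  · have h0 : ⌊(x + L) / D⌋₊ = 0 := Nat.floor_of_nonpos (div_nonpos_of_nonpos_of_nonneg (by linarith)
      hD.le)
    have h1 : lo L D (cell L D M x) = -L := by
      unfold lo cell; simp [h0]
    rw [h1, abs_neg, abs_of_nonneg hL, abs_of_neg (by linarith)]
    linarith
  · rcases le_or_gt x L with h' | h'
    · have := abs_lo_sub hD (M := M) h (by linarith)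
      calc |lo L D (cell L D M x)| = |(lo L D (cell L D M x) - x) + x| := by ring_nf
        _ ≤ |lo L D (cell L D M x) - x| + |x| := abs_add_le _ _
        _ ≤ _ := by linarith
    · have h2 : |lo L D (cell L D M x)| ≤ L := lo_abs hD (by linarith) _
      rw [abs_of_nonneg (by linarith : (0 : ℝ) ≤ x)]
      linarith

/-- refining sequence of finite quantisers -/
structure RefQ {B : ℕ → Type} (q : ∀ m, ℝ → B m) (rep : ∀ m, B m → ℝ) (S : Set ℝ) : Prop where
  fm : ∀ m, FM (q m)
  ref : ∀ m x x', q (m + 1) x = q (m + 1) x' → q m x = q m x'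
  lim : ∀ x ∈ S, Tendsto (fun m => rep m (q m x)) atTop (𝓝 x)

theorem RefQ.ref_le {B : ℕ → Type} {q : ∀ m, ℝ → B m} {rep : ∀ m, B m → ℝ} {S : Set ℝ}
    (h : RefQ q rep S) {m m' : ℕ} (hm : m ≤ m') (x x' : ℝ) (hx : q m' x = q m' x') :
    q m x = q m x' := by
  induction m', hm using Nat.le_induction with
  | base => exact hx
  | succ n _ ih => exact ih (h.ref n x x' hx)

theorem RefQ.measurable {B : ℕ → Type} [∀ m, Finite (B m)] {q : ∀ m, ℝ → B m}
    {rep : ∀ m, B m → ℝ} {S : Set ℝ} (h : RefQ q rep S) {α : Type*} [MeasurableSpace α]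
    {Y : α → ℝ} (hS : ∀ a, Y a ∈ S) (m0 : ℕ) (hY : ∀ m, m0 ≤ m → FM fun a => q m (Y a)) :
    Measurable Y := by
  have h1 : ∀ m : ℕ, Measurable fun a : α => rep (m + m0) (q (m + m0) (Y a)) := by
    intro m
    intro s _
    exact (hY (m + m0) (by omega)).preimage (rep (m + m0) ⁻¹' s)
  refine measurable_of_tendsto_metrizable h1 (tendsto_pi_nhds.mpr fun a => ?_)
  exact (h.lim (Y a) (hS a)).comp (tendsto_add_atTop_nat m0)

/-! ### The values -/

instance (m : ℕ) : NeZero (2 * 16 ^ m) := ⟨by positivity⟩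

instance (m : ℕ) : NeZero (2 ^ m) := ⟨by positivity⟩

/-- quantisation of the values -/
noncomputable def yq (m : ℕ) (x : ℝ) : Fin (2 * 16 ^ m) := cell (2 ^ m) ((1 / 8) ^ m) (2 * 16 ^ m) x

/-- representatives of the values -/
noncomputable def yrep (m : ℕ) (i : Fin (2 * 16 ^ m)) : ℝ := lo (2 ^ m) ((1 / 8) ^ m) i

/-- quantisation of the potential -/
noncomputable def oq (m : ℕ) (x : ℝ) : Fin (2 ^ m) := cell 1 (2 * (1 / 2) ^ m) (2 ^ m) x

/-- representatives of the potential -/
noncomputable def orep (m : ℕ) (i : Fin (2 ^ m)) : ℝ := lo 1 (2 * (1 / 2) ^ m) i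

theorem D_mul_M_y (m : ℕ) : ((1 / 8 : ℝ)) ^ m * ((2 * 16 ^ m : ℕ) : ℝ) = 2 * 2 ^ m := by
  push_cast
  rw [show (1 / 8 : ℝ) ^ m * (2 * 16 ^ m) = 2 * ((1 / 8) ^ m * 16 ^ m) by ring, ← mul_pow]
  norm_num

theorem D_mul_M_o (m : ℕ) : (2 * (1 / 2 : ℝ) ^ m) * ((2 ^ m : ℕ) : ℝ) = 2 * 1 := by
  push_cast
  rw [mul_assoc, ← mul_pow]
  norm_num

theorem yq_val (m : ℕ) (x : ℝ) :
    (yq m x : ℕ) = min (2 * 16 ^ m - 1) (⌊x * 8 ^ m⌋ + 16 ^ m).toNat := by
  unfold yq cell
  simp only
  have h : (x + 2 ^ m) / (1 / 8 : ℝ) ^ m = x * 8 ^ m + ((16 ^ m : ℤ) : ℝ) := by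
    rw [div_pow, one_pow, div_div_eq_mul_div, div_one, add_mul, ← mul_pow]
    push_cast
    norm_num
  rw [h, ← Int.floor_toNat, Int.floor_add_intCast]

theorem oq_val (m : ℕ) (x : ℝ) :
    (oq m x : ℕ) = min (2 ^ m - 1) (⌊((x + 1) / 2) * 2 ^ m⌋).toNat := by
  unfold oq cell
  simp only
  have h : (x + 1) / (2 * (1 / 2 : ℝ) ^ m) = ((x + 1) / 2) * 2 ^ m := by
    rw [div_pow, one_pow]
    have : (2 : ℝ) ^ m ≠ 0 := by positivity
    field_simp
  rw [h, ← Int.floor_toNat]

theorem floor_eighth (x : ℝ) (m : ℕ) : ⌊x * 8 ^ m⌋ = ⌊x * 8 ^ (m + 1)⌋ / 8 := by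
  have h : x * 8 ^ m = (x * 8 ^ (m + 1)) / ((8 : ℕ) : ℝ) := by
    rw [pow_succ]; push_cast; ring
  rw [h, Int.floor_div_natCast]
  rfl

theorem yq_ref (m : ℕ) (x x' : ℝ) (h : yq (m + 1) x = yq (m + 1) x') : yq m x = yq m x' := by
  have h1 : (yq (m + 1) x : ℕ) = yq (m + 1) x' := by rw [h]
  apply Fin.ext
  rw [yq_val, yq_val] at h1 ⊢
  rw [floor_eighth x m, floor_eighth x' m]
  set j := ⌊x * 8 ^ (m + 1)⌋
  set j' := ⌊x' * 8 ^ (m + 1)⌋
  have e : (16 : ℕ) ^ (m + 1) = 16 * 16 ^ m := by rw [pow_succ]; ring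
  have e' : (16 : ℤ) ^ (m + 1) = 16 * 16 ^ m := by rw [pow_succ]; ring
  rw [e, e'] at h1
  have hc : (16 : ℤ) ^ m = ((16 ^ m : ℕ) : ℤ) := by push_cast; rfl
  rw [hc] at h1 ⊢
  have hP : 1 ≤ 16 ^ m := Nat.one_le_pow _ _ (by norm_num)
  set P : ℕ := 16 ^ m
  omega

theorem oq_ref (m : ℕ) (x x' : ℝ) (h : oq (m + 1) x = oq (m + 1) x') : oq m x = oq m x' := by
  have h1 : (oq (m + 1) x : ℕ) = oq (m + 1) x' := by rw [h]
  apply Fin.ext
  rw [oq_val, oq_val] at h1 ⊢
  rw [floor_half ((x + 1) / 2) m, floor_half ((x' + 1) / 2) m]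
  set j := ⌊(x + 1) / 2 * 2 ^ (m + 1)⌋
  set j' := ⌊(x' + 1) / 2 * 2 ^ (m + 1)⌋
  have e : (2 : ℕ) ^ (m + 1) = 2 * 2 ^ m := by rw [pow_succ]; ring
  rw [e] at h1
  have hP : 1 ≤ 2 ^ m := Nat.one_le_pow _ _ (by norm_num)
  set P : ℕ := 2 ^ m
  omega

theorem refQ_y : RefQ (fun m => yq m) (fun m => yrep m) Set.univ where
  fm m := FM_cell _ _ _
  ref := yq_ref
  lim x _ := by
    have hD : Tendsto (fun m : ℕ => (1 / 8 : ℝ) ^ m) atTop (𝓝 0) :=
      tendsto_pow_atTop_nhds_zero_of_lt_one (by norm_num) (by norm_num)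
    rw [tendsto_iff_norm_sub_tendsto_zero]
    obtain ⟨m0, hm0⟩ := pow_unbounded_of_one_lt (|x|) (by norm_num : (1 : ℝ) < 2)
    refine squeeze_zero' (Eventually.of_forall fun m => norm_nonneg _) ?_ hD
    filter_upwards [eventually_ge_atTop m0] with m hm
    have h2 : |x| < 2 ^ m := hm0.trans_le (pow_le_pow_right₀ (by norm_num) hm)
    obtain ⟨h3, h4⟩ := abs_lt.1 h2
    rw [Real.norm_eq_abs]
    exact abs_lo_sub (by positivity) h3.le (by rw [D_mul_M_y]; linarith)

theorem refQ_o : RefQ (fun m => oq m) (fun m => orep m) (Set.Icc (-1) 1) where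
  fm m := FM_cell _ _ _
  ref := oq_ref
  lim x hx := by
    have hD : Tendsto (fun m : ℕ => 2 * (1 / 2 : ℝ) ^ m) atTop (𝓝 0) := by
      have := (tendsto_pow_atTop_nhds_zero_of_lt_one (by norm_num : (0 : ℝ) ≤ 1 / 2)
        (by norm_num)).const_mul 2
      simpa using this
    rw [tendsto_iff_norm_sub_tendsto_zero]
    refine squeeze_zero (fun m => norm_nonneg _) (fun m => ?_) hD
    rw [Real.norm_eq_abs]
    exact abs_lo_sub (by positivity) hx.1 (by rw [D_mul_M_o]; linarith [hx.2])

end Crest.Agent.R166.Lev47
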