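import Mathlib
import Crest.Agent.R166.Words_955
import Crest.Agent.R166.Ports_269

-- ▼ part R166/L2G_879
section

/-!
# Row 166 (helper879): Green functions of locally finite graphs on `ℓ²`

`Op V D M` : symmetric graph on `V` (finite neighbour sets `nb`), degree `≤ D`, potential `v`,
`|v| ≤ M`.  `H.G z x y` : Green function (`Im z > 0`), conventions as for `Res`
(`(H - z) G = 1`).

* `G_eqn`, `norm_G_le`, `G_symm`, `ward`, `im_G_pos`, `sum_im_G_nonneg/pos`, `G_conj`, `eq_of_ap`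
  (uniqueness in `ℓ²`), `summable_G`
* `cut S` (all edges outside `S` removed), `IsBridge S u v`, `IsBridge.G_off/G_in/G_step/G_vu/G_uu`
  (multiplicativity and the edge block in terms of the cavity numbers), `G_rec`, `cut_rec`
  (recursion of the cavity numbers)
* `pw`, `pk` (powers, polynomials), `norm_G_sub_pk_le` (uniform polynomial approximation),
  `norm_G_sub_G_le` (locality, comparison along local isomorphisms), `G_equiv` (equivariance)
* `norm_G_sub_le` (Lipschitz in `z`), `continuous_G`, `continuous_G_joint`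
* `inv_mat` (finite graphs: `G` is the inverse matrix)
-/

set_option autoImplicit false
set_option linter.unusedSectionVars false
set_option linter.unnecessarySeqFocus false
noncomputable section
open scoped ENNReal InnerProductSpace
open Finset

namespace Crest.Agent.R166.L2G879

/-- locally finite symmetric graph of degree at most `D` with a real potential bounded by `M` -/
structure Op (V : Type*) (D : ℕ) (M : ℝ) where
  nb : V → Finset V
  v : V → ℝ
  symm : ∀ x y, y ∈ nb x → x ∈ nb y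
  deg : ∀ x, (nb x).card ≤ D
  bdd : ∀ x, |v x| ≤ M

variable {V : Type*} {D : ℕ} {M : ℝ} (H : Op V D M)

namespace Op

lemma mem_comm {x y : V} : y ∈ H.nb x ↔ x ∈ H.nb y := ⟨H.symm x y, H.symm y x⟩

lemma M_nonneg (H : Op V D M) (x : V) : 0 ≤ M := (abs_nonneg _).trans (H.bdd x)

/-- the action of the operator on arbitrary functions -/
def ap (f : V → ℂ) (x : V) : ℂ := ∑ y ∈ H.nb x, f y + (H.v x : ℂ) * f x

lemma sum_nb_le (g : V → ℝ) (hg : ∀ x, 0 ≤ g x) (hs : Summable g) (s : Finset V) :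
    ∑ x ∈ s, ∑ y ∈ H.nb x, g y ≤ D * ∑' x, g x := by
  classical
  have h1 : ∑ x ∈ s, ∑ y ∈ H.nb x, g y =
      ∑ y ∈ s.biUnion H.nb, ∑ x ∈ s.filter (fun x => y ∈ H.nb x), g y := by
    refine Finset.sum_comm' fun x y => ?_
    simp only [Finset.mem_filter, Finset.mem_biUnion]
    constructor
    · rintro ⟨hx, hy⟩; exact ⟨⟨hx, hy⟩, ⟨x, hx, hy⟩⟩
    · rintro ⟨⟨hx, hy⟩, _⟩; exact ⟨hx, hy⟩
  rw [h1]
  have h2 : ∑ y ∈ s.biUnion H.nb, ∑ x ∈ s.filter (fun x => y ∈ H.nb x), g y ≤
      ∑ y ∈ s.biUnion H.nb, D * g y := by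
    refine Finset.sum_le_sum fun y _ => ?_
    rw [Finset.sum_const, nsmul_eq_mul]
    refine mul_le_mul_of_nonneg_right ?_ (hg y)
    have : s.filter (fun x => y ∈ H.nb x) ⊆ H.nb y := by
      intro x hx
      rw [Finset.mem_filter] at hx
      exact H.symm _ _ hx.2
    exact_mod_cast (Finset.card_le_card this).trans (H.deg y)
  refine h2.trans ?_
  rw [← Finset.mul_sum]
  exact mul_le_mul_of_nonneg_left (hs.sum_le_tsum _ fun x _ => hg x) (Nat.cast_nonneg _)

/-- the norm bound used below -/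
def Lam (D : ℕ) (M : ℝ) : ℝ := (D + 1) * (D + M ^ 2) + 1

lemma Lam_pos (D : ℕ) (M : ℝ) : 0 < Lam D M := by unfold Lam; positivity

lemma norm_ap_sq_le (f : V → ℂ) (x : V) :
    ‖H.ap f x‖ ^ 2 ≤ (D + 1) * (∑ y ∈ H.nb x, ‖f y‖ ^ 2 + M ^ 2 * ‖f x‖ ^ 2) := by
  have hM := H.M_nonneg x
  have h1 : ‖∑ y ∈ H.nb x, f y‖ ^ 2 ≤ D * ∑ y ∈ H.nb x, ‖f y‖ ^ 2 := by
    have e1 : ‖∑ y ∈ H.nb x, f y‖ ≤ ∑ y ∈ H.nb x, ‖f y‖ := norm_sum_le _ _
    have e2 : (∑ y ∈ H.nb x, ‖f y‖) ^ 2 ≤ (H.nb x).card * ∑ y ∈ H.nb x, ‖f y‖ ^ 2 :=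
      sq_sum_le_card_mul_sum_sq
    have e3 : ((H.nb x).card : ℝ) ≤ D := by exact_mod_cast H.deg x
    calc ‖∑ y ∈ H.nb x, f y‖ ^ 2 ≤ (∑ y ∈ H.nb x, ‖f y‖) ^ 2 := by gcongr
      _ ≤ (H.nb x).card * ∑ y ∈ H.nb x, ‖f y‖ ^ 2 := e2
      _ ≤ _ := by gcongr
  have h2 : ‖(H.v x : ℂ) * f x‖ ^ 2 ≤ M ^ 2 * ‖f x‖ ^ 2 := by
    rw [norm_mul, mul_pow, Complex.norm_real, Real.norm_eq_abs]
    gcongr
    exact H.bdd x
  have h3 : ‖H.ap f x‖ ≤ ‖∑ y ∈ H.nb x, f y‖ + ‖(H.v x : ℂ) * f x‖ := norm_add_le _ _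
  set a := ‖∑ y ∈ H.nb x, f y‖
  set b := ‖(H.v x : ℂ) * f x‖
  set P := ∑ y ∈ H.nb x, ‖f y‖ ^ 2
  have hP : 0 ≤ P := Finset.sum_nonneg fun _ _ => by positivity
  have ha : 0 ≤ a := norm_nonneg _
  have hb : 0 ≤ b := norm_nonneg _
  have h4 : ‖H.ap f x‖ ^ 2 ≤ (a + b) ^ 2 := by gcongr
  refine h4.trans ?_
  -- (a+b)^2 ≤ (D+1)(P + b^2)
  have hkey : (a + b) ^ 2 ≤ (D + 1) * (P + b ^ 2) := by
    rcases Nat.eq_zero_or_pos D with h0 | h0
    · rw [h0] at h1
      have ha0 : a = 0 := by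
        have : a ^ 2 ≤ 0 := by simpa using h1
        exact pow_eq_zero_iff (two_ne_zero) |>.1 (le_antisymm this (sq_nonneg _))
      rw [ha0, h0]; simp; exact hP
    · have hD : (0 : ℝ) < D := by exact_mod_cast h0
      have e : (a + b) ^ 2 ≤ (D + 1) * (a ^ 2 / D + b ^ 2) := by
        have : (D + 1) * (a ^ 2 / D + b ^ 2) - (a + b) ^ 2 = (a - D * b) ^ 2 / D := by
          field_simp; ring
        have h := div_nonneg (sq_nonneg (a - D * b)) hD.le
        linarith
      refine e.trans ?_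
      gcongr
      rw [div_le_iff₀ hD]; linarith
  refine hkey.trans ?_
  gcongr

lemma summable_sq (f : lp (fun _ : V => ℂ) 2) : Summable fun x => ‖f x‖ ^ 2 := by
  have h := (lp.memℓp f).summable (by norm_num)
  simpa using h

lemma norm_sq_eq (f : lp (fun _ : V => ℂ) 2) : ‖f‖ ^ 2 = ∑' x, ‖f x‖ ^ 2 := by
  have h := lp.norm_rpow_eq_tsum (by norm_num) f
  simpa using h

lemma sum_ap_le (f : lp (fun _ : V => ℂ) 2) (s : Finset V) :
    ∑ x ∈ s, ‖H.ap f x‖ ^ 2 ≤ (D + 1) * (D + M ^ 2) * ‖f‖ ^ 2 := by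
  have h0 := summable_sq f
  have h1 := H.sum_nb_le (fun x => ‖f x‖ ^ 2) (fun x => by positivity) h0 s
  have h2 : ∑ x ∈ s, ‖f x‖ ^ 2 ≤ ∑' x, ‖f x‖ ^ 2 := h0.sum_le_tsum _ fun x _ => by positivity
  calc ∑ x ∈ s, ‖H.ap f x‖ ^ 2
      ≤ ∑ x ∈ s, (D + 1) * (∑ y ∈ H.nb x, ‖f y‖ ^ 2 + M ^ 2 * ‖f x‖ ^ 2) :=
        Finset.sum_le_sum fun x _ => H.norm_ap_sq_le f x
    _ = (D + 1) * (∑ x ∈ s, ∑ y ∈ H.nb x, ‖f y‖ ^ 2 + M ^ 2 * ∑ x ∈ s, ‖f x‖ ^ 2) := by
        rw [← Finset.mul_sum, Finset.sum_add_distrib, Finset.mul_sum (f := fun x => ‖f x‖ ^ 2)]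
    _ ≤ (D + 1) * (D * ∑' x, ‖f x‖ ^ 2 + M ^ 2 * ∑' x, ‖f x‖ ^ 2) := by gcongr
    _ = _ := by rw [norm_sq_eq]; ring

lemma summable_ap (f : lp (fun _ : V => ℂ) 2) : Summable fun x => ‖H.ap f x‖ ^ 2 :=
  summable_of_sum_le (fun x => by positivity) (H.sum_ap_le f)

lemma tsum_ap_le (f : lp (fun _ : V => ℂ) 2) :
    ∑' x, ‖H.ap f x‖ ^ 2 ≤ (D + 1) * (D + M ^ 2) * ‖f‖ ^ 2 :=
  Real.tsum_le_of_sum_le (fun x => by positivity) (H.sum_ap_le f)

/-- the operator on `ℓ²(V)` as a linear map -/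
def Tlin : lp (fun _ : V => ℂ) 2 →ₗ[ℂ] lp (fun _ : V => ℂ) 2 where
  toFun f := ⟨H.ap f, by
    refine (memℓp_gen_iff (by norm_num)).2 ?_
    simpa using H.summable_ap f⟩
  map_add' f g := by
    ext x
    simp only [ap, lp.coeFn_add, Pi.add_apply, Finset.sum_add_distrib]
    ring
  map_smul' c f := by
    ext x
    simp only [ap, lp.coeFn_smul, Pi.smul_apply, smul_eq_mul, RingHom.id_apply, ← Finset.mul_sum]
    ring


lemma norm_Tlin_le (f : lp (fun _ : V => ℂ) 2) : ‖H.Tlin f‖ ≤ Lam D M * ‖f‖ := by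
  have h1 : ‖H.Tlin f‖ ^ 2 ≤ (D + 1) * (D + M ^ 2) * ‖f‖ ^ 2 := by
    rw [norm_sq_eq]
    exact H.tsum_ap_le f
  have hL : (D + 1) * (D + M ^ 2) ≤ (Lam D M) ^ 2 := by
    have : (0 : ℝ) ≤ (D + 1) * (D + M ^ 2) := by positivity
    unfold Lam; nlinarith
  have h2 : ‖H.Tlin f‖ ^ 2 ≤ (Lam D M * ‖f‖) ^ 2 := by
    rw [mul_pow]
    exact h1.trans (by gcongr)
  exact (pow_le_pow_iff_left₀ (norm_nonneg _) (by have := Lam_pos D M; positivity) two_ne_zero).1 h2

/-- the bounded operator on `ℓ²(V)` -/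
def T : lp (fun _ : V => ℂ) 2 →L[ℂ] lp (fun _ : V => ℂ) 2 :=
  H.Tlin.mkContinuous (Lam D M) H.norm_Tlin_le

lemma T_apply (f : lp (fun _ : V => ℂ) 2) (x : V) : H.T f x = H.ap f x := rfl

lemma norm_T_le : ‖H.T‖ ≤ Lam D M := LinearMap.mkContinuous_norm_le _ (Lam_pos D M).le _

lemma T_single [DecidableEq V] (x y : V) :
    H.T (lp.single 2 x (1 : ℂ)) y = (if x ∈ H.nb y then 1 else 0) +
      if y = x then (H.v x : ℂ) else 0 := by
  rw [T_apply, ap]
  congr 1
  · simp only [lp.single_apply, Pi.single_apply]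
    rw [Finset.sum_ite_eq']
  · rw [lp.single_apply, Pi.single_apply]
    split_ifs with h
    · rw [h, mul_one]
    · rw [mul_zero]

theorem T_selfAdjoint : IsSelfAdjoint H.T := by
  classical
  rw [ContinuousLinearMap.isSelfAdjoint_iff']
  refine lp.ext_continuousLinearMap (ENNReal.ofNat_ne_top (n := nat_lit 2)) fun y => ?_
  ext x
  simp only [ContinuousLinearMap.comp_apply, lp.singleContinuousLinearMap_apply]
  have h1 : (ContinuousLinearMap.adjoint H.T (lp.single 2 y 1)) x =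
      inner ℂ (lp.single 2 x (1 : ℂ)) (ContinuousLinearMap.adjoint H.T (lp.single 2 y 1)) := by
    rw [lp.inner_single_left]; simp
  rw [h1, ContinuousLinearMap.adjoint_inner_right, lp.inner_single_right, T_single, T_single]
  simp only [RCLike.inner_apply, map_add, one_mul]
  have h2 := H.mem_comm (x := x) (y := y)
  by_cases h3 : x = y
  · subst h3; by_cases h4 : x ∈ H.nb x <;> simp [h4]
  · have h3' : ¬ y = x := fun e => h3 e.symm
    by_cases h4 : y ∈ H.nb x
    · simp [h4, h2.1 h4, h3, h3']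
    · have h5 : x ∉ H.nb y := fun e => h4 (h2.2 e)
      simp [h4, h5, h3, h3']

/-! ### The resolvent -/

lemma isUnit_sub {z : ℂ} (hz : z.im ≠ 0) : IsUnit (H.T - algebraMap ℂ _ z) := by
  have h1 : z ∉ spectrum ℂ H.T := by
    intro h
    have h2 := H.T_selfAdjoint.mem_spectrum_eq_re h
    apply hz
    rw [h2]; simp
  have h3 := (spectrum.notMem_iff.1 h1).neg
  simpa using h3

/-- the resolvent operator `(H - z)⁻¹` -/
def R (z : ℂ) : lp (fun _ : V => ℂ) 2 →L[ℂ] lp (fun _ : V => ℂ) 2 :=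
  Ring.inverse (H.T - algebraMap ℂ _ z)

lemma sub_mul_R {z : ℂ} (hz : z.im ≠ 0) : (H.T - algebraMap ℂ _ z) * H.R z = 1 :=
  Ring.mul_inverse_cancel _ (H.isUnit_sub hz)

lemma R_mul_sub {z : ℂ} (hz : z.im ≠ 0) : H.R z * (H.T - algebraMap ℂ _ z) = 1 :=
  Ring.inverse_mul_cancel _ (H.isUnit_sub hz)

lemma T_R {z : ℂ} (hz : z.im ≠ 0) (f : lp (fun _ : V => ℂ) 2) :
    H.T (H.R z f) - z • H.R z f = f := by
  have h := congrArg (fun A => A f) (H.sub_mul_R hz)
  simpa [Algebra.algebraMap_eq_smul_one] using h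

lemma R_T {z : ℂ} (hz : z.im ≠ 0) (f : lp (fun _ : V => ℂ) 2) :
    H.R z (H.T f - z • f) = f := by
  have h := congrArg (fun A => A f) (H.R_mul_sub hz)
  simpa [Algebra.algebraMap_eq_smul_one] using h

/-- the imaginary part of the quadratic form -/
lemma im_inner_T (f : lp (fun _ : V => ℂ) 2) : (inner ℂ f (H.T f)).im = 0 := by
  have h := H.T_selfAdjoint
  rw [ContinuousLinearMap.isSelfAdjoint_iff_isSymmetric] at h
  have h2 := h f f
  have h3 : (starRingEnd ℂ) (inner ℂ f (H.T f)) = inner ℂ f (H.T f) := by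
    rw [inner_conj_symm]; exact h2
  exact Complex.conj_eq_iff_im.1 h3

lemma im_inner_R {z : ℂ} (hz : z.im ≠ 0) (f : lp (fun _ : V => ℂ) 2) :
    (inner ℂ f (H.R z f)).im = z.im * ‖H.R z f‖ ^ 2 := by
  set g := H.R z f with hg
  have h1 : f = H.T g - z • g := (H.T_R hz f).symm
  have h2 : inner ℂ f g = (starRingEnd ℂ) (inner ℂ g (H.T g)) - (starRingEnd ℂ) z * (‖g‖ : ℂ) ^ 2 := by
    rw [inner_conj_symm]
    conv_lhs => rw [h1]
    rw [inner_sub_left, inner_smul_left, inner_self_eq_norm_sq_to_K]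
    simp
  rw [h2]
  have h3 := H.im_inner_T g
  have h4 : ((starRingEnd ℂ) z * (‖g‖ : ℂ) ^ 2).im = - (z.im * ‖g‖ ^ 2) := by
    rw [← Complex.ofReal_pow, Complex.mul_im, Complex.ofReal_im, Complex.ofReal_re]
    simp
  rw [Complex.sub_im, h4, Complex.conj_im, h3]
  ring

lemma norm_R_apply_le {z : ℂ} (hz : 0 < z.im) (f : lp (fun _ : V => ℂ) 2) :
    ‖H.R z f‖ ≤ ‖f‖ / z.im := by
  have h1 := H.im_inner_R hz.ne' f
  have h2 : (inner ℂ f (H.R z f)).im ≤ ‖f‖ * ‖H.R z f‖ :=
    (Complex.im_le_norm _).trans (norm_inner_le_norm _ _)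
  rw [le_div_iff₀ hz]
  rcases (norm_nonneg (H.R z f)).eq_or_lt with h | h
  · rw [← h]; simp
  · have : z.im * ‖H.R z f‖ * ‖H.R z f‖ ≤ ‖f‖ * ‖H.R z f‖ := by nlinarith
    have := le_of_mul_le_mul_right this h
    linarith

lemma norm_R_le {z : ℂ} (hz : 0 < z.im) : ‖H.R z‖ ≤ 1 / z.im :=
  ContinuousLinearMap.opNorm_le_bound _ (by positivity) fun f => by
    rw [one_div_mul_eq_div]; exact H.norm_R_apply_le hz f

/-- Green's function -/
def G (z : ℂ) (x y : V) : ℂ := by
  classical exact H.R z (lp.single 2 y (1 : ℂ)) x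

lemma G_eq [inst : DecidableEq V] (z : ℂ) (x y : V) :
    H.G z x y = H.R z (lp.single 2 y (1 : ℂ)) x := by
  have h : inst = (fun a b => Classical.propDecidable (a = b)) := Subsingleton.elim _ _
  subst h
  rfl

lemma G_eq_inner [DecidableEq V] (z : ℂ) (x y : V) :
    H.G z x y = inner ℂ (lp.single 2 x (1 : ℂ)) (H.R z (lp.single 2 y (1 : ℂ))) := by
  rw [lp.inner_single_left, G_eq]; simp

lemma norm_apply_le (f : lp (fun _ : V => ℂ) 2) (x : V) : ‖f x‖ ≤ ‖f‖ :=
  lp.norm_apply_le_norm (by norm_num) f x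

lemma norm_single_one [DecidableEq V] (y : V) :
    ‖(lp.single 2 y (1 : ℂ) : lp (fun _ : V => ℂ) 2)‖ = 1 := by
  rw [lp.norm_single (by norm_num)]; simp

/-- (G3) -/
theorem norm_G_le {z : ℂ} (hz : 0 < z.im) (x y : V) : ‖H.G z x y‖ ≤ 1 / z.im := by
  classical
  rw [G_eq]
  refine (norm_apply_le _ _).trans ((H.norm_R_apply_le hz _).trans (le_of_eq ?_))
  rw [norm_single_one]

/-- (G1) -/
theorem G_eqn [DecidableEq V] {z : ℂ} (hz : z.im ≠ 0) (x y : V) :
    ∑ x' ∈ H.nb x, H.G z x' y + ((H.v x : ℂ) - z) * H.G z x y = if x = y then 1 else 0 := by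
  have h := congrArg (fun f : lp (fun _ : V => ℂ) 2 => f x) (H.T_R hz (lp.single 2 y (1 : ℂ)))
  simp only [lp.coeFn_sub, Pi.sub_apply, lp.coeFn_smul, Pi.smul_apply, T_apply, ap,
    smul_eq_mul, lp.single_apply, Pi.single_apply] at h
  rw [← h]
  simp only [G_eq]
  ring

/-- square summability of the columns of the Green function -/
theorem summable_G (z : ℂ) (y : V) : Summable fun x => ‖H.G z x y‖ ^ 2 := by
  classical
  simp only [G_eq]
  exact summable_sq _

/-- (G4) uniqueness in `ℓ²` -/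
theorem eq_of_ap {z : ℂ} (hz : z.im ≠ 0) (f g : lp (fun _ : V => ℂ) 2)
    (h : ∀ x, H.ap f x - z * f x = g x) : f = H.R z g := by
  have h1 : H.T f - z • f = g := by
    ext x
    rw [← h x]
    rfl
  rw [← h1, H.R_T hz]


theorem im_G_pos {z : ℂ} (hz : 0 < z.im) (y : V) : 0 < (H.G z y y).im := by
  classical
  rw [G_eq_inner, H.im_inner_R hz.ne']
  have h : H.R z (lp.single 2 y (1 : ℂ)) ≠ 0 := by
    intro h0
    have h1 := H.T_R hz.ne' (lp.single 2 y (1 : ℂ))
    rw [h0, map_zero, smul_zero, sub_zero] at h1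
    have h2 := norm_single_one y
    rw [← h1, norm_zero] at h2
    exact zero_ne_one h2
  have := norm_pos_iff.2 h
  positivity

/-! ### Symmetry and positivity -/

lemma inner_R {z : ℂ} (hz : z.im ≠ 0) (f g : lp (fun _ : V => ℂ) 2) :
    inner ℂ f (H.R z g) = inner ℂ (H.R ((starRingEnd ℂ) z) f) g := by
  have hz' : ((starRingEnd ℂ) z).im ≠ 0 := by simpa using hz
  have h := H.T_selfAdjoint
  rw [ContinuousLinearMap.isSelfAdjoint_iff_isSymmetric] at h
  set a := H.R ((starRingEnd ℂ) z) f with ha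
  set b := H.R z g with hb
  have h1 : f = H.T a - (starRingEnd ℂ) z • a := (H.T_R hz' f).symm
  have h2 : g = H.T b - z • b := (H.T_R hz g).symm
  rw [h1, h2, inner_sub_left, inner_sub_right, inner_smul_left, inner_smul_right]
  rw [show inner ℂ (H.T a) b = inner ℂ a (H.T b) from h a b]
  simp

/-- complex conjugation of the Green function -/
lemma G_conj {z : ℂ} (hz : z.im ≠ 0) (x y : V) :
    (starRingEnd ℂ) (H.G z x y) = H.G ((starRingEnd ℂ) z) x y := by
  classical
  have hz' : ((starRingEnd ℂ) z).im ≠ 0 := by simpa using hz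
  have hmem : Memℓp (fun x => (starRingEnd ℂ) (H.G z x y)) 2 := by
    refine (memℓp_gen_iff (by norm_num)).2 ?_
    simpa using H.summable_G z y
  have h := H.eq_of_ap hz' (⟨_, hmem⟩ : lp (fun _ : V => ℂ) 2) (lp.single 2 y (1 : ℂ)) (by
    intro x
    have h1 := congrArg (starRingEnd ℂ) (H.G_eqn hz x y)
    simp only [map_add, map_sum, map_mul, map_sub, Complex.conj_ofReal] at h1
    simp only [ap, lp.single_apply, Pi.single_apply]
    have e : (starRingEnd ℂ) (if x = y then (1 : ℂ) else 0) = if x = y then 1 else 0 := by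
      split_ifs <;> simp
    rw [e] at h1
    rw [← h1]
    ring)
  have h2 := congrArg (fun f : lp (fun _ : V => ℂ) 2 => f x) h
  simp only at h2
  rw [H.G_eq ((starRingEnd ℂ) z), ← h2]

/-- (G2) -/
theorem G_symm {z : ℂ} (hz : z.im ≠ 0) (x y : V) : H.G z x y = H.G z y x := by
  classical
  have hz' : ((starRingEnd ℂ) z).im ≠ 0 := by simpa using hz
  rw [G_eq_inner, H.inner_R hz, ← inner_conj_symm, ← G_eq_inner, ← H.G_conj hz,
    Complex.conj_conj]

/-- (G3) the imaginary part is a positive kernel -/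
theorem sum_im_G {z : ℂ} (hz : z.im ≠ 0) [DecidableEq V] (s : Finset V) (a : V → ℝ) :
    ∑ x ∈ s, ∑ y ∈ s, a x * a y * (H.G z x y).im =
      z.im * ‖H.R z (∑ x ∈ s, lp.single 2 x (a x : ℂ))‖ ^ 2 := by
  rw [← H.im_inner_R hz, map_sum, sum_inner, Complex.im_sum]
  refine Finset.sum_congr rfl fun x _ => ?_
  rw [inner_sum, Complex.im_sum]
  refine Finset.sum_congr rfl fun y _ => ?_
  have h1 : (lp.single 2 x (a x : ℂ) : lp (fun _ : V => ℂ) 2) =
      (a x : ℂ) • lp.single 2 x (1 : ℂ) := by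
    rw [← lp.single_smul]; simp
  have h2 : (lp.single 2 y (a y : ℂ) : lp (fun _ : V => ℂ) 2) =
      (a y : ℂ) • lp.single 2 y (1 : ℂ) := by
    rw [← lp.single_smul]; simp
  rw [h1, h2, map_smul, inner_smul_left, inner_smul_right, ← G_eq_inner, Complex.conj_ofReal,
    ← mul_assoc, ← Complex.ofReal_mul, Complex.im_ofReal_mul]

theorem sum_im_G_nonneg {z : ℂ} (hz : 0 < z.im) (s : Finset V) (a : V → ℝ) :
    0 ≤ ∑ x ∈ s, ∑ y ∈ s, a x * a y * (H.G z x y).im := by
  classical
  rw [H.sum_im_G hz.ne']; positivity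

theorem sum_im_G_pos {z : ℂ} (hz : 0 < z.im) (s : Finset V) (a : V → ℝ) {x : V} (hx : x ∈ s)
    (ha : a x ≠ 0) : 0 < ∑ x ∈ s, ∑ y ∈ s, a x * a y * (H.G z x y).im := by
  classical
  rw [H.sum_im_G hz.ne']
  have h : H.R z (∑ x ∈ s, lp.single 2 x (a x : ℂ)) ≠ 0 := by
    intro h0
    have h1 := H.T_R hz.ne' (∑ x ∈ s, lp.single 2 x (a x : ℂ))
    rw [h0, map_zero, smul_zero, sub_zero] at h1
    have h2 := congrArg (fun f : lp (fun _ : V => ℂ) 2 => f x) h1
    simp only [lp.coeFn_sum, Finset.sum_apply, lp.single_apply, Pi.single_apply, lp.coeFn_zero,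
      Pi.zero_apply] at h2
    rw [Finset.sum_ite_eq, if_pos hx] at h2
    exact ha (by exact_mod_cast h2.symm)
  have := norm_pos_iff.2 h
  positivity

/-! ### Restriction to a set of vertices, bridges -/

/-- the operator with all edges outside `S` removed -/
def cut (S : Set V) : Op V D M where
  nb x := by classical exact if x ∈ S then (H.nb x).filter (· ∈ S) else ∅
  v := H.v
  symm x y h := by
    classical
    by_cases hx : x ∈ S
    · rw [if_pos hx, Finset.mem_filter] at h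
      rw [if_pos h.2, Finset.mem_filter]
      exact ⟨H.symm _ _ h.1, hx⟩
    · rw [if_neg hx] at h; simp at h
  deg x := by
    classical
    split_ifs
    · exact (Finset.card_filter_le _ _).trans (H.deg x)
    · simp
  bdd := H.bdd

lemma mem_cut_nb {S : Set V} {x y : V} : y ∈ (H.cut S).nb x ↔ y ∈ H.nb x ∧ x ∈ S ∧ y ∈ S := by
  classical
  unfold cut
  simp only
  split_ifs with h
  · simp [h, Finset.mem_filter]
  · simp [h]

lemma cut_v (S : Set V) : (H.cut S).v = H.v := rfl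

lemma ext' {H H' : Op V D M} (h1 : ∀ x y, y ∈ H.nb x ↔ y ∈ H'.nb x) (h2 : ∀ x, H.v x = H'.v x) :
    H = H' := by
  cases H; cases H'
  simp only [Op.mk.injEq]
  exact ⟨funext fun x => Finset.ext (h1 x), funext h2⟩

lemma cut_cut {S S' : Set V} (h : S' ⊆ S) : (H.cut S).cut S' = H.cut S' := by
  refine ext' (fun x y => ?_) fun x => rfl
  simp only [mem_cut_nb]
  constructor
  · rintro ⟨⟨h1, _, _⟩, h2, h3⟩; exact ⟨h1, h2, h3⟩
  · rintro ⟨h1, h2, h3⟩; exact ⟨⟨h1, h h2, h h3⟩, h2, h3⟩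

/-- `u ∈ S`, `v ∉ S` and `u - v` is the only edge between `S` and its complement -/
structure IsBridge (S : Set V) (u v : V) : Prop where
  mem : u ∈ S
  notMem : v ∉ S
  iff : ∀ x ∈ S, ∀ y ∉ S, (y ∈ H.nb x ↔ x = u ∧ y = v)

variable {H}

lemma IsBridge.adj {S : Set V} {u v : V} (h : H.IsBridge S u v) : v ∈ H.nb u :=
  (h.iff u h.mem v h.notMem).2 ⟨rfl, rfl⟩

lemma IsBridge.compl {S : Set V} {u v : V} (h : H.IsBridge S u v) : H.IsBridge Sᶜ v u where
  mem := h.notMem
  notMem := by simpa using h.mem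
  iff x hx y hy := by
    have hy' : y ∈ S := by simpa using hy
    rw [H.mem_comm, h.iff y hy' x hx]
    exact and_comm

lemma IsBridge.cut {S S' : Set V} {u v : V} (h : H.IsBridge S u v) (hv : v ∈ S')
    (hS : S ⊆ S') : (H.cut S').IsBridge S u v where
  mem := h.mem
  notMem := h.notMem
  iff x hx y hy := by
    rw [mem_cut_nb, h.iff x hx y hy]
    constructor
    · rintro ⟨h1, _⟩; exact h1
    · rintro ⟨rfl, rfl⟩; exact ⟨⟨rfl, rfl⟩, hS hx, hv⟩

/-- the fundamental formula for a bridge -/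
theorem IsBridge.G_eq {S : Set V} {u v : V} (h : H.IsBridge S u v) {z : ℂ} (hz : z.im ≠ 0)
    {x : V} (hx : x ∈ S) (y : V) [Decidable (y ∈ S)] :
    H.G z x y = (if y ∈ S then (H.cut S).G z x y else 0) - H.G z v y * (H.cut S).G z x u := by
  classical
  have hmem : Memℓp (fun x => if x ∈ S then H.G z x y else 0) 2 := by
    refine (memℓp_gen_iff (by norm_num)).2 ?_
    refine Summable.of_nonneg_of_le (fun x => by positivity) (fun x => ?_) (H.summable_G z y)
    split_ifs <;> simp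
  have h1 := (H.cut S).eq_of_ap hz (⟨_, hmem⟩ : lp (fun _ : V => ℂ) 2)
    ((if y ∈ S then (1 : ℂ) else 0) • lp.single 2 y (1 : ℂ) -
      H.G z v y • lp.single 2 u (1 : ℂ)) (by
    intro x
    simp only [ap, lp.coeFn_sub, Pi.sub_apply, lp.coeFn_smul, Pi.smul_apply, lp.single_apply,
      Pi.single_apply, smul_eq_mul, cut_v]
    by_cases hx : x ∈ S
    · rw [if_pos hx]
      have e1 : ∑ x' ∈ (H.cut S).nb x, (if x' ∈ S then H.G z x' y else 0) =
          ∑ x' ∈ H.nb x, (if x' ∈ S then H.G z x' y else 0) := by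
        refine Finset.sum_subset (fun a ha => (H.mem_cut_nb.1 ha).1) fun a ha hna => ?_
        rw [if_neg]
        intro haS
        exact hna (H.mem_cut_nb.2 ⟨ha, hx, haS⟩)
      have e2 : ∑ x' ∈ H.nb x, H.G z x' y = ∑ x' ∈ H.nb x, (if x' ∈ S then H.G z x' y else 0) +
          ∑ x' ∈ H.nb x, (if x' ∈ S then 0 else H.G z x' y) := by
        rw [← Finset.sum_add_distrib]
        exact Finset.sum_congr rfl fun a _ => by split_ifs <;> simp
      have e3 : ∑ x' ∈ H.nb x, (if x' ∈ S then 0 else H.G z x' y) =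
          if x = u then H.G z v y else 0 := by
        split_ifs with hxu
        · subst hxu
          rw [Finset.sum_eq_single v]
          · rw [if_neg h.notMem]
          · intro b hb hbv
            split_ifs with hbS
            · rfl
            · exact absurd ((h.iff x hx b hbS).1 hb).2 hbv
          · intro hv; exact absurd h.adj hv
        · refine Finset.sum_eq_zero fun b hb => ?_
          split_ifs with hbS
          · rfl
          · exact absurd ((h.iff x hx b hbS).1 hb).1 hxu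
      have e4 := H.G_eqn hz x y
      rw [e2, e3] at e4
      rw [e1]
      have e5 : (if y ∈ S then (1 : ℂ) else 0) * (if x = y then 1 else 0) =
          if x = y then 1 else 0 := by
        by_cases hxy : x = y
        · subst hxy; simp [hx]
        · simp [hxy]
      rw [e5, ← e4]
      split_ifs <;> ring
    · rw [if_neg hx]
      have e1 : (H.cut S).nb x = ∅ := by
        refine Finset.eq_empty_of_forall_notMem fun a ha => hx (H.mem_cut_nb.1 ha).2.1
      rw [e1]
      have hxu : x ≠ u := fun e => hx (e ▸ h.mem)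
      have e5 : (if y ∈ S then (1 : ℂ) else 0) * (if x = y then 1 else 0) = 0 := by
        by_cases hxy : x = y
        · subst hxy; simp [hx]
        · simp [hxy]
      rw [e5]
      simp [hxu])
  have h2 := congrArg (fun f : lp (fun _ : V => ℂ) 2 => f x) h1
  simp only [map_sub, map_smul, lp.coeFn_sub, Pi.sub_apply, lp.coeFn_smul, Pi.smul_apply,
    smul_eq_mul] at h2
  rw [if_pos hx] at h2
  rw [h2, Op.G_eq (H.cut S), Op.G_eq (H.cut S)]
  split_ifs <;> ring

/-- (G7) off the branch -/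
theorem IsBridge.G_off {S : Set V} {u v : V} (h : H.IsBridge S u v) {z : ℂ} (hz : z.im ≠ 0)
    {x y : V} (hx : x ∈ S) (hy : y ∉ S) :
    H.G z x y = - H.G z v y * (H.cut S).G z x u := by
  classical
  rw [h.G_eq hz hx y, if_neg hy]; ring

/-- (G7) inside the branch -/
theorem IsBridge.G_in {S : Set V} {u v : V} (h : H.IsBridge S u v) {z : ℂ} (hz : z.im ≠ 0)
    {x y : V} (hx : x ∈ S) (hy : y ∈ S) :
    H.G z x y = (H.cut S).G z x y - H.G z v y * (H.cut S).G z x u := by
  classical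
  rw [h.G_eq hz hx y, if_pos hy]

/-- cavity number: Green function at `u` of the branch `S` (containing `u`) -/
theorem IsBridge.G_step {S : Set V} {u v : V} (h : H.IsBridge S u v) {z : ℂ} (hz : z.im ≠ 0)
    {y : V} (hy : y ∉ S) : H.G z u y = - H.G z v y * (H.cut S).G z u u :=
  h.G_off hz h.mem hy

variable (H)

lemma G_ne_zero {z : ℂ} (hz : 0 < z.im) (x : V) : H.G z x x ≠ 0 := fun e => by
  have := H.im_G_pos hz x
  rw [e] at this
  simp at this

variable {H}

theorem IsBridge.G_vu {S : Set V} {u v : V} (h : H.IsBridge S u v) {z : ℂ} (hz : z.im ≠ 0) :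
    H.G z v u = - H.G z u u * (H.cut Sᶜ).G z v v :=
  h.compl.G_off hz h.notMem (by simpa using h.mem)

theorem IsBridge.G_uu {S : Set V} {u v : V} (h : H.IsBridge S u v) {z : ℂ} (hz : z.im ≠ 0) :
    H.G z u u * (1 - (H.cut S).G z u u * (H.cut Sᶜ).G z v v) = (H.cut S).G z u u := by
  have h1 := h.G_in hz h.mem h.mem
  rw [h.G_vu hz] at h1
  linear_combination h1

theorem IsBridge.one_sub_ne {S : Set V} {u v : V} (h : H.IsBridge S u v) {z : ℂ}
    (hz : 0 < z.im) : 1 - (H.cut S).G z u u * (H.cut Sᶜ).G z v v ≠ 0 := by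
  intro h0
  have h1 := h.G_uu hz.ne'
  rw [h0, mul_zero] at h1
  exact (H.cut S).G_ne_zero hz u h1.symm

/-- the Green function at a vertex in terms of the cavity numbers at the neighbours -/
theorem G_rec (u : V) (Br : V → Set V) (hBr : ∀ w ∈ H.nb u, H.IsBridge (Br w) w u) {z : ℂ}
    (hz : z.im ≠ 0) :
    H.G z u u * ((H.v u : ℂ) - z - ∑ w ∈ H.nb u, (H.cut (Br w)).G z w w) = 1 := by
  classical
  have h1 := H.G_eqn hz u u
  rw [if_pos rfl] at h1
  have h2 : ∑ w ∈ H.nb u, H.G z w u = ∑ w ∈ H.nb u, - H.G z u u * (H.cut (Br w)).G z w w :=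
    Finset.sum_congr rfl fun w hw => (hBr w hw).G_step hz (hBr w hw).notMem
  rw [h2, ← Finset.mul_sum] at h1
  linear_combination h1

/-- recursion for the cavity numbers: `S` is the branch at `u`, `Br w ⊆ S` the branches at the
neighbours of `u` inside `S` -/
theorem cut_rec {S : Set V} (u : V) (hu : u ∈ S) (Br : V → Set V)
    (hBr : ∀ w ∈ (H.cut S).nb u, H.IsBridge (Br w) w u ∧ Br w ⊆ S) {z : ℂ} (hz : z.im ≠ 0) :
    (H.cut S).G z u u *
      ((H.v u : ℂ) - z - ∑ w ∈ (H.cut S).nb u, (H.cut (Br w)).G z w w) = 1 := by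
  have h := G_rec (H := H.cut S) u Br (fun w hw => (hBr w hw).1.cut hu (hBr w hw).2) hz
  rw [← h, cut_v]
  congr 2
  refine Finset.sum_congr rfl fun w hw => ?_
  rw [cut_cut H (hBr w hw).2]

/-! ### Powers and polynomials -/

variable (H)

/-- entries of the powers of the operator -/
def pw [DecidableEq V] : ℕ → V → V → ℝ
  | 0, x, y => if x = y then 1 else 0
  | k + 1, x, y => ∑ x' ∈ H.nb x, pw k x' y + H.v x * pw k x y

lemma pw_zero [DecidableEq V] (x y : V) : H.pw 0 x y = if x = y then 1 else 0 := rfl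

lemma pw_succ [DecidableEq V] (k : ℕ) (x y : V) :
    H.pw (k + 1) x y = ∑ x' ∈ H.nb x, H.pw k x' y + H.v x * H.pw k x y := rfl

lemma T_pow_single [DecidableEq V] (k : ℕ) (x y : V) :
    ((H.T ^ k) (lp.single 2 y (1 : ℂ))) x = (H.pw k x y : ℂ) := by
  induction k generalizing x with
  | zero =>
    simp only [pow_zero, one_apply_eq_self, lp.single_apply, Pi.single_apply, pw_zero]
    split_ifs <;> simp
  | succ k ih =>
    rw [pow_succ', mul_apply_eq_comp, T_apply, ap, pw_succ]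
    simp only [ih]
    push_cast
    rfl

/-- entries of a polynomial of the operator -/
def pk [DecidableEq V] (p : Polynomial ℂ) (x y : V) : ℂ :=
  ∑ k ∈ Finset.range (p.natDegree + 1), p.coeff k * (H.pw k x y : ℂ)

lemma aeval_single [DecidableEq V] (p : Polynomial ℂ) (x y : V) :
    (Polynomial.aeval H.T p (lp.single 2 y (1 : ℂ))) x = H.pk p x y := by
  rw [Polynomial.aeval_eq_sum_range, pk, _root_.sum_apply, lp.coeFn_sum,
    Finset.sum_apply]
  refine Finset.sum_congr rfl fun k _ => ?_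
  rw [smul_apply, lp.coeFn_smul, Pi.smul_apply, T_pow_single, smul_eq_mul]

lemma spectrum_sub {w : ℂ} (hw : w ∈ spectrum ℂ H.T) : w.im = 0 ∧ |w.re| ≤ Lam D M := by
  have h2 := H.T_selfAdjoint.mem_spectrum_eq_re hw
  have h3 : ‖w‖ ≤ ‖H.T‖ := by
    rcases isEmpty_or_nonempty V with hV | ⟨⟨x⟩⟩
    · exfalso
      have hs : Subsingleton (lp (fun _ : V => ℂ) 2) := ⟨fun f g => by ext x; exact hV.elim x⟩
      have hs2 : Subsingleton (lp (fun _ : V => ℂ) 2 →L[ℂ] lp (fun _ : V => ℂ) 2) :=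
        ⟨fun f g => by ext1 x; exact Subsingleton.elim _ _⟩
      rw [spectrum.of_subsingleton] at hw
      exact hw
    · classical
      have : Nontrivial (lp (fun _ : V => ℂ) 2) := ⟨lp.single 2 x (1 : ℂ), 0, fun e => by
        have := norm_single_one x
        rw [e, norm_zero] at this
        exact zero_ne_one this⟩
      exact spectrum.norm_le_norm_of_mem hw
  refine ⟨by rw [h2]; simp, ?_⟩
  exact (Complex.abs_re_le_norm w).trans (h3.trans H.norm_T_le)

/-- polynomials which are close to `1 / (t - z)` on `[-Λ, Λ]` -/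
lemma exists_poly (Λ : ℝ) {z : ℂ} (hz : 0 < z.im) {ε : ℝ} (hε : 0 < ε) :
    ∃ p : Polynomial ℂ, ∀ t : ℝ, |t| ≤ Λ → ‖1 - ((t : ℂ) - z) * p.eval (t : ℂ)‖ ≤ ε := by
  have hne : ∀ t : ℝ, (t : ℂ) - z ≠ 0 := fun t h => by
    have := congrArg Complex.im h
    simp at this
    exact hz.ne' this
  have hc : Continuous fun t : ℝ => ((t : ℂ) - z)⁻¹ :=
    Continuous.inv₀ (by fun_prop) hne
  set B := |Λ| + ‖z‖ + 1 with hB
  have hB0 : 0 < B := by positivity
  obtain ⟨p1, hp1⟩ := exists_polynomial_near_of_continuousOn (-Λ) Λ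
    (fun t => (((t : ℂ) - z)⁻¹).re) (Complex.continuous_re.comp hc).continuousOn (ε / (2 * B))
    (by positivity)
  obtain ⟨p2, hp2⟩ := exists_polynomial_near_of_continuousOn (-Λ) Λ
    (fun t => (((t : ℂ) - z)⁻¹).im) (Complex.continuous_im.comp hc).continuousOn (ε / (2 * B))
    (by positivity)
  refine ⟨p1.map Complex.ofRealHom + Polynomial.C Complex.I * p2.map Complex.ofRealHom,
    fun t ht => ?_⟩
  have ht' : t ∈ Set.Icc (-Λ) Λ := abs_le.1 ht
  have h1 := hp1 t ht'
  have h2 := hp2 t ht'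
  have e1 : (Polynomial.map Complex.ofRealHom p1).eval (t : ℂ) = ((p1.eval t : ℝ) : ℂ) := by
    have := Polynomial.eval_map_apply (f := Complex.ofRealHom) (p := p1) t
    simpa using this
  have e2 : (Polynomial.map Complex.ofRealHom p2).eval (t : ℂ) = ((p2.eval t : ℝ) : ℂ) := by
    have := Polynomial.eval_map_apply (f := Complex.ofRealHom) (p := p2) t
    simpa using this
  rw [Polynomial.eval_add, Polynomial.eval_mul, Polynomial.eval_C, e1, e2]
  set q : ℂ := ((p1.eval t : ℝ) : ℂ) + Complex.I * ((p2.eval t : ℝ) : ℂ) with hq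
  have h3 : ‖((t : ℂ) - z)⁻¹ - q‖ ≤ ε / B := by
    have e3 : ((t : ℂ) - z)⁻¹ - q = (((((t : ℂ) - z)⁻¹).re - p1.eval t : ℝ) : ℂ) +
        (((((t : ℂ) - z)⁻¹).im - p2.eval t : ℝ) : ℂ) * Complex.I := by
      rw [hq]
      conv_lhs => rw [← Complex.re_add_im (((t : ℂ) - z)⁻¹)]
      push_cast
      ring
    rw [e3]
    refine (norm_add_le _ _).trans ?_
    rw [norm_mul, Complex.norm_I, mul_one, Complex.norm_real, Complex.norm_real,
      Real.norm_eq_abs, Real.norm_eq_abs, abs_sub_comm, abs_sub_comm (((t : ℂ) - z)⁻¹).im]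
    have : ε / B = ε / (2 * B) + ε / (2 * B) := by field_simp; ring
    rw [this]
    exact add_le_add h1.le h2.le
  have h4 : 1 - ((t : ℂ) - z) * q = ((t : ℂ) - z) * (((t : ℂ) - z)⁻¹ - q) := by
    rw [mul_sub, mul_inv_cancel₀ (hne t)]
  rw [h4, norm_mul]
  have h5 : ‖(t : ℂ) - z‖ ≤ B := by
    refine (norm_sub_le _ _).trans ?_
    rw [Complex.norm_real, Real.norm_eq_abs, hB]
    have := ht.trans (le_abs_self Λ)
    linarith
  calc ‖(t : ℂ) - z‖ * ‖((t : ℂ) - z)⁻¹ - q‖ ≤ B * (ε / B) := by gcongr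
    _ = ε := by field_simp

/-- the approximating polynomial -/
def apx (Λ : ℝ) (z : ℂ) (ε : ℝ) : Polynomial ℂ := by
  classical exact if h : 0 < z.im ∧ 0 < ε then (exists_poly Λ h.1 (mul_pos h.1 h.2)).choose else 0

lemma apx_spec (Λ : ℝ) {z : ℂ} (hz : 0 < z.im) {ε : ℝ} (hε : 0 < ε) {t : ℝ} (ht : |t| ≤ Λ) :
    ‖1 - ((t : ℂ) - z) * (apx Λ z ε).eval (t : ℂ)‖ ≤ z.im * ε := by
  unfold apx
  rw [dif_pos ⟨hz, hε⟩]
  exact (exists_poly Λ hz (mul_pos hz hε)).choose_spec t ht

/-- (G6) uniform polynomial approximation of the Green function -/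
theorem norm_G_sub_pk_le [DecidableEq V] {z : ℂ} (hz : 0 < z.im) {ε : ℝ} (hε : 0 < ε) (x y : V) :
    ‖H.G z x y - H.pk (apx (Lam D M) z ε) x y‖ ≤ ε := by
  set p := apx (Lam D M) z ε with hp
  set q : Polynomial ℂ := 1 - (Polynomial.X - Polynomial.C z) * p with hq
  have h1 : ‖Polynomial.aeval H.T q‖ ≤ z.im * ε := by
    have hsn : IsStarNormal H.T := H.T_selfAdjoint.isStarNormal
    rw [← cfc_polynomial q H.T hsn]
    refine norm_cfc_le (by positivity) fun w hw => ?_
    obtain ⟨hw1, hw2⟩ := H.spectrum_sub hw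
    have hwr : w = ((w.re : ℝ) : ℂ) := by
      apply Complex.ext <;> simp [hw1]
    have h2 := apx_spec (Lam D M) hz hε hw2
    rw [← hwr, ← hp] at h2
    simpa [hq] using h2
  have h2 : H.R z - Polynomial.aeval H.T p = H.R z * Polynomial.aeval H.T q := by
    have e1 : Polynomial.aeval H.T q =
        1 - (H.T - algebraMap ℂ _ z) * Polynomial.aeval H.T p := by
      rw [hq]; simp
    rw [e1, mul_sub, mul_one, ← mul_assoc, H.R_mul_sub hz.ne', one_mul]
  have h3 : ‖H.R z - Polynomial.aeval H.T p‖ ≤ ε := by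
    rw [h2]
    refine (norm_mul_le _ _).trans ?_
    calc ‖H.R z‖ * ‖Polynomial.aeval H.T q‖ ≤ (1 / z.im) * (z.im * ε) := by
          gcongr
          exact H.norm_R_le hz
      _ = ε := by field_simp
  have h4 : H.G z x y - H.pk p x y =
      ((H.R z - Polynomial.aeval H.T p) (lp.single 2 y (1 : ℂ))) x := by
    rw [sub_apply, lp.coeFn_sub, Pi.sub_apply, aeval_single, G_eq]
  rw [h4]
  refine (norm_apply_le _ _).trans ?_
  refine ((H.R z - Polynomial.aeval H.T p).le_opNorm _).trans ?_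
  rw [norm_single_one, mul_one]
  exact h3

/-! ### Locality -/

/-- local comparison of powers. `Good k x`: from `x` one may make `k` steps -/
lemma pw_local {W : Type*} {D' : ℕ} {M' : ℝ} (H' : Op W D' M') [DecidableEq V] [DecidableEq W]
    (φ : V → W) (y : V) (Good : ℕ → V → Prop)
    (hstep : ∀ k x, Good (k + 1) x → Good k x ∧ ∀ x' ∈ H.nb x, Good k x')
    (hnb : ∀ k x, Good (k + 1) x → H'.nb (φ x) = (H.nb x).image φ ∧
      Set.InjOn φ (H.nb x : Set V) ∧ H'.v (φ x) = H.v x)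
    (h0 : ∀ x, Good 0 x → (φ x = φ y ↔ x = y)) :
    ∀ k x, Good k x → H'.pw k (φ x) (φ y) = H.pw k x y := by
  intro k
  induction k with
  | zero =>
    intro x hx
    rw [pw_zero, pw_zero]
    by_cases h : x = y
    · simp [h]
    · have h' : ¬ φ x = φ y := fun e => h ((h0 x hx).1 e)
      simp [h, h']
  | succ k ih =>
    intro x hx
    obtain ⟨h1, h2⟩ := hstep k x hx
    obtain ⟨h3, h4, h5⟩ := hnb k x hx
    rw [pw_succ, pw_succ, h3, h5, ih x h1, Finset.sum_image h4]
    congr 1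
    exact Finset.sum_congr rfl fun x' hx' => ih x' (h2 x' hx')

/-- the radius needed for the accuracy `ε` -/
def rad (D : ℕ) (M : ℝ) (z : ℂ) (ε : ℝ) : ℕ := (apx (Lam D M) z ε).natDegree

/-- (G6) local comparison of Green functions -/
theorem norm_G_sub_G_le {W : Type*} (H' : Op W D M) [DecidableEq V] [DecidableEq W]
    (φ : V → W) (y : V) (Good : ℕ → V → Prop)
    (hstep : ∀ k x, Good (k + 1) x → Good k x ∧ ∀ x' ∈ H.nb x, Good k x')
    (hnb : ∀ k x, Good (k + 1) x → H'.nb (φ x) = (H.nb x).image φ ∧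
      Set.InjOn φ (H.nb x : Set V) ∧ H'.v (φ x) = H.v x)
    (h0 : ∀ x, Good 0 x → (φ x = φ y ↔ x = y)) {z : ℂ} (hz : 0 < z.im) {ε : ℝ} (hε : 0 < ε)
    {x : V} (hx : Good (rad D M z ε) x) :
    ‖H.G z x y - H'.G z (φ x) (φ y)‖ ≤ 2 * ε := by
  have hanti : ∀ k j, Good (k + j) x → Good k x := by
    intro k j
    induction j with
    | zero => exact id
    | succ j ih => intro h; exact ih (hstep _ _ h).1
  have h1 : H'.pk (apx (Lam D M) z ε) (φ x) (φ y) = H.pk (apx (Lam D M) z ε) x y := by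
    unfold pk
    refine Finset.sum_congr rfl fun k hk => ?_
    rw [H.pw_local H' φ y Good hstep hnb h0 k x]
    have hk' : k ≤ rad D M z ε := by
      have := Finset.mem_range.1 hk
      unfold rad; omega
    obtain ⟨j, hj⟩ := Nat.exists_eq_add_of_le hk'
    exact hanti k j (hj ▸ hx)
  have h2 := H.norm_G_sub_pk_le hz hε x y
  have h3 := H'.norm_G_sub_pk_le hz hε (φ x) (φ y)
  rw [h1] at h3
  calc ‖H.G z x y - H'.G z (φ x) (φ y)‖
      = ‖(H.G z x y - H.pk (apx (Lam D M) z ε) x y) -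
        (H'.G z (φ x) (φ y) - H.pk (apx (Lam D M) z ε) x y)‖ := by congr 1; ring
    _ ≤ _ := by
      refine (norm_sub_le _ _).trans ?_
      linarith

/-- (G5) equivariance under isomorphisms -/
theorem G_equiv {W : Type*} (H' : Op W D M) (φ : V → W) (hφ : Function.Injective φ)
    (hnb : ∀ x y, φ y ∈ H'.nb (φ x) ↔ y ∈ H.nb x) (hsurj : ∀ x, ∀ w ∈ H'.nb (φ x), ∃ y, φ y = w)
    (hv : ∀ x, H'.v (φ x) = H.v x) {z : ℂ} (hz : 0 < z.im) (x y : V) :
    H'.G z (φ x) (φ y) = H.G z x y := by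
  classical
  have h : ∀ ε : ℝ, 0 < ε → ‖H.G z x y - H'.G z (φ x) (φ y)‖ ≤ 2 * ε := fun ε hε =>
    H.norm_G_sub_G_le H' φ y (fun _ _ => True) (fun _ _ _ => ⟨trivial, fun _ _ => trivial⟩)
      (fun k x _ => ⟨by
        ext w
        rw [Finset.mem_image]
        constructor
        · intro hw
          obtain ⟨y, rfl⟩ := hsurj x w hw
          exact ⟨y, (hnb x y).1 hw, rfl⟩
        · rintro ⟨y, hy, rfl⟩
          exact (hnb x y).2 hy, hφ.injOn, hv x⟩)
      (fun x _ => hφ.eq_iff) hz hε trivial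
  have h0 : ‖H.G z x y - H'.G z (φ x) (φ y)‖ = 0 := by
    refine le_antisymm (le_of_forall_pos_le_add fun ε hε => ?_) (norm_nonneg _)
    have := h (ε / 2) (by positivity)
    linarith
  exact (sub_eq_zero.1 (norm_eq_zero.1 h0)).symm

/-! ### Continuity in the environment and in the energy -/



end Op

section cont
variable {P : Type*} [TopologicalSpace P] (Hf : P → Op V D M)

lemma continuous_pw [DecidableEq V] (hnb : ∀ q q', (Hf q).nb = (Hf q').nb)
    (hv : ∀ x, Continuous fun q => (Hf q).v x) (k : ℕ) (x y : V) :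
    Continuous fun q => (Hf q).pw k x y := by
  rcases isEmpty_or_nonempty P with hP | ⟨⟨q0⟩⟩
  · exact continuous_of_const fun q => hP.elim q
  induction k generalizing x with
  | zero => simp only [Op.pw_zero]; exact continuous_const
  | succ k ih =>
    simp only [Op.pw_succ]
    refine Continuous.add ?_ ((hv x).mul (ih x))
    have : (fun q => ∑ x' ∈ (Hf q).nb x, (Hf q).pw k x' y) =
        fun q => ∑ x' ∈ (Hf q0).nb x, (Hf q).pw k x' y := by
      funext q; rw [hnb q q0]
    rw [this]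
    exact continuous_finsetSum _ fun x' _ => ih x'

/-- the Green function is a continuous function of the potentials (product topology) -/
theorem continuous_G (hnb : ∀ q q', (Hf q).nb = (Hf q').nb)
    (hv : ∀ x, Continuous fun q => (Hf q).v x) {z : ℂ} (hz : 0 < z.im) (x y : V) :
    Continuous fun q => (Hf q).G z x y := by
  classical
  refine continuous_of_uniform_approx_of_continuous fun u hu => ?_
  obtain ⟨ε, hε, hεu⟩ := Metric.mem_uniformity_dist.1 hu
  refine ⟨fun q => (Hf q).pk (Op.apx (Op.Lam D M) z (ε / 2)) x y, ?_, fun q => hεu ?_⟩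
  · unfold Op.pk
    exact continuous_finsetSum _ fun k _ => continuous_const.mul
      (Complex.continuous_ofReal.comp (continuous_pw Hf hnb hv k x y))
  · rw [dist_eq_norm]
    exact ((Hf q).norm_G_sub_pk_le hz (half_pos hε) x y).trans_lt (half_lt_self hε)


end cont

namespace Op

/-! ### Finite graphs -/

/-- the matrix of the operator -/
def mat [DecidableEq V] : Matrix V V ℝ := fun x y =>
  (if y ∈ H.nb x then 1 else 0) + if x = y then H.v x else 0

/-- on a finite graph the Green function is the inverse matrix -/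
theorem inv_mat [Fintype V] [DecidableEq V] {z : ℂ} (hz : z.im ≠ 0) :
    (H.mat.map (fun x : ℝ => (x : ℂ)) - z • (1 : Matrix V V ℂ))⁻¹ = Matrix.of (H.G z) := by
  refine Matrix.inv_eq_right_inv ?_
  ext x y
  rw [Matrix.mul_apply, Matrix.one_apply, ← H.G_eqn hz x y]
  have h1 : ∀ j, (H.mat.map (fun x : ℝ => (x : ℂ)) - z • (1 : Matrix V V ℂ)) x j *
      Matrix.of (H.G z) j y = (if j ∈ H.nb x then H.G z j y else 0) +
      (if x = j then ((H.v x : ℂ) - z) * H.G z j y else 0) := by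
    intro j
    simp only [Matrix.sub_apply, Matrix.map_apply, mat, Matrix.smul_apply, Matrix.one_apply,
      Matrix.of_apply, smul_eq_mul]
    by_cases h3 : x = j
    · subst h3
      by_cases h2 : x ∈ H.nb x <;> simp [h2] <;> ring
    · by_cases h2 : j ∈ H.nb x <;> simp [h2, h3]
  rw [Finset.sum_congr rfl fun j _ => h1 j, Finset.sum_add_distrib, Finset.sum_ite_mem,
    Finset.univ_inter, Finset.sum_ite_eq, if_pos (Finset.mem_univ x)]

end Op
end Crest.Agent.R166.L2G879
end
end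

-- ▼ part R166/TreeG_879

/-!
# Row 166 (helper879): the tree Green function `treeG` on the words `TW d` of helper955

`treeG s z om x y` (`om : TW d → ℝ`, potential `s * clip om`, `clip` = truncation to `[-1,1]`,
`Im z > 0`), `cav s z om` = cavity number at the root vertex with the root edge (port `0`)
removed; `omOf π ξ` = potential of a configuration `ξ : Conf d (Fin d × T)`, `π : T → ℝ`.

* `norm_treeG_le`, `im_treeG_pos`, `treeG_symm`, `treeG_im_nonneg/pos`, `im_cav_pos`, `norm_cav_le`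
* `Aut`, `aut_cr`, `aut_rt`, `aut_mv`, `aut_mvL`, `Aut.G`, `treeG_cr`, `treeG_rt`, `treeG_mvL`;
  `mv i x = rt i (cr x)`, `mvL w` (root moved along `w`), `mvL_nil : mvL w nil = w`
* `cav_rec`, `treeG_nil` (recursions), `treeG_uu`, `treeG_vu`, `treeG_vv` (edge block),
  `treeG_star_one`, `treeG_star_two`, `treeG_par`, `treeG_trp`, `treeG_far`, `treeG_far_zero`,
  `treeG_diag` (multiplicativity; `trp` = product of `- cavity`)
* `continuous_treeG`, `continuous_cav`, `norm_treeG_sub_le`, `continuous_treeG_joint`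
* `omOf_cross/rotn/step/reroot/conf`, `continuous_omOf`
* `gOp`, `Res_eq_gOp`, `vx` (vertex reached by a word), `treeG_sub_Res` (comparison with
  `Res (Hm (graphOf p) s om) z` when the words of length `≤ R` are injective)
-/

set_option autoImplicit false
set_option linter.unusedSectionVars false
noncomputable section
open MeasureTheory Finset

namespace Crest.Agent.R166.TreeG879

open Words955 L2G879

variable {d : ℕ} [NeZero d]

/-! ### Adjacency of words -/

lemma snoc_prop (w : TW d) (i : Fin d) (h : w.1 = [] ∨ i ≠ 0) : ∀ a ∈ (w.1 ++ [i]).tail, a ≠ 0 := by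
  obtain ⟨w, hw⟩ := w
  cases w with
  | nil => simp
  | cons b w =>
    simp only [List.cons_append, List.tail_cons] at hw ⊢
    intro a ha
    rcases List.mem_append.1 ha with h1 | h1
    · exact hw a h1
    · rw [List.mem_singleton] at h1
      rw [h1]
      exact h.resolve_left (by simp)

lemma dropLast_prop (w : TW d) : ∀ a ∈ (w.1.dropLast).tail, a ≠ 0 := by
  intro a ha
  refine w.2 a ?_
  rw [List.tail_dropLast] at ha
  exact List.mem_of_mem_dropLast ha

/-- the neighbour of `w` through the port `i` (relative to the arrival half-edge) -/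
def nbr (w : TW d) (i : Fin d) : TW d :=
  if h : w.1 = [] ∨ i ≠ 0 then ⟨w.1 ++ [i], snoc_prop w i h⟩ else ⟨w.1.dropLast, dropLast_prop w⟩

lemma nbr_of (w : TW d) (i : Fin d) (h : w.1 = [] ∨ i ≠ 0) : (nbr w i).1 = w.1 ++ [i] := by
  rw [nbr, dif_pos h]

lemma nbr_not (w : TW d) (i : Fin d) (h : ¬ (w.1 = [] ∨ i ≠ 0)) : (nbr w i).1 = w.1.dropLast := by
  rw [nbr, dif_neg h]

/-- neighbours in the tree -/
def nbT (w : TW d) : Finset (TW d) := Finset.univ.image (nbr w)

lemma mem_nbT {w y : TW d} :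
    y ∈ nbT w ↔ (∃ i, y.1 = w.1 ++ [i]) ∨ (∃ i, w.1 = y.1 ++ [i]) := by
  unfold nbT
  rw [Finset.mem_image]
  constructor
  · rintro ⟨i, _, rfl⟩
    by_cases h : w.1 = [] ∨ i ≠ 0
    · exact Or.inl ⟨i, nbr_of w i h⟩
    · refine Or.inr ⟨w.1.getLast (fun e => h (Or.inl e)), ?_⟩
      rw [nbr_not w i h, List.dropLast_append_getLast]
  · rintro (⟨i, hi⟩ | ⟨i, hi⟩)
    · refine ⟨i, Finset.mem_univ _, ?_⟩
      have h : w.1 = [] ∨ i ≠ 0 := by
        by_cases hw : w.1 = []
        · exact Or.inl hw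
        · right
          apply y.2
          rw [hi]
          obtain ⟨a, l, hl⟩ := List.exists_cons_of_ne_nil hw
          rw [hl]; simp
      exact TW.ext (by rw [nbr_of w i h, hi])
    · refine ⟨0, Finset.mem_univ _, ?_⟩
      have h : ¬ (w.1 = [] ∨ (0 : Fin d) ≠ 0) := by
        rw [hi]; simp
      exact TW.ext (by rw [nbr_not w 0 h, hi]; simp)

lemma nbT_symm (x y : TW d) (h : y ∈ nbT x) : x ∈ nbT y := by
  rw [mem_nbT] at h ⊢
  exact h.symm

lemma len_le_of_nbT {x y : TW d} (h : y ∈ nbT x) : y.len ≤ x.len + 1 := by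
  rw [mem_nbT] at h
  unfold TW.len
  rcases h with ⟨i, hi⟩ | ⟨i, hi⟩
  · rw [hi]; simp
  · have := congrArg List.length hi
    simp at this; omega

/-- truncation to `[-1,1]` -/
def clip (t : ℝ) : ℝ := max (-1) (min 1 t)

lemma abs_clip_le (t : ℝ) : |clip t| ≤ 1 := by
  unfold clip
  rw [abs_le]
  exact ⟨le_max_left _ _, max_le (by norm_num) (min_le_left _ _)⟩

lemma clip_eq {t : ℝ} (h : |t| ≤ 1) : clip t = t := by
  rw [abs_le] at h
  unfold clip
  rw [min_eq_right h.2, max_eq_right h.1]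

lemma continuous_clip : Continuous clip := by unfold clip; fun_prop

/-- the tree operator with potential `s * clip (om w)` -/
def tOp (s : ℝ) (om : TW d → ℝ) : Op (TW d) d |s| where
  nb := nbT
  v w := s * clip (om w)
  symm := nbT_symm
  deg x := (Finset.card_image_le).trans (by simp)
  bdd x := by
    rw [abs_mul]
    exact mul_le_of_le_one_right (abs_nonneg _) (abs_clip_le _)

/-- the tree Green function -/
def treeG (s : ℝ) (z : ℂ) (om : TW d → ℝ) (x y : TW d) : ℂ := (tOp s om).G z x y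

@[simp] lemma tOp_nb (s : ℝ) (om : TW d → ℝ) (x : TW d) : (tOp s om).nb x = nbT x := rfl
@[simp] lemma tOp_v (s : ℝ) (om : TW d → ℝ) (x : TW d) : (tOp s om).v x = s * clip (om x) := rfl

/-! ### Tree automorphisms -/

lemma crL_append {l : List (Fin d)} (hl : l ≠ []) (i : Fin d) :
    TW.crL (l ++ [i]) = TW.crL l ++ [i] := by
  cases l with
  | nil => exact absurd rfl hl
  | cons a l =>
    by_cases ha : a = 0 <;> simp [TW.crL, ha]

lemma adj_cr_aux {x y : TW d} (i : Fin d) (h : y.1 = x.1 ++ [i]) :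
    (∃ i, (TW.cr y).1 = (TW.cr x).1 ++ [i]) ∨ (∃ i, (TW.cr x).1 = (TW.cr y).1 ++ [i]) := by
  change (∃ i, TW.crL y.1 = TW.crL x.1 ++ [i]) ∨ (∃ i, TW.crL x.1 = TW.crL y.1 ++ [i])
  by_cases hx : x.1 = []
  · rw [hx] at h ⊢
    rw [h]
    by_cases hi : i = 0
    · right; exact ⟨0, by simp [TW.crL, hi]⟩
    · left; exact ⟨i, by simp [TW.crL, hi]⟩
  · left
    exact ⟨i, by rw [h, crL_append hx]⟩

lemma nbT_cr_of {x y : TW d} (h : y ∈ nbT x) : TW.cr y ∈ nbT (TW.cr x) := by
  rw [mem_nbT] at h ⊢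
  rcases h with ⟨i, hi⟩ | ⟨i, hi⟩
  · exact adj_cr_aux i hi
  · exact (adj_cr_aux i hi).symm

lemma nbT_cr {x y : TW d} : TW.cr y ∈ nbT (TW.cr x) ↔ y ∈ nbT x :=
  ⟨fun h => by simpa [TW.cr_cr] using nbT_cr_of h, nbT_cr_of⟩

lemma rtL_append {l : List (Fin d)} (hl : l ≠ []) (j i : Fin d) :
    TW.rtL j (l ++ [i]) = TW.rtL j l ++ [i] := by
  cases l with
  | nil => exact absurd rfl hl
  | cons a l => simp [TW.rtL]

lemma adj_rt_aux (j : Fin d) {x y : TW d} (i : Fin d) (h : y.1 = x.1 ++ [i]) :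
    (∃ i, (TW.rt j y).1 = (TW.rt j x).1 ++ [i]) := by
  change ∃ i, TW.rtL j y.1 = TW.rtL j x.1 ++ [i]
  by_cases hx : x.1 = []
  · rw [hx] at h ⊢
    rw [h]
    exact ⟨i + j, by simp [TW.rtL]⟩
  · exact ⟨i, by rw [h, rtL_append hx]⟩

lemma nbT_rt_of (j : Fin d) {x y : TW d} (h : y ∈ nbT x) : TW.rt j y ∈ nbT (TW.rt j x) := by
  rw [mem_nbT] at h ⊢
  rcases h with ⟨i, hi⟩ | ⟨i, hi⟩
  · exact Or.inl (adj_rt_aux j i hi)
  · exact Or.inr (adj_rt_aux j i hi)

lemma rt_neg_rt (j : Fin d) (x : TW d) : TW.rt (-j) (TW.rt j x) = x := by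
  rw [TW.rt_rt, add_neg_cancel, TW.rt_zero]

lemma rt_rt_neg (j : Fin d) (x : TW d) : TW.rt j (TW.rt (-j) x) = x := by
  rw [TW.rt_rt, neg_add_cancel, TW.rt_zero]

lemma nbT_rt (j : Fin d) {x y : TW d} : TW.rt j y ∈ nbT (TW.rt j x) ↔ y ∈ nbT x :=
  ⟨fun h => by simpa [rt_neg_rt] using nbT_rt_of (-j) h, nbT_rt_of j⟩

/-- an automorphism of the tree -/
structure Aut (φ : TW d → TW d) : Prop where
  bij : Function.Bijective φ
  adj : ∀ x y, φ y ∈ nbT (φ x) ↔ y ∈ nbT x

lemma aut_id : Aut (fun x : TW d => x) := ⟨Function.bijective_id, fun _ _ => Iff.rfl⟩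

lemma aut_cr : Aut (TW.cr : TW d → TW d) := ⟨TW.cr_involutive.bijective, fun _ _ => nbT_cr⟩

lemma aut_rt (j : Fin d) : Aut (TW.rt j : TW d → TW d) :=
  ⟨⟨Function.LeftInverse.injective (rt_neg_rt j),
    Function.RightInverse.surjective (rt_rt_neg j)⟩, fun _ _ => nbT_rt j⟩

lemma Aut.comp {φ ψ : TW d → TW d} (h1 : Aut φ) (h2 : Aut ψ) : Aut (φ ∘ ψ) :=
  ⟨h1.bij.comp h2.bij, fun _ _ => (h1.adj _ _).trans (h2.adj _ _)⟩

/-- equivariance of the cut operators -/
theorem Aut.cut_G {φ : TW d → TW d} (h : Aut φ) (s : ℝ) (om : TW d → ℝ) {S S' : Set (TW d)}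
    (hS : ∀ x, φ x ∈ S' ↔ x ∈ S) {z : ℂ} (hz : 0 < z.im) (x y : TW d) :
    ((tOp s (om ∘ φ)).cut S).G z x y = ((tOp s om).cut S').G z (φ x) (φ y) := by
  refine (Op.G_equiv ((tOp s (om ∘ φ)).cut S) ((tOp s om).cut S') φ h.bij.1 ?_ ?_ ?_ hz x y).symm
  · intro x y
    rw [Op.mem_cut_nb, Op.mem_cut_nb, hS, hS]
    simp only [tOp_nb, h.adj]
  · intro x w _
    exact h.bij.2 w
  · intro x; rfl

theorem Aut.G {φ : TW d → TW d} (h : Aut φ) (s : ℝ) (om : TW d → ℝ) {z : ℂ} (hz : 0 < z.im)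
    (x y : TW d) : treeG s z (om ∘ φ) x y = treeG s z om (φ x) (φ y) := by
  refine (Op.G_equiv (tOp s (om ∘ φ)) (tOp s om) φ h.bij.1 ?_ ?_ ?_ hz x y).symm
  · intro x y
    simp only [tOp_nb, h.adj]
  · intro x w _
    exact h.bij.2 w
  · intro x; rfl

/-- the move of the root across port `i` -/
def mv (i : Fin d) (x : TW d) : TW d := TW.rt i (TW.cr x)

lemma aut_mv (i : Fin d) : Aut (mv i : TW d → TW d) := (aut_rt i).comp aut_cr

/-- the move of the root along a word -/
def mvL : List (Fin d) → TW d → TW d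
  | [], x => x
  | i :: u, x => mv i (mvL u x)

lemma aut_mvL (u : List (Fin d)) : Aut (mvL u : TW d → TW d) := by
  induction u with
  | nil => exact aut_id
  | cons i u ih => exact (aut_mv i).comp ih

/-- the branch of the words starting with `w` -/
def Br (w : List (Fin d)) : Set (TW d) := {x | w <+: x.1}

/-- the `u`-side as a set -/
def US (d : ℕ) [NeZero d] : Set (TW d) := {x | TW.uSide x}

lemma mem_Br {w : List (Fin d)} {x : TW d} : x ∈ Br w ↔ w <+: x.1 := Iff.rfl

lemma mem_US {x : TW d} : x ∈ US d ↔ x.1.head? ≠ some 0 := Iff.rfl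

lemma cr_mem_Br_zero {u : List (Fin d)} (hu : ∀ a ∈ u, a ≠ 0) (hne : u ≠ []) (y : TW d) :
    TW.cr y ∈ Br (0 :: u) ↔ y ∈ Br u := by
  rw [mem_Br, mem_Br]
  change (0 :: u) <+: TW.crL y.1 ↔ u <+: y.1
  obtain ⟨a, u', rfl⟩ := List.exists_cons_of_ne_nil hne
  have ha : a ≠ 0 := hu a (by simp)
  cases hy : y.1 with
  | nil => simp [TW.crL]
  | cons b l =>
    by_cases hb : b = 0
    · subst hb
      simp only [TW.crL, if_true, List.cons_prefix_cons]
      constructor
      · intro h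
        exfalso
        have h2 : (0 : Fin d) ∈ l := h.subset (by simp)
        refine y.2 0 ?_ rfl
        rw [hy]; simpa using h2
      · rintro ⟨h, _⟩; exact absurd h ha
    · simp only [TW.crL, hb, if_false, List.cons_prefix_cons, true_and]

lemma rt_mem_Br (i : Fin d) {u : List (Fin d)} (y : TW d) :
    TW.rt i y ∈ Br (i :: u) ↔ y ∈ Br (0 :: u) := by
  rw [mem_Br, mem_Br]
  change (i :: u) <+: TW.rtL i y.1 ↔ (0 :: u) <+: y.1
  cases hy : y.1 with
  | nil => simp [TW.rtL]
  | cons b l =>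
    simp only [TW.rtL, List.cons_prefix_cons]
    constructor
    · rintro ⟨h1, h2⟩
      refine ⟨?_, h2⟩
      have : b + i = 0 + i := by rw [← h1, zero_add]
      exact (add_right_cancel this).symm
    · rintro ⟨h1, h2⟩
      exact ⟨by rw [← h1, zero_add], h2⟩

lemma cr_mem_Br_single (y : TW d) : TW.cr y ∈ Br [0] ↔ y ∈ US d := by
  rw [mem_Br, mem_US]
  change [0] <+: TW.crL y.1 ↔ _
  cases hy : y.1 with
  | nil => simp [TW.crL]
  | cons b l =>
    by_cases hb : b = 0
    · subst hb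
      simp only [TW.crL, if_true, List.head?_cons, ne_eq, not_true_eq_false, iff_false]
      intro h
      have h2 : (0 : Fin d) ∈ l := h.subset (by simp)
      refine y.2 0 ?_ rfl
      rw [hy]; simpa using h2
    · simp [TW.crL, hb]

/-- `mvL w` maps the `u`-side onto the branch of `w` -/
theorem mvL_mem_Br {w : List (Fin d)} (hw : ∀ a ∈ w.tail, a ≠ 0) (hne : w ≠ []) (x : TW d) :
    mvL w x ∈ Br w ↔ x ∈ US d := by
  induction w with
  | nil => exact absurd rfl hne
  | cons i u ih =>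
    simp only [List.tail_cons] at hw
    change TW.rt i (TW.cr (mvL u x)) ∈ Br (i :: u) ↔ _
    rw [rt_mem_Br]
    by_cases hu : u = []
    · subst hu
      exact cr_mem_Br_single x
    · rw [cr_mem_Br_zero hw hu]
      exact ih (fun a ha => hw a (List.mem_of_mem_tail ha)) hu

/-- `mvL w x = w ++ x` for `x` on the `u`-side -/
theorem mvL_val {w : List (Fin d)} (x : TW d) (h : ∀ a ∈ (w ++ x.1).tail, a ≠ 0)
    (hx : w ≠ [] → x ∈ US d) : (mvL w x).1 = w ++ x.1 := by
  induction w with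
  | nil => rfl
  | cons i u ih =>
    have hx' := hx (by simp)
    have h2 : ∀ a ∈ u ++ x.1, a ≠ 0 := by simpa using h
    change TW.rtL i (TW.crL (mvL u x).1) = i :: u ++ x.1
    rw [ih (fun a ha => h2 a (List.mem_of_mem_tail ha)) (fun _ => hx')]
    have h3 : (u ++ x.1).head? ≠ some 0 := by
      intro e
      exact h2 0 (List.mem_of_mem_head? (by simpa using e)) rfl
    cases hy : u ++ x.1 with
    | nil => simp [TW.crL, TW.rtL, hy]
    | cons b l =>
      rw [hy] at h3
      have hb : b ≠ 0 := by simpa using h3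
      simp [TW.crL, TW.rtL, hb, hy]

theorem mvL_nil (w : TW d) : mvL w.1 TW.nil = w := by
  refine TW.ext ?_
  rw [mvL_val TW.nil (by simpa [TW.nil] using w.2) (fun _ => by simp [mem_US, TW.nil])]
  simp [TW.nil]

/-! ### Cavity numbers -/

/-- cavity number at the root vertex, the root edge removed -/
def cav (s : ℝ) (z : ℂ) (om : TW d → ℝ) : ℂ := ((tOp s om).cut (US d)).G z TW.nil TW.nil

theorem im_cav_pos (s : ℝ) {z : ℂ} (hz : 0 < z.im) (om : TW d → ℝ) : 0 < (cav s z om).im :=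
  Op.im_G_pos _ hz _

theorem norm_cav_le (s : ℝ) {z : ℂ} (hz : 0 < z.im) (om : TW d → ℝ) :
    ‖cav s z om‖ ≤ 1 / z.im := Op.norm_G_le _ hz _ _

theorem norm_treeG_le (s : ℝ) {z : ℂ} (hz : 0 < z.im) (om : TW d → ℝ) (x y : TW d) :
    ‖treeG s z om x y‖ ≤ 1 / z.im := Op.norm_G_le _ hz _ _

theorem im_treeG_pos (s : ℝ) {z : ℂ} (hz : 0 < z.im) (om : TW d → ℝ) (x : TW d) :
    0 < (treeG s z om x x).im := Op.im_G_pos _ hz _

theorem treeG_symm (s : ℝ) {z : ℂ} (hz : 0 < z.im) (om : TW d → ℝ) (x y : TW d) :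
    treeG s z om x y = treeG s z om y x := Op.G_symm _ hz.ne' _ _

theorem treeG_im_nonneg (s : ℝ) {z : ℂ} (hz : 0 < z.im) (om : TW d → ℝ) (S : Finset (TW d))
    (a : TW d → ℝ) : 0 ≤ ∑ x ∈ S, ∑ y ∈ S, a x * a y * (treeG s z om x y).im :=
  Op.sum_im_G_nonneg _ hz S a

theorem treeG_im_pos (s : ℝ) {z : ℂ} (hz : 0 < z.im) (om : TW d → ℝ) (S : Finset (TW d))
    (a : TW d → ℝ) {x : TW d} (hx : x ∈ S) (ha : a x ≠ 0) :
    0 < ∑ x ∈ S, ∑ y ∈ S, a x * a y * (treeG s z om x y).im :=
  Op.sum_im_G_pos _ hz S a hx ha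

/-- the parent (`nil` for the root) -/
def par (w : TW d) : TW d := ⟨w.1.dropLast, dropLast_prop w⟩

/-- the edge above a non-root word is a bridge -/
theorem isBridge (s : ℝ) (om : TW d → ℝ) (w : TW d) (hw : w.1 ≠ []) :
    (tOp s om).IsBridge (Br w.1) w (par w) where
  mem := List.prefix_refl _
  notMem := by
    intro h
    have h1 : w.1 <+: w.1.dropLast := h
    have h2 := h1.length_le
    rw [List.length_dropLast] at h2
    have h3 : 0 < w.1.length := List.length_pos_iff.2 hw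
    omega
  iff x hx y hy := by
    have hx' : w.1 <+: x.1 := hx
    have hy' : ¬ w.1 <+: y.1 := hy
    simp only [tOp_nb, mem_nbT]
    constructor
    · rintro (⟨i, hi⟩ | ⟨i, hi⟩)
      · exfalso
        apply hy'
        rw [hi]
        exact hx'.trans (List.prefix_append _ _)
      · rw [hi, List.prefix_concat_iff] at hx'
        have h1 := hx'.resolve_right hy'
        have h2 : x = w := TW.ext (by rw [hi, h1])
        refine ⟨h2, TW.ext ?_⟩
        change y.1 = w.1.dropLast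
        rw [h1]; simp
    · rintro ⟨rfl, rfl⟩
      right
      exact ⟨x.1.getLast hw, (List.dropLast_append_getLast hw).symm⟩

theorem not_mem_Br_nil {w : List (Fin d)} (hw : w ≠ []) : (TW.nil : TW d) ∉ Br w := by
  intro h
  have h1 : w <+: [] := h
  exact hw (List.prefix_nil.1 h1)

/-- the cavity number of the branch at `w` is the rerooted cavity number -/
theorem cut_Br_G (s : ℝ) (om : TW d → ℝ) (w : TW d) (hw : w.1 ≠ []) {z : ℂ} (hz : 0 < z.im)
    (x y : TW d) : ((tOp s (om ∘ mvL w.1)).cut (US d)).G z x y =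
      ((tOp s om).cut (Br w.1)).G z (mvL w.1 x) (mvL w.1 y) :=
  (aut_mvL w.1).cut_G s om (fun x => mvL_mem_Br w.2 hw x) hz x y

theorem cut_Br_cav (s : ℝ) (om : TW d → ℝ) (w : TW d) (hw : w.1 ≠ []) {z : ℂ} (hz : 0 < z.im) :
    ((tOp s om).cut (Br w.1)).G z w w = cav s z (om ∘ mvL w.1) := by
  rw [cav, cut_Br_G s om w hw hz, mvL_nil]

/-- multiplicativity: `G (w, y) = - G (parent w, y) * c (w)` for `y` outside the branch of `w` -/
theorem treeG_par (s : ℝ) (om : TW d → ℝ) {z : ℂ} (hz : 0 < z.im) (w : TW d) (hw : w.1 ≠ [])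
    {y : TW d} (hy : y ∉ Br w.1) :
    treeG s z om w y = - treeG s z om (par w) y * cav s z (om ∘ mvL w.1) := by
  rw [← cut_Br_cav s om w hw hz]
  exact (isBridge s om w hw).G_step hz.ne' hy

/-- product of `- cavity` along a word -/
def trp (s : ℝ) (z : ℂ) : List (Fin d) → (TW d → ℝ) → ℂ
  | [], _ => 1
  | j :: w, om => - cav s z (om ∘ mv j) * trp s z w (om ∘ mv j)

theorem trp_append (s : ℝ) (z : ℂ) (u : List (Fin d)) (k : Fin d) (om : TW d → ℝ) :
    trp s z (u ++ [k]) om = trp s z u om * - cav s z (om ∘ mvL (u ++ [k])) := by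
  induction u generalizing om with
  | nil =>
    simp only [List.nil_append, trp, mul_one, one_mul]
    rfl
  | cons j u ih =>
    rw [List.cons_append, trp, ih, trp, mul_assoc]
    rfl

/-- `G (w, y) = G (nil, y) * trp w` if `y` is not in the branch of the first letter of `w` -/
theorem treeG_trp (s : ℝ) (om : TW d → ℝ) {z : ℂ} (hz : 0 < z.im) (j : Fin d)
    (u : List (Fin d)) (hu : ∀ a ∈ (j :: u).tail, a ≠ 0) {y : TW d} (hy : y ∉ Br [j]) :
    treeG s z om ⟨j :: u, hu⟩ y = treeG s z om TW.nil y * trp s z (j :: u) om := by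
  induction u using List.reverseRecOn with
  | nil =>
    have h := treeG_par s om hz (⟨[j], hu⟩ : TW d) (by simp) hy
    have h2 : par (⟨[j], hu⟩ : TW d) = TW.nil := TW.ext rfl
    rw [h, h2, trp, trp, mul_one]
    have h3 : mvL [j] = (mv j : TW d → TW d) := rfl
    rw [h3]; ring
  | append_singleton u k ih =>
    have hu' : ∀ a ∈ (j :: u).tail, a ≠ 0 := by
      intro a ha
      apply hu
      simp only [List.tail_cons] at ha ⊢
      exact List.mem_append_left _ ha
    have hy' : y ∉ Br (j :: (u ++ [k])) := by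
      intro h
      apply hy
      have h1 : (j :: (u ++ [k])) <+: y.1 := h
      have h2 : [j] <+: (j :: (u ++ [k])) := by simp
      exact h2.trans h1
    have h := treeG_par s om hz (⟨j :: (u ++ [k]), hu⟩ : TW d) (by simp) hy'
    have h2 : par (⟨j :: (u ++ [k]), hu⟩ : TW d) = ⟨j :: u, hu'⟩ := by
      refine TW.ext ?_
      change (j :: (u ++ [k])).dropLast = j :: u
      rw [← List.cons_append, List.dropLast_concat]
    have h3 : trp s z (j :: (u ++ [k])) om =
        trp s z (j :: u) om * - cav s z (om ∘ mvL (j :: (u ++ [k]))) := trp_append s z (j :: u) k om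
    rw [h, h2, ih hu', h3]
    ring

lemma single_val (k : Fin d) : (TW.single k).1 = [k] := rfl

lemma mvL_single (k : Fin d) : mvL [k] = (mv k : TW d → TW d) := rfl

lemma par_single (k : Fin d) : par (TW.single k) = TW.nil := TW.ext rfl

lemma nbT_nil : nbT (TW.nil : TW d) = Finset.univ.image TW.single := by
  ext y
  rw [mem_nbT, Finset.mem_image]
  constructor
  · rintro (⟨i, hi⟩ | ⟨i, hi⟩)
    · exact ⟨i, Finset.mem_univ _, TW.ext (by rw [hi]; rfl)⟩
    · have := congrArg List.length hi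
      simp [TW.nil] at this
  · rintro ⟨i, _, rfl⟩
    exact Or.inl ⟨i, rfl⟩

lemma single_injective : Function.Injective (TW.single : Fin d → TW d) := by
  intro i j h
  have h1 : [i] = [j] := congrArg TW.val h
  simpa using h1

/-- Green function at the root -/
theorem treeG_nil (s : ℝ) (om : TW d → ℝ) {z : ℂ} (hz : 0 < z.im) :
    treeG s z om TW.nil TW.nil *
      (z - s * clip (om TW.nil) + ∑ k : Fin d, cav s z (om ∘ mv k)) = -1 := by
  have h := Op.G_rec (H := tOp s om) TW.nil (fun w => Br w.1) (fun w hw => by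
    simp only [tOp_nb, nbT_nil, Finset.mem_image] at hw
    obtain ⟨k, _, rfl⟩ := hw
    have := isBridge s om (TW.single k) (by simp [TW.single])
    rwa [par_single] at this) hz.ne'
  simp only [tOp_nb, nbT_nil, tOp_v] at h
  rw [Finset.sum_image (fun i _ j _ hij => single_injective hij)] at h
  have h2 : ∀ k : Fin d, ((tOp s om).cut (Br (TW.single k).1)).G z (TW.single k) (TW.single k) =
      cav s z (om ∘ mv k) := fun k => by
    rw [cut_Br_cav s om (TW.single k) (by simp [TW.single]) hz]; rfl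
  simp only [h2] at h
  unfold treeG
  rw [← neg_eq_iff_eq_neg, ← h]
  push_cast
  ring

/-- the cavity recursion -/
theorem cav_rec (s : ℝ) (om : TW d → ℝ) {z : ℂ} (hz : 0 < z.im) :
    cav s z om * (z - s * clip (om TW.nil) +
      ∑ k ∈ Finset.univ.filter (fun k : Fin d => k ≠ 0), cav s z (om ∘ mv k)) = -1 := by
  have hnb : ((tOp s om).cut (US d)).nb TW.nil =
      (Finset.univ.filter (fun k : Fin d => k ≠ 0)).image TW.single := by
    ext y
    rw [Op.mem_cut_nb, tOp_nb, nbT_nil, Finset.mem_image, Finset.mem_image]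
    constructor
    · rintro ⟨⟨k, _, rfl⟩, _, h2⟩
      refine ⟨k, Finset.mem_filter.2 ⟨Finset.mem_univ _, ?_⟩, rfl⟩
      intro hk
      rw [mem_US] at h2
      exact h2 (by rw [hk]; rfl)
    · rintro ⟨k, hk, rfl⟩
      rw [Finset.mem_filter] at hk
      refine ⟨⟨k, Finset.mem_univ _, rfl⟩, by simp [mem_US, TW.nil], ?_⟩
      rw [mem_US]
      simpa [TW.single] using hk.2
  have h := Op.cut_rec (H := tOp s om) (S := US d) TW.nil (by simp [mem_US, TW.nil])
    (fun w => Br w.1) (fun w hw => by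
      rw [hnb, Finset.mem_image] at hw
      obtain ⟨k, hk, rfl⟩ := hw
      have := isBridge s om (TW.single k) (by simp [TW.single])
      rw [par_single] at this
      refine ⟨this, fun x hx => ?_⟩
      rw [Finset.mem_filter] at hk
      have hx' : [k] <+: x.1 := hx
      rw [mem_US]
      obtain ⟨t, ht⟩ := hx'
      rw [← ht]
      simpa using hk.2) hz.ne'
  rw [hnb, Finset.sum_image (fun i _ j _ hij => single_injective hij)] at h
  simp only [tOp_v] at h
  have h2 : ∀ k : Fin d, ((tOp s om).cut (Br (TW.single k).1)).G z (TW.single k) (TW.single k) =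
      cav s z (om ∘ mv k) := fun k => by
    rw [cut_Br_cav s om (TW.single k) (by simp [TW.single]) hz]; rfl
  simp only [h2] at h
  unfold cav at h ⊢
  rw [← neg_eq_iff_eq_neg, ← h]
  push_cast
  ring

/-! ### Edge block and star in terms of cavity numbers -/

lemma om_mv_zero (om : TW d → ℝ) : om ∘ mv 0 = om ∘ TW.cr := by
  funext x
  simp [mv, TW.rt_zero]

lemma cr_nil : TW.cr (TW.nil : TW d) = TW.single 0 := TW.ext rfl

lemma mem_US_iff_cr (x : TW d) : TW.cr x ∈ (US d)ᶜ ↔ x ∈ US d := by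
  have h : ∀ y : TW d, y ∈ (US d)ᶜ ↔ y ∈ Br [0] := by
    intro y
    rw [Set.mem_compl_iff, mem_US, not_not, mem_Br]
    cases hy : y.1 with
    | nil => simp
    | cons b l => simp [eq_comm]
  rw [h, cr_mem_Br_single]

lemma isBridge_root (s : ℝ) (om : TW d → ℝ) :
    (tOp s om).IsBridge (US d) TW.nil (TW.single 0) := by
  have h := isBridge s om (TW.single (0 : Fin d)) (by simp [TW.single])
  rw [par_single] at h
  have h2 := h.compl
  have h3 : (Br (TW.single (0 : Fin d)).1)ᶜ = US d := by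
    ext y
    rw [Set.mem_compl_iff, mem_US, mem_Br, single_val]
    cases hy : y.1 with
    | nil => simp
    | cons b l => simp [eq_comm]
  rwa [h3] at h2

lemma cut_compl (s : ℝ) (om : TW d → ℝ) {z : ℂ} (hz : 0 < z.im) :
    ((tOp s om).cut (US d)ᶜ).G z (TW.single 0) (TW.single 0) = cav s z (om ∘ TW.cr) := by
  rw [cav, aut_cr.cut_G s om mem_US_iff_cr hz, cr_nil]

/-- the edge block, first diagonal entry -/
theorem treeG_uu (s : ℝ) (om : TW d → ℝ) {z : ℂ} (hz : 0 < z.im) :
    treeG s z om TW.nil TW.nil * (1 - cav s z om * cav s z (om ∘ TW.cr)) = cav s z om := by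
  have h := (isBridge_root s om).G_uu hz.ne'
  rwa [cut_compl s om hz] at h

theorem one_sub_cav_ne (s : ℝ) (om : TW d → ℝ) {z : ℂ} (hz : 0 < z.im) :
    1 - cav s z om * cav s z (om ∘ TW.cr) ≠ 0 := by
  have h := (isBridge_root s om).one_sub_ne hz
  rwa [cut_compl s om hz] at h

/-- the edge block, off-diagonal entry -/
theorem treeG_vu (s : ℝ) (om : TW d → ℝ) {z : ℂ} (hz : 0 < z.im) :
    treeG s z om (TW.single 0) TW.nil = - treeG s z om TW.nil TW.nil * cav s z (om ∘ TW.cr) := by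
  have h := (isBridge_root s om).G_vu hz.ne'
  rwa [cut_compl s om hz] at h

/-- equivariance under the edge flip -/
theorem treeG_cr (s : ℝ) (om : TW d → ℝ) {z : ℂ} (hz : 0 < z.im) (x y : TW d) :
    treeG s z (om ∘ TW.cr) x y = treeG s z om (TW.cr x) (TW.cr y) := aut_cr.G s om hz x y


theorem treeG_mvL (s : ℝ) (om : TW d → ℝ) (w : List (Fin d)) {z : ℂ} (hz : 0 < z.im)
    (x y : TW d) : treeG s z (om ∘ mvL w) x y = treeG s z om (mvL w x) (mvL w y) :=
  (aut_mvL w).G s om hz x y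

theorem treeG_vv (s : ℝ) (om : TW d → ℝ) {z : ℂ} (hz : 0 < z.im) :
    treeG s z om (TW.single 0) (TW.single 0) * (1 - cav s z om * cav s z (om ∘ TW.cr)) =
      cav s z (om ∘ TW.cr) := by
  have h := treeG_uu s (om ∘ TW.cr) hz
  have h2 : (om ∘ TW.cr) ∘ TW.cr = om := by
    funext x; simp [TW.cr_cr]
  rw [h2, treeG_cr s om hz, cr_nil] at h
  rw [mul_comm (cav s z om)]
  exact h

/-- star: the centre and a neighbour -/
theorem treeG_star_one (s : ℝ) (om : TW d → ℝ) {z : ℂ} (hz : 0 < z.im) (k : Fin d) :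
    treeG s z om (TW.single k) TW.nil = - treeG s z om TW.nil TW.nil * cav s z (om ∘ mv k) := by
  have h := treeG_par s om hz (TW.single k) (by simp [TW.single]) (y := TW.nil)
    (not_mem_Br_nil (by simp [TW.single]))
  rwa [par_single] at h

/-- star: two neighbours -/
theorem treeG_star_two (s : ℝ) (om : TW d → ℝ) {z : ℂ} (hz : 0 < z.im) (k l : Fin d) :
    treeG s z om (TW.single k) (TW.single l) =
      treeG s z om TW.nil TW.nil * cav s z (om ∘ mv k) * cav s z (om ∘ mv l) +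
        if k = l then cav s z (om ∘ mv k) else 0 := by
  by_cases hkl : k = l
  · subst hkl
    rw [if_pos rfl]
    have hb := isBridge s om (TW.single k) (by simp [TW.single])
    have h := hb.G_in hz.ne' hb.mem hb.mem
    rw [par_single, cut_Br_cav s om (TW.single k) (by simp [TW.single]) hz] at h
    have h2 : (tOp s om).G z TW.nil (TW.single k) = treeG s z om (TW.single k) TW.nil :=
      treeG_symm s hz om _ _
    rw [h2, treeG_star_one s om hz k] at h
    unfold treeG at h ⊢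
    rw [h]
    change cav s z (om ∘ mv k) - _ * cav s z (om ∘ mv k) = _
    ring
  · rw [if_neg hkl, add_zero]
    have h := treeG_par s om hz (TW.single k) (by simp [TW.single]) (y := TW.single l) (by
      intro h
      have h1 : [k] <+: [l] := h
      simp at h1
      exact hkl h1)
    rw [par_single] at h
    rw [h, treeG_symm s hz om TW.nil (TW.single l), treeG_star_one s om hz l]
    change - (- _ * _) * cav s z (om ∘ mv k) = _
    ring

/-- far vertex `0 :: u` (behind the neighbour number `0`) and a vertex `y` which is not behind it -/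
theorem treeG_far (s : ℝ) (om : TW d → ℝ) {z : ℂ} (hz : 0 < z.im) (u : List (Fin d))
    (hu : ∀ a ∈ (0 :: u).tail, a ≠ 0) {y : TW d} (hy : y ∉ Br [0]) :
    treeG s z om ⟨0 :: u, hu⟩ y =
      treeG s z om TW.nil y * (- cav s z (om ∘ TW.cr) * trp s z u (om ∘ TW.cr)) := by
  rw [treeG_trp s om hz 0 u hu hy, trp, om_mv_zero]

/-- the diagonal entry at a word is the rerooted entry at the root -/
theorem treeG_diag (s : ℝ) (om : TW d → ℝ) {z : ℂ} (hz : 0 < z.im) (w : TW d) :
    treeG s z om w w = treeG s z (om ∘ mvL w.1) TW.nil TW.nil := by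
  rw [treeG_mvL s om w.1 hz, mvL_nil]

/-- far vertex `0 :: u` and the neighbour number `0` -/
theorem treeG_far_zero (s : ℝ) (om : TW d → ℝ) {z : ℂ} (hz : 0 < z.im) (u : List (Fin d))
    (hu : ∀ a ∈ (0 :: u).tail, a ≠ 0) :
    treeG s z om ⟨0 :: u, hu⟩ (TW.single 0) =
      treeG s z om (TW.single 0) (TW.single 0) * trp s z u (om ∘ TW.cr) := by
  have hu1 : ∀ a ∈ u, a ≠ 0 := by simpa using hu
  have hu2 : ∀ a ∈ u.tail, a ≠ 0 := fun a ha => hu1 a (List.mem_of_mem_tail ha)
  have h1 : (⟨0 :: u, hu⟩ : TW d) = TW.cr ⟨u, hu2⟩ := by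
    refine TW.ext ?_
    change 0 :: u = TW.crL u
    cases u with
    | nil => rfl
    | cons b l =>
      have hb : b ≠ 0 := hu1 b (by simp)
      simp [TW.crL, hb]
  have h2 : ∀ x y : TW d, treeG s z om (TW.cr x) (TW.cr y) = treeG s z (om ∘ TW.cr) x y :=
    fun x y => (treeG_cr s om hz x y).symm
  rw [h1, ← cr_nil, h2, h2]
  cases u with
  | nil => simp [trp, TW.nil]
  | cons b l =>
    have h3 := treeG_trp s (om ∘ TW.cr) hz b l (by simpa using hu2) (y := TW.nil)
      (not_mem_Br_nil (by simp))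
    rw [← h3]

/-! ### Continuity in the environment -/

theorem continuous_treeG (s : ℝ) {z : ℂ} (hz : 0 < z.im) (x y : TW d) :
    Continuous fun om : TW d → ℝ => treeG s z om x y :=
  continuous_G (fun om => tOp s om) (fun _ _ => rfl)
    (fun w => continuous_const.mul (continuous_clip.comp (continuous_apply w))) hz x y

theorem continuous_cav (s : ℝ) {z : ℂ} (hz : 0 < z.im) :
    Continuous fun om : TW d → ℝ => cav s z om :=
  continuous_G (fun om => (tOp s om).cut (US d)) (fun _ _ => rfl)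
    (fun w => continuous_const.mul (continuous_clip.comp (continuous_apply w))) hz _ _



/-! ### Configurations -/

/-- the potential read off a configuration -/
def omOf {T : Type*} (π : T → ℝ) (ξ : Conf d (Fin d × T)) : TW d → ℝ := fun w => π (ξ w).2

section omOf
variable {T : Type*} (π : T → ℝ) (ξ : Conf d (Fin d × T))

theorem omOf_cross : omOf π (cross ξ) = omOf π ξ ∘ TW.cr := rfl

theorem omOf_rotn (i : Fin d) : omOf π (rotn i ξ) = omOf π ξ ∘ TW.rt i := by
  funext w
  by_cases h : w = TW.nil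
  · subst h
    simp only [omOf, rotn, if_true, Function.comp, TW.rt_nil]
    rfl
  · simp only [omOf, rotn, h, if_false, Function.comp]

theorem omOf_step (i : Fin d) : omOf π (step i ξ) = omOf π ξ ∘ mv i := by
  rw [step, omOf_cross, omOf_rotn]; rfl

theorem omOf_reroot (u : List (Fin d)) : omOf π (reroot u ξ) = omOf π ξ ∘ mvL u := by
  induction u generalizing ξ with
  | nil => rfl
  | cons i u ih => rw [reroot, ih, omOf_step]; rfl

theorem continuous_omOf [TopologicalSpace T] (hπ : Continuous π) :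
    Continuous (omOf π : Conf d (Fin d × T) → TW d → ℝ) :=
  continuous_pi fun w => hπ.comp (continuous_snd.comp (continuous_apply w))

end omOf

/-! ### Comparison with port-numbered graphs -/

variable {n : ℕ}

/-- the operator of a port-numbered graph -/
def gOp (p : Equiv.Perm (HE n d)) (hp : IsPort p) (s : ℝ) (om : Fin n → ℝ) :
    Op (Fin n) d |s| where
  nb v := Finset.univ.image fun i => (p (v, i)).1
  v x := s * clip (om x)
  symm x y h := by
    rw [Finset.mem_image] at h ⊢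
    obtain ⟨i, _, hi⟩ := h
    refine ⟨(p (x, i)).2, Finset.mem_univ _, ?_⟩
    have : (y, (p (x, i)).2) = p (x, i) := by rw [← hi]
    rw [this, hp.inv]
  deg x := (Finset.card_image_le).trans (by simp)
  bdd x := by
    rw [abs_mul]
    exact mul_le_of_le_one_right (abs_nonneg _) (abs_clip_le _)

theorem gOp_mat (p : Equiv.Perm (HE n d)) (hp : IsPort p) (s : ℝ) (om : Fin n → ℝ)
    (hom : ∀ v, |om v| ≤ 1) : (gOp p hp s om).mat = Hm (graphOf p) s om := by
  ext x y
  have h1 : y ∈ (gOp p hp s om).nb x ↔ (graphOf p).Adj x y := by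
    rw [hp.adj_iff]
    simp [gOp]
  simp only [Op.mat, Hm, Matrix.add_apply, SimpleGraph.adjMatrix_apply, Matrix.smul_apply,
    Matrix.diagonal_apply, smul_eq_mul]
  congr 1
  · by_cases h : (graphOf p).Adj x y
    · rw [if_pos (h1.2 h), if_pos h]
    · rw [if_neg (fun e => h (h1.1 e)), if_neg h]
  · split_ifs with h
    · change s * clip (om x) = _
      rw [clip_eq (hom x)]
    · simp

theorem Res_eq_gOp (p : Equiv.Perm (HE n d)) (hp : IsPort p) (s : ℝ) (om : Fin n → ℝ)
    (hom : ∀ v, |om v| ≤ 1) {z : ℂ} (hz : z.im ≠ 0) (x y : Fin n) :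
    Res (Hm (graphOf p) s om) z x y = (gOp p hp s om).G z x y := by
  rw [Res, ← gOp_mat p hp s om hom, Op.inv_mat _ hz]; rfl

/-- the vertex reached by following the word `w` -/
def vx (p : Equiv.Perm (HE n d)) (h : HE n d) (w : TW d) : Fin n := (walk p w.1 h).1

lemma vx_nbr {p : Equiv.Perm (HE n d)} (hp : IsPort p) (h : HE n d) (w : TW d) (i : Fin d) :
    vx p h (nbr w i) = (p (vx p h w, (walk p w.1 h).2 + i)).1 := by
  unfold vx
  by_cases hc : w.1 = [] ∨ i ≠ 0
  · rw [nbr_of w i hc, walk_append]; rfl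
  · rw [nbr_not w i hc]
    have hw : w.1 ≠ [] := fun e => hc (Or.inl e)
    have hi : i = 0 := by
      by_contra e; exact hc (Or.inr e)
    have h1 : w.1 = w.1.dropLast ++ [w.1.getLast hw] := (List.dropLast_append_getLast hw).symm
    rw [hi, add_zero]
    have h2 : walk p w.1 h = p ((walk p w.1.dropLast h).1,
        (walk p w.1.dropLast h).2 + w.1.getLast hw) := by
      conv_lhs => rw [h1]
      rw [walk_append]; rfl
    have h3 : p (walk p w.1 h) = ((walk p w.1.dropLast h).1,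
        (walk p w.1.dropLast h).2 + w.1.getLast hw) := by
      rw [h2, hp.inv]
    have h4 : ((walk p w.1 h).1, (walk p w.1 h).2) = walk p w.1 h := rfl
    rw [h4, h3]

lemma gOp_nb_vx {p : Equiv.Perm (HE n d)} (hp : IsPort p) (s : ℝ) (om : Fin n → ℝ)
    (h : HE n d) (w : TW d) :
    (gOp p hp s om).nb (vx p h w) = (nbT w).image (vx p h) := by
  ext v
  simp only [gOp, nbT, Finset.mem_image, Finset.mem_univ, true_and, exists_exists_eq_and]
  constructor
  · rintro ⟨i, hi⟩
    refine ⟨i - (walk p w.1 h).2, ?_⟩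
    rw [vx_nbr hp, ← hi]; congr 3; abel
  · rintro ⟨i, hi⟩
    refine ⟨(walk p w.1 h).2 + i, ?_⟩
    rw [← hi, vx_nbr hp]

lemma vx_injOn {p : Equiv.Perm (HE n d)} (hp : IsPort p) (h : HE n d) (w : TW d) :
    Set.InjOn (vx p h) (nbT w : Set (TW d)) := by
  intro x hx y hy hxy
  rw [Finset.mem_coe, nbT, Finset.mem_image] at hx hy
  obtain ⟨i, _, rfl⟩ := hx
  obtain ⟨j, _, rfl⟩ := hy
  rw [vx_nbr hp, vx_nbr hp] at hxy
  have := hp.simple _ _ _ hxy
  rw [add_left_cancel this]


/-- the radius -/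
def rad (d : ℕ) (s : ℝ) (z : ℂ) (ε : ℝ) : ℕ := Op.rad d |s| z ε

/-- comparison of the tree Green function and the resolvent of the graph at tree-like places -/
theorem treeG_sub_Res {p : Equiv.Perm (HE n d)} (hp : IsPort p) (s : ℝ) (om : Fin n → ℝ)
    (hom : ∀ v, |om v| ≤ 1) (h : HE n d) {R : ℕ} (hR : Set.InjOn (vx p h) {w | w.len ≤ R})
    {z : ℂ} (hz : 0 < z.im) {ε : ℝ} (hε : 0 < ε) {x y : TW d} (hx : x.len + rad d s z ε ≤ R)
    (hy : y.len ≤ R) :
    ‖treeG s z (fun w => om (vx p h w)) x y -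
      Res (Hm (graphOf p) s om) z (vx p h x) (vx p h y)‖ ≤ 2 * ε := by
  rw [Res_eq_gOp p hp s om hom hz.ne']
  refine Op.norm_G_sub_G_le (tOp s fun w => om (vx p h w)) (gOp p hp s om) (vx p h) y
    (fun k x => x.len + k ≤ R) ?_ ?_ ?_ hz hε hx
  · intro k x hx
    refine ⟨by omega, fun x' hx' => ?_⟩
    have := len_le_of_nbT hx'
    omega
  · intro k x _
    exact ⟨gOp_nb_vx hp s om h x, vx_injOn hp h x, rfl⟩
  · intro x hx
    exact ⟨fun e => hR (by simpa using hx) hy e, fun e => by rw [e]⟩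

end Crest.Agent.R166.TreeG879
end
private theorem rz_704f59939d : type_of% @_root_.Crest.Agent.R166.TreeG879.trp.eq_def := @_root_.Crest.Agent.R166.TreeG879.trp.eq_def -- L438
private theorem rz_8ecbb72bb3 : type_of% @_root_.Crest.Agent.R166.TreeG879.trp.eq_1 := @_root_.Crest.Agent.R166.TreeG879.trp.eq_1 -- L438
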