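import Crest.Agent.R166.LimMean_974
import Crest.Agent.R166.NoiseLim5_849
import Crest.Agent.R166.TreeG_879
import Crest.Agent.R166.Spec_B2_385
import Crest.Agent.R166.LimEnv_289
import Mathlib
import Crest.Agent.R166.Defs_419
import Crest.Agent.R166.Spec_B1_955

-- ▼ part R166/LimProcX_974
section

/-!
Row 166 (helper974): the fields of `B2.LimProc` which concern the maps, the environment, `X` and
the measurability/invariance of `Z`, on `Conf d (S2 d k)`, `pp = cross`, `rr = rotn 1`, with the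
clipped environment.
-/

set_option autoImplicit false
set_option linter.unusedSectionVars false

noncomputable section

namespace Crest.Agent.R166.LimProcX974

open MeasureTheory Filter Topology ProbabilityTheory
open Crest.ProbabilityR.RandomMatrix
open Crest.Agent.R166 Crest.Agent.R166.Words955 Crest.Agent.R166.Seq980
open Crest.Agent.R166.LimProps974
open Crest.Agent.R166.NoiseLim849 (S2 pr continuous_pr)
open Crest.Agent.R166.TreeG879 (clip clip_eq continuous_clip omOf)
open Crest.Agent.R166.TreeDefs350 (unif)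
open Crest.Agent.R166.EnvLaw289 (envLaw)
open Crest.Agent.R166.Erg424 (envP measurable_envP measurable_rs)

variable {d k : ℕ} [NeZero d]

/-! ### The σ-algebras and the functions -/


/-- σ-algebra of the clipped environment -/
abbrev Env (d k : ℕ) [NeZero d] : MeasurableSpace (Conf d (S2 d k)) :=
  MeasurableSpace.comap (fun z w => ((z w).1, clip (z w).2.1)) inferInstance

/-- σ-algebra of the environment and `X` -/
abbrev FX (d k : ℕ) [NeZero d] : MeasurableSpace (Conf d (S2 d k)) :=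
  MeasurableSpace.comap pr inferInstance

/-- potential of the base vertex -/
abbrev om (z : Conf d (S2 d k)) : ℝ := clip (z TW.nil).2.1

/-- the frame values at the base vertex -/
abbrev XX (z : Conf d (S2 d k)) : Fin k → ℝ := (z TW.nil).2.2.1

/-- the noise at the base vertex -/
abbrev ZZ (z : Conf d (S2 d k)) : Fin k → ℝ := (z TW.nil).2.2.2

theorem measurable_clip : Measurable clip := continuous_clip.measurable

/-- clipping of an environment -/
def clE (x : Conf d (Fin d × ℝ)) : Conf d (Fin d × ℝ) := fun w => ((x w).1, clip (x w).2)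

theorem measurable_clE : Measurable (clE : Conf d (Fin d × ℝ) → Conf d (Fin d × ℝ)) := by
  refine measurable_pi_lambda _ fun w => ?_
  exact (measurable_fst.comp (measurable_pi_apply w)).prodMk
    (measurable_clip.comp (measurable_snd.comp (measurable_pi_apply w)))

theorem measurable_pr : Measurable (pr : Conf d (S2 d k) → Conf d (S1 d k)) := by
  refine measurable_pi_lambda _ fun w => ?_
  exact (measurable_fst.comp (measurable_pi_apply w)).prodMk
    ((measurable_fst.comp (measurable_snd.comp (measurable_pi_apply w))).prodMk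
      (measurable_fst.comp (measurable_snd.comp (measurable_snd.comp (measurable_pi_apply w)))))

theorem measurable_envM : Measurable (envM : Conf d (S1 d k) → Conf d (Fin d × ℝ)) :=
  continuous_envM.measurable

theorem envZ_eq : (fun (z : Conf d (S2 d k)) (w : TW d) => ((z w).1, clip (z w).2.1)) =
    clE ∘ envM ∘ pr := rfl

theorem Env_le_envM : Env d k ≤ MeasurableSpace.comap (envM ∘ pr) inferInstance := by
  unfold Env
  rw [envZ_eq, ← MeasurableSpace.comap_comp]
  exact MeasurableSpace.comap_mono measurable_clE.comap_le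

theorem Env_le_FX : Env d k ≤ FX d k := by
  refine Env_le_envM.trans ?_
  rw [← MeasurableSpace.comap_comp]
  exact MeasurableSpace.comap_mono measurable_envM.comap_le

theorem FX_le : FX d k ≤ (inferInstance : MeasurableSpace (Conf d (S2 d k))) :=
  measurable_pr.comap_le

theorem Env_le : Env d k ≤ (inferInstance : MeasurableSpace (Conf d (S2 d k))) :=
  Env_le_FX.trans FX_le

/-! ### Equivariance -/


theorem pr_rotn (i : Fin d) (z : Conf d (S2 d k)) : pr (rotn i z) = rotn i (pr z) := by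
  funext w
  by_cases h : w = TW.nil
  · subst h
    simp [pr, rotn, PortAct.rs]
  · simp [pr, rotn, h]


theorem envM_rotn (i : Fin d) (x : Conf d (S1 d k)) : envM (rotn i x) = rotn i (envM x) := by
  funext w
  by_cases h : w = TW.nil
  · subst h
    simp [envM, rotn, PortAct.rs]
  · simp [envM, rotn, h]


theorem clE_rotn (i : Fin d) (x : Conf d (Fin d × ℝ)) : clE (rotn i x) = rotn i (clE x) := by
  funext w
  by_cases h : w = TW.nil
  · subst h
    simp [clE, rotn, PortAct.rs]
  · simp [clE, rotn, h]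

/-- measurability of an equivariant map with respect to pulled back σ-algebras -/
theorem measurable_comap_of {Ω Ω' : Type*} [m : MeasurableSpace Ω'] (f : Ω → Ω') (a : Ω → Ω)
    (a' : Ω' → Ω') (ha' : Measurable a') (h : ∀ x, f (a x) = a' (f x)) :
    Measurable[MeasurableSpace.comap f m, MeasurableSpace.comap f m] a := by
  rw [measurable_iff_comap_le, MeasurableSpace.comap_comp]
  have h1 : f ∘ a = a' ∘ f := funext h
  rw [h1, ← MeasurableSpace.comap_comp]
  exact MeasurableSpace.comap_mono ha'.comap_le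

theorem pp_Env : Measurable[Env d k, Env d k] (cross : Conf d (S2 d k) → Conf d (S2 d k)) :=
  measurable_comap_of (Ω' := Conf d (Fin d × ℝ)) (clE ∘ envM ∘ pr) cross cross measurable_cross
    fun _ => rfl

theorem rr_Env : Measurable[Env d k, Env d k] (rotn 1 : Conf d (S2 d k) → Conf d (S2 d k)) :=
  measurable_comap_of (Ω' := Conf d (Fin d × ℝ)) (clE ∘ envM ∘ pr) (rotn 1) (rotn 1)
    (measurable_rotn measurable_rs 1) fun z => by
      simp only [Function.comp_apply, pr_rotn, envM_rotn, clE_rotn]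

theorem pp_FX : Measurable[FX d k, FX d k] (cross : Conf d (S2 d k) → Conf d (S2 d k)) :=
  measurable_comap_of pr cross cross measurable_cross fun _ => rfl

theorem rr_FX : Measurable[FX d k, FX d k] (rotn 1 : Conf d (S2 d k) → Conf d (S2 d k)) :=
  measurable_comap_of pr (rotn 1) (rotn 1) (measurable_rotn measurable_rs 1) fun z => pr_rotn 1 z

theorem rotn_iter (j : ℕ) (z : Conf d (S2 d k)) : (rotn 1)^[j] z = rotn (Fin.ofNat d j) z := by
  induction j with
  | zero =>
    have h : Fin.ofNat d 0 = 0 := Fin.ext (by simp [Fin.ofNat])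
    rw [h, rotn_zero]
    rfl
  | succ j ih =>
    rw [Function.iterate_succ_apply', ih, rotn_rotn]
    congr 1
    apply Fin.ext
    simp [Fin.ofNat, Fin.val_add, add_comm]

theorem rr_d (z : Conf d (S2 d k)) : (rotn 1)^[d] z = z := by
  rw [rotn_iter]
  have h : Fin.ofNat d d = 0 := Fin.ext (by simp [Fin.ofNat])
  rw [h, rotn_zero]

theorem om_meas : Measurable[Env d k] (om : Conf d (S2 d k) → ℝ) := by
  have h : (om : Conf d (S2 d k) → ℝ) = (fun x : TW d → Fin d × ℝ => (x TW.nil).2) ∘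
      (fun z w => ((z w).1, clip (z w).2.1)) := rfl
  rw [h]
  exact (measurable_snd.comp (measurable_pi_apply _)).comp (comap_measurable _)

theorem rotn_nil (i : Fin d) (z : Conf d (S2 d k)) : (rotn i z) TW.nil = ((z TW.nil).1 + i,
    (z TW.nil).2) := by
  simp [rotn, PortAct.rs]

theorem om_rr (z : Conf d (S2 d k)) : om (rotn 1 z) = om z := by
  simp only [om, rotn_nil]

theorem X_meas : Measurable[FX d k] (XX : Conf d (S2 d k) → Fin k → ℝ) := by
  have h : (XX : Conf d (S2 d k) → Fin k → ℝ) = (fun x : Conf d (S1 d k) => (x TW.nil).2.2) ∘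
      pr := rfl
  rw [h]
  exact (measurable_snd.comp (measurable_snd.comp (measurable_pi_apply _))).comp
    (comap_measurable _)

theorem X_rr (z : Conf d (S2 d k)) : XX (rotn 1 z) = XX z := by
  simp only [XX, rotn_nil]

theorem Z_meas : Measurable (ZZ : Conf d (S2 d k) → Fin k → ℝ) :=
  measurable_snd.comp (measurable_snd.comp (measurable_snd.comp (measurable_pi_apply _)))

theorem Z_rr (z : Conf d (S2 d k)) : ZZ (rotn 1 z) = ZZ z := by
  simp only [ZZ, rotn_nil]

/-- functions of the clipped potentials are `Env`-measurable -/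
theorem measurable_Env_of {β : Type*} [MeasurableSpace β] (f : (TW d → ℝ) → β)
    (hf : Measurable f) :
    Measurable[Env d k] fun z : Conf d (S2 d k) => f (fun w => clip (z w).2.1) := by
  have h : (fun z : Conf d (S2 d k) => f (fun w => clip (z w).2.1)) =
      (fun x : TW d → Fin d × ℝ => f (fun w => (x w).2)) ∘
      (fun z w => ((z w).1, clip (z w).2.1)) := rfl
  rw [h]
  refine Measurable.comp ?_ (comap_measurable _)
  exact hf.comp (measurable_pi_lambda _ fun w => measurable_snd.comp (measurable_pi_apply w))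

/-- the same in the form `omOf` -/
theorem cav_meas {β : Type*} [MeasurableSpace β] (cavL : (TW d → ℝ) → β)
    (hf : Measurable cavL) :
    Measurable[Env d k] fun z : Conf d (S2 d k) => cavL (omOf (fun t => clip t.1) z) :=
  measurable_Env_of cavL hf

/-! ### Neighbour moves -/

theorem mv_eq (i : ℕ) (z : Conf d (S2 d k)) :
    B2.mv cross (rotn 1) i z = step (Fin.ofNat d i) z := by
  unfold B2.mv step
  rw [rotn_iter]

theorem step_nil (i : Fin d) (z : Conf d (S2 d k)) : (step i z) TW.nil = z (TW.single i) :=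
  step_apply i z TW.nil (by simp [TW.uSide, TW.nil]) (by simp [TW.nil])

theorem sum_mv (f : S2 d k → ℝ) (z : Conf d (S2 d k)) :
    ∑ i ∈ Finset.range d, f ((B2.mv cross (rotn 1) i z) TW.nil) =
      ∑ i : Fin d, f (z (TW.single i)) := by
  rw [Finset.sum_range]
  refine Finset.sum_congr rfl fun i _ => ?_
  rw [mv_eq, step_nil]
  congr 2
  congr 1
  apply Fin.ext
  simp [Fin.ofNat, Nat.mod_eq_of_lt i.2]

/-! ### Transport from the law of the extracted sequence -/

section law

variable {Q : Measure (Conf d (S2 d k))} {S : Seq d k}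

theorem mp_pr (hQ : Q.map pr = S.P) : MeasurePreserving pr Q S.P := ⟨measurable_pr, hQ⟩

theorem prob_of (hQ : Q.map pr = S.P) : IsProbabilityMeasure Q := by
  have := S.prob
  constructor
  have h := (mp_pr hQ).measure_preimage (s := Set.univ) MeasurableSet.univ.nullMeasurableSet
  rw [Set.preimage_univ] at h
  rw [h, measure_univ]

theorem pp_mp (hI : Inv Q) : MeasurePreserving cross Q Q := ⟨measurable_cross, hI.1⟩

theorem rr_mp (hI : Inv Q) : MeasurePreserving (rotn 1) Q Q :=
  ⟨measurable_rotn measurable_rs 1, hI.2 1⟩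

theorem ae_pr (hQ : Q.map pr = S.P) {p : Conf d (S1 d k) → Prop} (h : ∀ᵐ ξ ∂S.P, p ξ) :
    ∀ᵐ z ∂Q, p (pr z) := (mp_pr hQ).quasiMeasurePreserving.ae h

/-- the potentials are almost surely in `[-1,1]`: clipping does nothing -/
theorem clip_ae (hQ : Q.map pr = S.P) : ∀ᵐ z ∂Q, ∀ w : TW d, clip (z w).2.1 = (z w).2.1 := by
  filter_upwards [ae_pr hQ (om_P S)] with z hz w
  exact clip_eq (abs_le.2 (hz w))

theorem X_L2 (hQ : Q.map pr = S.P) (hui : UIF S) (l : Fin k) :
    MemLp (fun h : Conf d (S2 d k) => XX h l) 2 Q :=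
  (LimProps974.X_L2 S hui l).comp_measurePreserving (mp_pr hQ)

theorem X_eq (hQ : Q.map pr = S.P) (s E : ℝ)
    (hnear : ∀ δ : ℝ, 0 < δ → ∀ᶠ j in atTop, ∀ x ∈ S.U j, ∀ l,
      ∑ v, (((Hm (graphOf x.1) s x.2).mulVec (S.F j x l)) v - E * S.F j x l v) ^ 2
        ≤ δ * S.n j) :
    ∀ᵐ h ∂Q, ∀ l, ∑ i ∈ Finset.range d, XX (B2.mv cross (rotn 1) i h) l =
      (E - s * om h) * XX h l := by
  filter_upwards [ae_pr hQ (LimProps974.X_eq S s E hnear), clip_ae hQ] with z hz hc l
  have h1 := hz l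
  have h2 : ∑ i ∈ Finset.range d, XX (B2.mv cross (rotn 1) i z) l =
      ∑ i : Fin d, (z (TW.single i)).2.2.1 l := sum_mv (fun t => t.2.2.1 l) z
  rw [h2]
  unfold resid at h1
  have h3 : om z = (z TW.nil).2.1 := hc TW.nil
  rw [h3]
  have h4 : (∑ i : Fin d, (pr z (TW.single i)).2.2 l) = ∑ i : Fin d, (z (TW.single i)).2.2.1 l :=
    rfl
  have h5 : (pr z TW.nil).2.1 = (z TW.nil).2.1 := rfl
  have h6 : (pr z TW.nil).2.2 l = XX z l := rfl
  rw [h4, h5, h6] at h1
  linarith

theorem X_cov (hQ : Q.map pr = S.P) (hui : UIF S)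
    (horth : ∀ᶠ j in atTop, ∀ x ∈ S.U j, ∀ l l', ∑ v, S.F j x l v * S.F j x l' v
      = if l = l' then (S.n j : ℝ) else 0) (l l' : Fin k) :
    ∫ h, XX h l * XX h l' ∂Q = if l = l' then 1 else 0 := by
  rw [← LimProps974.X_cov S hui horth l l', ← hQ, integral_map measurable_pr.aemeasurable]
  · rfl
  · exact ((continuous_site_X (d := d) (TW.nil : TW d) l).mul
      (continuous_site_X TW.nil l')).measurable.aestronglyMeasurable

theorem X_mean (hQ : Q.map pr = S.P) (hui : UIF S) (hm : MeanOrth S) (l : Fin k) :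
    Q[fun h : Conf d (S2 d k) => XX h l | Env d k] =ᵐ[Q] 0 := by
  have hpr := S.prob
  have hQp := prob_of hQ
  symm
  refine ae_eq_condExp_of_forall_setIntegral_eq Env_le
    ((X_L2 hQ hui l).integrable (by norm_num)) ?_ ?_ ?_
  · intro s _ _
    exact integrableOn_zero
  · intro A hA _
    obtain ⟨B, hB, rfl⟩ := Env_le_envM _ hA
    have hB' : MeasurableSet[EnvS d k] (envM ⁻¹' B : Set (Conf d (S1 d k))) := ⟨B, hB, rfl⟩
    have h1 : ∫ z in (envM ∘ pr) ⁻¹' B, XX z l ∂Q =
        ∫ x in envM ⁻¹' B, (x TW.nil).2.2 l ∂S.P := by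
      rw [← hQ, setIntegral_map (measurable_envM hB) _ measurable_pr.aemeasurable]
      · rfl
      · exact (continuous_site_X (d := d) (TW.nil : TW d) l).measurable.aestronglyMeasurable
    rw [h1, ← setIntegral_condExp EnvS_le
      ((LimProps974.X_L2 S hui l).integrable (by norm_num)) hB']
    have h2 := LimProps974.X_mean S hui hm l
    rw [setIntegral_congr_ae (g := fun _ => (0 : ℝ)) (measurable_envM hB)]
    · simp
    · filter_upwards [h2] with x hx _
      exact hx
  · exact stronglyMeasurable_zero.aestronglyMeasurable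

/-- ergodicity of the clipped environment -/
theorem erg (hd : 2 ≤ d) (hI : Inv Q) (hQ : Q.map pr = S.P) (henv : S.P.map envP = envLaw d unif)
    (f : Conf d (S2 d k) → ℝ) (hf : Measurable[Env d k] f)
    (h1 : ∀ᵐ h ∂Q, f (rotn 1 h) = f h) (h3 : ∀ᵐ h ∂Q, f (cross (rotn 1 (cross h))) = f h) :
    ∃ c : ℝ, ∀ᵐ h ∂Q, f h = c := by
  have hQp := prob_of hQ
  have hu : IsProbabilityMeasure (EnvLaw289.siteLaw d unif) := by
    unfold EnvLaw289.siteLaw
    infer_instance
  have hlaw : Q.map envP = Measure.infinitePi fun _ : TW d => EnvLaw289.siteLaw d unif := by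
    have h5 : (envP : Conf d (S2 d k) → Conf d (Fin d × ℝ)) =
        (envP : Conf d (S1 d k) → Conf d (Fin d × ℝ)) ∘ pr := rfl
    rw [h5, ← Measure.map_map measurable_envP measurable_pr, hQ, henv]
    rfl
  exact Erg424.erg_conf hd Q hI hlaw f (hf.mono Env_le_envM le_rfl) h1 h3

end law

end Crest.Agent.R166.LimProcX974
end
end

-- ▼ part R166/MeanA_263
section

/-!
# Row 166, 42.7 (helper263), part A: contiguity of `ω ↦ ω + γ (1 - ω^2)` under the uniform law
-/

set_option autoImplicit false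

open MeasureTheory ProbabilityTheory Crest.ProbabilityR.RandomMatrix
open scoped ENNReal

namespace Crest.Agent.R166.Mean263

/-- uniform law on `[-1,1]` -/
noncomputable def uu : Measure ℝ := (2⁻¹ : NNReal) • volume.restrict (Set.Icc (-1 : ℝ) 1)

lemma potentialLaw_eq (n : ℕ) : potentialLaw n = Measure.pi fun _ : Fin n => uu := rfl

lemma uu_apply (s : Set ℝ) (hs : MeasurableSet s) :
    uu s = (2⁻¹ : NNReal) * volume (s ∩ Set.Icc (-1 : ℝ) 1) := by
  rw [uu, Measure.smul_apply, Measure.restrict_apply hs]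
  rfl

instance instProbUU : IsProbabilityMeasure uu := by
  refine ⟨?_⟩
  rw [uu_apply _ MeasurableSet.univ, Set.univ_inter, Real.volume_Icc]
  have h1 : (1 : ℝ) - -1 = 2 := by norm_num
  rw [h1]
  have h2 : ENNReal.ofReal 2 = 2 := by norm_num
  rw [h2, ENNReal.coe_inv (by norm_num)]
  exact ENNReal.inv_mul_cancel (by norm_num) (by norm_num)

lemma lintegral_uu (g : ℝ → ℝ≥0∞) :
    ∫⁻ x, g x ∂uu = (2⁻¹ : NNReal) * ∫⁻ x in Set.Icc (-1 : ℝ) 1, g x := by
  rw [uu, lintegral_smul_measure]
  rfl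

/-- the perturbation map -/
def T (γ x : ℝ) : ℝ := x + γ * (1 - x ^ 2)

lemma measurable_T (γ : ℝ) : Measurable (T γ) := by
  unfold T; fun_prop

lemma T_mem {γ : ℝ} (h0 : 0 ≤ γ) (h1 : γ < 1 / 2) {x : ℝ} (hx : x ∈ Set.Icc (-1 : ℝ) 1) :
    T γ x ∈ Set.Icc (-1 : ℝ) 1 := by
  obtain ⟨ha, hb⟩ := hx
  have e1 : 1 - T γ x = (1 - x) * (1 - γ * (1 + x)) := by unfold T; ring
  have e2 : T γ x + 1 = (1 + x) * (1 + γ * (1 - x)) := by unfold T; ring
  have h2 : 0 ≤ 1 - γ * (1 + x) := by nlinarith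
  have h3 : 0 ≤ 1 + γ * (1 - x) := by nlinarith
  constructor
  · nlinarith [mul_nonneg (by linarith : (0:ℝ) ≤ 1 + x) h3]
  · nlinarith [mul_nonneg (by linarith : (0:ℝ) ≤ 1 - x) h2]

lemma T_image {γ : ℝ} (h0 : 0 ≤ γ) (h1 : γ < 1 / 2) :
    T γ '' Set.Icc (-1 : ℝ) 1 = Set.Icc (-1 : ℝ) 1 := by
  apply Set.Subset.antisymm
  · rintro _ ⟨x, hx, rfl⟩
    exact T_mem h0 h1 hx
  · have hc : ContinuousOn (T γ) (Set.Icc (-1 : ℝ) 1) := by
      unfold T; fun_prop
    have := intermediate_value_Icc (by norm_num : (-1 : ℝ) ≤ 1) hc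
    have e1 : T γ (-1) = -1 := by unfold T; ring
    have e2 : T γ 1 = 1 := by unfold T; ring
    rwa [e1, e2] at this

lemma T_inj {γ : ℝ} (h0 : 0 ≤ γ) (h1 : γ < 1 / 2) : Set.InjOn (T γ) (Set.Icc (-1 : ℝ) 1) := by
  intro x hx y hy h
  have e : (x - y) * (1 - γ * (x + y)) = 0 := by
    unfold T at h; linear_combination h
  rcases mul_eq_zero.mp e with h2 | h2
  · linarith
  · exfalso
    obtain ⟨_, hx2⟩ := hx
    obtain ⟨_, hy2⟩ := hy
    nlinarith

lemma lintegral_T {γ : ℝ} (h0 : 0 ≤ γ) (h1 : γ < 1 / 2) (g : ℝ → ℝ≥0∞) :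
    ∫⁻ y, g y ∂uu = ∫⁻ x, ENNReal.ofReal (1 - 2 * γ * x) * g (T γ x) ∂uu := by
  rw [lintegral_uu, lintegral_uu]
  congr 1
  have h := lintegral_image_eq_lintegral_abs_deriv_mul (f := T γ)
    (f' := fun x => 1 - 2 * γ * x) (s := Set.Icc (-1 : ℝ) 1) measurableSet_Icc
    (fun x _ => by
      have : HasDerivAt (T γ) (1 + γ * (0 - 2 * x)) x := by
        unfold T
        have h1 : HasDerivAt (fun x : ℝ => x ^ 2) (2 * x) x := by
          simpa using hasDerivAt_pow 2 x
        exact (hasDerivAt_id x).add (((hasDerivAt_const x (1 : ℝ)).sub h1).const_mul γ)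
      have h3 : 1 + γ * (0 - 2 * x) = 1 - 2 * γ * x := by ring
      rw [h3] at this
      exact this.hasDerivWithinAt) (T_inj h0 h1) g
  rw [T_image h0 h1] at h
  rw [h]
  apply setLIntegral_congr_fun measurableSet_Icc
  intro x hx
  have : 0 ≤ 1 - 2 * γ * x := by
    obtain ⟨_, hx2⟩ := hx
    nlinarith
  simp only [abs_of_nonneg this]

/-- the tilted law -/
noncomputable def kk (γ : ℝ) : Measure ℝ := uu.withDensity fun x => ENNReal.ofReal (1 - 2 * γ * x)

lemma measurable_dens (γ : ℝ) : Measurable fun x : ℝ => ENNReal.ofReal (1 - 2 * γ * x) := by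
  fun_prop

lemma map_kk {γ : ℝ} (h0 : 0 ≤ γ) (h1 : γ < 1 / 2) : (kk γ).map (T γ) = uu := by
  ext s hs
  rw [Measure.map_apply (measurable_T γ) hs, kk, withDensity_apply _ (measurable_T γ hs),
    ← lintegral_indicator (measurable_T γ hs), ← lintegral_indicator_one hs,
    lintegral_T h0 h1 (s.indicator 1)]
  apply lintegral_congr
  intro x
  by_cases hx : T γ x ∈ s
  · rw [Set.indicator_of_mem (show x ∈ T γ ⁻¹' s from hx), Set.indicator_of_mem hx]
    simp
  · rw [Set.indicator_of_notMem (show x ∉ T γ ⁻¹' s from hx), Set.indicator_of_notMem hx, mul_zero]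

lemma prob_kk {γ : ℝ} (h0 : 0 ≤ γ) (h1 : γ < 1 / 2) : IsProbabilityMeasure (kk γ) := by
  refine ⟨?_⟩
  have h := congrArg (fun μ => μ Set.univ) (map_kk h0 h1)
  simp only [Measure.map_apply (measurable_T γ) MeasurableSet.univ, Set.preimage_univ,
    measure_univ] at h
  exact h

lemma lintegral_pi_prod {n : ℕ} (f : Fin n → ℝ → ℝ≥0∞) (hf : ∀ i, Measurable (f i)) :
    ∫⁻ x, ∏ i, f i (x i) ∂(Measure.pi fun _ : Fin n => uu) = ∏ i, ∫⁻ x, f i x ∂uu := by
  have h := lintegral_prod_eq_prod_lintegral_of_indepFun (μ := Measure.pi fun _ : Fin n => uu)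
    Finset.univ (fun i (x : Fin n → ℝ) => f i (x i))
    (iIndepFun_pi (μ := fun _ : Fin n => uu) (X := f) fun i => (hf i).aemeasurable)
    (fun i => (hf i).comp (measurable_pi_apply i))
  rw [h]
  apply Finset.prod_congr rfl
  intro i _
  exact (measurePreserving_eval (fun _ : Fin n => uu) i).lintegral_comp (hf i)

/-- the product density -/
noncomputable def Dn {n : ℕ} (γ : ℝ) (x : Fin n → ℝ) : ℝ≥0∞ :=
  ∏ i, ENNReal.ofReal (1 - 2 * γ * x i)

lemma measurable_Dn {n : ℕ} (γ : ℝ) : Measurable (Dn (n := n) γ) := by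
  unfold Dn
  fun_prop

lemma pi_kk {n : ℕ} {γ : ℝ} (h0 : 0 ≤ γ) (h1 : γ < 1 / 2) :
    (Measure.pi fun _ : Fin n => kk γ) = (Measure.pi fun _ : Fin n => uu).withDensity (Dn γ) := by
  have := prob_kk h0 h1
  refine Measure.pi_eq fun s hs => ?_
  rw [withDensity_apply _ (MeasurableSet.univ_pi hs),
    ← lintegral_indicator (MeasurableSet.univ_pi hs)]
  have e : (fun x : Fin n → ℝ => (Set.univ.pi s).indicator (Dn γ) x) = fun x =>
      ∏ i, (s i).indicator (fun y => ENNReal.ofReal (1 - 2 * γ * y)) (x i) := by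
    funext x
    by_cases hx : x ∈ Set.univ.pi s
    · rw [Set.indicator_of_mem hx, Dn]
      apply Finset.prod_congr rfl
      intro i _
      rw [Set.indicator_of_mem (hx i (Set.mem_univ i))]
    · rw [Set.indicator_of_notMem hx]
      simp only [Set.mem_pi, Set.mem_univ, forall_true_left, not_forall] at hx
      obtain ⟨i, hi⟩ := hx
      symm
      apply Finset.prod_eq_zero (Finset.mem_univ i)
      rw [Set.indicator_of_notMem hi]
  rw [e, lintegral_pi_prod _ fun i => (measurable_dens γ).indicator (hs i)]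
  apply Finset.prod_congr rfl
  intro i _
  rw [lintegral_indicator (hs i), kk, withDensity_apply _ (hs i)]

/-- change of variables on the product space -/
lemma potentialLaw_T {n : ℕ} {γ : ℝ} (h0 : 0 ≤ γ) (h1 : γ < 1 / 2) {B : Set (Fin n → ℝ)}
    (hB : MeasurableSet B) :
    potentialLaw n B = ∫⁻ x in {x : Fin n → ℝ | (fun i => T γ (x i)) ∈ B}, Dn γ x
      ∂(potentialLaw n) := by
  have := prob_kk h0 h1
  have hm : Measurable fun (x : Fin n → ℝ) i => T γ (x i) :=
    measurable_pi_lambda _ fun i => (measurable_T γ).comp (measurable_pi_apply i)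
  have h2 : (Measure.pi fun _ : Fin n => kk γ).map (fun x i => T γ (x i)) =
      Measure.pi fun _ : Fin n => uu := by
    have hs : ∀ _ : Fin n, SigmaFinite ((kk γ).map (T γ)) := by
      intro _; rw [map_kk h0 h1]; infer_instance
    rw [Measure.pi_map_pi (μ := fun _ : Fin n => kk γ) (f := fun _ => T γ)
      (fun _ => (measurable_T γ).aemeasurable)]
    simp only [map_kk h0 h1]
  rw [potentialLaw_eq, ← h2, Measure.map_apply hm hB, pi_kk h0 h1,
    withDensity_apply _ (hm hB), ← pi_kk h0 h1, h2]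
  rfl

lemma lintegral_dens_sq {γ : ℝ} (h0 : 0 ≤ γ) (h1 : γ < 1 / 2) :
    ∫⁻ x, ENNReal.ofReal (1 - 2 * γ * x) ^ 2 ∂uu = ENNReal.ofReal (1 + 4 * γ ^ 2 / 3) := by
  rw [lintegral_uu]
  have e1 : ∫⁻ x in Set.Icc (-1 : ℝ) 1, ENNReal.ofReal (1 - 2 * γ * x) ^ 2 =
      ∫⁻ x in Set.Icc (-1 : ℝ) 1, ENNReal.ofReal ((1 - 2 * γ * x) ^ 2) := by
    apply setLIntegral_congr_fun measurableSet_Icc
    intro x hx
    have : 0 ≤ 1 - 2 * γ * x := by
      obtain ⟨_, hx2⟩ := hx
      nlinarith
    simp only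
    rw [ENNReal.ofReal_pow this]
  have e2 : ∫ x in Set.Icc (-1 : ℝ) 1, (1 - 2 * γ * x) ^ 2 = 2 * (1 + 4 * γ ^ 2 / 3) := by
    rw [integral_Icc_eq_integral_Ioc, ← intervalIntegral.integral_of_le (by norm_num)]
    have : ∀ x : ℝ, HasDerivAt (fun x : ℝ => x - 2 * γ * x ^ 2 + 4 * γ ^ 2 * x ^ 3 / 3)
        ((1 - 2 * γ * x) ^ 2) x := by
      intro x
      have h2 : HasDerivAt (fun x : ℝ => x ^ 2) (2 * x) x := by simpa using hasDerivAt_pow 2 x
      have h3 : HasDerivAt (fun x : ℝ => x ^ 3) (3 * x ^ 2) x := by simpa using hasDerivAt_pow 3 x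
      have := ((hasDerivAt_id x).sub (h2.const_mul (2 * γ))).add
        ((h3.const_mul (4 * γ ^ 2)).div_const 3)
      have e3 : 1 - 2 * γ * (2 * x) + 4 * γ ^ 2 * (3 * x ^ 2) / 3 = (1 - 2 * γ * x) ^ 2 := by ring
      rw [e3] at this
      exact this
    rw [intervalIntegral.integral_eq_sub_of_hasDerivAt (fun x _ => this x)]
    · ring
    · apply Continuous.intervalIntegrable
      fun_prop
  rw [e1, ← ofReal_integral_eq_lintegral_ofReal, e2]
  · rw [ENNReal.ofReal_mul (by norm_num), ← mul_assoc]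
    have h2 : ENNReal.ofReal 2 = 2 := by norm_num
    rw [h2, ENNReal.coe_inv (by norm_num)]
    have h3 : ((2 : NNReal) : ℝ≥0∞)⁻¹ * 2 = 1 :=
      ENNReal.inv_mul_cancel (by norm_num) (by norm_num)
    rw [h3, one_mul]
  · apply Continuous.integrableOn_Icc
    fun_prop
  · exact Filter.Eventually.of_forall fun x => sq_nonneg _

lemma lintegral_Dn_sq {n : ℕ} {γ : ℝ} (h0 : 0 ≤ γ) (h1 : γ < 1 / 2) :
    ∫⁻ x, Dn (n := n) γ x ^ 2 ∂(potentialLaw n) = ENNReal.ofReal ((1 + 4 * γ ^ 2 / 3) ^ n) := by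
  rw [potentialLaw_eq]
  have e : ∀ x : Fin n → ℝ, Dn γ x ^ 2 = ∏ i, (fun y => ENNReal.ofReal (1 - 2 * γ * y) ^ 2) (x i) := by
    intro x
    rw [Dn, Finset.prod_pow]
  simp_rw [e]
  rw [lintegral_pi_prod (fun _ : Fin n => fun y => ENNReal.ofReal (1 - 2 * γ * y) ^ 2)
    (fun _ => (measurable_dens γ).pow_const 2)]
  simp only [lintegral_dens_sq h0 h1]
  rw [Finset.prod_const, Finset.card_univ, Fintype.card_fin, ENNReal.ofReal_pow (by positivity)]

/-- CONTIGUITY: if `B` has probability `> ε` then `T_γ⁻¹ B` has probability `≥ ε²/C`. -/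
theorem contig {n : ℕ} {γ C ε : ℝ} (h0 : 0 ≤ γ) (h1 : γ < 1 / 2) (hC : 0 < C)
    (hn : (1 + 4 * γ ^ 2 / 3) ^ n ≤ C) (hε : 0 < ε) {B : Set (Fin n → ℝ)}
    (hB : MeasurableSet B) (hP : ENNReal.ofReal ε < potentialLaw n B) :
    ENNReal.ofReal (ε ^ 2 / C) ≤ potentialLaw n {x : Fin n → ℝ | (fun i => T γ (x i)) ∈ B} := by
  set S := {x : Fin n → ℝ | (fun i => T γ (x i)) ∈ B} with hS
  have hprob : IsProbabilityMeasure (potentialLaw n) := by
    rw [potentialLaw_eq]; infer_instance
  have hm : Measurable fun (x : Fin n → ℝ) i => T γ (x i) :=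
    measurable_pi_lambda _ fun i => (measurable_T γ).comp (measurable_pi_apply i)
  have hSm : MeasurableSet S := hm hB
  have key : potentialLaw n B ≤ ENNReal.ofReal (C / (2 * ε)) * potentialLaw n S +
      ENNReal.ofReal (ε / 2) := by
    rw [potentialLaw_T h0 h1 hB]
    calc ∫⁻ x in S, Dn γ x ∂(potentialLaw n)
        ≤ ∫⁻ x in S, (ENNReal.ofReal (C / (2 * ε)) +
            ENNReal.ofReal (ε / (2 * C)) * Dn γ x ^ 2) ∂(potentialLaw n) := by
          apply lintegral_mono
          intro x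
          have hfin : Dn γ x ≠ ∞ := by
            unfold Dn
            exact ENNReal.prod_ne_top fun i _ => ENNReal.ofReal_ne_top
          obtain ⟨t, ht0, ht⟩ : ∃ t : ℝ, 0 ≤ t ∧ Dn γ x = ENNReal.ofReal t :=
            ⟨(Dn γ x).toReal, ENNReal.toReal_nonneg, (ENNReal.ofReal_toReal hfin).symm⟩
          simp only [ht]
          rw [← ENNReal.ofReal_pow ht0, ← ENNReal.ofReal_mul (by positivity),
            ← ENNReal.ofReal_add (by positivity) (by positivity)]
          apply ENNReal.ofReal_le_ofReal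
          have : C / (2 * ε) + ε / (2 * C) * t ^ 2 - t =
              (C - ε * t) ^ 2 / (2 * ε * C) := by
            field_simp
            ring
          have h2 : 0 ≤ (C - ε * t) ^ 2 / (2 * ε * C) := by positivity
          linarith
      _ = ENNReal.ofReal (C / (2 * ε)) * potentialLaw n S +
            ENNReal.ofReal (ε / (2 * C)) * ∫⁻ x in S, Dn γ x ^ 2 ∂(potentialLaw n) := by
          rw [lintegral_add_left measurable_const, lintegral_const,
            Measure.restrict_apply MeasurableSet.univ, Set.univ_inter,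
            lintegral_const_mul _ ((measurable_Dn γ).pow_const 2)]
      _ ≤ ENNReal.ofReal (C / (2 * ε)) * potentialLaw n S +
            ENNReal.ofReal (ε / (2 * C)) * ENNReal.ofReal C := by
          gcongr
          calc ∫⁻ x in S, Dn γ x ^ 2 ∂(potentialLaw n) ≤ ∫⁻ x, Dn γ x ^ 2 ∂(potentialLaw n) :=
                setLIntegral_le_lintegral _ _
            _ = ENNReal.ofReal ((1 + 4 * γ ^ 2 / 3) ^ n) := lintegral_Dn_sq h0 h1
            _ ≤ ENNReal.ofReal C := ENNReal.ofReal_le_ofReal hn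
      _ = _ := by
          rw [← ENNReal.ofReal_mul (by positivity)]
          congr 2
          field_simp
  by_contra hcon
  push Not at hcon
  have h3 : potentialLaw n B < ENNReal.ofReal ε := by
    calc potentialLaw n B ≤ ENNReal.ofReal (C / (2 * ε)) * potentialLaw n S +
          ENNReal.ofReal (ε / 2) := key
      _ < ENNReal.ofReal (C / (2 * ε)) * ENNReal.ofReal (ε ^ 2 / C) + ENNReal.ofReal (ε / 2) := by
          apply ENNReal.add_lt_add_right ENNReal.ofReal_ne_top
          apply ENNReal.mul_lt_mul_right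
          · rw [Ne, ENNReal.ofReal_eq_zero, not_le]; positivity
          · exact ENNReal.ofReal_ne_top
          · exact hcon
      _ = ENNReal.ofReal ε := by
          rw [← ENNReal.ofReal_mul (by positivity), ← ENNReal.ofReal_add (by positivity)
            (by positivity)]
          congr 1
          field_simp
          ring
  exact absurd (lt_trans hP h3) (lt_irrefl _)

end Crest.Agent.R166.Mean263
end

-- ▼ part R166/MeanB_263
section

/-!
# Row 166, 42.7 (helper263), part B: near-window functions are asymptotically orthogonal to every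
Lipschitz function of the potential (deterministic part: near-orthogonality and Bessel counting)
-/

set_option autoImplicit false

open MeasureTheory ProbabilityTheory Crest.ProbabilityR.RandomMatrix
open scoped ENNReal

namespace Crest.Agent.R166.Mean263

lemma abs_sum_mul_le {n : ℕ} (f g : Fin n → ℝ) {A B : ℝ} (hA : 0 ≤ A) (hB : 0 ≤ B)
    (hf : ∑ v, f v ^ 2 ≤ A ^ 2) (hg : ∑ v, g v ^ 2 ≤ B ^ 2) : |∑ v, f v * g v| ≤ A * B := by
  apply abs_le_of_sq_le_sq _ (mul_nonneg hA hB)
  calc (∑ v, f v * g v) ^ 2 ≤ (∑ v, f v ^ 2) * (∑ v, g v ^ 2) :=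
        Finset.sum_mul_sq_le_sq_mul_sq _ _ _
    _ ≤ A ^ 2 * B ^ 2 := mul_le_mul hf hg (Finset.sum_nonneg fun _ _ => sq_nonneg _) (sq_nonneg _)
    _ = (A * B) ^ 2 := by ring

/-- Bessel counting -/
theorem bessel_count {n : ℕ} (hn : 0 < n) {ι : Type*} (J : Finset ι) (f : ι → Fin n → ℝ)
    (a b : Fin n → ℝ) (ha : ∀ v, |a v| ≤ 1) (hb : ∀ v, 0 ≤ b v) {τ η κ : ℝ} (hτ : 0 < τ)
    (hη : 0 ≤ η) (hκ : 0 ≤ κ)
    (h1 : ∀ j ∈ J, ∑ v, f j v ^ 2 ≤ 2 * n)
    (hb1 : ∀ v, b v ≤ 1)
    (h2 : ∀ i ∈ J, ∀ j ∈ J, i ≠ j → |∑ v, b v * f i v * f j v| ≤ κ * n)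
    (h3 : ∀ j ∈ J, η * n ≤ |∑ v, if τ ≤ b v then f j v * a v else 0|) :
    (J.card : ℝ) * (η ^ 2 * τ) ≤ 2 + J.card * κ := by
  classical
  rcases Nat.eq_zero_or_pos J.card with h0 | hpos
  · rw [h0]; simp
  have hn' : (0 : ℝ) < n := by exact_mod_cast hn
  have hJ : (0 : ℝ) < J.card := by exact_mod_cast hpos
  set X : ι → ℝ := fun j => ∑ v, if τ ≤ b v then f j v * a v else 0 with hX
  set σ : ι → ℝ := fun j => if 0 ≤ X j then 1 else -1 with hσ
  have hσ1 : ∀ j, σ j * X j = |X j| := by
    intro j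
    simp only [hσ]
    split_ifs with h
    · rw [one_mul, abs_of_nonneg h]
    · rw [abs_of_neg (not_le.mp h)]; ring
  have hσ2 : ∀ i j, |σ i * σ j| ≤ 1 := by
    intro i j
    simp only [hσ]
    split_ifs <;> simp
  set g : Fin n → ℝ := fun v => ∑ j ∈ J, σ j * f j v with hg
  -- total
  have e1 : ∑ j ∈ J, |X j| = ∑ v, (if τ ≤ b v then a v * g v else 0) := by
    calc ∑ j ∈ J, |X j| = ∑ j ∈ J, ∑ v, σ j * (if τ ≤ b v then f j v * a v else 0) := by
          apply Finset.sum_congr rfl
          intro j _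
          rw [← hσ1 j, hX, Finset.mul_sum]
      _ = ∑ v, ∑ j ∈ J, σ j * (if τ ≤ b v then f j v * a v else 0) := Finset.sum_comm
      _ = _ := by
          apply Finset.sum_congr rfl
          intro v _
          split_ifs
          · rw [hg, Finset.mul_sum]
            apply Finset.sum_congr rfl
            intro j _
            ring
          · simp
  have e2 : (J.card : ℝ) * (η * n) ≤ ∑ v, (if τ ≤ b v then a v * g v else 0) := by
    rw [← e1]
    calc (J.card : ℝ) * (η * n) = ∑ _j ∈ J, η * n := by rw [Finset.sum_const, nsmul_eq_mul]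
      _ ≤ _ := Finset.sum_le_sum h3
  -- Cauchy-Schwarz
  have e3 : (∑ v, (if τ ≤ b v then a v * g v else 0)) ^ 2 ≤
      (∑ v, (if τ ≤ b v then a v / Real.sqrt (b v) else 0) ^ 2) *
        (∑ v, (Real.sqrt (b v) * g v) ^ 2) := by
    have : ∀ v, (if τ ≤ b v then a v * g v else 0) =
        (if τ ≤ b v then a v / Real.sqrt (b v) else 0) * (Real.sqrt (b v) * g v) := by
      intro v
      split_ifs with h
      · have : 0 < Real.sqrt (b v) := Real.sqrt_pos.mpr (lt_of_lt_of_le hτ h)
        field_simp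
      · simp
    simp_rw [this]
    exact Finset.sum_mul_sq_le_sq_mul_sq _ _ _
  have e4 : (∑ v, (if τ ≤ b v then a v / Real.sqrt (b v) else 0) ^ 2) ≤ n / τ := by
    calc (∑ v, (if τ ≤ b v then a v / Real.sqrt (b v) else 0) ^ 2) ≤ ∑ _v : Fin n, 1 / τ := by
          apply Finset.sum_le_sum
          intro v _
          split_ifs with h
          · rw [div_pow, Real.sq_sqrt (hb v)]
            have hbv : 0 < b v := lt_of_lt_of_le hτ h
            have : a v ^ 2 ≤ 1 := by
              have := ha v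
              rw [← sq_abs]
              nlinarith [abs_nonneg (a v)]
            exact div_le_div₀ zero_le_one this hτ h
          · rw [zero_pow two_ne_zero]
            positivity
      _ = n / τ := by
          rw [Finset.sum_const, Finset.card_univ, Fintype.card_fin, nsmul_eq_mul]
          ring
  have e5 : (∑ v, (Real.sqrt (b v) * g v) ^ 2) ≤ J.card * (2 * n) + J.card ^ 2 * (κ * n) := by
    have e6 : (∑ v, (Real.sqrt (b v) * g v) ^ 2) =
        ∑ i ∈ J, ∑ j ∈ J, (σ i * σ j) * ∑ v, b v * f i v * f j v := by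
      calc (∑ v, (Real.sqrt (b v) * g v) ^ 2) = ∑ v, ∑ i ∈ J, ∑ j ∈ J,
            (σ i * σ j) * (b v * f i v * f j v) := by
            apply Finset.sum_congr rfl
            intro v _
            rw [mul_pow, Real.sq_sqrt (hb v), sq (g v), hg, Finset.sum_mul_sum, Finset.mul_sum]
            apply Finset.sum_congr rfl
            intro i _
            rw [Finset.mul_sum]
            apply Finset.sum_congr rfl
            intro j _
            ring
        _ = _ := by
            rw [Finset.sum_comm]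
            apply Finset.sum_congr rfl
            intro i _
            rw [Finset.sum_comm]
            apply Finset.sum_congr rfl
            intro j _
            rw [Finset.mul_sum]
    rw [e6]
    calc ∑ i ∈ J, ∑ j ∈ J, (σ i * σ j) * ∑ v, b v * f i v * f j v
        ≤ ∑ i ∈ J, ∑ j ∈ J, ((if i = j then 2 * (n : ℝ) else 0) + κ * n) := by
          apply Finset.sum_le_sum
          intro i hi
          apply Finset.sum_le_sum
          intro j hj
          refine le_trans (le_abs_self _) ?_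
          rw [abs_mul]
          by_cases hij : i = j
          · subst hij
            rw [if_pos rfl]
            have h5 : |∑ v, b v * f i v * f i v| ≤ 2 * n := by
              rw [abs_of_nonneg (Finset.sum_nonneg fun v _ => by
                have := hb v
                have := mul_self_nonneg (f i v)
                nlinarith)]
              refine le_trans ?_ (h1 i hi)
              apply Finset.sum_le_sum
              intro v _
              have := hb1 v
              have := mul_self_nonneg (f i v)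
              nlinarith
            have h6 := mul_le_mul (hσ2 i i) h5 (abs_nonneg _) zero_le_one
            have h7 : 0 ≤ κ * n := by positivity
            linarith
          · rw [if_neg hij]
            have h6 := mul_le_mul (hσ2 i j) (h2 i hi j hj hij) (abs_nonneg _) zero_le_one
            linarith
      _ = _ := by
          simp only [Finset.sum_add_distrib, Finset.sum_ite_eq, Finset.sum_const, nsmul_eq_mul]
          rw [Finset.sum_congr rfl (g := fun _ => 2 * (n : ℝ)) (fun i hi => if_pos hi)]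
          rw [Finset.sum_const, nsmul_eq_mul]
          ring
  have e7 : ((J.card : ℝ) * (η * n)) ^ 2 ≤ (n / τ) *
      (J.card * (2 * n) + J.card ^ 2 * (κ * n)) := by
    calc ((J.card : ℝ) * (η * n)) ^ 2 ≤ (∑ v, (if τ ≤ b v then a v * g v else 0)) ^ 2 := by
          apply pow_le_pow_left₀ (by positivity) e2
      _ ≤ _ := e3
      _ ≤ _ := mul_le_mul e4 e5 (Finset.sum_nonneg fun _ _ => sq_nonneg _) (by positivity)
  have e8 : (J.card : ℝ) * n ^ 2 * ((J.card : ℝ) * (η ^ 2 * τ)) ≤
      (J.card : ℝ) * n ^ 2 * (2 + J.card * κ) := by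
    have h9 : τ * ((J.card : ℝ) * (η * n)) ^ 2 ≤ τ * ((n / τ) *
      (J.card * (2 * n) + J.card ^ 2 * (κ * n))) := mul_le_mul_of_nonneg_left e7 hτ.le
    have h10 : τ * ((n / τ) * (J.card * (2 * n) + J.card ^ 2 * (κ * n))) =
        (J.card : ℝ) * n ^ 2 * (2 + J.card * κ) := by
      field_simp
    rw [h10] at h9
    calc _ = τ * ((J.card : ℝ) * (η * n)) ^ 2 := by ring
      _ ≤ _ := h9
  exact le_of_mul_le_mul_left e8 (by positivity)

open Matrix in
/-- near-orthogonality of near-window functions for two perturbed potentials -/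
theorem near_orth {n : ℕ} (A : Matrix (Fin n) (Fin n) ℝ) (hA : Aᵀ = A) (s E : ℝ) (hs : 0 < s)
    (w : Fin n → ℝ) {γ γ' ρ θ : ℝ} (hρ : 0 ≤ ρ) (hθ : 0 < θ) (hγ : θ ≤ |γ - γ'|)
    (f g : Fin n → ℝ) (hf : ∑ v, f v ^ 2 ≤ 2 * n) (hg : ∑ v, g v ^ 2 ≤ 2 * n)
    (rf : ∑ v, (((A + s • Matrix.diagonal (fun i => T γ (w i))).mulVec f) v - E * f v) ^ 2 ≤
      (ρ / n) ^ 2 * n)
    (rg : ∑ v, (((A + s • Matrix.diagonal (fun i => T γ' (w i))).mulVec g) v - E * g v) ^ 2 ≤
      (ρ / n) ^ 2 * n) (hn : 0 < n) :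
    |∑ v, (1 - w v ^ 2) * f v * g v| ≤ 4 * ρ / (s * θ) := by
  have hn' : (0 : ℝ) < n := by exact_mod_cast hn
  set F : Fin n → ℝ := fun v =>
    ((A + s • Matrix.diagonal (fun i => T γ (w i))).mulVec f) v - E * f v with hF
  set G : Fin n → ℝ := fun v =>
    ((A + s • Matrix.diagonal (fun i => T γ' (w i))).mulVec g) v - E * g v with hG
  have key : ∑ v, F v * g v - ∑ v, f v * G v =
      s * (γ - γ') * ∑ v, (1 - w v ^ 2) * f v * g v := by
    have h1 : ∀ (c : ℝ) (x : Fin n → ℝ) (v : Fin n),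
        ((A + s • Matrix.diagonal (fun i => T c (w i))).mulVec x) v =
        A.mulVec x v + s * (T c (w v) * x v) := by
      intro c x v
      rw [Matrix.add_mulVec, Matrix.smul_mulVec, Pi.add_apply, Pi.smul_apply, smul_eq_mul,
        Matrix.mulVec_diagonal]
    have h2 : ∑ v, A.mulVec f v * g v = ∑ v, f v * A.mulVec g v := by
      have : (A.mulVec f) ⬝ᵥ g = f ⬝ᵥ (A.mulVec g) := by
        rw [Matrix.dotProduct_mulVec, ← Matrix.mulVec_transpose, hA]
      exact this
    have h3 : ∑ v, F v * g v = ∑ v, A.mulVec f v * g v +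
        ∑ v, (s * (T γ (w v)) - E) * (f v * g v) := by
      rw [← Finset.sum_add_distrib]
      apply Finset.sum_congr rfl
      intro v _
      rw [hF]
      simp only [h1]
      ring
    have h4 : ∑ v, f v * G v = ∑ v, f v * A.mulVec g v +
        ∑ v, (s * (T γ' (w v)) - E) * (f v * g v) := by
      rw [← Finset.sum_add_distrib]
      apply Finset.sum_congr rfl
      intro v _
      rw [hG]
      simp only [h1]
      ring
    rw [h3, h4, h2, add_sub_add_left_eq_sub, ← Finset.sum_sub_distrib, Finset.mul_sum]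
    apply Finset.sum_congr rfl
    intro v _
    unfold T
    ring
  have hsq : (ρ / n) ^ 2 * n = (ρ / Real.sqrt n) ^ 2 := by
    rw [div_pow, div_pow, Real.sq_sqrt hn'.le]
    field_simp
  have h2n : (2 : ℝ) * n ≤ (2 * Real.sqrt n) ^ 2 := by
    rw [mul_pow, Real.sq_sqrt hn'.le]
    linarith
  have hsn : 0 < Real.sqrt n := Real.sqrt_pos.mpr hn'
  have b1 : |∑ v, F v * g v| ≤ (ρ / Real.sqrt n) * (2 * Real.sqrt n) :=
    abs_sum_mul_le F g (by positivity) (by positivity) (by rw [← hsq]; exact rf)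
      (le_trans hg h2n)
  have b2 : |∑ v, f v * G v| ≤ (2 * Real.sqrt n) * (ρ / Real.sqrt n) :=
    abs_sum_mul_le f G (by positivity) (by positivity) (le_trans hf h2n)
      (by rw [← hsq]; exact rg)
  have b3 : (ρ / Real.sqrt n) * (2 * Real.sqrt n) = 2 * ρ := by field_simp
  have b4 : (2 * Real.sqrt n) * (ρ / Real.sqrt n) = 2 * ρ := by field_simp
  rw [b3] at b1
  rw [b4] at b2
  have b5 : |s * (γ - γ') * ∑ v, (1 - w v ^ 2) * f v * g v| ≤ 4 * ρ := by
    rw [← key]
    calc |∑ v, F v * g v - ∑ v, f v * G v| ≤ |∑ v, F v * g v| + |∑ v, f v * G v| := abs_sub _ _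
      _ ≤ 4 * ρ := by linarith
  rw [abs_mul, abs_mul, abs_of_pos hs] at b5
  rw [le_div_iff₀ (by positivity)]
  calc |∑ v, (1 - w v ^ 2) * f v * g v| * (s * θ) ≤
      |∑ v, (1 - w v ^ 2) * f v * g v| * (s * |γ - γ'|) := by
        apply mul_le_mul_of_nonneg_left _ (abs_nonneg _)
        exact mul_le_mul_of_nonneg_left hγ hs.le
    _ = s * |γ - γ'| * |∑ v, (1 - w v ^ 2) * f v * g v| := by ring
    _ ≤ 4 * ρ := b5

end Crest.Agent.R166.Mean263
end

-- ▼ part R166/MeanC_263
section

/-!
# Row 166, 42.7 (helper263), part C: `meanZ`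
-/

set_option autoImplicit false

open MeasureTheory ProbabilityTheory Crest.ProbabilityR.RandomMatrix
open scoped ENNReal

namespace Crest.Agent.R166.Mean263

/-- the bad set, with relaxed constants, for a fixed test vector -/
def badF {n : ℕ} (A : Matrix (Fin n) (Fin n) ℝ) (s E ρ ε : ℝ) (a : (Fin n → ℝ) → Fin n → ℝ)
    (f : Fin n → ℝ) : Set (Fin n → ℝ) :=
  {w | ∑ v, (((A + s • Matrix.diagonal w).mulVec f) v - E * f v) ^ 2 ≤ (ρ / n) ^ 2 * n ∧
    ε / 2 * n < |∑ v, f v * a w v|}

lemma mulVec_diag {n : ℕ} (A : Matrix (Fin n) (Fin n) ℝ) (s : ℝ) (w f : Fin n → ℝ) (v : Fin n) :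
    ((A + s • Matrix.diagonal w).mulVec f) v = (∑ u, A v u * f u) + s * (w v * f v) := by
  rw [Matrix.add_mulVec, Matrix.smul_mulVec, Pi.add_apply, Pi.smul_apply, smul_eq_mul,
    Matrix.mulVec_diagonal]
  rfl

lemma measurableSet_badF {n : ℕ} (A : Matrix (Fin n) (Fin n) ℝ) (s E ρ ε : ℝ)
    (a : (Fin n → ℝ) → Fin n → ℝ) (ha : Measurable a) (f : Fin n → ℝ) :
    MeasurableSet (badF A s E ρ ε a f) := by
  unfold badF
  have h1 : Measurable fun w : Fin n → ℝ =>
      ∑ v, (((A + s • Matrix.diagonal w).mulVec f) v - E * f v) ^ 2 := by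
    simp_rw [mulVec_diag]
    fun_prop
  have h2 : Measurable fun w : Fin n → ℝ => |∑ v, f v * a w v| := by
    have : ∀ v, Measurable fun w => a w v := fun v => (measurable_pi_apply v).comp ha
    have h3 : Measurable fun w : Fin n → ℝ => ∑ v, f v * a w v :=
      Finset.measurable_sum _ fun v _ => (this v).const_mul _
    exact h3.abs
  exact (measurableSet_le h1 measurable_const).inter (measurableSet_lt measurable_const h2)

/-- measurable hull of the bad set -/
theorem bad_hull {n : ℕ} (hn : 0 < n) (A : Matrix (Fin n) (Fin n) ℝ) (s E K ε : ℝ) (hK : 0 ≤ K)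
    (hε : 0 < ε) (a : (Fin n → ℝ) → Fin n → ℝ) (ha : Measurable a) :
    ∃ B : Set (Fin n → ℝ), MeasurableSet B ∧
      {w | ∃ f : Fin n → ℝ, ∑ v, f v ^ 2 = n ∧
        ∑ v, (((A + s • Matrix.diagonal w).mulVec f) v - E * f v) ^ 2 ≤ (K / n) ^ 2 * n ∧
        ε * n < |∑ v, f v * a w v|} ⊆ B ∧
      ∀ w ∈ B, ∃ f : Fin n → ℝ, ∑ v, f v ^ 2 ≤ 2 * n ∧
        ∑ v, (((A + s • Matrix.diagonal w).mulVec f) v - E * f v) ^ 2 ≤ ((K + 1) / n) ^ 2 * n ∧
        ε / 2 * n < |∑ v, f v * a w v| := by
  have hn' : (0 : ℝ) < n := by exact_mod_cast hn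
  obtain ⟨D, hDc, hDd⟩ := TopologicalSpace.exists_countable_dense (Fin n → ℝ)
  refine ⟨⋃ f ∈ D ∩ {f | ∑ v, f v ^ 2 ≤ 2 * n}, badF A s E (K + 1) ε a f, ?_, ?_, ?_⟩
  · exact MeasurableSet.biUnion (hDc.mono Set.inter_subset_left)
      fun f _ => measurableSet_badF A s E (K + 1) ε a ha f
  · rintro w ⟨f, hf1, hf2, hf3⟩
    set O : Set (Fin n → ℝ) := {g | ∑ v, g v ^ 2 < 2 * n ∧
      ∑ v, (((A + s • Matrix.diagonal w).mulVec g) v - E * g v) ^ 2 < ((K + 1) / n) ^ 2 * n ∧
      ε / 2 * n < |∑ v, g v * a w v|} with hO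
    have hopen : IsOpen O := by
      have c1 : Continuous fun g : Fin n → ℝ => ∑ v, g v ^ 2 := by fun_prop
      have c2 : Continuous fun g : Fin n → ℝ =>
          ∑ v, (((A + s • Matrix.diagonal w).mulVec g) v - E * g v) ^ 2 := by
        simp_rw [mulVec_diag]
        fun_prop
      have c3 : Continuous fun g : Fin n → ℝ => |∑ v, g v * a w v| := by fun_prop
      exact (isOpen_lt c1 continuous_const).inter
        ((isOpen_lt c2 continuous_const).inter (isOpen_lt continuous_const c3))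
    have hfO : f ∈ O := by
      refine ⟨by rw [hf1]; linarith, lt_of_le_of_lt hf2 ?_, lt_of_le_of_lt ?_ hf3⟩
      · apply mul_lt_mul_of_pos_right _ hn'
        apply pow_lt_pow_left₀ _ (by positivity) two_ne_zero
        exact div_lt_div_of_pos_right (by linarith) hn'
      · nlinarith
    obtain ⟨g, hgO, hgD⟩ := hDd.inter_open_nonempty O hopen ⟨f, hfO⟩
    obtain ⟨h1, h2, h3⟩ := hgO
    exact Set.mem_biUnion (⟨hgD, h1.le⟩ : g ∈ D ∩ {f | ∑ v, f v ^ 2 ≤ 2 * n}) ⟨h2.le, h3⟩
  · intro w hw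
    simp only [Set.mem_iUnion] at hw
    obtain ⟨f, ⟨_, hf1⟩, hf2, hf3⟩ := hw
    exact ⟨f, hf1, hf2, hf3⟩

/-- the uniform law of `{x : 1 - x² < τ}` -/
lemma uu_edge {τ : ℝ} (hτ0 : 0 ≤ τ) :
    uu {x : ℝ | 1 - x ^ 2 < τ} ≤ ENNReal.ofReal τ := by
  have hm : MeasurableSet {x : ℝ | 1 - x ^ 2 < τ} :=
    measurableSet_lt (by fun_prop) measurable_const
  rw [uu_apply _ hm]
  have hsub : {x : ℝ | 1 - x ^ 2 < τ} ∩ Set.Icc (-1 : ℝ) 1 ⊆
      Set.Icc (-1 : ℝ) (-1 + τ) ∪ Set.Icc (1 - τ) 1 := by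
    rintro x ⟨hx, hx1, hx2⟩
    have hx' : 1 - x ^ 2 < τ := hx
    rcases le_or_gt 0 x with h | h
    · right
      constructor
      · nlinarith
      · exact hx2
    · left
      constructor
      · exact hx1
      · nlinarith
  have h1 : volume ({x : ℝ | 1 - x ^ 2 < τ} ∩ Set.Icc (-1 : ℝ) 1) ≤ ENNReal.ofReal (2 * τ) := by
    calc _ ≤ volume (Set.Icc (-1 : ℝ) (-1 + τ) ∪ Set.Icc (1 - τ) 1) := measure_mono hsub
      _ ≤ volume (Set.Icc (-1 : ℝ) (-1 + τ)) + volume (Set.Icc (1 - τ) 1) := measure_union_le _ _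
      _ = ENNReal.ofReal (2 * τ) := by
          rw [Real.volume_Icc, Real.volume_Icc, ← ENNReal.ofReal_add (by linarith) (by linarith)]
          congr 1
          ring
  calc ((2⁻¹ : NNReal) : ℝ≥0∞) * volume ({x : ℝ | 1 - x ^ 2 < τ} ∩ Set.Icc (-1 : ℝ) 1) ≤
      ((2⁻¹ : NNReal) : ℝ≥0∞) * ENNReal.ofReal (2 * τ) := by gcongr
    _ = ENNReal.ofReal τ := by
        rw [ENNReal.ofReal_mul (by norm_num), ← mul_assoc]
        have h2 : ENNReal.ofReal 2 = 2 := by norm_num
        rw [h2, ENNReal.coe_inv (by norm_num)]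
        have h3 : ((2 : NNReal) : ℝ≥0∞)⁻¹ * 2 = 1 :=
          ENNReal.inv_mul_cancel (by norm_num) (by norm_num)
        rw [h3, one_mul]

/-- number of coordinates near the edge -/
noncomputable def cnt {n : ℕ} (τ : ℝ) (w : Fin n → ℝ) : ℝ :=
  ∑ v, if 1 - w v ^ 2 < τ then 1 else 0

lemma measurable_cnt {n : ℕ} (τ : ℝ) : Measurable (cnt (n := n) τ) := by
  unfold cnt
  apply Finset.measurable_sum
  intro v _
  apply Measurable.ite _ measurable_const measurable_const
  exact measurableSet_lt (by fun_prop) measurable_const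


lemma prob_cnt {n : ℕ} (hn : 0 < n) {τ θ : ℝ} (hτ0 : 0 ≤ τ) (hθ : 0 < θ) :
    potentialLaw n {w | θ * n ≤ cnt τ w} ≤ ENNReal.ofReal (τ / θ) := by
  have hn' : (0 : ℝ) < n := by exact_mod_cast hn
  have h1 : ∫⁻ w, ENNReal.ofReal (cnt τ w) ∂(potentialLaw n) ≤ n * ENNReal.ofReal τ := by
    have e : ∀ w : Fin n → ℝ, ENNReal.ofReal (cnt τ w) =
        ∑ v, ({x : ℝ | 1 - x ^ 2 < τ}.indicator (fun _ => (1 : ℝ≥0∞))) (w v) := by
      intro w
      unfold cnt
      rw [ENNReal.ofReal_sum_of_nonneg fun v _ => by split_ifs <;> norm_num]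
      apply Finset.sum_congr rfl
      intro v _
      by_cases h : 1 - w v ^ 2 < τ
      · rw [if_pos h, Set.indicator_of_mem (show w v ∈ {x : ℝ | 1 - x ^ 2 < τ} from h)]
        simp
      · rw [if_neg h, Set.indicator_of_notMem (show w v ∉ {x : ℝ | 1 - x ^ 2 < τ} from h)]
        simp
    simp_rw [e]
    have hm : MeasurableSet {x : ℝ | 1 - x ^ 2 < τ} :=
      measurableSet_lt (by fun_prop) measurable_const
    have hm2 : ∀ v : Fin n, Measurable fun w : Fin n → ℝ =>
        ({x : ℝ | 1 - x ^ 2 < τ}.indicator (fun _ => (1 : ℝ≥0∞))) (w v) := fun v =>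
      (measurable_const.indicator hm).comp (measurable_pi_apply v)
    rw [lintegral_finsetSum _ fun v _ => hm2 v]
    calc ∑ v : Fin n, ∫⁻ w : Fin n → ℝ,
          ({x : ℝ | 1 - x ^ 2 < τ}.indicator (fun _ => (1 : ℝ≥0∞))) (w v) ∂(potentialLaw n)
        ≤ ∑ _v : Fin n, ENNReal.ofReal τ := by
          apply Finset.sum_le_sum
          intro v _
          rw [potentialLaw_eq, (measurePreserving_eval (fun _ : Fin n => uu) v).lintegral_comp
            (measurable_const.indicator hm), lintegral_indicator hm, lintegral_const, one_mul,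
            Measure.restrict_apply MeasurableSet.univ, Set.univ_inter]
          exact uu_edge hτ0
      _ = n * ENNReal.ofReal τ := by
          rw [Finset.sum_const, Finset.card_univ, Fintype.card_fin, nsmul_eq_mul]
  have h2 : {w : Fin n → ℝ | θ * n ≤ cnt τ w} ⊆
      {w | ENNReal.ofReal (θ * n) ≤ ENNReal.ofReal (cnt τ w)} :=
    fun w hw => ENNReal.ofReal_le_ofReal hw
  calc potentialLaw n {w | θ * n ≤ cnt τ w} ≤
      potentialLaw n {w | ENNReal.ofReal (θ * n) ≤ ENNReal.ofReal (cnt τ w)} := measure_mono h2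
    _ ≤ (∫⁻ w, ENNReal.ofReal (cnt τ w) ∂(potentialLaw n)) / ENNReal.ofReal (θ * n) :=
        meas_ge_le_lintegral_div ((measurable_cnt τ).ennreal_ofReal).aemeasurable
          (by rw [Ne, ENNReal.ofReal_eq_zero, not_le]; positivity) ENNReal.ofReal_ne_top
    _ ≤ (n * ENNReal.ofReal τ) / ENNReal.ofReal (θ * n) := by gcongr
    _ = ENNReal.ofReal (τ / θ) := by
        rw [← ENNReal.ofReal_natCast n, ← ENNReal.ofReal_mul hn'.le,
          ← ENNReal.ofReal_div_of_pos (by positivity)]
        congr 1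
        field_simp

lemma potentialLaw_cube (n : ℕ) :
    potentialLaw n {w : Fin n → ℝ | ∀ i, w i ∈ Set.Icc (-1 : ℝ) 1}ᶜ = 0 := by
  have h : {w : Fin n → ℝ | ∀ i, w i ∈ Set.Icc (-1 : ℝ) 1}ᶜ ⊆
      ⋃ i : Fin n, {w | w i ∈ (Set.Icc (-1 : ℝ) 1)ᶜ} := by
    intro w hw
    simp only [Set.mem_compl_iff, Set.mem_ofPred_eq, not_forall] at hw
    obtain ⟨i, hi⟩ := hw
    exact Set.mem_iUnion.mpr ⟨i, hi⟩
  refine measure_mono_null h ?_
  rw [measure_iUnion_null_iff]
  intro i
  have h1 : {w : Fin n → ℝ | w i ∈ (Set.Icc (-1 : ℝ) 1)ᶜ} =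
      Function.eval i ⁻¹' (Set.Icc (-1 : ℝ) 1)ᶜ := rfl
  rw [h1, potentialLaw_eq, (measurePreserving_eval (fun _ : Fin n => uu) i).measure_preimage
    measurableSet_Icc.compl.nullMeasurableSet, uu_apply _ measurableSet_Icc.compl,
    Set.compl_inter_self, measure_empty, mul_zero]

end Crest.Agent.R166.Mean263
end

-- ▼ part R166/Mean_263
section

/-!
# Row 166, 42.7 (helper263): `meanZ`

For `s > 0`, near-window functions of `A + s diag ω` are asymptotically orthogonal to every bounded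
Lipschitz vector function of `ω`; no structure of the real symmetric matrix `A` is used.
(Contiguity argument of helper674.)
-/

set_option autoImplicit false

open MeasureTheory ProbabilityTheory Crest.ProbabilityR.RandomMatrix
open scoped ENNReal

namespace Crest.Agent.R166.Mean263

/-- deterministic part: the number of good indices is bounded -/
theorem count_good {n : ℕ} (hn : 0 < n) {s E K L ε τ κ : ℝ} (hs : 0 < s) (hK : 0 ≤ K)
    (hL : 0 ≤ L) (hε : 0 < ε) (hτ : 0 < τ) {M : ℕ} (hM : 0 < M)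
    (hn1 : 3 ≤ Real.sqrt n) (hn2 : 16 * L / ε ≤ Real.sqrt n)
    (hκ : κ = 4 * (K + 1) * M / (s * Real.sqrt n)) (hκ1 : M * κ ≤ 1)
    (A : Matrix (Fin n) (Fin n) ℝ) (hA : A.transpose = A)
    (a : (Fin n → ℝ) → Fin n → ℝ)
    (h1 : ∀ w : Fin n → ℝ, (∀ i, w i ∈ Set.Icc (-1 : ℝ) 1) → ∀ v, |a w v| ≤ 1)
    (hLip : ∀ w w' : Fin n → ℝ, (∀ i, w i ∈ Set.Icc (-1 : ℝ) 1) →
      (∀ i, w' i ∈ Set.Icc (-1 : ℝ) 1) → ∀ δ : ℝ, (∀ u, |w u - w' u| ≤ δ) →
      ∀ v, |a w v - a w' v| ≤ L * δ)
    (w : Fin n → ℝ) (hw : ∀ i, w i ∈ Set.Icc (-1 : ℝ) 1) (hcnt : cnt τ w < ε ^ 2 / 256 * n)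
    (J : Finset ℕ) (hJM : J ⊆ Finset.range M)
    (hJ : ∀ j ∈ J, ∃ f : Fin n → ℝ, ∑ v, f v ^ 2 ≤ 2 * n ∧
        ∑ v, (((A + s • Matrix.diagonal (fun i => T (((j : ℝ) + 1) / M / Real.sqrt n)
          (w i))).mulVec f) v - E * f v) ^ 2 ≤ ((K + 1) / n) ^ 2 * n ∧
        ε / 2 * n < |∑ v, f v * a (fun i => T (((j : ℝ) + 1) / M / Real.sqrt n) (w i)) v|) :
    (J.card : ℝ) ≤ 48 / (ε ^ 2 * τ) := by
  classical
  have hn' : (0 : ℝ) < n := by exact_mod_cast hn
  have hM' : (0 : ℝ) < M := by exact_mod_cast hM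
  have hsn : 0 < Real.sqrt n := Real.sqrt_pos.mpr hn'
  have hsq : Real.sqrt n * Real.sqrt n = n := Real.mul_self_sqrt hn'.le
  set γ : ℕ → ℝ := fun j => ((j : ℝ) + 1) / M / Real.sqrt n with hγ
  have hγ0 : ∀ j, 0 ≤ γ j := fun j => by rw [hγ]; positivity
  have hγ1 : ∀ j ∈ J, γ j ≤ 1 / Real.sqrt n := by
    intro j hj
    have h := Finset.mem_range.mp (hJM hj)
    have h2 : (j : ℝ) + 1 ≤ M := by exact_mod_cast h
    rw [hγ]
    apply div_le_div_of_nonneg_right _ hsn.le
    rw [div_le_one hM']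
    exact h2
  have hγ2 : ∀ j ∈ J, γ j < 1 / 2 := by
    intro j hj
    refine lt_of_le_of_lt (hγ1 j hj) ?_
    rw [div_lt_div_iff₀ hsn (by norm_num)]
    linarith
  choose! f hf1 hf2 hf3 using hJ
  set b : Fin n → ℝ := fun v => 1 - w v ^ 2 with hb
  have hb0 : ∀ v, 0 ≤ b v := by
    intro v
    obtain ⟨h2, h3⟩ := hw v
    rw [hb]
    simp only
    nlinarith
  have hb1 : ∀ v, b v ≤ 1 := by
    intro v
    rw [hb]
    simp only
    nlinarith [sq_nonneg (w v)]
  have h2n : (2 : ℝ) * n ≤ (2 * Real.sqrt n) ^ 2 := by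
    rw [mul_pow, Real.sq_sqrt hn'.le]
    linarith
  have hκ0 : 0 ≤ κ := by rw [hκ]; positivity
  -- near orthogonality
  have g2 : ∀ i ∈ J, ∀ j ∈ J, i ≠ j → |∑ v, b v * f i v * f j v| ≤ κ * n := by
    intro i hi j hj hij
    have hgap : 1 / (M * Real.sqrt n) ≤ |γ i - γ j| := by
      have e : γ i - γ j = ((i : ℝ) - j) / (M * Real.sqrt n) := by
        rw [hγ]
        field_simp
        ring
      rw [e, abs_div, abs_of_pos (show (0 : ℝ) < M * Real.sqrt n by positivity)]
      apply div_le_div_of_nonneg_right _ (by positivity)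
      have h3 : (1 : ℤ) ≤ |(i : ℤ) - j| := Int.one_le_abs (by
        intro h4
        apply hij
        omega)
      exact_mod_cast h3
    have h4 := near_orth A hA s E hs w (γ := γ i) (γ' := γ j) (ρ := K + 1)
      (θ := 1 / (M * Real.sqrt n)) (by linarith) (by positivity) hgap (f i) (f j)
      (hf1 i hi) (hf1 j hj) (hf2 i hi) (hf2 j hj) hn
    refine le_trans h4 (le_of_eq ?_)
    rw [hκ]
    field_simp
    rw [Real.sq_sqrt hn'.le]
  -- overlap
  have g3 : ∀ j ∈ J, ε / 4 * n ≤ |∑ v, if τ ≤ b v then f j v * a w v else 0| := by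
    intro j hj
    have hTm : ∀ i, T (γ j) (w i) ∈ Set.Icc (-1 : ℝ) 1 := fun i =>
      T_mem (hγ0 j) (hγ2 j hj) (hw i)
    have hd : ∀ u, |T (γ j) (w u) - w u| ≤ 1 / Real.sqrt n := by
      intro u
      have e : T (γ j) (w u) - w u = γ j * b u := by unfold T; rw [hb]; ring
      rw [e, abs_of_nonneg (mul_nonneg (hγ0 j) (hb0 u))]
      calc γ j * b u ≤ γ j * 1 := mul_le_mul_of_nonneg_left (hb1 u) (hγ0 j)
        _ ≤ 1 / Real.sqrt n := by rw [mul_one]; exact hγ1 j hj
    have hdiff : |∑ v, f j v * (a (fun i => T (γ j) (w i)) v - a w v)| ≤ ε / 8 * n := by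
      have h5 : |∑ v, f j v * (a (fun i => T (γ j) (w i)) v - a w v)| ≤
          (2 * Real.sqrt n) * L := by
        apply abs_sum_mul_le _ _ (by positivity) hL (le_trans (hf1 j hj) h2n)
        calc ∑ v, (a (fun i => T (γ j) (w i)) v - a w v) ^ 2 ≤
            ∑ _v : Fin n, (L * (1 / Real.sqrt n)) ^ 2 := by
              apply Finset.sum_le_sum
              intro v _
              rw [← sq_abs]
              exact pow_le_pow_left₀ (abs_nonneg _) (hLip _ _ hTm hw _ hd v) 2
          _ = L ^ 2 := by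
              rw [Finset.sum_const, Finset.card_univ, Fintype.card_fin, nsmul_eq_mul]
              rw [mul_pow, div_pow, one_pow, Real.sq_sqrt hn'.le]
              field_simp
      refine le_trans h5 ?_
      have h6 : 16 * L ≤ Real.sqrt n * ε := by
        rwa [div_le_iff₀ hε] at hn2
      calc 2 * Real.sqrt n * L = Real.sqrt n * (16 * L) / 8 := by ring
        _ ≤ Real.sqrt n * (Real.sqrt n * ε) / 8 := by
            apply div_le_div_of_nonneg_right _ (by norm_num)
            exact mul_le_mul_of_nonneg_left h6 hsn.le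
        _ = ε / 8 * n := by rw [← mul_assoc, hsq]; ring
    have hedge : |∑ v, f j v * (if b v < τ then a w v else 0)| ≤ ε / 8 * n := by
      have h5 : |∑ v, f j v * (if b v < τ then a w v else 0)| ≤
          (2 * Real.sqrt n) * (ε / 16 * Real.sqrt n) := by
        apply abs_sum_mul_le _ _ (by positivity) (by positivity) (le_trans (hf1 j hj) h2n)
        calc ∑ v, (if b v < τ then a w v else 0) ^ 2 ≤ cnt τ w := by
              unfold cnt
              apply Finset.sum_le_sum
              intro v _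
              by_cases h : b v < τ
              · rw [if_pos h, if_pos (show 1 - w v ^ 2 < τ from h)]
                have := h1 w hw v
                rw [← sq_abs]
                nlinarith [abs_nonneg (a w v)]
              · rw [if_neg h, if_neg (show ¬ (1 - w v ^ 2 < τ) from h)]
                norm_num
          _ ≤ ε ^ 2 / 256 * n := hcnt.le
          _ = (ε / 16 * Real.sqrt n) ^ 2 := by
              rw [mul_pow, Real.sq_sqrt hn'.le]
              ring
      refine le_trans h5 (le_of_eq ?_)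
      calc 2 * Real.sqrt n * (ε / 16 * Real.sqrt n) = ε / 8 * (Real.sqrt n * Real.sqrt n) := by ring
        _ = _ := by rw [hsq]
    have hsplit : ∑ v, f j v * a (fun i => T (γ j) (w i)) v =
        (∑ v, if τ ≤ b v then f j v * a w v else 0) +
        ∑ v, f j v * (if b v < τ then a w v else 0) +
        ∑ v, f j v * (a (fun i => T (γ j) (w i)) v - a w v) := by
      rw [← Finset.sum_add_distrib, ← Finset.sum_add_distrib]
      apply Finset.sum_congr rfl
      intro v _
      by_cases h : τ ≤ b v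
      · rw [if_pos h, if_neg (not_lt.mpr h)]; ring
      · rw [if_neg h, if_pos (not_le.mp h)]; ring
    have h7 := hf3 j hj
    rw [hsplit] at h7
    have h8 := abs_add_three (∑ v, if τ ≤ b v then f j v * a w v else 0)
      (∑ v, f j v * (if b v < τ then a w v else 0))
      (∑ v, f j v * (a (fun i => T (γ j) (w i)) v - a w v))
    linarith
  have g4 := bessel_count hn J f (a w) b (h1 w hw) hb0 hτ (by positivity : (0 : ℝ) ≤ ε / 4) hκ0
    hf1 hb1 g2 g3
  have hcard : (J.card : ℝ) ≤ M := by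
    have := Finset.card_le_card hJM
    rw [Finset.card_range] at this
    exact_mod_cast this
  have g5 : (J.card : ℝ) * κ ≤ 1 := le_trans (mul_le_mul_of_nonneg_right hcard hκ0) hκ1
  rw [le_div_iff₀ (by positivity)]
  have : (J.card : ℝ) * (ε ^ 2 * τ) = 16 * ((J.card : ℝ) * ((ε / 4) ^ 2 * τ)) := by ring
  rw [this]
  linarith

/-- **42.7, `s > 0`.** -/
theorem meanZ (s K L ε : ℝ) (hs : 0 < s) (hK : 0 ≤ K) (hL : 0 ≤ L) (hε : 0 < ε) :
    ∃ N : ℕ, ∀ n : ℕ, N ≤ n → ∀ (E : ℝ) (A : Matrix (Fin n) (Fin n) ℝ), A.transpose = A →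
      ∀ a : (Fin n → ℝ) → Fin n → ℝ, Measurable a →
      (∀ w : Fin n → ℝ, (∀ i, w i ∈ Set.Icc (-1 : ℝ) 1) → ∀ v, |a w v| ≤ 1) →
      (∀ w w' : Fin n → ℝ, (∀ i, w i ∈ Set.Icc (-1 : ℝ) 1) →
        (∀ i, w' i ∈ Set.Icc (-1 : ℝ) 1) → ∀ δ : ℝ, (∀ u, |w u - w' u| ≤ δ) →
        ∀ v, |a w v - a w' v| ≤ L * δ) →
      potentialLaw n {w | ∃ f : Fin n → ℝ, ∑ v, f v ^ 2 = n ∧
        ∑ v, (((A + s • Matrix.diagonal w).mulVec f) v - E * f v) ^ 2 ≤ (K / n) ^ 2 * n ∧
        ε * n < |∑ v, f v * a w v|} ≤ ENNReal.ofReal ε := by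
  classical
  set C : ℝ := Real.exp (4 / 3) with hCdef
  have hC : 0 < C := Real.exp_pos _
  set δ : ℝ := ε ^ 2 / C with hδdef
  have hδ : 0 < δ := by positivity
  set θ : ℝ := ε ^ 2 / 256 with hθdef
  have hθ : 0 < θ := by positivity
  set τ : ℝ := θ * δ / 2 with hτdef
  have hτ : 0 < τ := by positivity
  set R : ℝ := 48 / (ε ^ 2 * τ) with hRdef
  have hR : 0 < R := by positivity
  obtain ⟨M, hM⟩ := exists_nat_gt (2 * R / δ)
  have hM0 : (0 : ℝ) < M := lt_trans (by positivity) hM
  have hMpos : 0 < M := by exact_mod_cast hM0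
  obtain ⟨N, hN⟩ := exists_nat_ge ((3 + 16 * L / ε + 4 * (K + 1) * M ^ 2 / s) ^ 2)
  refine ⟨N + 1, ?_⟩
  intro n hn E A hA a ha h1 hLip
  have hnpos : 0 < n := by omega
  have hn' : (0 : ℝ) < n := by exact_mod_cast hnpos
  have hsn : 0 < Real.sqrt n := Real.sqrt_pos.mpr hn'
  have hbig : 3 + 16 * L / ε + 4 * (K + 1) * M ^ 2 / s ≤ Real.sqrt n := by
    apply Real.le_sqrt_of_sq_le
    refine le_trans hN ?_
    exact_mod_cast (by omega : N ≤ n)
  have p1 : 0 ≤ 16 * L / ε := by positivity
  have p2 : 0 ≤ 4 * (K + 1) * (M : ℝ) ^ 2 / s := by positivity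
  have hn1 : 3 ≤ Real.sqrt n := by linarith
  have hn2 : 16 * L / ε ≤ Real.sqrt n := by linarith
  have hn3 : 4 * (K + 1) * (M : ℝ) ^ 2 / s ≤ Real.sqrt n := by linarith
  set κ : ℝ := 4 * (K + 1) * M / (s * Real.sqrt n) with hκdef
  have hκ1 : (M : ℝ) * κ ≤ 1 := by
    have e : (M : ℝ) * κ = (4 * (K + 1) * M ^ 2 / s) / Real.sqrt n := by
      rw [hκdef]
      field_simp
    rw [e, div_le_one hsn]
    exact hn3
  obtain ⟨B, hBm, hBsub, hBprop⟩ := bad_hull hnpos A s E K ε hK hε a ha
  by_contra hcon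
  push Not at hcon
  have hPB : ENNReal.ofReal ε < potentialLaw n B := lt_of_lt_of_le hcon (measure_mono hBsub)
  have hprob : IsProbabilityMeasure (potentialLaw n) := by
    rw [potentialLaw_eq]; infer_instance
  set γ : ℕ → ℝ := fun j => ((j : ℝ) + 1) / M / Real.sqrt n with hγ
  set S : ℕ → Set (Fin n → ℝ) := fun j => {x | (fun i => T (γ j) (x i)) ∈ B} with hS
  have hSm : ∀ j, MeasurableSet (S j) := by
    intro j
    have hm : Measurable fun (x : Fin n → ℝ) i => T (γ j) (x i) :=
      measurable_pi_lambda _ fun i => (measurable_T (γ j)).comp (measurable_pi_apply i)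
    exact hm hBm
  have hPS : ∀ j ∈ Finset.range M, ENNReal.ofReal δ ≤ potentialLaw n (S j) := by
    intro j hj
    have h2 : (j : ℝ) + 1 ≤ M := by exact_mod_cast Finset.mem_range.mp hj
    have hγ0 : 0 ≤ γ j := by rw [hγ]; positivity
    have hγ1 : γ j ≤ 1 / Real.sqrt n := by
      rw [hγ]
      apply div_le_div_of_nonneg_right _ hsn.le
      rw [div_le_one hM0]
      exact h2
    have hγ2 : γ j < 1 / 2 := by
      refine lt_of_le_of_lt hγ1 ?_
      rw [div_lt_div_iff₀ hsn (by norm_num)]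
      linarith
    have hγ3 : γ j ^ 2 ≤ 1 / n := by
      calc γ j ^ 2 ≤ (1 / Real.sqrt n) ^ 2 := pow_le_pow_left₀ hγ0 hγ1 2
        _ = 1 / n := by rw [div_pow, one_pow, Real.sq_sqrt hn'.le]
    apply contig hγ0 hγ2 hC _ hε hBm hPB
    calc (1 + 4 * γ j ^ 2 / 3) ^ n ≤ (Real.exp (4 / 3 / n)) ^ n := by
          apply pow_le_pow_left₀ (by positivity)
          have h3 := Real.add_one_le_exp (4 / 3 / (n : ℝ))
          have h4 : 4 * γ j ^ 2 / 3 ≤ 4 / 3 / n := by
            calc 4 * γ j ^ 2 / 3 ≤ 4 * (1 / n) / 3 := by linarith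
              _ = 4 / 3 / n := by ring
          linarith
      _ = C := by
          rw [← Real.exp_nat_mul, hCdef]
          congr 1
          field_simp
  -- the good event
  set G : Set (Fin n → ℝ) := {w | ∀ i, w i ∈ Set.Icc (-1 : ℝ) 1} ∩ {w | cnt τ w < θ * n} with hG
  have hGm : MeasurableSet G := by
    apply MeasurableSet.inter
    · have : {w : Fin n → ℝ | ∀ i, w i ∈ Set.Icc (-1 : ℝ) 1} =
          ⋂ i : Fin n, (fun w : Fin n → ℝ => w i) ⁻¹' Set.Icc (-1 : ℝ) 1 := by
        ext w; simp [Set.mem_iInter]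
      rw [this]
      exact MeasurableSet.iInter fun i => (measurable_pi_apply i) measurableSet_Icc
    · exact measurableSet_lt (measurable_cnt τ) measurable_const
  have hPG : potentialLaw n Gᶜ ≤ ENNReal.ofReal (δ / 2) := by
    have h2 : Gᶜ ⊆ {w : Fin n → ℝ | ∀ i, w i ∈ Set.Icc (-1 : ℝ) 1}ᶜ ∪ {w | θ * n ≤ cnt τ w} := by
      intro w hw
      by_cases h3 : ∀ i, w i ∈ Set.Icc (-1 : ℝ) 1
      · right
        by_contra h4
        exact hw ⟨h3, (lt_of_not_ge h4 : cnt τ w < θ * n)⟩
      · left; exact h3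
    calc potentialLaw n Gᶜ ≤ potentialLaw n ({w : Fin n → ℝ | ∀ i, w i ∈ Set.Icc (-1 : ℝ) 1}ᶜ ∪
          {w | θ * n ≤ cnt τ w}) := measure_mono h2
      _ ≤ potentialLaw n {w : Fin n → ℝ | ∀ i, w i ∈ Set.Icc (-1 : ℝ) 1}ᶜ +
          potentialLaw n {w | θ * n ≤ cnt τ w} := measure_union_le _ _
      _ ≤ 0 + ENNReal.ofReal (τ / θ) :=
          add_le_add (le_of_eq (potentialLaw_cube n)) (prob_cnt hnpos hτ.le hθ)
      _ = ENNReal.ofReal (δ / 2) := by
          rw [zero_add]
          congr 1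
          rw [hτdef]
          field_simp
  -- pointwise bound
  have hpt : ∀ w : Fin n → ℝ,
      ∑ j ∈ Finset.range M, (S j ∩ G).indicator (fun _ => (1 : ℝ≥0∞)) w ≤ ENNReal.ofReal R := by
    intro w
    by_cases hw : w ∈ G
    · have e : ∑ j ∈ Finset.range M, (S j ∩ G).indicator (fun _ => (1 : ℝ≥0∞)) w =
          (((Finset.range M).filter fun j => w ∈ S j).card : ℝ≥0∞) := by
        rw [Finset.card_filter]
        push_cast
        apply Finset.sum_congr rfl
        intro j _
        by_cases h3 : w ∈ S j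
        · rw [Set.indicator_of_mem (show w ∈ S j ∩ G from ⟨h3, hw⟩), if_pos h3]
        · rw [Set.indicator_of_notMem (show w ∉ S j ∩ G from fun h4 => h3 h4.1), if_neg h3]
      rw [e, ← ENNReal.ofReal_natCast]
      apply ENNReal.ofReal_le_ofReal
      apply count_good (E := E) hnpos hs hK hL hε hτ hMpos hn1 hn2 hκdef hκ1 A hA a h1 hLip w
        hw.1 hw.2 _ (Finset.filter_subset _ _)
      intro j hj
      exact hBprop _ (Finset.mem_filter.mp hj).2
    · have e : ∑ j ∈ Finset.range M, (S j ∩ G).indicator (fun _ => (1 : ℝ≥0∞)) w = 0 := by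
        apply Finset.sum_eq_zero
        intro j _
        rw [Set.indicator_of_notMem (show w ∉ S j ∩ G from fun h4 => hw h4.2)]
      rw [e]
      exact zero_le
  have hint : ∑ j ∈ Finset.range M, potentialLaw n (S j ∩ G) ≤ ENNReal.ofReal R := by
    calc ∑ j ∈ Finset.range M, potentialLaw n (S j ∩ G) =
        ∑ j ∈ Finset.range M, ∫⁻ w, (S j ∩ G).indicator (fun _ => (1 : ℝ≥0∞)) w
          ∂(potentialLaw n) := by
          apply Finset.sum_congr rfl
          intro j _
          rw [lintegral_indicator ((hSm j).inter hGm), lintegral_const, one_mul,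
            Measure.restrict_apply MeasurableSet.univ, Set.univ_inter]
      _ = ∫⁻ w, ∑ j ∈ Finset.range M, (S j ∩ G).indicator (fun _ => (1 : ℝ≥0∞)) w
          ∂(potentialLaw n) := by
          rw [lintegral_finsetSum _ fun j _ => measurable_const.indicator ((hSm j).inter hGm)]
      _ ≤ ∫⁻ _w, ENNReal.ofReal R ∂(potentialLaw n) := lintegral_mono hpt
      _ = ENNReal.ofReal R := by rw [lintegral_const, measure_univ, mul_one]
  have hfin : (M : ℝ≥0∞) * ENNReal.ofReal δ ≤ ENNReal.ofReal R +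
      (M : ℝ≥0∞) * ENNReal.ofReal (δ / 2) := by
    calc (M : ℝ≥0∞) * ENNReal.ofReal δ = ∑ _j ∈ Finset.range M, ENNReal.ofReal δ := by
          rw [Finset.sum_const, Finset.card_range, nsmul_eq_mul]
      _ ≤ ∑ j ∈ Finset.range M, (potentialLaw n (S j ∩ G) + ENNReal.ofReal (δ / 2)) := by
          apply Finset.sum_le_sum
          intro j hj
          calc ENNReal.ofReal δ ≤ potentialLaw n (S j) := hPS j hj
            _ ≤ potentialLaw n ((S j ∩ G) ∪ Gᶜ) := by
                apply measure_mono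
                intro w hw
                by_cases h3 : w ∈ G
                · left; exact ⟨hw, h3⟩
                · right; exact h3
            _ ≤ potentialLaw n (S j ∩ G) + potentialLaw n Gᶜ := measure_union_le _ _
            _ ≤ _ := by gcongr
      _ = ∑ j ∈ Finset.range M, potentialLaw n (S j ∩ G) +
          (M : ℝ≥0∞) * ENNReal.ofReal (δ / 2) := by
          rw [Finset.sum_add_distrib, Finset.sum_const, Finset.card_range, nsmul_eq_mul]
      _ ≤ _ := by gcongr
  rw [← ENNReal.ofReal_natCast, ← ENNReal.ofReal_mul hM0.le, ← ENNReal.ofReal_mul hM0.le,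
    ← ENNReal.ofReal_add hR.le (by positivity), ENNReal.ofReal_le_ofReal_iff (by positivity)]
    at hfin
  have h9 : 2 * R < M * δ := by
    rwa [div_lt_iff₀ hδ] at hM
  linarith

end Crest.Agent.R166.Mean263
end

-- ▼ part R166/MeanS_974
section

/-!
Row 166 (helper974): the orthogonality events `GMean` (section 42.7) for `s > 0` over `portLaw`,
from helper263's `meanZ`, and `MeanOrth` from the events.
-/

set_option autoImplicit false

namespace Crest.Agent.R166.Mean974

open MeasureTheory Filter Topology ProbabilityTheory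
open Crest.ProbabilityR.RandomMatrix
open Crest.Agent.R166 Crest.Agent.R166.Words955 Crest.Agent.R166.Seq980
open Crest.Agent.R166.LimLaw980 Crest.Agent.R166.LimProps974
open Crest.Agent.R166.LimEnv289 (embE continuous_embE injective_embE gq continuous_gq abs_gq_le EIx)

variable {d : ℕ} [NeZero d]

/-- one normalised near-window vector -/
def NearE {n : ℕ} (H : Matrix (Fin n) (Fin n) ℝ) (E K : ℝ) (f : Fin n → ℝ) : Prop :=
  ∑ v, f v ^ 2 = n ∧ ∑ v, ((H.mulVec f) v - E * f v) ^ 2 ≤ (K / n) ^ 2 * n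

theorem NearE_of_IsFrame {n k : ℕ} {H : Matrix (Fin n) (Fin n) ℝ} {E K : ℝ}
    {F : Fin k → Fin n → ℝ} (hF : IsFrame H E K k F) (l : Fin k) : NearE H E K (F l) := by
  refine ⟨?_, hF.2 l⟩
  have := hF.1 l l
  simp only [if_true] at this
  rw [← this]
  exact Finset.sum_congr rfl fun v _ => by ring

/-- the orthogonality events -/
def GMean (d : ℕ) [NeZero d] (s E K : ℝ) (i : EIx d) (n : ℕ) : Set (PS d n) :=
  {x | ∀ f : Fin n → ℝ, NearE (Hm (graphOf x.1) s x.2) E K f →
    |∑ h : HE n d, f h.1 * gq d i.1 i.2.1 (conf x.1 (lab x.2) h)| ≤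
      1 / ((i.2.2 : ℝ) + 1) * n}

/-- `MeanOrth` from the events -/
theorem meanOrth_of_events {k : ℕ} (S : Seq d k) {s E K : ℝ}
    (hG : ∀ i : EIx d, ∀ᶠ j in atTop, S.U j ⊆ GMean d s E K i (S.n j))
    (hF : ∀ᶠ j in atTop, ∀ x ∈ S.U j, IsFrame (Hm (graphOf x.1) s x.2) E K k (S.F j x)) :
    MeanOrth S := by
  intro q b l δ hδ
  obtain ⟨m, hm⟩ := exists_nat_one_div_lt hδ
  filter_upwards [hG (q, b, m), hF] with j hj hFj x hx
  refine (hj hx (S.F j x l) (NearE_of_IsFrame (hFj x hx) l)).trans ?_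
  have : (0 : ℝ) ≤ S.n j := Nat.cast_nonneg _
  simp only
  gcongr

/-! ### `s > 0` -/

/-- Lipschitz constant of a character in the potentials -/
noncomputable def LipC (q : (TW d × Bool) →₀ ℚ) : ℝ := ∑ t ∈ q.support, |((q t : ℚ) : ℝ)|

theorem LipC_nonneg (q : (TW d × Bool) →₀ ℚ) : 0 ≤ LipC q :=
  Finset.sum_nonneg fun _ _ => abs_nonneg _

theorem gq_lip (q : (TW d × Bool) →₀ ℚ) (b : Bool) {ξ ξ' : Conf d (Fin d × ℝ)} {δ : ℝ}
    (hδ : 0 ≤ δ) (h1 : ∀ w, (ξ w).1 = (ξ' w).1) (h2 : ∀ w, |(ξ w).2 - (ξ' w).2| ≤ δ) :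
    |gq d q b ξ - gq d q b ξ'| ≤ LipC q * δ := by
  have h3 : |phase q (embE d ξ) - phase q (embE d ξ')| ≤ LipC q * δ := by
    unfold phase Finsupp.sum LipC
    rw [← Finset.sum_sub_distrib, Finset.sum_mul]
    refine (Finset.abs_sum_le_sum_abs _ _).trans (Finset.sum_le_sum fun t _ => ?_)
    rw [← mul_sub, abs_mul]
    refine mul_le_mul_of_nonneg_left ?_ (abs_nonneg _)
    unfold embE
    by_cases ht : t.2 = true
    · rw [if_pos ht, if_pos ht, h1 t.1, sub_self, abs_zero]
      exact hδ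
    · rw [if_neg ht, if_neg ht]
      exact h2 t.1
  unfold gq
  split_ifs
  · exact (Real.abs_cos_sub_cos_le _ _).trans h3
  · exact (Real.abs_sin_sub_sin_le _ _).trans h3

/-- the vertex function -/
noncomputable def av {n : ℕ} (p : Equiv.Perm (HE n d)) (q : (TW d × Bool) →₀ ℚ) (b : Bool)
    (w : Fin n → ℝ) (v : Fin n) : ℝ :=
  (∑ j : Fin d, gq d q b (conf p (lab w) (v, j))) / d

theorem measurable_conf_lab {n : ℕ} (p : Equiv.Perm (HE n d)) (h : HE n d) :
    Measurable fun w : Fin n → ℝ => (conf p (lab w) h : Conf d (Fin d × ℝ)) := by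
  refine measurable_pi_lambda _ fun t => ?_
  exact measurable_const.prodMk (measurable_pi_apply _)

theorem measurable_av {n : ℕ} (p : Equiv.Perm (HE n d)) (q : (TW d × Bool) →₀ ℚ) (b : Bool) :
    Measurable (av p q b : (Fin n → ℝ) → Fin n → ℝ) := by
  refine measurable_pi_lambda _ fun v => ?_
  unfold av
  refine (Finset.measurable_sum _ fun j _ => ?_).div_const _
  exact (continuous_gq d q b).measurable.comp (measurable_conf_lab p (v, j))

theorem abs_av_le {n : ℕ} (p : Equiv.Perm (HE n d)) (q : (TW d × Bool) →₀ ℚ) (b : Bool)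
    (w : Fin n → ℝ) (v : Fin n) : |av p q b w v| ≤ 1 := by
  have hd : (0 : ℝ) < d := by exact_mod_cast NeZero.pos d
  unfold av
  rw [abs_div, abs_of_pos hd, div_le_one hd]
  refine (Finset.abs_sum_le_sum_abs _ _).trans ?_
  calc ∑ j : Fin d, |gq d q b (conf p (lab w) (v, j))| ≤ ∑ _j : Fin d, (1 : ℝ) :=
        Finset.sum_le_sum fun j _ => abs_gq_le d q b _
    _ = d := by simp

theorem av_lip {n : ℕ} (p : Equiv.Perm (HE n d)) (q : (TW d × Bool) →₀ ℚ) (b : Bool)
    (w w' : Fin n → ℝ) {δ : ℝ} (hδ : 0 ≤ δ) (h : ∀ u, |w u - w' u| ≤ δ) (v : Fin n) :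
    |av p q b w v - av p q b w' v| ≤ LipC q * δ := by
  have hd : (0 : ℝ) < d := by exact_mod_cast NeZero.pos d
  unfold av
  rw [← sub_div, ← Finset.sum_sub_distrib, abs_div, abs_of_pos hd, div_le_iff₀ hd]
  refine (Finset.abs_sum_le_sum_abs _ _).trans ?_
  calc ∑ j : Fin d, |gq d q b (conf p (lab w) (v, j)) - gq d q b (conf p (lab w') (v, j))|
      ≤ ∑ _j : Fin d, LipC q * δ :=
        Finset.sum_le_sum fun j _ => gq_lip q b hδ (fun _ => rfl) (fun t => h _)
    _ = LipC q * δ * d := by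
        rw [Finset.sum_const, Finset.card_univ, Fintype.card_fin, nsmul_eq_mul]
        ring

theorem sum_eq_av {n : ℕ} (p : Equiv.Perm (HE n d)) (q : (TW d × Bool) →₀ ℚ) (b : Bool)
    (w f : Fin n → ℝ) :
    ∑ h : HE n d, f h.1 * gq d q b (conf p (lab w) h) = d * ∑ v, f v * av p q b w v := by
  have hd : (d : ℝ) ≠ 0 := by exact_mod_cast NeZero.ne d
  rw [Fintype.sum_prod_type, Finset.mul_sum]
  refine Finset.sum_congr rfl fun v _ => ?_
  unfold av
  have h1 : ∑ j : Fin d, f (v, j).1 * gq d q b (conf p (lab w) (v, j))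
      = f v * ∑ j : Fin d, gq d q b (conf p (lab w) (v, j)) := by
    rw [Finset.mul_sum]
  rw [h1]
  field_simp

theorem GMean_compl (s E K : ℝ) (i : EIx d) (n : ℕ) :
    (GMean d s E K i n)ᶜ = {x | ∃ f : Fin n → ℝ, NearE (Hm (graphOf x.1) s x.2) E K f ∧
      1 / ((i.2.2 : ℝ) + 1) * n < |∑ h : HE n d, f h.1 *
        gq d i.1 i.2.1 (conf x.1 (lab x.2) h)|} := by
  ext x
  simp [GMean]

/-- **the events have probability `→ 1` for `s > 0`** -/
theorem GMean_whp_pos (d : ℕ) [NeZero d] {s : ℝ} (hs : 0 < s) (E K : ℝ) (i : EIx d) (δ : ℝ)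
    (hδ : 0 < δ) :
    ∃ N : ℕ, ∀ n, N ≤ n → portLaw d n (GMean d s E K i n)ᶜ ≤ ENNReal.ofReal δ := by
  have hd : (0 : ℝ) < d := by exact_mod_cast NeZero.pos d
  set ε1 : ℝ := min (1 / ((i.2.2 : ℝ) + 1) / d) δ with hε1
  have hε1p : 0 < ε1 := lt_min (by positivity) hδ
  obtain ⟨N, hN⟩ := Mean263.meanZ s |K| (LipC i.1) ε1 hs (abs_nonneg _) (LipC_nonneg _) hε1p
  refine ⟨N, fun n hn => ?_⟩
  rw [GMean_compl, portLaw_apply]
  have h1 : ∀ p ∈ Ports n d, (potentialLaw n) {ω | (p, ω) ∈
      {x : PS d n | ∃ f : Fin n → ℝ, NearE (Hm (graphOf x.1) s x.2) E K f ∧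
      1 / ((i.2.2 : ℝ) + 1) * n < |∑ h : HE n d, f h.1 *
        gq d i.1 i.2.1 (conf x.1 (lab x.2) h)|}} ≤ ENNReal.ofReal δ := by
    intro p _
    classical
    have h2 := hN n hn E ((graphOf p).adjMatrix ℝ) (by simp) (av p i.1 i.2.1)
      (measurable_av p i.1 i.2.1) (fun w _ v => abs_av_le p i.1 i.2.1 w v)
      (fun w w' _ _ η hη v => by
        rcases isEmpty_or_nonempty (Fin n) with he | ⟨⟨u⟩⟩
        · exact (he.false v).elim
        · exact av_lip p i.1 i.2.1 w w' ((abs_nonneg _).trans (hη u)) hη v)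
    refine (measure_mono ?_).trans (h2.trans (ENNReal.ofReal_le_ofReal (min_le_right _ _)))
    rintro ω ⟨f, hf, hlt⟩
    refine ⟨f, hf.1, ?_, ?_⟩
    · have h3 := hf.2
      have h4 : Hm (graphOf p) s ω = (graphOf p).adjMatrix ℝ + s • Matrix.diagonal ω := by
        unfold Hm
        congr
      simp only at h3
      rw [h4] at h3
      rw [div_pow, sq_abs, ← div_pow]
      exact h3
    · simp only at hlt
      rw [sum_eq_av, abs_mul, abs_of_pos hd] at hlt
      have h5 : ε1 ≤ 1 / ((i.2.2 : ℝ) + 1) / d := min_le_left _ _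
      have h6 : (0 : ℝ) ≤ n := Nat.cast_nonneg _
      calc ε1 * n ≤ 1 / ((i.2.2 : ℝ) + 1) / d * n := by gcongr
        _ = (1 / ((i.2.2 : ℝ) + 1) * n) / d := by ring
        _ < |∑ v, f v * av p i.1 i.2.1 ω v| := by
            rw [div_lt_iff₀ hd, mul_comm |∑ v, f v * av p i.1 i.2.1 ω v|]
            exact hlt
  calc ((Ports n d).card : ENNReal)⁻¹ * ∑ p ∈ Ports n d, (potentialLaw n) {ω | (p, ω) ∈
      {x : PS d n | ∃ f : Fin n → ℝ, NearE (Hm (graphOf x.1) s x.2) E K f ∧
      1 / ((i.2.2 : ℝ) + 1) * n < |∑ h : HE n d, f h.1 *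
        gq d i.1 i.2.1 (conf x.1 (lab x.2) h)|}}
      ≤ ((Ports n d).card : ENNReal)⁻¹ * ∑ p ∈ Ports n d, ENNReal.ofReal δ := by
        gcongr with p hp
        exact h1 p hp
    _ = ((Ports n d).card : ENNReal)⁻¹ * ((Ports n d).card * ENNReal.ofReal δ) := by
        rw [Finset.sum_const, nsmul_eq_mul]
    _ ≤ ENNReal.ofReal δ := by
        rw [← mul_assoc]
        calc ((Ports n d).card : ENNReal)⁻¹ * (Ports n d).card * ENNReal.ofReal δ
            ≤ 1 * ENNReal.ofReal δ := by
              gcongr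
              exact ENNReal.inv_mul_le_one _
          _ = _ := one_mul _

end Crest.Agent.R166.Mean974
end

-- ▼ part R166/Mean0_974
section

/-!
Row 166 (helper974): the orthogonality events `GMean` (section 42.7) for `s = 0`
(labels and potentials are independent of the graph; Ward identity).
-/

set_option autoImplicit false

namespace Crest.Agent.R166.Mean974

open MeasureTheory Filter Topology ProbabilityTheory
open Crest.ProbabilityR.RandomMatrix
open Crest.Agent.R166 Crest.Agent.R166.Words955 Crest.Agent.R166.Seq980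
open Crest.Agent.R166.LimLaw980 Crest.Agent.R166.LimProps974 Crest.Agent.R166.LLN289
open Crest.Agent.R166.EnvLaw289 Crest.Agent.R166.FrameB974
open Crest.Agent.R166.TreeDefs350 (unif)
open Crest.Agent.R166.LimEnv289 (embE continuous_embE injective_embE gq continuous_gq abs_gq_le EIx
  loc_gq potentialLaw_eq)

variable {d n : ℕ} [NeZero d]

/-! ### Invariance under rotations -/

theorem graphOf_conj {p : Equiv.Perm (HE n d)} (hp : IsPort p) (r : Fin n → Fin d) :
    graphOf (conjP (rho r) p) = graphOf p := by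
  ext v w
  rw [(isPort_conj hp r).adj_iff, hp.adj_iff]
  constructor
  · rintro ⟨i, hi⟩
    rw [conjP_apply] at hi
    exact ⟨-(r v) + i, by simpa using hi⟩
  · rintro ⟨i, hi⟩
    refine ⟨r v + i, ?_⟩
    rw [conjP_apply]
    simpa using hi

theorem card_badH_conj (p : Equiv.Perm (HE n d)) (r : Fin n → Fin d) (a : ℕ) :
    (badH (conjP (rho r) p) a).card = (badH p a).card := by
  classical
  refine Finset.card_bij' (fun h _ => (rho r)⁻¹ h) (fun h _ => rho r h) ?_ ?_ ?_ ?_
  · intro h hh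
    unfold badH at hh ⊢
    rw [Finset.mem_filter] at hh ⊢
    refine ⟨Finset.mem_univ _, fun hinj => hh.2 ?_⟩
    intro w hw w' hw' he
    refine hinj hw hw' ?_
    have h1 : h = rho r ((rho r)⁻¹ h) := ((rho r).apply_symm_apply h).symm
    simp only at he ⊢
    rw [h1, walk_conj, walk_conj] at he
    simpa using he
  · intro h hh
    unfold badH at hh ⊢
    rw [Finset.mem_filter] at hh ⊢
    refine ⟨Finset.mem_univ _, fun hinj => hh.2 ?_⟩
    intro w hw w' hw' he
    refine hinj hw hw' ?_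
    simp only at he ⊢
    rw [walk_conj, walk_conj]
    simpa using he
  · intro h _
    exact (rho r).apply_symm_apply h
  · intro h _
    exact (rho r).symm_apply_apply h

/-- averaging over the rotations, for arbitrary events contained in measurable ones -/
theorem sum_Ports_rot_le {T : Type*} [MeasurableSpace T] (τ : Measure T) [IsProbabilityMeasure τ]
    (Ev : Equiv.Perm (HE n d) → Set (Fin n → T))
    (M : Equiv.Perm (HE n d) → Set (Fin n → Fin d × T))
    (hM : ∀ p ∈ Ports n d, MeasurableSet (M p))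
    (hsub : ∀ p ∈ Ports n d, ∀ (r : Fin n → Fin d) (f : Fin n → T), f ∈ Ev (conjP (rho r) p) →
      (fun v => (r v, f v)) ∈ M p) :
    ∑ p ∈ Ports n d, (Measure.pi fun _ : Fin n => τ) (Ev p) ≤
      ∑ p ∈ Ports n d, vLaw n d τ (M p) := by
  classical
  have hlaw : ∀ p ∈ Ports n d, vLaw n d τ (M p) =
      ∫⁻ r, (Measure.pi fun _ : Fin n => τ) {f | (fun v => (r v, f v)) ∈ M p}
        ∂(Measure.pi fun _ : Fin n => uFin d) := by
    intro p hp
    have hmp := measurePreserving_arrowProdEquivProdArrow (Fin d) T (Fin n)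
      (fun _ => uFin d) (fun _ => τ)
    have h1 := hmp.symm.measure_preimage (hM p hp).nullMeasurableSet
    have e1 : vLaw n d τ = Measure.pi fun _ : Fin n => (uFin d).prod τ := rfl
    rw [e1, ← h1, Measure.prod_apply]
    · rfl
    · exact (MeasurableEquiv.measurable _) (hM p hp)
  have hr : ∀ r : Fin n → Fin d,
      ∑ p ∈ Ports n d, (Measure.pi fun _ : Fin n => τ) (Ev p) ≤
      ∑ p ∈ Ports n d, (Measure.pi fun _ : Fin n => τ) {f | (fun v => (r v, f v)) ∈ M p} := by
    intro r
    rw [← sum_Ports_conj r (fun p => (Measure.pi fun _ : Fin n => τ) (Ev p))]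
    exact Finset.sum_le_sum fun p hp => measure_mono fun f hf => hsub p hp r f hf
  calc ∑ p ∈ Ports n d, (Measure.pi fun _ : Fin n => τ) (Ev p)
      = ∫⁻ _r : Fin n → Fin d, ∑ p ∈ Ports n d, (Measure.pi fun _ : Fin n => τ) (Ev p)
          ∂(Measure.pi fun _ : Fin n => uFin d) := by
        rw [lintegral_const, measure_univ, mul_one]
    _ ≤ ∫⁻ r : Fin n → Fin d, ∑ p ∈ Ports n d,
          (Measure.pi fun _ : Fin n => τ) {f | (fun v => (r v, f v)) ∈ M p}
          ∂(Measure.pi fun _ : Fin n => uFin d) := lintegral_mono hr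
    _ = ∑ p ∈ Ports n d, vLaw n d τ (M p) := by
        rw [lintegral_finsetSum' _ (fun p _ => (measurable_of_finite _).aemeasurable)]
        exact Finset.sum_congr rfl fun p hp => (hlaw p hp).symm

/-! ### Deterministic estimates -/

/-- off-diagonal entries of `Im R` -/
theorem abs_im_Res_le {V : Type*} [Fintype V] [DecidableEq V] {H : Matrix V V ℝ}
    (hH : H.transpose = H) {z : ℂ} (hz : 0 < z.im) (x y : V) :
    |(Res H z x y).im| ≤ ((Res H z x x).im + (Res H z y y).im) / 2 := by
  have hw := congrFun (congrFun (Res789.ward hH hz) x) y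
  simp only [Res789.cx_apply, Res789.imM_apply, Matrix.smul_apply, Matrix.mul_apply, smul_eq_mul,
    Matrix.conjTranspose_apply] at hw
  have h1 : |(Res H z x y).im| = ‖((Res H z x y).im : ℂ)‖ := by
    rw [Complex.norm_real, Real.norm_eq_abs]
  have hx := ScaleD355.sum_row_sq hH hz x
  have hy := ScaleD355.sum_row_sq hH hz y
  rw [h1]
  change ‖((Res789.Res H z x y).im : ℂ)‖ ≤ _
  rw [hw, norm_mul, Complex.norm_real, Real.norm_eq_abs, abs_of_pos hz]
  have h2 : ‖∑ k, Res789.Res H z x k * star (Res789.Res H z y k)‖ ≤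
      (∑ k, ‖Res789.Res H z x k‖ ^ 2 + ∑ k, ‖Res789.Res H z y k‖ ^ 2) / 2 := by
    refine (norm_sum_le _ _).trans ?_
    rw [← Finset.sum_add_distrib, Finset.sum_div]
    refine Finset.sum_le_sum fun k _ => ?_
    rw [norm_mul, norm_star]
    nlinarith [sq_nonneg (‖Res789.Res H z x k‖ - ‖Res789.Res H z y k‖)]
  rw [hx, hy] at h2
  calc z.im * ‖∑ k, Res789.Res H z x k * star (Res789.Res H z y k)‖
      ≤ z.im * (((Res789.Res H z x x).im / z.im + (Res789.Res H z y y).im / z.im) / 2) := by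
        gcongr
    _ = ((Res H z x x).im + (Res H z y y).im) / 2 := by
        change _ = ((Res789.Res H z x x).im + (Res789.Res H z y y).im) / 2
        field_simp

/-- `Σ_v f_v` is small for `s = 0` -/
theorem abs_sum_le {p : Equiv.Perm (HE n d)} (hp : IsPort p) (ω : Fin n → ℝ) {E K : ℝ}
    (hE : E ≠ d) (hn : 0 < n) {f : Fin n → ℝ} (hf : NearE (Hm (graphOf p) 0 ω) E K f) :
    |∑ v, f v| ≤ |K| / |E - d| := by
  have hn' : (0 : ℝ) < n := by exact_mod_cast hn
  have h0 : 0 < |E - d| := abs_pos.2 (sub_ne_zero.2 hE)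
  have h1 : ∑ v, ((Hm (graphOf p) 0 ω).mulVec f) v = d * ∑ v, f v := by
    have h2 : ∀ v, ((Hm (graphOf p) 0 ω).mulVec f) v = ∑ j : Fin d, f (p (v, j)).1 := by
      intro v
      rw [Hm_mulVec_port hp]
      ring
    simp only [h2]
    rw [← Fintype.sum_prod_type (f := fun h : HE n d => f (p h).1),
      Equiv.sum_comp p (fun h : HE n d => f h.1), Fintype.sum_prod_type, Finset.mul_sum]
    refine Finset.sum_congr rfl fun v _ => ?_
    simp
  have h3 : (E - d) * ∑ v, f v = -∑ v, (((Hm (graphOf p) 0 ω).mulVec f) v - E * f v) := by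
    rw [Finset.sum_sub_distrib, h1, ← Finset.mul_sum]
    ring
  have h4 : |∑ v, (((Hm (graphOf p) 0 ω).mulVec f) v - E * f v)| ≤ |K| := by
    have h5 := Finset.sum_mul_sq_le_sq_mul_sq Finset.univ (fun _ : Fin n => (1 : ℝ))
      (fun v => ((Hm (graphOf p) 0 ω).mulVec f) v - E * f v)
    simp only [one_mul, one_pow, Finset.sum_const, Finset.card_univ, Fintype.card_fin,
      nsmul_eq_mul, mul_one] at h5
    have h6 : (∑ v, (((Hm (graphOf p) 0 ω).mulVec f) v - E * f v)) ^ 2 ≤ |K| ^ 2 := by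
      refine h5.trans ?_
      calc (n : ℝ) * ∑ v, (((Hm (graphOf p) 0 ω).mulVec f) v - E * f v) ^ 2
          ≤ n * ((K / n) ^ 2 * n) := by
            gcongr
            exact hf.2
        _ = |K| ^ 2 := by
            rw [sq_abs]
            field_simp
    exact abs_le_of_sq_le_sq h6 (abs_nonneg _)
  rw [le_div_iff₀ h0, mul_comm, ← abs_mul, h3, abs_neg]
  exact h4

/-! ### The centred field -/

section field

variable {T : Type*} [MeasurableSpace T]

/-- expected value of a local function at a half-edge -/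
noncomputable def mh (τ : Measure T) (p : Equiv.Perm (HE n d)) (g : Conf d (Fin d × T) → ℝ)
    (h : HE n d) : ℝ := ∫ x, g (view p h x) ∂(vLaw n d τ)

/-- centred vertex field -/
noncomputable def zet (τ : Measure T) (p : Equiv.Perm (HE n d)) (g : Conf d (Fin d × T) → ℝ)
    (x : Fin n → Fin d × T) (v : Fin n) : ℝ := ∑ j : Fin d, (g (view p (v, j) x) - mh τ p g (v, j))

theorem abs_cov_le' {Ω : Type*} [MeasurableSpace Ω] (μ : Measure Ω) [IsProbabilityMeasure μ]
    {X Y : Ω → ℝ} (hX : ∀ x, |X x| ≤ 1) (hY : ∀ x, |Y x| ≤ 1) : |cov[X, Y; μ]| ≤ 4 := by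
  have hmX : |μ[X]| ≤ 1 := abs_integral_le_one μ hX
  have hmY : |μ[Y]| ≤ 1 := abs_integral_le_one μ hY
  rw [covariance]
  have := norm_integral_le_of_norm_le_const (μ := μ)
    (f := fun x => (X x - μ[X]) * (Y x - μ[Y])) (C := 4)
    (Filter.Eventually.of_forall fun x => by
      rw [Real.norm_eq_abs, abs_mul]
      have h2 : |X x - μ[X]| ≤ 2 := by
        have := abs_sub (X x) (μ[X])
        have := hX x
        linarith
      have h3 : |Y x - μ[Y]| ≤ 2 := by
        have := abs_sub (Y x) (μ[Y])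
        have := hY x
        linarith
      calc |X x - μ[X]| * |Y x - μ[Y]| ≤ 2 * 2 :=
            mul_le_mul h2 h3 (abs_nonneg _) (by norm_num)
        _ = 4 := by norm_num)
  simpa using this

theorem measurable_zet (τ : Measure T) (p : Equiv.Perm (HE n d)) {g : Conf d (Fin d × T) → ℝ}
    (hg : Measurable g) (v : Fin n) : Measurable fun x => zet τ p g x v :=
  Finset.measurable_sum _ fun j _ => (hg.comp (measurable_view p (v, j))).sub_const _

theorem abs_zet_le (τ : Measure T) [IsProbabilityMeasure τ] (p : Equiv.Perm (HE n d))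
    {g : Conf d (Fin d × T) → ℝ}
    (hb : ∀ ξ, |g ξ| ≤ 1) (x : Fin n → Fin d × T) (v : Fin n) : |zet τ p g x v| ≤ 2 * d := by
  unfold zet
  refine (Finset.abs_sum_le_sum_abs _ _).trans ?_
  calc ∑ j : Fin d, |g (view p (v, j) x) - mh τ p g (v, j)| ≤ ∑ _j : Fin d, (2 : ℝ) := by
        refine Finset.sum_le_sum fun j _ => ?_
        have h1 := abs_sub (g (view p (v, j) x)) (mh τ p g (v, j))
        have h2 := hb (view p (v, j) x)
        have h3 : |mh τ p g (v, j)| ≤ 1 := abs_integral_le_one _ fun x => hb _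
        linarith
    _ = 2 * d := by
        rw [Finset.sum_const, Finset.card_univ, Fintype.card_fin, nsmul_eq_mul]
        ring

/-- **expected size of `p = -iη R ζ`** -/
theorem integral_normSq_pv_le (τ : Measure T) [IsProbabilityMeasure τ] (p : Equiv.Perm (HE n d))
    (a : ℕ) {g : Conf d (Fin d × T) → ℝ} (hg : Measurable g) (hb : ∀ ξ, |g ξ| ≤ 1)
    (hloc : Loc a g) {H : Matrix (Fin n) (Fin n) ℝ} (hH : H.transpose = H) {E η : ℝ}
    (hη : 0 < η) :
    ∫ x, ∑ v, ‖pv H (zet τ p g x) E η v‖ ^ 2 ∂(vLaw n d τ) ≤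
      4 * η * CB d a * d * ∑ v, (Res H (ze E η) v v).im := by
  classical
  have hz : 0 < (ze E η).im := by simpa [ze] using hη
  -- quadratic form over half-edges
  have e1 : ∀ x, ∑ v, ‖pv H (zet τ p g x) E η v‖ ^ 2 = η * ∑ h : HE n d, ∑ h' : HE n d,
      (Res H (ze E η) h.1 h'.1).im * ((g (view p h x) - mh τ p g h) *
        (g (view p h' x) - mh τ p g h')) := by
    intro x
    rw [sum_normSq_pv hH hη]
    simp only [pv_re]
    rw [Fintype.sum_prod_type, Finset.mul_sum]
    refine Finset.sum_congr rfl fun v _ => ?_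
    have e2 : ∀ j : Fin d, ∑ h' : HE n d, (Res H (ze E η) (v, j).1 h'.1).im *
        ((g (view p (v, j) x) - mh τ p g (v, j)) * (g (view p h' x) - mh τ p g h'))
        = (g (view p (v, j) x) - mh τ p g (v, j)) *
          ∑ u, (Res H (ze E η) v u).im * zet τ p g x u := by
      intro j
      rw [Fintype.sum_prod_type, Finset.mul_sum]
      refine Finset.sum_congr rfl fun u _ => ?_
      unfold zet
      rw [Finset.mul_sum, Finset.mul_sum]
      refine Finset.sum_congr rfl fun j' _ => ?_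
      ring
    simp only [e2]
    rw [← Finset.sum_mul]
    unfold zet
    ring
  simp only [e1]
  rw [integral_const_mul]
  have hL2 : ∀ h, MemLp (fun x => g (view p h x)) 2 (vLaw n d τ) := fun h =>
    memLp_view τ p h hg hb
  have hprodint : ∀ h h' : HE n d, Integrable (fun x => (g (view p h x) - mh τ p g h) *
        (g (view p h' x) - mh τ p g h')) (vLaw n d τ) := fun h h' =>
    (((hL2 h).sub (memLp_const _)).integrable_mul ((hL2 h').sub (memLp_const _)))
  rw [integral_finsetSum _ (fun h _ => integrable_finsetSum _ fun h' _ =>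
    (hprodint h h').const_mul _)]
  have e3 : ∀ h : HE n d, ∫ x, ∑ h' : HE n d, (Res H (ze E η) h.1 h'.1).im *
      ((g (view p h x) - mh τ p g h) * (g (view p h' x) - mh τ p g h')) ∂(vLaw n d τ)
      = ∑ h' : HE n d, (Res H (ze E η) h.1 h'.1).im *
        cov[fun x => g (view p h x), fun x => g (view p h' x); vLaw n d τ] := by
    intro h
    rw [integral_finsetSum _ (fun h' _ => (hprodint h h').const_mul _)]
    refine Finset.sum_congr rfl fun h' _ => ?_
    rw [integral_const_mul]
    rfl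
  simp only [e3]
  -- bound
  have hR0 : ∀ v, 0 ≤ (Res H (ze E η) v v).im := fun v => ScaleD355.im_diag_nonneg hH hz v
  have e4 : ∀ h h' : HE n d, (Res H (ze E η) h.1 h'.1).im *
      cov[fun x => g (view p h x), fun x => g (view p h' x); vLaw n d τ] ≤
      (if ¬ Disjoint (vtx p a h) (vtx p a h') then
        2 * ((Res H (ze E η) h.1 h.1).im + (Res H (ze E η) h'.1 h'.1).im) else 0) := by
    intro h h'
    by_cases hd : Disjoint (vtx p a h) (vtx p a h')
    · rw [if_neg (not_not.2 hd),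
        (indep_view τ p h h' a hd hg hloc).covariance_eq_zero (hL2 h) (hL2 h'), mul_zero]
    · rw [if_pos hd]
      have h1 := abs_cov_le' (vLaw n d τ) (X := fun x => g (view p h x))
        (Y := fun x => g (view p h' x)) (fun x => hb _) (fun x => hb _)
      have h2 := abs_im_Res_le hH hz h.1 h'.1
      refine (le_abs_self _).trans ?_
      rw [abs_mul]
      calc |(Res H (ze E η) h.1 h'.1).im| *
            |cov[fun x => g (view p h x), fun x => g (view p h' x); vLaw n d τ]|
          ≤ (((Res H (ze E η) h.1 h.1).im + (Res H (ze E η) h'.1 h'.1).im) / 2) * 4 :=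
            mul_le_mul h2 h1 (abs_nonneg _) (by
              have := hR0 h.1
              have := hR0 h'.1
              positivity)
        _ = _ := by ring
  have hcount : ∀ h : HE n d, (((Finset.univ.filter fun h' => ¬ Disjoint (vtx p a h)
      (vtx p a h')).card : ℕ) : ℝ) ≤ CB d a := by
    intro h
    exact_mod_cast card_meet p a h
  have e5 : ∑ h : HE n d, ∑ h' : HE n d, (if ¬ Disjoint (vtx p a h) (vtx p a h') then
        2 * ((Res H (ze E η) h.1 h.1).im + (Res H (ze E η) h'.1 h'.1).im) else 0)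
      ≤ 4 * CB d a * ∑ h : HE n d, (Res H (ze E η) h.1 h.1).im := by
    have e6 : ∀ h h' : HE n d, (if ¬ Disjoint (vtx p a h) (vtx p a h') then
        2 * ((Res H (ze E η) h.1 h.1).im + (Res H (ze E η) h'.1 h'.1).im) else 0)
        = 2 * (Res H (ze E η) h.1 h.1).im *
            (if ¬ Disjoint (vtx p a h) (vtx p a h') then (1 : ℝ) else 0) +
          2 * (Res H (ze E η) h'.1 h'.1).im *
            (if ¬ Disjoint (vtx p a h) (vtx p a h') then (1 : ℝ) else 0) := by
      intro h h'
      split_ifs <;> ring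
    simp only [e6, Finset.sum_add_distrib]
    have e7 : ∑ h : HE n d, ∑ h' : HE n d, 2 * (Res H (ze E η) h.1 h.1).im *
            (if ¬ Disjoint (vtx p a h) (vtx p a h') then (1 : ℝ) else 0)
        ≤ ∑ h : HE n d, 2 * (Res H (ze E η) h.1 h.1).im * CB d a := by
      refine Finset.sum_le_sum fun h _ => ?_
      rw [← Finset.mul_sum]
      refine mul_le_mul_of_nonneg_left ?_ (by have := hR0 h.1; positivity)
      rw [← Finset.sum_filter, Finset.sum_const, nsmul_eq_mul, mul_one]
      exact hcount h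
    have e8 : ∑ h : HE n d, ∑ h' : HE n d, 2 * (Res H (ze E η) h'.1 h'.1).im *
            (if ¬ Disjoint (vtx p a h) (vtx p a h') then (1 : ℝ) else 0)
        ≤ ∑ h : HE n d, 2 * (Res H (ze E η) h.1 h.1).im * CB d a := by
      rw [Finset.sum_comm]
      refine Finset.sum_le_sum fun h' _ => ?_
      rw [← Finset.mul_sum]
      refine mul_le_mul_of_nonneg_left ?_ (by have := hR0 h'.1; positivity)
      have : ∀ h : HE n d, (if ¬ Disjoint (vtx p a h) (vtx p a h') then (1 : ℝ) else 0)
          = (if ¬ Disjoint (vtx p a h') (vtx p a h) then (1 : ℝ) else 0) := by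
        intro h
        simp only [disjoint_comm]
      simp only [this]
      rw [← Finset.sum_filter, Finset.sum_const, nsmul_eq_mul, mul_one]
      exact hcount h'
    calc _ ≤ ∑ h : HE n d, 2 * (Res H (ze E η) h.1 h.1).im * CB d a +
          ∑ h : HE n d, 2 * (Res H (ze E η) h.1 h.1).im * CB d a := add_le_add e7 e8
      _ = 4 * CB d a * ∑ h : HE n d, (Res H (ze E η) h.1 h.1).im := by
          rw [← Finset.sum_add_distrib, Finset.mul_sum]
          refine Finset.sum_congr rfl fun h _ => ?_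
          ring
  have e9 : ∑ h : HE n d, (Res H (ze E η) h.1 h.1).im = d * ∑ v, (Res H (ze E η) v v).im := by
    rw [Fintype.sum_prod_type, Finset.mul_sum]
    refine Finset.sum_congr rfl fun v _ => ?_
    simp
  calc η * ∑ h : HE n d, ∑ h' : HE n d, (Res H (ze E η) h.1 h'.1).im *
        cov[fun x => g (view p h x), fun x => g (view p h' x); vLaw n d τ]
      ≤ η * ∑ h : HE n d, ∑ h' : HE n d, (if ¬ Disjoint (vtx p a h) (vtx p a h') then
        2 * ((Res H (ze E η) h.1 h.1).im + (Res H (ze E η) h'.1 h'.1).im) else 0) := by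
        gcongr with h _ h' _
        exact e4 h h'
    _ ≤ η * (4 * CB d a * ∑ h : HE n d, (Res H (ze E η) h.1 h.1).im) := by gcongr
    _ = 4 * η * CB d a * d * ∑ v, (Res H (ze E η) v v).im := by
        rw [e9]
        ring

theorem measurable_pv (τ : Measure T) (p : Equiv.Perm (HE n d)) {g : Conf d (Fin d × T) → ℝ}
    (hg : Measurable g) (H : Matrix (Fin n) (Fin n) ℝ) (E η : ℝ) :
    Measurable fun x => ∑ v, ‖pv H (zet τ p g x) E η v‖ ^ 2 := by
  refine Finset.measurable_sum _ fun v _ => ?_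
  have h1 : Measurable fun x => pv H (zet τ p g x) E η v := by
    unfold pv
    refine Measurable.const_mul ?_ _
    refine Finset.measurable_sum _ fun y _ => ?_
    exact (Complex.measurable_ofReal.comp (measurable_zet τ p hg y)).const_mul _
  exact h1.norm.pow_const 2

/-- Markov inequality for `p` -/
theorem prob_pv_le (τ : Measure T) [IsProbabilityMeasure τ] (p : Equiv.Perm (HE n d))
    (a : ℕ) {g : Conf d (Fin d × T) → ℝ} (hg : Measurable g) (hb : ∀ ξ, |g ξ| ≤ 1)
    (hloc : Loc a g) {H : Matrix (Fin n) (Fin n) ℝ} (hH : H.transpose = H) {E η Y ε : ℝ}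
    (hη : 0 < η) (hε : 0 < ε) (hn : 0 < n) (hY : ∑ v, (Res H (ze E η) v v).im ≤ Y * n) :
    vLaw n d τ {x | ε * n ≤ ∑ v, ‖pv H (zet τ p g x) E η v‖ ^ 2} ≤
      ENNReal.ofReal (4 * η * CB d a * d * Y / ε) := by
  have hn' : (0 : ℝ) < n := by exact_mod_cast hn
  have hm := measurable_pv τ p hg H E η
  have hb2 : ∀ x, ∑ v, ‖pv H (zet τ p g x) E η v‖ ^ 2 ≤ (2 * d) ^ 2 * n := by
    intro x
    refine (sum_normSq_pv_le hH hη _).trans ?_
    calc ∑ v, (zet τ p g x v) ^ 2 ≤ ∑ _v : Fin n, ((2 : ℝ) * d) ^ 2 := by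
          refine Finset.sum_le_sum fun v _ => ?_
          rw [← sq_abs]
          exact pow_le_pow_left₀ (abs_nonneg _) (abs_zet_le τ p hb x v) 2
      _ = _ := by
          rw [Finset.sum_const, Finset.card_univ, Fintype.card_fin, nsmul_eq_mul]
          ring
  have hint : Integrable (fun x => ∑ v, ‖pv H (zet τ p g x) E η v‖ ^ 2) (vLaw n d τ) := by
    refine Integrable.of_bound hm.aestronglyMeasurable ((2 * d) ^ 2 * n) ?_
    refine Eventually.of_forall fun x => ?_
    rw [Real.norm_eq_abs, abs_of_nonneg (Finset.sum_nonneg fun _ _ => by positivity)]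
    exact hb2 x
  have h1 := mul_meas_ge_le_integral_of_nonneg
    (Eventually.of_forall fun x => Finset.sum_nonneg fun v _ => by positivity) hint (ε * n)
  have h2 := integral_normSq_pv_le τ p a hg hb hloc hH hη (E := E)
  have h3 : (vLaw n d τ).real {x | ε * n ≤ ∑ v, ‖pv H (zet τ p g x) E η v‖ ^ 2} ≤
      4 * η * CB d a * d * Y / ε := by
    rw [le_div_iff₀ hε]
    have h4 : 0 ≤ (4 * η * CB d a * d : ℝ) := by positivity
    have h5 : ε * n * (vLaw n d τ).real {x | ε * n ≤ ∑ v, ‖pv H (zet τ p g x) E η v‖ ^ 2} ≤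
        4 * η * CB d a * d * (Y * n) :=
      h1.trans (h2.trans (mul_le_mul_of_nonneg_left hY h4))
    have h6 : (((vLaw n d τ).real {x | ε * n ≤ ∑ v, ‖pv H (zet τ p g x) E η v‖ ^ 2}) * ε) * n ≤
        (4 * η * CB d a * d * Y) * n := by
      calc _ = ε * n * (vLaw n d τ).real {x | ε * n ≤ ∑ v, ‖pv H (zet τ p g x) E η v‖ ^ 2} := by
            ring
        _ ≤ 4 * η * CB d a * d * (Y * n) := h5
        _ = _ := by ring
    exact le_of_mul_le_mul_right h6 hn'
  rw [← ENNReal.ofReal_toReal (measure_ne_top (vLaw n d τ) _)]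
  exact ENNReal.ofReal_le_ofReal h3

end field

end Crest.Agent.R166.Mean974
end

-- ▼ part R166/MeanZ_974
section

/-!
Row 166 (helper974): the orthogonality events `GMean` (section 42.7) for `s = 0`: final statement,
and the common statement for all `s ≥ 0`.
-/

set_option autoImplicit false

namespace Crest.Agent.R166.Mean974

open MeasureTheory Filter Topology ProbabilityTheory
open Crest.ProbabilityR.RandomMatrix
open Crest.Agent.R166 Crest.Agent.R166.Words955 Crest.Agent.R166.Seq980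
open Crest.Agent.R166.LimLaw980 Crest.Agent.R166.LimProps974 Crest.Agent.R166.LLN289
open Crest.Agent.R166.EnvLaw289 Crest.Agent.R166.FrameB974 Crest.Agent.R166.TreeLike942
open Crest.Agent.R166.TreeDefs350 (unif)
open Crest.Agent.R166.LimEnv289 (embE continuous_embE injective_embE gq continuous_gq abs_gq_le EIx
  loc_gq potentialLaw_eq)

variable {d n : ℕ} [NeZero d]

theorem Hm_zero (G : SimpleGraph (Fin n)) (ω : Fin n → ℝ) : Hm G 0 ω = Hm G 0 0 := by
  unfold Hm
  rw [zero_smul, zero_smul]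

theorem Hm_transpose (G : SimpleGraph (Fin n)) (s : ℝ) (ω : Fin n → ℝ) :
    (Hm G s ω).transpose = Hm G s ω := by
  classical
  unfold Hm
  rw [Matrix.transpose_add, Matrix.transpose_smul, Matrix.diagonal_transpose]
  congr 1
  exact SimpleGraph.transpose_adjMatrix _

/-- deterministic estimate at a good point -/
theorem det_bound {p : Equiv.Perm (HE n d)} (hp : IsPort p) (a : ℕ)
    {g : Conf d (Fin d × ℝ) → ℝ} (hg : Measurable g) (hb : ∀ ξ, |g ξ| ≤ 1)
    (hloc : Loc a g) {E K η ε1 β : ℝ} (hη : 0 < η) (hn : 0 < n) (hE : E ≠ d) (hβ : 0 ≤ β)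
    (hbad : ((badH p a).card : ℝ) ≤ β * n) (x : Fin n → Fin d × ℝ)
    (hx : ∑ v, ‖pv (Hm (graphOf p) 0 0) (zet unif p g x) E η v‖ ^ 2 ≤ ε1 ^ 2 * n)
    (hε1 : 0 ≤ ε1)
    {f : Fin n → ℝ} (hf : NearE (Hm (graphOf p) 0 0) E K f) :
    |∑ h : HE n d, f h.1 * g (view p h x)| ≤
      ε1 * n + 2 * d * |K| / η + 2 * Real.sqrt (β * d) * n + d * (|K| / |E - d|) := by
  classical
  have hn' : (0 : ℝ) < n := by exact_mod_cast hn
  set m := ∫ ξ, g ξ ∂(envLaw d unif) with hm
  have hm1 : |m| ≤ 1 := abs_integral_le_one _ hb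
  have hH := Hm_transpose (graphOf p) 0 (0 : Fin n → ℝ)
  -- decomposition
  have e1 : ∑ h : HE n d, f h.1 * g (view p h x) = (∑ v, f v * zet unif p g x v) +
      (∑ h : HE n d, f h.1 * (mh unif p g h - m)) + m * (d * ∑ v, f v) := by
    have e2 : ∑ v, f v * zet unif p g x v
        = ∑ h : HE n d, f h.1 * (g (view p h x) - mh unif p g h) := by
      rw [Fintype.sum_prod_type]
      refine Finset.sum_congr rfl fun v _ => ?_
      unfold zet
      rw [Finset.mul_sum]
    have e3 : (d : ℝ) * ∑ v, f v = ∑ h : HE n d, f h.1 := by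
      rw [Fintype.sum_prod_type, Finset.mul_sum]
      refine Finset.sum_congr rfl fun v _ => ?_
      simp
    rw [e2, e3, Finset.mul_sum, ← Finset.sum_add_distrib, ← Finset.sum_add_distrib]
    refine Finset.sum_congr rfl fun h _ => ?_
    ring
  -- first term
  have t1 : |∑ v, f v * zet unif p g x v| ≤ ε1 * n + 2 * d * |K| / η := by
    have h1 := abs_inner_le hH (E := E) hη f (zet unif p g x) hf.2 hf.1.le
      (c := (2 * d) ^ 2 * n) (by
        calc ∑ v, (zet unif p g x v) ^ 2 ≤ ∑ _v : Fin n, ((2 : ℝ) * d) ^ 2 := by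
              refine Finset.sum_le_sum fun v _ => ?_
              rw [← sq_abs]
              exact pow_le_pow_left₀ (abs_nonneg _) (abs_zet_le unif p hb x v) 2
          _ = _ := by
              rw [Finset.sum_const, Finset.card_univ, Fintype.card_fin, nsmul_eq_mul]
              ring)
    refine h1.trans (add_le_add ?_ ?_)
    · calc Real.sqrt (∑ v, ‖pv (Hm (graphOf p) 0 0) (zet unif p g x) E η v‖ ^ 2) * Real.sqrt n
          ≤ Real.sqrt (ε1 ^ 2 * n) * Real.sqrt n := by gcongr
        _ = ε1 * n := by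
            rw [Real.sqrt_mul (by positivity), Real.sqrt_sq hε1, mul_assoc,
              Real.mul_self_sqrt hn'.le]
    · rw [Real.sqrt_mul (by positivity), Real.sqrt_mul (by positivity), Real.sqrt_sq (by positivity),
        Real.sqrt_sq_eq_abs, abs_div, abs_of_pos hn']
      have h2 : Real.sqrt n * Real.sqrt n = n := Real.mul_self_sqrt hn'.le
      have h3 : 1 / η * (2 * d * Real.sqrt n) * (|K| / n * Real.sqrt n)
          = 2 * d * |K| / η * ((Real.sqrt n * Real.sqrt n) / n) := by ring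
      rw [h3, h2, div_self hn'.ne', mul_one]
  -- second term
  have t2 : |∑ h : HE n d, f h.1 * (mh unif p g h - m)| ≤ 2 * Real.sqrt (β * d) * n := by
    have h1 : ∀ h : HE n d, |f h.1 * (mh unif p g h - m)| ≤
        (if h ∈ badH p a then 2 * (1 * |f h.1|) else 0) := by
      intro h
      split_ifs with hbd
      · rw [abs_mul]
        have h2 : |mh unif p g h - m| ≤ 2 := by
          have h3 := abs_sub (mh unif p g h) m
          have h4 : |mh unif p g h| ≤ 1 := abs_integral_le_one _ fun x => hb _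
          linarith
        nlinarith [abs_nonneg (f h.1)]
      · have hinj : Set.InjOn (fun w : TW d => (walk p w.1 h).1) {w | w.len ≤ a} := by
          by_contra hcon
          exact hbd (by simp [badH, hcon])
        have h2 : mh unif p g h = m := integral_view unif p h a hinj hg hloc
        rw [h2, sub_self, mul_zero, abs_zero]
    have h2 : ∑ h ∈ badH p a, 1 * |f h.1| ≤ Real.sqrt (β * n) * Real.sqrt (d * n) := by
      refine (Real.sum_mul_le_sqrt_mul_sqrt _ _ _).trans ?_
      refine mul_le_mul (Real.sqrt_le_sqrt ?_) (Real.sqrt_le_sqrt ?_) (Real.sqrt_nonneg _)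
        (Real.sqrt_nonneg _)
      · simpa using hbad
      · calc ∑ h ∈ badH p a, |f h.1| ^ 2 ≤ ∑ h : HE n d, |f h.1| ^ 2 :=
              Finset.sum_le_sum_of_subset_of_nonneg (Finset.subset_univ _)
                fun _ _ _ => by positivity
          _ = d * n := by
              rw [Fintype.sum_prod_type]
              simp only [Finset.sum_const, Finset.card_univ, Fintype.card_fin, nsmul_eq_mul,
                sq_abs]
              rw [← Finset.mul_sum, hf.1]
    calc |∑ h : HE n d, f h.1 * (mh unif p g h - m)|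
        ≤ ∑ h : HE n d, |f h.1 * (mh unif p g h - m)| := Finset.abs_sum_le_sum_abs _ _
      _ ≤ ∑ h : HE n d, (if h ∈ badH p a then 2 * (1 * |f h.1|) else 0) :=
          Finset.sum_le_sum fun h _ => h1 h
      _ = 2 * ∑ h ∈ badH p a, 1 * |f h.1| := by
          rw [← Finset.sum_filter, Finset.mul_sum]
          refine Finset.sum_congr ?_ fun _ _ => rfl
          ext h
          simp
      _ ≤ 2 * (Real.sqrt (β * n) * Real.sqrt (d * n)) := by gcongr
      _ = 2 * Real.sqrt (β * d) * n := by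
          rw [Real.sqrt_mul hβ, Real.sqrt_mul (by positivity), Real.sqrt_mul hβ]
          have h2 : Real.sqrt n * Real.sqrt n = n := Real.mul_self_sqrt hn'.le
          calc 2 * (Real.sqrt β * Real.sqrt n * (Real.sqrt d * Real.sqrt n))
              = 2 * (Real.sqrt β * Real.sqrt d) * (Real.sqrt n * Real.sqrt n) := by ring
            _ = _ := by rw [h2]
  -- third term
  have t3 : |m * (d * ∑ v, f v)| ≤ d * (|K| / |E - d|) := by
    rw [abs_mul, abs_mul, abs_of_nonneg (by positivity : (0 : ℝ) ≤ d)]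
    have h1 := abs_sum_le hp 0 hE hn hf
    have h2 : 0 ≤ (d : ℝ) * |∑ v, f v| := by positivity
    calc |m| * (d * |∑ v, f v|) ≤ 1 * (d * |∑ v, f v|) := by gcongr
      _ ≤ d * (|K| / |E - d|) := by
          rw [one_mul]
          gcongr
  rw [e1]
  have := abs_add_three (∑ v, f v * zet unif p g x v)
    (∑ h : HE n d, f h.1 * (mh unif p g h - m)) (m * (d * ∑ v, f v))
  linarith

/-- **the events have probability `→ 1` for `s = 0`** -/
theorem GMean_whp_zero (d : ℕ) [NeZero d] {E ρ : ℝ} (K : ℝ) (hE : E ≠ d) (hIm : ImFix d 0 E ρ)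
    (i : EIx d) (δ : ℝ) (hδ : 0 < δ) :
    ∃ N : ℕ, ∀ n, N ≤ n → portLaw d n (GMean d 0 E K i n)ᶜ ≤ ENNReal.ofReal δ := by
  classical
  have hd : 0 < d := NeZero.pos d
  have hdR : (0 : ℝ) < d := by exact_mod_cast hd
  obtain ⟨a, hloc⟩ := loc_gq d i.1 i.2.1
  set g := gq d i.1 i.2.1 with hg
  have hgm : Measurable g := (continuous_gq d i.1 i.2.1).measurable
  have hgb : ∀ ξ, |g ξ| ≤ 1 := abs_gq_le d i.1 i.2.1
  set ε : ℝ := 1 / ((i.2.2 : ℝ) + 1) with hε
  have hεp : 0 < ε := by positivity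
  set ε1 : ℝ := ε / 4 with hε1
  set β : ℝ := (ε / 8) ^ 2 / d with hβ
  have hβp : 0 < β := by positivity
  set Y : ℝ := |Real.pi * ρ| + 1 with hY
  have hYp : 0 < Y := by positivity
  obtain ⟨η0, hη0, hImF⟩ := hIm (min 1 (δ / 3)) (lt_min one_pos (by positivity))
  set η : ℝ := min η0 (δ / 3 * ε1 ^ 2 / (4 * CB d a * d * Y + 1)) with hηd
  have hη : 0 < η := lt_min hη0 (by positivity)
  obtain ⟨N1, hN1⟩ := hImF η hη (min_le_left _ _)
  obtain ⟨N2, hN2⟩ := tree_whp_Ports d a hd (β / d) (δ / 3) (by positivity) (by positivity)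
  obtain ⟨N3, hN3⟩ := exists_nat_gt ((2 * d * |K| / η + d * (|K| / |E - d|)) / (ε / 4))
  refine ⟨max (max N1 N2) (max N3 1), fun n hn => ?_⟩
  have hn1 : N1 ≤ n := ((le_max_left _ _).trans (le_max_left _ _)).trans hn
  have hn2 : N2 ≤ n := ((le_max_right _ _).trans (le_max_left _ _)).trans hn
  have hn3 : N3 ≤ n := ((le_max_left _ _).trans (le_max_right _ _)).trans hn
  have hn4 : 1 ≤ n := ((le_max_right _ _).trans (le_max_right _ _)).trans hn
  have hn0 : 0 < n := hn4
  have hnR : (0 : ℝ) < n := by exact_mod_cast hn0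
  have hsmall : 2 * d * |K| / η + d * (|K| / |E - d|) ≤ ε / 4 * n := by
    have h1 : (N3 : ℝ) ≤ n := by exact_mod_cast hn3
    have h2 := (div_lt_iff₀ (by positivity : 0 < ε / 4)).1 (hN3.trans_le h1)
    linarith
  -- empty case
  rcases (Ports n d).eq_empty_or_nonempty with hemp | hne
  · rw [portLaw_apply, hemp]
    simp
  have hreg : (regularGraphs n d).Nonempty := Ports_nonempty_iff.1 hne
  have hcard : 0 < (Ports n d).card := Finset.card_pos.2 hne
  -- good pairings
  let G1 : Equiv.Perm (HE n d) → Prop := fun p => ((badH p a).card : ℝ) ≤ β * n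
  let G2 : Equiv.Perm (HE n d) → Prop := fun p =>
    ∑ v, (Res (Hm (graphOf p) 0 0) (ze E η) v v).im ≤ Y * n
  -- bad for tree-likeness
  have hb1 : (((Ports n d).filter fun p => ¬ G1 p).card : ℝ) ≤ δ / 3 * (Ports n d).card := by
    refine hN2 n hn2 _ (Finset.filter_subset _ _) ?_
    intro p hp
    have h1 := (Finset.mem_filter.1 hp).2
    have h2 : β * n < ((badH p a).card : ℝ) := not_le.1 h1
    have h3 : ((badH p a).card : ℝ) ≤ (Nat.card {v : Fin n // ¬ TreeAt Prod.fst p a v} : ℝ) * d := by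
      exact_mod_cast card_badH_le p a
    have h4 : β * n / d ≤ (Nat.card {v : Fin n // ¬ TreeAt Prod.fst p a v} : ℝ) := by
      rw [div_le_iff₀ hdR]
      linarith
    calc β / d * n = β * n / d := by ring
      _ ≤ _ := h4
  -- bad for the trace
  have hb2 : (((Ports n d).filter fun p => ¬ G2 p).card : ℝ) ≤ δ / 3 * (Ports n d).card := by
    have h1 := hN1 n hn1 hreg
    rw [Whp_iff] at h1
    have h2 : (((Ports n d).filter fun p => ¬ G2 p).card : ENNReal) ≤
        ∑ p ∈ Ports n d, (potentialLaw n) {ω | ¬ |(mn (Hm (graphOf p) 0 ω) (ze E η)).im -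
          Real.pi * ρ| ≤ min 1 (δ / 3)} := by
      rw [Finset.card_eq_sum_ones, Nat.cast_sum, Finset.sum_filter]
      refine Finset.sum_le_sum fun p _ => ?_
      by_cases hG : G2 p
      · rw [if_neg (not_not.2 hG)]
        exact zero_le
      · rw [if_pos hG]
        have h3 : {ω : Fin n → ℝ | ¬ |(mn (Hm (graphOf p) 0 ω) (ze E η)).im -
          Real.pi * ρ| ≤ min 1 (δ / 3)} = Set.univ := by
          ext ω
          simp only [Set.mem_ofPred_eq, Set.mem_univ, iff_true]
          intro hcon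
          apply hG
          rw [Hm_zero] at hcon
          have h4 : (mn (Hm (graphOf p) 0 0) (ze E η)).im
              = (∑ v, (Res (Hm (graphOf p) 0 0) (ze E η) v v).im) / n := by
            unfold mn
            rw [Complex.div_natCast_im, Matrix.trace, Complex.im_sum]
            rfl
          rw [h4] at hcon
          have h5 : (∑ v, (Res (Hm (graphOf p) 0 0) (ze E η) v v).im) / n ≤ Y := by
            have h6 := (abs_le.1 (hcon.trans (min_le_left _ _))).2
            have h7 := le_abs_self (Real.pi * ρ)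
            rw [hY]
            linarith
          exact (div_le_iff₀ hnR).1 h5
        rw [h3, measure_univ]
        simp
    have h3 : ((Ports n d).card : ENNReal)⁻¹ * (((Ports n d).filter fun p => ¬ G2 p).card : ENNReal)
        ≤ ENNReal.ofReal (δ / 3) :=
      ((mul_le_mul_right h2 _).trans h1).trans (ENNReal.ofReal_le_ofReal (min_le_right _ _))
    have hc0 : ((Ports n d).card : ENNReal) ≠ 0 := by exact_mod_cast hcard.ne'
    have hct : ((Ports n d).card : ENNReal) ≠ ⊤ := ENNReal.natCast_ne_top _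
    have h4 : (((Ports n d).filter fun p => ¬ G2 p).card : ENNReal)
        ≤ ENNReal.ofReal (δ / 3 * (Ports n d).card) := by
      rw [ENNReal.ofReal_mul (by positivity), ENNReal.ofReal_natCast,
        mul_comm (ENNReal.ofReal (δ / 3))]
      calc (((Ports n d).filter fun p => ¬ G2 p).card : ENNReal)
          = ((Ports n d).card : ENNReal) * (((Ports n d).card : ENNReal)⁻¹ *
            (((Ports n d).filter fun p => ¬ G2 p).card : ENNReal)) := by
            rw [← mul_assoc, ENNReal.mul_inv_cancel hc0 hct, one_mul]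
        _ ≤ _ := by gcongr
    have h5 := ENNReal.toReal_mono ENNReal.ofReal_ne_top h4
    rw [ENNReal.toReal_ofReal (by positivity)] at h5
    simpa using h5
  -- the events
  let Ev : Equiv.Perm (HE n d) → Set (Fin n → ℝ) := fun p =>
    if G1 p ∧ G2 p then {ω | ∃ f : Fin n → ℝ, NearE (Hm (graphOf p) 0 ω) E K f ∧
      ε * n < |∑ h : HE n d, f h.1 * g (conf p (lab ω) h)|} else ∅
  let M : Equiv.Perm (HE n d) → Set (Fin n → Fin d × ℝ) := fun p =>
    if G1 p ∧ G2 p then {x | ε1 ^ 2 * n ≤ ∑ v, ‖pv (Hm (graphOf p) 0 0) (zet unif p g x) E η v‖ ^ 2}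
      else ∅
  have hMm : ∀ p ∈ Ports n d, MeasurableSet (M p) := by
    intro p _
    by_cases hG : G1 p ∧ G2 p
    · simp only [M, hG, and_self, if_true]
      exact measurableSet_le measurable_const (measurable_pv unif p hgm _ E η)
    · simp only [M, hG, if_false]
      exact MeasurableSet.empty
  have hsub : ∀ p ∈ Ports n d, ∀ (r : Fin n → Fin d) (f : Fin n → ℝ), f ∈ Ev (conjP (rho r) p) →
      (fun v => (r v, f v)) ∈ M p := by
    intro p hp r ω hω
    have hport := mem_Ports.1 hp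
    by_cases hGc : G1 (conjP (rho r) p) ∧ G2 (conjP (rho r) p)
    · have hG : G1 p ∧ G2 p := by
        refine ⟨?_, ?_⟩
        · have := hGc.1
          simp only [G1] at this ⊢
          rwa [card_badH_conj] at this
        · have := hGc.2
          simp only [G2] at this ⊢
          rwa [graphOf_conj hport] at this
      simp only [Ev, hGc, and_self, if_true, Set.mem_ofPred_eq] at hω
      simp only [M, hG, and_self, if_true, Set.mem_ofPred_eq]
      obtain ⟨f, hf, hlt⟩ := hω
      rw [graphOf_conj hport, Hm_zero] at hf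
      by_contra hcon
      rw [not_le] at hcon
      have h1 : ∑ h : HE n d, f h.1 * g (conf (conjP (rho r) p) (lab ω) h)
          = ∑ h : HE n d, f h.1 * g (view p h (fun v => (r v, ω v))) := by
        rw [← Equiv.sum_comp (rho r)
          (fun h : HE n d => f h.1 * g (conf (conjP (rho r) p) (lab ω) h))]
        refine Finset.sum_congr rfl fun h _ => ?_
        rw [conf_conj]
        rfl
      rw [h1] at hlt
      have h2 := det_bound hport a hgm hgb hloc hη hn0 hE hβp.le hG.1
        (fun v => (r v, ω v)) hcon.le (by positivity) hf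
      have h3 : Real.sqrt (β * d) = ε / 8 := by
        rw [hβ, div_mul_cancel₀ _ hdR.ne', Real.sqrt_sq (by positivity)]
      rw [h3] at h2
      have h4 : ε1 * n + 2 * d * |K| / η + 2 * (ε / 8) * n + d * (|K| / |E - d|) ≤ ε * n := by
        rw [hε1]
        nlinarith
      linarith
    · simp only [Ev, hGc, if_false, Set.mem_empty_iff_false] at hω
  have hmain := sum_Ports_rot_le unif Ev M hMm hsub
  have hMle : ∀ p ∈ Ports n d, vLaw n d unif (M p) ≤ ENNReal.ofReal (δ / 3) := by
    intro p _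
    by_cases hG : G1 p ∧ G2 p
    · simp only [M, hG, and_self, if_true]
      refine (prob_pv_le unif p a hgm hgb hloc (Hm_transpose _ 0 0) hη (by positivity) hn0
        hG.2).trans (ENNReal.ofReal_le_ofReal ?_)
      have h1 : 0 ≤ (4 * CB d a * d * Y : ℝ) := by positivity
      have h2 : η ≤ δ / 3 * ε1 ^ 2 / (4 * CB d a * d * Y + 1) := min_le_right _ _
      rw [div_le_iff₀ (by positivity)]
      rw [le_div_iff₀ (by positivity)] at h2
      calc 4 * η * CB d a * d * Y = η * (4 * CB d a * d * Y) := by ring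
        _ ≤ η * (4 * CB d a * d * Y + 1) := by gcongr; linarith
        _ ≤ δ / 3 * ε1 ^ 2 := h2
    · simp only [M, hG, if_false, measure_empty]
      exact zero_le
  -- conclusion
  rw [GMean_compl, portLaw_apply]
  have hterm : ∀ p ∈ Ports n d, (potentialLaw n) {ω | (p, ω) ∈ {x : PS d n | ∃ f : Fin n → ℝ,
      NearE (Hm (graphOf x.1) 0 x.2) E K f ∧ 1 / ((i.2.2 : ℝ) + 1) * n <
        |∑ h : HE n d, f h.1 * gq d i.1 i.2.1 (conf x.1 (lab x.2) h)|}} ≤
      (Measure.pi fun _ : Fin n => unif) (Ev p) + (if ¬ G1 p then 1 else 0)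
        + (if ¬ G2 p then 1 else 0) := by
    intro p _
    by_cases h1 : G1 p
    · by_cases h2 : G2 p
      · have hs : {ω | (p, ω) ∈ {x : PS d n | ∃ f : Fin n → ℝ,
            NearE (Hm (graphOf x.1) 0 x.2) E K f ∧ 1 / ((i.2.2 : ℝ) + 1) * n <
            |∑ h : HE n d, f h.1 * gq d i.1 i.2.1 (conf x.1 (lab x.2) h)|}} ⊆ Ev p := by
          simp only [Ev, h1, h2, and_self, if_true]
          intro ω hω
          exact hω
        have hs2 : (potentialLaw n) (Ev p) = (Measure.pi fun _ : Fin n => unif) (Ev p) := rfl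
        exact (measure_mono hs).trans (hs2.le.trans (le_add_right (le_add_right le_rfl)))
      · rw [if_pos h2]
        refine le_trans prob_le_one ?_
        exact le_add_left le_rfl
    · rw [if_pos h1]
      refine le_trans prob_le_one ?_
      exact le_add_right (le_add_left le_rfl)
  have hc0 : ((Ports n d).card : ENNReal) ≠ 0 := by exact_mod_cast hcard.ne'
  have hct : ((Ports n d).card : ENNReal) ≠ ⊤ := ENNReal.natCast_ne_top _
  have hcnt : ∀ (Q : Equiv.Perm (HE n d) → Prop) [DecidablePred Q],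
      (((Ports n d).filter fun p => ¬ Q p).card : ℝ) ≤ δ / 3 * (Ports n d).card →
      ∑ p ∈ Ports n d, (if ¬ Q p then (1 : ENNReal) else 0) ≤
        ENNReal.ofReal (δ / 3) * (Ports n d).card := by
    intro Q _ hQ
    rw [← Finset.sum_filter, Finset.sum_const, nsmul_eq_mul, mul_one,
      ← ENNReal.ofReal_natCast (Ports n d).card, ← ENNReal.ofReal_mul (by positivity),
      ← ENNReal.ofReal_natCast]
    exact ENNReal.ofReal_le_ofReal hQ
  calc ((Ports n d).card : ENNReal)⁻¹ * ∑ p ∈ Ports n d, (potentialLaw n) {ω | (p, ω) ∈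
      {x : PS d n | ∃ f : Fin n → ℝ, NearE (Hm (graphOf x.1) 0 x.2) E K f ∧
        1 / ((i.2.2 : ℝ) + 1) * n <
        |∑ h : HE n d, f h.1 * gq d i.1 i.2.1 (conf x.1 (lab x.2) h)|}}
      ≤ ((Ports n d).card : ENNReal)⁻¹ * ∑ p ∈ Ports n d,
        ((Measure.pi fun _ : Fin n => unif) (Ev p) + (if ¬ G1 p then 1 else 0)
        + (if ¬ G2 p then 1 else 0)) := by
        gcongr with p hp
        exact hterm p hp
    _ = ((Ports n d).card : ENNReal)⁻¹ * (∑ p ∈ Ports n d,
          (Measure.pi fun _ : Fin n => unif) (Ev p) + ∑ p ∈ Ports n d, (if ¬ G1 p then 1 else 0)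
        + ∑ p ∈ Ports n d, (if ¬ G2 p then 1 else 0)) := by
        rw [Finset.sum_add_distrib, Finset.sum_add_distrib]
    _ ≤ ((Ports n d).card : ENNReal)⁻¹ * (ENNReal.ofReal (δ / 3) * (Ports n d).card +
          ENNReal.ofReal (δ / 3) * (Ports n d).card +
          ENNReal.ofReal (δ / 3) * (Ports n d).card) := by
        gcongr
        · refine hmain.trans ((Finset.sum_le_sum hMle).trans ?_)
          rw [Finset.sum_const, nsmul_eq_mul, mul_comm]
        · exact hcnt G1 hb1
        · exact hcnt G2 hb2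
    _ = (((Ports n d).card : ENNReal)⁻¹ * (Ports n d).card) *
          (ENNReal.ofReal (δ / 3) + ENNReal.ofReal (δ / 3) + ENNReal.ofReal (δ / 3)) := by ring
    _ = ENNReal.ofReal δ := by
        rw [ENNReal.inv_mul_cancel hc0 hct, one_mul, ← ENNReal.ofReal_add (by positivity)
          (by positivity), ← ENNReal.ofReal_add (by positivity) (by positivity)]
        congr 1
        ring

/-- **the events have probability `→ 1` for every `s ≥ 0`** -/
theorem GMean_whp (d : ℕ) [NeZero d] {s E ρ : ℝ} (hs : 0 ≤ s) (K : ℝ) (hE : E ≠ d)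
    (hIm : ImFix d s E ρ) (i : EIx d) (δ : ℝ) (hδ : 0 < δ) :
    ∃ N : ℕ, ∀ n, N ≤ n → portLaw d n (GMean d s E K i n)ᶜ ≤ ENNReal.ofReal δ := by
  rcases hs.eq_or_lt with h | h
  · subst h
    exact GMean_whp_zero d K hE hIm i δ hδ
  · exact GMean_whp_pos d h E K i δ hδ

end Crest.Agent.R166.Mean974
end

-- ▼ part R166/UIF_974
section

/-!
Row 166 (helper974): no-mass-escape events and uniform integrability of the frames.
-/

set_option autoImplicit false

namespace Crest.Agent.R166.Mean974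

open MeasureTheory Filter Topology ProbabilityTheory
open Crest.ProbabilityR.RandomMatrix
open Crest.Agent.R166 Crest.Agent.R166.Words955 Crest.Agent.R166.Seq980
open Crest.Agent.R166.LimProps974 Crest.Agent.R166.FrameB974

variable {d : ℕ} [NeZero d]

/-- tail of the diagonal of the imaginary part at scale `1/n` -/
noncomputable def escTail {n : ℕ} (H : Matrix (Fin n) (Fin n) ℝ) (E M : ℝ) : ℝ :=
  vAvg fun v => if M < (Res H (zz E 1 n) v v).im then (Res H (zz E 1 n) v v).im else 0

/-- no-mass-escape events -/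
def GEsc (d : ℕ) (s E M ε : ℝ) (n : ℕ) : Set (PS d n) :=
  {x | escTail (Hm (graphOf x.1) s x.2) E M ≤ ε}

theorem portLaw_eq_zero_of_empty {n : ℕ} (h : ¬ (regularGraphs n d).Nonempty) (A : Set (PS d n)) :
    portLaw d n A = 0 := by
  have h1 : Ports n d = ∅ := by
    rw [Finset.eq_empty_iff_forall_notMem]
    intro p hp
    exact h (Ports_nonempty_iff.1 ⟨p, hp⟩)
  rw [portLaw_apply, h1]
  simp

/-- choice of the thresholds -/
theorem exists_GEsc {s E : ℝ} (hNE : NoEsc d s E) {ε0 : ℝ} (hε0 : 0 < ε0) :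
    ∃ M : ℕ → ℝ, ∀ i : ℕ, ∃ N : ℕ, ∀ n, N ≤ n →
      portLaw d n (GEsc d s E (M i) (1 / ((i : ℝ) + 1)) n)ᶜ ≤ ENNReal.ofReal (ε0 / 4 ^ (i + 2)) := by
  have h1 : ∀ i : ℕ, ∃ M : ℝ, ∃ N : ℕ, ∀ n, N ≤ n →
      portLaw d n (GEsc d s E M (1 / ((i : ℝ) + 1)) n)ᶜ ≤ ENNReal.ofReal (ε0 / 4 ^ (i + 2)) := by
    intro i
    have hp : 0 < min (1 / ((i : ℝ) + 1)) (ε0 / 4 ^ (i + 2)) := lt_min (by positivity) (by positivity)
    obtain ⟨M, N, hN⟩ := hNE 1 one_pos _ hp
    refine ⟨M, N, fun n hn => ?_⟩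
    by_cases hne : (regularGraphs n d).Nonempty
    · have h2 := hN n hn hne
      rw [Whp_iff_port] at h2
      refine (measure_mono ?_).trans (h2.trans (ENNReal.ofReal_le_ofReal (min_le_right _ _)))
      intro x hx hcon
      apply hx
      exact le_trans hcon (min_le_left _ _)
    · rw [portLaw_eq_zero_of_empty hne]
      exact zero_le
  choose M hM using h1
  exact ⟨M, hM⟩

/-- **uniform integrability of the frames** from the events -/
theorem UIF_of_events {k : ℕ} (S : Seq d k) {s E K : ℝ}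
    (hG : ∀ i : ℕ, ∃ M : ℝ, ∀ᶠ j in atTop, S.U j ⊆ GEsc d s E M (1 / ((i : ℝ) + 1)) (S.n j))
    (hF : ∀ᶠ j in atTop, ∀ x ∈ S.U j, IsFrame (Hm (graphOf x.1) s x.2) E K k (S.F j x)) :
    UIF S := by
  intro ε hε
  set C : ℝ := k * (1 + K ^ 2) + 1 with hC
  have hCp : 0 < C := by positivity
  obtain ⟨i, hi⟩ := exists_nat_one_div_lt (show 0 < ε / C by positivity)
  obtain ⟨M, hM⟩ := hG i
  refine ⟨C * max M 0, by positivity, ?_⟩
  filter_upwards [hM, hF] with j hj hFj x hx
  have hn : 0 < S.n j := S.pos j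
  have hnR : (0 : ℝ) < S.n j := by exact_mod_cast hn
  have hH := Hm_transpose (graphOf x.1) s x.2
  set I : Fin (S.n j) → ℝ := fun v => (Res (Hm (graphOf x.1) s x.2) (zz E 1 (S.n j)) v v).im with hI
  have hz : 0 < (zz E 1 (S.n j)).im := by
    simp [zz]
    exact hn
  have hI0 : ∀ v, 0 ≤ I v := fun v => ScaleD355.im_diag_nonneg hH hz v
  have h1 : ∀ v, ∑ l, (S.F j x l v) ^ 2 ≤ C * I v := by
    intro v
    have h2 : ∀ l, (S.F j x l v) ^ 2 ≤ (1 + K ^ 2) * I v := by
      intro l
      have h3 := frame_sq_le hH one_pos hn (hFj x hx) l v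
      simpa using h3
    calc ∑ l, (S.F j x l v) ^ 2 ≤ ∑ _l : Fin k, (1 + K ^ 2) * I v := Finset.sum_le_sum fun l _ => h2 l
      _ = k * (1 + K ^ 2) * I v := by
          rw [Finset.sum_const, Finset.card_univ, Fintype.card_fin, nsmul_eq_mul]
          ring
      _ ≤ C * I v := by
          have := hI0 v
          rw [hC]
          nlinarith
  have h2 : ∀ v, (if C * max M 0 < ∑ l, (S.F j x l v) ^ 2 then ∑ l, (S.F j x l v) ^ 2 else 0) ≤
      C * (if M < I v then I v else 0) := by
    intro v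
    split_ifs with h3 h4 h4
    · exact h1 v
    · exfalso
      have h5 := h3.trans_le (h1 v)
      have h6 : max M 0 < I v := lt_of_mul_lt_mul_left h5 hCp.le
      exact h4 ((le_max_left _ _).trans_lt h6)
    · have := hI0 v
      positivity
    · simp
  have h3 : ∑ v, (if M < I v then I v else 0) ≤ 1 / ((i : ℝ) + 1) * S.n j := by
    have h4 : escTail (Hm (graphOf x.1) s x.2) E M ≤ 1 / ((i : ℝ) + 1) := hj hx
    unfold escTail vAvg at h4
    rwa [div_le_iff₀ hnR] at h4
  calc ∑ v, (if C * max M 0 < ∑ l, (S.F j x l v) ^ 2 then ∑ l, (S.F j x l v) ^ 2 else 0)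
      ≤ ∑ v, C * (if M < I v then I v else 0) := Finset.sum_le_sum fun v _ => h2 v
    _ = C * ∑ v, (if M < I v then I v else 0) := by rw [Finset.mul_sum]
    _ ≤ C * (1 / ((i : ℝ) + 1) * S.n j) := by gcongr
    _ ≤ C * (ε / C * S.n j) := by gcongr
    _ = ε * S.n j := by field_simp

/-- the near-window condition from `IsFrame` -/
theorem near_of_frame {k : ℕ} (S : Seq d k) {s E K : ℝ}
    (hF : ∀ᶠ j in atTop, ∀ x ∈ S.U j, IsFrame (Hm (graphOf x.1) s x.2) E K k (S.F j x)) :
    ∀ δ : ℝ, 0 < δ → ∀ᶠ j in atTop, ∀ x ∈ S.U j, ∀ l,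
      ∑ v, (((Hm (graphOf x.1) s x.2).mulVec (S.F j x l)) v - E * S.F j x l v) ^ 2
        ≤ δ * S.n j := by
  intro δ hδ
  have h1 : Tendsto (fun j => (K / (S.n j : ℝ)) ^ 2) atTop (𝓝 0) := by
    have h2 : Tendsto (fun j => (S.n j : ℝ)) atTop atTop :=
      tendsto_natCast_atTop_atTop.comp S.tendsto_n
    have h3 := (tendsto_const_nhds (x := K)).div_atTop h2
    have h4 := h3.pow 2
    simpa using h4
  filter_upwards [hF, h1.eventually (gt_mem_nhds hδ)] with j hj hδj x hx l
  refine ((hj x hx).2 l).trans ?_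
  have : (0 : ℝ) ≤ S.n j := Nat.cast_nonneg _
  gcongr

theorem orth_of_frame {k : ℕ} (S : Seq d k) {s E K : ℝ}
    (hF : ∀ᶠ j in atTop, ∀ x ∈ S.U j, IsFrame (Hm (graphOf x.1) s x.2) E K k (S.F j x)) :
    ∀ᶠ j in atTop, ∀ x ∈ S.U j, ∀ l l', ∑ v, S.F j x l v * S.F j x l' v
      = if l = l' then (S.n j : ℝ) else 0 := by
  filter_upwards [hF] with j hj x hx l l'
  exact (hj x hx).1 l l'

end Crest.Agent.R166.Mean974
end

-- ▼ part R166/Events_974

/-!
Row 166 (helper974): all the level-independent events of the extraction in one budgeted family, and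
the conclusions for the extracted sequence: `Extra`, `UIF`, `MeanOrth`, law of the environment.
-/

set_option autoImplicit false

namespace Crest.Agent.R166.Events974

open MeasureTheory Filter Topology ProbabilityTheory
open Crest.ProbabilityR.RandomMatrix
open Crest.Agent.R166 Crest.Agent.R166.Words955 Crest.Agent.R166.Seq980
open Crest.Agent.R166.LimProps974 Crest.Agent.R166.Mean974
open Crest.Agent.R166.LimEnv289 (EIx GEnv GEnvN GEnvN_whp env_law_N)
open Crest.Agent.R166.SpecB1 (nonTree Extra)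
open Crest.Agent.R166.TreeDefs350 (unif)
open Crest.Agent.R166.EnvLaw289 (envLaw)
open Crest.Agent.R166.Erg424 (envP)

variable {d : ℕ} [NeZero d]

/-! ### Tree-likeness -/

/-- at most `ε n` vertices are not tree-like at radius `a` -/
def GTree (d : ℕ) (a : ℕ) (ε : ℝ) (n : ℕ) : Set (PS d n) :=
  {x | (nonTree a x.1 : ℝ) ≤ ε * n}

theorem GTree_whp (d : ℕ) [NeZero d] (a : ℕ) {ε : ℝ} (hε : 0 < ε) (δ : ℝ) (hδ : 0 < δ) :
    ∃ N : ℕ, ∀ n, N ≤ n → portLaw d n (GTree d a ε n)ᶜ ≤ ENNReal.ofReal δ := by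
  classical
  have hd0 : 0 < d := Nat.pos_of_ne_zero (NeZero.ne d)
  obtain ⟨N, hN⟩ := TreeLike942.tree_whp_Ports d a hd0 ε δ hε hδ
  refine ⟨N, fun n hn => ?_⟩
  set Pb := (Ports n d).filter fun p => ε * n < (nonTree a p : ℝ) with hPb
  have h4 : (Pb.card : ℝ) ≤ δ * ((Ports n d).card : ℝ) := by
    refine hN n hn Pb (Finset.filter_subset _ _) fun p hp => ?_
    exact (Finset.mem_filter.1 hp).2.le
  rw [portLaw_apply]
  have h1 : ∀ p ∈ Ports n d, (potentialLaw n) {ω | (p, ω) ∈ (GTree d a ε n)ᶜ} =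
      if ε * n < (nonTree a p : ℝ) then 1 else 0 := by
    intro p _
    have hpr : IsProbabilityMeasure (potentialLaw n) := by
      rw [LimEnv289.potentialLaw_eq]; infer_instance
    split_ifs with h
    · have : {ω : Fin n → ℝ | (p, ω) ∈ (GTree d a ε n)ᶜ} = Set.univ := by
        ext ω; simp [GTree, h]
      rw [this, measure_univ]
    · have : {ω : Fin n → ℝ | (p, ω) ∈ (GTree d a ε n)ᶜ} = ∅ := by
        ext ω; simpa [GTree] using h
      rw [this, measure_empty]
  rw [Finset.sum_congr rfl h1, ← Finset.sum_filter, Finset.sum_const, nsmul_eq_mul, mul_one]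
  rcases Nat.eq_zero_or_pos (Ports n d).card with h0 | h0
  · have : ((Ports n d).filter fun p => ε * n < (nonTree a p : ℝ)).card = 0 := by
      have := Finset.card_filter_le (Ports n d) fun p => ε * n < (nonTree a p : ℝ)
      omega
    rw [this]; simp
  · have h2 : ((Ports n d).card : ENNReal) ≠ 0 := by exact_mod_cast h0.ne'
    have h3 : ((Ports n d).card : ENNReal) ≠ ⊤ := ENNReal.natCast_ne_top _
    have h11 : (Pb.card : ENNReal) ≤ ENNReal.ofReal δ * ((Ports n d).card : ENNReal) := by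
      rw [← ENNReal.ofReal_natCast, ← ENNReal.ofReal_natCast,
        ← ENNReal.ofReal_mul (by positivity)]
      exact ENNReal.ofReal_le_ofReal h4
    calc ((Ports n d).card : ENNReal)⁻¹ * (Pb.card : ENNReal)
        ≤ ((Ports n d).card : ENNReal)⁻¹ * (ENNReal.ofReal δ * ((Ports n d).card : ENNReal)) := by
          gcongr
      _ = ENNReal.ofReal δ := by
          rw [mul_comm (ENNReal.ofReal δ), ← mul_assoc, ENNReal.inv_mul_cancel h2 h3, one_mul]

/-! ### The form of uniform integrability used in `Extra` -/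

theorem extra_ui {k : ℕ} (S : Seq d k) (hui : UIF S) :
    ∀ ε : ℝ, 0 < ε → ∃ M : ℝ, ∀ᶠ j in atTop, ∀ x ∈ S.U j, ∀ i,
      ∑ v, (if M < |S.F j x i v| then (S.F j x i v) ^ 2 else 0) ≤ ε * S.n j := by
  intro ε hε
  obtain ⟨M, hM, h⟩ := hui ε hε
  refine ⟨M + 1, ?_⟩
  filter_upwards [h] with j hj x hx i
  refine le_trans (Finset.sum_le_sum fun v _ => ?_) (hj x hx)
  have h1 : (S.F j x i v) ^ 2 ≤ ∑ l, (S.F j x l v) ^ 2 :=
    Finset.single_le_sum (f := fun l => (S.F j x l v) ^ 2) (fun _ _ => sq_nonneg _)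
      (Finset.mem_univ i)
  have h0 : 0 ≤ ∑ l, (S.F j x l v) ^ 2 := Finset.sum_nonneg fun _ _ => sq_nonneg _
  split_ifs with h3 h4 h4
  · exact h1
  · exfalso
    apply h4
    have h5 : (M + 1) ^ 2 < (S.F j x i v) ^ 2 := by
      rw [← sq_abs (S.F j x i v)]
      exact pow_lt_pow_left₀ h3 (by positivity) (by norm_num)
    nlinarith
  · exact h0
  · exact le_rfl

/-! ### Everything in one family -/

/-- choice of indices: environment and mean events by enumeration, tree events for radius `i` -/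
theorem exists_events {s E ρ : ℝ} (hd : 3 ≤ d) (hs : 0 ≤ s) (hE : E ≠ d) (hIm : ImFix d s E ρ)
    (hNE : NoEsc d s E) (K' : ℝ) {b : ℝ} (hb : 0 < b) :
    ∃ G : ℕ → ∀ n, Set (PS d n),
      (∀ i, ∃ N : ℕ, ∀ n, N ≤ n → portLaw d n (G i n)ᶜ ≤ ENNReal.ofReal (b / 4 ^ i)) ∧
      ∀ (k : ℕ) (S : Seq d k),
        (∀ j, ∀ x ∈ S.U j, IsFrame (Hm (graphOf x.1) s x.2) E K' k (S.F j x)) →
        (∀ i, ∀ᶠ j in atTop, S.U j ⊆ G i (S.n j)) →
        Extra S s E K' ∧ UIF S ∧ MeanOrth S ∧ S.P.map envP = envLaw d unif := by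
  obtain ⟨e, he⟩ := exists_surjective_nat (EIx d)
  obtain ⟨M, hM⟩ := exists_GEsc hNE hb
  let GT : ℕ → ∀ n, Set (PS d n) := fun i n => GTree d i (1 / ((i : ℝ) + 1)) n
  refine ⟨fun i n => (GTree d i (1 / ((i : ℝ) + 1)) n ∩ GEnvN d i n) ∩
    (GMean d s E K' (e i) n ∩ GEsc d s E (M i) (1 / ((i : ℝ) + 1)) n), ?_, ?_⟩
  · intro i
    have hbi : 0 < b / 4 ^ (i + 2) := by positivity
    obtain ⟨N1, h1⟩ := GTree_whp d i (ε := 1 / ((i : ℝ) + 1)) (by positivity) _ hbi
    obtain ⟨N2, h2⟩ := GEnvN_whp d i _ hbi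
    obtain ⟨N3, h3⟩ := GMean_whp d hs K' hE hIm (e i) _ hbi
    obtain ⟨N4, h4⟩ := hM i
    refine ⟨max (max N1 N2) (max N3 N4), fun n hn => ?_⟩
    have g1 := h1 n (((le_max_left _ _).trans (le_max_left _ _)).trans hn)
    have g2 := h2 n (((le_max_right _ _).trans (le_max_left _ _)).trans hn)
    have g3 := h3 n (((le_max_left _ _).trans (le_max_right _ _)).trans hn)
    have g4 := h4 n (((le_max_right _ _).trans (le_max_right _ _)).trans hn)
    rw [Set.compl_inter, Set.compl_inter, Set.compl_inter]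
    refine (measure_union_le _ _).trans ((add_le_add ((measure_union_le _ _).trans
      (add_le_add g1 g2)) ((measure_union_le _ _).trans (add_le_add g3 g4))).trans ?_)
    rw [← ENNReal.ofReal_add hbi.le hbi.le, ← ENNReal.ofReal_add (by positivity) (by positivity)]
    apply ENNReal.ofReal_le_ofReal
    have h5 : b / 4 ^ i = 16 * (b / 4 ^ (i + 2)) := by
      rw [pow_add]
      field_simp
      norm_num
    rw [h5]
    linarith
  · intro k S hF hG
    have hF' : ∀ᶠ j in atTop, ∀ x ∈ S.U j, IsFrame (Hm (graphOf x.1) s x.2) E K' k (S.F j x) :=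
      Eventually.of_forall hF
    have hui : UIF S := by
      refine UIF_of_events S (s := s) (E := E) (K := K') (fun i => ⟨M i, ?_⟩) hF'
      filter_upwards [hG i] with j hj
      exact hj.trans (Set.inter_subset_right.trans Set.inter_subset_right)
    refine ⟨⟨hd, hF, ?_, extra_ui S hui⟩, hui, ?_, ?_⟩
    · intro a ε hε
      obtain ⟨m, hm⟩ := exists_nat_one_div_lt hε
      filter_upwards [hG (max a m)] with j hj x hx
      have h1 : (nonTree (max a m) x.1 : ℝ) ≤ 1 / (((max a m : ℕ) : ℝ) + 1) * S.n j :=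
        (hj hx).1.1
      have h2 : (nonTree a x.1 : ℝ) ≤ (nonTree (max a m) x.1 : ℝ) := by
        have : nonTree a x.1 ≤ nonTree (max a m) x.1 := by
          unfold nonTree
          refine Nat.card_le_card_of_injective (fun v => ⟨v.1, fun h => v.2
            (h.mono (le_max_left a m))⟩) ?_
          intro v w hvw
          exact Subtype.ext (by simpa using hvw)
        exact_mod_cast this
      refine h2.trans (h1.trans ?_)
      have h3 : 1 / (((max a m : ℕ) : ℝ) + 1) ≤ ε := by
        refine le_trans ?_ hm.le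
        apply one_div_le_one_div_of_le (by positivity)
        have : (m : ℝ) ≤ ((max a m : ℕ) : ℝ) := by exact_mod_cast le_max_right a m
        linarith
      have : (0 : ℝ) ≤ S.n j := Nat.cast_nonneg _
      gcongr
    · refine meanOrth_of_events S (s := s) (E := E) (K := K') (fun i => ?_) hF'
      obtain ⟨m, rfl⟩ := he i
      filter_upwards [hG m] with j hj
      exact hj.trans (Set.inter_subset_right.trans Set.inter_subset_left)
    · refine env_law_N S fun i => ?_
      filter_upwards [hG i] with j hj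
      exact hj.trans (Set.inter_subset_left.trans Set.inter_subset_right)

end Crest.Agent.R166.Events974
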