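import Mathlib

/-!
Row 166, section 31.5 (helper501): exceptional vertices.
Deterministic graph theory: balls, excess, unique continuation.
-/

set_option autoImplicit false

namespace Crest.Agent.R166.Exc501

open Finset Classical

noncomputable section

variable {V : Type*} [Fintype V]

/-- ball of radius `k` around `v` -/
def bl (G : SimpleGraph V) (v : V) : ℕ → Finset V
  | 0 => {v}
  | (k+1) => Finset.univ.filter fun u => u ∈ bl G v k ∨ ∃ w ∈ bl G v k, G.Adj w u

/-- the set of neighbours -/
def nb (G : SimpleGraph V) (v : V) : Finset V := Finset.univ.filter fun w => G.Adj v w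

@[simp] lemma mem_nb {G : SimpleGraph V} {v w : V} : w ∈ nb G v ↔ G.Adj v w := by
  simp [nb]

/-- `d`-regularity in the form used in `regularGraphs` -/
def Reg (G : SimpleGraph V) (d : ℕ) : Prop := ∀ v, (nb G v).card = d

@[simp] lemma mem_bl_zero {G : SimpleGraph V} {v u : V} : u ∈ bl G v 0 ↔ u = v := by
  simp [bl]

lemma mem_bl_succ {G : SimpleGraph V} {v u : V} {k : ℕ} :
    u ∈ bl G v (k+1) ↔ u ∈ bl G v k ∨ ∃ w ∈ bl G v k, G.Adj w u := by
  simp [bl]

lemma bl_subset_succ {G : SimpleGraph V} {v : V} {k : ℕ} : bl G v k ⊆ bl G v (k+1) := by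
  intro u hu
  rw [mem_bl_succ]; exact Or.inl hu

lemma bl_mono {G : SimpleGraph V} {v : V} {k l : ℕ} (h : k ≤ l) : bl G v k ⊆ bl G v l := by
  induction h with
  | refl => exact Finset.Subset.refl _
  | step _ ih => exact ih.trans bl_subset_succ

lemma self_mem_bl {G : SimpleGraph V} {v : V} {k : ℕ} : v ∈ bl G v k :=
  bl_mono (Nat.zero_le k) (by simp)

lemma adj_mem_bl {G : SimpleGraph V} {v u w : V} {k : ℕ} (hu : u ∈ bl G v k) (h : G.Adj u w) :
    w ∈ bl G v (k+1) := by
  rw [mem_bl_succ]; exact Or.inr ⟨u, hu, h⟩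

/-- concatenation -/
lemma mem_bl_add {G : SimpleGraph V} {v w : V} {a b : ℕ} :
    w ∈ bl G v (a+b) ↔ ∃ u ∈ bl G v a, w ∈ bl G u b := by
  induction b generalizing w with
  | zero => simp
  | succ b ih =>
    rw [← add_assoc, mem_bl_succ]
    constructor
    · rintro (h | ⟨x, hx, hxw⟩)
      · obtain ⟨u, hu, hw⟩ := ih.1 h
        exact ⟨u, hu, bl_subset_succ hw⟩
      · obtain ⟨u, hu, hw⟩ := ih.1 hx
        exact ⟨u, hu, adj_mem_bl hw hxw⟩
    · rintro ⟨u, hu, hw⟩
      rw [mem_bl_succ] at hw
      rcases hw with hw | ⟨x, hx, hxw⟩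
      · exact Or.inl (ih.2 ⟨u, hu, hw⟩)
      · exact Or.inr ⟨x, ih.2 ⟨u, hu, hx⟩, hxw⟩

lemma mem_bl_one {G : SimpleGraph V} {v w : V} : w ∈ bl G v 1 ↔ w = v ∨ G.Adj v w := by
  rw [show (1 : ℕ) = 0 + 1 from rfl, mem_bl_succ]
  simp

lemma mem_bl_comm {G : SimpleGraph V} {v w : V} {k : ℕ} : w ∈ bl G v k ↔ v ∈ bl G w k := by
  have key : ∀ (k : ℕ) (v w : V), w ∈ bl G v k → v ∈ bl G w k := by
    intro k
    induction k with
    | zero => intro v w h; simp at h ⊢; exact h.symm
    | succ k ih =>
      intro v w h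
      rw [mem_bl_succ] at h
      rcases h with h | ⟨x, hx, hxw⟩
      · exact bl_subset_succ (ih _ _ h)
      · have h1 : v ∈ bl G x k := ih _ _ hx
        have h2 : x ∈ bl G w 1 := by rw [mem_bl_one]; exact Or.inr hxw.symm
        have := (mem_bl_add (G := G) (v := w) (w := v) (a := 1) (b := k)).2 ⟨x, h2, h1⟩
        rwa [add_comm] at this
  exact ⟨key k v w, key k w v⟩

lemma card_bl_le {G : SimpleGraph V} {d : ℕ} (hd : Reg G d) (v : V) (k : ℕ) :
    (bl G v k).card ≤ (d+1)^k := by
  induction k with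
  | zero => simp [bl]
  | succ k ih =>
    have hsub : bl G v (k+1) ⊆ (bl G v k) ∪ (bl G v k).biUnion (fun w => nb G w) := by
      intro u hu
      rw [mem_bl_succ] at hu
      rw [Finset.mem_union, Finset.mem_biUnion]
      rcases hu with hu | ⟨w, hw, hwu⟩
      · exact Or.inl hu
      · exact Or.inr ⟨w, hw, by simpa using hwu⟩
    calc (bl G v (k+1)).card ≤ ((bl G v k) ∪ (bl G v k).biUnion (fun w => nb G w)).card :=
          Finset.card_le_card hsub
      _ ≤ (bl G v k).card + ((bl G v k).biUnion (fun w => nb G w)).card := Finset.card_union_le _ _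
      _ ≤ (bl G v k).card + (bl G v k).card * d := by
          gcongr
          exact Finset.card_biUnion_le_card_mul _ _ _ (fun w _ => (hd w).le)
      _ = (bl G v k).card * (d+1) := by ring
      _ ≤ (d+1)^k * (d+1) := by gcongr
      _ = (d+1)^(k+1) := by ring

/-- distance level -/
def lev (G : SimpleGraph V) (v u : V) : ℕ := sInf {k | u ∈ bl G v k}

lemma mem_bl_lev {G : SimpleGraph V} {v u : V} {k : ℕ} (h : u ∈ bl G v k) :
    u ∈ bl G v (lev G v u) := Nat.sInf_mem (s := {k | u ∈ bl G v k}) ⟨k, h⟩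

lemma lev_le {G : SimpleGraph V} {v u : V} {k : ℕ} (h : u ∈ bl G v k) : lev G v u ≤ k :=
  Nat.sInf_le h

lemma lev_self {G : SimpleGraph V} {v : V} : lev G v v = 0 :=
  Nat.le_zero.1 (lev_le (k := 0) (by simp))

lemma not_mem_bl_of_lt {G : SimpleGraph V} {v u : V} {k : ℕ} (h : k < lev G v u) :
    u ∉ bl G v k := fun h' => absurd (lev_le h') (not_le.2 h)

lemma mem_bl_iff_lev {G : SimpleGraph V} {v u : V} {k m : ℕ} (h : u ∈ bl G v m) :
    u ∈ bl G v k ↔ lev G v u ≤ k :=
  ⟨lev_le, fun h' => bl_mono h' (mem_bl_lev h)⟩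

lemma exists_parent {G : SimpleGraph V} {v u : V} {k : ℕ} (h : u ∈ bl G v k) (hne : u ≠ v) :
    ∃ w, G.Adj u w ∧ w ∈ bl G v k ∧ lev G v w < lev G v u := by
  have h1 := mem_bl_lev h
  have h0 : lev G v u ≠ 0 := by
    intro h0
    rw [h0] at h1
    exact hne (by simpa using h1)
  obtain ⟨l, hl⟩ := Nat.exists_eq_succ_of_ne_zero h0
  rw [hl, Nat.succ_eq_add_one, mem_bl_succ] at h1
  rcases h1 with h1 | ⟨w, hw, hwu⟩
  · exact absurd (lev_le h1) (by omega)
  · refine ⟨w, hwu.symm, ?_, ?_⟩
    · exact bl_mono (by have := lev_le h; omega) hw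
    · have := lev_le hw; omega

/-- a chosen parent -/
def par (G : SimpleGraph V) (v u : V) : V :=
  if h : ∃ w, G.Adj u w ∧ (∀ k, u ∈ bl G v k → w ∈ bl G v k) ∧ lev G v w < lev G v u then h.choose else u

lemma exists_parent' {G : SimpleGraph V} {v u : V} {k : ℕ} (h : u ∈ bl G v k) (hne : u ≠ v) :
    ∃ w, G.Adj u w ∧ (∀ k, u ∈ bl G v k → w ∈ bl G v k) ∧ lev G v w < lev G v u := by
  obtain ⟨w, h1, h2, h3⟩ := exists_parent (mem_bl_lev h) hne
  exact ⟨w, h1, fun m hm => bl_mono (lev_le hm) h2, h3⟩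

lemma par_spec {G : SimpleGraph V} {v u : V} {k : ℕ} (h : u ∈ bl G v k) (hne : u ≠ v) :
    G.Adj u (par G v u) ∧ par G v u ∈ bl G v k ∧ lev G v (par G v u) < lev G v u := by
  have hex := exists_parent' h hne
  have := hex.choose_spec
  unfold par
  rw [dif_pos hex]
  exact ⟨this.1, this.2.1 k h, this.2.2⟩

/-- edges inside `S` -/
def edIn (G : SimpleGraph V) (S : Finset V) : Finset (Sym2 V) :=
  Finset.univ.filter fun e => e ∈ G.edgeSet ∧ ∀ x ∈ e, x ∈ S

/-- number of edges inside `S` -/
def eIn (G : SimpleGraph V) (S : Finset V) : ℕ := (edIn G S).card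

@[simp] lemma mk_mem_edIn {G : SimpleGraph V} {S : Finset V} {a b : V} :
    s(a, b) ∈ edIn G S ↔ G.Adj a b ∧ a ∈ S ∧ b ∈ S := by
  simp [edIn]

/-- no small set of at most `M` vertices spans more than `|S|` edges. -/
def NM (G : SimpleGraph V) (M : ℕ) : Prop := ∀ S : Finset V, S.card ≤ M → eIn G S ≤ S.card

/-- `v` is exceptional at radius `L`: the ball contains a cycle. -/
def EL (G : SimpleGraph V) (L : ℕ) (v : V) : Prop := (bl G v L).card ≤ eIn G (bl G v L)

/-- the main counting lemma: a vertex `y` at level `k` without good child forces two excess edges. -/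
theorem card_le_eIn_of_bad {G : SimpleGraph V} {v y : V} {k d : ℕ} (hd : Reg G d)
    (hy : y ∈ bl G v k) (hlev : lev G v y = k) (hyv : y ≠ v)
    (hbad : ∀ x, G.Adj y x → x ∉ bl G v k → ∃ w ∈ bl G v k, w ≠ y ∧ G.Adj x w) :
    ((bl G v (k+1)).card - 1) + (d - 1) ≤ eIn G (bl G v (k+1)) := by
  set B := bl G v (k+1) with hB
  have hyB : y ∈ B := bl_subset_succ hy
  have hp := par_spec hy hyv
  set p := par G v y with hpdef
  -- choose the second neighbour
  choose! w hw1 hw2 hw3 using hbad
  let f : V ⊕ V → Sym2 V := fun t => match t with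
    | Sum.inl u => s(u, par G v u)
    | Sum.inr z => if z ≠ v ∧ par G v z = y then s(z, w z) else s(y, z)
  let s : Finset (V ⊕ V) := (B.erase v).disjSum ((nb G y).erase p)
  have hs : s.card = (B.card - 1) + (d - 1) := by
    rw [Finset.card_disjSum, Finset.card_erase_of_mem (hB ▸ self_mem_bl),
      Finset.card_erase_of_mem (by simpa using hp.1), hd y]
  rw [← hs]
  -- facts on `inr z`
  have hz1 : ∀ z, G.Adj y z → z ≠ v → par G v z = y → z ∉ bl G v k := by
    intro z hz hzv hpz
    have hzB : z ∈ bl G v (k+1) := adj_mem_bl hy hz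
    have := (par_spec hzB hzv).2.2
    rw [hpz, hlev] at this
    exact not_mem_bl_of_lt this
  apply Finset.card_le_card_of_injOn f
  · intro t ht
    rw [Finset.mem_coe, Finset.mem_disjSum] at ht
    rcases ht with ⟨u, hu, rfl⟩ | ⟨z, hz, rfl⟩
    · rw [Finset.mem_erase] at hu
      have := par_spec hu.2 hu.1
      show s(u, par G v u) ∈ edIn G B
      rw [mk_mem_edIn]
      exact ⟨this.1, hu.2, this.2.1⟩
    · rw [Finset.mem_erase, mem_nb] at hz
      have hzB : z ∈ B := adj_mem_bl hy hz.2
      show (if z ≠ v ∧ par G v z = y then s(z, w z) else s(y, z)) ∈ edIn G B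
      split_ifs with hc
      · have hnot := hz1 z hz.2 hc.1 hc.2
        rw [mk_mem_edIn]
        exact ⟨hw3 z hz.2 hnot, hzB, bl_subset_succ (hw1 z hz.2 hnot)⟩
      · rw [mk_mem_edIn]
        exact ⟨hz.2, hyB, hzB⟩
  · intro t ht t' ht' hf
    rw [Finset.mem_coe, Finset.mem_disjSum] at ht ht'
    -- mixed case as a lemma
    have mixed : ∀ u z, u ∈ B.erase v → z ∈ (nb G y).erase p →
        s(u, par G v u) ≠ (if z ≠ v ∧ par G v z = y then s(z, w z) else s(y, z)) := by
      intro u z hu hz heq
      rw [Finset.mem_erase] at hu hz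
      have hup := par_spec hu.2 hu.1
      have hyz : G.Adj y z := by simpa using hz.2
      have hzB : z ∈ B := adj_mem_bl hy hyz
      split_ifs at heq with hc
      · have hnot := hz1 z hyz hc.1 hc.2
        have hwz := hw1 z hyz hnot
        rw [Sym2.eq_iff] at heq
        rcases heq with ⟨h1, h2⟩ | ⟨h1, h2⟩
        · subst h1
          rw [hc.2] at h2
          exact hw2 u hyz hnot h2.symm
        · rw [h2] at hup
          rw [h1] at hup
          have h3 := hup.2.2
          have h4 := lev_le hwz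
          have h5 : k < lev G v z := by
            by_contra hle
            exact hnot ((mem_bl_iff_lev hzB).2 (not_lt.1 hle))
          omega
      · rw [Sym2.eq_iff] at heq
        rcases heq with ⟨h1, h2⟩ | ⟨h1, h2⟩
        · subst h1
          exact hz.1 h2.symm
        · subst h1
          exact hc ⟨hu.1, h2⟩
    rcases ht with ⟨u, hu, rfl⟩ | ⟨z, hz, rfl⟩ <;> rcases ht' with ⟨u', hu', rfl⟩ | ⟨z', hz', rfl⟩
    · have heq : s(u, par G v u) = s(u', par G v u') := hf
      rw [Finset.mem_erase] at hu hu'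
      have h1 := par_spec hu.2 hu.1
      have h2 := par_spec hu'.2 hu'.1
      rw [Sym2.eq_iff] at heq
      rcases heq with ⟨h3, _⟩ | ⟨h3, h4⟩
      · rw [h3]
      · rw [h4] at h1
        rw [← h3] at h2
        have := h1.2.2
        have := h2.2.2
        omega
    · exact absurd hf (mixed u z' hu hz')
    · exact absurd hf.symm (mixed u' z hu' hz)
    · have heq : (if z ≠ v ∧ par G v z = y then s(z, w z) else s(y, z)) =
          (if z' ≠ v ∧ par G v z' = y then s(z', w z') else s(y, z')) := hf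
      rw [Finset.mem_erase, mem_nb] at hz hz'
      split_ifs at heq with hc hc' hc'
      · have hnot := hz1 z hz.2 hc.1 hc.2
        have hnot' := hz1 z' hz'.2 hc'.1 hc'.2
        rw [Sym2.eq_iff] at heq
        rcases heq with ⟨h3, _⟩ | ⟨h3, h4⟩
        · rw [h3]
        · exact absurd (h3 ▸ hw1 z' hz'.2 hnot') hnot
      · have hnot := hz1 z hz.2 hc.1 hc.2
        rw [Sym2.eq_iff] at heq
        rcases heq with ⟨h3, _⟩ | ⟨h3, h4⟩
        · exact absurd (h3 ▸ hy) hnot
        · exact absurd h4 (hw2 z hz.2 hnot)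
      · have hnot' := hz1 z' hz'.2 hc'.1 hc'.2
        rw [Sym2.eq_iff] at heq
        rcases heq with ⟨h3, _⟩ | ⟨h3, h4⟩
        · exact absurd (h3 ▸ hy) hnot'
        · exact absurd h3.symm (hw2 z' hz'.2 hnot')
      · rw [Sym2.eq_iff] at heq
        rcases heq with ⟨_, h4⟩ | ⟨h3, h4⟩
        · rw [h4]
        · rw [← h3, ← h4] 

/-- every vertex at level `k` has a good child -/
theorem exists_good_child {G : SimpleGraph V} {v y : V} {k d M : ℕ} (hd : Reg G d) (hd3 : 3 ≤ d)
    (hM : (d+1)^(k+1) ≤ M) (hNM : NM G M)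
    (hy : y ∈ bl G v k) (hlev : lev G v y = k) :
    ∃ x, G.Adj y x ∧ x ∉ bl G v k ∧ ∀ w ∈ bl G v k, G.Adj x w → w = y := by
  by_cases hyv : y = v
  · subst hyv
    rw [lev_self] at hlev
    subst hlev
    have hne : (nb G y).Nonempty := by
      rw [← Finset.card_pos, hd y]; omega
    obtain ⟨x, hx⟩ := hne
    rw [mem_nb] at hx
    refine ⟨x, hx, ?_, ?_⟩
    · simp only [mem_bl_zero]
      exact hx.ne'
    · intro w hw _
      simpa using hw
  · by_contra hcon
    push Not at hcon
    have hbad : ∀ x, G.Adj y x → x ∉ bl G v k → ∃ w ∈ bl G v k, w ≠ y ∧ G.Adj x w := by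
      intro x hx hx'
      obtain ⟨w, hw1, hw2, hw3⟩ := hcon x hx hx'
      exact ⟨w, hw1, hw3, hw2⟩
    have h1 := card_le_eIn_of_bad hd hy hlev hyv hbad
    have h2 := hNM (bl G v (k+1)) ((card_bl_le hd v (k+1)).trans hM)
    have h3 : 0 < (bl G v (k+1)).card := Finset.card_pos.2 ⟨v, self_mem_bl⟩
    omega

/-- two exceptional vertices cannot be at distance `2L+1` or `2L+2`. -/
theorem not_EL_of_annulus {G : SimpleGraph V} {v w : V} {L d M : ℕ} (hd : Reg G d)
    (hM : 2 * (d+1)^L + 1 ≤ M) (hNM : NM G M) (hv : EL G L v)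
    (hw : w ∈ bl G v (2*L+2)) (hw' : w ∉ bl G v (2*L)) : ¬ EL G L w := by
  intro hE
  -- the two balls are disjoint
  have hdisj : Disjoint (bl G v L) (bl G w L) := by
    rw [Finset.disjoint_left]
    intro x hx hx'
    apply hw'
    rw [two_mul, mem_bl_add]
    exact ⟨x, hx, mem_bl_comm.1 hx'⟩
  have hnn : ∀ x, x ∈ bl G v L → x ∉ bl G w L := fun x hx => Finset.disjoint_left.1 hdisj hx
  obtain ⟨x, hx, hxw⟩ := (mem_bl_add (G := G) (v := v) (w := w) (a := L+1) (b := L+1)).1
    (by rwa [show L+1+(L+1) = 2*L+2 by ring])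
  rw [mem_bl_comm] at hxw
  have hc1 := card_bl_le hd v L
  have hc2 := card_bl_le hd w L
  have hdE : Disjoint (edIn G (bl G v L)) (edIn G (bl G w L)) := by
    rw [Finset.disjoint_left]
    intro e
    refine Sym2.ind (fun a b => ?_) e
    intro h1 h2
    rw [mk_mem_edIn] at h1 h2
    exact hnn a h1.2.1 h2.2.1
  -- general principle
  have key1 : ∀ a b, a ∈ bl G v L → b ∈ bl G w L → G.Adj a b → False := by
    intro a b ha hb hab
    have h2 := hNM (bl G v L ∪ bl G w L) (by
      rw [Finset.card_union_of_disjoint hdisj]; omega)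
    rw [Finset.card_union_of_disjoint hdisj] at h2
    have h3 : (insert s(a,b) (edIn G (bl G v L) ∪ edIn G (bl G w L))) ⊆
        edIn G (bl G v L ∪ bl G w L) := by
      intro e
      refine Sym2.ind (fun a' b' => ?_) e
      intro he
      rw [Finset.mem_insert, Finset.mem_union] at he
      rcases he with he | he | he
      · rw [he, mk_mem_edIn]
        exact ⟨hab, Finset.mem_union_left _ ha, Finset.mem_union_right _ hb⟩
      · rw [mk_mem_edIn] at he ⊢
        exact ⟨he.1, Finset.mem_union_left _ he.2.1, Finset.mem_union_left _ he.2.2⟩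
      · rw [mk_mem_edIn] at he ⊢
        exact ⟨he.1, Finset.mem_union_right _ he.2.1, Finset.mem_union_right _ he.2.2⟩
    have h4 := Finset.card_le_card h3
    rw [Finset.card_insert_of_notMem, Finset.card_union_of_disjoint hdE] at h4
    · unfold EL eIn at *
      omega
    · rw [Finset.mem_union]
      rintro (h | h)
      · rw [mk_mem_edIn] at h
        exact hnn b h.2.2 hb
      · rw [mk_mem_edIn] at h
        exact hnn a ha h.2.1
  rw [mem_bl_succ] at hx hxw
  rcases hx with hx | ⟨a, ha, hax⟩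
  · rcases hxw with hxw | ⟨b, hb, hbx⟩
    · exact hnn x hx hxw
    · exact key1 x b hx hb hbx.symm
  · rcases hxw with hxw | ⟨b, hb, hbx⟩
    · exact key1 a x ha hxw hax
    · by_cases hxv : x ∈ bl G v L
      · exact key1 x b hxv hb hbx.symm
      by_cases hxw' : x ∈ bl G w L
      · exact key1 a x ha hxw' hax
      have hxU : x ∉ bl G v L ∪ bl G w L := by
        rw [Finset.mem_union]; tauto
      have h2 := hNM (insert x (bl G v L ∪ bl G w L)) (by
        rw [Finset.card_insert_of_notMem hxU, Finset.card_union_of_disjoint hdisj]; omega)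
      rw [Finset.card_insert_of_notMem hxU, Finset.card_union_of_disjoint hdisj] at h2
      have h3 : (insert s(a,x) (insert s(b,x) (edIn G (bl G v L) ∪ edIn G (bl G w L)))) ⊆
          edIn G (insert x (bl G v L ∪ bl G w L)) := by
        intro e
        refine Sym2.ind (fun a' b' => ?_) e
        intro he
        rw [Finset.mem_insert, Finset.mem_insert, Finset.mem_union] at he
        rcases he with he | he | he | he
        · rw [he, mk_mem_edIn]
          exact ⟨hax, Finset.mem_insert_of_mem (Finset.mem_union_left _ ha),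
            Finset.mem_insert_self _ _⟩
        · rw [he, mk_mem_edIn]
          exact ⟨hbx, Finset.mem_insert_of_mem (Finset.mem_union_right _ hb),
            Finset.mem_insert_self _ _⟩
        · rw [mk_mem_edIn] at he ⊢
          exact ⟨he.1, Finset.mem_insert_of_mem (Finset.mem_union_left _ he.2.1),
            Finset.mem_insert_of_mem (Finset.mem_union_left _ he.2.2)⟩
        · rw [mk_mem_edIn] at he ⊢
          exact ⟨he.1, Finset.mem_insert_of_mem (Finset.mem_union_right _ he.2.1),
            Finset.mem_insert_of_mem (Finset.mem_union_right _ he.2.2)⟩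
      have h4 := Finset.card_le_card h3
      rw [Finset.card_insert_of_notMem, Finset.card_insert_of_notMem,
        Finset.card_union_of_disjoint hdE] at h4
      · unfold EL eIn at *
        omega
      · rw [Finset.mem_union]
        rintro (h | h)
        · rw [mk_mem_edIn] at h
          exact hxv h.2.2
        · rw [mk_mem_edIn] at h
          exact hxw' h.2.2
      · rw [Finset.mem_insert, Finset.mem_union]
        rintro (h | h | h)
        · rw [Sym2.eq_iff] at h
          rcases h with ⟨h, _⟩ | ⟨h, h'⟩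
          · exact hnn a ha (h ▸ hb)
          · exact hxv (h ▸ ha)
        · rw [mk_mem_edIn] at h
          exact hxv h.2.2
        · rw [mk_mem_edIn] at h
          exact hxw' h.2.2

end

end Crest.Agent.R166.Exc501
private theorem rz_83a0baf5af : type_of% @_root_.Crest.Agent.R166.Exc501.bl.eq_def := @_root_.Crest.Agent.R166.Exc501.bl.eq_def -- L19
private theorem rz_23a18edd40 : type_of% @_root_.Crest.Agent.R166.Exc501.bl.eq_1 := @_root_.Crest.Agent.R166.Exc501.bl.eq_1 -- L19
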