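import Mathlib
import Crest.Agent.R166.Res10_598
import Crest.Agent.R166.Mob2_598
import Crest.Agent.R166.Stab_269

-- ▼ part R166/TwoPort_522
section

/-!
# Row 166, section 32: the gain of a two-port (helper522)

A cavity block `B⁰_e = [[a,o],[o,b]]` with positive definite imaginary part is a passive two-port.
For a load `ζ` (`Im ζ > 0`) attached to the second port,
* `cur a o b ζ = o / (1 - b ζ)` is the response at the second port to a unit current at the first,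
* `inp a o b ζ = a + o^2 ζ / (1 - b ζ)` is the input response at the first port,
* `gain = |cur|^2 Im ζ / Im inp ∈ [0,1]` is the fraction of the power that reaches the load.
`sg a o b = sup_ζ sqrt gain` is multiplicative under gluing two blocks along an edge; it is Lipschitz
for the weak-coupling neighbourhoods, `≥ c_κ |o|` on `κ`-good blocks and `≤ C |o|` near the clean block.
-/

set_option autoImplicit false

namespace Crest.Agent.R166.TwoPort522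

open Complex

/-- `[[a,o],[o,b]]` has positive definite imaginary part -/
def Sg (a o b : ℂ) : Prop := 0 < a.im ∧ 0 < b.im ∧ o.im ^ 2 < a.im * b.im

/-- response at the second port -/
noncomputable def cur (o b ζ : ℂ) : ℂ := o / (1 - b * ζ)

/-- input response -/
noncomputable def inp (a o b ζ : ℂ) : ℂ := a + o ^ 2 * ζ / (1 - b * ζ)

/-- power gain -/
noncomputable def gain (a o b ζ : ℂ) : ℝ := ‖cur o b ζ‖ ^ 2 * ζ.im / (inp a o b ζ).im

/-- quadratic form of the imaginary part at the vector `(1, c)` -/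
noncomputable def q1 (a o b c : ℂ) : ℝ := a.im + 2 * o.im * c.re + b.im * ‖c‖ ^ 2

lemma q1_pos {a o b : ℂ} (h : Sg a o b) (c : ℂ) : 0 < q1 a o b c := by
  obtain ⟨ha, hb, ho⟩ := h
  unfold q1
  have h1 : ‖c‖ ^ 2 = c.re ^ 2 + c.im ^ 2 := by
    rw [← Complex.normSq_eq_norm_sq, Complex.normSq_apply]; ring
  rw [h1]
  have h2 : 0 < a.im * (a.im + 2 * o.im * c.re + b.im * (c.re ^ 2 + c.im ^ 2)) ∨ True := Or.inr trivial
  -- multiply by b.im
  have h3 : 0 < b.im * (a.im + 2 * o.im * c.re + b.im * (c.re ^ 2 + c.im ^ 2)) := by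
    have : b.im * (a.im + 2 * o.im * c.re + b.im * (c.re ^ 2 + c.im ^ 2))
        = (a.im * b.im - o.im ^ 2) + (b.im * c.re + o.im) ^ 2 + (b.im * c.im) ^ 2 := by ring
    rw [this]
    nlinarith [sq_nonneg (b.im * c.re + o.im), sq_nonneg (b.im * c.im)]
  exact (mul_pos_iff_of_pos_left hb).mp h3

lemma one_sub_ne {b ζ : ℂ} (hb : 0 < b.im) (hζ : 0 < ζ.im) : 1 - b * ζ ≠ 0 := by
  intro h
  have h1 : b * ζ = 1 := by linear_combination -h
  have hb0 : b ≠ 0 := by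
    rintro rfl; simp at hb
  have h2 : ζ = b⁻¹ := by
    field_simp
    linear_combination h1
  rw [h2, Complex.inv_im] at hζ
  have h3 : 0 < Complex.normSq b := Complex.normSq_pos.mpr hb0
  have h4 : -b.im / Complex.normSq b < 0 := div_neg_of_neg_of_pos (by linarith) h3
  linarith

/-- `|1 - b ζ|^2 ≥ 4 Im b Im ζ` -/
lemma norm_one_sub_sq {b ζ : ℂ} (hb : 0 < b.im) (hζ : 0 < ζ.im) :
    4 * (b.im * ζ.im) ≤ ‖1 - b * ζ‖ ^ 2 := by
  have h1 : ‖1 - b * ζ‖ ^ 2 = (1 - (b.re * ζ.re - b.im * ζ.im)) ^ 2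
      + (b.re * ζ.im + b.im * ζ.re) ^ 2 := by
    rw [← Complex.normSq_eq_norm_sq, Complex.normSq_apply]
    simp only [Complex.sub_re, Complex.one_re, Complex.mul_re, Complex.sub_im, Complex.one_im,
      Complex.mul_im]
    ring
  rw [h1]
  -- (1 - p + q)^2 + (..)^2 - 4 q  with p = re*re, q = im*im
  have h2 : (1 - (b.re * ζ.re - b.im * ζ.im)) ^ 2 + (b.re * ζ.im + b.im * ζ.re) ^ 2
      - 4 * (b.im * ζ.im)
      = (1 - b.re * ζ.re - b.im * ζ.im) ^ 2 + (b.re * ζ.im - b.im * ζ.re) ^ 2 := by ring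
  nlinarith [sq_nonneg (1 - b.re * ζ.re - b.im * ζ.im), sq_nonneg (b.re * ζ.im - b.im * ζ.re)]

lemma norm_one_sub_ge {b ζ : ℂ} (hb : 0 < b.im) (hζ : 0 < ζ.im) :
    2 * (Real.sqrt b.im * Real.sqrt ζ.im) ≤ ‖1 - b * ζ‖ := by
  have h := norm_one_sub_sq hb hζ
  have h1 : (2 * (Real.sqrt b.im * Real.sqrt ζ.im)) ^ 2 ≤ ‖1 - b * ζ‖ ^ 2 := by
    rw [mul_pow, mul_pow, Real.sq_sqrt hb.le, Real.sq_sqrt hζ.le]
    linarith
  exact le_of_sq_le_sq h1 (norm_nonneg _)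

/-- energy balance -/
lemma inp_im {a o b ζ : ℂ} (hb : 0 < b.im) (hζ : 0 < ζ.im) :
    (inp a o b ζ).im = ‖cur o b ζ‖ ^ 2 * ζ.im + q1 a o b (ζ * cur o b ζ) := by
  set y := cur o b ζ with hy
  have hne := one_sub_ne hb hζ
  have ho : o = y * (1 - b * ζ) := by
    rw [hy, cur, div_mul_cancel₀ _ hne]
  have hQ : inp a o b ζ = a + o * (ζ * y) := by
    rw [inp, hy, cur]
    field_simp
  set c := ζ * y with hc
  have ho2 : o = y - b * c := by rw [ho, hc]; ring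
  rw [hQ, q1]
  have e1 : ‖y‖ ^ 2 = y.re ^ 2 + y.im ^ 2 := by
    rw [← Complex.normSq_eq_norm_sq, Complex.normSq_apply]; ring
  have e2 : ‖c‖ ^ 2 = c.re ^ 2 + c.im ^ 2 := by
    rw [← Complex.normSq_eq_norm_sq, Complex.normSq_apply]; ring
  rw [e1, e2]
  have e3 : o.im = y.im - (b.re * c.im + b.im * c.re) := by
    rw [ho2]; simp [Complex.sub_im, Complex.mul_im]
  have e4 : o.re = y.re - (b.re * c.re - b.im * c.im) := by
    rw [ho2]; simp [Complex.sub_re, Complex.mul_re]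
  have e5 : c.re = ζ.re * y.re - ζ.im * y.im := by rw [hc, Complex.mul_re]
  have e6 : c.im = ζ.re * y.im + ζ.im * y.re := by rw [hc, Complex.mul_im]
  rw [Complex.add_im, Complex.mul_im, e4]
  have e7 : (y.re ^ 2 + y.im ^ 2) * ζ.im = y.re * c.im - y.im * c.re := by
    rw [e5, e6]; ring
  rw [e7, e3]
  ring

lemma inp_im_pos {a o b ζ : ℂ} (h : Sg a o b) (hζ : 0 < ζ.im) : 0 < (inp a o b ζ).im := by
  rw [inp_im h.2.1 hζ]
  have := q1_pos h (ζ * cur o b ζ)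
  have : 0 ≤ ‖cur o b ζ‖ ^ 2 * ζ.im := by positivity
  linarith

lemma gain_nonneg {a o b ζ : ℂ} (h : Sg a o b) (hζ : 0 < ζ.im) : 0 ≤ gain a o b ζ := by
  unfold gain
  have := inp_im_pos h hζ
  positivity

lemma gain_le_one {a o b ζ : ℂ} (h : Sg a o b) (hζ : 0 < ζ.im) : gain a o b ζ ≤ 1 := by
  unfold gain
  rw [div_le_one (inp_im_pos h hζ), inp_im h.2.1 hζ]
  linarith [q1_pos h (ζ * cur o b ζ)]

/-! ### gluing -/

/-- gluing `[[a,o],[o,b]]` and `[[a1,o1],[o1,b1]]` by an edge between the ports `b` and `a1`;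
the new ports are `a` and `b1` -/
noncomputable def ga (a o b a1 : ℂ) : ℂ := a + o ^ 2 * a1 / (1 - b * a1)
noncomputable def go (o b a1 o1 : ℂ) : ℂ := -(o * o1 / (1 - b * a1))
noncomputable def gb (b a1 o1 b1 : ℂ) : ℂ := b1 + o1 ^ 2 * b / (1 - a1 * b)

theorem gain_glue {a o b a1 o1 b1 ζ : ℂ} (h : Sg a o b) (h1 : Sg a1 o1 b1) (hζ : 0 < ζ.im)
    (hg : 0 < (gb b a1 o1 b1).im) :
    gain (ga a o b a1) (go o b a1 o1) (gb b a1 o1 b1) ζ
      = gain a o b (inp a1 o1 b1 ζ) * gain a1 o1 b1 ζ := by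
  have hn1 : 1 - b * a1 ≠ 0 := one_sub_ne h.2.1 h1.1
  have hn1' : 1 - a1 * b ≠ 0 := by rw [mul_comm]; exact hn1
  have hn2 : 1 - b1 * ζ ≠ 0 := one_sub_ne h1.2.1 hζ
  have hζ1 : 0 < (inp a1 o1 b1 ζ).im := inp_im_pos h1 hζ
  have hn3 : 1 - b * inp a1 o1 b1 ζ ≠ 0 := one_sub_ne h.2.1 hζ1
  have hn4 : 1 - gb b a1 o1 b1 * ζ ≠ 0 := one_sub_ne hg hζ
  -- key identity
  have key : (1 - b * a1) * (1 - gb b a1 o1 b1 * ζ) = (1 - b * inp a1 o1 b1 ζ) * (1 - b1 * ζ) := by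
    unfold gb inp
    field_simp
    ring
  have hcur : cur (go o b a1 o1) (gb b a1 o1 b1) ζ
      = -(cur o b (inp a1 o1 b1 ζ) * cur o1 b1 ζ) := by
    unfold cur go
    rw [neg_div, div_div, key, div_mul_div_comm]
  have hinp : inp (ga a o b a1) (go o b a1 o1) (gb b a1 o1 b1) ζ
      = inp a o b (inp a1 o1 b1 ζ) := by
    have e1 : inp (ga a o b a1) (go o b a1 o1) (gb b a1 o1 b1) ζ
        = a + o ^ 2 * a1 / (1 - b * a1)
          + (o * o1 / (1 - b * a1)) ^ 2 * ζ / (1 - gb b a1 o1 b1 * ζ) := by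
      unfold inp ga go
      rw [neg_sq]
    have e2 : (1 - gb b a1 o1 b1 * ζ) = (1 - b * inp a1 o1 b1 ζ) * (1 - b1 * ζ) / (1 - b * a1) := by
      rw [← key]; field_simp
    rw [e1, e2]
    have e3 : inp a o b (inp a1 o1 b1 ζ) = a + o ^ 2 * inp a1 o1 b1 ζ / (1 - b * inp a1 o1 b1 ζ) :=
      rfl
    rw [e3]
    have hI : inp a1 o1 b1 ζ * (1 - b1 * ζ) = a1 * (1 - b1 * ζ) + o1 ^ 2 * ζ := by
      unfold inp
      rw [add_mul, div_mul_cancel₀ _ hn2]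
    set I := inp a1 o1 b1 ζ with hIdef
    clear_value I
    clear e1 e2 e3 key hcur hIdef
    set D := 1 - b1 * ζ with hD
    clear_value D
    have hB := hn3
    have hA := hn1
    rw [add_assoc, add_right_inj, div_pow, div_div_eq_mul_div]
    rw [div_add_div _ _ hA (mul_ne_zero hB hn2), div_eq_div_iff
      (mul_ne_zero hA (mul_ne_zero hB hn2)) hB]
    have hA2 : (o * o1) ^ 2 / (1 - b * a1) ^ 2 * ζ * (1 - b * a1) = (o * o1) ^ 2 * ζ / (1 - b * a1) := by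
      field_simp
    rw [hA2]
    have hA3 : (1 - b * a1) * ((o * o1) ^ 2 * ζ / (1 - b * a1)) = (o * o1) ^ 2 * ζ := by
      field_simp
    rw [hA3]
    linear_combination (-(1 - b * I) * o ^ 2) * hI
  unfold gain
  rw [hcur, hinp, norm_neg, norm_mul]
  have hp1 := inp_im_pos h hζ1
  field_simp

end Crest.Agent.R166.TwoPort522
end

-- ▼ part R166/TwoPort2_522
section

/-!
# Row 166, section 32: gain of a two-port, part 2 (helper522)

`tau Z` = supremum of the power gain over all loads; `tau Z ∈ [0,1]`; multiplicative under gluing;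
stable under `Near`; comparison with the off-diagonal entry.
-/

set_option autoImplicit false

namespace Crest.Agent.R166.TwoPort522

open Complex Matrix Crest.Agent.R166.Res598

/-- the maximal power gain -/
noncomputable def tau (a o b : ℂ) : ℝ := ⨆ ζ : {ζ : ℂ // 0 < ζ.im}, gain a o b ζ

instance : Nonempty {ζ : ℂ // 0 < ζ.im} := ⟨⟨Complex.I, by simp⟩⟩

lemma bdd_gain {a o b : ℂ} (h : Sg a o b) :
    BddAbove (Set.range fun ζ : {ζ : ℂ // 0 < ζ.im} => gain a o b ζ) :=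
  ⟨1, by rintro _ ⟨ζ, rfl⟩; exact gain_le_one h ζ.2⟩

lemma gain_le_tau {a o b ζ : ℂ} (h : Sg a o b) (hζ : 0 < ζ.im) : gain a o b ζ ≤ tau a o b :=
  le_ciSup (bdd_gain h) (⟨ζ, hζ⟩ : {ζ : ℂ // 0 < ζ.im})

lemma tau_le {a o b : ℂ} {c : ℝ} (h : ∀ ζ : ℂ, 0 < ζ.im → gain a o b ζ ≤ c) : tau a o b ≤ c :=
  ciSup_le fun ζ => h ζ ζ.2

lemma tau_nonneg {a o b : ℂ} (h : Sg a o b) : 0 ≤ tau a o b :=
  le_trans (gain_nonneg h (ζ := Complex.I) (by simp)) (gain_le_tau h (by simp))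

lemma tau_le_one {a o b : ℂ} (h : Sg a o b) : tau a o b ≤ 1 :=
  tau_le fun _ hζ => gain_le_one h hζ

/-- multiplicativity under gluing -/
theorem tau_glue {a o b a1 o1 b1 : ℂ} (h : Sg a o b) (h1 : Sg a1 o1 b1)
    (hg : 0 < (gb b a1 o1 b1).im) :
    tau (ga a o b a1) (go o b a1 o1) (gb b a1 o1 b1) ≤ tau a o b * tau a1 o1 b1 := by
  apply tau_le
  intro ζ hζ
  rw [gain_glue h h1 hζ hg]
  exact mul_le_mul (gain_le_tau h (inp_im_pos h1 hζ)) (gain_le_tau h1 hζ) (gain_nonneg h1 hζ)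
    (tau_nonneg h)

/-- upper bound -/
theorem tau_le_off {a o b : ℂ} (h : Sg a o b) :
    tau a o b ≤ ‖o‖ ^ 2 / (4 * (a.im * b.im - o.im ^ 2)) := by
  apply tau_le
  intro ζ hζ
  have hb := h.2.1
  have hD : 0 < a.im * b.im - o.im ^ 2 := by linarith [h.2.2]
  have hI := inp_im_pos h hζ
  unfold gain
  rw [div_le_div_iff₀ hI (by positivity)]
  -- Im inp ≥ (a.im b.im - o.im^2)/b.im
  have h1 : (a.im * b.im - o.im ^ 2) ≤ b.im * (inp a o b ζ).im := by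
    rw [inp_im hb hζ]
    set c := ζ * cur o b ζ
    have h2 : ‖c‖ ^ 2 = c.re ^ 2 + c.im ^ 2 := by
      rw [← Complex.normSq_eq_norm_sq, Complex.normSq_apply]; ring
    have h3 : b.im * q1 a o b c = (a.im * b.im - o.im ^ 2) + (b.im * c.re + o.im) ^ 2
        + (b.im * c.im) ^ 2 := by
      unfold q1; rw [h2]; ring
    have h4 : 0 ≤ b.im * (‖cur o b ζ‖ ^ 2 * ζ.im) := by positivity
    nlinarith [sq_nonneg (b.im * c.re + o.im), sq_nonneg (b.im * c.im)]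
  have hne : 0 < ‖1 - b * ζ‖ ^ 2 := by
    have := norm_pos_iff.mpr (one_sub_ne hb hζ)
    positivity
  have h5 : ‖cur o b ζ‖ ^ 2 * ‖1 - b * ζ‖ ^ 2 = ‖o‖ ^ 2 := by
    rw [← mul_pow, ← norm_mul, cur, div_mul_cancel₀ _ (one_sub_ne hb hζ)]
  have h6 := norm_one_sub_sq hb hζ
  -- ‖cur‖² ζ.im * 4 D ≤ ‖cur‖² ζ.im * 4 b.im Im inp ≤ ‖cur‖² ‖1-bζ‖² Im inp = ‖o‖² Im inp
  calc ‖cur o b ζ‖ ^ 2 * ζ.im * (4 * (a.im * b.im - o.im ^ 2))
      ≤ ‖cur o b ζ‖ ^ 2 * ζ.im * (4 * (b.im * (inp a o b ζ).im)) := by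
        apply mul_le_mul_of_nonneg_left _ (by positivity)
        linarith
    _ = ‖cur o b ζ‖ ^ 2 * (4 * (b.im * ζ.im)) * (inp a o b ζ).im := by ring
    _ ≤ ‖cur o b ζ‖ ^ 2 * ‖1 - b * ζ‖ ^ 2 * (inp a o b ζ).im := by
        apply mul_le_mul_of_nonneg_right _ hI.le
        exact mul_le_mul_of_nonneg_left h6 (by positivity)
    _ = ‖o‖ ^ 2 * (inp a o b ζ).im := by rw [h5]

/-- lower bound -/
theorem off_le_tau {a o b : ℂ} (h : Sg a o b) {M : ℝ} (hM : 1 ≤ M) (ha : ‖a‖ ≤ M) (hb : ‖b‖ ≤ M)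
    (ho : ‖o‖ ≤ M) : ‖o‖ ^ 2 ≤ 8 * M ^ 4 * tau a o b := by
  have hI : (0 : ℝ) < Complex.I.im := by simp
  have h1 := gain_le_tau h hI
  have h2 : gain a o b Complex.I = ‖cur o b Complex.I‖ ^ 2 / (inp a o b Complex.I).im := by
    unfold gain; simp
  have hpos := inp_im_pos h hI
  have hne := one_sub_ne h.2.1 hI
  have h3 : ‖1 - b * Complex.I‖ ≤ 1 + M := by
    calc ‖1 - b * Complex.I‖ ≤ ‖(1 : ℂ)‖ + ‖b * Complex.I‖ := norm_sub_le _ _
      _ ≤ 1 + M := by simp; exact hb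
  have h4 : 1 ≤ ‖1 - b * Complex.I‖ := by
    have : (1 - b * Complex.I).re = 1 + b.im := by simp
    have h5 := Complex.abs_re_le_norm (1 - b * Complex.I)
    rw [this] at h5
    have h6 := h.2.1
    have h7 := le_abs_self (1 + b.im)
    linarith
  have h5 : (inp a o b Complex.I).im ≤ M + M ^ 2 := by
    calc (inp a o b Complex.I).im ≤ ‖inp a o b Complex.I‖ :=
          le_trans (le_abs_self _) (Complex.abs_im_le_norm _)
      _ ≤ ‖a‖ + ‖o ^ 2 * Complex.I / (1 - b * Complex.I)‖ := norm_add_le _ _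
      _ ≤ M + M ^ 2 := by
        rw [norm_div, norm_mul, norm_pow, Complex.norm_I, mul_one]
        have : ‖o‖ ^ 2 / ‖1 - b * Complex.I‖ ≤ ‖o‖ ^ 2 := div_le_self (by positivity) h4
        have : ‖o‖ ^ 2 ≤ M ^ 2 := pow_le_pow_left₀ (norm_nonneg _) ho 2
        linarith
  have h6 : ‖cur o b Complex.I‖ ^ 2 * ‖1 - b * Complex.I‖ ^ 2 = ‖o‖ ^ 2 := by
    rw [← mul_pow, ← norm_mul, cur, div_mul_cancel₀ _ hne]
  have h7 : ‖cur o b Complex.I‖ ^ 2 ≤ tau a o b * (M + M ^ 2) := by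
    rw [h2, div_le_iff₀ hpos] at h1
    refine le_trans h1 (mul_le_mul_of_nonneg_left h5 (tau_nonneg h))
  have ht := tau_nonneg h
  calc ‖o‖ ^ 2 = ‖cur o b Complex.I‖ ^ 2 * ‖1 - b * Complex.I‖ ^ 2 := h6.symm
    _ ≤ (tau a o b * (M + M ^ 2)) * (1 + M) ^ 2 :=
        mul_le_mul h7 (pow_le_pow_left₀ (norm_nonneg _) h3 2) (by positivity) (by positivity)
    _ ≤ tau a o b * (8 * M ^ 4) := by
        rw [mul_assoc]
        apply mul_le_mul_of_nonneg_left _ ht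
        have hM2 : M ≤ M ^ 2 := by nlinarith
        have hM3 : M + M ^ 2 ≤ 2 * M ^ 2 := by linarith
        have hM4 : (1 + M) ^ 2 ≤ 4 * M ^ 2 := by nlinarith
        calc (M + M ^ 2) * (1 + M) ^ 2 ≤ (2 * M ^ 2) * (4 * M ^ 2) :=
              mul_le_mul hM3 hM4 (by positivity) (by positivity)
          _ = 8 * M ^ 4 := by ring
    _ = 8 * M ^ 4 * tau a o b := by ring

/-! ### stability under `Near` -/

lemma sg_of_siegel {Z : Matrix (Fin 2) (Fin 2) ℂ} (hZ : Siegel Z) : Sg (Z 0 0) (Z 0 1) (Z 1 1) := by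
  have hs : Z 1 0 = Z 0 1 := by
    have := congrFun (congrFun hZ.symm 0) 1
    simpa [Matrix.transpose_apply] using this
  have hdiag : ∀ i, 0 < (imM Z) i i := fun i => hZ.pos.diag_pos
  have hdet := hZ.pos.det_pos
  rw [Matrix.det_fin_two] at hdet
  simp only [imM_apply, hs] at hdet hdiag
  refine ⟨hdiag 0, hdiag 1, ?_⟩
  nlinarith

lemma qf_two (Z : Matrix (Fin 2) (Fin 2) ℂ) (hs : Z 1 0 = Z 0 1) (c : ℂ) :
    qf (imM Z) ![1, c] = q1 (Z 0 0) (Z 0 1) (Z 1 1) c := by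
  have h2 : ‖c‖ ^ 2 = c.re ^ 2 + c.im ^ 2 := by
    rw [← Complex.normSq_eq_norm_sq, Complex.normSq_apply]; ring
  unfold qf q1 vre vim
  rw [h2]
  simp [Matrix.mulVec, dotProduct, Fin.sum_univ_two, hs]
  ring

lemma qf_two' (Z : Matrix (Fin 2) (Fin 2) ℂ) :
    qf (imM Z) ![0, 1] = (Z 1 1).im := by
  unfold qf vre vim
  simp [Matrix.mulVec, dotProduct, Fin.sum_univ_two]

/-- the maximal power gain of a `2 × 2` block (from port `0` to port `1`) -/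
noncomputable def tauM (Z : Matrix (Fin 2) (Fin 2) ℂ) : ℝ := tau (Z 0 0) (Z 0 1) (Z 1 1)

theorem Near.gain_le {ε : ℝ} (hε0 : 0 ≤ ε) (hε : ε ≤ 1 / 2) {Z Z' : Matrix (Fin 2) (Fin 2) ℂ}
    (hZ : Siegel Z) (h : Near ε Z Z') {ζ : ℂ} (hζ : 0 < ζ.im) :
    gain (Z' 0 0) (Z' 0 1) (Z' 1 1) ζ ≤ gain (Z 0 0) (Z 0 1) (Z 1 1) ζ + 12 * ε := by
  have hZ' : Siegel Z' := h.siegel (by linarith) hZ
  have hs : Z 1 0 = Z 0 1 := by
    have := congrFun (congrFun hZ.symm 0) 1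
    simpa [Matrix.transpose_apply] using this
  have hs' : Z' 1 0 = Z' 0 1 := by
    have := congrFun (congrFun hZ'.symm 0) 1
    simpa [Matrix.transpose_apply] using this
  have hg := sg_of_siegel hZ
  have hg' := sg_of_siegel hZ'
  set a := Z 0 0 with ha
  set o := Z 0 1 with ho
  set b := Z 1 1 with hb
  set a' := Z' 0 0 with ha'
  set o' := Z' 0 1 with ho'
  set b' := Z' 1 1 with hb'
  set y := cur o b ζ with hy
  set y' := cur o' b' ζ with hy'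
  have hne : 1 - b * ζ ≠ 0 := one_sub_ne hg.2.1 hζ
  have hne' : 1 - b' * ζ ≠ 0 := one_sub_ne hg'.2.1 hζ
  have hoy : o = y - b * (ζ * y) := by
    have : y * (1 - b * ζ) = o := by rw [hy, cur, div_mul_cancel₀ _ hne]
    rw [← this]; ring
  have hoy' : o' = y' - b' * (ζ * y') := by
    have : y' * (1 - b' * ζ) = o' := by rw [hy', cur, div_mul_cancel₀ _ hne']
    rw [← this]; ring
  have hQ : inp a o b ζ = a + o * (ζ * y) := by
    rw [inp, hy, cur]; field_simp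
  have hQ' : inp a' o' b' ζ = a' + o' * (ζ * y') := by
    rw [inp, hy', cur]; field_simp
  set Q := inp a o b ζ with hQd
  set Q' := inp a' o' b' ζ with hQd'
  set x : Fin 2 → ℂ := ![1, ζ * y] with hx
  set x' : Fin 2 → ℂ := ![1, ζ * y'] with hx'
  have hQpos : 0 < Q.im := inp_im_pos hg hζ
  have hQpos' : 0 < Q'.im := inp_im_pos hg' hζ
  have hqx : qf (imM Z) x ≤ Q.im := by
    rw [hx, qf_two Z hs, hQd, inp_im hg.2.1 hζ]
    have : 0 ≤ ‖cur o b ζ‖ ^ 2 * ζ.im := by positivity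
    linarith
  have hqx' : qf (imM Z') x' ≤ Q'.im := by
    rw [hx', qf_two Z' hs', hQd', inp_im hg'.2.1 hζ]
    have : 0 ≤ ‖cur o' b' ζ‖ ^ 2 * ζ.im := by positivity
    linarith
  have hqx2 : qf (imM Z) x' ≤ 2 * Q'.im := by
    have h1 := h.qf_ge hZ x'
    have h2 := qf_nonneg hZ.pos.posSemidef x'
    nlinarith
  -- norms
  have hnx : nq (imM Z) x ≤ Real.sqrt Q.im := Real.sqrt_le_sqrt hqx
  have hnx' : nq (imM Z) x' ≤ Real.sqrt 2 * Real.sqrt Q'.im := by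
    rw [← Real.sqrt_mul (by norm_num)]; exact Real.sqrt_le_sqrt hqx2
  have hnt : nq (imM Z) ![0, 1] = Real.sqrt b.im := by rw [nq, qf_two']
  -- (1)
  have e1 : (![0, 1] : Fin 2 → ℂ) ⬝ᵥ ((Z' - Z) *ᵥ x') = (y' - y) * (1 - b * ζ) := by
    have : (![0, 1] : Fin 2 → ℂ) ⬝ᵥ ((Z' - Z) *ᵥ x') = (Z' 1 0 - Z 1 0) + (Z' 1 1 - Z 1 1) * (ζ * y') := by
      simp [hx', Matrix.mulVec, dotProduct, Fin.sum_univ_two]
    rw [this, hs, hs']
    change (o' - o) + (b' - b) * (ζ * y') = (y' - y) * (1 - b * ζ)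
    linear_combination hoy' - hoy
  have h1 := h.2 ![0, 1] x'
  rw [e1, norm_mul, hnt] at h1
  have hw := norm_one_sub_ge hg.2.1 hζ
  have hsb : 0 < Real.sqrt b.im := Real.sqrt_pos.mpr hg.2.1
  have hsz : 0 < Real.sqrt ζ.im := Real.sqrt_pos.mpr hζ
  have hsQ : 0 < Real.sqrt Q.im := Real.sqrt_pos.mpr hQpos
  have hsQ' : 0 < Real.sqrt Q'.im := Real.sqrt_pos.mpr hQpos'
  have hs2 : Real.sqrt 2 ≤ 2 := by
    rw [Real.sqrt_le_left (by norm_num)]; norm_num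
  -- |y'-y| √Imζ ≤ ε √Im Q'
  have h2 : ‖y' - y‖ * Real.sqrt ζ.im ≤ ε * Real.sqrt Q'.im := by
    have h3 : ‖y' - y‖ * (2 * (Real.sqrt b.im * Real.sqrt ζ.im))
        ≤ ε * Real.sqrt b.im * (Real.sqrt 2 * Real.sqrt Q'.im) := by
      refine le_trans (mul_le_mul_of_nonneg_left hw (norm_nonneg _)) (le_trans h1 ?_)
      exact mul_le_mul_of_nonneg_left hnx' (by positivity)
    have h4 : Real.sqrt b.im * (2 * (‖y' - y‖ * Real.sqrt ζ.im))
        ≤ Real.sqrt b.im * (2 * (ε * Real.sqrt Q'.im)) := by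
      calc Real.sqrt b.im * (2 * (‖y' - y‖ * Real.sqrt ζ.im))
          = ‖y' - y‖ * (2 * (Real.sqrt b.im * Real.sqrt ζ.im)) := by ring
        _ ≤ ε * Real.sqrt b.im * (Real.sqrt 2 * Real.sqrt Q'.im) := h3
        _ ≤ ε * Real.sqrt b.im * (2 * Real.sqrt Q'.im) := by
            apply mul_le_mul_of_nonneg_left _ (by positivity)
            exact mul_le_mul_of_nonneg_right hs2 hsQ'.le
        _ = _ := by ring
    have h5 := le_of_mul_le_mul_left h4 hsb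
    linarith
  -- (4)
  have e4 : x ⬝ᵥ ((Z' - Z) *ᵥ x') = Q' - Q := by
    have : x ⬝ᵥ ((Z' - Z) *ᵥ x') = (Z' 0 0 - Z 0 0) + (Z' 0 1 - Z 0 1) * (ζ * y')
        + (ζ * y) * ((Z' 1 0 - Z 1 0) + (Z' 1 1 - Z 1 1) * (ζ * y')) := by
      simp [hx, hx', Matrix.mulVec, dotProduct, Fin.sum_univ_two]
    rw [this, hs, hs', hQ, hQ']
    change (a' - a) + (o' - o) * (ζ * y') + (ζ * y) * ((o' - o) + (b' - b) * (ζ * y'))
      = a' + o' * (ζ * y') - (a + o * (ζ * y))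
    linear_combination (ζ * y) * hoy' - (ζ * y') * hoy
  have h4 := h.2 x x'
  rw [e4] at h4
  have h5 : ‖Q' - Q‖ ≤ ε * Real.sqrt Q.im * (Real.sqrt 2 * Real.sqrt Q'.im) := by
    refine le_trans h4 ?_
    have := mul_le_mul_of_nonneg_left hnx hε0
    exact mul_le_mul this hnx' (nq_nonneg _ _) (by positivity)
  have h6 : Q.im ≤ Q'.im + 2 * ε * (Real.sqrt Q.im * Real.sqrt Q'.im) := by
    have h7 : Q.im - Q'.im ≤ ‖Q' - Q‖ := by
      have := Complex.abs_im_le_norm (Q' - Q)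
      rw [Complex.sub_im] at this
      have := neg_abs_le (Q'.im - Q.im)
      linarith
    have h8 : ε * Real.sqrt Q.im * (Real.sqrt 2 * Real.sqrt Q'.im)
        ≤ 2 * ε * (Real.sqrt Q.im * Real.sqrt Q'.im) := by
      have : ε * Real.sqrt Q.im * (Real.sqrt 2 * Real.sqrt Q'.im)
          = Real.sqrt 2 * (ε * (Real.sqrt Q.im * Real.sqrt Q'.im)) := by ring
      rw [this]
      have := mul_le_mul_of_nonneg_right hs2
        (mul_nonneg hε0 (mul_nonneg hsQ.le hsQ'.le))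
      linarith
    linarith
  -- r ≤ 1 + 2ε : √Q ≤ (1+2ε) √Q'
  have h9 : Real.sqrt Q.im ≤ (1 + 2 * ε) * Real.sqrt Q'.im := by
    have hq : Real.sqrt Q.im ^ 2 = Q.im := Real.sq_sqrt hQpos.le
    have hq' : Real.sqrt Q'.im ^ 2 = Q'.im := Real.sq_sqrt hQpos'.le
    generalize hu : Real.sqrt Q.im = u at hq h6 hsQ
    generalize hv : Real.sqrt Q'.im = v at hq' h6 hsQ'
    rw [← hq, ← hq'] at h6
    by_contra hcon
    push Not at hcon
    have hx1 : 0 < u - (1 + 2 * ε) * v := by linarith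
    have hx2 : 0 ≤ ε * v := mul_nonneg hε0 hsQ'.le
    have hx3 : v < u := by linarith
    -- u² - v² - 2 ε u v = (u - (1+2ε) v) u + v (u - v) > 0
    nlinarith [mul_pos hx1 hsQ, mul_pos hsQ' (sub_pos.mpr hx3)]
  -- conclude
  have hG : gain a o b ζ = (‖y‖ * Real.sqrt ζ.im / Real.sqrt Q.im) ^ 2 := by
    unfold gain
    rw [div_pow, mul_pow, Real.sq_sqrt hζ.le, Real.sq_sqrt hQpos.le]
  have hG' : gain a' o' b' ζ = (‖y'‖ * Real.sqrt ζ.im / Real.sqrt Q'.im) ^ 2 := by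
    unfold gain
    rw [div_pow, mul_pow, Real.sq_sqrt hζ.le, Real.sq_sqrt hQpos'.le]
  set g := ‖y‖ * Real.sqrt ζ.im / Real.sqrt Q.im with hgd
  set g' := ‖y'‖ * Real.sqrt ζ.im / Real.sqrt Q'.im with hgd'
  have hg0 : 0 ≤ g := by positivity
  have hg0' : 0 ≤ g' := by positivity
  have hg1 : g ≤ 1 := by
    have := gain_le_one hg hζ
    rw [hG] at this
    nlinarith
  have h10 : g' ≤ g + 3 * ε := by
    rw [hgd', div_le_iff₀ hsQ']
    have h11 : ‖y'‖ * Real.sqrt ζ.im ≤ ‖y‖ * Real.sqrt ζ.im + ε * Real.sqrt Q'.im := by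
      have h12 : ‖y'‖ ≤ ‖y‖ + ‖y' - y‖ := by
        have := norm_add_le y (y' - y)
        rwa [add_sub_cancel] at this
      have := mul_le_mul_of_nonneg_right h12 hsz.le
      linarith
    have h13 : ‖y‖ * Real.sqrt ζ.im = g * Real.sqrt Q.im := by
      rw [hgd, div_mul_cancel₀ _ hsQ.ne']
    rw [h13] at h11
    have h14 : g * Real.sqrt Q.im ≤ g * ((1 + 2 * ε) * Real.sqrt Q'.im) :=
      mul_le_mul_of_nonneg_left h9 hg0
    have h15 : g * (2 * ε * Real.sqrt Q'.im) ≤ 1 * (2 * ε * Real.sqrt Q'.im) :=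
      mul_le_mul_of_nonneg_right hg1 (by positivity)
    nlinarith
  rw [hG, hG']
  nlinarith

theorem Near.tauM_le {ε : ℝ} (hε0 : 0 ≤ ε) (hε : ε ≤ 1 / 2) {Z Z' : Matrix (Fin 2) (Fin 2) ℂ}
    (hZ : Siegel Z) (h : Near ε Z Z') : tauM Z' ≤ tauM Z + 12 * ε := by
  apply tau_le
  intro ζ hζ
  refine le_trans (Near.gain_le hε0 hε hZ h hζ) ?_
  have := gain_le_tau (sg_of_siegel hZ) hζ
  unfold tauM
  linarith

lemma tauM_nonneg {Z : Matrix (Fin 2) (Fin 2) ℂ} (hZ : Siegel Z) : 0 ≤ tauM Z :=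
  tau_nonneg (sg_of_siegel hZ)

lemma tauM_le_one {Z : Matrix (Fin 2) (Fin 2) ℂ} (hZ : Siegel Z) : tauM Z ≤ 1 :=
  tau_le_one (sg_of_siegel hZ)

/-- `Near` is symmetric up to the constant -/
theorem near_symm {ι : Type*} [Fintype ι] [DecidableEq ι] {ε : ℝ} (hε0 : 0 ≤ ε) (hε : ε < 1)
    {Z Z' : Matrix ι ι ℂ} (hZ : Siegel Z) (h : Near ε Z Z') : Near (ε / (1 - ε)) Z' Z := by
  refine ⟨hZ.symm, fun x y => ?_⟩
  have h1 := h.2 x y
  have e : Z - Z' = -(Z' - Z) := by abel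
  rw [e, Matrix.neg_mulVec, dotProduct_neg, norm_neg]
  have hZ' := h.siegel hε hZ
  have h1ε : 0 < 1 - ε := by linarith
  have key : ∀ v : ι → ℂ, nq (imM Z) v ≤ nq (imM Z') v / Real.sqrt (1 - ε) := by
    intro v
    rw [nq, nq, ← Real.sqrt_div' _ h1ε.le]
    apply Real.sqrt_le_sqrt
    rw [le_div_iff₀ h1ε]
    have := h.qf_ge hZ v
    linarith
  have hs : 0 < Real.sqrt (1 - ε) := Real.sqrt_pos.mpr h1ε
  calc ‖x ⬝ᵥ ((Z' - Z) *ᵥ y)‖ ≤ ε * nq (imM Z) x * nq (imM Z) y := h1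
    _ ≤ ε * (nq (imM Z') x / Real.sqrt (1 - ε)) * (nq (imM Z') y / Real.sqrt (1 - ε)) := by
        apply mul_le_mul (mul_le_mul_of_nonneg_left (key x) hε0) (key y) (nq_nonneg _ _)
        exact mul_nonneg hε0 (div_nonneg (nq_nonneg _ _) hs.le)
    _ = ε / (1 - ε) * nq (imM Z') x * nq (imM Z') y := by
        have : Real.sqrt (1 - ε) ^ 2 = 1 - ε := Real.sq_sqrt h1ε.le
        field_simp
        rw [this]

end Crest.Agent.R166.TwoPort522
end

-- ▼ part R166/OffDet_522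

/-!
# Row 166, section 32: gluing two cavity blocks along an edge (helper522)

* `fine κ B`: `κ |x|² ≤ x^* (Im B) x` and entries `≤ 1/κ`.
* `near_of_cross`: a Siegel matrix with `κ`-fine diagonal blocks and small cross entries is near the
  block diagonal matrix.
* `glue_block`: the corner of `mob` of the gluing edge is the explicit glued block.
* `tau_switch`: the single switching step for `tauM`.
-/

set_option autoImplicit false
set_option linter.unusedSectionVars false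

open Matrix

namespace Crest.Agent.R166.Off522

open Crest.Agent.R166.Res598 Crest.Agent.R166.Dec598 Crest.Agent.R166.TwoPort522

variable {ι κ : Type*} [Fintype ι] [DecidableEq ι] [Fintype κ] [DecidableEq κ]

/-- lower bound of the imaginary part -/
def ImGe (c : ℝ) (Z : Matrix ι ι ℂ) : Prop := ∀ x : ι → ℂ, c * ∑ i, ‖x i‖ ^ 2 ≤ qf (imM Z) x

/-- a `c`-fine matrix -/
structure Fine (c : ℝ) (Z : Matrix ι ι ℂ) : Prop where
  symm : Zᵀ = Z
  pos : 0 < c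
  im : ImGe c Z
  le : ∀ i j, ‖Z i j‖ ≤ c⁻¹

lemma Fine.siegel {c : ℝ} {Z : Matrix ι ι ℂ} (h : Fine c Z) : Siegel Z := by
  refine ⟨h.symm, posDef_of_qf (imM_symm h.symm) fun x hx => ?_⟩
  refine lt_of_lt_of_le (mul_pos h.pos ?_) (h.im x)
  obtain ⟨i, hi⟩ := Function.ne_iff.mp hx
  have : 0 < ‖x i‖ ^ 2 := by
    have := norm_pos_iff.mpr hi
    positivity
  exact lt_of_lt_of_le this (Finset.single_le_sum (f := fun i => ‖x i‖ ^ 2)
    (fun _ _ => by positivity) (Finset.mem_univ i))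

/-- `sqrt` of the sum of squares -/
noncomputable def l2 (x : ι → ℂ) : ℝ := Real.sqrt (∑ i, ‖x i‖ ^ 2)

lemma l2_nonneg (x : ι → ℂ) : 0 ≤ l2 x := Real.sqrt_nonneg _

lemma l2_sq (x : ι → ℂ) : l2 x ^ 2 = ∑ i, ‖x i‖ ^ 2 := Real.sq_sqrt (by positivity)

lemma norm_le_l2 (x : ι → ℂ) (i : ι) : ‖x i‖ ≤ l2 x := by
  apply Real.le_sqrt_of_sq_le
  exact Finset.single_le_sum (f := fun i => ‖x i‖ ^ 2) (fun _ _ => by positivity)
    (Finset.mem_univ i)

lemma sum_norm_le (x : ι → ℂ) : ∑ i, ‖x i‖ ≤ Real.sqrt (Fintype.card ι) * l2 x := by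
  have h := Real.sum_mul_le_sqrt_mul_sqrt Finset.univ (fun _ : ι => (1 : ℝ)) (fun i => ‖x i‖)
  simpa [l2] using h

lemma ImGe.l2_le {c : ℝ} (hc : 0 < c) {Z : Matrix ι ι ℂ} (h : ImGe c Z) (x : ι → ℂ) :
    Real.sqrt c * l2 x ≤ nq (imM Z) x := by
  unfold nq l2
  rw [← Real.sqrt_mul hc.le]
  exact Real.sqrt_le_sqrt (h x)

lemma norm_form_le {δ : ℝ} (hδ : 0 ≤ δ) {Z : Matrix ι κ ℂ} (h : ∀ i j, ‖Z i j‖ ≤ δ)
    (x : ι → ℂ) (y : κ → ℂ) :
    ‖x ⬝ᵥ (Z *ᵥ y)‖ ≤ δ * (Real.sqrt (Fintype.card ι) * Real.sqrt (Fintype.card κ)) * (l2 x * l2 y) := by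
  have e : ‖x ⬝ᵥ (Z *ᵥ y)‖ ≤ ∑ i, ∑ j, ‖x i‖ * (δ * ‖y j‖) := by
    unfold dotProduct Matrix.mulVec dotProduct
    refine (norm_sum_le _ _).trans (Finset.sum_le_sum fun i _ => ?_)
    rw [norm_mul, ← Finset.mul_sum]
    refine mul_le_mul_of_nonneg_left ?_ (norm_nonneg _)
    refine (norm_sum_le _ _).trans (Finset.sum_le_sum fun j _ => ?_)
    rw [norm_mul]
    exact mul_le_mul_of_nonneg_right (h i j) (norm_nonneg _)
  refine e.trans ?_
  have e2 : ∑ i, ∑ j, ‖x i‖ * (δ * ‖y j‖) = δ * ((∑ i, ‖x i‖) * ∑ j, ‖y j‖) := by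
    rw [Finset.sum_mul_sum, Finset.mul_sum]
    refine Finset.sum_congr rfl fun i _ => ?_
    rw [Finset.mul_sum]
    refine Finset.sum_congr rfl fun j _ => ?_
    ring
  rw [e2]
  have h1 := sum_norm_le x
  have h2 := sum_norm_le y
  have h3 : 0 ≤ ∑ i, ‖x i‖ := Finset.sum_nonneg fun _ _ => norm_nonneg _
  have h4 : 0 ≤ ∑ j, ‖y j‖ := Finset.sum_nonneg fun _ _ => norm_nonneg _
  calc δ * ((∑ i, ‖x i‖) * ∑ j, ‖y j‖)
      ≤ δ * ((Real.sqrt (Fintype.card ι) * l2 x) * (Real.sqrt (Fintype.card κ) * l2 y)) :=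
        mul_le_mul_of_nonneg_left (mul_le_mul h1 h2 h4 (h3.trans h1)) hδ
    _ = _ := by ring

/-- a small entrywise perturbation of a matrix with `Im ≥ c` is near -/
theorem near_of_entry {c δ : ℝ} (hc : 0 < c) (hδ : 0 ≤ δ) {Z Z' : Matrix ι ι ℂ} (hs : Z'ᵀ = Z')
    (h : ImGe c Z) (hd : ∀ i j, ‖Z' i j - Z i j‖ ≤ δ) :
    Near (δ * Fintype.card ι / c) Z Z' := by
  refine ⟨hs, fun x y => ?_⟩
  have h1 := norm_form_le hδ (Z := Z' - Z) (fun i j => hd i j) x y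
  have h2 := h.l2_le hc x
  have h3 := h.l2_le hc y
  have hs : Real.sqrt (Fintype.card ι) * Real.sqrt (Fintype.card ι) = Fintype.card ι :=
    Real.mul_self_sqrt (Nat.cast_nonneg _)
  rw [hs] at h1
  have hcs : 0 < Real.sqrt c := Real.sqrt_pos.mpr hc
  have hcc : Real.sqrt c * Real.sqrt c = c := Real.mul_self_sqrt hc.le
  have h4 : c * (l2 x * l2 y) ≤ nq (imM Z) x * nq (imM Z) y := by
    calc c * (l2 x * l2 y) = (Real.sqrt c * Real.sqrt c) * (l2 x * l2 y) := by rw [hcc]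
      _ = (Real.sqrt c * l2 x) * (Real.sqrt c * l2 y) := by ring
      _ ≤ _ := mul_le_mul h2 h3 (mul_nonneg hcs.le (l2_nonneg _)) (nq_nonneg _ _)
  calc ‖x ⬝ᵥ ((Z' - Z) *ᵥ y)‖ ≤ δ * Fintype.card ι * (l2 x * l2 y) := h1
    _ = δ * Fintype.card ι / c * (c * (l2 x * l2 y)) := by field_simp
    _ ≤ δ * Fintype.card ι / c * (nq (imM Z) x * nq (imM Z) y) :=
        mul_le_mul_of_nonneg_left h4 (by positivity)
    _ = _ := by ring

lemma ImGe.fromBlocks {c : ℝ} {Z1 : Matrix ι ι ℂ} {Z2 : Matrix κ κ ℂ} (hs1 : Z1ᵀ = Z1)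
    (hs2 : Z2ᵀ = Z2) (h1 : ImGe c Z1) (h2 : ImGe c Z2) :
    ImGe c (Matrix.fromBlocks Z1 0 0 Z2) := by
  intro x
  rw [qf_fromBlocks hs1 hs2, Fintype.sum_sum_type, mul_add]
  exact add_le_add (h1 (x ∘ Sum.inl)) (h2 (x ∘ Sum.inr))

/-- weakly coupled fine blocks -/
theorem near_of_cross {c δ : ℝ} (hc : 0 < c) (hδ : 0 ≤ δ) {Z : Matrix (ι ⊕ κ) (ι ⊕ κ) ℂ}
    (hs : Zᵀ = Z) (h1 : ImGe c Z.toBlocks₁₁) (h2 : ImGe c Z.toBlocks₂₂)
    (hd : ∀ i j, ‖Z (Sum.inl i) (Sum.inr j)‖ ≤ δ) :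
    Near (δ * Fintype.card (ι ⊕ κ) / c) (Matrix.fromBlocks Z.toBlocks₁₁ 0 0 Z.toBlocks₂₂) Z := by
  have e1 : (Z.toBlocks₁₁)ᵀ = Z.toBlocks₁₁ := by
    ext i j
    exact congrFun (congrFun hs (Sum.inl i)) (Sum.inl j)
  have e2 : (Z.toBlocks₂₂)ᵀ = Z.toBlocks₂₂ := by
    ext i j
    exact congrFun (congrFun hs (Sum.inr i)) (Sum.inr j)
  refine near_of_entry hc hδ hs (ImGe.fromBlocks e1 e2 h1 h2) ?_
  rintro (i | i) (j | j)
  · simp [Matrix.toBlocks₁₁, hδ]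
  · simpa using hd i j
  · have : Z (Sum.inr i) (Sum.inl j) = Z (Sum.inl j) (Sum.inr i) :=
      congrFun (congrFun hs (Sum.inl j)) (Sum.inr i)
    simpa [this] using hd j i
  · simp [Matrix.toBlocks₂₂, hδ]

/-! ### gluing -/

/-- the real symmetric matrix of the gluing edge between the port `inl 1` and the port `inr 0` -/
def VG : Matrix (Fin 2 ⊕ Fin 2) (Fin 2 ⊕ Fin 2) ℝ :=
  Matrix.fromBlocks 0 !![0, 0; 1, 0] !![0, 1; 0, 0] 0

lemma VG_symm : VGᵀ = VG := by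
  ext (i | i) (j | j) <;> fin_cases i <;> fin_cases j <;> simp [VG]

/-- the new ports -/
def PG : Fin 2 → Fin 2 ⊕ Fin 2 := ![Sum.inl 0, Sum.inr 1]

lemma PG_inj : Function.Injective PG := by
  intro i j h
  fin_cases i <;> fin_cases j <;> simp_all [PG]

/-- the glued `4 × 4` matrix -/
noncomputable def GM (a o b a1 o1 b1 : ℂ) : Matrix (Fin 2 ⊕ Fin 2) (Fin 2 ⊕ Fin 2) ℂ :=
  Matrix.fromBlocks
    !![a + o ^ 2 * a1 / (1 - b * a1), o / (1 - b * a1); o / (1 - b * a1), b / (1 - b * a1)]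
    !![-(o * a1 / (1 - b * a1)), -(o * o1 / (1 - b * a1));
       -(b * a1 / (1 - b * a1)), -(b * o1 / (1 - b * a1))]
    !![-(o * a1 / (1 - b * a1)), -(b * a1 / (1 - b * a1));
       -(o * o1 / (1 - b * a1)), -(b * o1 / (1 - b * a1))]
    !![a1 / (1 - b * a1), o1 / (1 - b * a1); o1 / (1 - b * a1), b1 + o1 ^ 2 * b / (1 - b * a1)]

theorem glue_mob {Z Z1 : Matrix (Fin 2) (Fin 2) ℂ} (hZ : Siegel Z) (hZ1 : Siegel Z1) :
    mob VG (Matrix.fromBlocks Z 0 0 Z1) =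
      GM (Z 0 0) (Z 0 1) (Z 1 1) (Z1 0 0) (Z1 0 1) (Z1 1 1) := by
  have hs : Z 1 0 = Z 0 1 := congrFun (congrFun hZ.symm 0) 1
  have hs1 : Z1 1 0 = Z1 0 1 := congrFun (congrFun hZ1.symm 0) 1
  have hg := sg_of_siegel hZ
  have hg1 := sg_of_siegel hZ1
  have hne : 1 - Z 1 1 * Z1 0 0 ≠ 0 := one_sub_ne hg.2.1 hg1.1
  symm
  apply mob_unique (siegel_fromBlocks hZ hZ1) VG_symm
  set D := 1 - Z 1 1 * Z1 0 0 with hD
  have hba : Z 1 1 * Z1 0 0 = 1 - D := by rw [hD]; ring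
  have hcx : cx VG = Matrix.fromBlocks 0 !![0, 0; 1, 0] !![0, 1; 0, 0] 0 := by
    ext (i | i) (j | j) <;> fin_cases i <;> fin_cases j <;> simp [VG]
  rw [hcx, GM, Matrix.fromBlocks_multiply, Matrix.fromBlocks_multiply, Matrix.fromBlocks_add]
  rw [← hD]
  congr 1
  · ext i j
    fin_cases i <;> fin_cases j <;>
      simp [Matrix.mul_apply, Fin.sum_univ_two, hs] <;> field_simp <;> ring
  · ext i j
    fin_cases i <;> fin_cases j <;>
      simp [Matrix.mul_apply, Fin.sum_univ_two, hs] <;> field_simp <;> ring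
  · ext i j
    fin_cases i <;> fin_cases j <;>
      simp [Matrix.mul_apply, Fin.sum_univ_two, hs1] <;> field_simp <;> ring
  · ext i j
    fin_cases i <;> fin_cases j <;>
      simp [Matrix.mul_apply, Fin.sum_univ_two, hs1] <;> field_simp <;> ring

/-- the corner of the glued matrix -/
theorem glue_corner {Z Z1 : Matrix (Fin 2) (Fin 2) ℂ} (hZ : Siegel Z) (hZ1 : Siegel Z1) :
    let M := (mob VG (Matrix.fromBlocks Z 0 0 Z1)).submatrix PG PG
    M 0 0 = ga (Z 0 0) (Z 0 1) (Z 1 1) (Z1 0 0) ∧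
    M 0 1 = go (Z 0 1) (Z 1 1) (Z1 0 0) (Z1 0 1) ∧
    M 1 1 = gb (Z 1 1) (Z1 0 0) (Z1 0 1) (Z1 1 1) := by
  intro M
  have hM : M = (GM (Z 0 0) (Z 0 1) (Z 1 1) (Z1 0 0) (Z1 0 1) (Z1 1 1)).submatrix PG PG := by
    rw [← glue_mob hZ hZ1]
  rw [hM]
  refine ⟨?_, ?_, ?_⟩
  · simp [GM, PG, ga]
  · simp [GM, PG, go]
  · simp [GM, PG, gb]
    rw [mul_comm (Z 1 1) (Z1 0 0)]

theorem siegel_glue {Z Z1 : Matrix (Fin 2) (Fin 2) ℂ} (hZ : Siegel Z) (hZ1 : Siegel Z1) :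
    Siegel ((mob VG (Matrix.fromBlocks Z 0 0 Z1)).submatrix PG PG) :=
  (siegel_mob (siegel_fromBlocks hZ hZ1) VG_symm).sub PG_inj

/-- gluing is submultiplicative for the gain -/
theorem tauM_glue {Z Z1 : Matrix (Fin 2) (Fin 2) ℂ} (hZ : Siegel Z) (hZ1 : Siegel Z1) :
    tauM ((mob VG (Matrix.fromBlocks Z 0 0 Z1)).submatrix PG PG) ≤ tauM Z * tauM Z1 := by
  obtain ⟨e0, e1, e2⟩ := glue_corner hZ hZ1
  have hS := sg_of_siegel (siegel_glue hZ hZ1)
  have hb : 0 < (gb (Z 1 1) (Z1 0 0) (Z1 0 1) (Z1 1 1)).im := by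
    rw [← e2]; exact hS.2.1
  unfold tauM
  rw [e0, e1, e2]
  exact tau_glue (sg_of_siegel hZ) (sg_of_siegel hZ1) hb

/-! ### the single switching step -/

/-- `W` as a real matrix -/
def W2r : Matrix (Fin 2) (Fin 2) ℝ := !![0, 1; 1, 0]

lemma W2r_symm : W2rᵀ = W2r := by
  ext i j
  fin_cases i <;> fin_cases j <;> rfl

lemma cx_W2r : cx W2r = Stab269.W2 := by
  ext i j
  fin_cases i <;> fin_cases j <;> simp [W2r, Stab269.W2]

/-- the cavity block is `mob (-W)` of the block -/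
theorem cavB_eq_mob {B : Matrix (Fin 2) (Fin 2) ℂ} (hB : Siegel B) :
    Stab269.cavB B = mob (-W2r) B := by
  have hV : (-W2r)ᵀ = -W2r := by rw [Matrix.transpose_neg, W2r_symm]
  have h1 := mob_inv hB hV
  have h2 := siegel_mob hB hV
  have h3 : cx (-W2r) = -Stab269.W2 := by
    rw [← cx_W2r]; ext i j; simp
  rw [Stab269.cavB, ← Matrix.nonsing_inv_nonsing_inv _ h2.isUnit, h1, h3, ← sub_eq_add_neg]

lemma siegel_cavB {B : Matrix (Fin 2) (Fin 2) ℂ} (hB : Siegel B) : Siegel (Stab269.cavB B) := by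
  rw [cavB_eq_mob hB]
  exact siegel_mob hB (by rw [Matrix.transpose_neg, W2r_symm])

/-- the perturbation of a single switching on the four ports
`inl 0 = u, inl 1 = w, inr 0 = w1, inr 1 = u1` without the new edge `u u1` -/
def VS : Matrix (Fin 2 ⊕ Fin 2) (Fin 2 ⊕ Fin 2) ℝ :=
  Matrix.fromBlocks (-W2r) 0 0 (-W2r) + VG

lemma VS_symm : VSᵀ = VS := by
  rw [VS, Matrix.transpose_add, VG_symm, Matrix.fromBlocks_transpose, Matrix.transpose_neg,
    W2r_symm, Matrix.transpose_zero]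

/-- the full perturbation of a single switching -/
def VF : Matrix (Fin 2 ⊕ Fin 2) (Fin 2 ⊕ Fin 2) ℝ := VS + lift (emb PG) W2r

lemma VF_symm : VFᵀ = VF := by
  rw [VF, Matrix.transpose_add, VS_symm, lift_symm _ W2r_symm]

/-- cavity block of the new edge -/
theorem cav_new {R : Matrix (Fin 2 ⊕ Fin 2) (Fin 2 ⊕ Fin 2) ℂ} (hR : Siegel R) :
    Stab269.cavB ((mob VF R).submatrix PG PG) = (mob VS R).submatrix PG PG := by
  have hF := siegel_mob hR VF_symm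
  rw [cavB_eq_mob (hF.sub PG_inj)]
  have hV : (-W2r)ᵀ = -W2r := by rw [Matrix.transpose_neg, W2r_symm]
  rw [← cor_emb, ← cor_emb, ← cor_mob (inj_emb PG_inj) hF hV]
  congr 1
  have h1 : mob VF R = mob (lift (emb PG) W2r) (mob VS R) := by
    rw [VF, mob_add hR VS_symm (lift_symm _ W2r_symm)]
  rw [h1, ← mob_add (siegel_mob hR VS_symm) (lift_symm _ W2r_symm) (lift_symm _ hV)]
  have h2 : lift (emb PG) W2r + lift (emb PG) (-W2r) = 0 := by
    rw [← lift_add, add_neg_cancel]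
    simp [lift]
  rw [h2, mob_zero]

/-- **single switching step**: the gain of the cavity block of the new edge -/
theorem tau_switch {c δ : ℝ} (hc : 0 < c) (hδ : 0 ≤ δ) (hsmall : δ * 4 / c ≤ 1 / 3)
    {R : Matrix (Fin 2 ⊕ Fin 2) (Fin 2 ⊕ Fin 2) ℂ} (hR : Siegel R)
    (h1 : ImGe c R.toBlocks₁₁) (h2 : ImGe c R.toBlocks₂₂)
    (hd : ∀ i j, ‖R (Sum.inl i) (Sum.inr j)‖ ≤ δ) :
    tauM (Stab269.cavB ((mob VF R).submatrix PG PG)) ≤
      tauM (Stab269.cavB R.toBlocks₁₁) * tauM (Stab269.cavB R.toBlocks₂₂) + 72 * δ / c := by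
  have s1 : Siegel R.toBlocks₁₁ := hR.sub (f := Sum.inl) Sum.inl_injective
  have s2 : Siegel R.toBlocks₂₂ := hR.sub (f := Sum.inr) Sum.inr_injective
  set ε := δ * Fintype.card (Fin 2 ⊕ Fin 2) / c with hε
  have hcard : (Fintype.card (Fin 2 ⊕ Fin 2) : ℝ) = 4 := by
    simp [Fintype.card_sum]
  rw [hcard] at hε
  have hε0 : 0 ≤ ε := by rw [hε]; positivity
  have hε1 : ε ≤ 1 / 3 := hsmall
  have hn : Near ε (Matrix.fromBlocks R.toBlocks₁₁ 0 0 R.toBlocks₂₂) R := by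
    have := near_of_cross hc hδ hR.symm h1 h2 hd
    rwa [hcard, ← hε] at this
  have hD := siegel_fromBlocks s1 s2
  have hn2 := Near.mob hε0 (by linarith) hD hn VS_symm
  have hn3 := hn2.sub PG (siegel_mob hD VS_symm)
  rw [cav_new hR]
  have hVW : (-W2r)ᵀ = -W2r := by rw [Matrix.transpose_neg, W2r_symm]
  have hVB : (Matrix.fromBlocks (-W2r) (0 : Matrix (Fin 2) (Fin 2) ℝ) 0 (-W2r))ᵀ
      = Matrix.fromBlocks (-W2r) 0 0 (-W2r) := by
    rw [Matrix.fromBlocks_transpose, hVW, Matrix.transpose_zero]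
  have e : mob VS (Matrix.fromBlocks R.toBlocks₁₁ 0 0 R.toBlocks₂₂)
      = mob VG (Matrix.fromBlocks (Stab269.cavB R.toBlocks₁₁) 0 0
          (Stab269.cavB R.toBlocks₂₂)) := by
    rw [VS, mob_add hD hVB VG_symm, mob_fromBlocks s1 s2 hVW hVW, cavB_eq_mob s1, cavB_eq_mob s2]
  rw [e] at hn3
  have hc1 := siegel_cavB s1
  have hc2 := siegel_cavB s2
  have h4 : ε / (1 - ε) ≤ 3 / 2 * ε := by
    rw [div_le_iff₀ (by linarith)]
    nlinarith
  have h5 := Near.tauM_le (div_nonneg hε0 (by linarith)) (by linarith : ε / (1 - ε) ≤ 1 / 2)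
    (siegel_glue hc1 hc2) hn3
  have h6 := tauM_glue hc1 hc2
  have h7 : 12 * (ε / (1 - ε)) ≤ 72 * δ / c := by
    have : 72 * δ / c = 18 * ε := by rw [hε]; ring
    rw [this]
    linarith
  linarith

end Crest.Agent.R166.Off522
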