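import Crest.Agent.R166.SwP2_470
import Crest.Agent.R166.DecP_789
import Crest.Agent.R166.OffDet_522
import Crest.Agent.R166.Sec2_522
import Crest.Agent.R166.Rev2_811

-- ▼ part R166/SwE_798
section

/-!
# R166, section 20.1: the single-edge move on port-numbered graphs (helper798)

* `EV p h0 b`  : validity of the move `(h0, b)`: the four vertices `h0.1, (p h0).1, b.1, (p b).1`
  are distinct, `h0.1 ≁ b.1`, `(p h0).1 ≁ (p b).1`
* `np p h0 b`  : the new pairing: `h0 — b` and `p h0 — p b`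
* `esw`        : the lazy move; returned move `(h0, old p h0)`
* `moveSystem1`: it is a `Sec269.MoveSystem`
* `card_not_EV`: at most `2 d (d+2)` invalid `b`, for every simple `p` and every `h0`
* `card_Ch_esw_le`, `comm_pairs`, `isMove`, `Hm_np`.
-/

set_option autoImplicit false
set_option linter.unusedSectionVars false

open Finset

namespace Crest.Agent.R166.SwE798

open Crest.Agent.R166 Crest.Agent.R166.SwP470

variable {n d : ℕ}

/-- validity -/
def EV (p : Equiv.Perm (HE n d)) (h0 b : HE n d) : Prop :=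
  SwP470.Val (α := HE n d) Prod.fst p (fun _ : Unit => p h0) (fun _ : Unit => b)

/-- the switched pairing -/
noncomputable def np (p : Equiv.Perm (HE n d)) (h0 b : HE n d) : Equiv.Perm (HE n d) :=
  SwP470.cj (fun _ : Unit => p h0) (fun _ : Unit => b) p

section basic

variable {p : Equiv.Perm (HE n d)} {h0 b : HE n d}

theorem EV_iff (hp : IsPort p) : EV p h0 b ↔ h0.1 ≠ b.1 ∧ h0.1 ≠ (p b).1 ∧ (p h0).1 ≠ b.1 ∧
    (p h0).1 ≠ (p b).1 ∧ ¬ (graphOf p).Adj h0.1 b.1 ∧ ¬ (graphOf p).Adj (p h0).1 (p b).1 := by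
  unfold EV
  constructor
  · intro h
    refine ⟨?_, ?_, h.au () (), h.aw () (), ?_, ?_⟩
    · have := h.tu () (); rwa [hp.inv] at this
    · have := h.tw () (); rwa [hp.inv] at this
    · have := h.ntu (); rwa [hp.inv, adj_iff_adj hp] at this
    · have := h.naw (); rwa [adj_iff_adj hp] at this
  · rintro ⟨h1, h2, h3, h4, h5, h6⟩
    exact
      { aa := fun _ _ _ => rfl
        uu := fun _ _ _ => rfl
        ww := fun _ _ _ => rfl
        au := fun _ _ => h3
        aw := fun _ _ => h4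
        uw := fun _ _ => (hp.noloop b).symm
        ta := fun _ _ => by rw [hp.inv]; exact (hp.noloop h0).symm
        tu := fun _ _ => by rw [hp.inv]; exact h1
        tw := fun _ _ => by rw [hp.inv]; exact h2
        ntu := fun _ => by rw [hp.inv, adj_iff_adj hp]; exact h5
        naw := fun _ => by rw [adj_iff_adj hp]; exact h6 }

theorem EV.isPort (hp : IsPort p) (h : EV p h0 b) : IsPort (np p h0 b) :=
  isPort_of_isSP (SwP470.Val.isSP (isSP_of_isPort hp) h)

theorem EV.np_h0 (hp : IsPort p) (h : EV p h0 b) : np p h0 b h0 = b := by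
  have := SwP470.Val.cj_t (isSP_of_isPort hp) h ()
  simp only [hp.inv] at this
  exact this

theorem EV.np_ph0 (h : EV p h0 b) : np p h0 b (p h0) = p b := SwP470.Val.cj_a h ()

theorem EV.np_b (hp : IsPort p) (h : EV p h0 b) : np p h0 b b = h0 := by
  have := SwP470.Val.cj_b h ()
  rw [hp.inv] at this
  exact this

theorem EV.np_pb (hp : IsPort p) (h : EV p h0 b) : np p h0 b (p b) = p h0 :=
  SwP470.Val.cj_w (isSP_of_isPort hp) h ()

theorem np_other (hp : IsPort p) {x : HE n d} (h1 : x ≠ h0) (h2 : x ≠ p h0) (h3 : x ≠ b)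
    (h4 : x ≠ p b) : np p h0 b x = p x :=
  SwP470.Out.cj (isSP_of_isPort hp)
    { oa := fun _ => h2.symm
      ob := fun _ => h3.symm
      ot := fun _ => by rw [hp.inv]; exact h1.symm
      ow := fun _ => h4.symm }

theorem EV.symm (hp : IsPort p) (h : EV p h0 b) : EV (np p h0 b) h0 (p h0) := by
  have := SwP470.Val.symm (isSP_of_isPort hp) h
  unfold EV
  rw [h.np_h0 hp]
  exact this

theorem EV.np_np (hp : IsPort p) (h : EV p h0 b) : np (np p h0 b) h0 (p h0) = p := by
  unfold np
  have h1 := h.np_h0 hp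
  unfold np at h1
  rw [h1, SwP470.cj_cj]

end basic

open Classical in
/-- the lazy single-edge move -/
noncomputable def esw (p : Equiv.Perm (HE n d)) (m : HE n d × HE n d) :
    Equiv.Perm (HE n d) × (HE n d × HE n d) :=
  if EV p m.1 m.2 then (np p m.1 m.2, (m.1, p m.1)) else (p, m)

lemma esw_pos {p : Equiv.Perm (HE n d)} {m : HE n d × HE n d} (h : EV p m.1 m.2) :
    esw p m = (np p m.1 m.2, (m.1, p m.1)) := if_pos h

lemma esw_neg {p : Equiv.Perm (HE n d)} {m : HE n d × HE n d} (h : ¬ EV p m.1 m.2) :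
    esw p m = (p, m) := if_neg h

lemma esw_isPort {p : Equiv.Perm (HE n d)} (hp : IsPort p) (m : HE n d × HE n d) :
    IsPort (esw p m).1 := by
  by_cases h : EV p m.1 m.2
  · rw [esw_pos h]; exact h.isPort hp
  · rw [esw_neg h]; exact hp

/-- **the single-edge move system** -/
theorem moveSystem1 (n d : ℕ) :
    Sec269.MoveSystem (Ports n d)
      (Finset.univ : Finset (HE n d × HE n d)) (Finset.univ : Finset (HE n d)) Prod.fst
      (Fintype.card (HE n d)) esw where
  ctr_mem := fun _ _ => Finset.mem_univ _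
  ctr_card := fun e _ _ => by
    classical
    have : (Finset.univ.filter fun m : HE n d × HE n d => m.1 = e)
        = (Finset.univ : Finset (HE n d)).map
          ⟨fun b => (e, b), fun _ _ h => (Prod.mk.inj h).2⟩ := by
      ext m
      rw [Finset.mem_filter, Finset.mem_map]
      constructor
      · rintro ⟨_, h⟩
        exact ⟨m.2, Finset.mem_univ _, Prod.ext h.symm rfl⟩
      · rintro ⟨y', _, h⟩
        exact ⟨Finset.mem_univ _, (congrArg Prod.fst h).symm⟩
    rw [this, Finset.card_map, Finset.card_univ]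
  mem_left := fun p hp m _ => by
    rw [mem_Ports] at hp ⊢
    exact esw_isPort hp m
  mem_right := fun _ _ _ _ => Finset.mem_univ _
  inv := fun p hp m _ => by
    rw [mem_Ports] at hp
    by_cases h : EV p m.1 m.2
    · rw [esw_pos h]
      have h2 := h.symm hp
      rw [esw_pos (m := (m.1, p m.1)) h2]
      simp only [h.np_np hp, h.np_h0 hp]
    · rw [esw_neg h, esw_neg h]
  ctr_sw := fun p _ m _ => by
    by_cases h : EV p m.1 m.2
    · rw [esw_pos h]
    · rw [esw_neg h]

/-! ### counting -/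

section count

variable {p : Equiv.Perm (HE n d)}

open Classical in
lemma card_fst_mem (A : Finset (Fin n)) :
    (Finset.univ.filter fun b : HE n d => b.1 ∈ A).card = A.card * d := by
  have : (Finset.univ.filter fun b : HE n d => b.1 ∈ A) = A ×ˢ (Finset.univ : Finset (Fin d)) := by
    ext b
    simp
  rw [this, Finset.card_product, Finset.card_univ, Fintype.card_fin]

open Classical in
lemma card_snd_mem (hp : IsPort p) (A : Finset (Fin n)) :
    (Finset.univ.filter fun b : HE n d => (p b).1 ∈ A).card = A.card * d := by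
  rw [← card_fst_mem (d := d) A]
  refine Finset.card_bij (fun b _ => p b) ?_ ?_ ?_
  · intro b hb
    simpa using hb
  · intro b _ b' _ h
    exact p.injective h
  · intro b hb
    refine ⟨p b, ?_, hp.inv b⟩
    simpa [hp.inv] using hb

open Classical in
/-- **invalid choices**: at most `2 d (d+2)`, for every simple `p` and every `h0` -/
theorem card_not_EV (hp : IsPort p) (h0 : HE n d) :
    (Finset.univ.filter fun b : HE n d => ¬ EV p h0 b).card ≤ 2 * d * (d + 2) := by
  set A : Finset (Fin n) := insert h0.1 (insert (p h0).1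
    (Finset.univ.filter fun w => (graphOf p).Adj h0.1 w)) with hA
  set B : Finset (Fin n) := insert h0.1 (insert (p h0).1
    (Finset.univ.filter fun w => (graphOf p).Adj (p h0).1 w)) with hB
  have hsub : (Finset.univ.filter fun b : HE n d => ¬ EV p h0 b) ⊆
      (Finset.univ.filter fun b : HE n d => b.1 ∈ A) ∪
        (Finset.univ.filter fun b : HE n d => (p b).1 ∈ B) := by
    intro b hb
    simp only [Finset.mem_filter, Finset.mem_univ, true_and] at hb
    rw [EV_iff hp] at hb
    simp only [Finset.mem_union, Finset.mem_filter, Finset.mem_univ, true_and, hA, hB,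
      Finset.mem_insert]
    by_cases h1 : b.1 = h0.1
    · exact Or.inl (Or.inl h1)
    by_cases h2 : (p b).1 = h0.1
    · exact Or.inr (Or.inl h2)
    by_cases h3 : b.1 = (p h0).1
    · exact Or.inl (Or.inr (Or.inl h3))
    by_cases h4 : (p b).1 = (p h0).1
    · exact Or.inr (Or.inr (Or.inl h4))
    by_cases h5 : (graphOf p).Adj h0.1 b.1
    · exact Or.inl (Or.inr (Or.inr h5))
    by_cases h6 : (graphOf p).Adj (p h0).1 (p b).1
    · exact Or.inr (Or.inr (Or.inr h6))
    exact absurd ⟨Ne.symm h1, Ne.symm h2, Ne.symm h3, Ne.symm h4, h5, h6⟩ hb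
  have hcA : A.card ≤ d + 2 := by
    refine (Finset.card_insert_le _ _).trans ?_
    have := Finset.card_insert_le (p h0).1 (Finset.univ.filter fun w => (graphOf p).Adj h0.1 w)
    rw [hp.card_nbr] at this
    omega
  have hcB : B.card ≤ d + 2 := by
    refine (Finset.card_insert_le _ _).trans ?_
    have := Finset.card_insert_le (p h0).1
      (Finset.univ.filter fun w => (graphOf p).Adj (p h0).1 w)
    rw [hp.card_nbr] at this
    omega
  refine (Finset.card_le_card hsub).trans ((Finset.card_union_le _ _).trans ?_)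
  rw [card_fst_mem, card_snd_mem hp]
  calc A.card * d + B.card * d ≤ (d + 2) * d + (d + 2) * d := by gcongr
    _ = 2 * d * (d + 2) := by ring

/-- at most four half-edges change -/
theorem card_Ch_esw_le (hp : IsPort p) (m : HE n d × HE n d) :
    (Stab269.Ch p (esw p m).1).card ≤ 4 := by
  classical
  by_cases h : EV p m.1 m.2
  · rw [esw_pos h]
    have hsub : Stab269.Ch p (np p m.1 m.2) ⊆ {m.1, p m.1, m.2, p m.2} := by
      intro x hx
      simp only [Stab269.Ch, Finset.mem_filter, Finset.mem_univ, true_and] at hx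
      by_contra hn
      simp only [Finset.mem_insert, Finset.mem_singleton, not_or] at hn
      exact hx (np_other hp hn.1 hn.2.1 hn.2.2.1 hn.2.2.2).symm
    exact (Finset.card_le_card hsub).trans Finset.card_le_four
  · rw [esw_neg h]
    have : Stab269.Ch p p = ∅ := by
      ext x
      simp [Stab269.Ch]
    simp [this]

/-- as a simultaneous switching in the sense of `DecP_789` -/
theorem EV.isMove (hp : IsPort p) {h0 b : HE n d} (h : EV p h0 b) :
    DecP789.IsMove p (np p h0 b) (fun _ : Unit => h0) (fun _ : Unit => b) := by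
  have h' := (EV_iff hp).1 h
  exact
    { ntau := fun _ => h.np_h0 hp
      nout := fun _ => h.np_ph0
      rest := fun x h1 h2 h3 h4 => np_other hp (h1 ()) (h2 ()) (h3 ()) (h4 ())
      tau_inj := fun _ _ _ => rfl
      b_inj := fun _ _ _ => rfl
      tau_out := fun _ _ => (hp.ne_self h0).symm
      tau_b := fun _ _ e => h'.1 (by rw [e])
      tau_c := fun _ _ e => h'.2.1 (congrArg Prod.fst e)
      b_c := fun _ _ => (hp.ne_self b).symm }

/-- the perturbation of the Hamiltonian -/
theorem EV.Hm_np (hp : IsPort p) {h0 b : HE n d} (h : EV p h0 b) (s : ℝ) (ω : Fin n → ℝ) :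
    Hm (graphOf (np p h0 b)) s ω = Hm (graphOf p) s ω +
      (DecP789.EE h0 b + DecP789.EE (p h0) (p b) - DecP789.EE h0 (p h0) -
        DecP789.EE b (p b)) := by
  have := DecP789.IsMove.Hm_move hp (h.isPort hp) (h.isMove hp) s ω
  rw [this]
  simp

end count

/-! ### commutation -/

section comm

variable {p : Equiv.Perm (HE n d)}

/-- the four vertices of a move -/
def VS (p : Equiv.Perm (HE n d)) (m : HE n d × HE n d) : Finset (Fin n) :=
  {m.1.1, (p m.1).1, m.2.1, (p m.2).1}

lemma mem_VS {m : HE n d × HE n d} {v : Fin n} :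
    v ∈ VS p m ↔ v = m.1.1 ∨ v = (p m.1).1 ∨ v = m.2.1 ∨ v = (p m.2).1 := by
  simp [VS]

/-- the other move does not change the half-edges at the vertices outside `VS` -/
lemma esw_apply_of_notMem (hp : IsPort p) {m : HE n d × HE n d} {x : HE n d}
    (hx : x.1 ∉ VS p m) : (esw p m).1 x = p x := by
  by_cases h : EV p m.1 m.2
  · rw [esw_pos h]
    rw [mem_VS, not_or, not_or, not_or] at hx
    exact np_other hp (fun e => hx.1 (by rw [e])) (fun e => hx.2.1 (by rw [e]))
      (fun e => hx.2.2.1 (by rw [e])) (fun e => hx.2.2.2 (by rw [e]))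
  · rw [esw_neg h]

lemma adj_esw (hp : IsPort p) {m : HE n d × HE n d} {v w : Fin n} (hv : v ∉ VS p m) :
    (graphOf (esw p m).1).Adj v w ↔ (graphOf p).Adj v w := by
  rw [hp.adj_iff, (esw_isPort hp m).adj_iff]
  constructor
  · rintro ⟨i, hi⟩
    exact ⟨i, by rwa [esw_apply_of_notMem hp (x := (v, i)) hv] at hi⟩
  · rintro ⟨i, hi⟩
    exact ⟨i, by rwa [esw_apply_of_notMem hp (x := (v, i)) hv]⟩

lemma EV_esw (hp : IsPort p) {m m' : HE n d × HE n d} (hd : Disjoint (VS p m) (VS p m')) :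
    EV (esw p m').1 m.1 m.2 ↔ EV p m.1 m.2 := by
  have h1 : m.1.1 ∉ VS p m' := Finset.disjoint_left.1 hd (mem_VS.2 (Or.inl rfl))
  have h2 : (p m.1).1 ∉ VS p m' := Finset.disjoint_left.1 hd (mem_VS.2 (Or.inr (Or.inl rfl)))
  have h3 : m.2.1 ∉ VS p m' :=
    Finset.disjoint_left.1 hd (mem_VS.2 (Or.inr (Or.inr (Or.inl rfl))))
  rw [EV_iff hp, EV_iff (esw_isPort hp m'), adj_esw hp h1, esw_apply_of_notMem hp h1,
    esw_apply_of_notMem hp h3, adj_esw hp h2]

lemma VS_esw (hp : IsPort p) {m m' : HE n d × HE n d} (hd : Disjoint (VS p m) (VS p m')) :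
    VS (esw p m').1 m = VS p m := by
  have h1 : m.1.1 ∉ VS p m' := Finset.disjoint_left.1 hd (mem_VS.2 (Or.inl rfl))
  have h3 : m.2.1 ∉ VS p m' :=
    Finset.disjoint_left.1 hd (mem_VS.2 (Or.inr (Or.inr (Or.inl rfl))))
  unfold VS
  rw [esw_apply_of_notMem hp h1, esw_apply_of_notMem hp h3]

/-- the new pairing on the half-edges at `VS p m` depends only on `p` there -/
lemma np_congr {p' : Equiv.Perm (HE n d)} (hp : IsPort p) (hp' : IsPort p') {h0 b : HE n d}
    (h : EV p h0 b) (h' : EV p' h0 b) (e1 : p' h0 = p h0) (e2 : p' b = p b) {x : HE n d}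
    (e3 : p' x = p x) : np p' h0 b x = np p h0 b x := by
  by_cases h1 : x = h0
  · rw [h1, h.np_h0 hp, h'.np_h0 hp']
  by_cases h2 : x = p h0
  · rw [h2, h.np_ph0, ← e1, h'.np_ph0, e2]
  by_cases h3 : x = b
  · rw [h3, h.np_b hp, h'.np_b hp']
  by_cases h4 : x = p b
  · rw [h4, h.np_pb hp, ← e2, h'.np_pb hp', e1]
  rw [np_other hp h1 h2 h3 h4, np_other hp' h1 (by rw [e1]; exact h2) h3 (by rw [e2]; exact h4), e3]

lemma esw_congr {p' : Equiv.Perm (HE n d)} (hp : IsPort p) (hp' : IsPort p')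
    {m : HE n d × HE n d} (hE : EV p' m.1 m.2 ↔ EV p m.1 m.2) (e1 : p' m.1 = p m.1)
    (e2 : p' m.2 = p m.2) {x : HE n d} (e3 : p' x = p x) : (esw p' m).1 x = (esw p m).1 x := by
  by_cases h : EV p m.1 m.2
  · rw [esw_pos h, esw_pos (hE.2 h)]
    exact np_congr hp hp' h (hE.2 h) e1 e2 e3
  · rw [esw_neg h, esw_neg (fun h' => h (hE.1 h'))]
    exact e3

/-- **moves with disjoint vertex sets commute** -/
theorem esw_comm (hp : IsPort p) {m m' : HE n d × HE n d} (hd : Disjoint (VS p m) (VS p m')) :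
    (esw (esw p m).1 m').1 = (esw (esw p m').1 m).1 := by
  have hq := esw_isPort hp m
  have hq' := esw_isPort hp m'
  have e1 : (esw p m').1 m.1 = p m.1 :=
    esw_apply_of_notMem hp (Finset.disjoint_left.1 hd (mem_VS.2 (Or.inl rfl)))
  have e2 : (esw p m').1 m.2 = p m.2 :=
    esw_apply_of_notMem hp (Finset.disjoint_left.1 hd (mem_VS.2 (Or.inr (Or.inr (Or.inl rfl)))))
  have e1' : (esw p m).1 m'.1 = p m'.1 :=
    esw_apply_of_notMem hp (Finset.disjoint_left.1 hd.symm (mem_VS.2 (Or.inl rfl)))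
  have e2' : (esw p m).1 m'.2 = p m'.2 :=
    esw_apply_of_notMem hp
      (Finset.disjoint_left.1 hd.symm (mem_VS.2 (Or.inr (Or.inr (Or.inl rfl)))))
  apply Equiv.ext
  intro x
  by_cases hx : x.1 ∈ VS p m
  · have hx' : x.1 ∉ VS p m' := Finset.disjoint_left.1 hd hx
    have hx2 : x.1 ∉ VS (esw p m).1 m' := by rwa [VS_esw hp hd.symm]
    rw [esw_apply_of_notMem hq hx2,
      esw_congr hp hq' (EV_esw hp hd) e1 e2 (esw_apply_of_notMem hp hx')]
  · have hx2 : x.1 ∉ VS (esw p m').1 m := by rwa [VS_esw hp hd]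
    rw [esw_apply_of_notMem hq' hx2,
      esw_congr hp hq (EV_esw hp hd.symm) e1' e2' (esw_apply_of_notMem hp hx)]

open Classical in
/-- the pairs of moves which may fail to commute -/
noncomputable def BadPairs (p : Equiv.Perm (HE n d)) :
    Finset ((HE n d × HE n d) × (HE n d × HE n d)) :=
  Finset.univ.filter fun x => ¬ Disjoint (VS p x.1) (VS p x.2)

theorem card_BadPairs (hp : IsPort p) :
    (BadPairs p).card ≤ (n * d) ^ 2 * (16 * d * (n * d)) := by
  classical
  have h1 : BadPairs p ⊆ (Finset.univ : Finset (HE n d × HE n d)).biUnion fun m =>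
      ((((Finset.univ.filter fun b : HE n d => b.1 ∈ VS p m) ×ˢ
          (Finset.univ : Finset (HE n d))) ∪
        ((Finset.univ.filter fun b : HE n d => (p b).1 ∈ VS p m) ×ˢ
          (Finset.univ : Finset (HE n d)))) ∪
      (((Finset.univ : Finset (HE n d)) ×ˢ
          (Finset.univ.filter fun b : HE n d => b.1 ∈ VS p m)) ∪
        ((Finset.univ : Finset (HE n d)) ×ˢ
          (Finset.univ.filter fun b : HE n d => (p b).1 ∈ VS p m)))).image fun m' => (m, m') := by
    rintro ⟨m, m'⟩ hx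
    simp only [BadPairs, Finset.mem_filter, Finset.mem_univ, true_and,
      Finset.not_disjoint_iff] at hx
    obtain ⟨v, hv, hv'⟩ := hx
    rw [Finset.mem_biUnion]
    refine ⟨m, Finset.mem_univ _, Finset.mem_image.2 ⟨m', ?_, rfl⟩⟩
    rw [mem_VS] at hv'
    simp only [Finset.mem_union, Finset.mem_product, Finset.mem_filter, Finset.mem_univ,
      true_and, and_true]
    rcases hv' with rfl | rfl | rfl | rfl
    · exact Or.inl (Or.inl hv)
    · exact Or.inl (Or.inr hv)
    · exact Or.inr (Or.inl hv)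
    · exact Or.inr (Or.inr hv)
  have hVS : ∀ m, (VS p m).card ≤ 4 := fun m => Finset.card_le_four
  refine (Finset.card_le_card h1).trans (Finset.card_biUnion_le.trans ?_)
  have h2 : ∀ m ∈ (Finset.univ : Finset (HE n d × HE n d)),
      ((((((Finset.univ.filter fun b : HE n d => b.1 ∈ VS p m) ×ˢ
          (Finset.univ : Finset (HE n d))) ∪
        ((Finset.univ.filter fun b : HE n d => (p b).1 ∈ VS p m) ×ˢ
          (Finset.univ : Finset (HE n d)))) ∪
      (((Finset.univ : Finset (HE n d)) ×ˢ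
          (Finset.univ.filter fun b : HE n d => b.1 ∈ VS p m)) ∪
        ((Finset.univ : Finset (HE n d)) ×ˢ
          (Finset.univ.filter fun b : HE n d => (p b).1 ∈ VS p m)))).image
            fun m' => (m, m')).card) ≤ 16 * d * (n * d) := by
    intro m _
    refine Finset.card_image_le.trans ((Finset.card_union_le _ _).trans ?_)
    refine (Nat.add_le_add (Finset.card_union_le _ _) (Finset.card_union_le _ _)).trans ?_
    simp only [Finset.card_product, card_fst_mem, card_snd_mem hp, Finset.card_univ,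
      IsPort.card_HE]
    calc (VS p m).card * d * (n * d) + (VS p m).card * d * (n * d) +
        (n * d * ((VS p m).card * d) + n * d * ((VS p m).card * d))
        ≤ 4 * d * (n * d) + 4 * d * (n * d) + (n * d * (4 * d) + n * d * (4 * d)) := by
          gcongr <;> exact hVS m
      _ = 16 * d * (n * d) := by ring
  refine (Finset.sum_le_card_nsmul _ _ _ h2).trans ?_
  rw [Finset.card_univ, Fintype.card_prod, IsPort.card_HE, smul_eq_mul, sq]

/-- **the hypothesis `hcomm` of the second moment lemma**, `δ₁ = 16 / n` -/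
theorem hcomm1 (n d : ℕ) :
    ∃ Bad : Equiv.Perm (HE n d) → Finset ((HE n d × HE n d) × (HE n d × HE n d)),
      (∀ p ∈ Ports n d, ((Bad p).card : ℝ) ≤
        (16 / n : ℝ) * ((Finset.univ : Finset (HE n d × HE n d)).card : ℝ) ^ 2) ∧
      (∀ p ∈ Ports n d, ∀ m ∈ (Finset.univ : Finset (HE n d × HE n d)),
        ∀ m' ∈ (Finset.univ : Finset (HE n d × HE n d)), (m, m') ∉ Bad p →
        (esw (esw p m).1 m').1 = (esw (esw p m').1 m).1) := by
  classical
  refine ⟨BadPairs, ?_, ?_⟩
  · intro p hp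
    have h := card_BadPairs (mem_Ports.1 hp)
    rw [Finset.card_univ, Fintype.card_prod, IsPort.card_HE]
    rcases Nat.eq_zero_or_pos n with h0 | h0
    · subst h0
      have : (BadPairs p).card ≤ 0 := by simpa using h
      have h2 : (BadPairs p).card = 0 := by omega
      rw [h2]
      simp
    have hn : (0 : ℝ) < n := by exact_mod_cast h0
    have h' : ((BadPairs p).card : ℝ) ≤ ((n : ℝ) * d) ^ 2 * (16 * d * (n * d)) := by
      exact_mod_cast h
    refine h'.trans (le_of_eq ?_)
    push_cast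
    field_simp
  · intro p hp m _ m' _ hm
    have hp' := mem_Ports.1 hp
    refine esw_comm hp' ?_
    by_contra hnd
    exact hm (Finset.mem_filter.2 ⟨Finset.mem_univ _, hnd⟩)

end comm

end Crest.Agent.R166.SwE798
end

-- ▼ part R166/F2a_63
section

/-!
# Row 166, section 32: off-diagonals, part 1 (helper63): one single-edge switching on the ports

`tM p s ω z h` = power gain (`TwoPort522.tauM`) of the cavity block of the half-edge `h`.
-/

set_option autoImplicit false
set_option linter.unusedSectionVars false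

open Matrix Finset

namespace Crest.Agent.R166.F263

open Crest.Agent.R166 Crest.Agent.R166.Res598 Crest.Agent.R166.Dec598
open Crest.Agent.R166.TwoPort522 Crest.Agent.R166.Off522 Crest.Agent.R166.Stab269
open Crest.Agent.R166.DecP789

variable {n d : ℕ}

/-- gain of the cavity block -/
noncomputable def tM (p : Equiv.Perm (HE n d)) (s : ℝ) (ω : Fin n → ℝ) (z : ℂ) (h : HE n d) : ℝ :=
  tauM (B0 p s ω z h)

lemma siegel_BE {p : Equiv.Perm (HE n d)} (hp : IsPort p) (s : ℝ) (ω : Fin n → ℝ) {z : ℂ}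
    (hz : 0 < z.im) (h : HE n d) : Siegel (BE p s ω z h) :=
  siegel_iff.2 (sieg_BE hp s ω hz h)

lemma siegel_B0 {p : Equiv.Perm (HE n d)} (hp : IsPort p) (s : ℝ) (ω : Fin n → ℝ) {z : ℂ}
    (hz : 0 < z.im) (h : HE n d) : Siegel (B0 p s ω z h) :=
  siegel_cavB (siegel_BE hp s ω hz h)

lemma tM_nonneg {p : Equiv.Perm (HE n d)} (hp : IsPort p) (s : ℝ) (ω : Fin n → ℝ) {z : ℂ}
    (hz : 0 < z.im) (h : HE n d) : 0 ≤ tM p s ω z h := tauM_nonneg (siegel_B0 hp s ω hz h)

lemma tM_le_one {p : Equiv.Perm (HE n d)} (hp : IsPort p) (s : ℝ) (ω : Fin n → ℝ) {z : ℂ}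
    (hz : 0 < z.im) (h : HE n d) : tM p s ω z h ≤ 1 := tauM_le_one (siegel_B0 hp s ω hz h)

/-! ### the four ports of a single-edge switching -/

/-- `inl 0 = u, inl 1 = w, inr 0 = w1, inr 1 = u1` -/
def f4 (p : Equiv.Perm (HE n d)) (h0 b : HE n d) : Fin 2 ⊕ Fin 2 → Fin n :=
  Sum.elim ![h0.1, (p h0).1] ![(p b).1, b.1]

lemma f4_inj {p : Equiv.Perm (HE n d)} (hp : IsPort p) {h0 b : HE n d} (h : SwE798.EV p h0 b) :
    Function.Injective (f4 p h0 b) := by
  obtain ⟨a1, a2, a3, a4, -, -⟩ := (SwE798.EV_iff hp).1 h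
  have a5 : (p h0).1 ≠ h0.1 := hp.noloop h0
  have a6 : (p b).1 ≠ b.1 := hp.noloop b
  have b1 := Ne.symm a1
  have b2 := Ne.symm a2
  have b3 := Ne.symm a3
  have b4 := Ne.symm a4
  have b5 := Ne.symm a5
  have b6 := Ne.symm a6
  rintro (i | i) (j | j) hij <;> fin_cases i <;> fin_cases j <;>
    simp [f4, a1, a2, a3, a4, a5, a6, b1, b2, b3, b4, b5, b6] at hij ⊢

lemma VF_eq : VF = es (Sum.inl 0) (Sum.inr 1) + es (Sum.inl 1) (Sum.inr 0) -
    es (Sum.inl 0) (Sum.inl 1) - es (Sum.inr 1) (Sum.inr 0) := by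
  ext (i | i) (j | j) <;> fin_cases i <;> fin_cases j <;>
    simp [VF, Off522.VS, VG, W2r, es, eg, PG, lift, emb, Matrix.mul_apply, Fin.sum_univ_two]

lemma Hm_np4 {p : Equiv.Perm (HE n d)} (hp : IsPort p) {h0 b : HE n d} (h : SwE798.EV p h0 b)
    (s : ℝ) (ω : Fin n → ℝ) :
    Hm (graphOf (SwE798.np p h0 b)) s ω = Hm (graphOf p) s ω + lift (emb (f4 p h0 b)) VF := by
  rw [h.Hm_np hp, VF_eq, lift_sub, lift_sub, lift_add,
    lift_es (f4 p h0 b) (h := h0) (h' := b) rfl rfl,
    lift_es (f4 p h0 b) (h := p h0) (h' := p b) rfl rfl,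
    lift_es (f4 p h0 b) (h := h0) (h' := p h0) rfl rfl,
    lift_es (f4 p h0 b) (h := b) (h' := p b) rfl rfl]

/-- **single switching step on the ports** -/
theorem tM_switch {p : Equiv.Perm (HE n d)} (hp : IsPort p) {h0 b : HE n d}
    (h : SwE798.EV p h0 b) (s : ℝ) (ω : Fin n → ℝ) {z : ℂ} (hz : 0 < z.im) {c δ : ℝ} (hc : 0 < c)
    (hδ : 0 ≤ δ) (hsmall : δ * 4 / c ≤ 1 / 3) (h1 : ImGe c (BE p s ω z h0))
    (h2 : ImGe c (BE p s ω z (p b)))
    (hd : ∀ i j, ‖Res (Hm (graphOf p) s ω) z (![h0.1, (p h0).1] i) (![(p b).1, b.1] j)‖ ≤ δ) :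
    tM (SwE798.np p h0 b) s ω z h0 ≤ tM p s ω z h0 * tM p s ω z (p b) + 72 * δ / c := by
  have hH := Hm_symm (graphOf p) s ω
  have hR : Siegel (Res789.Res (Hm (graphOf p) s ω) z) := siegel_Res hH hz
  have hf := f4_inj hp h
  have e := Res_lift hH hf VF_symm hz
  rw [← Hm_np4 hp h] at e
  have key := tau_switch hc hδ hsmall (hR.sub hf) (by
    exact h1) (by
    have : (p (p b)).1 = b.1 := by rw [hp.inv]
    intro x
    have := h2 x
    simp only [BE, hp.inv] at this
    exact this) (fun i j => hd i j)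
  rw [← e] at key
  have g1 : ((Res789.Res (Hm (graphOf (SwE798.np p h0 b)) s ω) z).submatrix (f4 p h0 b)
      (f4 p h0 b)).submatrix PG PG = BE (SwE798.np p h0 b) s ω z h0 := by
    rw [BE, h.np_h0 hp]
    ext i j
    fin_cases i <;> fin_cases j <;> rfl
  have g2 : ((Res789.Res (Hm (graphOf p) s ω) z).submatrix (f4 p h0 b) (f4 p h0 b)).toBlocks₁₁ =
      BE p s ω z h0 := rfl
  have g3 : ((Res789.Res (Hm (graphOf p) s ω) z).submatrix (f4 p h0 b) (f4 p h0 b)).toBlocks₂₂ =
      BE p s ω z (p b) := by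
    rw [BE, hp.inv]
    rfl
  rw [g1, g2, g3] at key
  exact key

end Crest.Agent.R166.F263
end

-- ▼ part R166/F2b_63
section

/-!
# Row 166, section 32: off-diagonals, part 2 (helper63): averages over one port graph

* `tauM_change`, `stab_tM`: stability of the gain on fine edges;
* `g_le`: one-step average of the gain `≤ (average gain)² + error`.
-/

set_option autoImplicit false
set_option linter.unusedSectionVars false

open Matrix Finset

namespace Crest.Agent.R166.F263

open Crest.Agent.R166 Crest.Agent.R166.Res598 Crest.Agent.R166.Dec598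
open Crest.Agent.R166.TwoPort522 Crest.Agent.R166.Off522 Crest.Agent.R166.Stab269
open Crest.Agent.R166.DecP789 Crest.Agent.R166.Rev811 Crest.Agent.R166.Sec269

/-- change of the gain of a block with `Im ≥ c` -/
theorem tauM_change {c δ : ℝ} (hc : 0 < c) (hδ : 0 ≤ δ) {B B' : Matrix (Fin 2) (Fin 2) ℂ}
    (hB : Siegel B) (hB' : Siegel B') (hf : ImGe c B) (hd : ∀ i j, ‖B' i j - B i j‖ ≤ δ) :
    |tauM (cavB B') - tauM (cavB B)| ≤ 48 * δ / c := by
  have hV : (-W2r)ᵀ = -W2r := by rw [Matrix.transpose_neg, W2r_symm]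
  have h0 := near_of_entry hc hδ hB'.symm hf hd
  set ε := δ * Fintype.card (Fin 2) / c with hε
  have hε' : ε = 2 * δ / c := by rw [hε]; simp; ring
  have hε0 : 0 ≤ ε := by rw [hε']; positivity
  have hs1 := siegel_cavB hB
  have hs2 := siegel_cavB hB'
  have e48 : 48 * δ / c = 24 * ε := by rw [hε']; ring
  by_cases h4 : ε ≤ 1 / 4
  · have h1 := Near.mob hε0 (by linarith) hB h0 hV
    rw [← cavB_eq_mob hB, ← cavB_eq_mob hB'] at h1
    set ε1 := ε / (1 - ε) with hε1
    have hp1 : 0 ≤ ε1 := div_nonneg hε0 (by linarith)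
    have hl1 : ε1 ≤ 4 / 3 * ε := by
      rw [hε1, div_le_iff₀ (by linarith)]; nlinarith
    have h2 := Near.tauM_le hp1 (by linarith) hs1 h1
    have h3 := near_symm hp1 (by linarith) hs1 h1
    set ε2 := ε1 / (1 - ε1) with hε2
    have hp2 : 0 ≤ ε2 := div_nonneg hp1 (by linarith)
    have hl2 : ε2 ≤ 3 / 2 * ε1 := by
      rw [hε2, div_le_iff₀ (by linarith)]; nlinarith
    have h5 := Near.tauM_le hp2 (by linarith) hs2 h3
    rw [abs_le, e48]
    constructor <;> linarith
  · have a1 := tauM_nonneg hs1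
    have a2 := tauM_nonneg hs2
    have a3 := tauM_le_one hs1
    have a4 := tauM_le_one hs2
    rw [abs_le, e48]
    constructor <;> linarith

variable {n d : ℕ}

open Classical in
/-- number of half-edges which are not `c`-fine -/
noncomputable def nfc (c : ℝ) (p : Equiv.Perm (HE n d)) (s : ℝ) (ω : Fin n → ℝ) (z : ℂ) : ℝ :=
  ((Finset.univ.filter fun h : HE n d => ¬ Fine c (BE p s ω z h)).card : ℝ)

lemma nfc_nonneg (c : ℝ) (p : Equiv.Perm (HE n d)) (s : ℝ) (ω : Fin n → ℝ) (z : ℂ) :
    0 ≤ nfc c p s ω z := Nat.cast_nonneg _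

open Classical in
lemma nfc_eq (c : ℝ) (p : Equiv.Perm (HE n d)) (s : ℝ) (ω : Fin n → ℝ) (z : ℂ) :
    nfc c p s ω z = ∑ h, if ¬ Fine c (BE p s ω z h) then (1 : ℝ) else 0 := by
  rw [nfc, Finset.sum_boole]

/-- stability of the gain along a change of the pairing -/
theorem stab_tM {p p' : Equiv.Perm (HE n d)} (hp : IsPort p) (hp' : IsPort p') (s : ℝ)
    (ω : Fin n → ℝ) {z : ℂ} (hz : 0 < z.im) {c : ℝ} (hc : 0 < c) :
    ∑ h, |tM p' s ω z h - tM p s ω z h| ≤
      96 * d * ((Ch p p').card : ℝ) / (c * z.im) + 2 * ((Ch p p').card : ℝ) +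
        nfc c p s ω z := by
  classical
  obtain ⟨γ, hγ0, hγ, hsum⟩ := exists_gamma hp hp' s ω hz
  set F : HE n d → ℝ := fun h => if Fine c (BE p s ω z h) then tM p s ω z h else 0 with hF
  set F' : HE n d → ℝ := fun h => if Fine c (BE p s ω z h) then tM p' s ω z h else 0 with hF'
  have b1 : ∀ h, |F h| ≤ 1 := by
    intro h
    simp only [hF]
    split_ifs
    · rw [abs_of_nonneg (tM_nonneg hp s ω hz h)]; exact tM_le_one hp s ω hz h
    · simp
  have b2 : ∀ h, |F' h| ≤ 1 := by
    intro h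
    simp only [hF']
    split_ifs
    · rw [abs_of_nonneg (tM_nonneg hp' s ω hz h)]; exact tM_le_one hp' s ω hz h
    · simp
  have key := stab_abstract (p := p) (p' := p') (η := z.im) hsum b1 b2 (C := 48 / c)
    (by positivity) (by
      intro h hh
      simp only [hF, hF']
      split_ifs with hfine
      · have hd : ∀ i j, ‖BE p' s ω z h i j - BE p s ω z h i j‖ ≤ γ h.1 ^ 2 + γ (p h).1 ^ 2 := by
          have hx : ∀ x y : Fin n, (x = h.1 ∨ x = (p h).1) → (y = h.1 ∨ y = (p h).1) →
              ‖Res (Hm (graphOf p') s ω) z x y - Res (Hm (graphOf p) s ω) z x y‖ ≤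
                γ h.1 ^ 2 + γ (p h).1 ^ 2 := by
            intro x y hx hy
            refine (hγ x y).trans ?_
            rcases hx with rfl | rfl <;> rcases hy with rfl | rfl <;>
              nlinarith [sq_nonneg (γ h.1), sq_nonneg (γ (p h).1),
                sq_nonneg (γ h.1 - γ (p h).1)]
          intro i j
          have e1 : BE p' s ω z h i j = Res (Hm (graphOf p') s ω) z (![h.1, (p h).1] i)
              (![h.1, (p h).1] j) := by
            rw [BE, ← hh]; rfl
          have e2 : BE p s ω z h i j = Res (Hm (graphOf p) s ω) z (![h.1, (p h).1] i)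
              (![h.1, (p h).1] j) := rfl
          rw [e1, e2]
          apply hx
          · fin_cases i <;> simp
          · fin_cases j <;> simp
        have := tauM_change hc (by positivity) (siegel_BE hp s ω hz h) (siegel_BE hp' s ω hz h)
          hfine.im hd
        calc |tM p' s ω z h - tM p s ω z h| ≤ 48 * (γ h.1 ^ 2 + γ (p h).1 ^ 2) / c := this
          _ = 48 / c * (γ h.1 ^ 2 + γ (p h).1 ^ 2) := by ring
      · simp only [sub_self, abs_zero]; positivity)
  have h1 : ∀ h, |tM p' s ω z h - tM p s ω z h| ≤ |F' h - F h| +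
      if ¬ Fine c (BE p s ω z h) then (1 : ℝ) else 0 := by
    intro h
    simp only [hF, hF']
    by_cases hfine : Fine c (BE p s ω z h)
    · simp [hfine]
    · simp only [hfine, if_false, sub_self, abs_zero, not_false_eq_true, if_true, zero_add]
      have a1 := tM_nonneg hp s ω hz h
      have a2 := tM_nonneg hp' s ω hz h
      have a3 := tM_le_one hp s ω hz h
      have a4 := tM_le_one hp' s ω hz h
      rw [abs_le]
      constructor <;> linarith
  refine (Finset.sum_le_sum fun h _ => h1 h).trans ?_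
  rw [Finset.sum_add_distrib, ← nfc_eq]
  have h2 : 2 * (48 / c) * d * ((Ch p p').card : ℝ) / z.im =
      96 * d * ((Ch p p').card : ℝ) / (c * z.im) := by
    field_simp
    ring
  rw [h2] at key
  linarith

/-! ### the one-step average -/

open Classical in
/-- pointwise bound of the gain after one switching -/
lemma tM_esw_le {p : Equiv.Perm (HE n d)} (hp : IsPort p) (s : ℝ) (ω : Fin n → ℝ) {z : ℂ}
    (hz : 0 < z.im) {c δ : ℝ} (hc : 0 < c) (hδ : 0 < δ) (hsmall : δ * 4 / c ≤ 1 / 3)
    (h0 b : HE n d) :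
    tM (SwE798.esw p (h0, b)).1 s ω z h0 ≤ tM p s ω z h0 * tM p s ω z (p b) + 72 * δ / c +
      (if ¬ SwE798.EV p h0 b then (1 : ℝ) else 0) +
      (if ¬ Fine c (BE p s ω z h0) then (1 : ℝ) else 0) +
      (if ¬ Fine c (BE p s ω z (p b)) then (1 : ℝ) else 0) +
      (if Fine c (BE p s ω z h0) ∧ δ ^ 2 < cpl2 (Res789.Res (Hm (graphOf p) s ω) z) p h0 b
        then (1 : ℝ) else 0) := by
  have n1 : 0 ≤ tM p s ω z h0 * tM p s ω z (p b) :=
    mul_nonneg (tM_nonneg hp s ω hz _) (tM_nonneg hp s ω hz _)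
  have n2 : 0 ≤ 72 * δ / c := by positivity
  have n3 : (0 : ℝ) ≤ if ¬ SwE798.EV p h0 b then (1 : ℝ) else 0 := by split_ifs <;> norm_num
  have n4 : (0 : ℝ) ≤ if ¬ Fine c (BE p s ω z h0) then (1 : ℝ) else 0 := by
    split_ifs <;> norm_num
  have n5 : (0 : ℝ) ≤ if ¬ Fine c (BE p s ω z (p b)) then (1 : ℝ) else 0 := by
    split_ifs <;> norm_num
  have n6 : (0 : ℝ) ≤ if Fine c (BE p s ω z h0) ∧
      δ ^ 2 < cpl2 (Res789.Res (Hm (graphOf p) s ω) z) p h0 b then (1 : ℝ) else 0 := by
    split_ifs <;> norm_num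
  have hone : tM (SwE798.esw p (h0, b)).1 s ω z h0 ≤ 1 :=
    tM_le_one (SwE798.esw_isPort hp (h0, b)) s ω hz h0
  by_cases hE : SwE798.EV p h0 b
  swap
  · rw [if_pos hE]; linarith
  by_cases hF : Fine c (BE p s ω z h0)
  swap
  · rw [if_pos hF]; linarith
  by_cases hG : Fine c (BE p s ω z (p b))
  swap
  · rw [if_pos hG]; linarith
  by_cases hC : δ ^ 2 < cpl2 (Res789.Res (Hm (graphOf p) s ω) z) p h0 b
  · rw [if_pos (⟨hF, hC⟩ : Fine c (BE p s ω z h0) ∧ _)]; linarith
  have hesw : (SwE798.esw p (h0, b)).1 = SwE798.np p h0 b := by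
    rw [SwE798.esw_pos (m := (h0, b)) hE]
  rw [hesw]
  have hd : ∀ i j, ‖Res (Hm (graphOf p) s ω) z (![h0.1, (p h0).1] i) (![(p b).1, b.1] j)‖ ≤ δ := by
    rw [not_lt] at hC
    unfold cpl2 at hC
    intro i j
    apply le_of_sq_le_sq _ hδ.le
    have e : ∀ x y, Res (Hm (graphOf p) s ω) z x y = Res789.Res (Hm (graphOf p) s ω) z x y :=
      fun _ _ => rfl
    rw [e]
    have q1 := sq_nonneg ‖Res789.Res (Hm (graphOf p) s ω) z h0.1 b.1‖
    have q2 := sq_nonneg ‖Res789.Res (Hm (graphOf p) s ω) z (p h0).1 b.1‖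
    have q3 := sq_nonneg ‖Res789.Res (Hm (graphOf p) s ω) z h0.1 (p b).1‖
    have q4 := sq_nonneg ‖Res789.Res (Hm (graphOf p) s ω) z (p h0).1 (p b).1‖
    fin_cases i <;> fin_cases j <;> simp <;> linarith
  have := tM_switch hp hE s ω hz hc hδ.le hsmall hF.im hG.im hd
  linarith

lemma card_HE' : (Fintype.card (HE n d) : ℝ) = n * d := by
  rw [IsPort.card_HE]; push_cast; ring

open Classical in
theorem g_le {p : Equiv.Perm (HE n d)} (hp : IsPort p) (hn : 0 < n) (hd : 0 < d) (s : ℝ)
    (ω : Fin n → ℝ) {z : ℂ} (hz : 0 < z.im) {c δ : ℝ} (hc : 0 < c) (hδ : 0 < δ)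
    (hsmall : δ * 4 / c ≤ 1 / 3) :
    gAvg (Finset.univ : Finset (HE n d × HE n d)) Prod.fst SwE798.esw
        (fun p h => tM p s ω z h) p ≤
      (nuAvg (Finset.univ : Finset (HE n d)) (fun p h => tM p s ω z h) p) ^ 2 +
        (72 * δ / c + 2 * (d + 2) / n + 2 * (nfc c p s ω z / (n * d)) +
          4 / (δ ^ 2 * c * (n * z.im))) := by
  have hn' : (0 : ℝ) < n := by exact_mod_cast hn
  have hd' : (0 : ℝ) < d := by exact_mod_cast hd
  set N : ℝ := n * d with hN
  have hNpos : 0 < N := by positivity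
  have hcard : (Fintype.card (HE n d) : ℝ) = N := card_HE'
  have hcard2 : ((Finset.univ : Finset (HE n d × HE n d)).card : ℝ) = N * N := by
    rw [Finset.card_univ, Fintype.card_prod]; push_cast; rw [hcard]
  set T : ℝ := ∑ h, tM p s ω z h with hT
  have hnu : nuAvg (Finset.univ : Finset (HE n d)) (fun p h => tM p s ω z h) p = T / N := by
    rw [nuAvg, Finset.card_univ, hcard]
  rw [gAvg, hcard2, hnu, div_le_iff₀ (by positivity), Fintype.sum_prod_type]
  have h1 : ∑ h0 : HE n d, ∑ b : HE n d, tM (SwE798.esw p (h0, b)).1 s ω z h0 ≤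
      ∑ h0 : HE n d, ∑ b : HE n d, (tM p s ω z h0 * tM p s ω z (p b) + 72 * δ / c +
      (if ¬ SwE798.EV p h0 b then (1 : ℝ) else 0) +
      (if ¬ Fine c (BE p s ω z h0) then (1 : ℝ) else 0) +
      (if ¬ Fine c (BE p s ω z (p b)) then (1 : ℝ) else 0) +
      (if Fine c (BE p s ω z h0) ∧ δ ^ 2 < cpl2 (Res789.Res (Hm (graphOf p) s ω) z) p h0 b
        then (1 : ℝ) else 0)) :=
    Finset.sum_le_sum fun h0 _ => Finset.sum_le_sum fun b _ =>
      tM_esw_le hp s ω hz hc hδ hsmall h0 b
  refine h1.trans ?_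
  simp only [Finset.sum_add_distrib]
  -- the six terms
  have t1 : ∑ h0 : HE n d, ∑ b : HE n d, tM p s ω z h0 * tM p s ω z (p b) = T * T := by
    rw [← Finset.sum_mul_sum, Equiv.sum_comp p (fun b => tM p s ω z b)]
  have t2 : ∑ _h0 : HE n d, ∑ _b : HE n d, 72 * δ / c = N * N * (72 * δ / c) := by
    rw [Finset.sum_const, Finset.sum_const, Finset.card_univ, nsmul_eq_mul, nsmul_eq_mul, hcard]
    ring
  have t3 : ∑ h0 : HE n d, ∑ b : HE n d, (if ¬ SwE798.EV p h0 b then (1 : ℝ) else 0) ≤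
      N * (2 * d * (d + 2)) := by
    calc _ ≤ ∑ _h0 : HE n d, (2 * d * (d + 2) : ℝ) := by
          refine Finset.sum_le_sum fun h0 _ => ?_
          rw [Finset.sum_boole]
          exact_mod_cast SwE798.card_not_EV hp h0
      _ = _ := by rw [Finset.sum_const, Finset.card_univ, nsmul_eq_mul, hcard]
  have t4 : ∑ h0 : HE n d, ∑ _b : HE n d, (if ¬ Fine c (BE p s ω z h0) then (1 : ℝ) else 0) =
      N * nfc c p s ω z := by
    simp only [Finset.sum_const, Finset.card_univ, nsmul_eq_mul, hcard]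
    rw [← Finset.mul_sum, nfc_eq]
  have t5 : ∑ _h0 : HE n d, ∑ b : HE n d, (if ¬ Fine c (BE p s ω z (p b)) then (1 : ℝ) else 0) =
      N * nfc c p s ω z := by
    rw [Finset.sum_const, Finset.card_univ, nsmul_eq_mul, hcard, nfc_eq,
      Equiv.sum_comp p (fun b => if ¬ Fine c (BE p s ω z b) then (1 : ℝ) else 0)]
  have t6 : ∑ h0 : HE n d, ∑ b : HE n d, (if Fine c (BE p s ω z h0) ∧
      δ ^ 2 < cpl2 (Res789.Res (Hm (graphOf p) s ω) z) p h0 b then (1 : ℝ) else 0) ≤
      N * (N * (4 / (δ ^ 2 * c * (n * z.im)))) := by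
    have hin : ∀ h0 : HE n d, ∑ b : HE n d, (if Fine c (BE p s ω z h0) ∧
        δ ^ 2 < cpl2 (Res789.Res (Hm (graphOf p) s ω) z) p h0 b then (1 : ℝ) else 0) ≤
        N * (4 / (δ ^ 2 * c * (n * z.im))) := by
      intro h0
      by_cases hF : Fine c (BE p s ω z h0)
      · have hM : (Res789.Res (Hm (graphOf p) s ω) z h0.1 h0.1).im +
            (Res789.Res (Hm (graphOf p) s ω) z (p h0).1 (p h0).1).im ≤ 2 / c := by
          have a1 := hF.le 0 0
          have a2 := hF.le 1 1
          have b1 : ‖Res789.Res (Hm (graphOf p) s ω) z h0.1 h0.1‖ ≤ c⁻¹ := a1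
          have b2 : ‖Res789.Res (Hm (graphOf p) s ω) z (p h0).1 (p h0).1‖ ≤ c⁻¹ := a2
          have c1 := (Complex.im_le_norm _).trans b1
          have c2 := (Complex.im_le_norm _).trans b2
          calc _ ≤ c⁻¹ + c⁻¹ := add_le_add c1 c2
            _ = 2 / c := by ring
        have key := pr1_cpl2 (Hm_symm (graphOf p) s ω) hz hd p h0 hδ hM
        unfold pr1 av1 at key
        rw [hcard, div_le_iff₀ hNpos] at key
        simp only [hF, true_and]
        refine key.trans (le_of_eq ?_)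
        field_simp
        ring
      · simp only [hF, false_and, if_false, Finset.sum_const_zero]
        positivity
    calc _ ≤ ∑ _h0 : HE n d, N * (4 / (δ ^ 2 * c * (n * z.im))) :=
          Finset.sum_le_sum fun h0 _ => hin h0
      _ = _ := by rw [Finset.sum_const, Finset.card_univ, nsmul_eq_mul, hcard]
  rw [t1, t2, t4, t5]
  have e1 : N * (2 * d * (d + 2)) = N * N * (2 * (d + 2) / n) := by
    rw [hN]; field_simp
  have e2 : N * nfc c p s ω z + N * nfc c p s ω z = N * N * (2 * (nfc c p s ω z / N)) := by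
    field_simp; ring
  have e3 : (T / N) ^ 2 * (N * N) = T * T := by field_simp
  have e4 : ((T / N) ^ 2 + (72 * δ / c + 2 * (d + 2) / n + 2 * (nfc c p s ω z / N) +
          4 / (δ ^ 2 * c * (n * z.im)))) * (N * N) =
      T * T + N * N * (72 * δ / c) + N * N * (2 * (d + 2) / n) +
        N * N * (2 * (nfc c p s ω z / N)) + N * (N * (4 / (δ ^ 2 * c * (n * z.im)))) := by
    rw [← e3]; ring
  rw [e4]
  linarith

end Crest.Agent.R166.F263
end

-- ▼ part R166/F2c_63

/-!
# Row 166, section 32: off-diagonals, part 3 (helper63): sum over the port graphs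
-/

set_option autoImplicit false
set_option linter.unusedSectionVars false

open Matrix Finset

namespace Crest.Agent.R166.F263

open Crest.Agent.R166 Crest.Agent.R166.Res598 Crest.Agent.R166.Dec598
open Crest.Agent.R166.TwoPort522 Crest.Agent.R166.Off522 Crest.Agent.R166.Stab269
open Crest.Agent.R166.DecP789 Crest.Agent.R166.Rev811 Crest.Agent.R166.Sec269

variable {n d : ℕ}

/-- average gain of a port graph -/
noncomputable def nuT (p : Equiv.Perm (HE n d)) (s : ℝ) (ω : Fin n → ℝ) (z : ℂ) : ℝ :=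
  nuAvg (Finset.univ : Finset (HE n d)) (fun p h => tM p s ω z h) p

/-- one-step average gain -/
noncomputable def gT (p : Equiv.Perm (HE n d)) (s : ℝ) (ω : Fin n → ℝ) (z : ℂ) : ℝ :=
  gAvg (Finset.univ : Finset (HE n d × HE n d)) Prod.fst SwE798.esw
        (fun p h => tM p s ω z h) p

lemma nuT_eq (p : Equiv.Perm (HE n d)) (s : ℝ) (ω : Fin n → ℝ) (z : ℂ) :
    nuT p s ω z = (∑ h, tM p s ω z h) / (n * d) := by
  rw [nuT, nuAvg, Finset.card_univ, card_HE']

lemma nuT_nonneg {p : Equiv.Perm (HE n d)} (hp : IsPort p) (s : ℝ) (ω : Fin n → ℝ) {z : ℂ}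
    (hz : 0 < z.im) : 0 ≤ nuT p s ω z := by
  rw [nuT_eq]
  exact div_nonneg (Finset.sum_nonneg fun h _ => tM_nonneg hp s ω hz h) (by positivity)

lemma nuT_le_one {p : Equiv.Perm (HE n d)} (hp : IsPort p) (s : ℝ) (ω : Fin n → ℝ) {z : ℂ}
    (hz : 0 < z.im) : nuT p s ω z ≤ 1 := by
  rw [nuT_eq]
  apply div_le_one_of_le₀ _ (by positivity)
  calc ∑ h, tM p s ω z h ≤ ∑ _h : HE n d, (1 : ℝ) :=
        Finset.sum_le_sum fun h _ => tM_le_one hp s ω hz h
    _ = n * d := by rw [Finset.sum_const, Finset.card_univ, nsmul_eq_mul, mul_one, card_HE']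

/-- second moment lemma for the gain, `L¹` form -/
theorem sum_nu_sub_g (hn : 0 < n) (hd : 0 < d) (s : ℝ)
    (ω : Fin n → ℝ) {z : ℂ} (hz : 0 < z.im) {c ε1 : ℝ} (hc : 0 < c)
    (hF1 : ∑ p ∈ Ports n d, nfc c p s ω z ≤ ε1 * (n * d) * (Ports n d).card) :
    ∑ p ∈ Ports n d, |nuT p s ω z - gT p s ω z| ≤
      Real.sqrt (2 * (384 / (c * (n * z.im)) + 8 / (n * d) + ε1) + 2 * (16 / n)) *
        (Ports n d).card := by
  have hn' : (0 : ℝ) < n := by exact_mod_cast hn
  have hd' : (0 : ℝ) < d := by exact_mod_cast hd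
  have : NeZero n := ⟨hn.ne'⟩
  have : NeZero d := ⟨hd.ne'⟩
  have hM : (Finset.univ : Finset (HE n d × HE n d)).Nonempty :=
    ⟨((0, 0), (0, 0)), Finset.mem_univ _⟩
  refine Sec522.first_moment_avg (SwE798.moveSystem1 n d) hM (fun p h => tM p s ω z h) ?_
    (16 / n) (384 / (c * (n * z.im)) + 8 / (n * d) + ε1) ?_ (SwE798.hcomm1 n d)
  · intro p hp e _
    have hp' := mem_Ports.1 hp
    rw [abs_of_nonneg (tM_nonneg hp' s ω hz e)]
    exact tM_le_one hp' s ω hz e
  · set M : ℝ := ((Finset.univ : Finset (HE n d × HE n d)).card : ℝ) with hMdef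
    have hM0 : 0 ≤ M := Nat.cast_nonneg _
    have hEd : ((Finset.univ : Finset (HE n d)).card : ℝ) = n * d := by
      rw [Finset.card_univ, card_HE']
    have h1 : ∀ p ∈ Ports n d, ∑ m : HE n d × HE n d, ∑ e : HE n d,
        |tM (SwE798.esw p m).1 s ω z e - tM p s ω z e| ≤
        M * (384 * d / (c * z.im) + 8 + nfc c p s ω z) := by
      intro p hp
      have hp' := mem_Ports.1 hp
      calc _ ≤ ∑ _m : HE n d × HE n d, (384 * d / (c * z.im) + 8 + nfc c p s ω z) := by
            refine Finset.sum_le_sum fun m _ => ?_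
            refine (stab_tM hp' (SwE798.esw_isPort hp' m) s ω hz hc).trans ?_
            have hCh : ((Ch p (SwE798.esw p m).1).card : ℝ) ≤ 4 := by
              exact_mod_cast SwE798.card_Ch_esw_le hp' m
            have h2 : 96 * d * ((Ch p (SwE798.esw p m).1).card : ℝ) / (c * z.im) ≤
                384 * d / (c * z.im) := by
              apply div_le_div_of_nonneg_right _ (by positivity)
              nlinarith
            linarith
        _ = _ := by rw [Finset.sum_const, nsmul_eq_mul]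
    refine (Finset.sum_le_sum h1).trans ?_
    rw [← Finset.mul_sum, Finset.sum_add_distrib, Finset.sum_const, nsmul_eq_mul, hEd]
    have h3 : ((Ports n d).card : ℝ) * (384 * d / (c * z.im) + 8) +
        ∑ p ∈ Ports n d, nfc c p s ω z ≤
        (384 / (c * (n * z.im)) + 8 / (n * d) + ε1) * (Ports n d).card * (n * d) := by
      have e1 : (384 / (c * (n * z.im)) + 8 / (n * d) + ε1) * (Ports n d).card * (n * d) =
          ((Ports n d).card : ℝ) * (384 * d / (c * z.im) + 8) +
            ε1 * (n * d) * (Ports n d).card := by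
        field_simp
      rw [e1]
      linarith
    calc M * (((Ports n d).card : ℝ) * (384 * d / (c * z.im) + 8) +
        ∑ p ∈ Ports n d, nfc c p s ω z) ≤
        M * ((384 / (c * (n * z.im)) + 8 / (n * d) + ε1) * (Ports n d).card * (n * d)) :=
          mul_le_mul_of_nonneg_left h3 hM0
      _ = _ := by ring

open Classical in
/-- **core of F2** -/
theorem f2_core (hn : 0 < n) (hd : 0 < d) (s : ℝ)
    (ω : Fin n → ℝ) {z : ℂ} (hz : 0 < z.im) {c δ ε1 q : ℝ} (hc : 0 < c) (hδ : 0 < δ)
    (hsmall : δ * 4 / c ≤ 1 / 3)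
    (hF1 : ∑ p ∈ Ports n d, nfc c p s ω z ≤ ε1 * (n * d) * (Ports n d).card)
    (hq : (((Ports n d).filter fun p => 1 / 2 < nuT p s ω z).card : ℝ) ≤
      q * (Ports n d).card) :
    ∑ p ∈ Ports n d, nuT p s ω z ≤
      (2 * (72 * δ / c + 2 * (d + 2) / n + 2 * ε1 + 4 / (δ ^ 2 * c * (n * z.im))) +
        2 * Real.sqrt (2 * (384 / (c * (n * z.im)) + 8 / (n * d) + ε1) + 2 * (16 / n)) + q) *
        (Ports n d).card := by
  have hn' : (0 : ℝ) < n := by exact_mod_cast hn
  have hd' : (0 : ℝ) < d := by exact_mod_cast hd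
  have h1 := sum_nu_sub_g hn hd s ω hz hc hF1
  have h2 : ∀ p ∈ Ports n d, nuT p s ω z ≤
      2 * (72 * δ / c + 2 * (d + 2) / n + 4 / (δ ^ 2 * c * (n * z.im))) +
        4 / (n * d) * nfc c p s ω z + 2 * |nuT p s ω z - gT p s ω z| +
        (if 1 / 2 < nuT p s ω z then (1 : ℝ) else 0) := by
    intro p hp
    have hp' := mem_Ports.1 hp
    have hg : gT p s ω z ≤ nuT p s ω z ^ 2 + (72 * δ / c + 2 * (d + 2) / n +
        2 * (nfc c p s ω z / (n * d)) + 4 / (δ ^ 2 * c * (n * z.im))) :=
      g_le hp' hn hd s ω hz hc hδ hsmall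
    have h0 := nuT_nonneg hp' s ω hz
    have h1' := nuT_le_one hp' s ω hz
    have hab := neg_abs_le (nuT p s ω z - gT p s ω z)
    have hab2 := le_abs_self (nuT p s ω z - gT p s ω z)
    have n2 : 0 ≤ 72 * δ / c := by positivity
    have n3 : 0 ≤ 2 * ((d : ℝ) + 2) / n := by positivity
    have n4 : 0 ≤ 4 / (δ ^ 2 * c * (n * z.im)) := by positivity
    have n5 : 0 ≤ 4 / (n * d : ℝ) * nfc c p s ω z :=
      mul_nonneg (by positivity) (nfc_nonneg _ _ _ _ _)
    have n6 : 2 * (2 * (nfc c p s ω z / (n * d : ℝ))) = 4 / (n * d : ℝ) * nfc c p s ω z := by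
      ring
    have n7 := abs_nonneg (nuT p s ω z - gT p s ω z)
    split_ifs with hh
    · linarith
    · have h3 : nuT p s ω z ^ 2 ≤ 1 / 2 * nuT p s ω z := by
        rw [sq]
        exact mul_le_mul_of_nonneg_right (not_lt.1 hh) h0
      linarith
  refine (Finset.sum_le_sum h2).trans ?_
  rw [Finset.sum_add_distrib, Finset.sum_add_distrib, Finset.sum_add_distrib, Finset.sum_const,
    ← Finset.mul_sum, ← Finset.mul_sum, Finset.sum_boole, nsmul_eq_mul]
  have h4 : 4 / (n * d : ℝ) * ∑ p ∈ Ports n d, nfc c p s ω z ≤ 4 * ε1 * (Ports n d).card := by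
    calc 4 / (n * d : ℝ) * ∑ p ∈ Ports n d, nfc c p s ω z ≤
        4 / (n * d : ℝ) * (ε1 * (n * d) * (Ports n d).card) :=
          mul_le_mul_of_nonneg_left hF1 (by positivity)
      _ = _ := by field_simp
  nlinarith

end Crest.Agent.R166.F263
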