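import Crest.Agent.R166.Dec2_598
import Crest.Agent.R166.OffDet_522

-- ▼ part R166/FineDet_522
section

/-!
# Row 166, section 32 (graph half), helper522: power balance in the decoupled tree

`power` : for the tree output `treeOut RT t (leafXi Sg C aJ uA)` and an external input `x` on the
tree, the dissipated power `P` controls the tree values at the parents of the good leaves and the
values at the good leaves; the tree equation holds.
-/

set_option autoImplicit false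
set_option linter.unusedSectionVars false

open Matrix

namespace Crest.Agent.R166.Fine522

open Crest.Agent.R166.Res598 Crest.Agent.R166.Dec598 Crest.Agent.R166.Off522

variable {ι κ : Type*} [Fintype ι] [DecidableEq ι] [Fintype κ] [DecidableEq κ]

lemma edgeM_mulVec (x y : κ → ι) (v : ι → ℂ) (p : ι) :
    (cx (edgeM x y) *ᵥ v) p =
      ∑ k, ((if p = x k then v (y k) else 0) + (if p = y k then v (x k) else 0)) := by
  simp only [Matrix.mulVec, dotProduct, cx_apply, edgeM_apply]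
  push_cast
  simp only [Finset.sum_mul]
  rw [Finset.sum_comm]
  refine Finset.sum_congr rfl fun k _ => ?_
  simp only [add_mul, Finset.sum_add_distrib]
  congr 1
  · by_cases h : p = x k
    · rw [if_pos h, Finset.sum_eq_single (y k)]
      · simp [h]
      · intro q _ hq
        simp [hq]
      · simp
    · simp [h]
  · by_cases h : p = y k
    · rw [if_pos h, Finset.sum_eq_single (x k)]
      · simp [h]
      · intro q _ hq
        simp [hq]
      · simp
    · simp [h]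

section main

variable {T B A J : Type*} [Fintype T] [DecidableEq T] [Fintype B] [DecidableEq B]
  [Fintype A] [DecidableEq A] [Fintype J] [DecidableEq J]

/-- decoupled system: tree, bad system, good cavity blocks -/
noncomputable def DD (RT : Matrix T T ℂ) (Sg : Matrix B B ℂ) (C : J → Matrix (Fin 2) (Fin 2) ℂ) :
    Matrix (Idx T B J) (Idx T B J) ℂ :=
  fromBlocks RT 0 0 (fromBlocks Sg 0 0 (blockDiagonal C))

/-- the new edges -/
def VV (aJ : J → B) (uA : A → B) (t : A ⊕ J → T) : Matrix (Idx T B J) (Idx T B J) ℝ :=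
  edgeM (fun j : J => (Sum.inr (Sum.inl (aJ j)) : Idx T B J)) (fun j => eJ j 1) +
    edgeM (fun i : A ⊕ J => (Sum.inl (t i) : Idx T B J)) (fun i => Sum.inr (uI uA i))

lemma VV_symm (aJ : J → B) (uA : A → B) (t : A ⊕ J → T) :
    (VV aJ uA t)ᵀ = VV aJ uA t := by
  rw [VV, Matrix.transpose_add, edgeM_symm, edgeM_symm]

lemma siegel_DD {RT : Matrix T T ℂ} (hRT : Siegel RT) {Sg : Matrix B B ℂ} (hSg : Siegel Sg)
    {C : J → Matrix (Fin 2) (Fin 2) ℂ} (hC : ∀ j, Siegel (C j)) : Siegel (DD RT Sg C) :=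
  siegel_fromBlocks hRT (siegel_fromBlocks hSg (siegel_blockDiagonal hC))

/-- the tree corner of the decoupled system -/
theorem mob_VV {RT : Matrix T T ℂ} (hRT : Siegel RT) {Sg : Matrix B B ℂ} (hSg : Siegel Sg)
    {C : J → Matrix (Fin 2) (Fin 2) ℂ} (hC : ∀ j, Siegel (C j))
    (aJ : J → B) {uA : A → B} (huA : Function.Injective uA) (t : A ⊕ J → T) :
    (mob (VV aJ uA t) (DD RT Sg C)).submatrix Sum.inl Sum.inl =
      treeOut RT t (leafXi Sg C aJ uA) := by
  set M0 : Matrix (B ⊕ (Fin 2 × J)) (B ⊕ (Fin 2 × J)) ℂ :=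
    fromBlocks Sg 0 0 (blockDiagonal C) with hM0
  have hM0s : Siegel M0 := siegel_fromBlocks hSg (siegel_blockDiagonal hC)
  have hD1 : Siegel (fromBlocks RT 0 0 M0) := siegel_fromBlocks hRT hM0s
  set E2 : Matrix (B ⊕ (Fin 2 × J)) (B ⊕ (Fin 2 × J)) ℝ :=
    edgeM (fun j : J => Sum.inl (aJ j)) (fun j => Sum.inr (1, j)) with hE2
  have hE2s : E2ᵀ = E2 := edgeM_symm _ _
  have hDD : DD RT Sg C = fromBlocks RT 0 0 M0 := rfl
  rw [hDD, VV, mob_add hD1 (edgeM_symm _ _) (edgeM_symm _ _)]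
  have h2 : edgeM (fun j : J => (Sum.inr (Sum.inl (aJ j)) : Idx T B J)) (fun j => eJ j 1) =
      fromBlocks 0 0 0 E2 := by
    rw [hE2, ← edgeM_inr]; rfl
  rw [h2, mob_fromBlocks hRT hM0s (Matrix.transpose_zero) hE2s, mob_zero]
  set M1 := mob E2 M0 with hM1
  have hM1s : Siegel M1 := siegel_mob hM0s hE2s
  have hf : Function.Injective (Sum.map id (uI uA) : T ⊕ (A ⊕ J) → Idx T B J) :=
    Sum.map_injective.2 ⟨Function.injective_id, uI_injective huA⟩
  have h3 : edgeM (fun i : A ⊕ J => (Sum.inl (t i) : Idx T B J)) (fun i => Sum.inr (uI uA i)) =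
      lift (emb (Sum.map id (uI uA) : T ⊕ (A ⊕ J) → Idx T B J)) (edgeM (Sum.inl ∘ t) Sum.inr) := by
    rw [lift_edgeM]; rfl
  rw [h3]
  have h4 := cor_mob (inj_emb hf) (siegel_fromBlocks hRT hM1s)
    (edgeM_symm (Sum.inl ∘ t : A ⊕ J → T ⊕ (A ⊕ J)) Sum.inr)
  rw [cor_emb, cor_emb] at h4
  have h5 : (fromBlocks RT 0 0 M1 : Matrix (Idx T B J) (Idx T B J) ℂ).submatrix
      (Sum.map id (uI uA)) (Sum.map id (uI uA)) = fromBlocks RT 0 0 (leafXi Sg C aJ uA) := by
    ext (x | x) (y | y) <;> rfl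
  rw [h5] at h4
  have h6 := congrArg (fun M : Matrix (T ⊕ (A ⊕ J)) (T ⊕ (A ⊕ J)) ℂ =>
    M.submatrix Sum.inl Sum.inl) h4
  exact h6

/-- the new edges applied to a vector, at the first site of a good block -/
lemma VV_eJ0 (aJ : J → B) (uA : A → B) (t : A ⊕ J → T) (Y : Idx T B J → ℂ) (j : J) :
    (cx (VV aJ uA t) *ᵥ Y) (eJ j 0) = Y (Sum.inl (t (Sum.inr j))) := by
  rw [VV, cx_add, Matrix.add_mulVec, Pi.add_apply, edgeM_mulVec, edgeM_mulVec]
  have h1 : ∑ k : J, ((if (eJ j 0 : Idx T B J) = Sum.inr (Sum.inl (aJ k)) then Y (eJ k 1) else 0) +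
      (if (eJ j 0 : Idx T B J) = eJ k 1 then Y (Sum.inr (Sum.inl (aJ k))) else 0)) = 0 := by
    refine Finset.sum_eq_zero fun k _ => ?_
    rw [if_neg, if_neg, add_zero]
    · intro h
      simp [eJ] at h
    · intro h
      simp [eJ] at h
  rw [h1, zero_add, Finset.sum_eq_single (Sum.inr j)]
  · simp [eJ, uI]
  · rintro (a | k) _ hk
    · rw [if_neg, if_neg, add_zero]
      · intro h
        simp [eJ, uI] at h
      · intro h
        simp [eJ] at h
    · rw [if_neg, if_neg, add_zero]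
      · intro h
        simp only [eJ, uI, Sum.elim_inr, Sum.inr.injEq, Prod.mk.injEq, true_and] at h
        exact hk (by rw [h])
      · intro h
        simp [eJ] at h
  · simp

/-- the new edges applied to a vector, on the tree -/
lemma VV_inl (aJ : J → B) (uA : A → B) (t : A ⊕ J → T) (Y : Idx T B J → ℂ) (τ : T) :
    (cx (VV aJ uA t) *ᵥ Y) (Sum.inl τ) =
      ∑ i : A ⊕ J, if τ = t i then Y (Sum.inr (uI uA i)) else 0 := by
  rw [VV, cx_add, Matrix.add_mulVec, Pi.add_apply, edgeM_mulVec, edgeM_mulVec]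
  have h1 : ∑ k : J, ((if (Sum.inl τ : Idx T B J) = Sum.inr (Sum.inl (aJ k)) then Y (eJ k 1)
      else 0) + (if (Sum.inl τ : Idx T B J) = eJ k 1 then Y (Sum.inr (Sum.inl (aJ k))) else 0)) =
      0 := by
    refine Finset.sum_eq_zero fun k _ => ?_
    simp [eJ]
  rw [h1, zero_add]
  refine Finset.sum_congr rfl fun i _ => ?_
  simp [Sum.inl.injEq]

/-- **power balance** -/
theorem power {RT : Matrix T T ℂ} (hRT : Siegel RT) {Sg : Matrix B B ℂ} (hSg : Siegel Sg)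
    {C : J → Matrix (Fin 2) (Fin 2) ℂ} (hC : ∀ j, Siegel (C j))
    (aJ : J → B) {uA : A → B} (huA : Function.Injective uA) (t : A ⊕ J → T)
    {c M : ℝ} (hc : 0 < c) (hge : ∀ j, ImGe c (C j)) (hM : ∀ j i k, ‖C j i k‖ ≤ M)
    (x : T → ℂ) :
    ∃ yu : A ⊕ J → ℂ,
      (∀ τ, x τ - (RT⁻¹ *ᵥ (treeOut RT t (leafXi Sg C aJ uA) *ᵥ x)) τ =
        ∑ i : A ⊕ J, if τ = t i then yu i else 0) ∧
      (∀ j : J, c * ‖(treeOut RT t (leafXi Sg C aJ uA) *ᵥ x) (t (Sum.inr j))‖ ^ 2 ≤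
        qf (imM (treeOut RT t (leafXi Sg C aJ uA))) x) ∧
      (∀ j : J, c * ‖yu (Sum.inr j)‖ ^ 2 ≤
        2 * M ^ 2 * qf (imM (treeOut RT t (leafXi Sg C aJ uA))) x) := by
  have hDs := siegel_DD hRT hSg hC
  have hVs := VV_symm aJ uA t
  set D := DD RT Sg C with hD
  set V := VV aJ uA t with hV
  set Q := mob V D with hQ
  have hcorner : Q.submatrix Sum.inl Sum.inl = treeOut RT t (leafXi Sg C aJ uA) := by
    rw [hQ, hV, hD]; exact mob_VV hRT hSg hC aJ huA t
  set O := treeOut RT t (leafXi Sg C aJ uA) with hO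
  set X : Idx T B J → ℂ := cx (emb (Sum.inl : T → Idx T B J)) *ᵥ x with hX
  have hXl : ∀ τ, X (Sum.inl τ) = x τ := fun τ => emb_mulVec_apply Sum.inl_injective x τ
  have hXr : ∀ y, X (Sum.inr y) = 0 := by
    intro y
    rw [hX, emb_mulVec]
    simp
  set b := (1 + cx V * D)⁻¹ *ᵥ X with hb
  set Y := D *ᵥ b with hY
  have hu := hDs.isUnit_one_add_mul' hVs
  have hbX : b + cx V *ᵥ Y = X := by
    have : (1 + cx V * D) *ᵥ b = X := by
      rw [hb, Matrix.mulVec_mulVec, Matrix.mul_nonsing_inv _ hu, Matrix.one_mulVec]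
    rw [← this, Matrix.add_mulVec, Matrix.one_mulVec, ← Matrix.mulVec_mulVec]
  have hYQ : Y = Q *ᵥ X := by
    rw [hY, hb, Matrix.mulVec_mulVec, hQ, mob]
  have hYl : ∀ τ, Y (Sum.inl τ) = (O *ᵥ x) τ := by
    intro τ
    rw [hYQ, ← hcorner]
    simp only [Matrix.mulVec, dotProduct, Fintype.sum_sum_type, hXl, hXr, mul_zero,
      Finset.sum_const_zero, add_zero, Matrix.submatrix_apply]
  have hP : qf (imM O) x = qf (imM D) b := by
    rw [← hcorner, ← cor_emb, qf_cor _ (mob_symm hDs hVs), ← hX, qf_mob hDs hVs]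
  have hPge : ∀ j, qf (imM (C j)) (fun i => b (eJ j i)) ≤ qf (imM O) x := by
    intro j
    rw [hP, hD, DD, qf_fromBlocks hRT.symm (siegel_fromBlocks hSg (siegel_blockDiagonal hC)).symm,
      qf_fromBlocks hSg.symm (siegel_blockDiagonal hC).symm,
      qf_blockDiagonal fun k => (hC k).symm]
    have h1 := qf_nonneg hRT.pos.posSemidef (b ∘ Sum.inl)
    have h2 := qf_nonneg hSg.pos.posSemidef ((b ∘ Sum.inr) ∘ Sum.inl)
    have h3 := Finset.single_le_sum (f := fun k => qf (imM (C k))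
      (fun i => ((b ∘ Sum.inr) ∘ Sum.inr) (i, k)))
      (fun k _ => qf_nonneg (hC k).pos.posSemidef _) (Finset.mem_univ j)
    have h4 : (fun i => ((b ∘ Sum.inr) ∘ Sum.inr) (i, j)) = fun i => b (eJ j i) := rfl
    rw [h4] at h3
    linarith
  have hb0 : ∀ j, b (eJ j 0) = - (O *ᵥ x) (t (Sum.inr j)) := by
    intro j
    have h1 := congrFun hbX (eJ j 0)
    rw [Pi.add_apply, hV, VV_eJ0, hYl] at h1
    have h2 : X (eJ j 0) = 0 := hXr _
    rw [h2] at h1
    exact eq_neg_of_add_eq_zero_left h1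
  refine ⟨fun i => Y (Sum.inr (uI uA i)), ?_, ?_, ?_⟩
  · intro τ
    have h1 := congrFun hbX (Sum.inl τ)
    rw [Pi.add_apply, hV, VV_inl, hXl] at h1
    have h2 : (RT⁻¹ *ᵥ (O *ᵥ x)) τ = b (Sum.inl τ) := by
      have h3 : (O *ᵥ x) = RT *ᵥ (b ∘ Sum.inl) := by
        ext σ
        rw [← hYl, hY, hD, DD]
        simp [Matrix.mulVec, dotProduct, Fintype.sum_sum_type]
      rw [h3, Matrix.mulVec_mulVec, Matrix.nonsing_inv_mul _ hRT.isUnit, Matrix.one_mulVec]
      rfl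
    rw [h2, ← h1]
    ring
  · intro j
    have h1 := hge j (fun i => b (eJ j i))
    rw [Fin.sum_univ_two] at h1
    have h2 := hPge j
    have h3 : ‖b (eJ j 0)‖ = ‖(O *ᵥ x) (t (Sum.inr j))‖ := by rw [hb0, norm_neg]
    rw [h3] at h1
    have h4 : 0 ≤ c * ‖b (eJ j 1)‖ ^ 2 := by positivity
    linarith
  · intro j
    have h1 := hge j (fun i => b (eJ j i))
    rw [Fin.sum_univ_two] at h1
    have h2 := hPge j
    have hM0 : 0 ≤ M := (norm_nonneg _).trans (hM j 0 0)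
    have h5 : Y (Sum.inr (uI uA (Sum.inr j))) = C j 0 0 * b (eJ j 0) + C j 0 1 * b (eJ j 1) := by
      have h6 : (Sum.inr (uI uA (Sum.inr j)) : Idx T B J) = eJ j 0 := rfl
      rw [h6, hY, hD, DD]
      simp only [Matrix.mulVec, dotProduct, Fintype.sum_sum_type, Fintype.sum_prod_type, eJ,
        fromBlocks_apply₂₁, fromBlocks_apply₂₂, Matrix.zero_apply, zero_mul,
        Finset.sum_const_zero, zero_add, blockDiagonal_apply, Fin.sum_univ_two]
      congr 1
      · rw [Finset.sum_eq_single j]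
        · simp
        · intro k _ hk
          rw [if_neg (fun h => hk h.symm), zero_mul]
        · simp
      · rw [Finset.sum_eq_single j]
        · simp
        · intro k _ hk
          rw [if_neg (fun h => hk h.symm), zero_mul]
        · simp
    have h7 : ‖Y (Sum.inr (uI uA (Sum.inr j)))‖ ≤ M * ‖b (eJ j 0)‖ + M * ‖b (eJ j 1)‖ := by
      rw [h5]
      refine (norm_add_le _ _).trans (add_le_add ?_ ?_)
      · rw [norm_mul]; exact mul_le_mul_of_nonneg_right (hM j 0 0) (norm_nonneg _)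
      · rw [norm_mul]; exact mul_le_mul_of_nonneg_right (hM j 0 1) (norm_nonneg _)
    have h8 : ‖Y (Sum.inr (uI uA (Sum.inr j)))‖ ^ 2 ≤
        2 * M ^ 2 * (‖b (eJ j 0)‖ ^ 2 + ‖b (eJ j 1)‖ ^ 2) := by
      calc _ ≤ (M * ‖b (eJ j 0)‖ + M * ‖b (eJ j 1)‖) ^ 2 :=
            pow_le_pow_left₀ (norm_nonneg _) h7 2
        _ ≤ _ := by nlinarith [sq_nonneg (M * (‖b (eJ j 0)‖ - ‖b (eJ j 1)‖))]
    calc c * ‖Y (Sum.inr (uI uA (Sum.inr j)))‖ ^ 2
        ≤ c * (2 * M ^ 2 * (‖b (eJ j 0)‖ ^ 2 + ‖b (eJ j 1)‖ ^ 2)) :=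
          mul_le_mul_of_nonneg_left h8 hc.le
      _ = 2 * M ^ 2 * (c * (‖b (eJ j 0)‖ ^ 2 + ‖b (eJ j 1)‖ ^ 2)) := by ring
      _ ≤ 2 * M ^ 2 * qf (imM O) x :=
          mul_le_mul_of_nonneg_left (h1.trans h2) (by positivity)

end main

end Crest.Agent.R166.Fine522
end

-- ▼ part R166/FineDet2_522

/-!
# Row 166, section 32 (graph half), helper522: fineness

* `Fine.mob`   : fineness is preserved by adding / removing an edge
* `fine_near`  : fineness is preserved by `Near`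
* `fine_tree2` : the root block of the two-sided tree of depth 2 is fine as soon as every child has
  a good leaf and every root has a child with only good leaves
-/

set_option autoImplicit false
set_option linter.unusedSectionVars false

open Matrix

namespace Crest.Agent.R166.Fine522

open Crest.Agent.R166.Res598 Crest.Agent.R166.Dec598 Crest.Agent.R166.Off522

variable {ι κ : Type*} [Fintype ι] [DecidableEq ι] [Fintype κ] [DecidableEq κ]

lemma l2_add_le (x y : ι → ℂ) : l2 (x + y) ≤ l2 x + l2 y := by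
  unfold l2
  have h1 : ∑ i, ‖x i‖ * ‖y i‖ ≤ Real.sqrt (∑ i, ‖x i‖ ^ 2) * Real.sqrt (∑ i, ‖y i‖ ^ 2) :=
    Real.sum_mul_le_sqrt_mul_sqrt _ _ _
  apply Real.sqrt_le_iff.2
  refine ⟨by positivity, ?_⟩
  have h2 : ∑ i, ‖(x + y) i‖ ^ 2 ≤ ∑ i, (‖x i‖ ^ 2 + 2 * (‖x i‖ * ‖y i‖) + ‖y i‖ ^ 2) := by
    refine Finset.sum_le_sum fun i _ => ?_
    have := norm_add_le (x i) (y i)
    have h3 : ‖x i + y i‖ ^ 2 ≤ (‖x i‖ + ‖y i‖) ^ 2 := pow_le_pow_left₀ (norm_nonneg _) this 2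
    rw [Pi.add_apply]
    nlinarith
  rw [Finset.sum_add_distrib, Finset.sum_add_distrib, ← Finset.mul_sum] at h2
  have h3 := Real.sq_sqrt (show 0 ≤ ∑ i, ‖x i‖ ^ 2 by positivity)
  have h4 := Real.sq_sqrt (show 0 ≤ ∑ i, ‖y i‖ ^ 2 by positivity)
  nlinarith

lemma l2_mulVec_le {M : ℝ} {Z : Matrix ι ι ℂ} (hM : ∀ i j, ‖Z i j‖ ≤ M) (hM0 : 0 ≤ M)
    (x : ι → ℂ) : l2 (Z *ᵥ x) ≤ Fintype.card ι * M * l2 x := by
  have h1 : ∀ i, ‖(Z *ᵥ x) i‖ ≤ M * (Real.sqrt (Fintype.card ι) * l2 x) := by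
    intro i
    calc ‖(Z *ᵥ x) i‖ ≤ ∑ j, ‖Z i j‖ * ‖x j‖ := by
          simp only [Matrix.mulVec, dotProduct]
          refine (norm_sum_le _ _).trans (Finset.sum_le_sum fun j _ => ?_)
          rw [norm_mul]
      _ ≤ ∑ j, M * ‖x j‖ :=
          Finset.sum_le_sum fun j _ => mul_le_mul_of_nonneg_right (hM i j) (norm_nonneg _)
      _ = M * ∑ j, ‖x j‖ := by rw [Finset.mul_sum]
      _ ≤ _ := mul_le_mul_of_nonneg_left (sum_norm_le x) hM0
  have h0 : 0 ≤ M * (Real.sqrt (Fintype.card ι) * l2 x) :=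
    mul_nonneg hM0 (mul_nonneg (Real.sqrt_nonneg _) (l2_nonneg _))
  have h2 : ∑ i, ‖(Z *ᵥ x) i‖ ^ 2 ≤ (Fintype.card ι * M * l2 x) ^ 2 := by
    calc ∑ i, ‖(Z *ᵥ x) i‖ ^ 2 ≤ ∑ _i : ι, (M * (Real.sqrt (Fintype.card ι) * l2 x)) ^ 2 :=
          Finset.sum_le_sum fun i _ => pow_le_pow_left₀ (norm_nonneg _) (h1 i) 2
      _ = Fintype.card ι * (M * (Real.sqrt (Fintype.card ι) * l2 x)) ^ 2 := by
          rw [Finset.sum_const, nsmul_eq_mul, Finset.card_univ]
      _ = (Fintype.card ι * M * l2 x) ^ 2 := by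
          have := Real.sq_sqrt (Nat.cast_nonneg (α := ℝ) (Fintype.card ι))
          rw [mul_pow, mul_pow, this]; ring
  exact Real.sqrt_le_iff.2 ⟨mul_nonneg (mul_nonneg (Nat.cast_nonneg _) hM0) (l2_nonneg _), h2⟩

lemma norm_dot_le_l2 (x y : ι → ℂ) : ‖star x ⬝ᵥ y‖ ≤ l2 x * l2 y := by
  unfold dotProduct
  refine (norm_sum_le _ _).trans ?_
  have h := Real.sum_mul_le_sqrt_mul_sqrt Finset.univ (fun i => ‖x i‖) (fun i => ‖y i‖)
  refine le_trans (le_of_eq ?_) h
  refine Finset.sum_congr rfl fun i _ => ?_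
  rw [norm_mul, Pi.star_apply, norm_star]

/-- power is at most `|x| |Z x|` -/
lemma qf_le_l2 {Z : Matrix ι ι ℂ} (hZ : Zᵀ = Z) (x : ι → ℂ) :
    qf (imM Z) x ≤ l2 x * l2 (Z *ᵥ x) := by
  rw [← im_form hZ]
  exact (Complex.abs_im_le_norm _ |> (le_abs_self _).trans).trans (norm_dot_le_l2 _ _)

lemma qf_ge_l2 {c : ℝ} {Z : Matrix ι ι ℂ} (h : ImGe c Z) (x : ι → ℂ) :
    c * l2 x ^ 2 ≤ qf (imM Z) x := by
  rw [l2_sq]; exact h x

/-- if `|Z x|² ≤ K qf (Im Z) x` for all `x` then `|Z x| ≤ K |x|` -/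
lemma l2_le_of_power {Z : Matrix ι ι ℂ} (hZ : Zᵀ = Z) {K : ℝ} (hK : 0 ≤ K) {x : ι → ℂ}
    (h : l2 (Z *ᵥ x) ^ 2 ≤ K * qf (imM Z) x) : l2 (Z *ᵥ x) ≤ K * l2 x := by
  have h1 := qf_le_l2 hZ x
  have h2 : l2 (Z *ᵥ x) ^ 2 ≤ K * (l2 x * l2 (Z *ᵥ x)) :=
    h.trans (mul_le_mul_of_nonneg_left h1 hK)
  rcases (l2_nonneg (Z *ᵥ x)).eq_or_lt with h0 | h0
  · rw [← h0]; exact mul_nonneg hK (l2_nonneg _)
  · have h3 : l2 (Z *ᵥ x) * l2 (Z *ᵥ x) ≤ (K * l2 x) * l2 (Z *ᵥ x) := by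
      rw [← sq]; linarith
    exact le_of_mul_le_mul_right h3 h0

lemma l2_single (i : ι) : l2 (Pi.single i (1 : ℂ)) = 1 := by
  unfold l2
  rw [Finset.sum_eq_single i]
  · simp
  · intro j _ hj
    rw [Pi.single_eq_of_ne hj]; simp
  · simp

lemma entry_le_of_l2 {Z : Matrix ι ι ℂ} {K : ℝ} (h : ∀ x, l2 (Z *ᵥ x) ≤ K * l2 x) (i j : ι) :
    ‖Z i j‖ ≤ K := by
  have h1 := (norm_le_l2 (Z *ᵥ Pi.single j 1) i).trans (h _)
  rw [l2_single, mul_one] at h1
  simpa using h1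

/-- constant of `Fine.mob` -/
noncomputable def kap1 (N : ℕ) (c : ℝ) : ℝ := min (c / (1 + N / c) ^ 2) (c ^ 3 / (N + 1) ^ 2)

lemma kap1_pos {N : ℕ} {c : ℝ} (hc : 0 < c) : 0 < kap1 N c := by
  unfold kap1
  apply lt_min <;> positivity

/-- fineness is preserved by the Moebius action of `V`, `|V| ≤ 1` -/
theorem _root_.Crest.Agent.R166.Off522.Fine.mobV {c : ℝ} {Z : Matrix ι ι ℂ} (h : Fine c Z)
    {V : Matrix ι ι ℝ} (hV : Vᵀ = V) (hV1 : ∀ y, l2 (cx V *ᵥ y) ≤ l2 y) :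
    Fine (kap1 (Fintype.card ι) c) (mob V Z) := by
  have hZ := h.siegel
  have hc := h.pos
  set N : ℝ := (Fintype.card ι : ℝ) with hN
  have hN0 : 0 ≤ N := Nat.cast_nonneg _
  have hZl : ∀ w, l2 (Z *ᵥ w) ≤ N / c * l2 w := by
    intro w
    have := l2_mulVec_le h.le (inv_nonneg.2 hc.le) w
    rwa [← div_eq_mul_inv] at this
  have hu := hZ.isUnit_one_add_mul' hV
  have hw : ∀ x : ι → ℂ, ∃ w, x = w + cx V *ᵥ (Z *ᵥ w) ∧ mob V Z *ᵥ x = Z *ᵥ w ∧
      qf (imM (mob V Z)) x = qf (imM Z) w := by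
    intro x
    refine ⟨(1 + cx V * Z)⁻¹ *ᵥ x, ?_, ?_, qf_mob hZ hV x⟩
    · have : (1 + cx V * Z) *ᵥ ((1 + cx V * Z)⁻¹ *ᵥ x) = x := by
        rw [Matrix.mulVec_mulVec, Matrix.mul_nonsing_inv _ hu, Matrix.one_mulVec]
      conv_lhs => rw [← this]
      rw [Matrix.add_mulVec, Matrix.one_mulVec, ← Matrix.mulVec_mulVec]
    · rw [mob, ← Matrix.mulVec_mulVec]
  have hs := mob_symm hZ hV
  refine ⟨hs, kap1_pos hc, ?_, ?_⟩
  · intro x
    obtain ⟨w, hx, -, hq⟩ := hw x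
    rw [hq]
    have h1 : l2 x ≤ (1 + N / c) * l2 w := by
      calc l2 x ≤ l2 w + l2 (cx V *ᵥ (Z *ᵥ w)) := by
            conv_lhs => rw [hx]
            exact l2_add_le _ _
        _ ≤ l2 w + N / c * l2 w := by linarith [hV1 (Z *ᵥ w), hZl w]
        _ = _ := by ring
    have h2 : kap1 (Fintype.card ι) c ≤ c / (1 + N / c) ^ 2 := min_le_left _ _
    have h3 : l2 x ^ 2 ≤ (1 + N / c) ^ 2 * l2 w ^ 2 := by
      rw [← mul_pow]; exact pow_le_pow_left₀ (l2_nonneg _) h1 2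
    rw [← l2_sq]
    calc kap1 (Fintype.card ι) c * l2 x ^ 2 ≤ c / (1 + N / c) ^ 2 * ((1 + N / c) ^ 2 * l2 w ^ 2) :=
          mul_le_mul h2 h3 (by positivity) (by positivity)
      _ = c * l2 w ^ 2 := by field_simp
      _ ≤ _ := qf_ge_l2 h.im w
  · have key : ∀ x, l2 (mob V Z *ᵥ x) ≤ (N / c) ^ 2 / c * l2 x := by
      intro x
      apply l2_le_of_power hs (by positivity)
      obtain ⟨w, -, hy, hq⟩ := hw x
      rw [hq, hy]
      have h1 : l2 (Z *ᵥ w) ^ 2 ≤ (N / c) ^ 2 * l2 w ^ 2 := by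
        rw [← mul_pow]; exact pow_le_pow_left₀ (l2_nonneg _) (hZl w) 2
      calc l2 (Z *ᵥ w) ^ 2 ≤ (N / c) ^ 2 * l2 w ^ 2 := h1
        _ = (N / c) ^ 2 / c * (c * l2 w ^ 2) := by field_simp
        _ ≤ _ := mul_le_mul_of_nonneg_left (qf_ge_l2 h.im w) (by positivity)
    intro i j
    refine (entry_le_of_l2 key i j).trans ?_
    have h2 : kap1 (Fintype.card ι) c ≤ c ^ 3 / (N + 1) ^ 2 := min_le_right _ _
    have h3 : (c ^ 3 / (N + 1) ^ 2)⁻¹ ≤ (kap1 (Fintype.card ι) c)⁻¹ :=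
      inv_anti₀ (kap1_pos hc) h2
    refine le_trans ?_ h3
    rw [inv_div, div_pow, div_div, ← pow_succ]
    apply div_le_div_of_nonneg_right _ (by positivity)
    nlinarith

lemma l2_W2r (y : Fin 2 → ℂ) : l2 (cx W2r *ᵥ y) = l2 y := by
  unfold l2
  congr 1
  simp [Fin.sum_univ_two, Matrix.mulVec, dotProduct, W2r, add_comm]

lemma l2_neg_W2r (y : Fin 2 → ℂ) : l2 (cx (-W2r) *ᵥ y) = l2 y := by
  unfold l2
  congr 1
  simp [Fin.sum_univ_two, Matrix.mulVec, dotProduct, W2r, add_comm]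

/-- fineness of the cavity block -/
theorem _root_.Crest.Agent.R166.Off522.Fine.cavB {c : ℝ} {Z : Matrix (Fin 2) (Fin 2) ℂ}
    (h : Fine c Z) : Fine (kap1 2 c) (Stab269.cavB Z) := by
  rw [cavB_eq_mob h.siegel]
  have hV : (-W2r)ᵀ = -W2r := by rw [Matrix.transpose_neg, W2r_symm]
  have := h.mobV hV (fun y => (l2_neg_W2r y).le)
  simpa using this

/-- fineness of the block with the edge from the cavity block -/
theorem fine_of_cavB {c : ℝ} {Z : Matrix (Fin 2) (Fin 2) ℂ} (hZ : Siegel Z)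
    (h : Fine c (Stab269.cavB Z)) : Fine (kap1 2 c) Z := by
  have hV : (-W2r)ᵀ = -W2r := by rw [Matrix.transpose_neg, W2r_symm]
  have e : Z = mob W2r (Stab269.cavB Z) := by
    rw [cavB_eq_mob hZ, ← mob_add hZ hV W2r_symm, neg_add_cancel, mob_zero]
  have := h.mobV W2r_symm (fun y => (l2_W2r y).le)
  rw [← e] at this
  simpa using this

lemma _root_.Crest.Agent.R166.Off522.Fine.mono {c c' : ℝ} {Z : Matrix ι ι ℂ} (h : Fine c Z)
    (hc' : 0 < c') (hcc : c' ≤ c) : Fine c' Z := by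
  refine ⟨h.symm, hc', fun x => ?_, fun i j => ?_⟩
  · exact (mul_le_mul_of_nonneg_right hcc (by positivity)).trans (h.im x)
  · exact (h.le i j).trans (inv_anti₀ hc' hcc)

/-- fineness is preserved by `Near` -/
theorem fine_near {c ε : ℝ} {Z Z' : Matrix ι ι ℂ} (h : Fine c Z) (hε : ε ≤ 1 / 2)
    (hn : Near ε Z Z') : Fine (c / 2) Z' := by
  have hZ := h.siegel
  have hc := h.pos
  refine ⟨hn.1, by linarith, fun x => ?_, fun i j => ?_⟩
  · have h1 := hn.qf_ge hZ x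
    have h2 := h.im x
    have h3 := qf_nonneg hZ.pos.posSemidef x
    have h4 : 0 ≤ ∑ i, ‖x i‖ ^ 2 := by positivity
    nlinarith
  · have h1 := hn.2 (Pi.single i 1) (Pi.single j 1)
    have e1 : (Pi.single i (1 : ℂ)) ⬝ᵥ ((Z' - Z) *ᵥ Pi.single j 1) = Z' i j - Z i j := by
      simp
    rw [e1] at h1
    have hq : ∀ k : ι, nq (imM Z) (Pi.single k 1) ^ 2 ≤ c⁻¹ := by
      intro k
      rw [nq_sq hZ.pos.posSemidef, ← im_form hZ.symm]
      have e2 : (star (Pi.single k (1 : ℂ)) ⬝ᵥ (Z *ᵥ Pi.single k 1)) = Z k k := by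
        have e3 : star (Pi.single k (1 : ℂ)) = (Pi.single k (1 : ℂ) : ι → ℂ) := by
          rw [← Pi.single_star, star_one]
        rw [e3]; simp
      rw [e2]
      exact ((le_abs_self _).trans (Complex.abs_im_le_norm _)).trans (h.le k k)
    have hcs : 0 ≤ c⁻¹ := inv_nonneg.2 hc.le
    have h5 : nq (imM Z) (Pi.single i 1) * nq (imM Z) (Pi.single j 1) ≤ c⁻¹ := by
      have := hq i
      have := hq j
      nlinarith [sq_nonneg (nq (imM Z) (Pi.single i 1) - nq (imM Z) (Pi.single j 1))]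
    have h6 : 0 ≤ nq (imM Z) (Pi.single i 1) * nq (imM Z) (Pi.single j 1) :=
      mul_nonneg (nq_nonneg _ _) (nq_nonneg _ _)
    have h7 : ‖Z' i j - Z i j‖ ≤ 1 / 2 * c⁻¹ := by
      calc ‖Z' i j - Z i j‖ ≤ ε * (nq (imM Z) (Pi.single i 1) * nq (imM Z) (Pi.single j 1)) := by
            rw [← mul_assoc]; exact h1
        _ ≤ 1 / 2 * (nq (imM Z) (Pi.single i 1) * nq (imM Z) (Pi.single j 1)) :=
            mul_le_mul_of_nonneg_right hε h6
        _ ≤ 1 / 2 * c⁻¹ := mul_le_mul_of_nonneg_left h5 (by norm_num)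
    have h8 : ‖Z' i j‖ ≤ ‖Z i j‖ + ‖Z' i j - Z i j‖ := by
      have := norm_add_le (Z i j) (Z' i j - Z i j)
      rwa [add_sub_cancel] at this
    have h9 := h.le i j
    have h10 : (c / 2)⁻¹ = 2 * c⁻¹ := by rw [inv_div]; field_simp
    rw [h10]
    linarith

/-! ### the two-sided tree of depth two -/

section tree2

variable {T B A J K : Type*} [Fintype B] [DecidableEq B]
  [Fintype A] [DecidableEq A] [Fintype J] [DecidableEq J] [Fintype K] [DecidableEq K]

/-- the two roots -/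
def r2 : Fin 2 → Bool × Option K := ![(false, none), (true, none)]

lemma r2_inj : Function.Injective (r2 : Fin 2 → Bool × Option K) := by
  intro i j h
  fin_cases i <;> fin_cases j <;> simp_all [r2]

/-- constants of `fine_tree2` -/
noncomputable def C1 (N : ℕ) (Z0 M : ℝ) : ℝ := Z0 + 1 + 2 * N * M
/-- constants of `fine_tree2` -/
noncomputable def C2 (N : ℕ) (Z0 M : ℝ) : ℝ := (Z0 + 1) * C1 N Z0 M + N

theorem fine_tree2 {Sg : Matrix B B ℂ} (hSg : Siegel Sg)
    {C : J → Matrix (Fin 2) (Fin 2) ℂ} (hC : ∀ j, Siegel (C j))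
    (aJ : J → B) {uA : A → B} (huA : Function.Injective uA) (t : A ⊕ J → Bool × Option K)
    {c M : ℝ} (hc : 0 < c) (hge : ∀ j, ImGe c (C j)) (hM0 : 0 ≤ M)
    (hM : ∀ j i k, ‖C j i k‖ ≤ M)
    {h : Matrix (Bool × Option K) (Bool × Option K) ℝ} (hs : hᵀ = h)
    (a : Bool × Option K → ℝ) (ha : ∀ τ, |a τ| ≤ 1)
    (hroot : ∀ s (y : Bool × Option K → ℂ), (cx h *ᵥ y) (s, none) =
      a (s, none) * y (s, none) + ∑ k, y (s, some k))
    (hchild : ∀ s k (y : Bool × Option K → ℂ), (cx h *ᵥ y) (s, some k) =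
      a (s, some k) * y (s, some k) + y (s, none))
    {z : ℂ} (hz : 0 < z.im) {Z0 : ℝ} (hz0 : ‖z‖ ≤ Z0)
    (ht : ∀ i s, t i ≠ (s, none))
    (hg1 : ∀ s k, ∃ j : J, t (Sum.inr j) = (s, some k))
    (hg2 : ∀ s, ∃ k, ∀ a : A, t (Sum.inl a) ≠ (s, some k))
    {N : ℕ} (hJ : Fintype.card J ≤ N) (hK : Fintype.card K ≤ N) :
    Fine (c / (2 * C2 N Z0 M ^ 2))
      ((treeOut (Res789.Res h z) t (leafXi Sg C aJ uA)).submatrix r2 r2) := by
  have hRT : Siegel (Res789.Res h z) := siegel_Res hs hz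
  set O := treeOut (Res789.Res h z) t (leafXi Sg C aJ uA) with hO
  have hOs : Siegel O := siegel_treeOut hRT t (siegel_leafXi hSg hC aJ huA)
  have hRs := hOs.sub (r2_inj (K := K))
  have hZ0 : 0 ≤ Z0 := (norm_nonneg _).trans hz0
  have hC1 : 1 ≤ C1 N Z0 M := by
    unfold C1
    have : 0 ≤ 2 * (N : ℝ) * M := by positivity
    linarith
  have hC12 : C1 N Z0 M ≤ C2 N Z0 M := by
    unfold C2
    have h1 : (0 : ℝ) ≤ N := Nat.cast_nonneg _
    nlinarith
  have hC2 : 0 < C2 N Z0 M := by linarith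
  -- the main estimate
  have key : ∀ x : Fin 2 → ℂ, ∃ q : ℝ, 0 ≤ q ∧ c * q ^ 2 = qf (imM (O.submatrix r2 r2)) x ∧
      (∀ i, ‖x i‖ ≤ C2 N Z0 M * q) ∧ (∀ i, ‖(O.submatrix r2 r2 *ᵥ x) i‖ ≤ C1 N Z0 M * q) := by
    intro x
    set X : Bool × Option K → ℂ := cx (emb (r2 : Fin 2 → Bool × Option K)) *ᵥ x with hX
    have hP : qf (imM (O.submatrix r2 r2)) x = qf (imM O) X := by
      rw [← cor_emb, qf_cor _ hOs.symm]
    obtain ⟨yu, e1, e2, e3⟩ := power hRT hSg hC aJ huA t hc hge hM X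
    rw [← hO] at e1 e2 e3
    set y := O *ᵥ X with hy
    set P := qf (imM O) X with hPd
    have hP0 : 0 ≤ P := qf_nonneg hOs.pos.posSemidef _
    have hyr : ∀ i, (O.submatrix r2 r2 *ᵥ x) i = y (r2 i) := by
      intro i
      rw [hy, hX, Matrix.mulVec_mulVec, mul_emb]
      rfl
    have hXr : ∀ i, X (r2 i) = x i := fun i => emb_mulVec_apply r2_inj x i
    have hXc : ∀ s k, X (s, some k) = 0 := by
      intro s k
      rw [hX, emb_mulVec]
      refine Finset.sum_eq_zero fun i _ => ?_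
      rw [if_neg]
      intro h0
      fin_cases i <;> simp [r2] at h0
    obtain ⟨q, hq⟩ : ∃ q, q = Real.sqrt (P / c) := ⟨_, rfl⟩
    have hq0 : 0 ≤ q := by rw [hq]; exact Real.sqrt_nonneg _
    have hqq : c * q ^ 2 = P := by
      rw [hq, Real.sq_sqrt (by positivity)]
      field_simp
    have hle : ∀ v : ℂ, c * ‖v‖ ^ 2 ≤ P → ‖v‖ ≤ q := by
      intro v hv
      rw [← hqq] at hv
      have := le_of_mul_le_mul_left hv hc
      exact le_of_sq_le_sq this hq0
    have hyc : ∀ s k, ‖y (s, some k)‖ ≤ q := by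
      intro s k
      obtain ⟨j, hj⟩ := hg1 s k
      have := e2 j
      rw [hj] at this
      exact hle _ this
    have hyu : ∀ j : J, ‖yu (Sum.inr j)‖ ≤ 2 * M * q := by
      intro j
      have h1 := e3 j
      rw [← hqq] at h1
      have h2 : c * ‖yu (Sum.inr j)‖ ^ 2 ≤ c * (2 * M ^ 2 * q ^ 2) := by linarith
      have h3 := le_of_mul_le_mul_left h2 hc
      have h4 : 2 * M ^ 2 * q ^ 2 ≤ (2 * M * q) ^ 2 := by
        have : 0 ≤ M ^ 2 * q ^ 2 := by positivity
        nlinarith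
      exact le_of_sq_le_sq (h3.trans h4) (by positivity)
    have hRi : ∀ τ, ((Res789.Res h z)⁻¹ *ᵥ y) τ = (cx h *ᵥ y) τ - z * y τ := by
      intro τ
      rw [Res_inv hs hz, Matrix.sub_mulVec, Pi.sub_apply, Matrix.smul_mulVec, Matrix.one_mulVec,
        Pi.smul_apply, smul_eq_mul]
    have hna : ∀ τ, ‖(a τ : ℂ)‖ ≤ 1 := by
      intro τ
      rw [Complex.norm_real]; exact ha τ
    have hroot2 : ∀ s, ‖y (s, none)‖ ≤ C1 N Z0 M * q := by
      intro s
      obtain ⟨k, hk⟩ := hg2 s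
      have h1 := e1 (s, some k)
      rw [hRi, hchild, hXc, Fintype.sum_sum_type, Finset.sum_eq_zero (s := (Finset.univ : Finset A))
        (fun i _ => if_neg (fun h => hk i h.symm)), zero_add] at h1
      have h2 : y (s, none) = (z - a (s, some k)) * y (s, some k) -
          ∑ j : J, (if (s, some k) = t (Sum.inr j) then yu (Sum.inr j) else 0) := by
        rw [← h1]; ring
      have h3 : ‖∑ j : J, (if (s, some k) = t (Sum.inr j) then yu (Sum.inr j) else 0)‖ ≤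
          N * (2 * M * q) := by
        refine (norm_sum_le _ _).trans ?_
        calc ∑ j : J, ‖(if (s, some k) = t (Sum.inr j) then yu (Sum.inr j) else 0)‖
            ≤ ∑ _j : J, 2 * M * q := by
              refine Finset.sum_le_sum fun j _ => ?_
              split_ifs
              · exact hyu j
              · rw [norm_zero]; positivity
          _ = Fintype.card J * (2 * M * q) := by
              rw [Finset.sum_const, nsmul_eq_mul, Finset.card_univ]
          _ ≤ _ := mul_le_mul_of_nonneg_right (by exact_mod_cast hJ) (by positivity)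
      have h4 : ‖(z - a (s, some k)) * y (s, some k)‖ ≤ (Z0 + 1) * q := by
        rw [norm_mul]
        refine mul_le_mul ?_ (hyc s k) (norm_nonneg _) (by linarith)
        exact (norm_sub_le _ _).trans (add_le_add hz0 (hna _))
      rw [h2]
      refine (norm_sub_le _ _).trans ?_
      unfold C1
      calc _ ≤ (Z0 + 1) * q + N * (2 * M * q) := add_le_add h4 h3
        _ = _ := by ring
    have hx2 : ∀ i, ‖x i‖ ≤ C2 N Z0 M * q := by
      intro i
      have hi : ∃ s, (r2 i : Bool × Option K) = (s, none) := by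
        fin_cases i
        · exact ⟨false, rfl⟩
        · exact ⟨true, rfl⟩
      obtain ⟨s, hi⟩ := hi
      have h1 := e1 (s, none)
      rw [hRi, hroot, Finset.sum_eq_zero (fun i _ => if_neg (fun h => ht i s h.symm)),
        ← hi, hXr, hi] at h1
      have h2 : x i = (a (s, none) - z) * y (s, none) + ∑ k, y (s, some k) := by
        have := sub_eq_zero.1 h1
        rw [this]; ring
      have h3 : ‖∑ k : K, y (s, some k)‖ ≤ N * q := by
        refine (norm_sum_le _ _).trans ?_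
        calc ∑ k : K, ‖y (s, some k)‖ ≤ ∑ _k : K, q := Finset.sum_le_sum fun k _ => hyc s k
          _ = Fintype.card K * q := by
              rw [Finset.sum_const, nsmul_eq_mul, Finset.card_univ]
          _ ≤ _ := mul_le_mul_of_nonneg_right (by exact_mod_cast hK) hq0
      have h4 : ‖((a (s, none) : ℂ) - z) * y (s, none)‖ ≤ (Z0 + 1) * (C1 N Z0 M * q) := by
        rw [norm_mul]
        refine mul_le_mul ?_ (hroot2 s) (norm_nonneg _) (by linarith)
        calc _ ≤ ‖(a (s, none) : ℂ)‖ + ‖z‖ := norm_sub_le _ _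
          _ ≤ 1 + Z0 := add_le_add (hna _) hz0
          _ = _ := by ring
      rw [h2]
      refine (norm_add_le _ _).trans ?_
      unfold C2
      calc _ ≤ (Z0 + 1) * (C1 N Z0 M * q) + N * q := add_le_add h4 h3
        _ = _ := by ring
    refine ⟨q, hq0, by rw [hqq, hP], hx2, fun i => ?_⟩
    rw [hyr]
    have hi : ∃ s, (r2 i : Bool × Option K) = (s, none) := by
      fin_cases i
      · exact ⟨false, rfl⟩
      · exact ⟨true, rfl⟩
    obtain ⟨s, hi⟩ := hi
    rw [hi]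
    exact hroot2 s
  have hsum : ∀ (v : Fin 2 → ℂ) (D : ℝ), 0 ≤ D → (∀ i, ‖v i‖ ≤ D) → l2 v ^ 2 ≤ 2 * D ^ 2 := by
    intro v D _ hv
    rw [l2_sq, Fin.sum_univ_two]
    have h1 := pow_le_pow_left₀ (norm_nonneg _) (hv 0) 2
    have h2 := pow_le_pow_left₀ (norm_nonneg _) (hv 1) 2
    linarith
  refine ⟨hRs.symm, by positivity, fun x => ?_, ?_⟩
  · obtain ⟨q, hq0, hq, hx, -⟩ := key x
    rw [← hq, ← l2_sq]
    have h1 := hsum x (C2 N Z0 M * q) (by positivity) hx
    calc c / (2 * C2 N Z0 M ^ 2) * l2 x ^ 2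
        ≤ c / (2 * C2 N Z0 M ^ 2) * (2 * (C2 N Z0 M * q) ^ 2) :=
          mul_le_mul_of_nonneg_left h1 (by positivity)
      _ = c * q ^ 2 := by field_simp
  · have h2 : ∀ x, l2 (O.submatrix r2 r2 *ᵥ x) ≤ (2 * C1 N Z0 M ^ 2 / c) * l2 x := by
      intro x
      apply l2_le_of_power hRs.symm (by positivity)
      obtain ⟨q, hq0, hq, -, hx⟩ := key x
      rw [← hq]
      have h1 := hsum _ (C1 N Z0 M * q) (by positivity) hx
      calc _ ≤ _ := h1
        _ = _ := by field_simp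
    intro i j
    refine (entry_le_of_l2 h2 i j).trans ?_
    rw [inv_div]
    apply div_le_div_of_nonneg_right _ hc.le
    have : C1 N Z0 M ^ 2 ≤ C2 N Z0 M ^ 2 := pow_le_pow_left₀ (by linarith) hC12 2
    linarith

end tree2

end Crest.Agent.R166.Fine522
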