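import Mathlib
import Crest.Agent.R166.TreeDet_350

-- ▼ part R166/TreeCost_350
section
/-!
Row 166, section 32 (tree half): pointwise inequalities for the one-level contraction of the cost
`c(x,y) = rho(x,y)^2 (1 + M |u x|^2 + M |u y|^2)`.  (helper350)
-/
set_option autoImplicit false

namespace Crest.Agent.R166.TreeDet350

open Complex Finset

noncomputable section

variable {b : ℕ} {y0 : ℝ} {z m : ℂ}

def C5 (b : ℕ) (y0 : ℝ) : ℝ := b + K3 y0 * (b ^ 2 * BB y0) + K4 y0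
def Mc (b : ℕ) (y0 : ℝ) : ℝ := 10 ^ 6 * b / y0 ^ 2

theorem K4_pos (hy : 0 < y0) : 0 < K4 y0 := by
  have := K2_pos hy; unfold K4; positivity

theorem C5_pos (hb : 2 ≤ b) (hy : 0 < y0) : 0 < C5 b y0 := by
  have := K3_pos hy; have := BB_pos hy; have := K4_pos hy
  have : (2 : ℝ) ≤ b := by exact_mod_cast hb
  unfold C5; positivity

theorem C5_ge (hb : 2 ≤ b) (hy : 0 < y0) : 2 ≤ C5 b y0 := by
  have := K3_pos hy; have := BB_pos hy; have := K4_pos hy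
  have hb' : (2 : ℝ) ≤ b := by exact_mod_cast hb
  have h0 : 0 ≤ K3 y0 * (b ^ 2 * BB y0) := by positivity
  unfold C5; linarith

theorem Adm.BB_ge (h : Adm b y0 z m) : 1 ≤ BB y0 := by
  have h1 := h.hy
  have h2 := h.y0_lt_one
  unfold BB
  rw [le_div_iff₀ (by positivity)]
  have : y0 ^ 3 ≤ 1 := pow_le_one₀ h1.le h2.le
  linarith

/-- Lemma A: the weight after one step when all children but (possibly) `j` are good. -/
theorem Adm.weight_le (h : Adm b y0 z m) {t : ℝ} {x : Fin b → ℂ} (hx : ∀ k, 0 ≤ (x k).im)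
    (hS : z - t + ∑ k, x k ≠ 0) {r : ℝ} (hr0 : 0 ≤ r) (ht : |t| ≤ r) (j : Fin b)
    (hg : ∀ k, k ≠ j → ‖uu m (x k)‖ ≤ r) :
    ‖uu m (cav z t x)‖ ≤ (b : ℝ)⁻¹ * (‖uu m (x j)‖ + C5 b y0 * r) := by
  have hy := h.hy
  have hK3 := K3_pos hy
  have hK4 := K4_pos hy
  have hBB := BB_pos hy
  have hb2 := h.b2
  have hbn := h.b_normSq
  have e0 : ‖m‖ ^ 2 ≤ (b : ℝ)⁻¹ := by
    rw [Adm.sq_norm, ← one_div, le_div_iff₀ (by linarith)]; linarith
  rw [h.uu_cav t x hx hS, norm_mul, norm_pow]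
  have h1 := h.ut_D t x hx
  have h2 : ‖∑ k, uu m (x k)‖ ≤ ‖uu m (x j)‖ + b * r := by
    refine (norm_sum_le _ _).trans ?_
    rw [← Finset.add_sum_erase _ _ (Finset.mem_univ j)]
    have : ∑ k ∈ Finset.univ.erase j, ‖uu m (x k)‖ ≤ ∑ k ∈ Finset.univ.erase j, r :=
      Finset.sum_le_sum fun k hk => hg k (Finset.ne_of_mem_erase hk)
    rw [Finset.sum_const, nsmul_eq_mul] at this
    have hc : ((Finset.univ.erase j).card : ℝ) ≤ b := by
      have := Finset.card_le_univ (Finset.univ.erase j : Finset (Fin b))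
      rw [Fintype.card_fin] at this
      exact_mod_cast this
    nlinarith
  have h3 : off (fun k => ‖uu m (x k)‖) ≤ (b : ℝ) ^ 2 * BB y0 * r := by
    unfold off
    have hterm : ∀ p ∈ (Finset.univ : Finset (Fin b)).offDiag,
        ‖uu m (x p.1)‖ * ‖uu m (x p.2)‖ ≤ BB y0 * r := by
      rintro ⟨p, q⟩ hp
      rw [Finset.mem_offDiag] at hp
      have hB1 := h.norm_uu_le (hx p)
      have hB2 := h.norm_uu_le (hx q)
      by_cases hpj : p = j
      · have hq : ‖uu m (x q)‖ ≤ r := hg q (fun h' => hp.2.2 (by rw [hpj]; exact h'.symm))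
        exact mul_le_mul hB1 hq (norm_nonneg _) hBB.le
      · have hp' : ‖uu m (x p)‖ ≤ r := hg p hpj
        rw [mul_comm (BB y0)]
        exact mul_le_mul hp' hB2 (norm_nonneg _) hr0
    refine (Finset.sum_le_sum hterm).trans ?_
    rw [Finset.sum_const, nsmul_eq_mul]
    have hc : (((Finset.univ : Finset (Fin b)).offDiag).card : ℝ) ≤ (b : ℝ) ^ 2 := by
      have h5 := Finset.offDiag_card (s := (Finset.univ : Finset (Fin b)))
      rw [h5, Finset.card_univ, Fintype.card_fin]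
      have : b * b - b ≤ b ^ 2 := by rw [pow_two]; exact Nat.sub_le _ _
      exact_mod_cast this
    have : 0 ≤ BB y0 * r := by positivity
    nlinarith
  have h4 : ‖ut m (∑ k, (x k - m) - t)‖ ≤ ‖uu m (x j)‖ + C5 b y0 * r := by
    have h5 := norm_add_le (ut m (∑ k, (x k - m) - t) - ∑ k, uu m (x k)) (∑ k, uu m (x k))
    rw [sub_add_cancel] at h5
    have h6 : K3 y0 * off (fun k => ‖uu m (x k)‖) ≤ K3 y0 * ((b : ℝ) ^ 2 * BB y0 * r) :=
      mul_le_mul_of_nonneg_left h3 hK3.le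
    have h7 : K4 y0 * |t| ≤ K4 y0 * r := mul_le_mul_of_nonneg_left ht hK4.le
    have h8 : C5 b y0 * r = b * r + K3 y0 * ((b : ℝ) ^ 2 * BB y0 * r) + K4 y0 * r := by
      unfold C5; ring
    rw [h8]
    linarith
  exact mul_le_mul e0 h4 (norm_nonneg _) (by positivity)

/-- the distance of a good pair. -/
theorem Adm.norm_sub_le_good (h : Adm b y0 z m) {x y : ℂ} (hx : 0 < x.im) (hy : 0 < y.im)
    {r : ℝ} (hr : r ≤ 1 / 4) (hux : ‖uu m x‖ ≤ r) (huy : ‖uu m y‖ ≤ r) :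
    ‖x - y‖ ≤ (2 * m.im + 4 * r) * rho x y := by
  have h1 := h.disp_le hx.le hr hux
  have h2 := h.disp_le hy.le hr huy
  have h3 : ‖x - (starRingEnd ℂ) y‖ ≤ 2 * m.im + 4 * r := by
    have e : x - (starRingEnd ℂ) y = (x - m) - (starRingEnd ℂ) (y - m) + (m - (starRingEnd ℂ) m) := by
      rw [map_sub]; ring
    rw [e]
    refine (norm_add_le _ _).trans ?_
    have h4 : ‖m - (starRingEnd ℂ) m‖ = 2 * m.im := by
      rw [Complex.sub_conj, norm_mul, norm_I, mul_one, norm_real, Real.norm_eq_abs,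
        abs_of_pos (by have := h.im_pos; linarith)]
    have h5 := norm_sub_le (x - m) ((starRingEnd ℂ) (y - m))
    rw [norm_conj] at h5
    linarith
  rw [norm_sub_eq_rho hx hy, mul_comm]
  exact mul_le_mul_of_nonneg_right h3 (rho_nonneg _ _)

theorem Adm.im_ge_good (h : Adm b y0 z m) {x : ℂ} (hx : 0 ≤ x.im)
    {r : ℝ} (hr : r ≤ 1 / 4) (hux : ‖uu m x‖ ≤ r) : m.im - 2 * r ≤ x.im := by
  have h1 := h.disp_le hx hr hux
  have h2 := abs_im_le_norm (x - m)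
  rw [sub_im] at h2
  have := abs_le.1 (h2.trans h1)
  linarith

theorem sum_erase_sq_le (j : Fin b) (f : Fin b → ℝ) :
    (∑ k ∈ Finset.univ.erase j, f k) ^ 2 ≤ b * ∑ k ∈ Finset.univ.erase j, f k ^ 2 := by
  have h1 := sq_sum_le_card_mul_sum_sq (s := Finset.univ.erase j) (f := f)
  refine h1.trans ?_
  refine mul_le_mul_of_nonneg_right ?_ (Finset.sum_nonneg fun _ _ => by positivity)
  have := Finset.card_le_univ (Finset.univ.erase j : Finset (Fin b))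
  rw [Fintype.card_fin] at this
  exact_mod_cast this

theorem SS_sub (z : ℂ) (t : ℝ) (x y : Fin b → ℂ) : SS z t x - SS z t y = ∑ k, (x k - y k) := by
  unfold SS; rw [Finset.sum_sub_distrib]; ring

/-- the norm of the difference of the sums, split at `j`. -/
theorem Adm.diff_le (h : Adm b y0 z m) {t : ℝ} {x y : Fin b → ℂ} (hx : ∀ k, 0 < (x k).im)
    (hy : ∀ k, 0 < (y k).im) {r : ℝ} (hr : r ≤ 1 / 4) (j : Fin b)
    (hgx : ∀ k, k ≠ j → ‖uu m (x k)‖ ≤ r) (hgy : ∀ k, k ≠ j → ‖uu m (y k)‖ ≤ r) :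
    ‖SS z t x - SS z t y‖ ^ 2 ≤ (1 + 1 / 25) * ‖x j - y j‖ ^ 2 +
      26 * (9 * b * ∑ k ∈ Finset.univ.erase j, rho (x k) (y k) ^ 2) := by
  rw [SS_sub]
  have h1 : ‖∑ k, (x k - y k)‖ ≤ ‖x j - y j‖ + 3 * ∑ k ∈ Finset.univ.erase j, rho (x k) (y k) := by
    rw [← Finset.add_sum_erase _ _ (Finset.mem_univ j)]
    refine (norm_add_le _ _).trans ?_
    have : ‖∑ k ∈ Finset.univ.erase j, (x k - y k)‖ ≤
        3 * ∑ k ∈ Finset.univ.erase j, rho (x k) (y k) := by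
      refine (norm_sum_le _ _).trans ?_
      rw [Finset.mul_sum]
      refine Finset.sum_le_sum fun k hk => ?_
      have hkj := Finset.ne_of_mem_erase hk
      refine (h.norm_sub_le_good (hx k) (hy k) hr (hgx k hkj) (hgy k hkj)).trans ?_
      refine mul_le_mul_of_nonneg_right ?_ (rho_nonneg _ _)
      have := h.im_le_norm
      have := h.norm_le
      linarith
    linarith
  have h2 := sum_erase_sq_le j (fun k => rho (x k) (y k))
  obtain ⟨A, hA⟩ : ∃ A, A = ‖x j - y j‖ := ⟨_, rfl⟩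
  obtain ⟨B, hB⟩ : ∃ B, B = ∑ k ∈ Finset.univ.erase j, rho (x k) (y k) := ⟨_, rfl⟩
  rw [← hA, ← hB] at h1
  rw [← hB] at h2
  rw [← hA]
  have h3 : ‖∑ k, (x k - y k)‖ ^ 2 ≤ (A + 3 * B) ^ 2 := pow_le_pow_left₀ (norm_nonneg _) h1 2
  have h4 : (A + 3 * B) ^ 2 ≤ (1 + 1 / 25) * A ^ 2 + 26 * (9 * B ^ 2) := by
    nlinarith [sq_nonneg (A - 75 * B)]
  nlinarith

/-- Far estimate. -/
theorem Adm.rho_far (h : Adm b y0 z m) {t : ℝ} {x y : Fin b → ℂ} (hx : ∀ k, 0 < (x k).im)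
    (hy : ∀ k, 0 < (y k).im) {r : ℝ} (hr : r ≤ y0 / 8) (hr0 : 0 ≤ r) (j : Fin b)
    (hgx : ∀ k, k ≠ j → ‖uu m (x k)‖ ≤ r) (hgy : ∀ k, k ≠ j → ‖uu m (y k)‖ ≤ r) :
    rho (cav z t x) (cav z t y) ^ 2 ≤ (1 + 1 / 25) * rho (x j) (y j) ^ 2 +
      234 * b / y0 ^ 2 * ∑ k ∈ Finset.univ.erase j, rho (x k) (y k) ^ 2 := by
  have hyp := h.hy
  have hr4 : r ≤ 1 / 4 := by have := h.y0_lt_one; linarith
  have hb := h.hb
  have hD := h.diff_le (t := t) hx hy hr4 j hgx hgy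
  rw [h.rho_cav t x y hx hy, rho_sq]
  have hSx : (x j).im + 3 / 4 * y0 ≤ (SS z t x).im := by
    rw [SS_im, ← Finset.add_sum_erase _ _ (Finset.mem_univ j)]
    have hne : (Finset.univ.erase j).Nonempty := by
      rw [← Finset.card_pos, Finset.card_erase_of_mem (Finset.mem_univ j), Finset.card_univ,
        Fintype.card_fin]; omega
    obtain ⟨k, hk⟩ := hne
    have h1 : (x k).im ≤ ∑ k ∈ Finset.univ.erase j, (x k).im :=
      Finset.single_le_sum (f := fun k => (x k).im) (fun k _ => (hx k).le) hk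
    have h2 := h.im_ge_good (hx k).le hr4 (hgx k (Finset.ne_of_mem_erase hk))
    have h3 := h.him
    have h4 := h.hz
    linarith
  have hSy : (y j).im + 3 / 4 * y0 ≤ (SS z t y).im := by
    rw [SS_im, ← Finset.add_sum_erase _ _ (Finset.mem_univ j)]
    have hne : (Finset.univ.erase j).Nonempty := by
      rw [← Finset.card_pos, Finset.card_erase_of_mem (Finset.mem_univ j), Finset.card_univ,
        Fintype.card_fin]; omega
    obtain ⟨k, hk⟩ := hne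
    have h1 : (y k).im ≤ ∑ k ∈ Finset.univ.erase j, (y k).im :=
      Finset.single_le_sum (f := fun k => (y k).im) (fun k _ => (hy k).le) hk
    have h2 := h.im_ge_good (hy k).le hr4 (hgy k (Finset.ne_of_mem_erase hk))
    have h3 := h.him
    have h4 := h.hz
    linarith
  rw [rho_sq (x := x j)]
  obtain ⟨W, hW⟩ : ∃ W, W = 4 * (SS z t x).im * (SS z t y).im := ⟨_, rfl⟩
  obtain ⟨w, hw⟩ : ∃ w, w = 4 * (x j).im * (y j).im := ⟨_, rfl⟩
  rw [← hW, ← hw]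
  have hw0 : 0 < w := by have := hx j; have := hy j; rw [hw]; positivity
  have hwW : w ≤ W := by
    have := hx j; have := hy j
    rw [hw, hW]
    have : (x j).im * (y j).im ≤ (SS z t x).im * (SS z t y).im :=
      mul_le_mul (by linarith) (by linarith) (by linarith) (by linarith)
    linarith
  have hWy : y0 ^ 2 ≤ W := by
    have := hx j; have := hy j
    rw [hW]
    have : (3 / 4 * y0) * (3 / 4 * y0) ≤ (SS z t x).im * (SS z t y).im :=
      mul_le_mul (by linarith) (by linarith) (by positivity) (by linarith)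
    nlinarith
  have hW0 : 0 < W := lt_of_lt_of_le hw0 hwW
  obtain ⟨V, hV⟩ : ∃ V, V = ‖SS z t x - SS z t y‖ ^ 2 := ⟨_, rfl⟩
  obtain ⟨a, ha⟩ : ∃ a, a = ‖x j - y j‖ ^ 2 := ⟨_, rfl⟩
  obtain ⟨E, hE⟩ : ∃ E, E = ∑ k ∈ Finset.univ.erase j, rho (x k) (y k) ^ 2 := ⟨_, rfl⟩
  rw [← hV, ← ha, ← hE] at hD
  rw [← hV, ← ha, ← hE]
  have hE0 : 0 ≤ E := by rw [hE]; exact Finset.sum_nonneg fun _ _ => by positivity
  have ha0 : 0 ≤ a := by rw [ha]; positivity
  have hV0 : 0 ≤ V := by rw [hV]; positivity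
  have hb0 : (0 : ℝ) ≤ b := by positivity
  -- V/(V+W) ≤ U/(U+W) with U = 1.04 a + F
  have s1 : V / (V + W) ≤ ((1 + 1 / 25) * a + 26 * (9 * b * E)) /
      ((1 + 1 / 25) * a + 26 * (9 * b * E) + W) := by
    rw [div_le_div_iff₀ (by positivity) (by positivity)]
    nlinarith
  have s2 : ((1 + 1 / 25) * a + 26 * (9 * b * E)) /
      ((1 + 1 / 25) * a + 26 * (9 * b * E) + W) ≤
      (1 + 1 / 25) * a / (a + w) + 26 * (9 * b * E) / W := by
    rw [add_div]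
    refine add_le_add ?_ ?_
    · apply div_le_div_of_nonneg_left (by positivity) (by positivity)
      have : 0 ≤ 26 * (9 * b * E) := by positivity
      linarith
    · apply div_le_div_of_nonneg_left (by positivity) hW0
      have : 0 ≤ 26 * (9 * b * E) := by positivity
      linarith
  have s3 : 26 * (9 * b * E) / W ≤ 26 * (9 * b * E) / y0 ^ 2 :=
    div_le_div_of_nonneg_left (by positivity) (by positivity) hWy
  calc V / (V + W) ≤ (1 + 1 / 25) * a / (a + w) + 26 * (9 * b * E) / y0 ^ 2 := by linarith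
    _ = _ := by ring

/-- Near estimate: all children, including `j`, are `r2`-good. -/
theorem Adm.rho_near (h : Adm b y0 z m) {t : ℝ} {x y : Fin b → ℂ} (hx : ∀ k, 0 < (x k).im)
    (hy : ∀ k, 0 < (y k).im) {r2 : ℝ} (hr : r2 ≤ y0 / 400) (hr0 : 0 ≤ r2) (j : Fin b)
    (hgx : ∀ k, ‖uu m (x k)‖ ≤ r2) (hgy : ∀ k, ‖uu m (y k)‖ ≤ r2) :
    rho (cav z t x) (cav z t y) ^ 2 ≤ (1 + 1 / 25) ^ 2 * ((b : ℝ)⁻¹) ^ 2 * rho (x j) (y j) ^ 2 +
      234 * b / y0 ^ 2 * ∑ k ∈ Finset.univ.erase j, rho (x k) (y k) ^ 2 := by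
  have hyp := h.hy
  have hr4 : r2 ≤ 1 / 4 := by have := h.y0_lt_one; linarith
  have hb := h.hb
  have hb2 := h.b2
  have him := h.him
  have hD := h.diff_le (t := t) hx hy hr4 j (fun k _ => hgx k) (fun k _ => hgy k)
  rw [h.rho_cav t x y hx hy, rho_sq]
  have hS : ∀ x : Fin b → ℂ, (∀ k, 0 < (x k).im) → (∀ k, ‖uu m (x k)‖ ≤ r2) →
      b * (m.im - 2 * r2) ≤ (SS z t x).im := by
    intro x hx hgx
    rw [SS_im]
    have h1 : ∑ k : Fin b, (m.im - 2 * r2) ≤ ∑ k, (x k).im :=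
      Finset.sum_le_sum fun k _ => h.im_ge_good (hx k).le hr4 (hgx k)
    rw [Finset.sum_const, Finset.card_univ, Fintype.card_fin, nsmul_eq_mul] at h1
    linarith [h.hz]
  have hSx := hS x hx hgx
  have hSy := hS y hy hgy
  have hP : 0 < m.im - 2 * r2 := by linarith
  have hxy := h.norm_sub_le_good (hx j) (hy j) hr4 (hgx j) (hgy j)
  obtain ⟨W, hW⟩ : ∃ W, W = 4 * (SS z t x).im * (SS z t y).im := ⟨_, rfl⟩
  rw [← hW]
  have hWge : 4 * (b * (m.im - 2 * r2)) ^ 2 ≤ W := by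
    rw [hW]
    have : (b * (m.im - 2 * r2)) * (b * (m.im - 2 * r2)) ≤ (SS z t x).im * (SS z t y).im :=
      mul_le_mul hSx hSy (by positivity) (le_trans (by positivity) hSx)
    nlinarith
  have hWy : y0 ^ 2 ≤ W := by
    refine le_trans ?_ hWge
    have h1 : y0 ≤ b * (m.im - 2 * r2) := by nlinarith
    have h2 : y0 ^ 2 ≤ (b * (m.im - 2 * r2)) ^ 2 := pow_le_pow_left₀ hyp.le h1 2
    nlinarith [sq_nonneg (b * (m.im - 2 * r2))]
  have hW0 : 0 < W := lt_of_lt_of_le (by positivity) hWy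
  obtain ⟨V, hV⟩ : ∃ V, V = ‖SS z t x - SS z t y‖ ^ 2 := ⟨_, rfl⟩
  obtain ⟨E, hE⟩ : ∃ E, E = ∑ k ∈ Finset.univ.erase j, rho (x k) (y k) ^ 2 := ⟨_, rfl⟩
  rw [← hV, ← hE] at hD
  rw [← hV, ← hE]
  have hE0 : 0 ≤ E := by rw [hE]; exact Finset.sum_nonneg fun _ _ => by positivity
  have hV0 : 0 ≤ V := by rw [hV]; positivity
  have hb0 : (0 : ℝ) < b := by linarith
  have s1 : V / (V + W) ≤ V / W := div_le_div_of_nonneg_left hV0 hW0 (by linarith)
  have hrho0 := rho_nonneg (x j) (y j)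
  have hxy2 : ‖x j - y j‖ ^ 2 ≤ (2 * m.im + 4 * r2) ^ 2 * rho (x j) (y j) ^ 2 := by
    rw [← mul_pow]; exact pow_le_pow_left₀ (norm_nonneg _) hxy 2
  have s2 : V / W ≤ (1 + 1 / 25) * ((2 * m.im + 4 * r2) ^ 2 * rho (x j) (y j) ^ 2) / W +
      26 * (9 * b * E) / W := by
    rw [← add_div]
    apply div_le_div_of_nonneg_right _ hW0.le
    linarith
  have s3 : 26 * (9 * b * E) / W ≤ 26 * (9 * b * E) / y0 ^ 2 :=
    div_le_div_of_nonneg_left (by positivity) (by positivity) hWy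
  have s4 : (1 + 1 / 25) * ((2 * m.im + 4 * r2) ^ 2 * rho (x j) (y j) ^ 2) / W ≤
      (1 + 1 / 25) * ((2 * m.im + 4 * r2) ^ 2 * rho (x j) (y j) ^ 2) /
        (4 * (b * (m.im - 2 * r2)) ^ 2) :=
    div_le_div_of_nonneg_left (by positivity) (by positivity) hWge
  have s5 : (1 + 1 / 25) * ((2 * m.im + 4 * r2) ^ 2 * rho (x j) (y j) ^ 2) /
        (4 * (b * (m.im - 2 * r2)) ^ 2) ≤
      (1 + 1 / 25) ^ 2 * ((b : ℝ)⁻¹) ^ 2 * rho (x j) (y j) ^ 2 := by
    rw [div_le_iff₀ (by positivity)]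
    have h6 : (2 * m.im + 4 * r2) ^ 2 ≤ (1 + 1 / 25) * (4 * (m.im - 2 * r2) ^ 2) := by
      have h7 : 400 * r2 ≤ m.im := by linarith
      nlinarith [mul_nonneg hr0 hr0, mul_nonneg hr0 (sub_nonneg.2 h7), h.im_pos]
    have h8 : ((b : ℝ)⁻¹) ^ 2 * (4 * (b * (m.im - 2 * r2)) ^ 2) = 4 * (m.im - 2 * r2) ^ 2 := by
      field_simp
    calc (1 + 1 / 25) * ((2 * m.im + 4 * r2) ^ 2 * rho (x j) (y j) ^ 2)
        ≤ (1 + 1 / 25) * ((1 + 1 / 25) * (4 * (m.im - 2 * r2) ^ 2) * rho (x j) (y j) ^ 2) := by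
          apply mul_le_mul_of_nonneg_left _ (by norm_num)
          exact mul_le_mul_of_nonneg_right h6 (by positivity)
      _ = (1 + 1 / 25) ^ 2 * rho (x j) (y j) ^ 2 * (4 * (m.im - 2 * r2) ^ 2) := by ring
      _ = (1 + 1 / 25) ^ 2 * rho (x j) (y j) ^ 2 *
          (((b : ℝ)⁻¹) ^ 2 * (4 * (b * (m.im - 2 * r2)) ^ 2)) := by rw [h8]
      _ = _ := by ring
  calc V / (V + W) ≤ (1 + 1 / 25) ^ 2 * ((b : ℝ)⁻¹) ^ 2 * rho (x j) (y j) ^ 2 +
        26 * (9 * b * E) / y0 ^ 2 := by linarith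
    _ = _ := by ring

/-- All good: comparison with the linear form. -/
theorem Adm.rho_all_good (h : Adm b y0 z m) {t : ℝ} {x y : Fin b → ℂ} (hx : ∀ k, 0 < (x k).im)
    (hy : ∀ k, 0 < (y k).im) {r2 : ℝ} (hr : r2 ≤ y0 / 400) (hr0 : 0 ≤ r2)
    (hgx : ∀ k, ‖uu m (x k)‖ ≤ r2) (hgy : ∀ k, ‖uu m (y k)‖ ≤ r2) :
    rho (cav z t x) (cav z t y) ^ 2 ≤
      (1 + 1 / 25) / (4 * b ^ 2 * m.im ^ 2) * ‖∑ k, (x k - y k)‖ ^ 2 := by
  have hyp := h.hy
  have hr4 : r2 ≤ 1 / 4 := by have := h.y0_lt_one; linarith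
  have hb2 := h.b2
  have him := h.him
  rw [h.rho_cav t x y hx hy, rho_sq, SS_sub]
  have hS : ∀ x : Fin b → ℂ, (∀ k, 0 < (x k).im) → (∀ k, ‖uu m (x k)‖ ≤ r2) →
      b * (m.im - 2 * r2) ≤ (SS z t x).im := by
    intro x hx hgx
    rw [SS_im]
    have h1 : ∑ k : Fin b, (m.im - 2 * r2) ≤ ∑ k, (x k).im :=
      Finset.sum_le_sum fun k _ => h.im_ge_good (hx k).le hr4 (hgx k)
    rw [Finset.sum_const, Finset.card_univ, Fintype.card_fin, nsmul_eq_mul] at h1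
    linarith [h.hz]
  have hSx := hS x hx hgx
  have hSy := hS y hy hgy
  have hP : 0 < m.im - 2 * r2 := by linarith
  obtain ⟨W, hW⟩ : ∃ W, W = 4 * (SS z t x).im * (SS z t y).im := ⟨_, rfl⟩
  rw [← hW]
  have hWge : 4 * (b * (m.im - 2 * r2)) ^ 2 ≤ W := by
    rw [hW]
    have : (b * (m.im - 2 * r2)) * (b * (m.im - 2 * r2)) ≤ (SS z t x).im * (SS z t y).im :=
      mul_le_mul hSx hSy (by positivity) (le_trans (by positivity) hSx)
    nlinarith
  have hb0 : (0 : ℝ) < b := by linarith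
  have hW0 : 0 < W := lt_of_lt_of_le (by positivity) hWge
  have hV0 : 0 ≤ ‖∑ k, (x k - y k)‖ ^ 2 := by positivity
  have s1 : ‖∑ k, (x k - y k)‖ ^ 2 / (‖∑ k, (x k - y k)‖ ^ 2 + W) ≤
      ‖∑ k, (x k - y k)‖ ^ 2 / (4 * (b * (m.im - 2 * r2)) ^ 2) :=
    div_le_div_of_nonneg_left hV0 (by positivity) (by linarith)
  refine s1.trans ?_
  rw [div_eq_inv_mul]
  apply mul_le_mul_of_nonneg_right _ hV0
  rw [inv_eq_one_div, div_le_div_iff₀ (by positivity) (by have := h.im_pos; positivity)]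
  have h6 : m.im ^ 2 ≤ (1 + 1 / 25) * (m.im - 2 * r2) ^ 2 := by
    have h7 : 400 * r2 ≤ m.im := by linarith
    nlinarith [mul_nonneg hr0 hr0, mul_nonneg hr0 (sub_nonneg.2 h7), h.im_pos]
  have hb3 : (0 : ℝ) ≤ 4 * b ^ 2 := by positivity
  calc 1 * (4 * (b : ℝ) ^ 2 * m.im ^ 2) = 4 * b ^ 2 * m.im ^ 2 := by ring
    _ ≤ 4 * b ^ 2 * ((1 + 1 / 25) * (m.im - 2 * r2) ^ 2) := mul_le_mul_of_nonneg_left h6 hb3
    _ = _ := by ring

/-- the cost function -/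
def cost (M : ℝ) (m : ℂ) (p : ℂ × ℂ) : ℝ :=
  rho p.1 p.2 ^ 2 * (1 + M * ‖uu m p.1‖ ^ 2 + M * ‖uu m p.2‖ ^ 2)

/-- good pairs -/
def Good (m : ℂ) (r : ℝ) (p : ℂ × ℂ) : Prop := ‖uu m p.1‖ ≤ r ∧ ‖uu m p.2‖ ≤ r

open Classical in
/-- indicator of good pairs -/
def gI (m : ℂ) (r : ℝ) (p : ℂ × ℂ) : ℝ := if Good m r p then 1 else 0

/-- indicator of bad pairs -/
def bI (m : ℂ) (r : ℝ) (p : ℂ × ℂ) : ℝ := 1 - gI m r p

theorem gI_good {r : ℝ} {p : ℂ × ℂ} (h : Good m r p) : gI m r p = 1 := if_pos h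
theorem gI_bad {r : ℝ} {p : ℂ × ℂ} (h : ¬ Good m r p) : gI m r p = 0 := if_neg h
theorem bI_good {r : ℝ} {p : ℂ × ℂ} (h : Good m r p) : bI m r p = 0 := by simp [bI, gI_good h]
theorem bI_bad {r : ℝ} {p : ℂ × ℂ} (h : ¬ Good m r p) : bI m r p = 1 := by simp [bI, gI_bad h]
theorem bI_nonneg (r : ℝ) (p : ℂ × ℂ) : 0 ≤ bI m r p := by
  by_cases h : Good m r p
  · rw [bI_good h]
  · rw [bI_bad h]; norm_num
theorem bI_le_one (r : ℝ) (p : ℂ × ℂ) : bI m r p ≤ 1 := by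
  by_cases h : Good m r p
  · rw [bI_good h]; norm_num
  · rw [bI_bad h]
theorem gI_nonneg (r : ℝ) (p : ℂ × ℂ) : 0 ≤ gI m r p := by
  by_cases h : Good m r p
  · rw [gI_good h]; norm_num
  · rw [gI_bad h]
theorem gI_le_one (r : ℝ) (p : ℂ × ℂ) : gI m r p ≤ 1 := by
  by_cases h : Good m r p
  · rw [gI_good h]
  · rw [gI_bad h]; norm_num

theorem cost_nonneg {M : ℝ} (hM : 0 ≤ M) (p : ℂ × ℂ) : 0 ≤ cost M m p := by
  unfold cost; positivity

theorem rho_sq_le_cost {M : ℝ} (hM : 0 ≤ M) (p : ℂ × ℂ) : rho p.1 p.2 ^ 2 ≤ cost M m p := by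
  unfold cost
  have h1 : 0 ≤ M * ‖uu m p.1‖ ^ 2 + M * ‖uu m p.2‖ ^ 2 := by positivity
  nlinarith [sq_nonneg (rho p.1 p.2)]

/-- constant `C3 = 1 + 2 M B^2`. -/
def C3 (b : ℕ) (y0 : ℝ) : ℝ := 1 + 2 * Mc b y0 * BB y0 ^ 2

theorem Mc_pos (hb : 2 ≤ b) (hy : 0 < y0) : 0 < Mc b y0 := by
  have : (2 : ℝ) ≤ b := by exact_mod_cast hb
  unfold Mc; positivity

theorem Adm.Mc_pos (h : Adm b y0 z m) : 0 < Mc b y0 := TreeDet350.Mc_pos h.hb h.hy

theorem Adm.C3_pos (h : Adm b y0 z m) : 0 < C3 b y0 := by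
  have := h.Mc_pos; unfold C3; positivity

theorem Adm.weight_le_C3 (h : Adm b y0 z m) {x y : ℂ} (hx : 0 ≤ x.im) (hy : 0 ≤ y.im) :
    1 + Mc b y0 * ‖uu m x‖ ^ 2 + Mc b y0 * ‖uu m y‖ ^ 2 ≤ C3 b y0 := by
  have hM := h.Mc_pos
  have h1 := h.norm_uu_le hx
  have h2 := h.norm_uu_le hy
  have h3 : ‖uu m x‖ ^ 2 ≤ BB y0 ^ 2 := pow_le_pow_left₀ (norm_nonneg _) h1 2
  have h4 : ‖uu m y‖ ^ 2 ≤ BB y0 ^ 2 := pow_le_pow_left₀ (norm_nonneg _) h2 2
  unfold C3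
  nlinarith

/-- the radius -/
def rr (b : ℕ) (y0 : ℝ) : ℝ := y0 ^ 6 / (10 ^ 7 * C5 b y0)

theorem Adm.rr_pos (h : Adm b y0 z m) : 0 < rr b y0 := by
  have := C5_pos h.hb h.hy; have := h.hy; unfold rr; positivity

theorem Adm.C5_rr (h : Adm b y0 z m) : C5 b y0 * rr b y0 = y0 ^ 6 / 10 ^ 7 := by
  have := C5_pos h.hb h.hy
  unfold rr; field_simp

theorem Adm.rr_le (h : Adm b y0 z m) : rr b y0 ≤ y0 ^ 6 / (2 * 10 ^ 7) := by
  have h1 := C5_ge h.hb h.hy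
  have h2 := h.C5_rr
  have h3 := h.rr_pos
  have : 2 * rr b y0 ≤ C5 b y0 * rr b y0 := mul_le_mul_of_nonneg_right h1 h3.le
  linarith

theorem Adm.rr_le' (h : Adm b y0 z m) : rr b y0 ≤ y0 / 400 := by
  have h1 := h.rr_le
  have h2 := h.hy
  have h3 := h.y0_lt_one
  have h4 : y0 ^ 6 ≤ y0 := by
    calc y0 ^ 6 ≤ y0 ^ 1 := pow_le_pow_of_le_one h2.le h3.le (by norm_num)
      _ = y0 := pow_one _
  linarith

theorem Adm.Mc_small (h : Adm b y0 z m) :
    Mc b y0 * ((b : ℝ)⁻¹) ^ 2 * (C5 b y0 * rr b y0) ^ 2 ≤ 1 / 10 ^ 8 := by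
  have hy := h.hy
  have hy1 := h.y0_lt_one
  have hb2 := h.b2
  rw [h.C5_rr]
  unfold Mc
  have e : 10 ^ 6 * (b : ℝ) / y0 ^ 2 * ((b : ℝ)⁻¹) ^ 2 * (y0 ^ 6 / 10 ^ 7) ^ 2 =
      (b : ℝ)⁻¹ * y0 ^ 10 / 10 ^ 8 := by
    field_simp
  rw [e]
  have h1 : y0 ^ 10 ≤ 1 := pow_le_one₀ hy.le hy1.le
  have h2 : (b : ℝ)⁻¹ ≤ 1 := inv_le_one_of_one_le₀ (by linarith)
  have h3 : 0 ≤ (b : ℝ)⁻¹ := by positivity
  have : (b : ℝ)⁻¹ * y0 ^ 10 ≤ 1 * 1 := mul_le_mul h2 h1 (by positivity) (by norm_num)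
  linarith

/-- weight after one step, exactly `j` possibly bad. -/
theorem Adm.weight_sq (h : Adm b y0 z m) {t : ℝ} {x : Fin b → ℂ} (hx : ∀ k, 0 < (x k).im)
    (ht : |t| ≤ rr b y0) (j : Fin b) (hg : ∀ k, k ≠ j → ‖uu m (x k)‖ ≤ rr b y0) :
    Mc b y0 * ‖uu m (cav z t x)‖ ^ 2 ≤
      (1 + 1 / 25) * ((b : ℝ)⁻¹) ^ 2 * (Mc b y0 * ‖uu m (x j)‖ ^ 2) + 1 / 1000 := by
  have hr0 := h.rr_pos
  have hM := h.Mc_pos
  have hne : z - t + ∑ k, x k ≠ 0 := ne_zero_of_im_pos (h.SS_im_pos t x hx)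
  have h1 := h.weight_le (fun k => (hx k).le) hne hr0.le ht j hg
  have h2 : ‖uu m (cav z t x)‖ ^ 2 ≤
      ((b : ℝ)⁻¹) ^ 2 * (‖uu m (x j)‖ + C5 b y0 * rr b y0) ^ 2 := by
    rw [← mul_pow]; exact pow_le_pow_left₀ (norm_nonneg _) h1 2
  have h3 : (‖uu m (x j)‖ + C5 b y0 * rr b y0) ^ 2 ≤
      (1 + 1 / 25) * ‖uu m (x j)‖ ^ 2 + 26 * (C5 b y0 * rr b y0) ^ 2 := by
    nlinarith [sq_nonneg (‖uu m (x j)‖ - 25 * (C5 b y0 * rr b y0))]
  have h4 := h.Mc_small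
  calc Mc b y0 * ‖uu m (cav z t x)‖ ^ 2
      ≤ Mc b y0 * (((b : ℝ)⁻¹) ^ 2 * (‖uu m (x j)‖ + C5 b y0 * rr b y0) ^ 2) :=
        mul_le_mul_of_nonneg_left h2 hM.le
    _ ≤ Mc b y0 * (((b : ℝ)⁻¹) ^ 2 * ((1 + 1 / 25) * ‖uu m (x j)‖ ^ 2 +
        26 * (C5 b y0 * rr b y0) ^ 2)) :=
        mul_le_mul_of_nonneg_left (mul_le_mul_of_nonneg_left h3 (by positivity)) hM.le
    _ = (1 + 1 / 25) * ((b : ℝ)⁻¹) ^ 2 * (Mc b y0 * ‖uu m (x j)‖ ^ 2) +
        26 * (Mc b y0 * ((b : ℝ)⁻¹) ^ 2 * (C5 b y0 * rr b y0) ^ 2) := by ring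
    _ ≤ _ := by linarith

/-- the constants in the pointwise inequality -/
def CA (b : ℕ) (m : ℂ) : ℝ := (1 + 6 / 100) / (4 * b ^ 2 * m.im ^ 2)
def CF (b : ℕ) (y0 : ℝ) : ℝ := 234 * b / y0 ^ 2 * C3 b y0

/-- case 1: all good. -/
theorem Adm.cost_all_good (h : Adm b y0 z m) {t : ℝ} (ht : |t| ≤ rr b y0) {p : Fin b → ℂ × ℂ}
    (hp1 : ∀ k, 0 < (p k).1.im) (hp2 : ∀ k, 0 < (p k).2.im)
    (hg : ∀ k, Good m (rr b y0) (p k)) :
    cost (Mc b y0) m (cav z t fun k => (p k).1, cav z t fun k => (p k).2) ≤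
      CA b m * ‖∑ k, ((p k).1 - (p k).2)‖ ^ 2 := by
  have hb := h.hb
  have hM := h.Mc_pos
  have hr0 := h.rr_pos
  have him := h.im_pos
  have hb2 := h.b2
  have : NeZero b := ⟨by omega⟩
  have hyp := h.hy
  have hy1 := h.y0_lt_one
  have h1 := h.rho_all_good (t := t) hp1 hp2 h.rr_le' hr0.le (fun k => (hg k).1) (fun k => (hg k).2)
  have hw : ∀ (x : Fin b → ℂ), (∀ k, 0 < (x k).im) → (∀ k, ‖uu m (x k)‖ ≤ rr b y0) →
      Mc b y0 * ‖uu m (cav z t x)‖ ^ 2 ≤ 1 / 400 := by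
    intro x hx hgx
    have h2 := h.weight_sq hx ht 0 (fun k _ => hgx k)
    have h3 : Mc b y0 * ‖uu m (x 0)‖ ^ 2 ≤ Mc b y0 * (C5 b y0 * rr b y0) ^ 2 := by
      apply mul_le_mul_of_nonneg_left _ hM.le
      apply pow_le_pow_left₀ (norm_nonneg _)
      refine (hgx 0).trans ?_
      have := C5_ge h.hb h.hy
      nlinarith
    have h4 := h.Mc_small
    have h5 : (1 + 1 / 25) * ((b : ℝ)⁻¹) ^ 2 * (Mc b y0 * ‖uu m (x 0)‖ ^ 2) ≤
        (1 + 1 / 25) * (Mc b y0 * ((b : ℝ)⁻¹) ^ 2 * (C5 b y0 * rr b y0) ^ 2) := by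
      calc _ ≤ (1 + 1 / 25) * ((b : ℝ)⁻¹) ^ 2 * (Mc b y0 * (C5 b y0 * rr b y0) ^ 2) :=
            mul_le_mul_of_nonneg_left h3 (by positivity)
        _ = _ := by ring
    linarith
  have hw1 := hw _ hp1 (fun k => (hg k).1)
  have hw2 := hw _ hp2 (fun k => (hg k).2)
  unfold cost CA
  obtain ⟨R, hR⟩ : ∃ R, R = rho (cav z t fun k => (p k).1) (cav z t fun k => (p k).2) ^ 2 :=
    ⟨_, rfl⟩
  obtain ⟨V, hV⟩ : ∃ V, V = ‖∑ k, ((p k).1 - (p k).2)‖ ^ 2 := ⟨_, rfl⟩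
  obtain ⟨a, ha⟩ : ∃ a, a = 1 / (4 * (b : ℝ) ^ 2 * m.im ^ 2) := ⟨_, rfl⟩
  have ha0 : 0 ≤ a := by rw [ha]; positivity
  have e1 : (1 + 1 / 25) / (4 * (b : ℝ) ^ 2 * m.im ^ 2) = (1 + 1 / 25) * a := by rw [ha]; ring
  have e2 : (1 + 6 / 100) / (4 * (b : ℝ) ^ 2 * m.im ^ 2) = (1 + 6 / 100) * a := by rw [ha]; ring
  rw [← hR, ← hV, e1] at h1
  simp only []
  rw [← hR, ← hV, e2]
  have hR0 : 0 ≤ R := by rw [hR]; positivity
  have hV0 : 0 ≤ V := by rw [hV]; positivity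
  have haV : 0 ≤ a * V := mul_nonneg ha0 hV0
  calc R * (1 + Mc b y0 * ‖uu m (cav z t fun k => (p k).1)‖ ^ 2 +
        Mc b y0 * ‖uu m (cav z t fun k => (p k).2)‖ ^ 2) ≤ R * (1 + 1 / 200) :=
        mul_le_mul_of_nonneg_left (by linarith) hR0
    _ ≤ (1 + 1 / 25) * a * V * (1 + 1 / 200) := mul_le_mul_of_nonneg_right h1 (by norm_num)
    _ ≤ _ := by nlinarith

/-- case 2: exactly `j` possibly bad. -/
theorem Adm.cost_one_bad (h : Adm b y0 z m) {t : ℝ} (ht : |t| ≤ rr b y0) {p : Fin b → ℂ × ℂ}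
    (hp1 : ∀ k, 0 < (p k).1.im) (hp2 : ∀ k, 0 < (p k).2.im) (j : Fin b)
    (hg : ∀ k, k ≠ j → Good m (rr b y0) (p k)) :
    cost (Mc b y0) m (cav z t fun k => (p k).1, cav z t fun k => (p k).2) ≤
      3 / 4 * (b : ℝ)⁻¹ * cost (Mc b y0) m (p j) +
      CF b y0 * ∑ k ∈ Finset.univ.erase j, rho (p k).1 (p k).2 ^ 2 := by
  have hM := h.Mc_pos
  have hr0 := h.rr_pos
  have hb2 := h.b2
  have hyp := h.hy
  have hC3 := h.C3_pos
  have hw1 := h.weight_sq hp1 ht j (fun k hk => (hg k hk).1)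
  have hw2 := h.weight_sq hp2 ht j (fun k hk => (hg k hk).2)
  have hwC := h.weight_le_C3 (h.cav_im_pos t _ hp1).le (h.cav_im_pos t _ hp2).le
  obtain ⟨Q, hQ⟩ : ∃ Q, Q = Mc b y0 * ‖uu m (p j).1‖ ^ 2 + Mc b y0 * ‖uu m (p j).2‖ ^ 2 :=
    ⟨_, rfl⟩
  have hQ0 : 0 ≤ Q := by rw [hQ]; positivity
  obtain ⟨R, hR⟩ : ∃ R, R = rho (cav z t fun k => (p k).1) (cav z t fun k => (p k).2) ^ 2 :=
    ⟨_, rfl⟩
  have hR0 : 0 ≤ R := by rw [hR]; positivity
  obtain ⟨c, hc⟩ : ∃ c, c = rho (p j).1 (p j).2 ^ 2 := ⟨_, rfl⟩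
  have hc0 : 0 ≤ c := by rw [hc]; positivity
  obtain ⟨E, hE⟩ : ∃ E, E = ∑ k ∈ Finset.univ.erase j, rho (p k).1 (p k).2 ^ 2 := ⟨_, rfl⟩
  have hE0 : 0 ≤ E := by rw [hE]; exact Finset.sum_nonneg fun _ _ => by positivity
  obtain ⟨w, hw⟩ : ∃ w, w = 1 + Mc b y0 * ‖uu m (cav z t fun k => (p k).1)‖ ^ 2 +
        Mc b y0 * ‖uu m (cav z t fun k => (p k).2)‖ ^ 2 := ⟨_, rfl⟩
  have hw0 : 0 ≤ w := by rw [hw]; positivity
  obtain ⟨β, hβ⟩ : ∃ β, β = (b : ℝ)⁻¹ := ⟨_, rfl⟩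
  have hβ0 : 0 < β := by rw [hβ]; positivity
  have hβ1 : β ≤ 1 / 2 := by
    rw [hβ]
    rw [inv_le_comm₀ (by linarith) (by norm_num)]
    linarith
  rw [← hw] at hwC
  have hwle : w ≤ 1 + 1 / 100 + (1 + 1 / 25) * β ^ 2 * Q := by
    rw [hw, hQ, hβ]
    have e : (1 + 1 / 25) * ((b : ℝ)⁻¹) ^ 2 *
        (Mc b y0 * ‖uu m (p j).1‖ ^ 2 + Mc b y0 * ‖uu m (p j).2‖ ^ 2) =
        (1 + 1 / 25) * ((b : ℝ)⁻¹) ^ 2 * (Mc b y0 * ‖uu m (p j).1‖ ^ 2) +
        (1 + 1 / 25) * ((b : ℝ)⁻¹) ^ 2 * (Mc b y0 * ‖uu m (p j).2‖ ^ 2) := by ring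
    rw [e]
    linarith
  have ecost : cost (Mc b y0) m (p j) = c * (1 + Q) := by
    unfold cost; rw [hc, hQ]; ring
  have ecost2 : cost (Mc b y0) m (cav z t fun k => (p k).1, cav z t fun k => (p k).2) = R * w := by
    unfold cost; rw [hR, hw]
  rw [ecost, ecost2, ← hE, ← hβ]
  have hCF : CF b y0 = 234 * b / y0 ^ 2 * C3 b y0 := rfl
  have hF0 : 0 ≤ 234 * (b : ℝ) / y0 ^ 2 := by positivity
  -- main alternative
  by_cases hfar : 6 * (b : ℝ) ≤ Q
  · have h1 := h.rho_far (t := t) hp1 hp2 (r := rr b y0)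
      (by have := h.rr_le'; linarith) hr0.le j (fun k hk => (hg k hk).1) (fun k hk => (hg k hk).2)
    rw [← hR, ← hc, ← hE] at h1
    have h2 : (1 + 1 / 25) * w ≤ 3 / 4 * β * (1 + Q) := by
      have h3 : 6 ≤ β * Q := by
        rw [hβ, inv_mul_eq_div, le_div_iff₀ (by linarith)]; exact hfar
      have h4 : β ^ 2 * Q ≤ 1 / 2 * (β * Q) := by
        calc β ^ 2 * Q = β * (β * Q) := by ring
          _ ≤ 1 / 2 * (β * Q) := mul_le_mul_of_nonneg_right hβ1 (mul_nonneg hβ0.le hQ0)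
      have h5 : 3 / 4 * β * (1 + Q) = 3 / 4 * β + 3 / 4 * (β * Q) := by ring
      have h6 : w ≤ 1 + 1 / 100 + (1 + 1 / 25) * (β ^ 2 * Q) := by rw [← mul_assoc]; exact hwle
      rw [h5]
      linarith
    calc R * w ≤ ((1 + 1 / 25) * c + 234 * b / y0 ^ 2 * E) * w := mul_le_mul_of_nonneg_right h1 hw0
      _ = c * ((1 + 1 / 25) * w) + 234 * b / y0 ^ 2 * E * w := by ring
      _ ≤ c * (3 / 4 * β * (1 + Q)) + 234 * b / y0 ^ 2 * E * C3 b y0 :=
        add_le_add (mul_le_mul_of_nonneg_left h2 hc0)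
          (mul_le_mul_of_nonneg_left hwC (mul_nonneg hF0 hE0))
      _ = _ := by rw [hCF]; ring
  · push Not at hfar
    have hsmall : ∀ v : ℝ, 0 ≤ v → Mc b y0 * v ^ 2 ≤ Q → v ≤ y0 / 400 := by
      intro v hv hvQ
      have h3 : Mc b y0 * v ^ 2 < 6 * b := lt_of_le_of_lt hvQ hfar
      unfold Mc at h3
      rw [div_mul_eq_mul_div, div_lt_iff₀ (by positivity)] at h3
      have h4 : v ^ 2 ≤ (y0 / 400) ^ 2 := by
        have hb0 : (0 : ℝ) < b := by linarith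
        have h5 : b * (10 ^ 6 * v ^ 2) < b * (6 * y0 ^ 2) := by nlinarith
        have h6 : 10 ^ 6 * v ^ 2 < 6 * y0 ^ 2 := lt_of_mul_lt_mul_left h5 hb0.le
        nlinarith
      exact le_of_sq_le_sq h4 (by positivity)
    have hu1 : ‖uu m (p j).1‖ ≤ y0 / 400 := hsmall _ (norm_nonneg _) (by
      rw [hQ]; have : 0 ≤ Mc b y0 * ‖uu m (p j).2‖ ^ 2 := by positivity
      linarith)
    have hu2 : ‖uu m (p j).2‖ ≤ y0 / 400 := hsmall _ (norm_nonneg _) (by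
      rw [hQ]; have : 0 ≤ Mc b y0 * ‖uu m (p j).1‖ ^ 2 := by positivity
      linarith)
    have hall1 : ∀ k, ‖uu m (p k).1‖ ≤ y0 / 400 := fun k => by
      by_cases hk : k = j
      · rw [hk]; exact hu1
      · exact (hg k hk).1.trans h.rr_le'
    have hall2 : ∀ k, ‖uu m (p k).2‖ ≤ y0 / 400 := fun k => by
      by_cases hk : k = j
      · rw [hk]; exact hu2
      · exact (hg k hk).2.trans h.rr_le'
    have h1 := h.rho_near (t := t) hp1 hp2 (r2 := y0 / 400) le_rfl (by positivity) j hall1 hall2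
    rw [← hR, ← hc, ← hE, ← hβ] at h1
    have h2 : (1 + 1 / 25) ^ 2 * β ^ 2 * w ≤ 3 / 4 * β * (1 + Q) := by
      have h3 : (1 + 1 / 25) ^ 2 * (β * w) ≤ 3 / 4 * (1 + Q) := by
        have h4 : β * w ≤ β * (1 + 1 / 100 + (1 + 1 / 25) * β ^ 2 * Q) :=
          mul_le_mul_of_nonneg_left hwle hβ0.le
        have h5 : β * β ^ 2 * Q ≤ 1 / 8 * Q := by
          apply mul_le_mul_of_nonneg_right _ hQ0
          have h7 : β ^ 2 ≤ (1 / 2) ^ 2 := pow_le_pow_left₀ hβ0.le hβ1 2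
          calc β * β ^ 2 ≤ (1 / 2) * (1 / 2) ^ 2 := mul_le_mul hβ1 h7 (by positivity) (by norm_num)
            _ = 1 / 8 := by norm_num
        have h8 : β * (1 + 1 / 100 + (1 + 1 / 25) * β ^ 2 * Q) =
            (1 + 1 / 100) * β + (1 + 1 / 25) * (β * β ^ 2 * Q) := by ring
        have h9 : β * w ≤ 101 / 200 + 13 / 100 * Q := by linarith
        linarith
      calc (1 + 1 / 25) ^ 2 * β ^ 2 * w = β * ((1 + 1 / 25) ^ 2 * (β * w)) := by ring
        _ ≤ β * (3 / 4 * (1 + Q)) := mul_le_mul_of_nonneg_left h3 hβ0.le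
        _ = _ := by ring
    calc R * w ≤ ((1 + 1 / 25) ^ 2 * β ^ 2 * c + 234 * b / y0 ^ 2 * E) * w :=
          mul_le_mul_of_nonneg_right h1 hw0
      _ = c * ((1 + 1 / 25) ^ 2 * β ^ 2 * w) + 234 * b / y0 ^ 2 * E * w := by ring
      _ ≤ c * (3 / 4 * β * (1 + Q)) + 234 * b / y0 ^ 2 * E * C3 b y0 :=
        add_le_add (mul_le_mul_of_nonneg_left h2 hc0)
          (mul_le_mul_of_nonneg_left hwC (mul_nonneg hF0 hE0))
      _ = _ := by rw [hCF]; ring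

/-- case 3 (always true). -/
theorem Adm.cost_gen (h : Adm b y0 z m) (t : ℝ) {p : Fin b → ℂ × ℂ}
    (hp1 : ∀ k, 0 < (p k).1.im) (hp2 : ∀ k, 0 < (p k).2.im) :
    cost (Mc b y0) m (cav z t fun k => (p k).1, cav z t fun k => (p k).2) ≤
      C3 b y0 * ∑ k, rho (p k).1 (p k).2 ^ 2 := by
  have hwC := h.weight_le_C3 (h.cav_im_pos t _ hp1).le (h.cav_im_pos t _ hp2).le
  have h1 := h.rho_cav_sq_le_sum t _ _ hp1 hp2
  have hM := h.Mc_pos
  have hC3 := h.C3_pos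
  unfold cost
  simp only []
  calc _ ≤ rho (cav z t fun k => (p k).1) (cav z t fun k => (p k).2) ^ 2 * C3 b y0 :=
        mul_le_mul_of_nonneg_left hwC (by positivity)
    _ ≤ (∑ k, rho (p k).1 (p k).2 ^ 2) * C3 b y0 := mul_le_mul_of_nonneg_right h1 hC3.le
    _ = _ := by ring

/-- THE POINTWISE INEQUALITY. -/
theorem Adm.cost_pointwise (h : Adm b y0 z m) {t : ℝ} (ht : |t| ≤ rr b y0) {p : Fin b → ℂ × ℂ}
    (hp1 : ∀ k, 0 < (p k).1.im) (hp2 : ∀ k, 0 < (p k).2.im) :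
    cost (Mc b y0) m (cav z t fun k => (p k).1, cav z t fun k => (p k).2) ≤
      CA b m * ‖∑ k, (gI m (rr b y0) (p k) : ℂ) * ((p k).1 - (p k).2)‖ ^ 2 +
      3 / 4 * (b : ℝ)⁻¹ * ∑ j, bI m (rr b y0) (p j) * cost (Mc b y0) m (p j) +
      CF b y0 * ∑ q ∈ (Finset.univ : Finset (Fin b)).offDiag,
        bI m (rr b y0) (p q.1) * rho (p q.2).1 (p q.2).2 ^ 2 +
      C3 b y0 * ∑ q ∈ (Finset.univ : Finset (Fin b)).offDiag,
        bI m (rr b y0) (p q.1) * bI m (rr b y0) (p q.2) * ∑ l, rho (p l).1 (p l).2 ^ 2 := by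
  have hM := h.Mc_pos
  have hC3 := h.C3_pos
  have hb2 := h.b2
  have hyp := h.hy
  have hi := h.im_pos
  have hCA : 0 ≤ CA b m := by unfold CA; positivity
  have hCF : 0 ≤ CF b y0 := by unfold CF; positivity
  have n1 : 0 ≤ CA b m * ‖∑ k, (gI m (rr b y0) (p k) : ℂ) * ((p k).1 - (p k).2)‖ ^ 2 := by
    positivity
  have n2 : 0 ≤ 3 / 4 * (b : ℝ)⁻¹ * ∑ j, bI m (rr b y0) (p j) * cost (Mc b y0) m (p j) := by
    refine mul_nonneg (by positivity) (Finset.sum_nonneg fun j _ => ?_)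
    exact mul_nonneg (bI_nonneg _ _) (cost_nonneg hM.le _)
  have n3 : 0 ≤ CF b y0 * ∑ q ∈ (Finset.univ : Finset (Fin b)).offDiag,
        bI m (rr b y0) (p q.1) * rho (p q.2).1 (p q.2).2 ^ 2 := by
    refine mul_nonneg hCF (Finset.sum_nonneg fun q _ => ?_)
    exact mul_nonneg (bI_nonneg _ _) (by positivity)
  have n4 : 0 ≤ C3 b y0 * ∑ q ∈ (Finset.univ : Finset (Fin b)).offDiag,
        bI m (rr b y0) (p q.1) * bI m (rr b y0) (p q.2) * ∑ l, rho (p l).1 (p l).2 ^ 2 := by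
    refine mul_nonneg hC3.le (Finset.sum_nonneg fun q _ => ?_)
    exact mul_nonneg (mul_nonneg (bI_nonneg _ _) (bI_nonneg _ _))
      (Finset.sum_nonneg fun _ _ => by positivity)
  by_cases hall : ∀ k, Good m (rr b y0) (p k)
  · have h1 := h.cost_all_good ht hp1 hp2 hall
    have e1 : ∑ k, (gI m (rr b y0) (p k) : ℂ) * ((p k).1 - (p k).2) =
        ∑ k, ((p k).1 - (p k).2) := by
      refine Finset.sum_congr rfl fun k _ => ?_
      rw [gI_good (hall k)]; simp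
    rw [e1] at n1 ⊢
    linarith
  · push Not at hall
    obtain ⟨j, hj⟩ := hall
    by_cases hone : ∀ k, k ≠ j → Good m (rr b y0) (p k)
    · have h1 := h.cost_one_bad ht hp1 hp2 j hone
      have h2 : cost (Mc b y0) m (p j) ≤
          ∑ j, bI m (rr b y0) (p j) * cost (Mc b y0) m (p j) := by
        have := Finset.single_le_sum (f := fun j => bI m (rr b y0) (p j) * cost (Mc b y0) m (p j))
          (fun j _ => mul_nonneg (bI_nonneg _ _) (cost_nonneg hM.le _)) (Finset.mem_univ j)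
        rw [bI_bad hj, one_mul] at this
        exact this
      have h3 : ∑ k ∈ Finset.univ.erase j, rho (p k).1 (p k).2 ^ 2 ≤
          ∑ q ∈ (Finset.univ : Finset (Fin b)).offDiag,
            bI m (rr b y0) (p q.1) * rho (p q.2).1 (p q.2).2 ^ 2 := by
        have h4 : ∑ k ∈ Finset.univ.erase j, rho (p k).1 (p k).2 ^ 2 =
            ∑ q ∈ (Finset.univ.erase j).image (fun k => (j, k)),
              bI m (rr b y0) (p q.1) * rho (p q.2).1 (p q.2).2 ^ 2 := by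
          rw [Finset.sum_image (by intro a _ b _ hab; simpa using hab)]
          refine Finset.sum_congr rfl fun k _ => ?_
          simp only []
          rw [bI_bad hj, one_mul]
        rw [h4]
        apply Finset.sum_le_sum_of_subset_of_nonneg
        · intro q hq
          rw [Finset.mem_image] at hq
          obtain ⟨k, hk, rfl⟩ := hq
          rw [Finset.mem_offDiag]
          exact ⟨Finset.mem_univ _, Finset.mem_univ _, (Finset.ne_of_mem_erase hk).symm⟩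
        · intro q _ _
          exact mul_nonneg (bI_nonneg _ _) (by positivity)
      have h5 := mul_le_mul_of_nonneg_left h2 (show 0 ≤ 3 / 4 * (b : ℝ)⁻¹ by positivity)
      have h6 := mul_le_mul_of_nonneg_left h3 hCF
      linarith
    · push Not at hone
      obtain ⟨k, hkj, hk⟩ := hone
      have h1 := h.cost_gen t hp1 hp2
      have h2 : ∑ l, rho (p l).1 (p l).2 ^ 2 ≤ ∑ q ∈ (Finset.univ : Finset (Fin b)).offDiag,
        bI m (rr b y0) (p q.1) * bI m (rr b y0) (p q.2) * ∑ l, rho (p l).1 (p l).2 ^ 2 := by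
        have := Finset.single_le_sum (f := fun q : Fin b × Fin b =>
          bI m (rr b y0) (p q.1) * bI m (rr b y0) (p q.2) * ∑ l, rho (p l).1 (p l).2 ^ 2)
          (s := (Finset.univ : Finset (Fin b)).offDiag)
          (fun q _ => mul_nonneg (mul_nonneg (bI_nonneg _ _) (bI_nonneg _ _))
            (Finset.sum_nonneg fun _ _ => by positivity))
          (a := (j, k)) (by rw [Finset.mem_offDiag]; exact ⟨Finset.mem_univ _, Finset.mem_univ _, Ne.symm hkj⟩)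
        rw [bI_bad hj, bI_bad hk, one_mul, one_mul] at this
        exact this
      have h3 := mul_le_mul_of_nonneg_left h2 hC3.le
      linarith

end

end Crest.Agent.R166.TreeDet350
end

-- ▼ part R166/TreeCost2_350
/-!
Row 166, section 32 (tree half): pointwise inequalities, part 2 (mean differences). (helper350)
-/
set_option autoImplicit false

namespace Crest.Agent.R166.TreeDet350

open Complex Finset

noncomputable section

variable {b : ℕ} {y0 : ℝ} {z m : ℂ}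

theorem ut_sub (m D D' : ℂ) (h1 : 1 - m ^ 2 - m * D ≠ 0) (h2 : 1 - m ^ 2 - m * D' ≠ 0) :
    ut m D - ut m D' = (1 - m ^ 2) * (D - D') / ((1 - m ^ 2 - m * D) * (1 - m ^ 2 - m * D')) := by
  unfold ut
  rw [div_sub_div _ _ h1 h2]
  congr 1
  ring

/-- perturbation of the inverse product. -/
theorem inv_prod_near {a α β : ℂ} {ε : ℝ} (ha : 1 / 2 ≤ ‖a‖) (ha' : ‖a‖ ≤ 3 / 2) (hε : ε ≤ 1 / 8)
    (hα : ‖α‖ ≤ ε) (hβ : ‖β‖ ≤ ε) :
    ‖1 / ((a - α) * (a - β)) - 1 / a ^ 2‖ ≤ 115 * ε := by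
  have hε0 : 0 ≤ ε := (norm_nonneg _).trans hα
  have h1 : 3 / 8 ≤ ‖a - α‖ := by
    have := norm_sub_norm_le a α; linarith
  have h2 : 3 / 8 ≤ ‖a - β‖ := by
    have := norm_sub_norm_le a β; linarith
  have n0 : a ≠ 0 := norm_pos_iff.1 (by linarith)
  have n1 : a - α ≠ 0 := norm_pos_iff.1 (by linarith)
  have n2 : a - β ≠ 0 := norm_pos_iff.1 (by linarith)
  have e : 1 / ((a - α) * (a - β)) - 1 / a ^ 2 =
      (a * (α + β) - α * β) / ((a - α) * (a - β) * a ^ 2) := by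
    rw [div_sub_div _ _ (mul_ne_zero n1 n2) (pow_ne_zero 2 n0)]
    congr 1
    ring
  rw [e, norm_div, norm_mul, norm_mul, norm_pow]
  have h3 : ‖a * (α + β) - α * β‖ ≤ 4 * ε := by
    calc ‖a * (α + β) - α * β‖ ≤ ‖a * (α + β)‖ + ‖α * β‖ := norm_sub_le _ _
      _ ≤ (3 / 2) * (2 * ε) + ε * (1 / 8) := by
        rw [norm_mul, norm_mul]
        have h4 : ‖α + β‖ ≤ 2 * ε := (norm_add_le _ _).trans (by linarith)
        exact add_le_add (mul_le_mul ha' h4 (norm_nonneg _) (by norm_num))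
          (mul_le_mul hα (hβ.trans hε) (norm_nonneg _) hε0)
      _ ≤ _ := by linarith
  have h4 : (3 / 8) * (3 / 8) * (1 / 2) ^ 2 ≤ ‖a - α‖ * ‖a - β‖ * ‖a‖ ^ 2 := by
    apply mul_le_mul (mul_le_mul h1 h2 (by norm_num) (norm_nonneg _)) _ (by norm_num)
      (by positivity)
    exact pow_le_pow_left₀ (by norm_num) ha 2
  calc _ ≤ 4 * ε / ((3 / 8) * (3 / 8) * (1 / 2) ^ 2) :=
        div_le_div₀ (by positivity) h3 (by norm_num) h4
    _ ≤ _ := by
      rw [div_le_iff₀ (by norm_num)]; nlinarith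

theorem Adm.b_rr_le (h : Adm b y0 z m) : b ^ 2 * rr b y0 ≤ y0 ^ 6 / (3 * 10 ^ 7) := by
  have hy := h.hy
  have hy1 := h.y0_lt_one
  have h1 := h.C5_rr
  have hr := h.rr_pos
  have hK3 := K3_pos hy
  have hK4 := K4_pos hy
  have hBB := h.BB_ge
  have hb := h.b2
  have h2 : 3 ≤ K3 y0 := by
    have h3 : 3 ≤ KK y0 := by unfold KK; rw [le_div_iff₀ hy]; linarith
    have h4 := one_le_K2 hy
    unfold K3
    nlinarith
  have h5 : 3 * b ^ 2 ≤ C5 b y0 := by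
    have h6 : 3 * (b : ℝ) ^ 2 ≤ K3 y0 * (b ^ 2 * BB y0) := by
      have h7 : (b : ℝ) ^ 2 ≤ b ^ 2 * BB y0 := by nlinarith [sq_nonneg (b : ℝ)]
      have h8 : 0 ≤ (b : ℝ) ^ 2 := by positivity
      nlinarith
    unfold C5
    linarith
  have h9 : 3 * b ^ 2 * rr b y0 ≤ C5 b y0 * rr b y0 := mul_le_mul_of_nonneg_right h5 hr.le
  rw [h1] at h9
  linarith

/-- pointwise relation between the displacement difference and `u`-difference. -/
theorem Adm.disp_u (h : Adm b y0 z m) {p : ℂ × ℂ} (h1 : 0 < p.1.im) (h2 : 0 < p.2.im) :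
    ‖(gI m (rr b y0) p : ℂ) * (p.1 - p.2) - (1 - m ^ 2) * (uu m p.1 - uu m p.2)‖ ≤
      1600 * rr b y0 * rho p.1 p.2 + 5 / y0 * (bI m (rr b y0) p * rho p.1 p.2) := by
  have hr0 := h.rr_pos
  have hyp := h.hy
  have hrho := rho_nonneg p.1 p.2
  have hr400 := h.rr_le'
  have hy1 := h.y0_lt_one
  have hr4 : rr b y0 ≤ 1 / 400 := by linarith
  by_cases hg : Good m (rr b y0) p
  · rw [gI_good hg, bI_good hg]
    have d1 := h.disp_le h1.le (by linarith) hg.1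
    have d2 := h.disp_le h2.le (by linarith) hg.2
    have hδ := h.norm_sub_le_good h1 h2 (by linarith) hg.1 hg.2
    have hδ3 : ‖p.1 - p.2‖ ≤ 3 * rho p.1 p.2 := by
      refine hδ.trans (mul_le_mul_of_nonneg_right ?_ hrho)
      have := h.im_le_norm; have := h.norm_le; linarith
    have hm := h.norm_le
    have a1 := h.norm_a_ge
    have a2 := h.norm_a_le
    have e1 := h.uu_sub h1.le h2.le
    rw [e1, one_sub_mul m p.1, one_sub_mul m p.2]
    have k1 : ‖m * (p.1 - m)‖ ≤ 2 * rr b y0 := by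
      rw [norm_mul]
      have := mul_le_mul hm d1 (norm_nonneg _) (by norm_num); linarith
    have k2 : ‖m * (p.2 - m)‖ ≤ 2 * rr b y0 := by
      rw [norm_mul]
      have := mul_le_mul hm d2 (norm_nonneg _) (by norm_num); linarith
    have key := inv_prod_near a1 a2 (by linarith) k1 k2
    obtain ⟨a, ha⟩ : ∃ a, a = 1 - m ^ 2 := ⟨_, rfl⟩
    rw [← ha] at a1 a2 key ⊢
    have n0 : a ≠ 0 := norm_pos_iff.1 (by linarith)
    have e2 : ((1 : ℝ) : ℂ) * (p.1 - p.2) -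
        a * (a * (p.1 - p.2) / ((a - m * (p.1 - m)) * (a - m * (p.2 - m)))) =
        -(a ^ 2 * (p.1 - p.2)) *
          (1 / ((a - m * (p.1 - m)) * (a - m * (p.2 - m))) - 1 / a ^ 2) := by
      field_simp
      push_cast
      ring
    rw [e2, norm_mul, norm_neg, norm_mul, norm_pow]
    have h5 : ‖a‖ ^ 2 * ‖p.1 - p.2‖ ≤ (3 / 2) ^ 2 * (3 * rho p.1 p.2) :=
      mul_le_mul (pow_le_pow_left₀ (norm_nonneg _) a2 2) hδ3 (norm_nonneg _) (by norm_num)
    have h6 := mul_le_mul h5 key (norm_nonneg _) (by positivity)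
    refine h6.trans ?_
    have : 0 ≤ rho p.1 p.2 * rr b y0 := by positivity
    nlinarith
  · rw [gI_bad hg, bI_bad hg]
    have h3 := h.uu_lip h1 h2
    have a2 := h.norm_a_le
    rw [ofReal_zero, zero_mul, zero_sub, norm_neg, norm_mul]
    have h4 : ‖1 - m ^ 2‖ * ‖uu m p.1 - uu m p.2‖ ≤ (3 / 2) * (3 / y0 * rho p.1 p.2) :=
      mul_le_mul a2 h3 (norm_nonneg _) (by norm_num)
    have h5 : 0 ≤ 1600 * rr b y0 * rho p.1 p.2 := by positivity
    have h6 : (3 / 2) * (3 / y0 * rho p.1 p.2) ≤ 5 / y0 * (1 * rho p.1 p.2) := by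
      have : 0 ≤ rho p.1 p.2 / y0 := by positivity
      calc (3 / 2) * (3 / y0 * rho p.1 p.2) = 9 / 2 * (rho p.1 p.2 / y0) := by ring
        _ ≤ 5 * (rho p.1 p.2 / y0) := by linarith
        _ = _ := by ring
    linarith

/-- the mean difference, pointwise. -/
theorem Adm.mean_pointwise (h : Adm b y0 z m) {t : ℝ} (ht : |t| ≤ rr b y0) {p : Fin b → ℂ × ℂ}
    (hp1 : ∀ k, 0 < (p k).1.im) (hp2 : ∀ k, 0 < (p k).2.im) :
    ‖(uu m (cav z t fun k => (p k).1) - uu m (cav z t fun k => (p k).2)) -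
      m ^ 2 * ∑ k, (uu m (p k).1 - uu m (p k).2)‖ ≤
      4000 * b * rr b y0 * ∑ k, rho (p k).1 (p k).2 +
      6 / y0 * ∑ j, ∑ k, bI m (rr b y0) (p j) * rho (p k).1 (p k).2 := by
  have hb := h.hb
  have hb2 := h.b2
  have hr0 := h.rr_pos
  have hyp := h.hy
  have hy1 := h.y0_lt_one
  have hr400 := h.rr_le'
  have hbr : b * rr b y0 ≤ 1 / 1000 := by
    have h1 := h.b_rr_le
    have h2 : y0 ^ 6 ≤ 1 := pow_le_one₀ hyp.le hy1.le
    have h3 : b * rr b y0 ≤ b ^ 2 * rr b y0 := by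
      apply mul_le_mul_of_nonneg_right _ hr0.le; nlinarith
    linarith
  have hR0 : 0 ≤ ∑ k, rho (p k).1 (p k).2 := Finset.sum_nonneg fun _ _ => rho_nonneg _ _
  have hn2 : 0 ≤ 6 / y0 * ∑ j, ∑ k, bI m (rr b y0) (p j) * rho (p k).1 (p k).2 := by
    refine mul_nonneg (by positivity) (Finset.sum_nonneg fun j _ => Finset.sum_nonneg fun k _ => ?_)
    exact mul_nonneg (bI_nonneg _ _) (rho_nonneg _ _)
  have hm2 : ‖m ^ 2‖ ≤ 1 := by
    rw [norm_pow, Adm.sq_norm]; linarith [h.normSq_le]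
  by_cases hall : ∀ k, Good m (rr b y0) (p k)
  · -- all good
    have hr4 : rr b y0 ≤ 1 / 4 := by linarith
    have d1 : ∀ k, ‖(p k).1 - m‖ ≤ 2 * rr b y0 := fun k => h.disp_le (hp1 k).le hr4 (hall k).1
    have d2 : ∀ k, ‖(p k).2 - m‖ ≤ 2 * rr b y0 := fun k => h.disp_le (hp2 k).le hr4 (hall k).2
    have hne1 : z - t + ∑ k, (p k).1 ≠ 0 :=
      ne_zero_of_im_pos (h.SS_im_pos t (fun k => (p k).1) hp1)
    have hne2 : z - t + ∑ k, (p k).2 ≠ 0 :=
      ne_zero_of_im_pos (h.SS_im_pos t (fun k => (p k).2) hp2)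
    rw [h.uu_cav t (fun k => (p k).1) (fun k => (hp1 k).le) hne1,
      h.uu_cav t (fun k => (p k).2) (fun k => (hp2 k).le) hne2]
    have i1 := h.im_D_ge t (fun k => (p k).1) (fun k => (hp1 k).le)
    have i2 := h.im_D_ge t (fun k => (p k).2) (fun k => (hp2 k).le)
    have D1 : ∀ q : Fin b → ℂ, (∀ k, ‖q k - m‖ ≤ 2 * rr b y0) →
        ‖m * (∑ k, (q k - m) - (t : ℂ))‖ ≤ 3 * (b * rr b y0) := by
      intro q hq
      have s1 : ‖∑ k, (q k - m)‖ ≤ b * (2 * rr b y0) := by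
        refine (norm_sum_le _ _).trans ((Finset.sum_le_sum fun k _ => hq k).trans ?_)
        rw [Finset.sum_const, Finset.card_univ, Fintype.card_fin, nsmul_eq_mul]
      have s2 : ‖∑ k, (q k - m) - (t : ℂ)‖ ≤ b * (2 * rr b y0) + rr b y0 := by
        refine (norm_sub_le _ _).trans ?_
        rw [norm_real, Real.norm_eq_abs]; linarith
      rw [norm_mul]
      have s3 := mul_le_mul h.norm_le s2 (norm_nonneg _) (by norm_num)
      have s4 : rr b y0 ≤ b * rr b y0 := by nlinarith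
      nlinarith
    have k1 := D1 _ d1
    have k2 := D1 _ d2
    have a1 := h.norm_a_ge
    have a2 := h.norm_a_le
    have key := inv_prod_near a1 a2 (by linarith) k1 k2
    have hδ3 : ∀ k, ‖(p k).1 - (p k).2‖ ≤ 3 * rho (p k).1 (p k).2 := fun k => by
      have hδ := h.norm_sub_le_good (hp1 k) (hp2 k) hr4 (hall k).1 (hall k).2
      refine hδ.trans (mul_le_mul_of_nonneg_right ?_ (rho_nonneg _ _))
      have := h.im_le_norm; have := h.norm_le; linarith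
    have eD : ut m (∑ k, ((p k).1 - m) - t) - ut m (∑ k, ((p k).2 - m) - t) =
        ∑ k, (1 - m ^ 2) * ((p k).1 - (p k).2) *
          (1 / ((1 - m ^ 2 - m * (∑ k, ((p k).1 - m) - t)) *
            (1 - m ^ 2 - m * (∑ k, ((p k).2 - m) - t)))) := by
      rw [ut_sub m _ _ (h.den_ne i1) (h.den_ne i2), ← Finset.sum_mul, ← Finset.mul_sum]
      have : (∑ k, ((p k).1 - m) - (t : ℂ)) - (∑ k, ((p k).2 - m) - t) =
          ∑ k, ((p k).1 - (p k).2) := by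
        rw [sub_sub_sub_cancel_right, ← Finset.sum_sub_distrib]
        refine Finset.sum_congr rfl fun k _ => ?_
        ring
      rw [this, mul_one_div]
    rw [← mul_sub, eD, ← mul_sub, norm_mul, ← Finset.sum_sub_distrib]
    have hterm : ∀ k ∈ (Finset.univ : Finset (Fin b)),
        ‖(1 - m ^ 2) * ((p k).1 - (p k).2) *
          (1 / ((1 - m ^ 2 - m * (∑ k, ((p k).1 - m) - t)) *
            (1 - m ^ 2 - m * (∑ k, ((p k).2 - m) - t)))) - (uu m (p k).1 - uu m (p k).2)‖ ≤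
        4000 * b * rr b y0 * rho (p k).1 (p k).2 := by
      intro k _
      have q1 : ‖m * ((p k).1 - m)‖ ≤ 2 * rr b y0 := by
        rw [norm_mul]
        have := mul_le_mul h.norm_le (d1 k) (norm_nonneg _) (by norm_num); linarith
      have q2 : ‖m * ((p k).2 - m)‖ ≤ 2 * rr b y0 := by
        rw [norm_mul]
        have := mul_le_mul h.norm_le (d2 k) (norm_nonneg _) (by norm_num); linarith
      have key2 := inv_prod_near a1 a2 (by linarith) q1 q2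
      rw [h.uu_sub (hp1 k).le (hp2 k).le, one_sub_mul m (p k).1, one_sub_mul m (p k).2]
      obtain ⟨A, hA⟩ : ∃ A, A = 1 / ((1 - m ^ 2 - m * (∑ k, ((p k).1 - m) - t)) *
            (1 - m ^ 2 - m * (∑ k, ((p k).2 - m) - t))) := ⟨_, rfl⟩
      obtain ⟨B, hB⟩ : ∃ B, B = 1 / ((1 - m ^ 2 - m * ((p k).1 - m)) *
            (1 - m ^ 2 - m * ((p k).2 - m))) := ⟨_, rfl⟩
      rw [← hA] at key ⊢
      rw [← hB] at key2
      have e3 : (1 - m ^ 2) * ((p k).1 - (p k).2) * A -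
          (1 - m ^ 2) * ((p k).1 - (p k).2) / ((1 - m ^ 2 - m * ((p k).1 - m)) *
            (1 - m ^ 2 - m * ((p k).2 - m))) =
          (1 - m ^ 2) * ((p k).1 - (p k).2) * ((A - 1 / (1 - m ^ 2) ^ 2) -
            (B - 1 / (1 - m ^ 2) ^ 2)) := by
        rw [hB]; ring
      rw [e3, norm_mul, norm_mul]
      have s1 : ‖(A - 1 / (1 - m ^ 2) ^ 2) - (B - 1 / (1 - m ^ 2) ^ 2)‖ ≤
          115 * (3 * (b * rr b y0)) + 115 * (2 * rr b y0) :=
        (norm_sub_le _ _).trans (add_le_add key key2)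
      have s2 : ‖1 - m ^ 2‖ * ‖(p k).1 - (p k).2‖ ≤ (3 / 2) * (3 * rho (p k).1 (p k).2) :=
        mul_le_mul a2 (hδ3 k) (norm_nonneg _) (by norm_num)
      have s3 := mul_le_mul s2 s1 (norm_nonneg _) (by have := rho_nonneg (p k).1 (p k).2; positivity)
      refine s3.trans ?_
      have s4 : rr b y0 ≤ b * rr b y0 := by nlinarith
      have s5 : 115 * (3 * (b * rr b y0)) + 115 * (2 * rr b y0) ≤ 575 * (b * rr b y0) := by linarith
      have s6 : 0 ≤ rho (p k).1 (p k).2 := rho_nonneg _ _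
      calc (3 / 2) * (3 * rho (p k).1 (p k).2) *
            (115 * (3 * (b * rr b y0)) + 115 * (2 * rr b y0))
          ≤ (3 / 2) * (3 * rho (p k).1 (p k).2) * (575 * (b * rr b y0)) :=
            mul_le_mul_of_nonneg_left s5 (by positivity)
        _ = 2587.5 * (b * rr b y0 * rho (p k).1 (p k).2) := by ring
        _ ≤ 4000 * (b * rr b y0 * rho (p k).1 (p k).2) := by
            apply mul_le_mul_of_nonneg_right (by norm_num) (by positivity)
        _ = _ := by ring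
    have hs := (norm_sum_le _ _).trans (Finset.sum_le_sum hterm)
    rw [← Finset.mul_sum] at hs
    have hfin := mul_le_mul hm2 hs (norm_nonneg _) (by norm_num)
    rw [one_mul] at hfin
    linarith
  · push Not at hall
    obtain ⟨j, hj⟩ := hall
    have h1 : ‖uu m (cav z t fun k => (p k).1) - uu m (cav z t fun k => (p k).2)‖ ≤
        3 / y0 * ∑ k, rho (p k).1 (p k).2 := by
      refine (h.uu_lip (h.cav_im_pos t _ hp1) (h.cav_im_pos t _ hp2)).trans ?_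
      exact mul_le_mul_of_nonneg_left (h.rho_cav_le_sum t _ _ hp1 hp2) (by positivity)
    have h2 : ‖∑ k, (uu m (p k).1 - uu m (p k).2)‖ ≤ 3 / y0 * ∑ k, rho (p k).1 (p k).2 := by
      refine (norm_sum_le _ _).trans ?_
      rw [Finset.mul_sum]
      exact Finset.sum_le_sum fun k _ => h.uu_lip (hp1 k) (hp2 k)
    have h3 : ‖m ^ 2 * ∑ k, (uu m (p k).1 - uu m (p k).2)‖ ≤
        3 / y0 * ∑ k, rho (p k).1 (p k).2 := by
      rw [norm_mul]
      have := mul_le_mul hm2 h2 (norm_nonneg _) (by norm_num)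
      linarith
    have h4 : ∑ k, rho (p k).1 (p k).2 ≤ ∑ j, ∑ k, bI m (rr b y0) (p j) * rho (p k).1 (p k).2 := by
      have := Finset.single_le_sum
        (f := fun j => ∑ k, bI m (rr b y0) (p j) * rho (p k).1 (p k).2)
        (fun j _ => Finset.sum_nonneg fun k _ => mul_nonneg (bI_nonneg _ _) (rho_nonneg _ _))
        (Finset.mem_univ j)
      rw [bI_bad hj] at this
      simpa using this
    have h5 := norm_sub_le (uu m (cav z t fun k => (p k).1) - uu m (cav z t fun k => (p k).2))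
      (m ^ 2 * ∑ k, (uu m (p k).1 - uu m (p k).2))
    have h6 : 0 ≤ 4000 * b * rr b y0 * ∑ k, rho (p k).1 (p k).2 := by positivity
    have h7 : 6 / y0 * ∑ k, rho (p k).1 (p k).2 ≤
        6 / y0 * ∑ j, ∑ k, bI m (rr b y0) (p j) * rho (p k).1 (p k).2 :=
      mul_le_mul_of_nonneg_left h4 (by positivity)
    have h8 : 6 / y0 * ∑ k, rho (p k).1 (p k).2 =
        3 / y0 * ∑ k, rho (p k).1 (p k).2 + 3 / y0 * ∑ k, rho (p k).1 (p k).2 := by ring
    linarith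

end

end Crest.Agent.R166.TreeDet350
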