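import Mathlib
import Crest.Agent.R166.TreeCon_350
import Crest.Agent.R166.Spec_D_350
import Crest.Agent.R166.TreeT1_383
import Crest.Agent.R166.TreeT2_251
import Crest.Agent.R166.TreeT6N_383

-- ▼ part R166/TreeCon2_350
section
/-!
Row 166, section 32 (tree half): averaged one-level contraction, final forms.  (helper350)
-/
set_option autoImplicit false

namespace Crest.Agent.R166.TreeDet350

open MeasureTheory ProbabilityTheory Complex Finset

noncomputable section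

variable {b : ℕ} {y0 : ℝ} {z m : ℂ} {Θ : Type*} [MeasurableSpace Θ]
variable {π : Measure Θ} [IsProbabilityMeasure π] {X Y : Θ → ℂ}

/-- smallness threshold for the probability of a bad pair -/
def pb0 (b : ℕ) (y0 : ℝ) : ℝ := y0 ^ 6 / (40000 * b ^ 4 * (1 + CF b y0 + C3 b y0))

theorem Adm.CF_nonneg (h : Adm b y0 z m) : 0 ≤ CF b y0 := by
  have := h.C3_pos; have := h.hy; unfold CF; positivity

theorem Adm.pb0_pos (h : Adm b y0 z m) : 0 < pb0 b y0 := by
  have := h.CF_nonneg; have := h.C3_pos; have := h.hy; have := h.b2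
  unfold pb0; positivity

/-- the two consequences of `p ≤ pb0` that are used -/
theorem Adm.pb0_use (h : Adm b y0 z m) {p : ℝ} (hp0 : 0 ≤ p) (hp : p ≤ pb0 b y0) :
    b ^ 4 * p ≤ y0 ^ 6 / 40000 ∧ (CF b y0 * b ^ 2 + C3 b y0 * b ^ 3) * p ≤ 1 / 40000 := by
  have hCF := h.CF_nonneg
  have hC3 := h.C3_pos
  have hy := h.hy
  have hy1 := h.y0_lt_one
  have hb2 := h.b2
  have hb0 : (0 : ℝ) < b := by linarith
  have hy6 : y0 ^ 6 ≤ 1 := pow_le_one₀ hy.le hy1.le
  have h1 : p * (40000 * b ^ 4 * (1 + CF b y0 + C3 b y0)) ≤ y0 ^ 6 := by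
    unfold pb0 at hp
    rwa [le_div_iff₀ (by positivity)] at hp
  have h2 : b ^ 4 * p ≤ b ^ 4 * p * (1 + CF b y0 + C3 b y0) := by
    have : 0 ≤ b ^ 4 * p := by positivity
    nlinarith
  constructor
  · rw [le_div_iff₀ (by norm_num)]
    nlinarith
  · have h3 : CF b y0 * (b : ℝ) ^ 2 + C3 b y0 * b ^ 3 ≤ b ^ 4 * (1 + CF b y0 + C3 b y0) := by
      have e1 : (b : ℝ) ^ 2 ≤ b ^ 4 := pow_le_pow_right₀ (by linarith) (by norm_num)
      have e2 : (b : ℝ) ^ 3 ≤ b ^ 4 := pow_le_pow_right₀ (by linarith) (by norm_num)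
      have e3 := mul_le_mul_of_nonneg_left e1 hCF
      have e4 := mul_le_mul_of_nonneg_left e2 hC3.le
      have e5 : (0 : ℝ) ≤ b ^ 4 := by positivity
      nlinarith
    have h4 := mul_le_mul_of_nonneg_right h3 hp0
    rw [le_div_iff₀ (by norm_num)]
    nlinarith

omit [IsProbabilityMeasure π] in
theorem int_rho_bI_sq [IsFiniteMeasure π] (P : Pr X Y) (m : ℂ) (r : ℝ) :
    (∫ θ, bI m r (X θ, Y θ) * rho (X θ) (Y θ) ∂π) ^ 2 ≤
      (∫ θ, bI m r (X θ, Y θ) ∂π) * rA π X Y := by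
  have mb := P.meas_bI m r
  have mr := P.meas_rho
  have i1 : Integrable (fun θ => bI m r (X θ, Y θ) ^ 2) π :=
    integrable_of_bdd (B := 1) (mb.pow_const 2).aestronglyMeasurable fun θ => by
      rw [Real.norm_eq_abs, abs_of_nonneg (by positivity)]
      exact pow_le_one₀ (bI_nonneg _ _) (bI_le_one _ _)
  have i1' : Integrable (fun θ => bI m r (X θ, Y θ)) π :=
    integrable_of_bdd (B := 1) mb.aestronglyMeasurable fun θ => by
      rw [Real.norm_eq_abs, abs_of_nonneg (bI_nonneg _ _)]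
      exact bI_le_one _ _
  have i2 : Integrable (fun θ => rho (X θ) (Y θ) ^ 2) π :=
    integrable_of_bdd (B := 1) (mr.pow_const 2).aestronglyMeasurable fun θ => by
      rw [Real.norm_eq_abs, abs_of_nonneg (by positivity)]
      exact P.rho_sq_le θ
  have i3 : Integrable (fun θ => bI m r (X θ, Y θ) * rho (X θ) (Y θ)) π :=
    integrable_of_bdd (B := 1) (mb.mul mr).aestronglyMeasurable fun θ => by
      rw [Real.norm_eq_abs, abs_of_nonneg (mul_nonneg (bI_nonneg _ _) (rho_nonneg _ _))]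
      exact mul_le_one₀ (bI_le_one _ _) (rho_nonneg _ _) (rho_le_one (P.pX θ) (P.pY θ))
  refine (int_cs i1 i2 i3).trans ?_
  refine mul_le_mul_of_nonneg_right ?_ rA_nonneg
  refine integral_mono i1 i1' fun θ => ?_
  have e1 := bI_nonneg (m := m) r (X θ, Y θ)
  have e2 := bI_le_one (m := m) r (X θ, Y θ)
  simp only
  nlinarith

theorem int_rho_sq_le (P : Pr X Y) : (∫ θ, rho (X θ) (Y θ) ∂π) ^ 2 ≤ rA π X Y := by
  have h := int_cs (P := π) (f := fun _ => (1 : ℝ)) (g := fun θ => rho (X θ) (Y θ))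
    (by simp) P.int_rho_sq (by simpa using P.int_rho)
  unfold rA
  simpa using h

/-- squared bound of the mean of `g δ` -/
theorem Adm.int_disp (h : Adm b y0 z m) (P : Pr X Y) :
    ‖∫ θ, (gI m (rr b y0) (X θ, Y θ) : ℂ) * (X θ - Y θ) ∂π‖ ^ 2 ≤
      9 / 2 * ‖dA m π X Y‖ ^ 2 + 4 * (1600 * rr b y0) ^ 2 * cA b y0 m π X Y +
        4 * (5 / y0) ^ 2 * (pA b y0 m π X Y * cA b y0 m π X Y) := by
  have hy := h.hy
  have hr0 := h.rr_pos
  have hr4 : rr b y0 ≤ 1 / 4 := by linarith [h.rr_le', h.y0_lt_one]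
  have hRc := h.rA_le_cA (π := π) P
  have hp0 : 0 ≤ pA b y0 m π X Y := pA_nonneg
  have hR0 : 0 ≤ rA π X Y := rA_nonneg
  have hc0 : 0 ≤ cA b y0 m π X Y := h.cA_nonneg
  have hBB := BB_pos hy
  have mg := P.meas_gI m (rr b y0)
  have mb := P.meas_bI m (rr b y0)
  have i1 : Integrable (fun θ => (gI m (rr b y0) (X θ, Y θ) : ℂ) * (X θ - Y θ)) π := by
    refine integrable_of_bdd (B := 2 * m.im + 4 * rr b y0)
      ((Complex.measurable_ofReal.comp mg).mul (P.mX.sub P.mY)).aestronglyMeasurable fun θ => ?_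
    by_cases hg : Good m (rr b y0) (X θ, Y θ)
    · rw [gI_good hg, ofReal_one, one_mul]
      have e1 := h.norm_sub_le_good (P.pX θ) (P.pY θ) hr4 hg.1 hg.2
      have e2 := rho_le_one (P.pX θ) (P.pY θ)
      have e3 : 0 ≤ 2 * m.im + 4 * rr b y0 := by have := h.im_pos; positivity
      nlinarith
    · rw [gI_bad hg]
      have := h.im_pos
      simp only [ofReal_zero, zero_mul, norm_zero]
      positivity
  have i2 : Integrable (fun θ => uu m (X θ) - uu m (Y θ)) π := by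
    refine integrable_of_bdd (B := BB y0 + BB y0)
      (((measurable_uu m).comp P.mX).sub ((measurable_uu m).comp P.mY)).aestronglyMeasurable
      fun θ => ?_
    exact (norm_sub_le _ _).trans (add_le_add (h.norm_uu_le (P.pX θ).le) (h.norm_uu_le (P.pY θ).le))
  have i3 : Integrable (fun θ => bI m (rr b y0) (X θ, Y θ) * rho (X θ) (Y θ)) π :=
    integrable_of_bdd (B := 1) (mb.mul P.meas_rho).aestronglyMeasurable fun θ => by
      rw [Real.norm_eq_abs, abs_of_nonneg (mul_nonneg (bI_nonneg _ _) (rho_nonneg _ _))]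
      exact mul_le_one₀ (bI_le_one _ _) (rho_nonneg _ _) (rho_le_one (P.pX θ) (P.pY θ))
  have e0 : ∫ θ, (gI m (rr b y0) (X θ, Y θ) : ℂ) * (X θ - Y θ) ∂π =
      (∫ θ, ((gI m (rr b y0) (X θ, Y θ) : ℂ) * (X θ - Y θ) -
        (1 - m ^ 2) * (uu m (X θ) - uu m (Y θ))) ∂π) + (1 - m ^ 2) * dA m π X Y := by
    rw [integral_sub i1 (i2.const_mul _), integral_const_mul]
    unfold dA
    ring
  have e1 : ‖∫ θ, ((gI m (rr b y0) (X θ, Y θ) : ℂ) * (X θ - Y θ) -
        (1 - m ^ 2) * (uu m (X θ) - uu m (Y θ))) ∂π‖ ≤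
      1600 * rr b y0 * (∫ θ, rho (X θ) (Y θ) ∂π) +
        5 / y0 * ∫ θ, bI m (rr b y0) (X θ, Y θ) * rho (X θ) (Y θ) ∂π := by
    refine (norm_integral_le_integral_norm _).trans ?_
    rw [← integral_const_mul, ← integral_const_mul,
      ← integral_add (P.int_rho.const_mul _) (i3.const_mul _)]
    refine integral_mono (i1.sub (i2.const_mul _)).norm
      ((P.int_rho.const_mul _).add (i3.const_mul _)) fun θ => ?_
    exact h.disp_u (p := (X θ, Y θ)) (P.pX θ) (P.pY θ)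
  have e2 := int_rho_sq_le (π := π) P
  have e3 := int_rho_bI_sq (π := π) P m (rr b y0)
  obtain ⟨S1, hS1⟩ : ∃ S, S = ∫ θ, rho (X θ) (Y θ) ∂π := ⟨_, rfl⟩
  obtain ⟨S2, hS2⟩ : ∃ S, S = ∫ θ, bI m (rr b y0) (X θ, Y θ) * rho (X θ) (Y θ) ∂π := ⟨_, rfl⟩
  rw [← hS1] at e1 e2
  rw [← hS2] at e1 e3
  have hS10 : 0 ≤ S1 := by rw [hS1]; exact integral_nonneg fun _ => rho_nonneg _ _
  have hS20 : 0 ≤ S2 := by
    rw [hS2]; exact integral_nonneg fun _ => mul_nonneg (bI_nonneg _ _) (rho_nonneg _ _)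
  have e4 : ‖∫ θ, (gI m (rr b y0) (X θ, Y θ) : ℂ) * (X θ - Y θ) ∂π‖ ≤
      (1600 * rr b y0 * S1 + 5 / y0 * S2) + 3 / 2 * ‖dA m π X Y‖ := by
    rw [e0]
    refine (norm_add_le _ _).trans (add_le_add e1 ?_)
    rw [norm_mul]
    exact mul_le_mul_of_nonneg_right h.norm_a_le (norm_nonneg _)
  have e5 := pow_le_pow_left₀ (norm_nonneg _) e4 2
  refine e5.trans ?_
  have e6 : (pA b y0 m π X Y) * rA π X Y ≤ pA b y0 m π X Y * cA b y0 m π X Y :=
    mul_le_mul_of_nonneg_left hRc hp0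
  have e7 : S1 ^ 2 ≤ cA b y0 m π X Y := e2.trans hRc
  have e8 : S2 ^ 2 ≤ pA b y0 m π X Y * cA b y0 m π X Y := e3.trans e6
  have e9 : 4 * (1600 * rr b y0) ^ 2 * S1 ^ 2 ≤ 4 * (1600 * rr b y0) ^ 2 * cA b y0 m π X Y :=
    mul_le_mul_of_nonneg_left e7 (by positivity)
  have e10 : 4 * (5 / y0) ^ 2 * S2 ^ 2 ≤
      4 * (5 / y0) ^ 2 * (pA b y0 m π X Y * cA b y0 m π X Y) :=
    mul_le_mul_of_nonneg_left e8 (by positivity)
  have e11 : ∀ A B D : ℝ, (A + B + D) ^ 2 ≤ 2 * D ^ 2 + 4 * A ^ 2 + 4 * B ^ 2 := by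
    intro A B D
    nlinarith [sq_nonneg (A - B), sq_nonneg (A + B - D)]
  have e12 := e11 (1600 * rr b y0 * S1) (5 / y0 * S2) (3 / 2 * ‖dA m π X Y‖)
  have e13 : 2 * (3 / 2 * ‖dA m π X Y‖) ^ 2 = 9 / 2 * ‖dA m π X Y‖ ^ 2 := by ring
  have e14 : 4 * (1600 * rr b y0 * S1) ^ 2 = 4 * (1600 * rr b y0) ^ 2 * S1 ^ 2 := by ring
  have e15 : 4 * (5 / y0 * S2) ^ 2 = 4 * (5 / y0) ^ 2 * S2 ^ 2 := by ring
  linarith

/-- **(C)** averaged one-level cost contraction. -/
theorem Adm.cost_avg (h : Adm b y0 z m) {t : ℝ} (ht : |t| ≤ rr b y0) (P : Pr X Y)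
    (hp : pA b y0 m π X Y ≤ pb0 b y0) :
    ∫ θ, cost (Mc b y0) m (cav z t fun k => X (θ k), cav z t fun k => Y (θ k))
      ∂(Measure.pi fun _ : Fin b => π) ≤
    4 / 5 * cA b y0 m π X Y + 2 / y0 ^ 2 * ‖dA m π X Y‖ ^ 2 := by
  have hy := h.hy
  have hy1 := h.y0_lt_one
  have hb2 := h.b2
  have hr0 := h.rr_pos
  have hc0 : 0 ≤ cA b y0 m π X Y := h.cA_nonneg
  have hp0 : 0 ≤ pA b y0 m π X Y := pA_nonneg
  have h0 := h.cost_avg0 ht P (π := π)
  have h1 := h.int_disp P (π := π)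
  obtain ⟨u1, u2⟩ := h.pb0_use hp0 hp
  have him := h.him
  have him0 := h.im_pos
  have hCA : CA b m * b ^ 2 ≤ 53 / 200 / y0 ^ 2 := by
    have e1 : CA b m * b ^ 2 = 53 / 200 / m.im ^ 2 := by
      have hb0 : (b : ℝ) ≠ 0 := by linarith
      unfold CA
      field_simp
      ring
    rw [e1]
    exact div_le_div_of_nonneg_left (by norm_num) (by positivity)
      (pow_le_pow_left₀ hy.le him 2)
  obtain ⟨N, hN⟩ : ∃ N, N = ‖∫ θ, (gI m (rr b y0) (X θ, Y θ) : ℂ) * (X θ - Y θ) ∂π‖ ^ 2 :=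
    ⟨_, rfl⟩
  obtain ⟨p, hpp⟩ : ∃ p, p = pA b y0 m π X Y := ⟨_, rfl⟩
  obtain ⟨c, hcc⟩ : ∃ c, c = cA b y0 m π X Y := ⟨_, rfl⟩
  obtain ⟨a, haa⟩ : ∃ a, a = ‖dA m π X Y‖ ^ 2 := ⟨_, rfl⟩
  have hN0 : 0 ≤ N := by rw [hN]; positivity
  have ha0 : 0 ≤ a := by rw [haa]; positivity
  rw [← hpp] at hp0 u1 u2 h0 h1
  rw [← hcc] at hc0 h0 h1 ⊢
  rw [← haa] at h1 ⊢
  rw [← hN] at h0 h1
  have e1 : CA b m * b ^ 2 * N ≤ 53 / 200 / y0 ^ 2 * N := mul_le_mul_of_nonneg_right hCA hN0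
  have e2 : 53 / 200 / y0 ^ 2 * N ≤ 53 / 200 / y0 ^ 2 *
      (9 / 2 * a + 4 * (1600 * rr b y0) ^ 2 * c + 4 * (5 / y0) ^ 2 * (p * c)) :=
    mul_le_mul_of_nonneg_left h1 (by positivity)
  have hyy : 0 < y0 ^ 2 := by positivity
  -- the two error terms
  have e3 : 53 / 200 / y0 ^ 2 * (4 * (1600 * rr b y0) ^ 2 * c) ≤ 1 / 1000 * c := by
    have k1 : rr b y0 ≤ y0 ^ 6 / (2 * 10 ^ 7) := h.rr_le
    have k2 : rr b y0 ^ 2 ≤ (y0 ^ 6 / (2 * 10 ^ 7)) ^ 2 := pow_le_pow_left₀ hr0.le k1 2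
    have k3 : (y0 ^ 6 / (2 * 10 ^ 7)) ^ 2 ≤ y0 ^ 2 / (2 * 10 ^ 7) ^ 2 := by
      rw [div_pow, ← pow_mul]
      apply div_le_div_of_nonneg_right _ (by positivity)
      exact pow_le_pow_of_le_one hy.le hy1.le (by norm_num)
    have k4 : 53 / 200 / y0 ^ 2 * (4 * (1600 * rr b y0) ^ 2 * c) =
        (53 / 200 * 4 * 1600 ^ 2) * (rr b y0 ^ 2 / y0 ^ 2) * c := by
      field_simp
    have k5 : rr b y0 ^ 2 / y0 ^ 2 ≤ 1 / (2 * 10 ^ 7) ^ 2 := by
      rw [div_le_iff₀ hyy]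
      refine (k2.trans k3).trans (le_of_eq ?_)
      ring
    rw [k4]
    refine mul_le_mul_of_nonneg_right ?_ hc0
    nlinarith
  have e4 : 53 / 200 / y0 ^ 2 * (4 * (5 / y0) ^ 2 * (p * c)) ≤ 1 / 1000 * c := by
    have k1 : p ≤ y0 ^ 6 / 640000 := by
      have : (16 : ℝ) ≤ b ^ 4 := by
        have := pow_le_pow_left₀ (by norm_num : (0:ℝ) ≤ 2) hb2 4
        norm_num at this ⊢
        exact this
      nlinarith
    have k2 : p / y0 ^ 4 ≤ 1 / 640000 := by
      rw [div_le_iff₀ (by positivity)]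
      have : y0 ^ 6 ≤ y0 ^ 4 := pow_le_pow_of_le_one hy.le hy1.le (by norm_num)
      linarith
    have k3 : 53 / 200 / y0 ^ 2 * (4 * (5 / y0) ^ 2 * (p * c)) = 53 / 2 * (p / y0 ^ 4) * c := by
      field_simp
      ring
    rw [k3]
    refine mul_le_mul_of_nonneg_right ?_ hc0
    nlinarith
  have e5 : 53 / 200 / y0 ^ 2 * (9 / 2 * a) ≤ 2 / y0 ^ 2 * a := by
    have : 53 / 200 / y0 ^ 2 * (9 / 2 * a) = (53 * 9 / 400) / y0 ^ 2 * a := by ring
    rw [this]
    exact mul_le_mul_of_nonneg_right (div_le_div_of_nonneg_right (by norm_num) hyy.le) ha0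
  have e6 : 53 / 200 / y0 ^ 2 *
      (9 / 2 * a + 4 * (1600 * rr b y0) ^ 2 * c + 4 * (5 / y0) ^ 2 * (p * c)) =
      53 / 200 / y0 ^ 2 * (9 / 2 * a) + 53 / 200 / y0 ^ 2 * (4 * (1600 * rr b y0) ^ 2 * c) +
      53 / 200 / y0 ^ 2 * (4 * (5 / y0) ^ 2 * (p * c)) := by ring
  have e7 := mul_le_mul_of_nonneg_right u2 hc0
  have e8 : (3 / 4 + (CF b y0 * (b : ℝ) ^ 2 + C3 b y0 * b ^ 3) * p) * c =
      3 / 4 * c + (CF b y0 * (b : ℝ) ^ 2 + C3 b y0 * b ^ 3) * p * c := by ring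
  rw [e8] at h0
  rw [e6] at e2
  linarith

set_option maxHeartbeats 1000000 in
/-- **(M)** averaged one-level relation for the mean difference. -/
theorem Adm.mean_avg (h : Adm b y0 z m) {t : ℝ} (ht : |t| ≤ rr b y0) (P : Pr X Y)
    (hp : pA b y0 m π X Y ≤ pb0 b y0) :
    ‖(∫ θ, (uu m (cav z t fun k => X (θ k)) - uu m (cav z t fun k => Y (θ k)))
      ∂(Measure.pi fun _ : Fin b => π)) - b * m ^ 2 * dA m π X Y‖ ^ 2 ≤
      1 / 50 * y0 ^ 4 * cA b y0 m π X Y := by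
  have hy := h.hy
  have hy1 := h.y0_lt_one
  have hb2 := h.b2
  have hr0 := h.rr_pos
  have hRc := h.rA_le_cA (π := π) P
  have hc0 : 0 ≤ cA b y0 m π X Y := h.cA_nonneg
  have hp0 : 0 ≤ pA b y0 m π X Y := pA_nonneg
  have hBB := BB_pos hy
  obtain ⟨u1, -⟩ := h.pb0_use hp0 hp
  have hcav1 : Measurable fun θ : Fin b → Θ => cav z t fun k => X (θ k) := measurable_cav P.mX z t
  have hcav2 : Measurable fun θ : Fin b → Θ => cav z t fun k => Y (θ k) := measurable_cav P.mY z t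
  have pc1 : ∀ θ : Fin b → Θ, 0 < (cav z t fun k => X (θ k)).im := fun θ =>
    h.cav_im_pos t _ fun k => P.pX (θ k)
  have pc2 : ∀ θ : Fin b → Θ, 0 < (cav z t fun k => Y (θ k)).im := fun θ =>
    h.cav_im_pos t _ fun k => P.pY (θ k)
  obtain ⟨bb, hbb⟩ : ∃ bb : Θ → ℝ, bb = fun θ => bI m (rr b y0) (X θ, Y θ) := ⟨_, rfl⟩
  obtain ⟨r1, hr1⟩ : ∃ r1 : Θ → ℝ, r1 = fun θ => rho (X θ) (Y θ) := ⟨_, rfl⟩
  obtain ⟨w, hw⟩ : ∃ w : Θ → ℂ, w = fun θ => uu m (X θ) - uu m (Y θ) := ⟨_, rfl⟩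
  have mbb : Measurable bb := by rw [hbb]; exact P.meas_bI _ _
  have mr1 : Measurable r1 := by rw [hr1]; exact P.meas_rho
  have mw : Measurable w := by
    rw [hw]; exact ((measurable_uu m).comp P.mX).sub ((measurable_uu m).comp P.mY)
  have bb0 : ∀ θ, 0 ≤ bb θ := fun θ => by rw [hbb]; exact bI_nonneg _ _
  have bb1 : ∀ θ, bb θ ≤ 1 := fun θ => by rw [hbb]; exact bI_le_one _ _
  have r10 : ∀ θ, 0 ≤ r1 θ := fun θ => by rw [hr1]; exact rho_nonneg _ _
  have r11 : ∀ θ, r1 θ ≤ 1 := fun θ => by rw [hr1]; exact rho_le_one (P.pX θ) (P.pY θ)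
  have wb : ∀ θ, ‖w θ‖ ≤ BB y0 + BB y0 := fun θ => by
    rw [hw]
    exact (norm_sub_le _ _).trans (add_le_add (h.norm_uu_le (P.pX θ).le)
      (h.norm_uu_le (P.pY θ).le))
  have ipair : ∀ j k : Fin b, Integrable (fun θ : Fin b → Θ => bb (θ j) * r1 (θ k))
      (Measure.pi fun _ : Fin b => π) := fun j k =>
    integrable_of_bdd (B := 1) ((mbb.comp (measurable_pi_apply j)).mul
      (mr1.comp (measurable_pi_apply k))).aestronglyMeasurable fun θ => by
      rw [Real.norm_eq_abs, abs_of_nonneg (mul_nonneg (bb0 _) (r10 _))]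
      exact mul_le_one₀ (bb1 _) (r10 _) (r11 _)
  have iw : Integrable w π := integrable_of_bdd mw.aestronglyMeasurable wb
  have ir : Integrable r1 π := integrable_of_bdd (B := 1) mr1.aestronglyMeasurable fun θ => by
    rw [Real.norm_eq_abs, abs_of_nonneg (r10 _)]; exact r11 θ
  have iw' : ∀ k : Fin b, Integrable (fun θ : Fin b → Θ => w (θ k))
      (Measure.pi fun _ : Fin b => π) := fun k =>
    integrable_comp_eval (μ := fun _ : Fin b => π) (i := k) iw
  have ir' : ∀ k : Fin b, Integrable (fun θ : Fin b → Θ => r1 (θ k))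
      (Measure.pi fun _ : Fin b => π) := fun k =>
    integrable_comp_eval (μ := fun _ : Fin b => π) (i := k) ir
  have iL : Integrable (fun θ : Fin b → Θ => uu m (cav z t fun k => X (θ k)) -
      uu m (cav z t fun k => Y (θ k))) (Measure.pi fun _ : Fin b => π) := by
    refine integrable_of_bdd (B := BB y0 + BB y0)
      (((measurable_uu m).comp hcav1).sub ((measurable_uu m).comp hcav2)).aestronglyMeasurable
      fun θ => ?_
    exact (norm_sub_le _ _).trans (add_le_add (h.norm_uu_le (pc1 θ).le) (h.norm_uu_le (pc2 θ).le))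
  have iS : Integrable (fun θ : Fin b → Θ => m ^ 2 * ∑ k, w (θ k))
      (Measure.pi fun _ : Fin b => π) :=
    (integrable_finsetSum _ fun k _ => iw' k).const_mul _
  have eS : ∫ θ : Fin b → Θ, m ^ 2 * ∑ k, w (θ k) ∂(Measure.pi fun _ : Fin b => π) =
      b * m ^ 2 * dA m π X Y := by
    rw [integral_const_mul, integral_finsetSum _ fun k _ => iw' k]
    have : ∀ k ∈ (Finset.univ : Finset (Fin b)), ∫ θ : Fin b → Θ, w (θ k)
        ∂(Measure.pi fun _ : Fin b => π) = dA m π X Y := by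
      intro k _
      rw [int_eval k mw.aestronglyMeasurable, hw]
      rfl
    rw [Finset.sum_congr rfl this, Finset.sum_const, Finset.card_univ, Fintype.card_fin,
      nsmul_eq_mul]
    ring
  rw [← eS, ← integral_sub iL iS]
  have hB : ∀ θ : Fin b → Θ, ‖(uu m (cav z t fun k => X (θ k)) -
      uu m (cav z t fun k => Y (θ k))) - m ^ 2 * ∑ k, w (θ k)‖ ≤
      4000 * b * rr b y0 * ∑ k, r1 (θ k) + 6 / y0 * ∑ j, ∑ k, bb (θ j) * r1 (θ k) := by
    intro θ
    have h1 := h.mean_pointwise ht (p := fun k => (X (θ k), Y (θ k))) (fun k => P.pX (θ k))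
      (fun k => P.pY (θ k))
    rw [hw, hr1, hbb]
    exact h1
  have iR1 : Integrable (fun θ : Fin b → Θ => 4000 * b * rr b y0 * ∑ k, r1 (θ k))
      (Measure.pi fun _ : Fin b => π) := (integrable_finsetSum _ fun k _ => ir' k).const_mul _
  have iR2 : Integrable (fun θ : Fin b → Θ => 6 / y0 * ∑ j, ∑ k, bb (θ j) * r1 (θ k))
      (Measure.pi fun _ : Fin b => π) :=
    (integrable_finsetSum _ fun j _ => integrable_finsetSum _ fun k _ => ipair j k).const_mul _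
  obtain ⟨S1, hS1⟩ : ∃ S, S = ∫ θ, r1 θ ∂π := ⟨_, rfl⟩
  obtain ⟨S2, hS2⟩ : ∃ S, S = ∫ θ, bb θ * r1 θ ∂π := ⟨_, rfl⟩
  obtain ⟨p, hpp⟩ : ∃ p, p = pA b y0 m π X Y := ⟨_, rfl⟩
  have hS10 : 0 ≤ S1 := by rw [hS1]; exact integral_nonneg fun θ => r10 θ
  have hS20 : 0 ≤ S2 := by
    rw [hS2]; exact integral_nonneg fun θ => mul_nonneg (bb0 θ) (r10 θ)
  have f1 : ∫ θ : Fin b → Θ, 4000 * b * rr b y0 * ∑ k, r1 (θ k)
      ∂(Measure.pi fun _ : Fin b => π) = 4000 * (b ^ 2 * rr b y0) * S1 := by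
    rw [integral_const_mul, integral_finsetSum _ fun k _ => ir' k]
    have : ∀ k ∈ (Finset.univ : Finset (Fin b)), ∫ θ : Fin b → Θ, r1 (θ k)
        ∂(Measure.pi fun _ : Fin b => π) = S1 := by
      intro k _
      rw [int_eval k mr1.aestronglyMeasurable, hS1]
    rw [Finset.sum_congr rfl this, Finset.sum_const, Finset.card_univ, Fintype.card_fin,
      nsmul_eq_mul]
    ring
  have f2 : ∫ θ : Fin b → Θ, 6 / y0 * ∑ j, ∑ k, bb (θ j) * r1 (θ k)
      ∂(Measure.pi fun _ : Fin b => π) ≤ 6 / y0 * (b * S2 + b ^ 2 * (p * S1)) := by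
    rw [integral_const_mul, integral_finsetSum _ fun j _ =>
      integrable_finsetSum _ fun k _ => ipair j k]
    refine mul_le_mul_of_nonneg_left ?_ (by positivity)
    have g1 : ∀ j ∈ (Finset.univ : Finset (Fin b)), ∫ θ : Fin b → Θ, ∑ k, bb (θ j) * r1 (θ k)
        ∂(Measure.pi fun _ : Fin b => π) ≤ S2 + b * (p * S1) := by
      intro j _
      rw [integral_finsetSum _ fun k _ => ipair j k]
      have g2 : ∀ k ∈ (Finset.univ : Finset (Fin b)), ∫ θ : Fin b → Θ, bb (θ j) * r1 (θ k)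
          ∂(Measure.pi fun _ : Fin b => π) ≤ (if j = k then S2 else 0) + p * S1 := by
        intro k _
        have hpS : 0 ≤ p * S1 := mul_nonneg (by rw [hpp]; exact hp0) hS10
        split_ifs with hjk
        · subst hjk
          rw [int_eval j (f := fun θ => bb θ * r1 θ) (mbb.mul mr1).aestronglyMeasurable, hS2]
          linarith
        · rw [int_pair hjk mbb mr1, zero_add, hpp, hS1, hbb]
          exact le_of_eq rfl
      refine (Finset.sum_le_sum g2).trans (le_of_eq ?_)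
      rw [Finset.sum_add_distrib, Finset.sum_ite_eq, if_pos (Finset.mem_univ _), Finset.sum_const,
        Finset.card_univ, Fintype.card_fin, nsmul_eq_mul]
    refine (Finset.sum_le_sum g1).trans (le_of_eq ?_)
    rw [Finset.sum_const, Finset.card_univ, Fintype.card_fin, nsmul_eq_mul]
    ring
  have hmain : ‖∫ θ : Fin b → Θ, ((uu m (cav z t fun k => X (θ k)) -
      uu m (cav z t fun k => Y (θ k))) - m ^ 2 * ∑ k, w (θ k))
      ∂(Measure.pi fun _ : Fin b => π)‖ ≤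
      4000 * (b ^ 2 * rr b y0) * S1 + 6 / y0 * (b * S2 + b ^ 2 * (p * S1)) := by
    refine (norm_integral_le_integral_norm _).trans ?_
    have := integral_mono (iL.sub iS).norm (iR1.add iR2) hB
    refine this.trans ?_
    have e := integral_add iR1 iR2
    refine (le_of_eq e).trans ?_
    rw [f1]
    linarith
  have hsq := pow_le_pow_left₀ (norm_nonneg _) hmain 2
  refine hsq.trans ?_
  -- numerics
  obtain ⟨c, hcc⟩ : ∃ c, c = cA b y0 m π X Y := ⟨_, rfl⟩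
  have k1 : S1 ^ 2 ≤ c := by
    rw [hS1, hr1, hcc]; exact (int_rho_sq_le P).trans hRc
  have k2 : S2 ^ 2 ≤ p * c := by
    rw [hS2, hr1, hbb, hcc, hpp]
    refine (int_rho_bI_sq (π := π) P m (rr b y0)).trans ?_
    exact mul_le_mul_of_nonneg_left hRc hp0
  rw [← hcc] at hc0 ⊢
  rw [← hpp] at hp0 u1
  have k3 : (p * S1) ^ 2 ≤ p * c := by
    have hp1 : p ≤ 1 := by
      have : (1 : ℝ) ≤ b ^ 4 := one_le_pow₀ (by linarith)
      have : y0 ^ 6 ≤ 1 := pow_le_one₀ hy.le hy1.le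
      nlinarith
    have e1 : (p * S1) ^ 2 = p * (p * S1 ^ 2) := by ring
    rw [e1]
    refine mul_le_mul_of_nonneg_left ?_ hp0
    have : p * S1 ^ 2 ≤ 1 * c := mul_le_mul hp1 k1 (by positivity) (by norm_num)
    linarith
  have k4 : (b : ℝ) ^ 2 * rr b y0 ≤ y0 ^ 6 / (3 * 10 ^ 7) := h.b_rr_le
  have k4' : 0 ≤ (b : ℝ) ^ 2 * rr b y0 := by positivity
  have hy12 : y0 ^ 12 ≤ y0 ^ 4 := pow_le_pow_of_le_one hy.le hy1.le (by norm_num)
  have e1 : ∀ A B D : ℝ, (A + (B + D)) ^ 2 ≤ 2 * A ^ 2 + 4 * B ^ 2 + 4 * D ^ 2 := by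
    intro A B D
    nlinarith [sq_nonneg (A - (B + D)), sq_nonneg (B - D)]
  have e2 := e1 (4000 * (b ^ 2 * rr b y0) * S1) (6 / y0 * (b * S2)) (6 / y0 * (b ^ 2 * (p * S1)))
  rw [← mul_add] at e2
  refine e2.trans ?_
  have t1 : 2 * (4000 * (b ^ 2 * rr b y0) * S1) ^ 2 ≤ 1 / 1000 * y0 ^ 4 * c := by
    have e3 : 2 * (4000 * (b ^ 2 * rr b y0) * S1) ^ 2 =
        (2 * 4000 ^ 2) * (b ^ 2 * rr b y0) ^ 2 * S1 ^ 2 := by ring
    have e4 : (b ^ 2 * rr b y0) ^ 2 ≤ (y0 ^ 6 / (3 * 10 ^ 7)) ^ 2 := pow_le_pow_left₀ k4' k4 2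
    have e5 : (2 * 4000 ^ 2) * (b ^ 2 * rr b y0) ^ 2 ≤ 1 / 1000 * y0 ^ 4 := by
      have : (y0 ^ 6 / (3 * 10 ^ 7)) ^ 2 = y0 ^ 12 / (9 * 10 ^ 14) := by ring
      rw [this] at e4
      have e6 : (0 : ℝ) ≤ y0 ^ 12 := by positivity
      nlinarith
    rw [e3]
    exact mul_le_mul e5 k1 (by positivity) (by positivity)
  have hb24 : (b : ℝ) ^ 2 ≤ b ^ 4 := pow_le_pow_right₀ (by linarith) (by norm_num)
  have t0 : (b : ℝ) ^ 4 * p / y0 ^ 2 ≤ y0 ^ 4 / 40000 := by
    rw [div_le_iff₀ (by positivity)]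
    refine u1.trans (le_of_eq ?_)
    ring
  have t2 : 4 * (6 / y0 * (b * S2)) ^ 2 ≤ 1 / 200 * y0 ^ 4 * c := by
    have e3 : 4 * (6 / y0 * (b * S2)) ^ 2 = 144 / y0 ^ 2 * (b ^ 2 * S2 ^ 2) := by ring
    have e4 : (b : ℝ) ^ 2 * S2 ^ 2 ≤ b ^ 4 * (p * c) :=
      mul_le_mul hb24 k2 (by positivity) (by positivity)
    rw [e3]
    calc 144 / y0 ^ 2 * (b ^ 2 * S2 ^ 2) ≤ 144 / y0 ^ 2 * (b ^ 4 * (p * c)) :=
          mul_le_mul_of_nonneg_left e4 (by positivity)
      _ = 144 * (b ^ 4 * p / y0 ^ 2) * c := by ring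
      _ ≤ 144 * (y0 ^ 4 / 40000) * c := by
          refine mul_le_mul_of_nonneg_right (mul_le_mul_of_nonneg_left t0 (by norm_num)) hc0
      _ ≤ _ := by
          have : 0 ≤ y0 ^ 4 * c := by positivity
          linarith
  have t3 : 4 * (6 / y0 * (b ^ 2 * (p * S1))) ^ 2 ≤ 1 / 200 * y0 ^ 4 * c := by
    have e3 : 4 * (6 / y0 * (b ^ 2 * (p * S1))) ^ 2 =
        144 / y0 ^ 2 * (b ^ 4 * (p * S1) ^ 2) := by ring
    have e4 : (b : ℝ) ^ 4 * (p * S1) ^ 2 ≤ b ^ 4 * (p * c) :=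
      mul_le_mul_of_nonneg_left k3 (by positivity)
    rw [e3]
    calc 144 / y0 ^ 2 * (b ^ 4 * (p * S1) ^ 2) ≤ 144 / y0 ^ 2 * (b ^ 4 * (p * c)) :=
          mul_le_mul_of_nonneg_left e4 (by positivity)
      _ = 144 * (b ^ 4 * p / y0 ^ 2) * c := by ring
      _ ≤ 144 * (y0 ^ 4 / 40000) * c := by
          refine mul_le_mul_of_nonneg_right (mul_le_mul_of_nonneg_left t0 (by norm_num)) hc0
      _ ≤ _ := by
          have : 0 ≤ y0 ^ 4 * c := by positivity
          linarith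
  have : 0 ≤ y0 ^ 4 * c := by positivity
  linarith

/-- from the relation `‖Δ + e - b m² Δ‖² ≤ y0⁴ c / 50` one gets the bound of `Δ`. -/
theorem Adm.delta_le (h : Adm b y0 z m) {c : ℝ} {Δ e : ℂ}
    (hD : ‖Δ + e - b * m ^ 2 * Δ‖ ^ 2 ≤ 1 / 50 * y0 ^ 4 * c) :
    2 / y0 ^ 2 * ‖Δ‖ ^ 2 ≤ 1 / 100 * c + 1 / y0 ^ 4 * ‖e‖ ^ 2 := by
  have hy := h.hy
  have hb2 := h.b2
  have him := h.him
  have h0 := h.im_pos
  have hn := h.norm_pos
  -- `|1 - b m²| ≥ 2 √b Im m`; here in the squared form `≥ 8 y0²`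
  have key : 8 * y0 ^ 2 ≤ ‖1 - b * m ^ 2‖ ^ 2 := by
    have h1 := h.b_normSq
    rw [← Complex.normSq_eq_norm_sq]
    have e1 : normSq (1 - b * m ^ 2) = (1 - b * normSq m) ^ 2 + 4 * b * m.im ^ 2 := by
      simp only [Complex.normSq_apply, Complex.sub_re, Complex.sub_im, Complex.mul_re,
        Complex.mul_im, Complex.natCast_re, Complex.natCast_im, pow_two, Complex.one_re,
        Complex.one_im]
      ring
    rw [e1]
    have e2 : y0 ^ 2 ≤ m.im ^ 2 := pow_le_pow_left₀ hy.le him 2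
    nlinarith [sq_nonneg (1 - b * normSq m)]
  have e1 : (1 - b * m ^ 2) * Δ = (Δ + e - b * m ^ 2 * Δ) - e := by ring
  have e2 : ‖(1 - b * m ^ 2) * Δ‖ ^ 2 ≤ 2 * ‖Δ + e - b * m ^ 2 * Δ‖ ^ 2 + 2 * ‖e‖ ^ 2 := by
    rw [e1]
    have e3 := norm_sub_le (Δ + e - b * m ^ 2 * Δ) e
    have e4 := pow_le_pow_left₀ (norm_nonneg _) e3 2
    nlinarith [sq_nonneg (‖Δ + e - b * m ^ 2 * Δ‖ - ‖e‖)]
  rw [norm_mul, mul_pow] at e2
  have e5 : 8 * y0 ^ 2 * ‖Δ‖ ^ 2 ≤ 2 * (1 / 50 * y0 ^ 4 * c) + 2 * ‖e‖ ^ 2 := by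
    have := mul_le_mul_of_nonneg_right key (sq_nonneg ‖Δ‖)
    linarith
  have hy2 : 0 < y0 ^ 2 := by positivity
  have e6 : 2 / y0 ^ 2 * ‖Δ‖ ^ 2 = (8 * y0 ^ 2 * ‖Δ‖ ^ 2) / (4 * y0 ^ 4) := by
    field_simp
    ring
  rw [e6]
  calc (8 * y0 ^ 2 * ‖Δ‖ ^ 2) / (4 * y0 ^ 4)
      ≤ (2 * (1 / 50 * y0 ^ 4 * c) + 2 * ‖e‖ ^ 2) / (4 * y0 ^ 4) :=
        div_le_div_of_nonneg_right e5 (by positivity)
    _ = 1 / 100 * c + 1 / 2 * (1 / y0 ^ 4 * ‖e‖ ^ 2) := by
        field_simp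
        ring
    _ ≤ _ := by
        have : 0 ≤ 1 / y0 ^ 4 * ‖e‖ ^ 2 := by positivity
        linarith

end

end Crest.Agent.R166.TreeDet350
end

-- ▼ part R166/T4_485
section
/-!
Row 166, sections 32/70 (tree half), leaf (T4) of `Spec_D_350`: Wegner bound and non-degeneracy of
the cavity field on the tree.  (helper485)
-/
set_option autoImplicit false

namespace Crest.Agent.R166.T4_485

open MeasureTheory Crest.Agent.R166.TreeDet350 Crest.Agent.R166.TreeDefs350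
  Crest.Agent.R166.TreeSpec350

/-- the decomposition map -/
def Phi (b : ℕ) (ω : List (Fin b) → ℝ) : ℝ × (Fin b → (List (Fin b) → ℝ)) :=
  (ω [], fun j => sub j ω)

theorem measurable_sub {b : ℕ} (j : Fin b) : Measurable (sub j : (List (Fin b) → ℝ) → _) := by
  unfold TreeDefs350.sub
  exact measurable_pi_lambda _ fun p => measurable_pi_apply _

theorem measurable_Phi (b : ℕ) : Measurable (Phi b) := by
  unfold Phi
  exact (measurable_pi_apply _).prodMk (measurable_pi_lambda _ fun j => measurable_sub j)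

theorem unif_le (A : Set ℝ) : unif A ≤ ENNReal.ofReal (1 / 2) * volume A := by
  unfold unif
  rw [Measure.smul_apply]
  have h1 : (volume.restrict (Set.Icc (-1 : ℝ) 1)) A ≤ volume A := Measure.restrict_apply_le _ _
  have h2 : ((2⁻¹ : NNReal) : ENNReal) = ENNReal.ofReal (1 / 2) := by
    rw [one_div, ENNReal.ofReal_inv_of_pos (by norm_num)]
    norm_num
  rw [ENNReal.smul_def, smul_eq_mul, h2]
  gcongr

theorem unif_out : unif {w : ℝ | 1 < |w|} = 0 := by
  have hm : MeasurableSet {w : ℝ | 1 < |w|} := measurableSet_lt measurable_const measurable_norm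
  unfold unif
  rw [Measure.smul_apply, Measure.restrict_apply hm]
  have : {w : ℝ | 1 < |w|} ∩ Set.Icc (-1) 1 = ∅ := by
    ext w
    simp only [Set.mem_inter_iff, Set.mem_ofPred_eq, Set.mem_Icc, Set.mem_empty_iff_false, iff_false,
      not_and]
    intro h1 h2 h3
    have := abs_le.2 ⟨h2, h3⟩
    linarith
  rw [this]
  simp

/-- one-site Wegner estimate -/
theorem unif_wegner {s t : ℝ} (hs : 0 < s) (ht : 0 < t) (c : ℂ) :
    unif {w : ℝ | t < ‖-1 / (c - ((s * w : ℝ) : ℂ))‖} ≤ ENNReal.ofReal (1 / (s * t)) := by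
  have hsub : {w : ℝ | t < ‖-1 / (c - ((s * w : ℝ) : ℂ))‖} ⊆
      Set.Ioo ((c.re - 1 / t) / s) ((c.re + 1 / t) / s) := by
    intro w hw
    simp only [Set.mem_ofPred_eq] at hw
    have h0 : (c - ((s * w : ℝ) : ℂ)) ≠ 0 := by
      intro h
      rw [h] at hw
      simp at hw
      linarith
    have h1 : 0 < ‖c - ((s * w : ℝ) : ℂ)‖ := norm_pos_iff.2 h0
    have h2 : ‖-1 / (c - ((s * w : ℝ) : ℂ))‖ = 1 / ‖c - ((s * w : ℝ) : ℂ)‖ := by
      rw [norm_div]; simp
    rw [h2, lt_div_iff₀ h1] at hw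
    have h3 : ‖c - ((s * w : ℝ) : ℂ)‖ < 1 / t := by
      rw [lt_div_iff₀ ht]; linarith
    have h4 : |c.re - s * w| < 1 / t := by
      refine lt_of_le_of_lt ?_ h3
      have := Complex.abs_re_le_norm (c - ((s * w : ℝ) : ℂ))
      simpa using this
    rw [abs_lt] at h4
    constructor
    · rw [div_lt_iff₀ hs]; linarith [h4.2]
    · rw [lt_div_iff₀ hs]; linarith [h4.1]
  calc unif _ ≤ unif (Set.Ioo ((c.re - 1 / t) / s) ((c.re + 1 / t) / s)) := measure_mono hsub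
    _ ≤ ENNReal.ofReal (1 / 2) * volume (Set.Ioo ((c.re - 1 / t) / s) ((c.re + 1 / t) / s)) :=
        unif_le _
    _ = ENNReal.ofReal (1 / (s * t)) := by
        rw [Real.volume_Ioo, ← ENNReal.ofReal_mul (by norm_num)]
        congr 1
        field_simp
        ring

theorem wegner {b : ℕ} {s : ℝ} (hs : 0 < s) (h1 : T1 b s) (h2 : T2 b) : T4_wegner b s := by
  intro z hz t ht
  have hm : Measurable fun p : ℝ × (Fin b → (List (Fin b) → ℝ)) =>
      cav z (s * p.1) fun j => XX b s z (p.2 j) := by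
    unfold cav
    refine Measurable.const_div ?_ _
    refine Measurable.add ?_ ?_
    · refine Measurable.const_sub ?_ _
      exact Complex.measurable_ofReal.comp (measurable_fst.const_mul s)
    · refine Finset.measurable_sum _ fun j _ => ?_
      exact (h1.meas z hz).comp ((measurable_pi_apply j).comp measurable_snd)
  set S : Set (ℝ × (Fin b → (List (Fin b) → ℝ))) :=
    {p | t < ‖cav z (s * p.1) fun j => XX b s z (p.2 j)‖} with hS
  have hSm : MeasurableSet S := measurableSet_lt measurable_const hm.norm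
  have e1 : {ω | t < ‖XX b s z ω‖} = Phi b ⁻¹' S := by
    ext ω
    simp only [Set.mem_ofPred_eq, hS, Set.mem_preimage, Phi]
    rw [h1.recur z hz ω]
  rw [e1, ← Measure.map_apply (measurable_Phi b) hSm]
  have h2' : (PT b).map (Phi b) = unif.prod (Measure.pi fun _ : Fin b => PT b) := h2
  rw [h2', Measure.prod_apply_symm hSm]
  have h3 : ∀ y : Fin b → (List (Fin b) → ℝ), unif ((fun x => (x, y)) ⁻¹' S) ≤
      ENNReal.ofReal (1 / (s * t)) := by
    intro y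
    have := unif_wegner hs ht (z + ∑ j, XX b s z (y j))
    refine le_trans (measure_mono ?_) this
    intro w hw
    simp only [Set.mem_preimage, hS, Set.mem_ofPred_eq, cav] at hw ⊢
    have e : z - ((s * w : ℝ) : ℂ) + ∑ j, XX b s z (y j) =
      z + ∑ j, XX b s z (y j) - ((s * w : ℝ) : ℂ) := by ring
    rwa [e] at hw
  calc ∫⁻ y, unif ((fun x => (x, y)) ⁻¹' S) ∂(Measure.pi fun _ : Fin b => PT b)
      ≤ ∫⁻ _y, ENNReal.ofReal (1 / (s * t)) ∂(Measure.pi fun _ : Fin b => PT b) :=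
        lintegral_mono h3
    _ = ENNReal.ofReal (1 / (s * t)) := by simp

/-- marginals of the decomposition -/
theorem map_sub {b : ℕ} (h2 : T2 b) (j : Fin b) {A : Set (List (Fin b) → ℝ)}
    (hA : MeasurableSet A) : (PT b) (sub j ⁻¹' A) = (PT b) A := by
  have h2' : (PT b).map (Phi b) = unif.prod (Measure.pi fun _ : Fin b => PT b) := h2
  have e1 : sub j ⁻¹' A = Phi b ⁻¹' (Set.univ ×ˢ (Function.eval j ⁻¹' A)) := by
    ext ω
    simp [Phi]
  rw [e1, ← Measure.map_apply (measurable_Phi b)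
    (MeasurableSet.univ.prod (measurable_pi_apply j hA)), h2', Measure.prod_prod]
  rw [(measurePreserving_eval (fun _ : Fin b => PT b) j).measure_preimage hA.nullMeasurableSet]
  simp

theorem map_all {b : ℕ} (h2 : T2 b) {A : Set (List (Fin b) → ℝ)}
    (hA : MeasurableSet A) : (PT b) {ω | ∀ j : Fin b, sub j ω ∈ A} = (PT b) A ^ b := by
  have h2' : (PT b).map (Phi b) = unif.prod (Measure.pi fun _ : Fin b => PT b) := h2
  have e1 : {ω | ∀ j : Fin b, sub j ω ∈ A} =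
      Phi b ⁻¹' (Set.univ ×ˢ (Set.pi Set.univ fun _ : Fin b => A)) := by
    ext ω
    simp [Phi]
  rw [e1, ← Measure.map_apply (measurable_Phi b)
    (MeasurableSet.univ.prod (MeasurableSet.univ_pi fun _ => hA)), h2', Measure.prod_prod,
    Measure.pi_pi]
  simp

theorem root_out {b : ℕ} (h2 : T2 b) : (PT b) {ω | 1 < |ω []|} = 0 := by
  have h2' : (PT b).map (Phi b) = unif.prod (Measure.pi fun _ : Fin b => PT b) := h2
  have hm : MeasurableSet {w : ℝ | 1 < |w|} := measurableSet_lt measurable_const measurable_norm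
  have e1 : {ω : List (Fin b) → ℝ | 1 < |ω []|} =
      Phi b ⁻¹' ({w : ℝ | 1 < |w|} ×ˢ Set.univ) := by
    ext ω
    simp [Phi]
  rw [e1, ← Measure.map_apply (measurable_Phi b) (hm.prod MeasurableSet.univ), h2',
    Measure.prod_prod, unif_out]
  simp

/-- one step of the non-degeneracy recursion -/
theorem step {b : ℕ} {s : ℝ} (hs : 0 < s) (h1 : T1 b s) (h2 : T2 b) (hw : T4_wegner b s)
    {z : ℂ} {R κ t : ℝ} (hz : 0 < z.im) (hR : ‖z‖ ≤ R) (ht : 0 < t) :
    (PT b) {ω | (XX b s z ω).im < κ / (R + s + b * t) ^ 2} ≤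
      (PT b) {ω | (XX b s z ω).im < κ} ^ b + b * ENNReal.ofReal (1 / (s * t)) := by
  set A : Set (List (Fin b) → ℝ) := {ω | (XX b s z ω).im < κ} with hA
  set B : Set (List (Fin b) → ℝ) := {ω | t < ‖XX b s z ω‖} with hB
  have hAm : MeasurableSet A :=
    measurableSet_lt (Complex.measurable_im.comp (h1.meas z hz)) measurable_const
  have hBm : MeasurableSet B := measurableSet_lt measurable_const (h1.meas z hz).norm
  have hR0 : 0 ≤ R := (norm_nonneg z).trans hR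
  have hM : 0 < R + s + b * t := by positivity
  have hsub : {ω | (XX b s z ω).im < κ / (R + s + b * t) ^ 2} ⊆
      ({ω | ∀ j : Fin b, sub j ω ∈ A} ∪ ⋃ j : Fin b, sub j ⁻¹' B) ∪ {ω | 1 < |ω []|} := by
    intro ω hω
    by_contra hcon
    simp only [Set.mem_union, Set.mem_iUnion, Set.mem_preimage, Set.mem_ofPred_eq, not_or,
      not_exists, not_lt, hB, not_forall, hA] at hcon
    obtain ⟨⟨⟨j, hj⟩, hn⟩, hr⟩ := hcon
    simp only [Set.mem_ofPred_eq] at hω
    set T : ℂ := z - ((s * ω [] : ℝ) : ℂ) + ∑ j, XX b s z (sub j ω) with hT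
    have hX : XX b s z ω = -1 / T := by rw [h1.recur z hz ω]; rfl
    have hTn : ‖T‖ ≤ R + s + b * t := by
      calc ‖T‖ ≤ ‖z - ((s * ω [] : ℝ) : ℂ)‖ + ‖∑ j, XX b s z (sub j ω)‖ := norm_add_le _ _
        _ ≤ (‖z‖ + ‖((s * ω [] : ℝ) : ℂ)‖) + ∑ j, ‖XX b s z (sub j ω)‖ :=
            add_le_add (norm_sub_le _ _) (norm_sum_le _ _)
        _ ≤ (R + s) + ∑ _j : Fin b, t := by
            refine add_le_add (add_le_add hR ?_) (Finset.sum_le_sum fun j _ => hn j)
            rw [Complex.norm_real, Real.norm_eq_abs, abs_mul, abs_of_pos hs]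
            nlinarith
        _ = R + s + b * t := by simp
    have hTi : κ ≤ T.im := by
      have e : T.im = z.im + ∑ j, (XX b s z (sub j ω)).im := by
        rw [hT]; simp
      have h3 : (XX b s z (sub j ω)).im ≤ ∑ j, (XX b s z (sub j ω)).im :=
        Finset.single_le_sum (f := fun j => (XX b s z (sub j ω)).im)
          (fun i _ => (h1.im_pos z hz _).le) (Finset.mem_univ j)
      rw [e]; linarith
    have hTip : 0 < T.im := by
      have e : T.im = z.im + ∑ j, (XX b s z (sub j ω)).im := by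
        rw [hT]; simp
      have h3 : 0 ≤ ∑ j, (XX b s z (sub j ω)).im :=
        Finset.sum_nonneg fun i _ => (h1.im_pos z hz _).le
      rw [e]; linarith
    have hT0 : 0 < ‖T‖ := by
      refine norm_pos_iff.2 ?_
      intro h
      rw [h] at hTip
      simp at hTip
    have hXi : (XX b s z ω).im = T.im / ‖T‖ ^ 2 := by
      rw [hX, neg_div, one_div, Complex.neg_im, Complex.inv_im, ← Complex.normSq_eq_norm_sq]
      ring
    rw [hXi] at hω
    have h5 : T.im / (R + s + b * t) ^ 2 ≤ T.im / ‖T‖ ^ 2 := by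
      gcongr
    have h6 : κ / (R + s + b * t) ^ 2 ≤ T.im / (R + s + b * t) ^ 2 := by
      gcongr
    linarith
  calc (PT b) {ω | (XX b s z ω).im < κ / (R + s + b * t) ^ 2}
      ≤ (PT b) (({ω | ∀ j : Fin b, sub j ω ∈ A} ∪ ⋃ j : Fin b, sub j ⁻¹' B) ∪
          {ω | 1 < |ω []|}) := measure_mono hsub
    _ ≤ ((PT b) {ω | ∀ j : Fin b, sub j ω ∈ A} + (PT b) (⋃ j : Fin b, sub j ⁻¹' B)) +
          (PT b) {ω | 1 < |ω []|} :=
        (measure_union_le _ _).trans (add_le_add (measure_union_le _ _) le_rfl)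
    _ ≤ ((PT b) A ^ b + ∑ j : Fin b, (PT b) (sub j ⁻¹' B)) + 0 := by
        refine add_le_add (add_le_add (map_all h2 hAm).le ?_) (root_out h2).le
        exact measure_iUnion_fintype_le _ _
    _ = (PT b) A ^ b + ∑ _j : Fin b, (PT b) B := by
        rw [add_zero]
        congr 1
        exact Finset.sum_congr rfl fun j _ => map_sub h2 j hBm
    _ ≤ (PT b) A ^ b + b * ENNReal.ofReal (1 / (s * t)) := by
        refine add_le_add le_rfl ?_
        rw [Finset.sum_const, Finset.card_univ, Fintype.card_fin, nsmul_eq_mul]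
        gcongr
        exact hw z hz t ht

theorem nondeg {b : ℕ} (hb : 2 ≤ b) {s : ℝ} (hs : 0 < s) (h1 : T1 b s) (h2 : T2 b)
    (hw : T4_wegner b s) : T4_nondeg b s := by
  intro D R κ₀ hD hκ₀ hhalf ε hε
  -- one step for bounds: `q ≤ 1/2` and `δ > 0` give `q/2 + δ`
  have hstep : ∀ q : ℝ, 0 ≤ q → q ≤ 1 / 2 → ∀ δ : ℝ, 0 < δ →
      (∃ κ : ℝ, 0 < κ ∧ ∀ z ∈ D, (PT b) {ω | (XX b s z ω).im < κ} ≤ ENNReal.ofReal q) →
      (∃ κ : ℝ, 0 < κ ∧ ∀ z ∈ D,
        (PT b) {ω | (XX b s z ω).im < κ} ≤ ENNReal.ofReal (q / 2 + δ)) := by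
    rintro q hq0 hq δ hδ ⟨κ, hκ, hall⟩
    have hb0 : (0 : ℝ) < b := by exact_mod_cast (by omega : 0 < b)
    set t : ℝ := b / (s * δ) with ht
    have ht0 : 0 < t := by positivity
    set R' : ℝ := max R 0 with hR'
    have hM : 0 < R' + s + b * t := by
      have : 0 ≤ R' := le_max_right _ _
      positivity
    refine ⟨κ / (R' + s + b * t) ^ 2, by positivity, fun z hz => ?_⟩
    refine le_trans (step hs h1 h2 hw (hD z hz).1 ((hD z hz).2.trans (le_max_left _ _)) ht0) ?_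
    have e1 : (b : ENNReal) * ENNReal.ofReal (1 / (s * t)) = ENNReal.ofReal δ := by
      rw [← ENNReal.ofReal_natCast, ← ENNReal.ofReal_mul (by positivity)]
      congr 1
      rw [ht]
      field_simp
    have e2 : (PT b) {ω | (XX b s z ω).im < κ} ^ b ≤ ENNReal.ofReal (q / 2) := by
      calc (PT b) {ω | (XX b s z ω).im < κ} ^ b ≤ ENNReal.ofReal q ^ b := by
            gcongr
            exact hall z hz
        _ = ENNReal.ofReal (q ^ b) := (ENNReal.ofReal_pow hq0 b).symm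
        _ ≤ ENNReal.ofReal (q / 2) := by
            refine ENNReal.ofReal_le_ofReal ?_
            calc q ^ b ≤ q ^ 2 := pow_le_pow_of_le_one hq0 (by linarith) hb
              _ ≤ q / 2 := by nlinarith
    rw [e1, ENNReal.ofReal_add (by positivity) hδ.le]
    exact add_le_add e2 le_rfl
  -- iterate
  set δ : ℝ := min (ε / 2) (1 / 2) with hδd
  have hδ : 0 < δ := lt_min (by linarith) (by norm_num)
  have hδ1 : δ ≤ 1 / 2 := min_le_right _ _
  have hδ2 : δ ≤ ε / 2 := min_le_left _ _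
  have hiter : ∀ n : ℕ, ∃ κ : ℝ, 0 < κ ∧ ∀ z ∈ D, (PT b) {ω | (XX b s z ω).im < κ} ≤
      ENNReal.ofReal ((1 / 2) * (1 / 2 : ℝ) ^ n + δ * (1 - (1 / 2 : ℝ) ^ n)) := by
    intro n
    induction n with
    | zero =>
      refine ⟨κ₀, hκ₀, fun z hz => ?_⟩
      simpa using hhalf z hz
    | succ n ih =>
      have hp : 0 < (1 / 2 : ℝ) ^ n := by positivity
      have hp1 : (1 / 2 : ℝ) ^ n ≤ 1 := pow_le_one₀ (by norm_num) (by norm_num)
      have h3 := hstep ((1 / 2) * (1 / 2 : ℝ) ^ n + δ * (1 - (1 / 2 : ℝ) ^ n))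
        (by nlinarith) (by nlinarith) (δ / 2) (by linarith) ih
      obtain ⟨κ, hκ, h4⟩ := h3
      refine ⟨κ, hκ, fun z hz => (h4 z hz).trans (ENNReal.ofReal_le_ofReal (le_of_eq ?_))⟩
      rw [pow_succ]
      ring
  obtain ⟨n, hn⟩ := exists_pow_lt_of_lt_one hε (by norm_num : (1 / 2 : ℝ) < 1)
  obtain ⟨κ, hκ, h⟩ := hiter n
  refine ⟨κ, hκ, fun z hz => (h z hz).trans (ENNReal.ofReal_le_ofReal ?_)⟩
  have hp : 0 < (1 / 2 : ℝ) ^ n := by positivity
  nlinarith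

/-- (T4), Wegner, unconditional -/
theorem t4_wegner (b : ℕ) {s : ℝ} (hs : 0 < s) : T4_wegner b s :=
  wegner hs (TreeT1.t1 b s) (TreeT2_251.T2_proof b)

/-- (T4), non-degeneracy, unconditional -/
theorem t4_nondeg {b : ℕ} (hb : 2 ≤ b) {s : ℝ} (hs : 0 < s) : T4_nondeg b s :=
  nondeg hb hs (TreeT1.t1 b s) (TreeT2_251.T2_proof b) (t4_wegner b hs)

end Crest.Agent.R166.T4_485
end

-- ▼ part R166/TreeT6_350
/-!
Row 166, section 32 (tree half): T6 = uniform continuity of `z ↦ X(z)` up to the real axis.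
(helper350)
-/
set_option autoImplicit false

namespace Crest.Agent.R166.TreeT6350

open MeasureTheory Complex Crest.Agent.R166.TreeDet350 Crest.Agent.R166.TreeDefs350
  Crest.Agent.R166.TreeSpec350

noncomputable section

theorem rho_comm (x y : ℂ) : rho x y = rho y x := by
  unfold rho
  rw [norm_sub_rev x y]
  congr 1
  rw [← RCLike.norm_conj (x - (starRingEnd ℂ) y), map_sub, Complex.conj_conj, norm_sub_rev]

/-- strong triangle inequality of the pseudo-hyperbolic distance. -/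
theorem rho_triangle {x y w : ℂ} (hx : 0 < x.im) (hy : 0 < y.im) (hw : 0 < w.im) :
    rho x y ≤ rho x w + rho w y := by
  have nxy := norm_sub_conj_pos hx hy
  have nxw := norm_sub_conj_pos hx hw
  have nyw := norm_sub_conj_pos hy hw
  have hA0 := rho_nonneg x w
  have hB0 := rho_nonneg y w
  have hA1 := rho_le_one hx hw
  have hB1 := rho_le_one hy hw
  rw [rho_comm w y]
  obtain ⟨A, hA⟩ : ∃ A, A = rho x w := ⟨_, rfl⟩
  obtain ⟨B, hB⟩ : ∃ B, B = rho y w := ⟨_, rfl⟩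
  rw [← hA] at hA0 hA1 ⊢
  rw [← hB] at hB0 hB1 ⊢
  have eA : ‖x - w‖ = A * ‖x - (starRingEnd ℂ) w‖ := by
    rw [hA]; unfold rho; field_simp
  have eB : ‖y - w‖ = B * ‖y - (starRingEnd ℂ) w‖ := by
    rw [hB]; unfold rho; field_simp
  -- `|x - ȳ| 2 Im w ≤ |x-w̄||y-w̄| + |x-w||y-w|`
  have h1 : ‖x - (starRingEnd ℂ) y‖ * (2 * w.im) ≤
      ‖x - (starRingEnd ℂ) w‖ * ‖y - (starRingEnd ℂ) w‖ * (1 + A * B) := by
    have e1 : (x - (starRingEnd ℂ) y) * (w - (starRingEnd ℂ) w) =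
        (x - w) * ((starRingEnd ℂ) y - (starRingEnd ℂ) w) -
          (x - (starRingEnd ℂ) w) * ((starRingEnd ℂ) y - w) := by ring
    have e2 : ‖w - (starRingEnd ℂ) w‖ = 2 * w.im := by
      rw [Complex.sub_conj, norm_mul, Complex.norm_I, mul_one, Complex.norm_real,
        Real.norm_eq_abs, abs_of_pos (by positivity)]
    have e3 : ‖(starRingEnd ℂ) y - (starRingEnd ℂ) w‖ = ‖y - w‖ := by
      rw [← map_sub, RCLike.norm_conj]
    have e4 : ‖(starRingEnd ℂ) y - w‖ = ‖y - (starRingEnd ℂ) w‖ := by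
      rw [← RCLike.norm_conj ((starRingEnd ℂ) y - w), map_sub, Complex.conj_conj]
    have h2 := norm_sub_le ((x - w) * ((starRingEnd ℂ) y - (starRingEnd ℂ) w))
      ((x - (starRingEnd ℂ) w) * ((starRingEnd ℂ) y - w))
    rw [← e1, norm_mul, norm_mul, norm_mul, e2, e3, e4, eA, eB] at h2
    nlinarith
  have sA := norm_sub_conj_sq x w
  have sB := norm_sub_conj_sq y w
  have sC := norm_sub_conj_sq x y
  have h3 : rho x y ^ 2 * ‖x - (starRingEnd ℂ) y‖ ^ 2 = ‖x - y‖ ^ 2 := by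
    unfold rho; field_simp
  -- put everything together
  have key : rho x y ^ 2 ≤ (A + B) ^ 2 := by
    rw [eA] at sA
    rw [eB] at sB
    obtain ⟨a, ha⟩ : ∃ a, a = ‖x - (starRingEnd ℂ) w‖ := ⟨_, rfl⟩
    obtain ⟨c, hc⟩ : ∃ c, c = ‖y - (starRingEnd ℂ) w‖ := ⟨_, rfl⟩
    obtain ⟨N, hN⟩ : ∃ N, N = ‖x - (starRingEnd ℂ) y‖ := ⟨_, rfl⟩
    rw [← ha] at sA h1 nxw
    rw [← hc] at sB h1 nyw
    rw [← hN] at sC h1 h3 nxy
    -- 1 - rho² = 4 Im x Im y / N²
    have q1 : (1 - A ^ 2) * a ^ 2 = 4 * x.im * w.im := by linarith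
    have q2 : (1 - B ^ 2) * c ^ 2 = 4 * y.im * w.im := by linarith
    have q3 : (1 - rho x y ^ 2) * N ^ 2 = 4 * x.im * y.im := by nlinarith
    have q4 : (N * (2 * w.im)) ^ 2 ≤ (a * c * (1 + A * B)) ^ 2 :=
      pow_le_pow_left₀ (by positivity) h1 2
    -- (1-A²)(1-B²) a² c² = 4 (4 xi yi) wi² = 4 wi² (1-rho²) N² ≤ (1 - rho²) (a c (1+AB))²
    have hr1 : rho x y ^ 2 ≤ 1 := pow_le_one₀ (rho_nonneg _ _) (rho_le_one hx hy)
    have q5 : (1 - A ^ 2) * (1 - B ^ 2) * (a ^ 2 * c ^ 2) =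
        (1 - rho x y ^ 2) * (N * (2 * w.im)) ^ 2 := by
      have : (1 - A ^ 2) * (1 - B ^ 2) * (a ^ 2 * c ^ 2) =
          ((1 - A ^ 2) * a ^ 2) * ((1 - B ^ 2) * c ^ 2) := by ring
      rw [this, q1, q2]
      have : (1 - rho x y ^ 2) * (N * (2 * w.im)) ^ 2 =
          ((1 - rho x y ^ 2) * N ^ 2) * (4 * w.im ^ 2) := by ring
      rw [this, q3]
      ring
    have q6 : (1 - A ^ 2) * (1 - B ^ 2) * (a ^ 2 * c ^ 2) ≤
        (1 - rho x y ^ 2) * (1 + A * B) ^ 2 * (a ^ 2 * c ^ 2) := by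
      rw [q5]
      have q6' := mul_le_mul_of_nonneg_left q4 (by linarith : 0 ≤ 1 - rho x y ^ 2)
      refine q6'.trans (le_of_eq ?_)
      ring
    have q7 : (1 - A ^ 2) * (1 - B ^ 2) ≤ (1 - rho x y ^ 2) * (1 + A * B) ^ 2 :=
      le_of_mul_le_mul_right q6 (by positivity)
    have q8 : rho x y ^ 2 * (1 + A * B) ^ 2 ≤ (A + B) ^ 2 := by
      have id1 : (1 + A * B) ^ 2 - (1 - A ^ 2) * (1 - B ^ 2) = (A + B) ^ 2 := by ring
      have id2 : (1 - rho x y ^ 2) * (1 + A * B) ^ 2 =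
        (1 + A * B) ^ 2 - rho x y ^ 2 * (1 + A * B) ^ 2 := by ring
      rw [id2] at q7
      linarith
    have q9 : (1 : ℝ) ≤ (1 + A * B) ^ 2 := by
      have : 0 ≤ A * B := mul_nonneg hA0 hB0
      exact one_le_pow₀ (by linarith)
    have q10 : 0 ≤ rho x y ^ 2 := by positivity
    have q11 := mul_le_mul_of_nonneg_left q9 q10
    linarith
  exact (pow_le_pow_iff_left₀ (rho_nonneg _ _) (by positivity) (by norm_num)).1 key

variable {b : ℕ} {y0 : ℝ} {z m : ℂ}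

def C6 (b : ℕ) (y0 : ℝ) : ℝ := 7 * Mc b y0 * BB y0 / y0 + 21 * C3 b y0

theorem C6_pos (h : Adm b y0 z m) : 0 < C6 b y0 := by
  have := h.Mc_pos; have := h.C3_pos; have := h.hy; have := BB_pos h.hy
  unfold C6; positivity

/-- changing the second argument of the cost. -/
theorem cost_change (h : Adm b y0 z m) {x y w : ℂ} (hx : 0 < x.im) (hy : 0 < y.im)
    (hw : 0 < w.im) :
    cost (Mc b y0) m (x, y) ≤ 21 / 20 * cost (Mc b y0) m (x, w) + C6 b y0 * rho y w := by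
  have hM := h.Mc_pos
  have hC3 := h.C3_pos
  have hy0 := h.hy
  have hBB := BB_pos hy0
  have n1 := h.norm_uu_le hx.le
  have n2 := h.norm_uu_le hy.le
  have n3 := h.norm_uu_le hw.le
  have hl := h.uu_lip hy hw
  have ht := rho_triangle hx hy hw
  rw [rho_comm w y] at ht
  obtain ⟨a, ha⟩ : ∃ a, a = rho x w := ⟨_, rfl⟩
  obtain ⟨r, hr⟩ : ∃ r, r = rho y w := ⟨_, rfl⟩
  have ha0 : 0 ≤ a := by rw [ha]; exact rho_nonneg _ _
  have ha1 : a ≤ 1 := by rw [ha]; exact rho_le_one hx hw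
  have hr0 : 0 ≤ r := by rw [hr]; exact rho_nonneg _ _
  have hr1 : r ≤ 1 := by rw [hr]; exact rho_le_one hy hw
  have e1 : rho x y ^ 2 ≤ 21 / 20 * a ^ 2 + 21 * r ^ 2 := by
    have h1 : rho x y ^ 2 ≤ (a + r) ^ 2 := by
      rw [ha, hr]; exact pow_le_pow_left₀ (rho_nonneg _ _) ht 2
    nlinarith [sq_nonneg (a - 20 * r)]
  obtain ⟨Wy, hWy⟩ : ∃ W, W = 1 + Mc b y0 * ‖uu m x‖ ^ 2 + Mc b y0 * ‖uu m y‖ ^ 2 := ⟨_, rfl⟩
  obtain ⟨Ww, hWw⟩ : ∃ W, W = 1 + Mc b y0 * ‖uu m x‖ ^ 2 + Mc b y0 * ‖uu m w‖ ^ 2 := ⟨_, rfl⟩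
  have e2 : Wy ≤ C3 b y0 := by
    rw [hWy]
    have e2 : ‖uu m x‖ ^ 2 ≤ BB y0 ^ 2 := pow_le_pow_left₀ (norm_nonneg _) n1 2
    have e3 : ‖uu m y‖ ^ 2 ≤ BB y0 ^ 2 := pow_le_pow_left₀ (norm_nonneg _) n2 2
    unfold C3; nlinarith
  have e3 : Wy ≤ Ww + 6 * Mc b y0 * BB y0 / y0 * r := by
    have f1 : ‖uu m y‖ - ‖uu m w‖ ≤ 3 / y0 * r := by
      rw [hr]; exact (norm_sub_norm_le _ _).trans hl
    have f2 : ‖uu m y‖ ^ 2 - ‖uu m w‖ ^ 2 ≤ 3 / y0 * r * (2 * BB y0) := by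
      have f3 : ‖uu m y‖ ^ 2 - ‖uu m w‖ ^ 2 =
          (‖uu m y‖ - ‖uu m w‖) * (‖uu m y‖ + ‖uu m w‖) := by ring
      rw [f3]
      have f4 : (‖uu m y‖ - ‖uu m w‖) * (‖uu m y‖ + ‖uu m w‖) ≤
          3 / y0 * r * (‖uu m y‖ + ‖uu m w‖) :=
        mul_le_mul_of_nonneg_right f1 (by positivity)
      refine f4.trans (mul_le_mul_of_nonneg_left (by linarith) (by positivity))
    have f5 := mul_le_mul_of_nonneg_left f2 hM.le
    have f6 : Mc b y0 * (3 / y0 * r * (2 * BB y0)) = 6 * Mc b y0 * BB y0 / y0 * r := by ring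
    rw [hWy, hWw]
    linarith
  have hWy0 : 0 ≤ Wy := by rw [hWy]; positivity
  have hWw0 : 0 ≤ Ww := by rw [hWw]; positivity
  unfold cost
  simp only
  rw [← hWy, ← hWw, ← ha, ← hr]
  have g1 : rho x y ^ 2 * Wy ≤ (21 / 20 * a ^ 2 + 21 * r ^ 2) * Wy :=
    mul_le_mul_of_nonneg_right e1 hWy0
  have g2 : a ^ 2 * Wy ≤ a ^ 2 * (Ww + 6 * Mc b y0 * BB y0 / y0 * r) :=
    mul_le_mul_of_nonneg_left e3 (by positivity)
  have g3 : a ^ 2 * (6 * Mc b y0 * BB y0 / y0 * r) ≤ 1 * (6 * Mc b y0 * BB y0 / y0 * r) :=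
    mul_le_mul_of_nonneg_right (pow_le_one₀ ha0 ha1) (by positivity)
  have g4 : r ^ 2 * Wy ≤ r * C3 b y0 :=
    mul_le_mul (by nlinarith) e2 hWy0 hr0
  have g5 : C6 b y0 * r = 7 * Mc b y0 * BB y0 / y0 * r + 21 * (r * C3 b y0) := by
    unfold C6; ring
  have g6 : 21 / 20 * (6 * Mc b y0 * BB y0 / y0 * r) ≤ 7 * Mc b y0 * BB y0 / y0 * r := by
    have : 0 ≤ Mc b y0 * BB y0 / y0 * r := by positivity
    have e7 : 21 / 20 * (6 * Mc b y0 * BB y0 / y0 * r) =
        (21 / 20 * 6) * (Mc b y0 * BB y0 / y0 * r) := by ring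
    have e8 : 7 * Mc b y0 * BB y0 / y0 * r = 7 * (Mc b y0 * BB y0 / y0 * r) := by ring
    rw [e7, e8]
    linarith
  rw [g5]
  have g7 : (21 / 20 * a ^ 2 + 21 * r ^ 2) * Wy = 21 / 20 * (a ^ 2 * Wy) + 21 * (r ^ 2 * Wy) := by
    ring
  have g8 : a ^ 2 * (Ww + 6 * Mc b y0 * BB y0 / y0 * r) =
      a ^ 2 * Ww + a ^ 2 * (6 * Mc b y0 * BB y0 / y0 * r) := by ring
  linarith

theorem unif_abs_le : ∀ᵐ w : ℝ ∂unif, |w| ≤ 1 := by
  rw [ae_iff]
  simpa using T4_485.unif_out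

def C7 (b : ℕ) (y0 : ℝ) : ℝ := 7 * (21 / 20 * (9 / y0 ^ 6) + C6 b y0)

theorem C7_pos (h : Adm b y0 z m) : 0 < C7 b y0 := by
  have := C6_pos h; have := h.hy
  unfold C7; positivity

set_option maxHeartbeats 1000000 in
/-- one step: the stationary cost is bounded by the shift error. -/
theorem T6_step (h : Adm b y0 z m) {s : ℝ} (hs : 0 < s) (hsr : s ≤ rr b y0)
    {X Y : (List (Fin b) → ℝ) → ℂ} (P : Pr X Y)
    (hrec : ∀ ω, X ω = cav z (s * ω []) fun j => X (sub j ω))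
    (hp : pA b y0 m (PT b) X Y ≤ pb0 b y0) :
    cA b y0 m (PT b) X Y ≤ C7 b y0 *
      ∫ ω, rho (Y ω) (cav z (s * ω []) fun j => Y (sub j ω)) ∂(PT b) := by
  have hy := h.hy
  have hC6 := C6_pos h
  have hM := h.Mc_pos
  have hBB := BB_pos hy
  obtain ⟨W, hW⟩ : ∃ W : (List (Fin b) → ℝ) → ℂ, W = fun ω =>
    cav z (s * ω []) fun j => Y (sub j ω) := ⟨_, rfl⟩
  have mX := P.mX
  have mY := P.mY
  have mW : Measurable W := by
    rw [hW]
    unfold cav
    refine measurable_const.div ((measurable_const.sub ?_).add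
      (Finset.measurable_sum _ fun k _ => mY.comp (TreeT2_251.measurable_sub k)))
    exact Complex.measurable_ofReal.comp (measurable_const.mul (measurable_pi_apply []))
  have pW : ∀ ω, 0 < (W ω).im := fun ω => by
    rw [hW]; exact h.cav_im_pos _ _ fun j => P.pY _
  have PXW : Pr X W := ⟨mX, mW, P.pX, pW⟩
  have PYW : Pr Y W := ⟨mY, mW, P.pY, pW⟩
  have er : (∫ ω, rho (Y ω) (cav z (s * ω []) fun j => Y (sub j ω)) ∂(PT b)) =
      ∫ ω, rho (Y ω) (W ω) ∂(PT b) := by rw [hW]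
  rw [er]
  obtain ⟨rb, hrb⟩ : ∃ r, r = ∫ ω, rho (Y ω) (W ω) ∂(PT b) := ⟨_, rfl⟩
  obtain ⟨c, hc⟩ : ∃ c, c = cA b y0 m (PT b) X Y := ⟨_, rfl⟩
  have hc0 : 0 ≤ c := by rw [hc]; exact h.cA_nonneg
  have hrb0 : 0 ≤ rb := by rw [hrb]; exact integral_nonneg fun _ => rho_nonneg _ _
  have hrb1 : rb ≤ 1 := by
    rw [hrb]
    have := integral_mono (μ := PT b) PYW.int_rho (integrable_const (1 : ℝ))
      fun ω => rho_le_one (P.pY ω) (pW ω)
    simpa using this
  -- (i) the cost of (X, W)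
  have iXW : Integrable (fun ω => cost (Mc b y0) m (X ω, W ω)) (PT b) := h.int_cost PXW
  have h1 : ∫ ω, cost (Mc b y0) m (X ω, W ω) ∂(PT b) ≤
      4 / 5 * c + 2 / y0 ^ 2 * ‖dA m (PT b) X Y‖ ^ 2 := by
    rw [TreeT2_251.integral_glue b _ iXW]
    have hae : ∀ᵐ w : ℝ ∂unif, (∫ y : Fin b → List (Fin b) → ℝ,
        cost (Mc b y0) m (X (TreeT2_251.glue (w, y)), W (TreeT2_251.glue (w, y)))
          ∂(Measure.pi fun _ => PT b)) ≤ 4 / 5 * c + 2 / y0 ^ 2 * ‖dA m (PT b) X Y‖ ^ 2 := by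
      filter_upwards [unif_abs_le] with w hw
      have ht : |s * w| ≤ rr b y0 := by
        rw [abs_mul, abs_of_pos hs]
        nlinarith [abs_nonneg w]
      have h2 := h.cost_avg ht P hp
      rw [hc]
      refine le_trans (le_of_eq ?_) h2
      refine integral_congr_ae (Filter.Eventually.of_forall fun y => ?_)
      simp only
      rw [hrec, hW]
      rfl
    have iI : Integrable (fun w : ℝ => ∫ y : Fin b → List (Fin b) → ℝ,
        cost (Mc b y0) m (X (TreeT2_251.glue (w, y)), W (TreeT2_251.glue (w, y)))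
          ∂(Measure.pi fun _ => PT b)) unif := by
      have := (TreeT2_251.mp_glue b).integrable_comp_of_integrable iXW
      exact this.integral_prod_left
    have := integral_mono_ae iI (integrable_const _) hae
    refine this.trans (le_of_eq ?_)
    simp
  -- (ii) the mean difference
  have iuXW : Integrable (fun ω => uu m (X ω) - uu m (W ω)) (PT b) := by
    refine integrable_of_bdd (B := BB y0 + BB y0)
      (((measurable_uu m).comp mX).sub ((measurable_uu m).comp mW)).aestronglyMeasurable fun ω => ?_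
    exact (norm_sub_le _ _).trans (add_le_add (h.norm_uu_le (P.pX ω).le) (h.norm_uu_le (pW ω).le))
  have iuXY : Integrable (fun ω => uu m (X ω) - uu m (Y ω)) (PT b) := by
    refine integrable_of_bdd (B := BB y0 + BB y0)
      (((measurable_uu m).comp mX).sub ((measurable_uu m).comp mY)).aestronglyMeasurable fun ω => ?_
    exact (norm_sub_le _ _).trans (add_le_add (h.norm_uu_le (P.pX ω).le)
      (h.norm_uu_le (P.pY ω).le))
  have iuYW : Integrable (fun ω => uu m (Y ω) - uu m (W ω)) (PT b) := by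
    refine integrable_of_bdd (B := BB y0 + BB y0)
      (((measurable_uu m).comp mY).sub ((measurable_uu m).comp mW)).aestronglyMeasurable fun ω => ?_
    exact (norm_sub_le _ _).trans (add_le_add (h.norm_uu_le (P.pY ω).le) (h.norm_uu_le (pW ω).le))
  obtain ⟨Δ, hΔ⟩ : ∃ Δ, Δ = dA m (PT b) X Y := ⟨_, rfl⟩
  obtain ⟨e, he⟩ : ∃ e, e = ∫ ω, (uu m (Y ω) - uu m (W ω)) ∂(PT b) := ⟨_, rfl⟩
  have hsum : ∫ ω, (uu m (X ω) - uu m (W ω)) ∂(PT b) = Δ + e := by
    rw [hΔ, he]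
    unfold dA
    rw [← integral_add iuXY iuYW]
    refine integral_congr_ae (Filter.Eventually.of_forall fun y => ?_)
    simp only
    ring
  have hen : ‖e‖ ≤ 3 / y0 * rb := by
    rw [he, hrb, ← integral_const_mul]
    refine (norm_integral_le_integral_norm _).trans ?_
    exact integral_mono iuYW.norm (PYW.int_rho.const_mul _) fun ω => h.uu_lip (P.pY ω) (pW ω)
  have hD : ‖Δ + e - b * m ^ 2 * Δ‖ ^ 2 ≤ 1 / 50 * y0 ^ 4 * c := by
    have hR0 : 0 ≤ 1 / 50 * y0 ^ 4 * c := by positivity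
    have hR : ‖Δ + e - b * m ^ 2 * Δ‖ ≤ Real.sqrt (1 / 50 * y0 ^ 4 * c) := by
      rw [← hsum, TreeT2_251.integral_glue b _ iuXW]
      have iI : Integrable (fun w : ℝ => ∫ y : Fin b → List (Fin b) → ℝ,
          (uu m (X (TreeT2_251.glue (w, y))) - uu m (W (TreeT2_251.glue (w, y))))
            ∂(Measure.pi fun _ => PT b)) unif := by
        have := (TreeT2_251.mp_glue b).integrable_comp_of_integrable iuXW
        exact this.integral_prod_left
      have e3 : (∫ w : ℝ, ∫ y : Fin b → List (Fin b) → ℝ,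
          (uu m (X (TreeT2_251.glue (w, y))) - uu m (W (TreeT2_251.glue (w, y))))
            ∂(Measure.pi fun _ => PT b) ∂unif) - b * m ^ 2 * Δ =
          ∫ w : ℝ, ((∫ y : Fin b → List (Fin b) → ℝ,
          (uu m (X (TreeT2_251.glue (w, y))) - uu m (W (TreeT2_251.glue (w, y))))
            ∂(Measure.pi fun _ => PT b)) - b * m ^ 2 * Δ) ∂unif := by
        rw [integral_sub iI (integrable_const _)]
        simp
      rw [e3]
      have hae : ∀ᵐ w : ℝ ∂unif, ‖(∫ y : Fin b → List (Fin b) → ℝ,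
          (uu m (X (TreeT2_251.glue (w, y))) - uu m (W (TreeT2_251.glue (w, y))))
            ∂(Measure.pi fun _ => PT b)) - b * m ^ 2 * Δ‖ ≤
            Real.sqrt (1 / 50 * y0 ^ 4 * c) := by
        filter_upwards [unif_abs_le] with w hw
        have ht : |s * w| ≤ rr b y0 := by
          rw [abs_mul, abs_of_pos hs]
          nlinarith [abs_nonneg w]
        have h2 := h.mean_avg ht P hp
        rw [← hc, ← hΔ] at h2
        refine Real.le_sqrt_of_sq_le ?_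
        refine le_trans (le_of_eq ?_) h2
        congr 3
        refine integral_congr_ae (Filter.Eventually.of_forall fun y => ?_)
        simp only
        rw [hrec, hW]
        rfl
      have := norm_integral_le_of_norm_le_const hae
      simpa using this
    have := pow_le_pow_left₀ (norm_nonneg _) hR 2
    rwa [Real.sq_sqrt hR0] at this
  have h3 := h.delta_le hD
  rw [← hΔ] at h1
  -- (iii) conclusion
  have h4 : c ≤ 21 / 20 * (∫ ω, cost (Mc b y0) m (X ω, W ω) ∂(PT b)) + C6 b y0 * rb := by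
    rw [hc, hrb, ← integral_const_mul, ← integral_const_mul,
      ← integral_add (iXW.const_mul _) (PYW.int_rho.const_mul _)]
    exact integral_mono (h.int_cost P) ((iXW.const_mul _).add (PYW.int_rho.const_mul _))
      fun ω => cost_change h (P.pX ω) (P.pY ω) (pW ω)
  have h5 : ‖e‖ ^ 2 ≤ 9 / y0 ^ 2 * rb := by
    have e1 := pow_le_pow_left₀ (norm_nonneg _) hen 2
    have e2 : (3 / y0 * rb) ^ 2 = 9 / y0 ^ 2 * (rb * rb) := by ring
    rw [e2] at e1
    refine e1.trans (mul_le_mul_of_nonneg_left (by nlinarith) (by positivity))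
  have h6 : 1 / y0 ^ 4 * ‖e‖ ^ 2 ≤ 9 / y0 ^ 6 * rb := by
    have := mul_le_mul_of_nonneg_left h5 (by positivity : 0 ≤ 1 / y0 ^ 4)
    refine this.trans (le_of_eq ?_)
    field_simp
  rw [← hc, ← hrb]
  have h7 : C7 b y0 * rb = 7 * (21 / 20 * (9 / y0 ^ 6 * rb) + C6 b y0 * rb) := by
    unfold C7; ring
  rw [h7]
  linarith

/-- Lipschitz dependence of goodness on the clean root. -/
theorem good_shift {z' m' : ℂ} (h : Adm b y0 z m) (h' : Adm b y0 z' m') {r : ℝ} (_hr : 0 ≤ r)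
    (hr1 : r ≤ 1 / 4) (hmm : ‖m - m'‖ ≤ r / 8) {y : ℂ} (hy : 0 ≤ y.im)
    (hu : ‖uu m' y‖ ≤ r / 8) : ‖uu m y‖ ≤ r := by
  have h1 := h'.disp_le hy (by linarith : r / 8 ≤ 1 / 4) hu
  have h2 : ‖y - m‖ ≤ 3 / 8 * r := by
    have e : y - m = (y - m') - (m - m') := by ring
    rw [e]
    refine (norm_sub_le _ _).trans ?_
    linarith
  have h3 : 2 / 5 ≤ ‖1 - m * y‖ := by
    rw [TreeDet350.one_sub_mul m y]
    have e1 := h.norm_a_ge
    have e2 : ‖m * (y - m)‖ ≤ 3 / 4 * (3 / 8 * r) := by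
      rw [norm_mul]
      exact mul_le_mul h.norm_le h2 (norm_nonneg _) (by norm_num)
    have e3 := norm_sub_norm_le (1 - m ^ 2) (m * (y - m))
    linarith
  unfold uu
  rw [norm_div, div_le_iff₀ (by linarith)]
  have : r * (2 / 5) ≤ r * ‖1 - m * y‖ := mul_le_mul_of_nonneg_left h3 _hr
  linarith

theorem pA_le {z' m' : ℂ} (h : Adm b y0 z m) (h' : Adm b y0 z' m')
    (hmm : ‖m - m'‖ ≤ rr b y0 / 8) {X Y : (List (Fin b) → ℝ) → ℂ} (P : Pr X Y) :
    pA b y0 m (PT b) X Y ≤ (∫ ω, ‖uu m (X ω)‖ ^ 2 ∂(PT b)) / rr b y0 ^ 2 +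
      64 * (∫ ω, ‖uu m' (Y ω)‖ ^ 2 ∂(PT b)) / rr b y0 ^ 2 := by
  have hr0 := h.rr_pos
  have hr4 : rr b y0 ≤ 1 / 4 := by linarith [h.rr_le', h.y0_lt_one]
  have hBB := BB_pos h.hy
  have i1 : Integrable (fun ω => ‖uu m (X ω)‖ ^ 2) (PT b) :=
    integrable_of_bdd (B := BB y0 ^ 2)
      (((measurable_uu m).comp P.mX).norm.pow_const 2).aestronglyMeasurable fun ω => by
      rw [Real.norm_eq_abs, abs_of_nonneg (by positivity)]
      exact pow_le_pow_left₀ (norm_nonneg _) (h.norm_uu_le (P.pX ω).le) 2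
  have i2 : Integrable (fun ω => ‖uu m' (Y ω)‖ ^ 2) (PT b) :=
    integrable_of_bdd (B := BB y0 ^ 2)
      (((measurable_uu m').comp P.mY).norm.pow_const 2).aestronglyMeasurable fun ω => by
      rw [Real.norm_eq_abs, abs_of_nonneg (by positivity)]
      exact pow_le_pow_left₀ (norm_nonneg _) (h'.norm_uu_le (P.pY ω).le) 2
  have e : (∫ ω, ‖uu m (X ω)‖ ^ 2 ∂(PT b)) / rr b y0 ^ 2 +
      64 * (∫ ω, ‖uu m' (Y ω)‖ ^ 2 ∂(PT b)) / rr b y0 ^ 2 =
      ∫ ω, ((1 / rr b y0 ^ 2) * ‖uu m (X ω)‖ ^ 2 + (64 / rr b y0 ^ 2) * ‖uu m' (Y ω)‖ ^ 2)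
        ∂(PT b) := by
    rw [integral_add (i1.const_mul _) (i2.const_mul _), integral_const_mul, integral_const_mul]
    ring
  rw [e]
  refine integral_mono (P.int_bI m _) ((i1.const_mul _).add (i2.const_mul _)) fun ω => ?_
  simp only
  by_cases hg : Good m (rr b y0) (X ω, Y ω)
  · rw [bI_good hg]; positivity
  · rw [bI_bad hg]
    have n1 : 0 ≤ (1 / rr b y0 ^ 2) * ‖uu m (X ω)‖ ^ 2 := by positivity
    have n2 : 0 ≤ (64 / rr b y0 ^ 2) * ‖uu m' (Y ω)‖ ^ 2 := by positivity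
    unfold Good at hg
    rw [not_and_or] at hg
    rcases hg with hg | hg
    · have hg' : rr b y0 ≤ ‖uu m (X ω)‖ := (not_le.1 hg).le
      have : 1 ≤ (1 / rr b y0 ^ 2) * ‖uu m (X ω)‖ ^ 2 := by
        rw [one_div, ← div_eq_inv_mul, le_div_iff₀ (by positivity), one_mul]
        exact pow_le_pow_left₀ hr0.le hg' 2
      linarith
    · have hg' : rr b y0 / 8 ≤ ‖uu m' (Y ω)‖ := by
        by_contra hc
        exact hg (good_shift h h' hr0.le hr4 hmm (P.pY ω).le (not_le.1 hc).le)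
      have : 1 ≤ (64 / rr b y0 ^ 2) * ‖uu m' (Y ω)‖ ^ 2 := by
        rw [div_mul_eq_mul_div, le_div_iff₀ (by positivity), one_mul]
        have := pow_le_pow_left₀ (by positivity) hg' 2
        nlinarith
      linarith

/-- shift error -/
theorem shift_le {s : ℝ} (hz : 0 < z.im) {z' : ℂ} (hz' : 0 < z'.im) (hb : 1 ≤ b) {κ : ℝ}
    (hκ : 0 < κ) {ε : ℝ} (hε : 0 ≤ ε)
    (hP : (PT b) {ω | (XX b s z' ω).im < κ} ≤ ENNReal.ofReal ε) :
    ∫ ω, rho (XX b s z' ω) (cav z (s * ω []) fun j => XX b s z' (sub j ω)) ∂(PT b) ≤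
      ε + ‖z - z'‖ / (2 * κ) := by
  have T := TreeT1.t1 b s
  have j0 : Fin b := ⟨0, hb⟩
  have mY := T.meas z' hz'
  have hms : MeasurableSet {ω | (XX b s z' (sub j0 ω)).im < κ} :=
    measurableSet_lt (Complex.measurable_im.comp (mY.comp (TreeT2_251.measurable_sub j0)))
      measurable_const
  have hP' : (PT b) {ω | (XX b s z' (sub j0 ω)).im < κ} ≤ ENNReal.ofReal ε := by
    have h1 := (TreeT2_251.mp_sub b j0).measure_preimage
      (s := {ω | (XX b s z' ω).im < κ})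
      (measurableSet_lt (Complex.measurable_im.comp mY) measurable_const).nullMeasurableSet
    have h2 : {ω | (XX b s z' (sub j0 ω)).im < κ} = sub j0 ⁻¹' {ω | (XX b s z' ω).im < κ} := rfl
    rw [h2, h1]
    exact hP
  have hreal : (PT b).real {ω | (XX b s z' (sub j0 ω)).im < κ} ≤ ε :=
    ENNReal.toReal_le_of_le_ofReal hε hP'
  have hbound : ∀ ω, rho (XX b s z' ω) (cav z (s * ω []) fun j => XX b s z' (sub j ω)) ≤
      Set.indicator {ω | (XX b s z' (sub j0 ω)).im < κ} (fun _ => (1 : ℝ)) ω +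
        ‖z - z'‖ / (2 * κ) := by
    intro ω
    have hd : 0 ≤ ‖z - z'‖ / (2 * κ) := by positivity
    have pX : ∀ j : Fin b, 0 < (XX b s z' (sub j ω)).im := fun j => T.im_pos z' hz' _
    have hsum : (XX b s z' (sub j0 ω)).im ≤ ∑ j : Fin b, (XX b s z' (sub j ω)).im :=
      Finset.single_le_sum (f := fun j : Fin b => (XX b s z' (sub j ω)).im)
        (fun j _ => (pX j).le) (Finset.mem_univ j0)
    have hS' : 0 < (z' - ((s * ω [] : ℝ) : ℂ) + ∑ j : Fin b, XX b s z' (sub j ω)).im := by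
      rw [Complex.add_im, Complex.sub_im, Complex.ofReal_im, Complex.im_sum]
      have := pX j0; linarith
    have hS : 0 < (z - ((s * ω [] : ℝ) : ℂ) + ∑ j : Fin b, XX b s z' (sub j ω)).im := by
      rw [Complex.add_im, Complex.sub_im, Complex.ofReal_im, Complex.im_sum]
      have := pX j0; linarith
    rw [T.recur z' hz' ω]
    unfold cav
    rw [rho_neg_inv (ne_zero_of_im_pos hS') (ne_zero_of_im_pos hS)]
    by_cases hω : ω ∈ {ω | (XX b s z' (sub j0 ω)).im < κ}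
    · rw [Set.indicator_of_mem hω]
      have := rho_le_one hS' hS
      linarith
    · rw [Set.indicator_of_notMem hω, zero_add]
      have hω' : κ ≤ (XX b s z' (sub j0 ω)).im := not_lt.1 hω
      unfold rho
      have e1 : z' - ((s * ω [] : ℝ) : ℂ) + ∑ j : Fin b, XX b s z' (sub j ω) -
          (z - ((s * ω [] : ℝ) : ℂ) + ∑ j : Fin b, XX b s z' (sub j ω)) = z' - z := by ring
      rw [e1, norm_sub_rev]
      refine div_le_div_of_nonneg_left (norm_nonneg _) (by positivity) ?_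
      refine le_trans ?_ (Complex.im_le_norm _)
      rw [Complex.sub_im, Complex.conj_im, Complex.add_im, Complex.add_im, Complex.sub_im,
        Complex.sub_im, Complex.ofReal_im, Complex.im_sum]
      linarith
  have PYW : Pr (XX b s z') (fun ω => cav z (s * ω []) fun j => XX b s z' (sub j ω)) := by
    refine ⟨mY, ?_, fun ω => T.im_pos z' hz' ω, fun ω => ?_⟩
    · unfold cav
      refine measurable_const.div ((measurable_const.sub ?_).add
        (Finset.measurable_sum _ fun k _ => mY.comp (TreeT2_251.measurable_sub k)))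
      exact Complex.measurable_ofReal.comp (measurable_const.mul (measurable_pi_apply []))
    · exact TreeT1.im_cav_pos hz _ fun j => (T.im_pos z' hz' _).le
  have i1 : Integrable (Set.indicator {ω | (XX b s z' (sub j0 ω)).im < κ} fun _ => (1 : ℝ))
      (PT b) := (integrable_const (1 : ℝ)).indicator hms
  have h1 := integral_mono PYW.int_rho (i1.add (integrable_const (‖z - z'‖ / (2 * κ)))) hbound
  refine h1.trans ?_
  have h2 := integral_add i1 (integrable_const (μ := PT b) (‖z - z'‖ / (2 * κ)))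
  refine (le_of_eq h2).trans ?_
  rw [integral_indicator hms]
  simp only [integral_const, MeasurableSet.univ, smul_eq_mul, mul_one,
    measureReal_restrict_apply, Set.univ_inter, probReal_univ, one_mul]
  linarith

/-- **T6.** -/
theorem t6 (hb : 2 ≤ b) (h5 : T5 b) (hnd : T6_nondeg b) : T6 b := by
  intro κ hκ
  by_cases hκ' : κ ≤ 2 * Real.sqrt b
  swap
  · refine ⟨1, one_pos, fun s _ _ ε _ => ⟨1, one_pos, fun z z' h1 => ?_⟩⟩
    have := abs_nonneg z.re
    exact absurd (this.trans h1) (by linarith)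
  obtain ⟨s5, hs5, C, hC, H5⟩ := h5 κ hκ
  obtain ⟨s6, hs6, H6⟩ := hnd κ hκ
  have hy0 : 0 < TreeT6N.y00 b κ := TreeT6N.y00_pos hb hκ hκ'
  obtain ⟨y0, hy0'⟩ : ∃ y, y = TreeT6N.y00 b κ := ⟨_, rfl⟩
  -- a witness of admissibility
  obtain ⟨m1, hm1⟩ := TreeT6N.exists_adm (z := Complex.I) hb hκ (by
    simp only [Complex.I_re, abs_zero]; linarith) (by simp) (by
    have : (1 : ℝ) ≤ Real.sqrt b := by
      rw [Real.one_le_sqrt]
      have : (2 : ℝ) ≤ b := by exact_mod_cast hb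
      linarith
    simp only [Complex.I_im]; linarith)
  rw [← hy0'] at hm1 hy0
  have hrr := hm1.rr_pos
  have hpb := hm1.pb0_pos
  have hC7 := C7_pos hm1
  obtain ⟨s1, hs1⟩ : ∃ s1, s1 = min 1 (pb0 b y0 * rr b y0 ^ 2 / (65 * C)) := ⟨_, rfl⟩
  have hs1pos : 0 < s1 := by rw [hs1]; positivity
  refine ⟨min (min s5 s6) (min (rr b y0) s1), by positivity, fun s hs hss ε hε => ?_⟩
  have l1 : s < s5 := hss.trans_le ((min_le_left _ _).trans (min_le_left _ _))
  have l2 : s < s6 := hss.trans_le ((min_le_left _ _).trans (min_le_right _ _))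
  have l3 : s < rr b y0 := hss.trans_le ((min_le_right _ _).trans (min_le_left _ _))
  have l4 : s < s1 := hss.trans_le ((min_le_right _ _).trans (min_le_right _ _))
  have l5 : s ≤ 1 := l4.le.trans (by rw [hs1]; exact min_le_left _ _)
  have l6 : 65 * C * s ≤ pb0 b y0 * rr b y0 ^ 2 := by
    have : s ≤ pb0 b y0 * rr b y0 ^ 2 / (65 * C) :=
      l4.le.trans (by rw [hs1]; exact min_le_right _ _)
    rw [le_div_iff₀ (by positivity)] at this
    linarith
  obtain ⟨κ1, hκ1, M, hM, Hnd⟩ := H6 s hs l2 (ε / (2 * C7 b y0)) (by positivity)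
  refine ⟨min (rr b y0 / 8 * y0) (κ1 * (ε / C7 b y0)), by positivity,
    fun z z' z1 z2 z3 z1' z2' z3' hzz => ?_⟩
  obtain ⟨m, hm⟩ := TreeT6N.exists_adm hb hκ z1 z2 z3
  obtain ⟨m', hm'⟩ := TreeT6N.exists_adm hb hκ z1' z2' z3'
  rw [← hy0'] at hm hm'
  have T := TreeT1.t1 b s
  have P : Pr (XX b s z) (XX b s z') :=
    ⟨T.meas z z2, T.meas z' z2', T.im_pos z z2, T.im_pos z' z2'⟩
  -- roots are close
  have hmm : ‖m - m'‖ ≤ rr b y0 / 8 := by
    have r1 : Root355.IsRoot (b : ℝ) z m := ⟨hm.im_pos, by simpa using hm.hm⟩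
    have r2 : Root355.IsRoot (b : ℝ) z' m' := ⟨hm'.im_pos, by simpa using hm'.hm⟩
    have hb1 : (1 : ℝ) ≤ b := by
      have : (2 : ℝ) ≤ b := by exact_mod_cast hb
      linarith
    refine (r1.lipschitz r2 hb1 z2.le z2'.le).trans ?_
    rw [div_le_iff₀ hm.im_pos]
    have e1 : ‖z - z'‖ ≤ rr b y0 / 8 * y0 := hzz.trans (min_le_left _ _)
    refine e1.trans (mul_le_mul_of_nonneg_left hm.him (by positivity))
  -- bad probability
  have hV := H5 s hs l1 z m z1 z2 z3 hm.im_pos hm.hm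
  have hV' := H5 s hs l1 z' m' z1' z2' z3' hm'.im_pos hm'.hm
  have hp : pA b y0 m (PT b) (XX b s z) (XX b s z') ≤ pb0 b y0 := by
    refine (pA_le hm hm' hmm P).trans ?_
    rw [← add_div, div_le_iff₀ (by positivity)]
    have : s ^ 2 ≤ s := by nlinarith
    have : C * s ^ 2 ≤ C * s := mul_le_mul_of_nonneg_left this hC.le
    linarith
  have hstep := T6_step hm hs l3.le P (fun ω => T.recur z z2 ω) hp
  have hnd' : (PT b) {ω | (XX b s z' ω).im < κ1} ≤ ENNReal.ofReal (ε / (2 * C7 b y0)) :=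
    (measure_mono fun ω hω => Or.inl hω).trans (Hnd z' z1' z2' z3')
  have hsh := shift_le (s := s) z2 z2' (by omega : 1 ≤ b) hκ1 (by positivity) hnd'
  have h1 := hm.rA_le_cA (π := PT b) P
  have h2 : ‖z - z'‖ / (2 * κ1) ≤ ε / (2 * C7 b y0) := by
    rw [div_le_iff₀ (by positivity)]
    refine (hzz.trans (min_le_right _ _)).trans (le_of_eq ?_)
    field_simp
  have h3 : C7 b y0 * (∫ ω, rho (XX b s z' ω)
      (cav z (s * ω []) fun j => XX b s z' (sub j ω)) ∂(PT b)) ≤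
      C7 b y0 * (ε / (2 * C7 b y0) + ε / (2 * C7 b y0)) :=
    mul_le_mul_of_nonneg_left (by linarith) hC7.le
  have h4 : C7 b y0 * (ε / (2 * C7 b y0) + ε / (2 * C7 b y0)) = ε := by
    field_simp
    ring
  unfold rA at h1
  linarith

end

end Crest.Agent.R166.TreeT6350
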