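import Crest.Agent.R166.FineStab_798
import Crest.Agent.R166.TreeT6_350
import Crest.Agent.R166.ShapeP_598
import Crest.Agent.R166.ShapeP1_789
import Crest.Agent.R166.FineDet2_522
import Crest.Agent.R166.SpecF3b_798
import Crest.Agent.R166.TreeTL_798
import Crest.Agent.R166.H2a_269
import Crest.Agent.R166.Stab_269

-- ▼ part R166/Close_798
section

/-!
# Row 166, section 32 (graph half, helper798): one-step bounds for the cost and the mean difference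

* `gV_le` : `g_V(p) ≤ 1.1025 ((3/4+1/1000) V + C1 |D|² + C2 P V) + 3 C6 ε + C3 β(p)`;
* `gD_le` : `|g_D(p) - b m² D|² ≤ ...`;
* `closeV` : the closed inequality, state by state.
-/

set_option autoImplicit false
set_option linter.unusedSectionVars false

open Finset

namespace Crest.Agent.R166.Close798

open Crest.Agent.R166 Crest.Agent.R166.Stab269 Crest.Agent.R166.TreeDet350
  Crest.Agent.R166.AvgCon798 Crest.Agent.R166.Rev811 Crest.Agent.R166.MeanEq269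
  Crest.Agent.R166.FineStab798 Crest.Agent.R166.SpecF3
open Crest.Agent.R166.SwP470 (BI NZ bsw)
open Crest.Agent.R166.TreeT6350 (rho_comm rho_triangle cost_change C6 C6_pos)

section det

variable {b : ℕ} {y0 : ℝ} {z m : ℂ}

lemma cost_symm (M : ℝ) (m x y : ℂ) : cost M m (x, y) = cost M m (y, x) := by
  unfold cost
  simp only
  rw [rho_comm x y]
  ring

/-- change of both arguments -/
theorem cost_move (h : Adm b y0 z m) {x y X Y : ℂ} (hx : 0 < x.im) (hy : 0 < y.im)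
    (hX : 0 < X.im) (hY : 0 < Y.im) {ε : ℝ} (h1 : rho x X ≤ ε) (h2 : rho y Y ≤ ε) :
    cost (Mc b y0) m (x, y) ≤ 441 / 400 * cost (Mc b y0) m (X, Y) + 3 * C6 b y0 * ε := by
  have hC := C6_pos h
  have a1 := cost_change h hx hy hY
  have a2 := cost_change h hY hx hX
  rw [cost_symm _ _ Y x, cost_symm _ _ Y X] at a2
  have hε : 0 ≤ ε := (rho_nonneg _ _).trans h1
  have a3 := mul_le_mul_of_nonneg_left h1 hC.le
  have a4 := mul_le_mul_of_nonneg_left h2 hC.le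
  have a5 : 0 ≤ C6 b y0 * ε := by positivity
  nlinarith

theorem cost_le_C3 (h : Adm b y0 z m) {x y : ℂ} (hx : 0 < x.im) (hy : 0 < y.im) :
    cost (Mc b y0) m (x, y) ≤ C3 b y0 := by
  have h1 := h.weight_le_C3 hx.le hy.le
  have h2 := rho_nonneg x y
  have h3 := rho_le_one hx hy
  have h4 := h.C3_pos
  have hM := h.Mc_pos
  unfold cost
  simp only
  have h5 : rho x y ^ 2 ≤ 1 := pow_le_one₀ h2 h3
  calc rho x y ^ 2 * (1 + Mc b y0 * ‖uu m x‖ ^ 2 + Mc b y0 * ‖uu m y‖ ^ 2)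
      ≤ 1 * (1 + Mc b y0 * ‖uu m x‖ ^ 2 + Mc b y0 * ‖uu m y‖ ^ 2) :=
        mul_le_mul_of_nonneg_right h5 (by positivity)
    _ ≤ C3 b y0 := by linarith

/-- change of the difference of the bounded coordinates -/
theorem diff_move (h : Adm b y0 z m) {x y X Y : ℂ} (hx : 0 < x.im) (hy : 0 < y.im)
    (hX : 0 < X.im) (hY : 0 < Y.im) {ε : ℝ} (h1 : rho x X ≤ ε) (h2 : rho y Y ≤ ε) :
    ‖(uu m x - uu m y) - (uu m X - uu m Y)‖ ≤ 6 / y0 * ε := by
  have hy0 := h.hy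
  have e : (uu m x - uu m y) - (uu m X - uu m Y) = (uu m x - uu m X) - (uu m y - uu m Y) := by
    ring
  rw [e]
  refine (norm_sub_le _ _).trans ?_
  have a1 := (h.uu_lip hx hX).trans (mul_le_mul_of_nonneg_left h1 (by positivity))
  have a2 := (h.uu_lip hy hY).trans (mul_le_mul_of_nonneg_left h2 (by positivity))
  have a3 : 6 / y0 * ε = 3 / y0 * ε + 3 / y0 * ε := by ring
  linarith

theorem diff_le (h : Adm b y0 z m) {x y : ℂ} (hx : 0 < x.im) (hy : 0 < y.im) :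
    ‖uu m x - uu m y‖ ≤ 2 * BB y0 := by
  refine (norm_sub_le _ _).trans ?_
  have := h.norm_uu_le hx.le
  have := h.norm_uu_le hy.le
  linarith

end det

section avg

lemma av1_prod {α ι Ω : Type*} [Fintype α] [Fintype ι] [DecidableEq ι] [Fintype Ω]
    (f : α × (ι → Ω) → ℝ) : av1 f = av1 fun a => av fun b => f (a, b) := by
  unfold av1 av
  rw [Fintype.card_prod, Fintype.sum_prod_type, ← Finset.sum_div, div_div]
  push_cast
  rw [mul_comm (Fintype.card α : ℝ)]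

lemma avc_prod {α ι Ω : Type*} [Fintype α] [Fintype ι] [DecidableEq ι] [Fintype Ω]
    (f : α × (ι → Ω) → ℂ) : avc f = avc fun a => avC fun b => f (a, b) := by
  unfold avc avC
  rw [Fintype.card_prod, Fintype.sum_prod_type, ← Finset.sum_div, div_div]
  push_cast
  rw [mul_comm (Fintype.card α : ℂ)]

end avg

section port

variable {n d : ℕ} [NeZero d]

/-- moves -/
abbrev Mv1 (n d : ℕ) [NeZero d] : Type := HE n d × (BI d 1 → HE n d)

/-- the recursion at the energy `z` applied to a pair of families -/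
noncomputable def Fc (z : ℂ) (s : ℝ) (ω : Fin n → ℝ) (P : HE n d → ℂ × ℂ) (mv : Mv1 n d) :
    ℂ × ℂ :=
  (cav z (s * ω mv.1.1) fun j : Fin (d - 1) => (P (mv.2 (kk d j))).1,
    cav z (s * ω mv.1.1) fun j : Fin (d - 1) => (P (mv.2 (kk d j))).2)

open Classical in
/-- fraction of bad moves -/
noncomputable def beta (ε : ℝ) (z z' : ℂ) (s : ℝ) (ω : Fin n → ℝ) (p : Equiv.Perm (HE n d)) : ℝ :=
  ((Finset.univ.filter fun mv : Mv1 n d =>
      ¬ rho (B0 (bsw 1 p mv).1 s ω z' mv.1 0 0)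
        (cav z (s * ω mv.1.1) fun j : Fin (d - 1) =>
          B0 p s ω z' (mv.2 (kk d j)) 0 0) ≤ ε).card : ℝ) / (Fintype.card (Mv1 n d) : ℝ)

lemma beta_nonneg (ε : ℝ) (z z' : ℂ) (s : ℝ) (ω : Fin n → ℝ) (p : Equiv.Perm (HE n d)) :
    0 ≤ beta ε z z' s ω p := by unfold beta; positivity

lemma beta_le_one (ε : ℝ) (z z' : ℂ) (s : ℝ) (ω : Fin n → ℝ) (p : Equiv.Perm (HE n d)) :
    beta ε z z' s ω p ≤ 1 := by
  unfold beta
  apply div_le_one_of_le₀ _ (Nat.cast_nonneg _)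
  exact_mod_cast Finset.card_le_univ _

open Classical in
/-- indicator of bad moves -/
noncomputable def bInd (ε : ℝ) (z z' : ℂ) (s : ℝ) (ω : Fin n → ℝ) (p : Equiv.Perm (HE n d))
    (mv : Mv1 n d) : ℝ :=
  if ¬ rho (B0 (bsw 1 p mv).1 s ω z' mv.1 0 0)
        (cav z (s * ω mv.1.1) fun j : Fin (d - 1) =>
          B0 p s ω z' (mv.2 (kk d j)) 0 0) ≤ ε then 1 else 0

lemma bInd_nonneg (ε : ℝ) (z z' : ℂ) (s : ℝ) (ω : Fin n → ℝ) (p : Equiv.Perm (HE n d))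
    (mv : Mv1 n d) : 0 ≤ bInd ε z z' s ω p mv := by
  unfold bInd; split_ifs <;> norm_num

lemma bInd_bad {ε : ℝ} {z z' : ℂ} {s : ℝ} {ω : Fin n → ℝ} {p : Equiv.Perm (HE n d)}
    {mv : Mv1 n d} (h : ¬ rho (B0 (bsw 1 p mv).1 s ω z' mv.1 0 0)
        (cav z (s * ω mv.1.1) fun j : Fin (d - 1) =>
          B0 p s ω z' (mv.2 (kk d j)) 0 0) ≤ ε) : bInd ε z z' s ω p mv = 1 := by
  unfold bInd
  rw [if_pos h]

lemma av1_bInd (ε : ℝ) (z z' : ℂ) (s : ℝ) (ω : Fin n → ℝ) (p : Equiv.Perm (HE n d)) :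
    av1 (bInd ε z z' s ω p) = beta ε z z' s ω p := by
  unfold av1 bInd beta
  rw [Finset.sum_ite, Finset.sum_const_zero, add_zero, Finset.sum_const, nsmul_eq_mul, mul_one]

variable {b : ℕ} {y0 : ℝ} {z m : ℂ}

/-- the one-step mean of the cost -/
noncomputable def gV (y0 : ℝ) (m : ℂ) (s : ℝ) (ω : Fin n → ℝ) (z z' : ℂ)
    (p : Equiv.Perm (HE n d)) : ℝ :=
  Sec269.gAvg (Finset.univ : Finset (Mv1 n d)) Prod.fst (bsw 1)
    (fun p h => cost (Mc (d - 1) y0) m (PP p s ω z z' h)) p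

/-- the mean of the cost -/
noncomputable def Vc (y0 : ℝ) (m : ℂ) (s : ℝ) (ω : Fin n → ℝ) (z z' : ℂ)
    (p : Equiv.Perm (HE n d)) : ℝ := VV (d - 1) y0 m (PP p s ω z z')

/-- the bad fraction -/
noncomputable def Pc (y0 : ℝ) (m : ℂ) (s : ℝ) (ω : Fin n → ℝ) (z z' : ℂ)
    (p : Equiv.Perm (HE n d)) : ℝ := pp (d - 1) y0 m (PP p s ω z z')

/-- the mean difference -/
noncomputable def Dc (m : ℂ) (s : ℝ) (ω : Fin n → ℝ) (z z' : ℂ)
    (p : Equiv.Perm (HE n d)) : ℂ := DD m (PP p s ω z z')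

theorem isPort_bsw {p : Equiv.Perm (HE n d)} (hp : IsPort p) (mv : Mv1 n d) :
    IsPort (bsw 1 p mv).1 :=
  mem_Ports.1 ((SwP470.moveSystem n d 1 le_rfl).mem_left p (mem_Ports.2 hp) mv
    (Finset.mem_univ _))

theorem gV_le (hn : 0 < n) (h : Adm (d - 1) y0 z m) (hz : 0 < z.im) {z' : ℂ} (hz' : 0 < z'.im)
    {s : ℝ} {ω : Fin n → ℝ} (hs : |s| ≤ rr (d - 1) y0) (hω : ∀ v, |ω v| ≤ 1)
    {p : Equiv.Perm (HE n d)} (hp : IsPort p) {ε : ℝ} (hε : 0 ≤ ε) :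
    gV y0 m s ω z z' p ≤ 441 / 400 * ((3 / 4 + 1 / 1000) * Vc y0 m s ω z z' p +
        C1 y0 * ‖Dc m s ω z z' p‖ ^ 2 +
        C2 (d - 1) y0 * (Pc y0 m s ω z z' p * Vc y0 m s ω z z' p)) +
      3 * C6 (d - 1) y0 * ε + C3 (d - 1) y0 * (beta ε z z s ω p + beta ε z z' s ω p) := by
  have : Nonempty (HE n d) := ⟨(⟨0, hn⟩, ⟨0, Nat.pos_of_ne_zero (NeZero.ne d)⟩)⟩
  have hC3 := h.C3_pos
  have hC6 := C6_pos h
  have e0 : gV y0 m s ω z z' p = av1 fun mv : Mv1 n d =>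
      cost (Mc (d - 1) y0) m (PP (bsw 1 p mv).1 s ω z z' mv.1) := by
    unfold gV Sec269.gAvg av1
    rw [Finset.card_univ]
  rw [e0]
  have hP1 : ∀ x, 0 < (PP p s ω z z' x).1.im := fun x => MuU395.im_B0_pos hp s ω hz x 0
  have hP2 : ∀ x, 0 < (PP p s ω z z' x).2.im := fun x => MuU395.im_B0_pos hp s ω hz' x 0
  have hpt : ∀ mv : Mv1 n d, cost (Mc (d - 1) y0) m (PP (bsw 1 p mv).1 s ω z z' mv.1) ≤
      441 / 400 * cost (Mc (d - 1) y0) m (Fc z s ω (PP p s ω z z') mv) +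
        (3 * C6 (d - 1) y0 * ε +
          C3 (d - 1) y0 * (bInd ε z z s ω p mv + bInd ε z z' s ω p mv)) := by
    intro mv
    have hp' := isPort_bsw hp mv
    have q1 := MuU395.im_B0_pos hp' s ω hz mv.1 0
    have q2 := MuU395.im_B0_pos hp' s ω hz' mv.1 0
    have q3 := h.cav_im_pos (s * ω mv.1.1) (fun j : Fin (d - 1) =>
      (PP p s ω z z' (mv.2 (kk d j))).1) fun j => hP1 _
    have q4 := h.cav_im_pos (s * ω mv.1.1) (fun j : Fin (d - 1) =>
      (PP p s ω z z' (mv.2 (kk d j))).2) fun j => hP2 _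
    have n0 : 0 ≤ 441 / 400 * cost (Mc (d - 1) y0) m (Fc z s ω (PP p s ω z z') mv) :=
      mul_nonneg (by norm_num) (cost_nonneg h.Mc_pos.le _)
    have n1 : 0 ≤ 3 * C6 (d - 1) y0 * ε := by positivity
    have n2 := bInd_nonneg ε z z s ω p mv
    have n3 := bInd_nonneg ε z z' s ω p mv
    have hle : cost (Mc (d - 1) y0) m (PP (bsw 1 p mv).1 s ω z z' mv.1) ≤ C3 (d - 1) y0 :=
      cost_le_C3 h q1 q2
    by_cases h1 : rho (B0 (bsw 1 p mv).1 s ω z mv.1 0 0)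
        (cav z (s * ω mv.1.1) fun j : Fin (d - 1) => B0 p s ω z (mv.2 (kk d j)) 0 0) ≤ ε
    · by_cases h2 : rho (B0 (bsw 1 p mv).1 s ω z' mv.1 0 0)
          (cav z (s * ω mv.1.1) fun j : Fin (d - 1) => B0 p s ω z' (mv.2 (kk d j)) 0 0) ≤ ε
      · have := cost_move h q1 q2 q3 q4 h1 h2
        have n4 : 0 ≤ C3 (d - 1) y0 * (bInd ε z z s ω p mv + bInd ε z z' s ω p mv) :=
          mul_nonneg hC3.le (add_nonneg n2 n3)
        unfold Fc
        unfold PP at this ⊢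
        linarith
      · have h3 : bInd ε z z' s ω p mv = 1 := bInd_bad h2
        have n4 : 0 ≤ C3 (d - 1) y0 * bInd ε z z s ω p mv := mul_nonneg hC3.le n2
        rw [h3]
        linarith
    · have h3 : bInd ε z z s ω p mv = 1 := bInd_bad h1
      have n4 : 0 ≤ C3 (d - 1) y0 * bInd ε z z' s ω p mv := mul_nonneg hC3.le n3
      rw [h3]
      linarith
  refine (av1_mono hpt).trans ?_
  have hne : Nonempty (Mv1 n d) := inferInstance
  rw [av1_add, av1_const_mul, av1_add, av1_const, av1_const_mul, av1_add, av1_bInd, av1_bInd,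
    av1_prod]
  have h5 : av1 (fun a : HE n d => av fun e : BI d 1 → HE n d =>
      cost (Mc (d - 1) y0) m (Fc z s ω (PP p s ω z z') (a, e))) ≤
      (3 / 4 + 1 / 1000) * Vc y0 m s ω z z' p + C1 y0 * ‖Dc m s ω z z' p‖ ^ 2 +
        C2 (d - 1) y0 * (Pc y0 m s ω z z' p * Vc y0 m s ω z z' p) := by
    refine (av1_mono fun a => ?_).trans (le_of_eq (av1_const _))
    have ht : |s * ω a.1| ≤ rr (d - 1) y0 := by
      rw [abs_mul]
      calc |s| * |ω a.1| ≤ |s| * 1 := mul_le_mul_of_nonneg_left (hω _) (abs_nonneg _)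
        _ ≤ rr (d - 1) y0 := by linarith
    have h6 := cost_avg h ht hP1 hP2
    rw [← av_comp (kk_injective d)] at h6
    exact h6
  have h7 := mul_le_mul_of_nonneg_left h5 (show (0 : ℝ) ≤ 441 / 400 by norm_num)
  linarith

theorem gD_le (hn : 0 < n) (h : Adm (d - 1) y0 z m) (hz : 0 < z.im) {z' : ℂ} (hz' : 0 < z'.im)
    {s : ℝ} {ω : Fin n → ℝ} (hs : |s| ≤ rr (d - 1) y0) (hω : ∀ v, |ω v| ≤ 1)
    {p : Equiv.Perm (HE n d)} (hp : IsPort p) {ε : ℝ} (hε : 0 ≤ ε) (hε1 : ε ≤ 1) :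
    ‖gD m s ω z z' p - ((d - 1 : ℕ) : ℂ) * m ^ 2 * Dc m s ω z z' p‖ ^ 2 ≤
      2 * (1 / 10 ^ 6 * y0 ^ 4 * Vc y0 m s ω z z' p +
        72 * ((d - 1 : ℕ) : ℝ) ^ 4 / y0 ^ 2 * (Pc y0 m s ω z z' p * Vc y0 m s ω z z' p)) +
      (144 / y0 ^ 2 * ε + 128 * BB y0 ^ 2 * (beta ε z z s ω p + beta ε z z' s ω p)) := by
  have : Nonempty (HE n d) := ⟨(⟨0, hn⟩, ⟨0, Nat.pos_of_ne_zero (NeZero.ne d)⟩)⟩
  have hne : Nonempty (Mv1 n d) := inferInstance
  have hy := h.hy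
  have hBB := BB_pos hy
  have hP1 : ∀ x, 0 < (PP p s ω z z' x).1.im := fun x => MuU395.im_B0_pos hp s ω hz x 0
  have hP2 : ∀ x, 0 < (PP p s ω z z' x).2.im := fun x => MuU395.im_B0_pos hp s ω hz' x 0
  have hV := VV_nonneg h (PP p s ω z z')
  have hpn := pp_nonneg (d - 1) y0 m (PP p s ω z z')
  set β := beta ε z z s ω p + beta ε z z' s ω p with hβ
  have hβ0 : 0 ≤ β := add_nonneg (beta_nonneg _ _ _ _ _ _) (beta_nonneg _ _ _ _ _ _)
  have hβ2 : β ≤ 2 := by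
    have := beta_le_one ε z z s ω p
    have := beta_le_one ε z z' s ω p
    rw [hβ]; linarith
  -- the recursion part
  set G : ℂ := avc fun mv : Mv1 n d => uu m (Fc z s ω (PP p s ω z z') mv).1 -
    uu m (Fc z s ω (PP p s ω z z') mv).2 with hG
  have e0 : gD m s ω z z' p = avc fun mv : Mv1 n d => fD m s ω z z' (bsw 1 p mv).1 mv.1 := by
    unfold gD avc
    rw [Finset.card_univ]
  have t1 : ‖gD m s ω z z' p - G‖ ≤ 6 / y0 * ε + 4 * BB y0 * β := by
    rw [e0, hG, avc_sub]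
    refine (norm_avc_le _).trans ?_
    have hpt : ∀ mv : Mv1 n d, ‖fD m s ω z z' (bsw 1 p mv).1 mv.1 -
        (uu m (Fc z s ω (PP p s ω z z') mv).1 - uu m (Fc z s ω (PP p s ω z z') mv).2)‖ ≤
        6 / y0 * ε + 4 * BB y0 * (bInd ε z z s ω p mv + bInd ε z z' s ω p mv) := by
      intro mv
      have hp' := isPort_bsw hp mv
      have q1 := MuU395.im_B0_pos hp' s ω hz mv.1 0
      have q2 := MuU395.im_B0_pos hp' s ω hz' mv.1 0
      have q3 := h.cav_im_pos (s * ω mv.1.1) (fun j : Fin (d - 1) =>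
        (PP p s ω z z' (mv.2 (kk d j))).1) fun j => hP1 _
      have q4 := h.cav_im_pos (s * ω mv.1.1) (fun j : Fin (d - 1) =>
        (PP p s ω z z' (mv.2 (kk d j))).2) fun j => hP2 _
      have n1 : 0 ≤ 6 / y0 * ε := by positivity
      have n2 := bInd_nonneg ε z z s ω p mv
      have n3 := bInd_nonneg ε z z' s ω p mv
      have hle : ‖fD m s ω z z' (bsw 1 p mv).1 mv.1 -
        (uu m (Fc z s ω (PP p s ω z z') mv).1 - uu m (Fc z s ω (PP p s ω z z') mv).2)‖ ≤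
          4 * BB y0 := by
        refine (norm_sub_le _ _).trans ?_
        have a1 := fD_le h hp' s ω hz hz' mv.1
        have a2 := diff_le h q3 q4
        unfold Fc
        linarith
      by_cases h1 : rho (B0 (bsw 1 p mv).1 s ω z mv.1 0 0)
          (cav z (s * ω mv.1.1) fun j : Fin (d - 1) => B0 p s ω z (mv.2 (kk d j)) 0 0) ≤ ε
      · by_cases h2 : rho (B0 (bsw 1 p mv).1 s ω z' mv.1 0 0)
            (cav z (s * ω mv.1.1) fun j : Fin (d - 1) => B0 p s ω z' (mv.2 (kk d j)) 0 0) ≤ ε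
        · have := diff_move h q1 q2 q3 q4 h1 h2
          have n4 : 0 ≤ 4 * BB y0 * (bInd ε z z s ω p mv + bInd ε z z' s ω p mv) :=
            mul_nonneg (by positivity) (add_nonneg n2 n3)
          unfold fD Fc
          unfold PP at this ⊢
          linarith
        · have h3 : bInd ε z z' s ω p mv = 1 := bInd_bad h2
          have n4 : 0 ≤ 4 * BB y0 * bInd ε z z s ω p mv := mul_nonneg (by positivity) n2
          rw [h3]
          linarith
      · have h3 : bInd ε z z s ω p mv = 1 := bInd_bad h1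
        have n4 : 0 ≤ 4 * BB y0 * bInd ε z z' s ω p mv := mul_nonneg (by positivity) n3
        rw [h3]
        linarith
    refine (av1_mono hpt).trans (le_of_eq ?_)
    rw [av1_add, av1_const, av1_const_mul, av1_add, av1_bInd, av1_bInd]
  have t2 : ‖G - ((d - 1 : ℕ) : ℂ) * m ^ 2 * Dc m s ω z z' p‖ ≤
      4000 * ((d - 1 : ℕ) : ℝ) ^ 2 * rr (d - 1) y0 * Real.sqrt (Vc y0 m s ω z z' p) +
        6 / y0 * ((d - 1 : ℕ) : ℝ) ^ 2 *
          Real.sqrt (Pc y0 m s ω z z' p * Vc y0 m s ω z z' p) := by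
    rw [hG, avc_prod]
    refine (Glue269.norm_avc_sub_le _ _).trans ?_
    refine (av1_mono fun a => ?_).trans (le_of_eq (av1_const _))
    have ht : |s * ω a.1| ≤ rr (d - 1) y0 := by
      rw [abs_mul]
      calc |s| * |ω a.1| ≤ |s| * 1 := mul_le_mul_of_nonneg_left (hω _) (abs_nonneg _)
        _ ≤ rr (d - 1) y0 := by linarith
    have h6 := mean_avg h ht hP1 hP2
    rw [← avC_comp (kk_injective d)] at h6
    exact h6
  have t3 : ‖gD m s ω z z' p - ((d - 1 : ℕ) : ℂ) * m ^ 2 * Dc m s ω z z' p‖ ≤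
      (6 / y0 * ε + 4 * BB y0 * β) +
      (4000 * ((d - 1 : ℕ) : ℝ) ^ 2 * rr (d - 1) y0 * Real.sqrt (Vc y0 m s ω z z' p) +
        6 / y0 * ((d - 1 : ℕ) : ℝ) ^ 2 *
          Real.sqrt (Pc y0 m s ω z z' p * Vc y0 m s ω z z' p)) := by
    have e : gD m s ω z z' p - ((d - 1 : ℕ) : ℂ) * m ^ 2 * Dc m s ω z z' p =
        (gD m s ω z z' p - G) + (G - ((d - 1 : ℕ) : ℂ) * m ^ 2 * Dc m s ω z z' p) := by ring
    rw [e]
    exact (norm_add_le _ _).trans (add_le_add t1 t2)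
  set S := Real.sqrt (Vc y0 m s ω z z' p) with hS
  set T := Real.sqrt (Pc y0 m s ω z z' p * Vc y0 m s ω z z' p) with hT
  have hS2 : S ^ 2 = Vc y0 m s ω z z' p := Real.sq_sqrt hV
  have hT2 : T ^ 2 = Pc y0 m s ω z z' p * Vc y0 m s ω z z' p :=
    Real.sq_sqrt (mul_nonneg hpn hV)
  have hr0 := h.rr_pos
  have hy1 := h.y0_lt_one
  have h3 : 4000 * ((d - 1 : ℕ) : ℝ) ^ 2 * rr (d - 1) y0 ≤ 1 / 2000 * y0 ^ 2 := by
    have h4 := h.b_rr_le
    have h5 : y0 ^ 6 ≤ y0 ^ 2 := pow_le_pow_of_le_one hy.le hy1.le (by norm_num)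
    nlinarith
  have h4 : (4000 * ((d - 1 : ℕ) : ℝ) ^ 2 * rr (d - 1) y0) ^ 2 ≤ (1 / 2000 * y0 ^ 2) ^ 2 :=
    pow_le_pow_left₀ (by positivity) h3 2
  have h5 : (4000 * ((d - 1 : ℕ) : ℝ) ^ 2 * rr (d - 1) y0) ^ 2 * S ^ 2 ≤
      1 / 4000000 * y0 ^ 4 * S ^ 2 := by
    apply mul_le_mul_of_nonneg_right _ (sq_nonneg _)
    have e : (1 / 2000 * y0 ^ 2) ^ 2 = 1 / 4000000 * y0 ^ 4 := by ring
    rw [e] at h4
    exact h4
  set a1 := 6 / y0 * ε with ha1
  set a2 := 4 * BB y0 * β with ha2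
  set a3 := 4000 * ((d - 1 : ℕ) : ℝ) ^ 2 * rr (d - 1) y0 * S with ha3
  set a4 := 6 / y0 * ((d - 1 : ℕ) : ℝ) ^ 2 * T with ha4
  have h6 : (a1 + a2 + (a3 + a4)) ^ 2 ≤ 4 * (a1 ^ 2 + a2 ^ 2 + a3 ^ 2 + a4 ^ 2) := by
    nlinarith [sq_nonneg (a1 - a2), sq_nonneg (a1 - a3), sq_nonneg (a1 - a4),
      sq_nonneg (a2 - a3), sq_nonneg (a2 - a4), sq_nonneg (a3 - a4)]
  refine (pow_le_pow_left₀ (norm_nonneg _) t3 2).trans (h6.trans ?_)
  have b1 : a1 ^ 2 ≤ 36 / y0 ^ 2 * ε := by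
    have e : a1 ^ 2 = 36 / y0 ^ 2 * (ε * ε) := by rw [ha1]; field_simp; ring
    rw [e]
    apply mul_le_mul_of_nonneg_left _ (by positivity)
    nlinarith
  have b2 : a2 ^ 2 ≤ 32 * BB y0 ^ 2 * β := by
    have e : a2 ^ 2 = 16 * BB y0 ^ 2 * (β * β) := by rw [ha2]; ring
    rw [e]
    have e2 : 32 * BB y0 ^ 2 * β = 16 * BB y0 ^ 2 * (2 * β) := by ring
    rw [e2]
    apply mul_le_mul_of_nonneg_left _ (by positivity)
    nlinarith
  have b3 : a3 ^ 2 ≤ 1 / 4000000 * y0 ^ 4 * Vc y0 m s ω z z' p := by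
    have e : a3 ^ 2 = (4000 * ((d - 1 : ℕ) : ℝ) ^ 2 * rr (d - 1) y0) ^ 2 * S ^ 2 := by
      rw [ha3]; ring
    rw [e, ← hS2]
    exact h5
  have b4 : a4 ^ 2 = 36 * ((d - 1 : ℕ) : ℝ) ^ 4 / y0 ^ 2 *
      (Pc y0 m s ω z z' p * Vc y0 m s ω z z' p) := by
    rw [ha4, ← hT2]; field_simp; ring
  have b5 : 0 ≤ y0 ^ 4 * Vc y0 m s ω z z' p := by
    have : 0 ≤ Vc y0 m s ω z z' p := hV
    positivity
  have b6 : 144 / y0 ^ 2 * ε = 4 * (36 / y0 ^ 2 * ε) := by ring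
  rw [b4, b6]
  have b7 : 4 * (36 * ((d - 1 : ℕ) : ℝ) ^ 4 / y0 ^ 2 *
      (Pc y0 m s ω z z' p * Vc y0 m s ω z z' p)) = 2 * (72 * ((d - 1 : ℕ) : ℝ) ^ 4 / y0 ^ 2 *
      (Pc y0 m s ω z z' p * Vc y0 m s ω z z' p)) := by ring
  linarith

end port

end Crest.Agent.R166.Close798
end

-- ▼ part R166/OneLev_598
section

/-!
# Row 166, section 32 (helper598): one resampling with fine inputs

`tree_fine` (depth `L + 1`) and `one_lev` (depth `1`): if all chosen blocks are `κ`-fine, with small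
off-diagonal cavity entries and weakly coupled, the new cavity block at the root is `Near` the
diagonal matrix of the scalar tree recursion of the OLD cavity values.
-/

set_option autoImplicit false
set_option linter.unusedSectionVars false

open Matrix Finset

namespace Crest.Agent.R166.OneLev598

open Crest.Agent.R166 Crest.Agent.R166.Stab269 Crest.Agent.R166.TreeT327
  Crest.Agent.R166.TreeF598 Crest.Agent.R166.DecP789 Crest.Agent.R166.ShapeT598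
  Crest.Agent.R166.Spec30 Crest.Agent.R166.ShapeP598
open Crest.Agent.R166.SwP470 (BVal bv TL BI NZ NZw wd rt tau ab np)
open Crest.Agent.R166.Res598 (Siegel Near qf imM nq)
open Crest.Agent.R166.Dec598 (treeOut siegel_treeOut siegel_diagonal near_treeOut near_trans)
open Crest.Agent.R166.Off522 (Fine)
open Crest.Agent.R166.Fine522 (kap1 kap1_pos)

section diag

variable {ι : Type*} [Fintype ι] [DecidableEq ι]

/-- two diagonal matrices -/
theorem near_diag {x x' : ι → ℂ} (hx : ∀ i, 0 < (x i).im) {ε : ℝ} (hε : 0 ≤ ε)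
    (h : ∀ i, ‖x' i - x i‖ ≤ ε * (x i).im) :
    Near ε (Matrix.diagonal x) (Matrix.diagonal x') := by
  refine ⟨Matrix.diagonal_transpose x', fun u v => ?_⟩
  have e1 : u ⬝ᵥ ((Matrix.diagonal x' - Matrix.diagonal x) *ᵥ v) =
      ∑ i, u i * (x' i - x i) * v i := by
    rw [Matrix.diagonal_sub, dotProduct]
    refine Finset.sum_congr rfl fun i _ => ?_
    rw [Matrix.mulVec_diagonal]
    ring
  rw [e1]
  have e2 : ∀ w : ι → ℂ, nq (imM (Matrix.diagonal x)) w ^ 2 = ∑ i, (x i).im * ‖w i‖ ^ 2 := by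
    intro w
    rw [Res598.nq_sq (siegel_diagonal hx).pos.posSemidef, Dec598.qf_diagonal]
  have e3 : ∀ w : ι → ℂ, 0 ≤ ∑ i, (x i).im * ‖w i‖ ^ 2 := fun w =>
    Finset.sum_nonneg fun i _ => mul_nonneg (hx i).le (sq_nonneg _)
  have h1 : ‖∑ i, u i * (x' i - x i) * v i‖ ≤
      ε * ∑ i, (Real.sqrt (x i).im * ‖u i‖) * (Real.sqrt (x i).im * ‖v i‖) := by
    refine (norm_sum_le _ _).trans ?_
    rw [Finset.mul_sum]
    refine Finset.sum_le_sum fun i _ => ?_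
    rw [norm_mul, norm_mul]
    have h2 := h i
    have h3 : Real.sqrt (x i).im * Real.sqrt (x i).im = (x i).im := Real.mul_self_sqrt (hx i).le
    calc ‖u i‖ * ‖x' i - x i‖ * ‖v i‖ ≤ ‖u i‖ * (ε * (x i).im) * ‖v i‖ := by
          apply mul_le_mul_of_nonneg_right _ (norm_nonneg _)
          exact mul_le_mul_of_nonneg_left h2 (norm_nonneg _)
      _ = ‖u i‖ * (ε * (Real.sqrt (x i).im * Real.sqrt (x i).im)) * ‖v i‖ := by rw [h3]
      _ = ε * ((Real.sqrt (x i).im * ‖u i‖) * (Real.sqrt (x i).im * ‖v i‖)) := by ring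
  refine h1.trans ?_
  rw [mul_assoc]
  refine mul_le_mul_of_nonneg_left ?_ hε
  have h4 := Finset.sum_mul_sq_le_sq_mul_sq (Finset.univ : Finset ι)
    (fun i => Real.sqrt (x i).im * ‖u i‖) (fun i => Real.sqrt (x i).im * ‖v i‖)
  have h5 : ∀ w : ι → ℂ, ∑ i, (Real.sqrt (x i).im * ‖w i‖) ^ 2 = nq (imM (Matrix.diagonal x)) w ^ 2 := by
    intro w
    rw [e2]
    refine Finset.sum_congr rfl fun i _ => ?_
    rw [mul_pow, Real.sq_sqrt (hx i).le]
  rw [h5, h5, ← mul_pow] at h4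
  exact abs_le_of_sq_le_sq' h4 (mul_nonneg (Res598.nq_nonneg _ _) (Res598.nq_nonneg _ _)) |>.2

end diag

set_option synthInstance.maxSize 4000
set_option synthInstance.maxHeartbeats 400000
set_option maxHeartbeats 1000000

variable {n d : ℕ} [NeZero d] {p : Equiv.Perm (HE n d)} {h0 : HE n d} {L : ℕ}

lemma fine_im {κ : ℝ} {Z : Matrix (Fin 2) (Fin 2) ℂ} (h : Fine κ Z) (i : Fin 2) :
    κ ≤ (Z i i).im := by
  have h1 := h.im (Pi.single i 1)
  rw [Shape395.qf_single] at h1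
  have h2 : ∑ j, ‖(Pi.single i (1 : ℂ) : Fin 2 → ℂ) j‖ ^ 2 = 1 := by
    rw [Finset.sum_eq_single i]
    · simp
    · intro j _ hj
      simp [hj]
    · simp
  rw [h2, mul_one] at h1
  exact h1

/-- **one resampling with fine inputs**, general form -/
theorem tree_fine (hp : IsPort p) {b : BI d (L + 1) → HE n d} (h : BVal (L + 1) p h0 b)
    (s : ℝ) (ω : Fin n → ℝ) {z : ℂ} (hz : 0 < z.im) {κ : ℝ}
    (hf : ∀ i, Fine κ (BE p s ω z (b i))) {τ δ : ℝ}
    (hτ : ∀ i, ‖B0 p s ω z (b i) 0 1‖ ≤ τ) (hτ2 : τ ≤ kap1 2 κ / 2)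
    (hδ : 2 / kap1 2 κ ^ 2 * (∑ jk ∈ (univ : Finset (BI d (L + 1))).offDiag,
      ‖B0 p s ω z (b jk.1) 0 1‖ * ‖B0 p s ω z (b jk.2) 0 1‖) ≤ δ) (hδ2 : δ ≤ 1 / 2)
    (hE : CE κ * cEs (L + 1) p s ω z h0 ∅ b ≤ 1 / 2) :
    Near (2 * (τ / kap1 2 κ) ^ 2 + 4 * δ + 8 * (CE κ * cEs (L + 1) p s ω z h0 ∅ b))
      (Matrix.diagonal ![
        treeF z (L + 1) (Vt p h0 (L + 1) s ω)
          ((fun i => B0 p s ω z (b i) 0 0) ∘ (layE (L + 1)).symm) false,
        treeF z (L + 1) (Vt p h0 (L + 1) s ω)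
          ((fun i => B0 p s ω z (b i) 0 0) ∘ (layE (L + 1)).symm) true])
      (B0 (np p h0 b) s ω z h0) := by
  -- the index type is nonempty or the statement is about empty trees; get `0 < κ` from `tree`
  rcases isEmpty_or_nonempty (BI d (L + 1)) with hemp | ⟨⟨i0⟩⟩
  · -- no leaves: both sides are equal up to the decoupling
    have hκ1 : ∃ c : ℝ, 0 < c := ⟨1, one_pos⟩
    have hcE : cE (S0t p h0 L) (RR p s ω z) p b ∅ 1 ≤ 0 := by
      unfold cE
      have e1 : (∅ᶜ : Finset (BI d (L + 1))) = ∅ := Finset.eq_empty_of_isEmpty _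
      rw [e1]
      simp
    obtain ⟨xh, g1, g2, g3⟩ := tree_good hp h s ω hz (c := 1) (h1 := 1) one_pos one_pos
      (fun j => hemp.elim j) (fun j => hemp.elim j) (fun j => hemp.elim j)
      (fun j => hemp.elim j) (δ := 0) (κ := 0) (by
        rw [Finset.eq_empty_of_isEmpty (univ : Finset (BI d (L + 1))).offDiag]
        simp) (by norm_num) hcE (by norm_num)
    have e2 : xh = fun i => B0 p s ω z (b i) 0 0 := funext fun i => hemp.elim i
    rw [e2] at g3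
    have hδ0 : 0 ≤ δ := by
      refine le_trans ?_ hδ
      rw [Finset.eq_empty_of_isEmpty (univ : Finset (BI d (L + 1))).offDiag]
      simp
    refine g3.mono ?_
    have e3 : cEs (L + 1) p s ω z h0 ∅ b = 0 := by
      unfold cEs
      have e1 : (∅ᶜ : Finset (BI d (L + 1))) = ∅ := Finset.eq_empty_of_isEmpty _
      rw [e1]
      simp
    rw [e3]
    have : 0 ≤ (τ / kap1 2 κ) ^ 2 := sq_nonneg _
    linarith
  have hκ : 0 < κ := (hf i0).pos
  set κ' := kap1 2 κ with hκ'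
  have hk : 0 < κ' := kap1_pos hκ
  have hf' : ∀ i, Fine κ' (B0 p s ω z (b i)) := fun i => (hf i).cavB
  have hτ0 : 0 ≤ τ := (norm_nonneg _).trans (hτ i0)
  have hδ0 : 0 ≤ δ := by
    refine le_trans ?_ hδ
    positivity
  set S := cEs (L + 1) p s ω z h0 ∅ b with hS
  have hS0 : 0 ≤ S := cEs_nonneg _ _ _ _ _ _ _ _
  have hCE := CE_pos hκ
  obtain ⟨xh, g1, g2, g3⟩ := tree_good hp h s ω hz hκ hk
    (fun j y => (hf j).im y) (fun j => fine_im (hf' j) 0) (fun j => fine_im (hf' j) 1)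
    (fun j => (hτ j).trans hτ2) hδ hδ2 (cE_le hκ s ω z ∅ b) hE
  set X : BI d (L + 1) → ℂ := fun i => B0 p s ω z (b i) 0 0 with hX
  have hXi : ∀ i, κ' ≤ (X i).im := fun i => fine_im (hf' i) 0
  have hXp : ∀ i, 0 < (X i).im := fun i => lt_of_lt_of_le hk (hXi i)
  have hxp : ∀ i, 0 < (xh i).im := fun i => lt_of_lt_of_le (by linarith) (g2 i)
  set e1 := (τ / κ') ^ 2 with he1
  have he0 : 0 ≤ e1 := sq_nonneg _
  have he14 : e1 ≤ 1 / 4 := by
    rw [he1]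
    have : τ / κ' ≤ 1 / 2 := by
      rw [div_le_iff₀ hk]; linarith
    have h0' : 0 ≤ τ / κ' := div_nonneg hτ0 hk.le
    nlinarith
  have hd1 : Near e1 (Matrix.diagonal X) (Matrix.diagonal xh) := by
    apply near_diag hXp he0
    intro i
    refine (g1 i).trans ?_
    have h1 : ‖B0 p s ω z (b i) 0 1‖ ^ 2 ≤ τ ^ 2 := pow_le_pow_left₀ (norm_nonneg _) (hτ i) 2
    calc ‖B0 p s ω z (b i) 0 1‖ ^ 2 / κ' ≤ τ ^ 2 / κ' := div_le_div_of_nonneg_right h1 hk.le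
      _ = e1 * κ' := by rw [he1]; field_simp
      _ ≤ e1 * (X i).im := mul_le_mul_of_nonneg_left (hXi i) he0
  have hRT : Siegel (Res789.Res (hTree (Vt p h0 (L + 1) s ω)) z) :=
    (Res789.Res_sieg (hTree_symm _) hz).siegel
  have hd2 := near_treeOut he0 (by linarith) hRT (leafT L) (siegel_diagonal hXp) hd1
  have hM := siegel_treeOut hRT (leafT L) (siegel_diagonal hXp)
  have hd3 := hd2.sub ![root L false, root L true] hM
  rw [treeOut_leafT hz L _ hXp, treeOut_leafT hz L _ hxp] at hd3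
  have hd4 := hd3.mono (Dec598.div_one_sub_le he0 (by linarith : e1 ≤ 1 / 2))
  have hFp : ∀ j, 0 < ((![treeF z (L + 1) (Vt p h0 (L + 1) s ω) (X ∘ (layE (L + 1)).symm) false,
      treeF z (L + 1) (Vt p h0 (L + 1) s ω) (X ∘ (layE (L + 1)).symm) true] : Fin 2 → ℂ) j).im := by
    intro j
    fin_cases j
    · exact treeF_im_pos hz (L + 1) _ (fun q => hXp _) false
    · exact treeF_im_pos hz (L + 1) _ (fun q => hXp _) true
  have hd5 := near_trans (by linarith : 0 ≤ 2 * e1) (by positivity : 0 ≤ 2 * δ + 4 * (CE κ * S))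
    (siegel_diagonal hFp) hd4 g3
  refine hd5.mono ?_
  have hP : 0 ≤ 2 * δ + 4 * (CE κ * S) := by positivity
  nlinarith

/-! ### depth one -/

/-- the scalar one-level map with nonzero letters -/
noncomputable def cavN (z : ℂ) (v : ℝ) (x : NZ d → ℂ) : ℂ := -(z - v + ∑ a, x a)⁻¹

lemma cavN_im_pos {z : ℂ} (hz : 0 < z.im) (v : ℝ) {x : NZ d → ℂ} (hx : ∀ a, 0 < (x a).im) :
    0 < (cavN z v x).im := step_im_pos hz v hx

lemma layE_one_symm (r : Bool) (a : NZ d) :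
    (layE (ρ := Bool) (β := NZ d) 1).symm (r, a) = (r, fun _ => a) := by
  rw [Equiv.symm_apply_eq]
  rfl

lemma treeF_one (z : ℂ) (V : Tr Bool (NZ d) 1 → ℝ) (x : BI d 1 → ℂ) (r : Bool) :
    treeF z 1 V (x ∘ (layE 1).symm) r =
      cavN z (V (root 0 r)) (fun a => x (r, fun _ => a)) := by
  rw [treeF_succ]
  show -(z - V (Sum.inr r) + ∑ a : NZ d, (x ∘ (layE 1).symm) (r, a))⁻¹ = _
  have h1 : ∀ a : NZ d, (x ∘ (layE 1).symm) (r, a) = x (r, fun _ => a) := fun a => by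
    rw [Function.comp_apply, layE_one_symm]
  unfold cavN
  rw [Finset.sum_congr rfl fun a _ => h1 a]
  rfl

/-- **depth one** -/
theorem one_lev (hp : IsPort p) {b : BI d 1 → HE n d} (h : BVal 1 p h0 b)
    (s : ℝ) (ω : Fin n → ℝ) {z : ℂ} (hz : 0 < z.im) {κ : ℝ}
    (hf : ∀ i, Fine κ (BE p s ω z (b i))) {τ δ : ℝ}
    (hτ : ∀ i, ‖B0 p s ω z (b i) 0 1‖ ≤ τ) (hτ2 : τ ≤ kap1 2 κ / 2)
    (hδ : 2 / kap1 2 κ ^ 2 * (∑ jk ∈ (univ : Finset (BI d 1)).offDiag,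
      ‖B0 p s ω z (b jk.1) 0 1‖ * ‖B0 p s ω z (b jk.2) 0 1‖) ≤ δ) (hδ2 : δ ≤ 1 / 2)
    (hE : CE κ * cEs 1 p s ω z h0 ∅ b ≤ 1 / 2) :
    Near (2 * (τ / kap1 2 κ) ^ 2 + 4 * δ + 8 * (CE κ * cEs 1 p s ω z h0 ∅ b))
      (Matrix.diagonal ![
        cavN z (s * ω h0.1) (fun a => B0 p s ω z (b (false, fun _ => a)) 0 0),
        cavN z (s * ω (p h0).1) (fun a => B0 p s ω z (b (true, fun _ => a)) 0 0)])
      (B0 (np p h0 b) s ω z h0) := by
  have key := tree_fine (L := 0) hp h s ω hz hf hτ hτ2 hδ hδ2 hE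
  have e1 := treeF_one z (Vt p h0 1 s ω) (fun i => B0 p s ω z (b i) 0 0) false
  have e2 := treeF_one z (Vt p h0 1 s ω) (fun i => B0 p s ω z (b i) 0 0) true
  have e3 : Vt p h0 1 s ω (root 0 false) = s * ω h0.1 := by
    unfold Vt
    rw [phi_root_false (L := 0) hp]
  have e4 : Vt p h0 1 s ω (root 0 true) = s * ω (p h0).1 := by
    unfold Vt
    rw [phi_root_true (L := 0)]
  rw [e3] at e1
  rw [e4] at e2
  rw [← e1, ← e2]
  exact key

/-- scalar consequences of `Near` with a diagonal matrix -/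
theorem near_diag_entries {ε : ℝ} {F : Fin 2 → ℂ} {Z : Matrix (Fin 2) (Fin 2) ℂ}
    (hF : ∀ i, 0 < (F i).im) (h : Near ε (Matrix.diagonal F) Z) :
    (∀ i, ‖Z i i - F i‖ ≤ ε * (F i).im) ∧
      ‖Z 0 1‖ ≤ ε * Real.sqrt (F 0).im * Real.sqrt (F 1).im := by
  constructor
  · intro i
    have h1 := Shape395.near_entry h i i
    rw [Matrix.diagonal_apply_eq, mul_assoc, Real.mul_self_sqrt (hF i).le] at h1
    exact h1
  · have h1 := Shape395.near_entry h 0 1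
    rw [Matrix.diagonal_apply_ne _ (by decide), sub_zero, Matrix.diagonal_apply_eq,
      Matrix.diagonal_apply_eq] at h1
    exact h1

end Crest.Agent.R166.OneLev598
end

-- ▼ part R166/OneLevP_598
section

/-!
# Row 166, section 32, F3 (helper598): the one-level recursion in mean

`SpecF3.OneLevFrom d`.
-/

set_option autoImplicit false
set_option linter.unusedSectionVars false

open Matrix Finset

namespace Crest.Agent.R166.OneLevP598

open Crest.Agent.R166 Crest.Agent.R166.Stab269 Crest.Agent.R166.OneLev598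
  Crest.Agent.R166.Spec30 Crest.Agent.R166.ShapeP598 Crest.Agent.R166.SpecF3
open Crest.Agent.R166.SwP470 (BVal bv TL BI NZ np bsw)
open Crest.Agent.R166.Off522 (Fine)
open Crest.Agent.R166.Fine522 (kap1 kap1_pos)
open Crest.Agent.R166.TreeDet350 (rho cav)
open Crest.Agent.R166.Rev811

/-! ### scalar comparison -/

theorem rho_shift {Z a a2 : ℂ} {k η1 e : ℝ} (hk : 0 < k) (hη : 0 ≤ η1) (hηk : η1 ≤ k)
    (ha : k ≤ a.im) (ha2 : k ≤ a2.im) (hd : ‖a - a2‖ ≤ η1) (he : 0 ≤ e) (hZ : 0 < Z.im)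
    (hZF : ‖Z - (-a⁻¹)‖ ≤ e * (-a⁻¹).im) : rho Z (-1 / a2) ≤ 8 * e + 2 * (η1 / k) := by
  have na : k ≤ ‖a‖ := ha.trans (Complex.im_le_norm a)
  have na2 : k ≤ ‖a2‖ := ha2.trans (Complex.im_le_norm a2)
  have pa : 0 < ‖a‖ := lt_of_lt_of_le hk na
  have pa2 : 0 < ‖a2‖ := lt_of_lt_of_le hk na2
  have ne : a ≠ 0 := norm_pos_iff.1 pa
  have ne2 : a2 ≠ 0 := norm_pos_iff.1 pa2
  have hF : (-1 / a2 : ℂ) = -a2⁻¹ := by rw [neg_div, one_div]
  rw [hF]
  have im_neg_inv : ∀ w : ℂ, (-w⁻¹).im = w.im / ‖w‖ ^ 2 := by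
    intro w
    rw [Complex.neg_im, Complex.inv_im, Complex.normSq_eq_norm_sq, neg_div, neg_neg]
  have i1 := im_neg_inv a
  have i2 := im_neg_inv a2
  have p2 : 0 < (-a2⁻¹).im := by
    rw [i2]
    exact div_pos (lt_of_lt_of_le hk ha2) (by positivity)
  have h1 : ‖-a⁻¹ - -a2⁻¹‖ = ‖a - a2‖ / (‖a‖ * ‖a2‖) := by
    have : -a⁻¹ - -a2⁻¹ = (a - a2) / (a * a2) := by
      field_simp
      ring
    rw [this, norm_div, norm_mul]
  have h4 : ‖a2‖ ≤ 2 * ‖a‖ := by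
    have : ‖a2‖ ≤ ‖a‖ + ‖a - a2‖ := by
      have := norm_sub_le a (a - a2)
      rwa [sub_sub_cancel] at this
    linarith
  have h2 : ‖-a⁻¹ - -a2⁻¹‖ ≤ 2 * (η1 / k) * (-a2⁻¹).im := by
    rw [h1, i2, div_le_iff₀ (by positivity)]
    have e1 : 2 * (η1 / k) * (a2.im / ‖a2‖ ^ 2) * (‖a‖ * ‖a2‖) =
        2 * η1 * ‖a‖ * (a2.im / k) / ‖a2‖ := by field_simp
    rw [e1, le_div_iff₀ pa2]
    have e2 : 1 ≤ a2.im / k := by rw [le_div_iff₀ hk]; linarith
    calc ‖a - a2‖ * ‖a2‖ ≤ η1 * (2 * ‖a‖) := mul_le_mul hd h4 (norm_nonneg _) hη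
      _ = 2 * η1 * ‖a‖ * 1 := by ring
      _ ≤ 2 * η1 * ‖a‖ * (a2.im / k) := mul_le_mul_of_nonneg_left e2 (by positivity)
  have h3 : (-a⁻¹).im ≤ 8 * (-a2⁻¹).im := by
    rw [i1, i2, div_le_iff₀ (by positivity)]
    have e1 : 8 * (a2.im / ‖a2‖ ^ 2) * ‖a‖ ^ 2 = 8 * a2.im * ‖a‖ ^ 2 / ‖a2‖ ^ 2 := by ring
    rw [e1, le_div_iff₀ (by positivity)]
    have e2 : a.im ≤ 2 * a2.im := by
      have : |(a - a2).im| ≤ η1 := (Complex.abs_im_le_norm _).trans hd
      rw [Complex.sub_im] at this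
      have := (abs_le.1 this).2
      linarith
    have e3 : ‖a2‖ ^ 2 ≤ 4 * ‖a‖ ^ 2 := by nlinarith
    calc a.im * ‖a2‖ ^ 2 ≤ (2 * a2.im) * (4 * ‖a‖ ^ 2) :=
          mul_le_mul e2 e3 (by positivity) (by linarith)
      _ = _ := by ring
  have h5 : ‖Z - -a2⁻¹‖ ≤ (8 * e + 2 * (η1 / k)) * (-a2⁻¹).im := by
    have e1 : ‖Z - -a2⁻¹‖ ≤ ‖Z - -a⁻¹‖ + ‖-a⁻¹ - -a2⁻¹‖ := by
      have := norm_add_le (Z - -a⁻¹) (-a⁻¹ - -a2⁻¹)
      rwa [sub_add_sub_cancel] at this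
    have e2 := mul_le_mul_of_nonneg_left h3 he
    nlinarith
  unfold rho
  have h6 : (-a2⁻¹).im ≤ ‖Z - (starRingEnd ℂ) (-a2⁻¹)‖ := by
    refine le_trans ?_ (Complex.abs_im_le_norm _)
    rw [Complex.sub_im, Complex.conj_im]
    refine le_trans ?_ (le_abs_self _)
    linarith
  rw [div_le_iff₀ (lt_of_lt_of_le p2 h6)]
  refine h5.trans (mul_le_mul_of_nonneg_left h6 ?_)
  positivity

/-! ### letters -/

/-- the nonzero letters as `Fin (d-1)` -/
def kz (d : ℕ) [NeZero d] (j : Fin (d - 1)) : NZ d :=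
  ⟨⟨j.1 + 1, by have := j.2; omega⟩, by
    intro h
    have := congrArg Fin.val h
    simp at this⟩

lemma kz_bijective (d : ℕ) [NeZero d] : Function.Bijective (kz d) := by
  constructor
  · intro i j h
    have h2 := congrArg (fun x : NZ d => x.1.1) h
    simp only [kz] at h2
    exact Fin.ext (by omega)
  · intro a
    have h0 : a.1.1 ≠ 0 := by
      intro h
      apply a.2
      apply Fin.ext
      rw [h]
      simp
    refine ⟨⟨a.1.1 - 1, by have := a.1.2; omega⟩, ?_⟩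
    apply Subtype.ext
    apply Fin.ext
    simp only [kz]
    omega

lemma sum_kz (d : ℕ) [NeZero d] (f : NZ d → ℂ) : ∑ a, f a = ∑ j, f (kz d j) :=
  (Function.Bijective.sum_comp (kz_bijective d) f).symm

/-! ### the good event -/

section port

variable {n d : ℕ} [NeZero d]

/-- bad half-edges for the one-level recursion -/
def BadL (κ τ : ℝ) (p : Equiv.Perm (HE n d)) (s : ℝ) (ω : Fin n → ℝ) (z : ℂ) (x : HE n d) : Prop :=
  ¬ Fine κ (BE p s ω z x) ∨ τ < ‖B0 p s ω z x 0 1‖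

/-- admissibility -/
def AdmL (L : ℕ) (κ τ ε : ℝ) (p : Equiv.Perm (HE n d)) (s : ℝ) (ω : Fin n → ℝ) (z : ℂ)
    (h0 : HE n d) (b : BI d L → HE n d) : Prop :=
  Adm (BadL κ τ p s ω z) (CpW (Sv L p h0) (Rr p s ω z) p ε) (PrW (Rr p s ω z) p ε) ∅ b

variable {p : Equiv.Perm (HE n d)} {s κ τ ε : ℝ} {ω : Fin n → ℝ} {z : ℂ} {h0 : HE n d}

theorem AdmL.cEs_le {L : ℕ} {b : BI d L → HE n d} (hε : 0 ≤ ε)
    (h : AdmL L κ τ ε p s ω z h0 b) :
    cEs L p s ω z h0 ∅ b ≤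
      ((Fintype.card (BI d L) : ℝ) + (Fintype.card (BI d L) : ℝ) ^ 2) * ε := by
  unfold cEs
  rw [add_mul]
  refine add_le_add ?_ ?_
  · calc (∑ j ∈ (∅ : Finset (BI d L))ᶜ,
          Real.sqrt (cpl (GA (Sv L p h0) p ∅ b) (Rr p s ω z) p (b j)))
        ≤ ∑ _j ∈ (∅ : Finset (BI d L))ᶜ, ε := by
          refine Finset.sum_le_sum fun j hj => ?_
          have h1 := h.1 j (Finset.notMem_empty _)
          have h2 : ¬ ε ^ 2 < cpl (GA (Sv L p h0) p ∅ b) (Rr p s ω z) p (b j) :=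
            fun h3 => h1 (Or.inr h3)
          exact Real.sqrt_le_iff.2 ⟨hε, not_lt.1 h2⟩
      _ = ((∅ : Finset (BI d L))ᶜ).card * ε := by rw [Finset.sum_const, nsmul_eq_mul]
      _ ≤ _ := by
          apply mul_le_mul_of_nonneg_right _ hε
          exact_mod_cast Finset.card_le_univ _
  · calc (∑ jk ∈ ((∅ : Finset (BI d L))ᶜ).offDiag,
          Real.sqrt (cpl2 (Rr p s ω z) p (b jk.1) (b jk.2)))
        ≤ ∑ _jk ∈ ((∅ : Finset (BI d L))ᶜ).offDiag, ε := by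
          refine Finset.sum_le_sum fun jk hjk => ?_
          obtain ⟨h1, h2, h3⟩ := Finset.mem_offDiag.1 hjk
          have h4 := h.2 jk.1 jk.2 (Finset.notMem_empty _) (Finset.notMem_empty _) h3
          exact Real.sqrt_le_iff.2 ⟨hε, not_lt.1 h4⟩
      _ = (((∅ : Finset (BI d L))ᶜ).offDiag).card * ε := by rw [Finset.sum_const, nsmul_eq_mul]
      _ ≤ _ := by
          apply mul_le_mul_of_nonneg_right _ hε
          have h5 : (((∅ : Finset (BI d L))ᶜ).offDiag).card ≤ (Fintype.card (BI d L)) ^ 2 := by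
            rw [Finset.offDiag_card]
            have h6 : ((∅ : Finset (BI d L))ᶜ).card ≤ Fintype.card (BI d L) :=
              Finset.card_le_univ _
            calc ((∅ : Finset (BI d L))ᶜ).card * ((∅ : Finset (BI d L))ᶜ).card -
                  ((∅ : Finset (BI d L))ᶜ).card
                ≤ ((∅ : Finset (BI d L))ᶜ).card * ((∅ : Finset (BI d L))ᶜ).card := Nat.sub_le _ _
              _ ≤ Fintype.card (BI d L) * Fintype.card (BI d L) := Nat.mul_le_mul h6 h6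
              _ = _ := (sq _).symm
          exact_mod_cast h5

theorem AdmL.good {L : ℕ} {b : BI d L → HE n d} (h : AdmL L κ τ ε p s ω z h0 b) (i : BI d L) :
    Fine κ (BE p s ω z (b i)) ∧ ‖B0 p s ω z (b i) 0 1‖ ≤ τ := by
  have h1 := h.1 i (Finset.notMem_empty _)
  have h2 : ¬ BadL κ τ p s ω z (b i) := fun h3 => h1 (Or.inl h3)
  unfold BadL at h2
  push Not at h2
  exact h2

/-- constants: `N` = number of leaves at depth one -/
noncomputable def N1 (d : ℕ) [NeZero d] : ℝ := Fintype.card (BI d 1)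

/-- **the recursion on the good event** -/
theorem rho_good (hd : 3 ≤ d) {E η η' η1 : ℝ} (hp : IsPort p) {b : BI d 1 → HE n d}
    (hb : BVal 1 p h0 b) (hη : 0 < η) (hη1 : η ≤ η1) (hη' : 0 < η') (hη1' : η' ≤ η1)
    (hκ : 0 < κ) (hτ0 : 0 ≤ τ) (hτ2 : τ ≤ kap1 2 κ / (2 * (N1 d + 1)))
    (hε0 : 0 ≤ ε) (hε : CE κ * ((N1 d + N1 d ^ 2) * ε) ≤ 1 / 2) (hk1 : η1 ≤ kap1 2 κ)
    (h : AdmL 1 κ τ ε p s ω (ze E η') h0 b) :
    rho (B0 (np p h0 b) s ω (ze E η') h0 0 0)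
      (cav (ze E η) (s * ω h0.1) fun j : Fin (d - 1) => B0 p s ω (ze E η') (b (kk d j)) 0 0) ≤
      8 * ((2 + 8 * N1 d ^ 2) * (τ / kap1 2 κ) ^ 2 + 8 * (CE κ * ((N1 d + N1 d ^ 2) * ε))) +
        2 * (η1 / kap1 2 κ) := by
  have hz : 0 < (ze E η').im := by simpa [ze] using hη'
  set k := kap1 2 κ with hk
  have hkp : 0 < k := kap1_pos hκ
  have hN0 : 0 ≤ N1 d := Nat.cast_nonneg _
  have hCE := CE_pos hκ
  have hτk : τ ≤ k / 2 := by
    refine hτ2.trans ?_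
    apply div_le_div_of_nonneg_left hkp.le (by norm_num)
    linarith
  set δ : ℝ := 2 * (N1 d * (τ / k)) ^ 2 with hδdef
  have hτk' : N1 d * (τ / k) ≤ 1 / 2 := by
    have h1 : τ / k ≤ 1 / (2 * (N1 d + 1)) := by
      rw [div_le_iff₀ hkp]
      refine hτ2.trans (le_of_eq ?_)
      ring
    have h2 : 0 ≤ τ / k := div_nonneg hτ0 hkp.le
    calc N1 d * (τ / k) ≤ (N1 d + 1) * (1 / (2 * (N1 d + 1))) :=
          mul_le_mul (by linarith) h1 h2 (by linarith)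
      _ = 1 / 2 := by field_simp
  have hδ2 : δ ≤ 1 / 2 := by
    rw [hδdef]
    have h2 : 0 ≤ N1 d * (τ / k) := mul_nonneg hN0 (div_nonneg hτ0 hkp.le)
    nlinarith
  have hδ : 2 / k ^ 2 * (∑ jk ∈ (univ : Finset (BI d 1)).offDiag,
      ‖B0 p s ω (ze E η') (b jk.1) 0 1‖ * ‖B0 p s ω (ze E η') (b jk.2) 0 1‖) ≤ δ := by
    have h1 : (∑ jk ∈ (univ : Finset (BI d 1)).offDiag,
        ‖B0 p s ω (ze E η') (b jk.1) 0 1‖ * ‖B0 p s ω (ze E η') (b jk.2) 0 1‖) ≤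
        N1 d ^ 2 * τ ^ 2 := by
      calc _ ≤ ∑ _jk ∈ (univ : Finset (BI d 1)).offDiag, τ ^ 2 := by
            refine Finset.sum_le_sum fun jk _ => ?_
            rw [sq]
            exact mul_le_mul (h.good _).2 (h.good _).2 (norm_nonneg _) hτ0
        _ = ((univ : Finset (BI d 1)).offDiag.card : ℝ) * τ ^ 2 := by
            rw [Finset.sum_const, nsmul_eq_mul]
        _ ≤ _ := by
            apply mul_le_mul_of_nonneg_right _ (sq_nonneg _)
            have h5 : ((univ : Finset (BI d 1)).offDiag).card ≤ (Fintype.card (BI d 1)) ^ 2 := by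
              rw [Finset.offDiag_card, Finset.card_univ, sq]
              exact Nat.sub_le _ _
            unfold N1
            exact_mod_cast h5
    calc 2 / k ^ 2 * _ ≤ 2 / k ^ 2 * (N1 d ^ 2 * τ ^ 2) :=
          mul_le_mul_of_nonneg_left h1 (by positivity)
      _ = δ := by rw [hδdef]; field_simp
  have hcE := h.cEs_le hε0
  have hcE' : CE κ * cEs 1 p s ω (ze E η') h0 ∅ b ≤ CE κ * ((N1 d + N1 d ^ 2) * ε) :=
    mul_le_mul_of_nonneg_left hcE hCE.le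
  have key := one_lev hp hb s ω hz (fun i => (h.good i).1) (fun i => (h.good i).2) hτk hδ hδ2
    (hcE'.trans hε)
  have key2 := key.mono (ε' := (2 + 8 * N1 d ^ 2) * (τ / k) ^ 2 +
      8 * (CE κ * ((N1 d + N1 d ^ 2) * ε))) (by
    rw [hδdef]
    have : 8 * (CE κ * cEs 1 p s ω (ze E η') h0 ∅ b) ≤ 8 * (CE κ * ((N1 d + N1 d ^ 2) * ε)) := by
      linarith
    rw [← hk]
    nlinarith)
  set e := (2 + 8 * N1 d ^ 2) * (τ / k) ^ 2 + 8 * (CE κ * ((N1 d + N1 d ^ 2) * ε)) with he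
  have he0 : 0 ≤ e := by positivity
  set X : BI d 1 → ℂ := fun i => B0 p s ω (ze E η') (b i) 0 0 with hX
  have hXi : ∀ i, k ≤ (X i).im := fun i => fine_im (h.good i).1.cavB 0
  have hXp : ∀ i, 0 < (X i).im := fun i => lt_of_lt_of_le hkp (hXi i)
  have hFp : ∀ i, 0 < ((![cavN (ze E η') (s * ω h0.1) (fun a => X (false, fun _ => a)),
      cavN (ze E η') (s * ω (p h0).1) (fun a => X (true, fun _ => a))] : Fin 2 → ℂ) i).im := by
    intro i
    fin_cases i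
    · exact cavN_im_pos hz _ fun a => hXp _
    · exact cavN_im_pos hz _ fun a => hXp _
  have key3 := (near_diag_entries hFp key2).1 0
  simp only [Matrix.cons_val_zero] at key3
  -- the two denominators
  set S : ℂ := ∑ j : Fin (d - 1), X (kk d j) with hS
  have hSsum : ∑ a : NZ d, X (false, fun _ => a) = S := by
    rw [sum_kz d fun a => X (false, fun _ => a)]
    rfl
  have hSim : k ≤ S.im := by
    rw [hS, Complex.im_sum]
    have hd1 : 0 < d - 1 := by omega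
    calc k ≤ (X (kk d ⟨0, hd1⟩)).im := hXi _
      _ ≤ _ := Finset.single_le_sum (f := fun j : Fin (d - 1) => (X (kk d j)).im)
          (fun j _ => (hXp _).le) (Finset.mem_univ _)
  have hzi : ∀ t : ℝ, (ze E t).im = t := fun t => by simp [ze]
  have hBp : 0 < (B0 (np p h0 b) s ω (ze E η') h0 0 0).im :=
    MuU395.im_B0_pos (hb.isPort (le_refl 1) hp) s ω hz h0 0
  have hfin := rho_shift (Z := B0 (np p h0 b) s ω (ze E η') h0 0 0)
    (a := ze E η' - (s * ω h0.1 : ℝ) + S) (a2 := ze E η - (s * ω h0.1 : ℝ) + S)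
    (k := k) (η1 := η1) (e := e) hkp (hη.le.trans hη1) hk1
    (by
      rw [Complex.add_im, Complex.sub_im, Complex.ofReal_im, hzi]
      linarith)
    (by
      rw [Complex.add_im, Complex.sub_im, Complex.ofReal_im, hzi]
      linarith)
    (by
      have e1 : ze E η' - (s * ω h0.1 : ℝ) + S - (ze E η - (s * ω h0.1 : ℝ) + S) =
          ((η' - η : ℝ) : ℂ) * Complex.I := by
        simp [ze]
        ring
      rw [e1, norm_mul, Complex.norm_I, mul_one, Complex.norm_real, Real.norm_eq_abs, abs_le]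
      constructor <;> linarith)
    he0 hBp (by
      unfold cavN at key3
      rw [hSsum] at key3
      exact key3)
  have e2 : cav (ze E η) (s * ω h0.1) (fun j : Fin (d - 1) => B0 p s ω (ze E η') (b (kk d j)) 0 0) =
      -1 / (ze E η - (s * ω h0.1 : ℝ) + S) := rfl
  rw [e2]
  exact hfin

/-! ### counting -/

/-- Markov's inequality -/
lemma pr1_le_markov {Ω : Type*} [Fintype Ω] (P : Ω → Prop) (f : Ω → ℝ) (hf : ∀ x, 0 ≤ f x) {t : ℝ}
    (ht : 0 < t) (h : ∀ x, P x → t ≤ f x) : pr1 P ≤ av1 f / t := by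
  classical
  rw [le_div_iff₀ ht, mul_comm]
  unfold pr1
  rw [← av1_const_mul]
  apply av1_mono
  intro x
  by_cases hx : P x
  · simp only [hx, if_true, mul_one]; exact h x hx
  · simp only [hx, if_false, mul_zero]; exact hf x

theorem pr1_BadL (hτ : 0 < τ) (hτ1 : τ ≤ 1) :
    pr1 (BadL κ τ p s ω z) ≤ pr1 (fun x => ¬ Fine κ (BE p s ω z x)) +
      av1 (fun x => min 1 (‖B0 p s ω z x 0 1‖ ^ 2)) / τ ^ 2 := by
  refine (pr1_or _ _).trans (add_le_add le_rfl ?_)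
  refine pr1_le_markov _ _ (fun x => le_min zero_le_one (sq_nonneg _)) (by positivity) ?_
  intro x hx
  refine le_min ?_ ?_
  · nlinarith
  · exact pow_le_pow_left₀ hτ.le hx.le 2

/-- probability of the bad event at a tree-like centre -/
theorem pr_bad (hn : 0 < n) (hd : 0 < d) (hp : IsPort p) (htl : TL 1 p h0) (hz : 0 < z.im)
    (_hκ : 0 < κ) (hε : 0 < ε) {q : ℝ} (hq0 : 0 ≤ q)
    (hq1 : 2 * (2 * ((d : ℝ) + 1)) / (n * z.im * ε ^ 2) ≤ q)
    (hq2 : 2 * (2 / κ) / (n * z.im * ε ^ 2) ≤ q) :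
    pr (fun b : BI d 1 → HE n d => ¬ (BVal 1 p h0 b ∧ AdmL 1 κ τ ε p s ω z h0 b)) ≤
      (SwInv356.Cinv d 1 : ℝ) / n +
        (N1 d * (pr1 (BadL κ τ p s ω z) + q) + N1 d ^ 2 * q) := by
  have hne : Nonempty (HE n d) := ⟨(⟨0, hn⟩, ⟨0, hd⟩)⟩
  have hH : Hyp (ι := BI d 1) (BadL κ τ p s ω z) (CpW (Sv 1 p h0) (Rr p s ω z) p ε)
      (PrW (Rr p s ω z) p ε) 0 (pr1 (BadL κ τ p s ω z)) q := by
    refine hyp_ward (Hm_symm (graphOf p) s ω) hz hd p (Sv 1 p h0) 0 hε (BadL κ τ p s ω z)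
      (M := 2 / κ) ?_ hq0 ?_ hq2
    · intro x hx
      unfold BadL at hx
      push Not at hx
      have h0' := hx.1.le 0 0
      have h1' := hx.1.le 1 1
      have e0 : BE p s ω z x 0 0 = Res789.Res (Hm (graphOf p) s ω) z x.1 x.1 := rfl
      have e1 : BE p s ω z x 1 1 = Res789.Res (Hm (graphOf p) s ω) z (p x).1 (p x).1 := rfl
      rw [e0] at h0'
      rw [e1] at h1'
      have h2 := Complex.im_le_norm (Res789.Res (Hm (graphOf p) s ω) z x.1 x.1)
      have h3 := Complex.im_le_norm (Res789.Res (Hm (graphOf p) s ω) z (p x).1 (p x).1)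
      have e2 : 2 / κ = κ⁻¹ + κ⁻¹ := by rw [div_eq_mul_inv]; ring
      linarith
    · refine le_trans ?_ hq1
      apply div_le_div_of_nonneg_right _ (by positivity)
      have h1 := H2a.card_Sv p h0
      have h2 : ((Sv 1 p h0).card : ℝ) ≤ 2 * ((d : ℝ) + 1) := by exact_mod_cast h1
      push_cast
      linarith
  have h1 : pr (fun b : BI d 1 → HE n d => ¬ (BVal 1 p h0 b ∧ AdmL 1 κ τ ε p s ω z h0 b)) ≤
      pr (fun b : BI d 1 → HE n d => ¬ BVal 1 p h0 b ∨ ¬ AdmL 1 κ τ ε p s ω z h0 b) := by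
    apply pr_mono
    intro b hb
    exact not_and_or.1 hb
  refine h1.trans ((pr_or _ _).trans (add_le_add (H2a.pr_inv_le hn hp htl) ?_))
  exact pr_not_adm_zero hH

open Classical in
/-- counting the bad events of one state -/
theorem card_bad (hn : 0 < n) (hd : 0 < d) (hp : IsPort p) (hz : 0 < z.im)
    (hκ : 0 < κ) (hε : 0 < ε) {q : ℝ} (hq0 : 0 ≤ q)
    (hq1 : 2 * (2 * ((d : ℝ) + 1)) / (n * z.im * ε ^ 2) ≤ q)
    (hq2 : 2 * (2 / κ) / (n * z.im * ε ^ 2) ≤ q) :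
    ((Finset.univ.filter fun mv : HE n d × (BI d 1 → HE n d) =>
        ¬ (BVal 1 p mv.1 mv.2 ∧ AdmL 1 κ τ ε p s ω z mv.1 mv.2)).card : ℝ) ≤
      (Fintype.card (BI d 1 → HE n d) : ℝ) *
        (((Finset.univ.filter fun h : HE n d => ¬ TL 1 p h).card : ℝ) +
          (n * d) * ((SwInv356.Cinv d 1 : ℝ) / n +
            (N1 d * (pr1 (BadL κ τ p s ω z) + q) + N1 d ^ 2 * q))) := by
  have hne : Nonempty (HE n d) := ⟨(⟨0, hn⟩, ⟨0, hd⟩)⟩
  set W : ℝ := (SwInv356.Cinv d 1 : ℝ) / n +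
            (N1 d * (pr1 (BadL κ τ p s ω z) + q) + N1 d ^ 2 * q) with hW
  have hN0 : 0 ≤ N1 d := Nat.cast_nonneg _
  have hW0 : 0 ≤ W := by
    have := pr1_nonneg (BadL κ τ p s ω z)
    rw [hW]
    positivity
  have hcard : (0 : ℝ) < Fintype.card (BI d 1 → HE n d) := by exact_mod_cast Fintype.card_pos
  rw [Finset.natCast_card_filter, Fintype.sum_prod_type]
  have h1 : ∀ h0 : HE n d, (∑ b : BI d 1 → HE n d,
      (if ¬ (BVal 1 p h0 b ∧ AdmL 1 κ τ ε p s ω z h0 b) then (1 : ℝ) else 0)) ≤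
      (Fintype.card (BI d 1 → HE n d) : ℝ) * ((if ¬ TL 1 p h0 then (1 : ℝ) else 0) + W) := by
    intro h0
    have h2 : (∑ b : BI d 1 → HE n d,
        (if ¬ (BVal 1 p h0 b ∧ AdmL 1 κ τ ε p s ω z h0 b) then (1 : ℝ) else 0)) =
        (Fintype.card (BI d 1 → HE n d) : ℝ) *
          pr (fun b : BI d 1 → HE n d => ¬ (BVal 1 p h0 b ∧ AdmL 1 κ τ ε p s ω z h0 b)) := by
      unfold pr av
      rw [mul_div_cancel₀ _ hcard.ne']
      refine Finset.sum_congr rfl fun b _ => ?_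
      congr
    rw [h2]
    refine mul_le_mul_of_nonneg_left ?_ hcard.le
    by_cases htl : TL 1 p h0
    · rw [if_neg (not_not.2 htl), zero_add]
      exact pr_bad hn hd hp htl hz hκ hε hq0 hq1 hq2
    · rw [if_pos htl]
      have h3 : pr (fun b : BI d 1 → HE n d => ¬ (BVal 1 p h0 b ∧
          AdmL 1 κ τ ε p s ω z h0 b)) ≤ pr (fun _ : BI d 1 → HE n d => True) :=
        pr_mono fun _ _ => trivial
      rw [pr_true] at h3
      linarith
  refine (Finset.sum_le_sum fun h0 _ => h1 h0).trans (le_of_eq ?_)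
  rw [← Finset.mul_sum, Finset.sum_add_distrib, Finset.sum_const, Finset.card_univ, nsmul_eq_mul,
    card_HE_real, ← Finset.natCast_card_filter]

end port

/-! ### the leaf -/

theorem card_mv (n d : ℕ) [NeZero d] : (Fintype.card (HE n d × (BI d 1 → HE n d)) : ℝ) =
    (n * d) * (Fintype.card (BI d 1 → HE n d) : ℝ) := by
  rw [Fintype.card_prod, Nat.cast_mul, card_HE_real]

/-- choice of a small constant -/
lemma exists_small {a b : ℝ} (ha : 0 ≤ a) (hb : 0 < b) : ∃ t : ℝ, 0 < t ∧ t ≤ 1 ∧ a * t ≤ b := by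
  refine ⟨min 1 (b / (a + 1)), lt_min one_pos (by positivity), min_le_left _ _, ?_⟩
  calc a * min 1 (b / (a + 1)) ≤ a * (b / (a + 1)) :=
        mul_le_mul_of_nonneg_left (min_le_right _ _) ha
    _ ≤ (a + 1) * (b / (a + 1)) := by
        apply mul_le_mul_of_nonneg_right _ (by positivity)
        linarith
    _ = b := by field_simp

set_option maxHeartbeats 1000000 in
/-- **F3, one-level recursion in mean** -/
theorem oneLevFrom (d : ℕ) [NeZero d] : OneLevFrom d := by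
  classical
  intro hd A s0 hA0 hA hs0 hs1 hF1 hF2 ε₀ hε₀
  set ε : ℝ := min ε₀ 1 with hεdef
  have hε : 0 < ε := lt_min hε₀ one_pos
  have hN0 : 0 ≤ N1 d := Nat.cast_nonneg _
  -- constants
  obtain ⟨ε1, hε1, -, hε1'⟩ := exists_small hN0 (by positivity : 0 < ε / 8)
  obtain ⟨κ, hκ, K1, hK1, n1, hF1'⟩ := hF1 ε1 hε1
  set k := kap1 2 κ with hk
  have hkp : 0 < k := kap1_pos hκ
  have hCE := CE_pos hκ
  obtain ⟨u, hu, hu1, hu'⟩ := exists_small (by positivity : 0 ≤ 8 * (2 + 8 * N1 d ^ 2))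
    (by positivity : 0 < ε / 4)
  obtain ⟨τ, hτ, hτ1, hτ2⟩ : ∃ τ : ℝ, 0 < τ ∧ τ ≤ 1 ∧ τ ≤ k / (2 * (N1 d + 1)) * u := by
    refine ⟨min 1 (k / (2 * (N1 d + 1)) * u), lt_min one_pos (by positivity), min_le_left _ _,
      min_le_right _ _⟩
  obtain ⟨ε2, hε2, -, hε2'⟩ := exists_small (by positivity : 0 ≤ N1 d / τ ^ 2)
    (by positivity : 0 < ε / 8)
  obtain ⟨η2, hη2, K2, hK2, n2, hF2'⟩ := hF2 ε2 hε2
  obtain ⟨e1, he1, -, he1'⟩ := exists_small
    (by positivity : 0 ≤ 64 * (CE κ * (N1 d + N1 d ^ 2))) (by positivity : 0 < ε / 4)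
  obtain ⟨q, hq, -, hq'⟩ := exists_small (by positivity : 0 ≤ N1 d + N1 d ^ 2)
    (by positivity : 0 < ε / 4)
  set Q : ℝ := (4 * ((d : ℝ) + 1) + 4 / κ) / (e1 ^ 2 * q) with hQ
  have hQ0 : 0 < Q := by positivity
  set K0 : ℝ := max (max K1 K2) Q with hK0
  set η1 : ℝ := min (min 1 η2) (min k (ε * k / 4)) with hη1
  have hη1p : 0 < η1 := lt_min (lt_min one_pos hη2) (lt_min hkp (by positivity))
  have hCT := Tree798.CT_nonneg d 1
  obtain ⟨n3, hn3⟩ := exists_nat_gt (8 * (Tree798.CT d 1 + SwInv356.Cinv d 1) / ε)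
  refine ⟨η1, hη1p, K0, lt_max_of_lt_right hQ0, max (max n1 n2) (max n3 1), ?_⟩
  intro n hn E s η η' hE hs hηK hη1' hηK' hη1'' ω hω
  have hn1 : n1 ≤ n := (le_max_left _ _).trans ((le_max_left _ _).trans hn)
  have hn2 : n2 ≤ n := (le_max_right _ _).trans ((le_max_left _ _).trans hn)
  have hn3' : n3 ≤ n := (le_max_left _ _).trans ((le_max_right _ _).trans hn)
  have hnpos : 0 < n := (le_max_right _ _).trans ((le_max_right _ _).trans hn)
  have hnR : (0 : ℝ) < n := by exact_mod_cast hnpos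
  have hdpos : 0 < d := by omega
  have hdR : (0 : ℝ) < d := by exact_mod_cast hdpos
  have hK0p : 0 < K0 := lt_max_of_lt_right hQ0
  have hη : 0 < η := lt_of_lt_of_le (div_pos hK0p hnR) hηK
  have hη' : 0 < η' := lt_of_lt_of_le (div_pos hK0p hnR) hηK'
  have hη'1 : η' ≤ 1 := hη1''.trans ((min_le_left _ _).trans (min_le_left _ _))
  have hη'2 : η' ≤ η2 := hη1''.trans ((min_le_left _ _).trans (min_le_right _ _))
  have hη1k : η1 ≤ k := (min_le_right _ _).trans (min_le_left _ _)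
  have hη1e : η1 ≤ ε * k / 4 := (min_le_right _ _).trans (min_le_right _ _)
  have hzi : (ze E η').im = η' := by simp [ze]
  have hz : 0 < (ze E η').im := by rw [hzi]; exact hη'
  -- the window for F1, F2
  have hKn1 : K1 / n ≤ η' := by
    refine le_trans ?_ hηK'
    apply div_le_div_of_nonneg_right _ hnR.le
    exact (le_max_left _ _).trans (le_max_left _ _)
  have hKn2 : K2 / n ≤ η' := by
    refine le_trans ?_ hηK'
    apply div_le_div_of_nonneg_right _ hnR.le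
    exact (le_max_right _ _).trans (le_max_left _ _)
  have hF1n := hF1' n hn1 E s η' hE hs hKn1 hη'1 ω hω
  have hF2n := hF2' n hn2 E s η' hE hs hKn2 hη'2 ω hω
  -- couplings
  have hnη : Q ≤ n * η' := by
    have h1 : Q ≤ K0 := le_max_right _ _
    have h2 : K0 ≤ n * η' := by
      rw [div_le_iff₀ hnR] at hηK'
      linarith
    linarith
  have hqall : (4 * ((d : ℝ) + 1) + 4 / κ) / (n * η' * e1 ^ 2) ≤ q := by
    rw [div_le_iff₀ (by positivity)]
    have h1 : (4 * ((d : ℝ) + 1) + 4 / κ) = Q * (e1 ^ 2 * q) := by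
      rw [hQ]; field_simp
    rw [h1]
    calc Q * (e1 ^ 2 * q) ≤ (n * η') * (e1 ^ 2 * q) :=
          mul_le_mul_of_nonneg_right hnη (by positivity)
      _ = _ := by ring
  have hq1 : 2 * (2 * ((d : ℝ) + 1)) / (n * (ze E η').im * e1 ^ 2) ≤ q := by
    rw [hzi]
    refine le_trans ?_ hqall
    apply div_le_div_of_nonneg_right _ (by positivity)
    have : 0 ≤ 4 / κ := by positivity
    linarith
  have hq2 : 2 * (2 / κ) / (n * (ze E η').im * e1 ^ 2) ≤ q := by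
    rw [hzi]
    refine le_trans ?_ hqall
    apply div_le_div_of_nonneg_right _ (by positivity)
    have : 2 * (2 / κ) = 4 / κ := by ring
    have : 0 ≤ 4 * ((d : ℝ) + 1) := by positivity
    linarith
  -- the bad event
  have hτk : τ ≤ k / (2 * (N1 d + 1)) := by
    refine hτ2.trans ?_
    have : 0 ≤ k / (2 * (N1 d + 1)) := by positivity
    exact mul_le_of_le_one_right this hu1
  have hCEe : CE κ * ((N1 d + N1 d ^ 2) * e1) ≤ ε / 256 := by
    have : 64 * (CE κ * (N1 d + N1 d ^ 2)) * e1 = 64 * (CE κ * ((N1 d + N1 d ^ 2) * e1)) := by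
      ring
    rw [this] at he1'
    linarith
  have hε1le : ε ≤ 1 := min_le_right _ _
  have hτk2 : (τ / k) ^ 2 ≤ u := by
    have h1 : τ / k ≤ u := by
      rw [div_le_iff₀ hkp]
      refine hτ2.trans ?_
      have h2 : k / (2 * (N1 d + 1)) ≤ k := div_le_self hkp.le (by linarith)
      calc k / (2 * (N1 d + 1)) * u ≤ k * u := mul_le_mul_of_nonneg_right h2 hu.le
        _ = u * k := mul_comm _ _
    have h0 : 0 ≤ τ / k := by positivity
    exact (pow_le_pow_left₀ h0 h1 2).trans (pow_le_of_le_one hu.le hu1 (by norm_num))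
  have himp : ∀ p ∈ Ports n d, ∀ mv : HE n d × (BI d 1 → HE n d),
      (BVal 1 p mv.1 mv.2 ∧ AdmL 1 κ τ e1 p s ω (ze E η') mv.1 mv.2) →
      rho (B0 (bsw 1 p mv).1 s ω (ze E η') mv.1 0 0)
            (cav (ze E η) (s * ω mv.1.1) fun j : Fin (d - 1) =>
              B0 p s ω (ze E η') (mv.2 (kk d j)) 0 0) ≤ ε₀ := by
    intro p hp mv hmv
    rw [SwP470.bsw_pos hmv.1]
    have h1 := rho_good hd (E := E) (η := η) (η' := η') (η1 := η1) (mem_Ports.1 hp) hmv.1 hη hη1'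
      hη' hη1'' hκ hτ.le hτk he1.le (hCEe.trans (by linarith)) hη1k hmv.2
    refine h1.trans ?_
    have h2 : 8 * ((2 + 8 * N1 d ^ 2) * (τ / kap1 2 κ) ^ 2) ≤ ε / 4 := by
      rw [← hk]
      calc 8 * ((2 + 8 * N1 d ^ 2) * (τ / k) ^ 2) = 8 * (2 + 8 * N1 d ^ 2) * (τ / k) ^ 2 := by ring
        _ ≤ 8 * (2 + 8 * N1 d ^ 2) * u := mul_le_mul_of_nonneg_left hτk2 (by positivity)
        _ ≤ ε / 4 := hu'
    have h3 : 2 * (η1 / kap1 2 κ) ≤ ε / 2 := by
      rw [← hk]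
      have : η1 / k ≤ ε / 4 := by
        rw [div_le_iff₀ hkp]
        linarith
      linarith
    have h4 : ε ≤ ε₀ := min_le_left _ _
    have h5 : 8 * (8 * (CE κ * ((N1 d + N1 d ^ 2) * e1))) ≤ ε / 4 := by linarith
    calc 8 * ((2 + 8 * N1 d ^ 2) * (τ / kap1 2 κ) ^ 2 + 8 * (CE κ * ((N1 d + N1 d ^ 2) * e1))) +
          2 * (η1 / kap1 2 κ)
        = 8 * ((2 + 8 * N1 d ^ 2) * (τ / kap1 2 κ) ^ 2) +
            8 * (8 * (CE κ * ((N1 d + N1 d ^ 2) * e1))) + 2 * (η1 / kap1 2 κ) := by ring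
      _ ≤ ε / 4 + ε / 4 + ε / 2 := add_le_add (add_le_add h2 h5) h3
      _ = ε := by ring
      _ ≤ ε₀ := h4
  -- counting for one state
  set cB : ℝ := (Fintype.card (BI d 1 → HE n d) : ℝ) with hcB
  have hcB0 : 0 ≤ cB := Nat.cast_nonneg _
  have hnd : (0 : ℝ) < n * d := by positivity
  have hone : ∀ p ∈ Ports n d, ((Finset.univ.filter fun mv : HE n d × (BI d 1 → HE n d) =>
          ¬ rho (B0 (bsw 1 p mv).1 s ω (ze E η') mv.1 0 0)
            (cav (ze E η) (s * ω mv.1.1) fun j : Fin (d - 1) =>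
              B0 p s ω (ze E η') (mv.2 (kk d j)) 0 0) ≤ ε₀).card : ℝ) ≤
      cB * (((Finset.univ.filter fun h : HE n d => ¬ TL 1 p h).card : ℝ) +
        (SwInv356.Cinv d 1 * d + (n * d) * ((N1 d + N1 d ^ 2) * q) +
          N1 d * ((Finset.univ.filter fun h : HE n d => ¬ Fine κ (BE p s ω (ze E η') h)).card : ℝ) +
          N1 d / τ ^ 2 * ∑ h : HE n d, min 1 (‖B0 p s ω (ze E η') h 0 1‖ ^ 2))) := by
    intro p hp
    have h1 : ((Finset.univ.filter fun mv : HE n d × (BI d 1 → HE n d) =>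
          ¬ rho (B0 (bsw 1 p mv).1 s ω (ze E η') mv.1 0 0)
            (cav (ze E η) (s * ω mv.1.1) fun j : Fin (d - 1) =>
              B0 p s ω (ze E η') (mv.2 (kk d j)) 0 0) ≤ ε₀).card : ℝ) ≤
        ((Finset.univ.filter fun mv : HE n d × (BI d 1 → HE n d) =>
        ¬ (BVal 1 p mv.1 mv.2 ∧ AdmL 1 κ τ e1 p s ω (ze E η') mv.1 mv.2)).card : ℝ) := by
      have : (Finset.univ.filter fun mv : HE n d × (BI d 1 → HE n d) =>
          ¬ rho (B0 (bsw 1 p mv).1 s ω (ze E η') mv.1 0 0)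
            (cav (ze E η) (s * ω mv.1.1) fun j : Fin (d - 1) =>
              B0 p s ω (ze E η') (mv.2 (kk d j)) 0 0) ≤ ε₀) ⊆
        (Finset.univ.filter fun mv : HE n d × (BI d 1 → HE n d) =>
        ¬ (BVal 1 p mv.1 mv.2 ∧ AdmL 1 κ τ e1 p s ω (ze E η') mv.1 mv.2)) := by
        intro mv hmv
        rw [Finset.mem_filter] at hmv ⊢
        exact ⟨hmv.1, fun h => hmv.2 (himp p hp mv h)⟩
      exact_mod_cast Finset.card_le_card this
    refine h1.trans ((card_bad hnpos hdpos (mem_Ports.1 hp) hz hκ he1 hq.le hq1 hq2).trans ?_)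
    refine mul_le_mul_of_nonneg_left (add_le_add le_rfl ?_) hcB0
    have h2 := pr1_BadL (p := p) (s := s) (ω := ω) (z := ze E η') (κ := κ) hτ hτ1
    have h3 : (n * d : ℝ) * pr1 (fun x => ¬ Fine κ (BE p s ω (ze E η') x)) =
        ((Finset.univ.filter fun h : HE n d => ¬ Fine κ (BE p s ω (ze E η') h)).card : ℝ) := by
      rw [pr1_eq_card, card_HE_real, mul_div_cancel₀ _ hnd.ne']
    have h4 : (n * d : ℝ) * av1 (fun x => min 1 (‖B0 p s ω (ze E η') x 0 1‖ ^ 2)) =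
        ∑ h : HE n d, min 1 (‖B0 p s ω (ze E η') h 0 1‖ ^ 2) := by
      unfold av1
      rw [card_HE_real, mul_div_cancel₀ _ hnd.ne']
    have h5 := mul_le_mul_of_nonneg_left h2 (by positivity : 0 ≤ (n * d : ℝ) * N1 d)
    have e1' : (n * d : ℝ) * N1 d * (pr1 (fun x => ¬ Fine κ (BE p s ω (ze E η') x)) +
        av1 (fun x => min 1 (‖B0 p s ω (ze E η') x 0 1‖ ^ 2)) / τ ^ 2) =
        N1 d * ((n * d : ℝ) * pr1 (fun x => ¬ Fine κ (BE p s ω (ze E η') x))) +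
        N1 d / τ ^ 2 * ((n * d : ℝ) *
          av1 (fun x => min 1 (‖B0 p s ω (ze E η') x 0 1‖ ^ 2))) := by ring
    rw [e1', h3, h4] at h5
    have e2 : (n * d : ℝ) * ((SwInv356.Cinv d 1 : ℝ) / n) = SwInv356.Cinv d 1 * d := by
      field_simp
    calc (n * d : ℝ) * ((SwInv356.Cinv d 1 : ℝ) / n +
          (N1 d * (pr1 (BadL κ τ p s ω (ze E η')) + q) + N1 d ^ 2 * q))
        = (n * d : ℝ) * ((SwInv356.Cinv d 1 : ℝ) / n) + (n * d) * ((N1 d + N1 d ^ 2) * q) +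
          (n * d : ℝ) * N1 d * pr1 (BadL κ τ p s ω (ze E η')) := by ring
      _ ≤ _ := by
          rw [e2]
          linarith
  refine (Finset.sum_le_sum hone).trans ?_
  rw [← Finset.mul_sum]
  simp only [Finset.sum_add_distrib, ← Finset.mul_sum, Finset.sum_const, nsmul_eq_mul]
  set P : ℝ := ((Ports n d).card : ℝ) with hP
  have hP0 : 0 ≤ P := Nat.cast_nonneg _
  have hTL := Tree798.sum_card_not_TL_le (n := n) (d := d) (by omega : 2 ≤ d) 1
  have b1 : (∑ p ∈ Ports n d, ((Finset.univ.filter fun h : HE n d => ¬ TL 1 p h).card : ℝ)) ≤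
      Tree798.CT d 1 * P := hTL
  have b2 := mul_le_mul_of_nonneg_left hF1n hN0
  have b3 := mul_le_mul_of_nonneg_left hF2n (by positivity : 0 ≤ N1 d / τ ^ 2)
  have b4 : Tree798.CT d 1 + SwInv356.Cinv d 1 * d ≤ ε / 8 * (n * d) := by
    have h1 : 8 * (Tree798.CT d 1 + SwInv356.Cinv d 1) / ε < n :=
      lt_of_lt_of_le hn3 (by exact_mod_cast hn3')
    rw [div_lt_iff₀ hε] at h1
    have hd1 : (1 : ℝ) ≤ d := by exact_mod_cast hdpos
    have h2 : Tree798.CT d 1 + SwInv356.Cinv d 1 * d ≤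
        (Tree798.CT d 1 + SwInv356.Cinv d 1) * d := by
      rw [add_mul]
      have := le_mul_of_one_le_right hCT hd1
      linarith
    have h3 : Tree798.CT d 1 + SwInv356.Cinv d 1 ≤ ε / 8 * n := by linarith
    calc Tree798.CT d 1 + SwInv356.Cinv d 1 * d ≤ (Tree798.CT d 1 + SwInv356.Cinv d 1) * d := h2
      _ ≤ ε / 8 * n * d := mul_le_mul_of_nonneg_right h3 hdR.le
      _ = ε / 8 * (n * d) := by ring
  rw [card_mv]
  have key : (∑ p ∈ Ports n d, ((Finset.univ.filter fun h : HE n d => ¬ TL 1 p h).card : ℝ)) +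
      (SwInv356.Cinv d 1 * (P * d) + (n * d) * ((N1 d + N1 d ^ 2) * (P * q)) +
        N1 d * ∑ p ∈ Ports n d,
          ((Finset.univ.filter fun h : HE n d => ¬ Fine κ (BE p s ω (ze E η') h)).card : ℝ) +
        N1 d / τ ^ 2 * ∑ p ∈ Ports n d,
          ∑ h : HE n d, min 1 (‖B0 p s ω (ze E η') h 0 1‖ ^ 2)) ≤ ε * (n * d) * P := by
    set T : ℝ := (n * d) * P with hT
    have hT0 : 0 ≤ T := by positivity
    have c1 : N1 d * (ε1 * (n * d) * P) ≤ ε / 8 * T := by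
      have : N1 d * (ε1 * (n * d) * P) = N1 d * ε1 * T := by rw [hT]; ring
      rw [this]
      exact mul_le_mul_of_nonneg_right hε1' hT0
    have c2 : N1 d / τ ^ 2 * (ε2 * (n * d) * P) ≤ ε / 8 * T := by
      have : N1 d / τ ^ 2 * (ε2 * (n * d) * P) = N1 d / τ ^ 2 * ε2 * T := by rw [hT]; ring
      rw [this]
      exact mul_le_mul_of_nonneg_right hε2' hT0
    have c3 : (n * d) * ((N1 d + N1 d ^ 2) * (P * q)) ≤ ε / 4 * T := by
      have : (n * d : ℝ) * ((N1 d + N1 d ^ 2) * (P * q)) = (N1 d + N1 d ^ 2) * q * T := by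
        rw [hT]; ring
      rw [this]
      exact mul_le_mul_of_nonneg_right hq' hT0
    have c4 : Tree798.CT d 1 * P + SwInv356.Cinv d 1 * (P * d) ≤ ε / 8 * T := by
      have h1 := mul_le_mul_of_nonneg_right b4 hP0
      have h2 : (Tree798.CT d 1 + SwInv356.Cinv d 1 * d) * P =
          Tree798.CT d 1 * P + SwInv356.Cinv d 1 * (P * d) := by ring
      have h3 : ε / 8 * (n * d) * P = ε / 8 * T := by rw [hT]; ring
      rw [h2, h3] at h1
      exact h1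
    have c5 : 0 ≤ ε * T := by positivity
    have c6 : ε * (n * d) * P = ε * T := by rw [hT]; ring
    rw [c6]
    linarith
  calc cB * _ ≤ cB * (ε * (n * d) * P) := mul_le_mul_of_nonneg_left key hcB0
    _ = ε * ((n * d) * cB) * P := by ring
    _ ≤ ε₀ * ((n * d) * cB) * P := by
        apply mul_le_mul_of_nonneg_right _ hP0
        exact mul_le_mul_of_nonneg_right (min_le_left _ _) (by positivity)

end Crest.Agent.R166.OneLevP598
end

-- ▼ part R166/BlkCmp_547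
section

/-!
# Row 166, section 32 (graph half): `BlkCmp` (helper547)

Two fine edge blocks whose cavity blocks have small off-diagonal entries and `rho`-close diagonal
entries are close entrywise.
-/

set_option autoImplicit false
set_option maxHeartbeats 400000

open Matrix

namespace Crest.Agent.R166.BlkCmp547

open Crest.Agent.R166 Crest.Agent.R166.Stab269 Crest.Agent.R166.Fine522
open Crest.Agent.R166.Res598 Crest.Agent.R166.Dec598 Crest.Agent.R166.Off522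
open Crest.Agent.R166.TreeDet350 (rho)

attribute [local instance] Matrix.linftyOpNormedRing Matrix.linftyOpNormedAlgebra

/-- the difference of two blocks through the difference of their cavity blocks -/
theorem sub_eq_cavB {B B' : Matrix (Fin 2) (Fin 2) ℂ} (hB : IsUnit B.det) (hB' : IsUnit B'.det)
    (h0 : IsUnit (B⁻¹ - W2).det) (h0' : IsUnit (B'⁻¹ - W2).det) :
    B - B' = (1 - B * W2) * (cavB B - cavB B') * (1 - W2 * B') := by
  have e1 : (B⁻¹ - W2) * cavB B = 1 := Matrix.mul_nonsing_inv _ h0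
  have e2 : cavB B' * (B'⁻¹ - W2) = 1 := Matrix.nonsing_inv_mul _ h0'
  have b1 : B * B⁻¹ = 1 := Matrix.mul_nonsing_inv _ hB
  have b2 : B'⁻¹ * B' = 1 := Matrix.nonsing_inv_mul _ hB'
  have f1 : 1 - B * W2 = B * (B⁻¹ - W2) := by
    rw [mul_sub, b1]
  have f2 : 1 - W2 * B' = (B'⁻¹ - W2) * B' := by
    rw [sub_mul, b2]
  rw [f1, f2]
  have g1 : B * (B⁻¹ - W2) * (cavB B - cavB B') * ((B'⁻¹ - W2) * B')
      = B * (((B⁻¹ - W2) * cavB B) * (B'⁻¹ - W2) - (B⁻¹ - W2) * (cavB B' * (B'⁻¹ - W2))) * B' := by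
    noncomm_ring
  rw [g1, e1, e2, one_mul, mul_one]
  have g2 : (B'⁻¹ - W2) - (B⁻¹ - W2) = B'⁻¹ - B⁻¹ := by abel
  rw [g2, mul_sub, sub_mul, b1, one_mul, mul_assoc, b2, mul_one]

/-- Siegel blocks are regular -/
theorem regB_of_siegel {B : Matrix (Fin 2) (Fin 2) ℂ} (hB : Siegel B) : RegB B := by
  refine ⟨hB.isUnit, ?_⟩
  have hV : (-W2r)ᵀ = -W2r := by rw [Matrix.transpose_neg, W2r_symm]
  have h1 := mob_inv hB hV
  have h2 := siegel_mob hB hV
  have h3 : cx (-W2r) = -Stab269.W2 := by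
    rw [← cx_W2r]; ext i j; simp
  rw [h3, ← sub_eq_add_neg] at h1
  rw [← h1]
  exact Matrix.isUnit_nonsing_inv_det _ h2.isUnit

/-- a block bound from a bound of the difference of the cavity blocks -/
theorem blk_norm_sub_le {c M : ℝ} {B B' : Matrix (Fin 2) (Fin 2) ℂ} (h : Fine c B) (h' : Fine c B')
    (hM : ∀ i j, ‖(cavB B - cavB B') i j‖ ≤ M) :
    ‖B - B'‖ ≤ (1 + 2 * c⁻¹) ^ 2 * (2 * M) := by
  have hc := h.pos
  have r := regB_of_siegel h.siegel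
  have r' := regB_of_siegel h'.siegel
  rw [sub_eq_cavB r.det r'.det r.det0 r'.det0]
  have n1 : ‖(1 : Matrix (Fin 2) (Fin 2) ℂ)‖ = 1 := norm_one
  have hBn := norm_le_of_entries h.le
  have hBn' := norm_le_of_entries h'.le
  have a1 : ‖1 - B * W2‖ ≤ 1 + 2 * c⁻¹ := by
    refine (norm_sub_le _ _).trans ?_
    rw [n1]
    have : ‖B * W2‖ ≤ 2 * c⁻¹ := by
      refine (norm_mul_le _ _).trans ?_
      calc ‖B‖ * ‖W2‖ ≤ (2 * c⁻¹) * 1 :=
            mul_le_mul hBn norm_W2_le (norm_nonneg _) (by positivity)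
        _ = 2 * c⁻¹ := mul_one _
    linarith
  have a2 : ‖1 - W2 * B'‖ ≤ 1 + 2 * c⁻¹ := by
    refine (norm_sub_le _ _).trans ?_
    rw [n1]
    have : ‖W2 * B'‖ ≤ 2 * c⁻¹ := by
      refine (norm_mul_le _ _).trans ?_
      calc ‖W2‖ * ‖B'‖ ≤ 1 * (2 * c⁻¹) :=
            mul_le_mul norm_W2_le hBn' (norm_nonneg _) zero_le_one
        _ = 2 * c⁻¹ := one_mul _
    linarith
  have a3 : ‖cavB B - cavB B'‖ ≤ 2 * M := norm_le_of_entries hM
  have hM0 : 0 ≤ 2 * M := (norm_nonneg _).trans a3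
  have hk : (0 : ℝ) ≤ 1 + 2 * c⁻¹ := by positivity
  calc ‖(1 - B * W2) * (cavB B - cavB B') * (1 - W2 * B')‖
      ≤ ‖1 - B * W2‖ * ‖cavB B - cavB B'‖ * ‖1 - W2 * B'‖ :=
        (norm_mul_le _ _).trans (mul_le_mul_of_nonneg_right (norm_mul_le _ _) (norm_nonneg _))
    _ ≤ (1 + 2 * c⁻¹) * (2 * M) * (1 + 2 * c⁻¹) := by
        refine mul_le_mul (mul_le_mul a1 a3 (norm_nonneg _) hk) a2 (norm_nonneg _)
          (mul_nonneg hk hM0)
    _ = _ := by ring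

/-- the imaginary part of a diagonal entry of a fine matrix is positive -/
theorem im_diag_pos {c : ℝ} {Z : Matrix (Fin 2) (Fin 2) ℂ} (h : Fine c Z) (k : Fin 2) :
    0 < (Z k k).im := by
  have h1 := h.im (Pi.single k 1)
  rw [← im_form h.symm] at h1
  have e2 : (star (Pi.single k (1 : ℂ)) ⬝ᵥ (Z *ᵥ Pi.single k 1)) = Z k k := by
    have e3 : star (Pi.single k (1 : ℂ)) = (Pi.single k (1 : ℂ) : Fin 2 → ℂ) := by
      rw [← Pi.single_star, star_one]
    rw [e3]; simp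
  rw [e2] at h1
  have h2 : ∑ i : Fin 2, ‖(Pi.single k (1 : ℂ) : Fin 2 → ℂ) i‖ ^ 2 = 1 := by
    rw [Finset.sum_eq_single k]
    · simp
    · intro j _ hj
      rw [Pi.single_eq_of_ne hj]; simp
    · simp
  rw [h2, mul_one] at h1
  exact lt_of_lt_of_le h.pos h1

/-- `rho`-close points of the upper half plane in a disc are close -/
theorem norm_sub_le_of_rho {x y : ℂ} {δ K : ℝ} (hx : 0 < x.im) (hy : 0 < y.im)
    (hxK : ‖x‖ ≤ K) (hyK : ‖y‖ ≤ K) (hδ : 0 ≤ δ) (h : rho x y ≤ δ) :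
    ‖x - y‖ ≤ δ * (2 * K) := by
  have hne : x - (starRingEnd ℂ) y ≠ 0 := by
    intro h0
    have := congrArg Complex.im h0
    simp only [Complex.sub_im, Complex.conj_im, Complex.zero_im] at this
    linarith
  have hpos : 0 < ‖x - (starRingEnd ℂ) y‖ := norm_pos_iff.2 hne
  unfold TreeDet350.rho at h
  rw [div_le_iff₀ hpos] at h
  refine h.trans (mul_le_mul_of_nonneg_left ?_ hδ)
  refine (norm_sub_le _ _).trans ?_
  rw [Complex.norm_conj]
  linarith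

theorem blkCmp : SpecF3.BlkCmp := by
  intro κ hκ ε hε
  set k1 := kap1 2 κ with hk1
  have hk1p : 0 < k1 := kap1_pos hκ
  set P : ℝ := (1 + 2 * κ⁻¹) ^ 2 * (2 * (2 + 2 * k1⁻¹)) with hP
  have hPp : 0 < P := by positivity
  refine ⟨ε / P, by positivity, ?_⟩
  intro B B' hB hB' ho ho' hr0 hr1
  set δ := ε / P with hδ
  have hδ0 : 0 < δ := by positivity
  have hC : Fine k1 (cavB B) := hB.cavB
  have hC' : Fine k1 (cavB B') := hB'.cavB
  have hk : 0 ≤ k1⁻¹ := by positivity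
  have hdiag : ∀ i : Fin 2, rho (cavB B i i) (cavB B' i i) ≤ δ →
      ‖(cavB B - cavB B') i i‖ ≤ δ * (2 + 2 * k1⁻¹) := by
    intro i hi
    have h1 := norm_sub_le_of_rho (im_diag_pos hC i) (im_diag_pos hC' i) (hC.le i i) (hC'.le i i)
      hδ0.le hi
    rw [Matrix.sub_apply]
    refine h1.trans (mul_le_mul_of_nonneg_left (by linarith) hδ0.le)
  have hoff : ‖(cavB B - cavB B') 0 1‖ ≤ δ * (2 + 2 * k1⁻¹) := by
    rw [Matrix.sub_apply]
    refine (norm_sub_le _ _).trans ?_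
    nlinarith
  have hsymm : (cavB B - cavB B') 1 0 = (cavB B - cavB B') 0 1 := by
    have e1 := congrFun (congrFun hC.symm 0) 1
    have e2 := congrFun (congrFun hC'.symm 0) 1
    rw [Matrix.transpose_apply] at e1 e2
    rw [Matrix.sub_apply, Matrix.sub_apply, e1, e2]
  have hall : ∀ i j, ‖(cavB B - cavB B') i j‖ ≤ δ * (2 + 2 * k1⁻¹) := by
    intro i j
    fin_cases i <;> fin_cases j
    · exact hdiag 0 hr0
    · exact hoff
    · show ‖(cavB B - cavB B') 1 0‖ ≤ _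
      rw [hsymm]; exact hoff
    · exact hdiag 1 hr1
  have hfin := blk_norm_sub_le hB hB' hall
  have hval : (1 + 2 * κ⁻¹) ^ 2 * (2 * (δ * (2 + 2 * k1⁻¹))) = ε := by
    have : (1 + 2 * κ⁻¹) ^ 2 * (2 * (δ * (2 + 2 * k1⁻¹))) = δ * P := by rw [hP]; ring
    rw [this, hδ, div_mul_cancel₀ _ hPp.ne']
  rw [hval] at hfin
  unfold bnorm
  refine max_le (max_le ?_ ?_) (max_le ?_ ?_) <;>
    exact (entry_le_norm _ _ _).trans hfin

end Crest.Agent.R166.BlkCmp547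
end

-- ▼ part R166/F3Fin_798

/-!
# Row 166, section 32 (graph half, helper798): F3 from F1, F2 and Theorem A
-/

set_option autoImplicit false
set_option linter.unusedSectionVars false

open Finset

namespace Crest.Agent.R166.F3Fin798

open Crest.Agent.R166 Crest.Agent.R166.Stab269 Crest.Agent.R166.TreeDet350
  Crest.Agent.R166.AvgCon798 Crest.Agent.R166.Rev811 Crest.Agent.R166.MeanEq269
  Crest.Agent.R166.FineStab798 Crest.Agent.R166.SpecF3 Crest.Agent.R166.Close798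
open Crest.Agent.R166.SwP470 (BI NZ bsw)
open Crest.Agent.R166.TreeT6350 (C6 C6_pos good_shift)
open Crest.Agent.R166.Off522 (Fine)

section state

variable {n d : ℕ} [NeZero d] {y0 : ℝ} {z m : ℂ}

/-- constants -/
noncomputable def CP (d : ℕ) (y0 : ℝ) : ℝ :=
  441 / 400 * (3 / (8 * y0 ^ 4) * (4 * (72 * ((d - 1 : ℕ) : ℝ) ^ 4 / y0 ^ 2)) + C2 (d - 1) y0)

noncomputable def CQ (d : ℕ) (y0 : ℝ) : ℝ :=
  441 / 400 * (3 / (8 * y0 ^ 4) * (2 + 288 / y0 ^ 2 + 256 * BB y0 ^ 2)) +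
    3 * C6 (d - 1) y0 + C3 (d - 1) y0

theorem C2_nonneg (h : Adm (d - 1) y0 z m) : 0 ≤ C2 (d - 1) y0 := by
  have h1 := h.C3_pos
  have h2 := h.hy
  have h3 : 0 ≤ CF (d - 1) y0 := by unfold CF; positivity
  unfold C2; positivity

theorem CP_pos (h : Adm (d - 1) y0 z m) : 0 < CP d y0 := by
  have h1 := C2_nonneg h
  have h2 := h.hy
  have h3 : (0 : ℝ) < ((d - 1 : ℕ) : ℝ) := by linarith [h.b2]
  unfold CP; positivity

theorem CQ_pos (h : Adm (d - 1) y0 z m) : 0 < CQ d y0 := by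
  have h1 := h.C3_pos
  have h2 := h.hy
  have h3 := BB_pos h2
  have h4 := C6_pos h
  unfold CQ; positivity

/-- the state-by-state closed inequality -/
theorem closeV (hd : 3 ≤ d) (hn : 0 < n) (hz : 0 < z.im) (h : Adm (d - 1) y0 z (mc d z))
    {z' : ℂ} (hz' : 0 < z'.im)
    {s : ℝ} {ω : Fin n → ℝ} (hs : |s| ≤ rr (d - 1) y0) (hω : ∀ v, |ω v| ≤ 1)
    {p : Equiv.Perm (HE n d)} (hp : IsPort p) {ε : ℝ} (hε : 0 ≤ ε) (hε1 : ε ≤ 1) :
    gV y0 (mc d z) s ω z z' p ≤ 83 / 100 * Vc y0 (mc d z) s ω z z' p +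
      CP d y0 * (Pc y0 (mc d z) s ω z z' p * Vc y0 (mc d z) s ω z z' p) +
      CQ d y0 * (‖Dc (mc d z) s ω z z' p - gD (mc d z) s ω z z' p‖ ^ 2 + ε +
        (beta ε z z s ω p + beta ε z z' s ω p)) := by
  have : Nonempty (HE n d) := ⟨(⟨0, hn⟩, ⟨0, Nat.pos_of_ne_zero (NeZero.ne d)⟩)⟩
  have hy := h.hy
  have hy1 := h.y0_lt_one
  have hBB := BB_pos hy
  have hC6 := C6_pos h
  have hC3 := h.C3_pos
  have hC2 := C2_nonneg h
  have t1 := gV_le hn h hz hz' hs hω hp hε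
  have t2 := gD_le hn h hz hz' hs hω hp hε hε1
  set V := Vc y0 (mc d z) s ω z z' p with hVdef
  set P := Pc y0 (mc d z) s ω z z' p with hPdef
  set D := Dc (mc d z) s ω z z' p with hDdef
  set g := gD (mc d z) s ω z z' p with hgdef
  set β := beta ε z z s ω p + beta ε z z' s ω p with hβ
  have hβ0 : 0 ≤ β := add_nonneg (beta_nonneg _ _ _ _ _ _) (beta_nonneg _ _ _ _ _ _)
  have hV : 0 ≤ V := VV_nonneg h _
  have hP : 0 ≤ P := pp_nonneg _ _ _ _
  have hroot := Root355.mc_isRoot (by omega : 2 ≤ d) hz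
  have hd' : (3 : ℝ) ≤ d := by exact_mod_cast hd
  have hnr := hroot.nonres (by linarith) hz.le
  have hcast : ((d - 1 : ℕ) : ℂ) = (((d : ℝ) - 1 : ℝ) : ℂ) := by
    rw [Nat.cast_sub (by omega)]
    push_cast
    rfl
  rw [← hcast] at hnr
  have hnr2 : 8 * y0 ^ 2 ≤ ‖1 - ((d - 1 : ℕ) : ℂ) * mc d z ^ 2‖ ^ 2 := by
    have h1 : (2 * Real.sqrt ((d : ℝ) - 1) * (mc d z).im) ^ 2 ≤
        ‖1 - ((d - 1 : ℕ) : ℂ) * mc d z ^ 2‖ ^ 2 := by
      refine pow_le_pow_left₀ ?_ hnr 2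
      have := h.im_pos
      positivity
    have h2 : (2 * Real.sqrt ((d : ℝ) - 1) * (mc d z).im) ^ 2 =
        4 * ((d : ℝ) - 1) * (mc d z).im ^ 2 := by
      rw [mul_pow, mul_pow, Real.sq_sqrt (by linarith)]
      ring
    have h3 : y0 ^ 2 ≤ (mc d z).im ^ 2 := pow_le_pow_left₀ hy.le h.him 2
    rw [h2] at h1
    nlinarith [sq_nonneg (mc d z).im]
  have hD2 : 8 * y0 ^ 2 * ‖D‖ ^ 2 ≤ 2 * ‖D - g‖ ^ 2 +
      2 * ‖g - ((d - 1 : ℕ) : ℂ) * mc d z ^ 2 * D‖ ^ 2 := by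
    have h1 : ‖1 - ((d - 1 : ℕ) : ℂ) * mc d z ^ 2‖ * ‖D‖ ≤
        ‖D - g‖ + ‖g - ((d - 1 : ℕ) : ℂ) * mc d z ^ 2 * D‖ := by
      rw [← norm_mul]
      have e : (1 - ((d - 1 : ℕ) : ℂ) * mc d z ^ 2) * D =
          (D - g) + (g - ((d - 1 : ℕ) : ℂ) * mc d z ^ 2 * D) := by ring
      rw [e]
      exact norm_add_le _ _
    have h2 := pow_le_pow_left₀ (by positivity) h1 2
    rw [mul_pow] at h2
    have h3 := mul_le_mul_of_nonneg_right hnr2 (sq_nonneg ‖D‖)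
    nlinarith [sq_nonneg (‖D - g‖ - ‖g - ((d - 1 : ℕ) : ℂ) * mc d z ^ 2 * D‖)]
  have hC1 : C1 y0 * ‖D‖ ^ 2 ≤ 3 / (8 * y0 ^ 4) * (2 * ‖D - g‖ ^ 2 +
      2 * ‖g - ((d - 1 : ℕ) : ℂ) * mc d z ^ 2 * D‖ ^ 2) := by
    have e : C1 y0 * ‖D‖ ^ 2 = 3 / (8 * y0 ^ 4) * (8 * y0 ^ 2 * ‖D‖ ^ 2) := by
      unfold C1; field_simp
    rw [e]
    exact mul_le_mul_of_nonneg_left hD2 (by positivity)
  set c4 := 72 * ((d - 1 : ℕ) : ℝ) ^ 4 / y0 ^ 2 with hc4
  set q := 3 / (8 * y0 ^ 4) with hq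
  have hq0 : 0 < q := by rw [hq]; positivity
  have h5 : 3 / (8 * y0 ^ 4) * (4 * (1 / 10 ^ 6 * y0 ^ 4 * V)) = 3 / 2000000 * V := by
    field_simp
    ring
  have h6 : q * (2 * ‖D - g‖ ^ 2 + 2 * ‖g - ((d - 1 : ℕ) : ℂ) * mc d z ^ 2 * D‖ ^ 2) ≤
      q * (2 * ‖D - g‖ ^ 2 + 2 * (2 * (1 / 10 ^ 6 * y0 ^ 4 * V + c4 * (P * V)) +
      (144 / y0 ^ 2 * ε + 128 * BB y0 ^ 2 * β))) :=
    mul_le_mul_of_nonneg_left (by linarith) hq0.le
  have h7 : q * (2 * ‖D - g‖ ^ 2 + 2 * (2 * (1 / 10 ^ 6 * y0 ^ 4 * V + c4 * (P * V)) +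
      (144 / y0 ^ 2 * ε + 128 * BB y0 ^ 2 * β))) =
      3 / 2000000 * V + q * (4 * c4) * (P * V) +
      q * (2 * ‖D - g‖ ^ 2 + 288 / y0 ^ 2 * ε + 256 * BB y0 ^ 2 * β) := by
    rw [← h5]; ring
  have hN0 : 0 ≤ ‖D - g‖ ^ 2 := sq_nonneg _
  have h8 : q * (2 * ‖D - g‖ ^ 2 + 288 / y0 ^ 2 * ε + 256 * BB y0 ^ 2 * β) ≤
      q * (2 + 288 / y0 ^ 2 + 256 * BB y0 ^ 2) * (‖D - g‖ ^ 2 + ε + β) := by
    have a1 : 0 ≤ 288 / y0 ^ 2 := by positivity
    have a2 : 0 ≤ 256 * BB y0 ^ 2 := by positivity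
    have a3 : 2 * ‖D - g‖ ^ 2 + 288 / y0 ^ 2 * ε + 256 * BB y0 ^ 2 * β ≤
        (2 + 288 / y0 ^ 2 + 256 * BB y0 ^ 2) * (‖D - g‖ ^ 2 + ε + β) := by
      nlinarith [mul_nonneg a1 hN0, mul_nonneg a1 hβ0, mul_nonneg a2 hN0, mul_nonneg a2 hε]
    calc _ ≤ q * ((2 + 288 / y0 ^ 2 + 256 * BB y0 ^ 2) * (‖D - g‖ ^ 2 + ε + β)) :=
          mul_le_mul_of_nonneg_left a3 hq0.le
      _ = _ := by ring
  have h9 : 3 * C6 (d - 1) y0 * ε + C3 (d - 1) y0 * β ≤
      (3 * C6 (d - 1) y0 + C3 (d - 1) y0) * (‖D - g‖ ^ 2 + ε + β) := by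
    have a1 : 0 ≤ 3 * C6 (d - 1) y0 := by positivity
    nlinarith [mul_nonneg a1 hN0, mul_nonneg a1 hβ0, mul_nonneg hC3.le hN0, mul_nonneg hC3.le hε]
  have h10 : CP d y0 * (P * V) = 441 / 400 * (q * (4 * c4) * (P * V) + C2 (d - 1) y0 * (P * V)) := by
    unfold CP; rw [← hc4, ← hq]; ring
  have h11 : CQ d y0 * (‖D - g‖ ^ 2 + ε + β) =
      441 / 400 * (q * (2 + 288 / y0 ^ 2 + 256 * BB y0 ^ 2) * (‖D - g‖ ^ 2 + ε + β)) +
      (3 * C6 (d - 1) y0 + C3 (d - 1) y0) * (‖D - g‖ ^ 2 + ε + β) := by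
    unfold CQ; rw [← hq]; ring
  rw [h10, h11]
  linarith

/-- the bad fraction is bounded by `V_G` of Theorem A -/
theorem Pc_le (hn : 0 < n) (hz : 0 < z.im) (h : Adm (d - 1) y0 z (mc d z))
    {z' : ℂ} (hz' : 0 < z'.im) (h' : Adm (d - 1) y0 z' (mc d z'))
    (hmm : ‖mc d z - mc d z'‖ ≤ rr (d - 1) y0 / 8)
    {s : ℝ} {ω : Fin n → ℝ} {p : Equiv.Perm (HE n d)} (hp : IsPort p)
    {rs τ : ℝ} (hτ : 0 < τ) (hτr : τ ≤ rs) (hτ2 : τ ≤ rr (d - 1) y0 / 8 * y0 ^ 2) :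
    Pc y0 (mc d z) s ω z z' p ≤
      (SpecA.Vp rs p s ω z + SpecA.Vp rs p s ω z') / τ ^ 2 := by
  have : Nonempty (HE n d) := ⟨(⟨0, hn⟩, ⟨0, Nat.pos_of_ne_zero (NeZero.ne d)⟩)⟩
  have hr0 := h.rr_pos
  have hr4 : rr (d - 1) y0 ≤ 1 / 4 := by linarith [h.rr_le', h.y0_lt_one]
  have hy := h.hy
  rw [MuU395.Vp_av1, MuU395.Vp_av1, ← av1_add, div_eq_inv_mul, ← av1_const_mul]
  unfold Pc pp
  refine av1_mono fun x => ?_
  have key : ∀ w : ℂ, 0 < w.im → Adm (d - 1) y0 w (mc d w) → SpecA.Dv rs p s ω w x < τ →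
      ‖uu (mc d w) (B0 p s ω w x 0 0)‖ ≤ rr (d - 1) y0 / 8 := by
    intro w hw hA hlt
    have h1 : SpecA.dev p s ω w x < τ := by
      unfold SpecA.Dv at hlt
      rcases min_lt_iff.1 hlt with h2 | h2
      · exact absurd h2 (not_lt.2 hτr)
      · exact h2
    have h2 : ‖B0 p s ω w x 0 0 - mc d w‖ ≤ τ :=
      (entry_sub_le_bnorm (mc d w) (B0 p s ω w x)).trans h1.le
    have h3 := Shape395.den_ge'' hA (MuU395.im_B0_pos hp s ω hw x 0).le
    unfold uu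
    have h4 : 0 < y0 ^ 2 := pow_pos hy 2
    rw [norm_div, div_le_iff₀ (lt_of_lt_of_le h4 h3)]
    calc ‖B0 p s ω w x 0 0 - mc d w‖ ≤ rr (d - 1) y0 / 8 * y0 ^ 2 := h2.trans hτ2
      _ ≤ _ := mul_le_mul_of_nonneg_left h3 (by positivity)
  have n1 : 0 ≤ SpecA.Dv rs p s ω z x ^ 2 := sq_nonneg _
  have n2 : 0 ≤ SpecA.Dv rs p s ω z' x ^ 2 := sq_nonneg _
  by_cases h1 : SpecA.Dv rs p s ω z x < τ
  · by_cases h2 : SpecA.Dv rs p s ω z' x < τ
    · have hg : Good (mc d z) (rr (d - 1) y0) (PP p s ω z z' x) := by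
        refine ⟨(key z hz h h1).trans (by linarith), ?_⟩
        exact good_shift h h' hr0.le hr4 hmm (MuU395.im_B0_pos hp s ω hz' x 0).le
          (key z' hz' h' h2)
      rw [bI_good hg]
      exact mul_nonneg (by positivity) (add_nonneg n1 n2)
    · have h3 := bI_le_one (m := mc d z) (rr (d - 1) y0) (PP p s ω z z' x)
      have h4 : τ ^ 2 ≤ SpecA.Dv rs p s ω z' x ^ 2 :=
        pow_le_pow_left₀ hτ.le (not_lt.1 h2) 2
      have h5 : 1 ≤ (τ ^ 2)⁻¹ * (SpecA.Dv rs p s ω z x ^ 2 + SpecA.Dv rs p s ω z' x ^ 2) := by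
        rw [inv_mul_eq_div, le_div_iff₀ (by positivity)]
        linarith
      linarith
  · have h3 := bI_le_one (m := mc d z) (rr (d - 1) y0) (PP p s ω z z' x)
    have h4 : τ ^ 2 ≤ SpecA.Dv rs p s ω z x ^ 2 :=
      pow_le_pow_left₀ hτ.le (not_lt.1 h1) 2
    have h5 : 1 ≤ (τ ^ 2)⁻¹ * (SpecA.Dv rs p s ω z x ^ 2 + SpecA.Dv rs p s ω z' x ^ 2) := by
      rw [inv_mul_eq_div, le_div_iff₀ (by positivity)]
      linarith
    linarith

/-- sum over the states: `Σ V = Σ g_V` -/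
theorem sum_V_eq (hn : 0 < n) (y0 : ℝ) (m : ℂ) (s : ℝ) (ω : Fin n → ℝ) (z z' : ℂ) :
    ∑ p ∈ Ports n d, Vc y0 m s ω z z' p = ∑ p ∈ Ports n d, gV y0 m s ω z z' p := by
  have h1 := Sec522.sum_nu_eq_sum_g (SwP470.moveSystem n d 1 le_rfl) (H4.univ_nonempty 1 hn)
    (fun p h => cost (Mc (d - 1) y0) m (PP p s ω z z' h))
  unfold gV
  rw [← h1]
  refine Finset.sum_congr rfl fun p _ => ?_
  unfold Vc VV Sec269.nuAvg av1
  rw [Finset.card_univ]

theorem Vc_le (hn : 0 < n) (h : Adm (d - 1) y0 z m) (hz : 0 < z.im) {z' : ℂ} (hz' : 0 < z'.im)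
    {s : ℝ} {ω : Fin n → ℝ} {p : Equiv.Perm (HE n d)} (hp : IsPort p) :
    Vc y0 m s ω z z' p ≤ C3 (d - 1) y0 := by
  have : Nonempty (HE n d) := ⟨(⟨0, hn⟩, ⟨0, Nat.pos_of_ne_zero (NeZero.ne d)⟩)⟩
  refine (av1_mono fun x => ?_).trans (le_of_eq (av1_const _))
  exact cost_le_C3 h (MuU395.im_B0_pos hp s ω hz x 0) (MuU395.im_B0_pos hp s ω hz' x 0)

open Classical in
/-- **the closed inequality, summed over the states** -/
theorem sum_V_le (hd : 3 ≤ d) (hn : 0 < n) (hz : 0 < z.im) (h : Adm (d - 1) y0 z (mc d z))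
    {z' : ℂ} (hz' : 0 < z'.im)
    {s : ℝ} {ω : Fin n → ℝ} (hs : |s| ≤ rr (d - 1) y0) (hω : ∀ v, |ω v| ≤ 1)
    {ε : ℝ} (hε : 0 ≤ ε) (hε1 : ε ≤ 1) (Exc : Finset (Equiv.Perm (HE n d)))
    (hExc : ∀ p ∈ Ports n d, p ∉ Exc → CP d y0 * Pc y0 (mc d z) s ω z z' p ≤ 7 / 100)
    {X1 X2 X3 : ℝ} (h1 : ((Ports n d ∩ Exc).card : ℝ) ≤ X1 * (Ports n d).card)
    (h2 : ∑ p ∈ Ports n d, ‖Dc (mc d z) s ω z z' p - gD (mc d z) s ω z z' p‖ ^ 2 ≤
      X2 * (Ports n d).card)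
    (h3 : ∑ p ∈ Ports n d, (beta ε z z s ω p + beta ε z z' s ω p) ≤ X3 * (Ports n d).card) :
    ∑ p ∈ Ports n d, Vc y0 (mc d z) s ω z z' p ≤
      10 * (CP d y0 * C3 (d - 1) y0 * X1 + CQ d y0 * (X2 + ε + X3)) * (Ports n d).card := by
  have : Nonempty (HE n d) := ⟨(⟨0, hn⟩, ⟨0, Nat.pos_of_ne_zero (NeZero.ne d)⟩)⟩
  have hCP := CP_pos h
  have hCQ := CQ_pos h
  have hC3 := h.C3_pos
  have hpt : ∀ p ∈ Ports n d, gV y0 (mc d z) s ω z z' p ≤
      90 / 100 * Vc y0 (mc d z) s ω z z' p +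
      (CP d y0 * C3 (d - 1) y0) * (if p ∈ Exc then (1 : ℝ) else 0) +
      CQ d y0 * (‖Dc (mc d z) s ω z z' p - gD (mc d z) s ω z z' p‖ ^ 2 + ε +
        (beta ε z z s ω p + beta ε z z' s ω p)) := by
    intro p hp
    have hp' := mem_Ports.1 hp
    have hc := closeV hd hn hz h hz' hs hω hp' hε hε1
    have hV : 0 ≤ Vc y0 (mc d z) s ω z z' p := VV_nonneg h _
    have hP : 0 ≤ Pc y0 (mc d z) s ω z z' p := pp_nonneg _ _ _ _
    by_cases hpE : p ∈ Exc
    · rw [if_pos hpE, mul_one]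
      have hP1 : Pc y0 (mc d z) s ω z z' p ≤ 1 := by
        exact pp_le_one _ _ _ _
      have hV3 := Vc_le hn h hz hz' (s := s) (ω := ω) hp'
      have h5 : Pc y0 (mc d z) s ω z z' p * Vc y0 (mc d z) s ω z z' p ≤ 1 * C3 (d - 1) y0 :=
        mul_le_mul hP1 hV3 hV zero_le_one
      have h6 := mul_le_mul_of_nonneg_left h5 hCP.le
      linarith
    · rw [if_neg hpE, mul_zero]
      have h5 := mul_le_mul_of_nonneg_right (hExc p hp hpE) hV
      linarith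
  have hsum := Finset.sum_le_sum hpt
  rw [← sum_V_eq hn, Finset.sum_add_distrib, Finset.sum_add_distrib, ← Finset.mul_sum,
    ← Finset.mul_sum, ← Finset.mul_sum, Finset.sum_add_distrib, Finset.sum_add_distrib,
    Finset.sum_const, nsmul_eq_mul, ← Finset.sum_filter, Finset.sum_const, nsmul_eq_mul,
    mul_one] at hsum
  have e1 : ((Finset.filter (fun p => p ∈ Exc) (Ports n d)).card : ℝ) =
      ((Ports n d ∩ Exc).card : ℝ) := by
    rw [Finset.filter_mem_eq_inter]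
  rw [e1] at hsum
  have h4 := mul_le_mul_of_nonneg_left h1 (mul_pos hCP hC3).le
  have h5 := mul_le_mul_of_nonneg_left
    (show ∑ p ∈ Ports n d, ‖Dc (mc d z) s ω z z' p - gD (mc d z) s ω z z' p‖ ^ 2 +
      ((Ports n d).card : ℝ) * ε + ∑ p ∈ Ports n d, (beta ε z z s ω p + beta ε z z' s ω p) ≤
      (X2 + ε + X3) * (Ports n d).card by nlinarith) hCQ.le
  nlinarith

end state

/-! ### from the cost to the blocks -/

section blocks

variable {n d : ℕ}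

lemma cavB_swap (B : Matrix (Fin 2) (Fin 2) ℂ) :
    cavB (B.submatrix (Equiv.swap 0 1) (Equiv.swap 0 1)) =
      (cavB B).submatrix (Equiv.swap 0 1) (Equiv.swap 0 1) := by
  unfold cavB
  rw [Matrix.inv_submatrix_equiv]
  have h : W2 = W2.submatrix (Equiv.swap 0 1) (Equiv.swap 0 1) := by
    ext i j
    fin_cases i <;> fin_cases j <;> simp [W2]
  have h2 : (B⁻¹).submatrix (Equiv.swap 0 1) (Equiv.swap 0 1) - W2 =
      (B⁻¹ - W2).submatrix (Equiv.swap 0 1) (Equiv.swap 0 1) := by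
    rw [Matrix.submatrix_sub]
    simp only [Pi.sub_apply]
    rw [← h]
  rw [h2, Matrix.inv_submatrix_equiv]

theorem B0_partner {p : Equiv.Perm (HE n d)} (hp : IsPort p) (s : ℝ) (ω : Fin n → ℝ) (z : ℂ)
    (h : HE n d) : B0 p s ω z (p h) 0 0 = B0 p s ω z h 1 1 := by
  have e : BE p s ω z (p h) = (BE p s ω z h).submatrix (Equiv.swap 0 1) (Equiv.swap 0 1) := by
    unfold BE Blk
    rw [hp.inv]
    ext i j
    fin_cases i <;> fin_cases j <;> simp
  unfold B0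
  rw [e, cavB_swap]
  simp

open Classical in
/-- the final comparison for one state -/
theorem block_sum [NeZero d] {y0 : ℝ} {z z' m : ℂ} (h : Adm (d - 1) y0 z m) (hn : 0 < n)
    {κ ε δ : ℝ} (hε : 0 < ε) (hδ : 0 < δ) (hδ1 : δ ≤ 1)
    (hB : ∀ B B' : Matrix (Fin 2) (Fin 2) ℂ,
      Fine κ B → Fine κ B' → ‖cavB B 0 1‖ ≤ δ → ‖cavB B' 0 1‖ ≤ δ →
      rho (cavB B 0 0) (cavB B' 0 0) ≤ δ → rho (cavB B 1 1) (cavB B' 1 1) ≤ δ →
      bnorm (B - B') ≤ ε)
    {p : Equiv.Perm (HE n d)} (hp : IsPort p) (s : ℝ) (ω : Fin n → ℝ) :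
    ∑ x : HE n d, min 1 (bnorm (BE p s ω z x - BE p s ω z' x)) ≤
      (n * d : ℝ) * ε + (nbad κ p s ω z + nbad κ p s ω z') +
        (1 / δ ^ 2) * (∑ x : HE n d, min 1 (‖B0 p s ω z x 0 1‖ ^ 2) +
          ∑ x : HE n d, min 1 (‖B0 p s ω z' x 0 1‖ ^ 2)) +
        (2 / δ ^ 2) * ((n * d : ℝ) * Vc y0 m s ω z z' p) := by
  have : Nonempty (HE n d) := ⟨(⟨0, hn⟩, ⟨0, Nat.pos_of_ne_zero (NeZero.ne d)⟩)⟩
  set R : HE n d → ℝ := fun x => rho (B0 p s ω z x 0 0) (B0 p s ω z' x 0 0) ^ 2 with hR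
  have hδ2 : 0 < δ ^ 2 := by positivity
  have hδ21 : δ ^ 2 ≤ 1 := pow_le_one₀ hδ.le hδ1
  have hpt : ∀ x : HE n d, min 1 (bnorm (BE p s ω z x - BE p s ω z' x)) ≤
      ε + ((if ¬ Fine κ (BE p s ω z x) then (1 : ℝ) else 0) +
        (if ¬ Fine κ (BE p s ω z' x) then (1 : ℝ) else 0)) +
      (1 / δ ^ 2) * (min 1 (‖B0 p s ω z x 0 1‖ ^ 2) + min 1 (‖B0 p s ω z' x 0 1‖ ^ 2)) +
      (1 / δ ^ 2) * (R x + R (p x)) := by
    intro x
    have n1 : (0 : ℝ) ≤ if ¬ Fine κ (BE p s ω z x) then (1 : ℝ) else 0 := by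
      split_ifs <;> norm_num
    have n2 : (0 : ℝ) ≤ if ¬ Fine κ (BE p s ω z' x) then (1 : ℝ) else 0 := by
      split_ifs <;> norm_num
    have m1 : 0 ≤ min 1 (‖B0 p s ω z x 0 1‖ ^ 2) := le_min zero_le_one (sq_nonneg _)
    have m2 : 0 ≤ min 1 (‖B0 p s ω z' x 0 1‖ ^ 2) := le_min zero_le_one (sq_nonneg _)
    have r1 : 0 ≤ R x := sq_nonneg _
    have r2 : 0 ≤ R (p x) := sq_nonneg _
    have i1 : 0 ≤ (1 / δ ^ 2) * min 1 (‖B0 p s ω z x 0 1‖ ^ 2) := mul_nonneg (by positivity) m1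
    have i2 : 0 ≤ (1 / δ ^ 2) * min 1 (‖B0 p s ω z' x 0 1‖ ^ 2) := mul_nonneg (by positivity) m2
    have i3 : 0 ≤ (1 / δ ^ 2) * R x := mul_nonneg (by positivity) r1
    have i4 : 0 ≤ (1 / δ ^ 2) * R (p x) := mul_nonneg (by positivity) r2
    have hmin : min 1 (bnorm (BE p s ω z x - BE p s ω z' x)) ≤ 1 := min_le_left _ _
    rw [mul_add, mul_add]
    by_cases h1 : Fine κ (BE p s ω z x)
    · by_cases h2 : Fine κ (BE p s ω z' x)
      · by_cases h3 : ‖B0 p s ω z x 0 1‖ ≤ δ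
        · by_cases h4 : ‖B0 p s ω z' x 0 1‖ ≤ δ
          · by_cases h5 : rho (B0 p s ω z x 0 0) (B0 p s ω z' x 0 0) ≤ δ
            · by_cases h6 : rho (B0 p s ω z x 1 1) (B0 p s ω z' x 1 1) ≤ δ
              · have := hB _ _ h1 h2 h3 h4 h5 h6
                have := (min_le_right 1 (bnorm (BE p s ω z x - BE p s ω z' x))).trans this
                linarith
              · have h7 : 1 ≤ (1 / δ ^ 2) * R (p x) := by
                  rw [one_div_mul_eq_div, le_div_iff₀ hδ2, one_mul, hR]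
                  simp only
                  rw [B0_partner hp, B0_partner hp]
                  exact pow_le_pow_left₀ hδ.le (not_le.1 h6).le 2
                linarith
            · have h7 : 1 ≤ (1 / δ ^ 2) * R x := by
                rw [one_div_mul_eq_div, le_div_iff₀ hδ2, one_mul]
                exact pow_le_pow_left₀ hδ.le (not_le.1 h5).le 2
              linarith
          · have h7 : 1 ≤ (1 / δ ^ 2) * min 1 (‖B0 p s ω z' x 0 1‖ ^ 2) := by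
              rw [one_div_mul_eq_div, le_div_iff₀ hδ2, one_mul]
              exact le_min hδ21 (pow_le_pow_left₀ hδ.le (not_le.1 h4).le 2)
            linarith
        · have h7 : 1 ≤ (1 / δ ^ 2) * min 1 (‖B0 p s ω z x 0 1‖ ^ 2) := by
            rw [one_div_mul_eq_div, le_div_iff₀ hδ2, one_mul]
            exact le_min hδ21 (pow_le_pow_left₀ hδ.le (not_le.1 h3).le 2)
          linarith
      · rw [if_pos h2]
        linarith
    · rw [if_pos h1]
      linarith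
  refine (Finset.sum_le_sum fun x _ => hpt x).trans ?_
  rw [Finset.sum_add_distrib, Finset.sum_add_distrib, Finset.sum_add_distrib,
    Finset.sum_add_distrib, ← Finset.mul_sum, ← Finset.mul_sum, Finset.sum_add_distrib,
    Finset.sum_add_distrib, Equiv.sum_comp p R, Finset.sum_const, Finset.card_univ,
    IsPort.card_HE, nsmul_eq_mul, ← Finset.sum_filter, ← Finset.sum_filter, Finset.sum_const,
    Finset.sum_const, nsmul_eq_mul, nsmul_eq_mul, mul_one, mul_one]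
  have hRV : ∑ x, R x ≤ (n * d : ℝ) * Vc y0 m s ω z z' p := by
    have h1 := av1_rho_sq_le h (PP p s ω z z')
    unfold av1 at h1
    have hc : (Fintype.card (HE n d) : ℝ) = n * d := by
      rw [IsPort.card_HE]; push_cast; rfl
    have hnd : (0 : ℝ) < n * d := by
      have h1 : (0 : ℝ) < n := by exact_mod_cast hn
      have h2 : (0 : ℝ) < d := by exact_mod_cast Nat.pos_of_ne_zero (NeZero.ne d)
      positivity
    rw [hc, div_le_iff₀ hnd] at h1
    calc ∑ x, R x ≤ VV (d - 1) y0 m (PP p s ω z z') * (n * d : ℝ) := h1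
      _ = _ := by unfold Vc; ring
  have e1 : ((Finset.univ.filter fun x : HE n d => ¬ Fine κ (BE p s ω z x)).card : ℝ) =
      nbad κ p s ω z := by
    unfold nbad
    congr!
  have e2 : ((Finset.univ.filter fun x : HE n d => ¬ Fine κ (BE p s ω z' x)).card : ℝ) =
      nbad κ p s ω z' := by
    unfold nbad
    congr!
  rw [e1, e2]
  push_cast
  have h9 : (1 / δ ^ 2) * (∑ x, R x + ∑ x, R x) ≤
      (2 / δ ^ 2) * ((n * d : ℝ) * Vc y0 m s ω z z' p) := by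
    have : (1 / δ ^ 2) * (∑ x, R x + ∑ x, R x) = (2 / δ ^ 2) * ∑ x, R x := by ring
    rw [this]
    exact mul_le_mul_of_nonneg_left hRV (by positivity)
  linarith

end blocks

/-! ### quantifiers -/

lemma F1P.mono {d : ℕ} {A s0 s1 : ℝ} (h : F1P d A s1) (hs : s0 ≤ s1) : F1P d A s0 := by
  intro ε hε
  obtain ⟨κ, hκ, K0, hK0, N, H⟩ := h ε hε
  exact ⟨κ, hκ, K0, hK0, N, fun n hn E s η hE hsl => H n hn E s η hE (hsl.trans hs)⟩

lemma F2P.mono {d : ℕ} {A s0 s1 : ℝ} (h : F2P d A s1) (hs : s0 ≤ s1) : F2P d A s0 := by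
  intro ε hε
  obtain ⟨κ, hκ, K0, hK0, N, H⟩ := h ε hε
  exact ⟨κ, hκ, K0, hK0, N, fun n hn E s η hE hsl => H n hn E s η hE (hsl.trans hs)⟩

/-- a threshold: `c / x ≤ e` for large `x` -/
lemma div_le_of {c e x : ℝ} (hc : 0 ≤ c) (he : 0 < e) (hx : c / e + 1 ≤ x) : c / x ≤ e := by
  have h1 : 0 ≤ c / e := by positivity
  have hx0 : 0 < x := by linarith
  rw [div_le_iff₀ hx0]
  have h2 : c / e ≤ x := by linarith
  rw [div_le_iff₀ he] at h2
  linarith

lemma norm_ze_sub (E η η' : ℝ) : ‖ze E η - ze E η'‖ = |η - η'| := by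
  have : ze E η - ze E η' = ((η - η' : ℝ) : ℂ) * Complex.I := by
    unfold ze; push_cast; ring
  rw [this, norm_mul, Complex.norm_I, mul_one, Complex.norm_real, Real.norm_eq_abs]

set_option maxHeartbeats 1000000 in
/-- **F3 for fixed `A`, `s0`** -/
theorem f3P {d : ℕ} [NeZero d] (hd : 3 ≤ d) {A : ℝ} (hA0 : 0 < A)
    (hA : A ^ 2 < 4 * ((d : ℝ) - 1)) (hF1 : F1 d) (hF2 : F2 d) (hT : SpecA.ThmA d) :
    ∃ s0 : ℝ, 0 < s0 ∧ F3P d A s0 := by
  classical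
  obtain ⟨s1, hs1, F1A⟩ := hF1 A hA0 hA
  obtain ⟨s2, hs2, F2A⟩ := hF2 A hA0 hA
  obtain ⟨rs, C1A, s3, hrs, hC1A, hs3, HT⟩ := hT A hA0 hA
  -- constants
  set y0 := MuU395.y00 d A with hy0
  have hadm : ∀ E η : ℝ, |E| ≤ A → 0 < η → η ≤ 1 → Adm (d - 1) y0 (ze E η) (mc d (ze E η)) :=
    fun E η hE hη hη1 => MuU395.adm_of hd hA hE hη hη1
  have h00 := hadm 0 1 (by rw [abs_zero]; exact hA0.le) one_pos le_rfl
  have hy := h00.hy
  have hr := h00.rr_pos
  have hCP := CP_pos h00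
  have hCQ := CQ_pos h00
  have hC3 := h00.C3_pos
  have hBB := BB_pos hy
  have hcL : 0 ≤ cL d := by unfold cL; positivity
  set r := rr (d - 1) y0 with hrdef
  set dP : ℝ := 7 / (100 * CP d y0) with hdP
  have hdP0 : 0 < dP := by rw [hdP]; positivity
  set τ : ℝ := min rs (r / 8 * y0 ^ 2) with hτ
  have hτ0 : 0 < τ := by rw [hτ]; exact lt_min hrs (by positivity)
  have hτr : τ ≤ rs := min_le_left _ _
  have hτ2 : τ ≤ r / 8 * y0 ^ 2 := min_le_right _ _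
  set s4 : ℝ := min 1 (dP * τ ^ 2 / (4 * C1A)) with hs4
  have hs40 : 0 < s4 := by rw [hs4]; exact lt_min one_pos (by positivity)
  have hs41 : s4 ≤ 1 := min_le_left _ _
  have hs42 : C1A * s4 ^ 2 ≤ dP * τ ^ 2 / 4 := by
    have h1 : s4 ≤ dP * τ ^ 2 / (4 * C1A) := min_le_right _ _
    have h2 : s4 ^ 2 ≤ s4 := by nlinarith
    calc C1A * s4 ^ 2 ≤ C1A * (dP * τ ^ 2 / (4 * C1A)) :=
          mul_le_mul_of_nonneg_left (h2.trans h1) hC1A.le
      _ = _ := by field_simp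
  obtain ⟨s0, hs0, h01, h02, h03, h04, h0r⟩ : ∃ s0 : ℝ, 0 < s0 ∧ s0 ≤ s1 ∧ s0 ≤ s2 ∧ s0 ≤ s3 ∧
      s0 ≤ s4 ∧ s0 ≤ r := by
    refine ⟨min s1 (min s2 (min s3 (min s4 r))), ?_, ?_, ?_, ?_, ?_, ?_⟩
    · exact lt_min hs1 (lt_min hs2 (lt_min hs3 (lt_min hs40 hr)))
    · exact min_le_left _ _
    · exact (min_le_right _ _).trans (min_le_left _ _)
    · exact (min_le_right _ _).trans ((min_le_right _ _).trans (min_le_left _ _))
    · exact (min_le_right _ _).trans ((min_le_right _ _).trans ((min_le_right _ _).trans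
        (min_le_left _ _)))
    · exact (min_le_right _ _).trans ((min_le_right _ _).trans ((min_le_right _ _).trans
        (min_le_right _ _)))
  refine ⟨s0, hs0, ?_⟩
  have F1s := F1P.mono F1A h01
  have F2s := F2P.mono F2A h02
  have HO := OneLevP598.oneLevFrom d hd A s0 hA0 hA hs0 (h04.trans hs41) F1s F2s
  intro ε hε
  -- choice of the parameters
  obtain ⟨κ1, hκ1, Ka, hKa, Na, HF1a⟩ := F1s (ε / 16) (by positivity)
  obtain ⟨δB, hδB, HB⟩ := BlkCmp547.blkCmp κ1 hκ1 (ε / 2) (by positivity)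
  obtain ⟨δ, hδ0, hδ1, hδB'⟩ : ∃ δ : ℝ, 0 < δ ∧ δ ≤ 1 ∧ δ ≤ δB :=
    ⟨min δB 1, lt_min hδB one_pos, min_le_right _ _, min_le_left _ _⟩
  set εV : ℝ := δ ^ 2 * ε / 16 with hεV
  have hεV0 : 0 < εV := by rw [hεV]; positivity
  set A0 : ℝ := 80 * CQ d y0 * BB y0 ^ 2 with hA0def
  have hA00 : 0 < A0 := by rw [hA0def]; positivity
  obtain ⟨δA, hδA0, hδA1, hδA2⟩ : ∃ δA : ℝ, 0 < δA ∧ δA ≤ dP * τ ^ 2 / 4 ∧
      10 * (CP d y0 * C3 (d - 1) y0 * δA) ≤ εV / 4 := by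
    refine ⟨min (dP * τ ^ 2 / 4) (εV / (40 * (CP d y0 * C3 (d - 1) y0))),
      lt_min (by positivity) (by positivity), min_le_left _ _, ?_⟩
    have h1 : min (dP * τ ^ 2 / 4) (εV / (40 * (CP d y0 * C3 (d - 1) y0))) ≤
        εV / (40 * (CP d y0 * C3 (d - 1) y0)) := min_le_right _ _
    calc 10 * (CP d y0 * C3 (d - 1) y0 *
          min (dP * τ ^ 2 / 4) (εV / (40 * (CP d y0 * C3 (d - 1) y0))))
        ≤ 10 * (CP d y0 * C3 (d - 1) y0 * (εV / (40 * (CP d y0 * C3 (d - 1) y0)))) :=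
          mul_le_mul_of_nonneg_left (mul_le_mul_of_nonneg_left h1 (by positivity)) (by norm_num)
      _ = εV / 4 := by field_simp; ring
  obtain ⟨ε3, hε30, hε31, hε32⟩ : ∃ ε3 : ℝ, 0 < ε3 ∧ ε3 ≤ 1 ∧
      10 * (CQ d y0 * (3 * ε3)) ≤ εV / 4 := by
    refine ⟨min 1 (εV / (120 * CQ d y0)), lt_min one_pos (by positivity), min_le_left _ _, ?_⟩
    have h1 : min 1 (εV / (120 * CQ d y0)) ≤ εV / (120 * CQ d y0) := min_le_right _ _
    calc 10 * (CQ d y0 * (3 * min 1 (εV / (120 * CQ d y0))))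
        ≤ 10 * (CQ d y0 * (3 * (εV / (120 * CQ d y0)))) :=
          mul_le_mul_of_nonneg_left (mul_le_mul_of_nonneg_left
            (mul_le_mul_of_nonneg_left h1 (by norm_num)) hCQ.le) (by norm_num)
      _ = εV / 4 := by field_simp; ring
  set e1 : ℝ := εV / (64 * A0) with he1
  have he10 : 0 < e1 := by rw [he1]; positivity
  obtain ⟨κ2, hκ2, Kb, hKb, Nb, HF1b⟩ := F1s e1 he10
  have hCS := CS_nonneg hy hκ2
  obtain ⟨Kc, hKc, HTc⟩ := HT δA hδA0
  obtain ⟨η2, hη2, Kd, hKd, Nd, HF2⟩ := F2s (δ ^ 2 * ε / 16) (by positivity)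
  obtain ⟨η3, hη3, Ke, hKe, Ne, HOe⟩ := HO ε3 hε30
  set J2 : ℝ := (Fintype.card (SwComm356.J d 1) : ℝ) ^ 2 with hJ2
  have hJ20 : 0 ≤ J2 := by rw [hJ2]; positivity
  set e4 : ℝ := εV / (16 * A0) with he4
  have he40 : 0 < e4 := by rw [he4]; positivity
  -- K
  obtain ⟨K, hK0, hKa', hKb', hKc', hKd', hKe', hKf⟩ : ∃ K : ℝ, 0 < K ∧ Ka ≤ K ∧ Kb ≤ K ∧
      Kc ≤ K ∧ Kd ≤ K ∧ Ke ≤ K ∧ 8 * CS y0 κ2 * cL d / BB y0 / e4 + 1 ≤ K := by
    have hq : 0 ≤ 8 * CS y0 κ2 * cL d / BB y0 / e4 := by positivity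
    refine ⟨Ka + Kb + Kc + Kd + Ke + (8 * CS y0 κ2 * cL d / BB y0 / e4 + 1), ?_, ?_, ?_, ?_, ?_,
      ?_, ?_⟩ <;> linarith
  obtain ⟨Nc, HTn⟩ := HTc K hKc'
  obtain ⟨Nf, hNf1, hNf2⟩ : ∃ Nf : ℕ, 4 * cL d / e4 + 1 ≤ Nf ∧ 2 * J2 / e4 + 1 ≤ Nf := by
    obtain ⟨N1, hN1⟩ := exists_nat_ge (4 * cL d / e4 + 1)
    obtain ⟨N2, hN2⟩ := exists_nat_ge (2 * J2 / e4 + 1)
    refine ⟨N1 + N2, ?_, ?_⟩
    · push_cast
      have : (0 : ℝ) ≤ N2 := Nat.cast_nonneg _
      linarith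
    · push_cast
      have : (0 : ℝ) ≤ N1 := Nat.cast_nonneg _
      linarith
  obtain ⟨η1, hη10, hη11, hη12, hη13, hη14⟩ : ∃ η1 : ℝ, 0 < η1 ∧ η1 ≤ 1 ∧ η1 ≤ η2 ∧ η1 ≤ η3 ∧
      η1 ≤ r * y0 / 8 := by
    refine ⟨min 1 (min η2 (min η3 (r * y0 / 8))), ?_, ?_, ?_, ?_, ?_⟩
    · exact lt_min one_pos (lt_min hη2 (lt_min hη3 (by positivity)))
    · exact min_le_left _ _
    · exact (min_le_right _ _).trans (min_le_left _ _)
    · exact (min_le_right _ _).trans ((min_le_right _ _).trans (min_le_left _ _))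
    · exact (min_le_right _ _).trans ((min_le_right _ _).trans (min_le_right _ _))
  refine ⟨η1, hη10, K, hK0, Na + Nb + Nc + Nd + Ne + Nf + 1, ?_⟩
  intro n hnN E s η η' hE hsl hη hηu hη' hηu' ω hω
  have hn : 0 < n := by omega
  have hn' : (0 : ℝ) < n := by exact_mod_cast hn
  have hd0 : (0 : ℝ) < d := by exact_mod_cast (by omega : 0 < d)
  have hd1 : (1 : ℝ) ≤ d := by exact_mod_cast (by omega : 1 ≤ d)
  have hKn : ∀ K' : ℝ, K' ≤ K → K' / n ≤ η := fun K' h =>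
    (div_le_div_of_nonneg_right h hn'.le).trans hη
  have hKn' : ∀ K' : ℝ, K' ≤ K → K' / n ≤ η' := fun K' h =>
    (div_le_div_of_nonneg_right h hn'.le).trans hη'
  have hηp : 0 < η := lt_of_lt_of_le (by positivity) hη
  have hηp' : 0 < η' := lt_of_lt_of_le (by positivity) hη'
  have hη1 : η ≤ 1 := hηu.trans hη11
  have hη1' : η' ≤ 1 := hηu'.trans hη11
  have hzi : ∀ t : ℝ, (ze E t).im = t := fun t => by simp [ze]
  have hz : 0 < (ze E η).im := by rw [hzi]; exact hηp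
  have hz' : 0 < (ze E η').im := by rw [hzi]; exact hηp'
  have h := hadm E η hE hηp hη1
  have h' := hadm E η' hE hηp' hη1'
  have hsr : |s| ≤ r := hsl.trans h0r
  have hNP : (0 : ℝ) ≤ (Ports n d).card := Nat.cast_nonneg _
  -- the roots are close
  have hmm : ‖mc d (ze E η) - mc d (ze E η')‖ ≤ r / 8 := by
    have hroot := Root355.mc_isRoot (by omega : 2 ≤ d) hz
    have hroot' := Root355.mc_isRoot (by omega : 2 ≤ d) hz'
    have hd3 : (3 : ℝ) ≤ d := by exact_mod_cast hd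
    have h1 := hroot.lipschitz hroot' (by linarith) hz.le hz'.le
    rw [norm_ze_sub] at h1
    have h2 : |η - η'| ≤ η1 := by
      rw [abs_le]; constructor <;> linarith
    have h3 : |η - η'| / (mc d (ze E η)).im ≤ (r * y0 / 8) / y0 :=
      div_le_div₀ (by positivity) (h2.trans hη14) hy h.him
    refine h1.trans (h3.trans (le_of_eq ?_))
    field_simp
  -- inputs
  have F1a1 := HF1a n (by omega) E s η hE hsl (hKn _ hKa') hη1 ω hω
  have F1a2 := HF1a n (by omega) E s η' hE hsl (hKn' _ hKa') hη1' ω hω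
  have F1b1 := HF1b n (by omega) E s η hE hsl (hKn _ hKb') hη1 ω hω
  have F1b2 := HF1b n (by omega) E s η' hE hsl (hKn' _ hKb') hη1' ω hω
  have F21 := HF2 n (by omega) E s η hE hsl (hKn _ hKd') (hηu.trans hη12) ω hω
  have F22 := HF2 n (by omega) E s η' hE hsl (hKn' _ hKd') (hηu'.trans hη12) ω hω
  have O1 := HOe n (by omega) E s η η hE hsl (hKn _ hKe') (hηu.trans hη13) (hKn _ hKe')
    (hηu.trans hη13) ω hω
  have O2 := HOe n (by omega) E s η η' hE hsl (hKn _ hKe') (hηu.trans hη13) (hKn' _ hKe')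
    (hηu'.trans hη13) ω hω
  have T1 := HTn n (by omega) E s hE (hsl.trans h03) ω hω
  -- the exceptional set
  set Exc : Finset (Equiv.Perm (HE n d)) := (Ports n d).filter fun p => ∃ η : ℝ, K / n ≤ η ∧
    η ≤ 1 ∧ C1A * s ^ 2 + δA < SpecA.Vp rs p s ω (ze E η) with hExc
  have hX1 : ((Ports n d ∩ Exc).card : ℝ) ≤ δA * (Ports n d).card := by
    have e : Ports n d ∩ Exc = Exc := by
      rw [Finset.inter_eq_right, hExc]
      exact Finset.filter_subset _ _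
    rw [e]
    refine le_trans (le_of_eq ?_) T1
    rw [hExc]
  have hs2' : C1A * s ^ 2 ≤ dP * τ ^ 2 / 4 := by
    refine le_trans ?_ hs42
    refine mul_le_mul_of_nonneg_left ?_ hC1A.le
    rw [← sq_abs]
    exact pow_le_pow_left₀ (abs_nonneg _) (hsl.trans h04) 2
  have hExc2 : ∀ p ∈ Ports n d, p ∉ Exc →
      CP d y0 * Pc y0 (mc d (ze E η)) s ω (ze E η) (ze E η') p ≤ 7 / 100 := by
    intro p hp hpE
    have hp1 := mem_Ports.1 hp
    have h1 := Pc_le hn hz h hz' h' hmm (s := s) (ω := ω) hp1 hτ0 hτr hτ2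
    have h2 : ∀ t : ℝ, K / n ≤ t → t ≤ 1 → SpecA.Vp rs p s ω (ze E t) ≤ C1A * s ^ 2 + δA := by
      intro t ht1 ht2
      by_contra hc
      exact hpE (Finset.mem_filter.2 ⟨hp, t, ht1, ht2, not_le.1 hc⟩)
    have h3 := h2 η hη hη1
    have h4 := h2 η' hη' hη1'
    have h5 : (SpecA.Vp rs p s ω (ze E η) + SpecA.Vp rs p s ω (ze E η')) / τ ^ 2 ≤ dP := by
      rw [div_le_iff₀ (by positivity)]
      linarith
    calc CP d y0 * Pc y0 (mc d (ze E η)) s ω (ze E η) (ze E η') p ≤ CP d y0 * dP :=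
          mul_le_mul_of_nonneg_left (h1.trans h5) hCP.le
      _ = 7 / 100 := by rw [hdP]; field_simp
  -- second moment
  have hX2 := sm_D (n := n) (d := d) h hκ2 hn s ω (z := ze E η) (z' := ze E η') (K := K) (ε := e1)
    hK0 (by rw [hzi]; exact hη) (by rw [hzi]; exact hη') F1b1 F1b2
  -- bad moves
  have hMv0 : (0 : ℝ) < (Fintype.card (Mv1 n d) : ℝ) := by
    have : Nonempty (HE n d) := ⟨(⟨0, hn⟩, ⟨0, Nat.pos_of_ne_zero (NeZero.ne d)⟩)⟩
    exact_mod_cast Fintype.card_pos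
  have hX3 : ∑ p ∈ Ports n d, (beta ε3 (ze E η) (ze E η) s ω p +
      beta ε3 (ze E η) (ze E η') s ω p) ≤ (2 * ε3) * (Ports n d).card := by
    rw [Finset.sum_add_distrib]
    have hb : ∀ t : ℝ, ∑ p ∈ Ports n d, ((Finset.univ.filter fun mv : Mv1 n d =>
          ¬ rho (B0 (bsw 1 p mv).1 s ω (ze E t) mv.1 0 0)
            (cav (ze E η) (s * ω mv.1.1) fun j : Fin (d - 1) =>
              B0 p s ω (ze E t) (mv.2 (kk d j)) 0 0) ≤ ε3).card : ℝ) ≤
        ε3 * (Fintype.card (Mv1 n d) : ℝ) * (Ports n d).card →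
        ∑ p ∈ Ports n d, beta ε3 (ze E η) (ze E t) s ω p ≤ ε3 * (Ports n d).card := by
      intro t ht
      unfold beta
      rw [← Finset.sum_div, div_le_iff₀ hMv0]
      refine le_trans (le_of_eq ?_) (ht.trans (le_of_eq (by ring)))
      refine Finset.sum_congr rfl fun p _ => ?_
      congr!
    have h1 := hb η (le_trans (le_of_eq (by congr!)) O1)
    have h2 := hb η' (le_trans (le_of_eq (by congr!)) O2)
    linarith
  have hV := sum_V_le hd hn hz h hz' hsr hω hε30.le hε31 Exc hExc2 hX1 hX2 hX3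
  -- `Σ V ≤ εV #Ports`
  have hd2 : 8 * BB y0 ^ 2 * (2 * del2 n d y0 κ2 K e1 + 2 * (J2 / n)) * (10 * CQ d y0) ≤
      εV / 4 := by
    have t1 : 8 * CS y0 κ2 * cL d / BB y0 / K ≤ e4 := div_le_of (by positivity) he40 hKf
    have hnNf : (Nf : ℝ) ≤ n := by exact_mod_cast (by omega : Nf ≤ n)
    have t2 : 4 * cL d / n ≤ e4 := div_le_of (by positivity) he40 (hNf1.trans hnNf)
    have t3 : 2 * J2 / n ≤ e4 := div_le_of (by positivity) he40 (hNf2.trans hnNf)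
    have t4 : 4 * e1 = e4 := by rw [he1, he4]; ring
    have t5 : 2 * del2 n d y0 κ2 K e1 + 2 * (J2 / n) ≤ 4 * e4 := by
      unfold del2
      have u1 : 2 * ((4 * CS y0 κ2 * cL d / K) / BB y0) = 8 * CS y0 κ2 * cL d / BB y0 / K := by
        field_simp
        ring
      have u2 : 2 * (2 * cL d / (n * d)) ≤ 4 * cL d / n := by
        have : 2 * (2 * cL d / (n * d)) = 4 * cL d / (n * d) := by ring
        rw [this]
        exact div_le_div_of_nonneg_left (mul_nonneg (by norm_num) hcL) hn'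
          (le_mul_of_one_le_right hn'.le hd1)
      have u3 : 2 * (J2 / n) = 2 * J2 / n := by ring
      have u4 : 2 * ((4 * CS y0 κ2 * cL d / K) / BB y0 + 2 * cL d / (n * d) + 2 * e1) =
          2 * ((4 * CS y0 κ2 * cL d / K) / BB y0) + 2 * (2 * cL d / (n * d)) + 4 * e1 := by ring
      rw [u4, u1, u3, t4]
      linarith
    calc 8 * BB y0 ^ 2 * (2 * del2 n d y0 κ2 K e1 + 2 * (J2 / n)) * (10 * CQ d y0)
        = A0 * (2 * del2 n d y0 κ2 K e1 + 2 * (J2 / n)) := by rw [hA0def]; ring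
      _ ≤ A0 * (4 * e4) := mul_le_mul_of_nonneg_left t5 hA00.le
      _ = εV / 4 := by rw [he4]; field_simp; ring
  have hVf : ∑ p ∈ Ports n d, Vc y0 (mc d (ze E η)) s ω (ze E η) (ze E η') p ≤
      εV * (Ports n d).card := by
    refine hV.trans (mul_le_mul_of_nonneg_right ?_ hNP)
    have e : 10 * (CP d y0 * C3 (d - 1) y0 * δA + CQ d y0 * (8 * BB y0 ^ 2 *
        (2 * del2 n d y0 κ2 K e1 + 2 * (J2 / n)) + ε3 + 2 * ε3)) =
        10 * (CP d y0 * C3 (d - 1) y0 * δA) +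
        8 * BB y0 ^ 2 * (2 * del2 n d y0 κ2 K e1 + 2 * (J2 / n)) * (10 * CQ d y0) +
        10 * (CQ d y0 * (3 * ε3)) := by ring
    refine (le_of_eq e).trans ?_
    linarith
  -- blocks
  have hB' : ∀ B B' : Matrix (Fin 2) (Fin 2) ℂ,
      Fine κ1 B → Fine κ1 B' → ‖cavB B 0 1‖ ≤ δ → ‖cavB B' 0 1‖ ≤ δ →
      rho (cavB B 0 0) (cavB B' 0 0) ≤ δ → rho (cavB B 1 1) (cavB B' 1 1) ≤ δ →
      bnorm (B - B') ≤ ε / 2 := fun B B' g1 g2 g3 g4 g5 g6 =>
    HB B B' g1 g2 (g3.trans hδB') (g4.trans hδB') (g5.trans hδB') (g6.trans hδB')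
  have hbs : ∀ p ∈ Ports n d, ∑ x : HE n d, min 1 (bnorm (BE p s ω (ze E η) x -
      BE p s ω (ze E η') x)) ≤
      (n * d : ℝ) * (ε / 2) + (nbad κ1 p s ω (ze E η) + nbad κ1 p s ω (ze E η')) +
        (1 / δ ^ 2) * (∑ x : HE n d, min 1 (‖B0 p s ω (ze E η) x 0 1‖ ^ 2) +
          ∑ x : HE n d, min 1 (‖B0 p s ω (ze E η') x 0 1‖ ^ 2)) +
        (2 / δ ^ 2) * ((n * d : ℝ) * Vc y0 (mc d (ze E η)) s ω (ze E η) (ze E η') p) :=
    fun p hp => block_sum h hn (by positivity) hδ0 hδ1 hB' (mem_Ports.1 hp) s ω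
  refine (Finset.sum_le_sum hbs).trans ?_
  rw [Finset.sum_add_distrib, Finset.sum_add_distrib, Finset.sum_add_distrib,
    Finset.sum_add_distrib, Finset.sum_const, nsmul_eq_mul, ← Finset.mul_sum,
    Finset.sum_add_distrib, ← Finset.mul_sum, ← Finset.mul_sum]
  have hnd : (0 : ℝ) < n * d := by positivity
  have v1 := mul_le_mul_of_nonneg_left (add_le_add F21 F22)
    (show (0 : ℝ) ≤ 1 / δ ^ 2 by positivity)
  have v2 := mul_le_mul_of_nonneg_left (mul_le_mul_of_nonneg_left hVf hnd.le)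
    (show (0 : ℝ) ≤ 2 / δ ^ 2 by positivity)
  have v3 : 1 / δ ^ 2 * (δ ^ 2 * ε / 16 * (n * d) * (Ports n d).card +
      δ ^ 2 * ε / 16 * (n * d) * (Ports n d).card) = ε / 8 * (n * d) * (Ports n d).card := by
    field_simp; ring
  have v4 : 2 / δ ^ 2 * (n * d * (εV * (Ports n d).card)) =
      ε / 8 * (n * d) * (Ports n d).card := by
    rw [hεV]; field_simp; ring
  rw [v3] at v1
  rw [v4] at v2
  have v5 : ∑ p ∈ Ports n d, nbad κ1 p s ω (ze E η) ≤ ε / 16 * (n * d) * (Ports n d).card :=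
    F1a1
  have v6 : ∑ p ∈ Ports n d, nbad κ1 p s ω (ze E η') ≤ ε / 16 * (n * d) * (Ports n d).card :=
    F1a2
  have v7 : 0 ≤ ε * (n * d) * (Ports n d).card := by positivity
  linarith

/-- **F3** -/
theorem f3From (d : ℕ) : F3From d := by
  intro hd hF1 hF2 hT A hA0 hA
  have : NeZero d := ⟨by omega⟩
  exact f3P hd hA0 hA hF1 hF2 hT

end Crest.Agent.R166.F3Fin798
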