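import Mathlib
import Crest.Agent.R166.Bern3_385
import Crest.Agent.R166.Spec42_385
import Crest.Agent.R166.Spec_B2_385

-- ▼ part R166/Bern4_385
section

/-!
# Row 166, 42.5: the star theorem for measures (helper385)

`StarHyp μ e a β`, `a i > 0`, `∑ β = e`, at least three neighbours ⇒ `V` is independent of `W`,
and `W` is Gaussian with covariance proportional to `Kf a`.
-/

set_option autoImplicit false

open MeasureTheory ProbabilityTheory
open Crest.Agent.R166.Bern385
open scoped ContDiff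

namespace Crest.Agent.R166.B2

section Gen

variable {Ω' : Type*} [MeasurableSpace Ω'] {μ : Measure Ω'}

/-- characteristic functions of square integrable vectors are `C²` -/
lemma contDiff_cf [IsFiniteMeasure μ] {J : Type*} [Fintype J]
    (U : Ω' → J → ℝ) (hU : ∀ j, MemLp (fun y => U y j) 2 μ) :
    ContDiff ℝ 2 (fun c : J → ℝ => ∫ y, Complex.exp (Complex.I * ((∑ j, c j * U y j : ℝ) : ℂ)) ∂μ) := by
  classical
  set T : Ω' → EuclideanSpace ℝ J := fun y => WithLp.toLp 2 (U y) with hT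
  have hUm : AEMeasurable U μ := aemeasurable_pi_iff.2 fun j => (hU j).1.aemeasurable
  have hTm : AEMeasurable T μ :=
    (PiLp.continuous_toLp 2 (fun _ : J => ℝ)).measurable.comp_aemeasurable hUm
  have hmem : MemLp T 2 μ := by
    rw [memLp_two_iff_integrable_sq_norm hTm.aestronglyMeasurable]
    have : (fun x => ‖T x‖ ^ 2) = fun x => ∑ j, (U x j) ^ 2 := by
      funext x
      rw [hT, EuclideanSpace.norm_sq_eq]
      simp
    rw [this]
    exact integrable_finsetSum _ fun j _ => (hU j).integrable_sq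
  have hmap : MemLp id (2 : ℕ) (μ.map T) := by
    have := (memLp_map_measure_iff (f := T) (g := (id : EuclideanSpace ℝ J → EuclideanSpace ℝ J))
      (p := 2) (μ := μ) aestronglyMeasurable_id hTm).2
    exact_mod_cast this (by simpa using hmem)
  have hc : ContDiff ℝ 2 (charFun (μ.map T)) := by
    have := contDiff_charFun (μ := μ.map T) (n := 2) hmap
    exact_mod_cast this
  have hlin : ContDiff ℝ 2 (fun c : J → ℝ => (WithLp.toLp 2 c : EuclideanSpace ℝ J)) :=
    (PiLp.continuousLinearEquiv 2 ℝ (fun _ : J => ℝ)).symm.contDiff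
  have := hc.comp hlin
  convert this using 1
  funext c
  simp only [Function.comp_apply]
  rw [charFun_apply, integral_map hTm (by fun_prop)]
  congr 1
  funext y
  rw [hT]
  congr 1
  rw [mul_comm]
  congr 2

lemma deriv_quad (L q : ℂ) (t : ℝ) :
    HasDerivAt (fun t : ℝ => (t : ℂ) * L + (t : ℂ) ^ 2 * q / 2) (L + t * q) t := by
  have h1 : HasDerivAt (fun t : ℝ => (t : ℂ)) 1 t := Complex.ofRealCLM.hasDerivAt
  have h2 : HasDerivAt (fun t : ℝ => (t : ℂ) * L + (t : ℂ) ^ 2 * q / 2) _ t :=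
    (h1.mul_const L).add (((h1.pow 2).mul_const q).div_const 2)
  refine h2.congr_deriv ?_
  simp
  ring

/-- moments of a quadratic exponential characteristic function -/
lemma moments_of_exp [IsProbabilityMeasure μ] (U : Ω' → ℝ) (hU : MemLp U 2 μ) (L q : ℂ)
    (h : ∀ t : ℝ, ∫ y, Complex.exp (Complex.I * ((t * U y : ℝ) : ℂ)) ∂μ =
      Complex.exp (t * L + t ^ 2 * q / 2)) :
    L = Complex.I * ((∫ y, U y ∂μ : ℝ) : ℂ) ∧
      q = -((∫ y, U y ^ 2 ∂μ - (∫ y, U y ∂μ) ^ 2 : ℝ) : ℂ) := by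
  have hUm := hU.1.aemeasurable
  have hcf : charFun (μ.map U) = fun t : ℝ => Complex.exp (t * L + t ^ 2 * q / 2) := by
    funext t
    rw [← h t, charFun_apply_real, integral_map hUm (by fun_prop)]
    congr 1
    funext y
    congr 1
    push_cast
    ring
  have : IsProbabilityMeasure (μ.map U) := Measure.isProbabilityMeasure_map hUm
  have hmap2 : MemLp id (2 : ℕ) (μ.map U) := by
    have := (memLp_map_measure_iff (f := U) (g := (id : ℝ → ℝ))
      (p := 2) (μ := μ) aestronglyMeasurable_id hUm).2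
    exact_mod_cast this (by simpa using hU)
  have hmap1 : MemLp id (1 : ℕ) (μ.map U) := hmap2.mono_exponent (by simp)
  have e1 := iteratedDeriv_charFun_zero hmap1
  have e2 := iteratedDeriv_charFun_zero hmap2
  have hd1 : ∀ t : ℝ, HasDerivAt (fun t : ℝ => Complex.exp (t * L + t ^ 2 * q / 2))
      (Complex.exp (t * L + t ^ 2 * q / 2) * (L + t * q)) t := fun t => (deriv_quad L q t).cexp
  have hderiv : deriv (charFun (μ.map U)) =
      fun t : ℝ => Complex.exp (t * L + t ^ 2 * q / 2) * (L + t * q) := by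
    rw [hcf]; funext t; exact (hd1 t).deriv
  have hd2 : deriv (deriv (charFun (μ.map U))) 0 = L ^ 2 + q := by
    rw [hderiv]
    have h3 : HasDerivAt (fun t : ℝ => L + (t : ℂ) * q) (1 * q) 0 :=
      ((Complex.ofRealCLM.hasDerivAt (x := (0 : ℝ))).mul_const q).const_add L
    have h4 := (hd1 0).mul h3
    have h5 : deriv (fun t : ℝ => Complex.exp (t * L + t ^ 2 * q / 2) * (L + t * q)) 0 = _ := h4.deriv
    rw [h5]
    simp
    ring
  rw [iteratedDeriv_one, hderiv, integral_map hUm (by fun_prop)] at e1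
  rw [iteratedDeriv_succ, iteratedDeriv_one, hd2, integral_map hUm (by fun_prop)] at e2
  simp at e1 e2
  refine ⟨e1, ?_⟩
  have : q = -((∫ y, U y ^ 2 ∂μ : ℝ) : ℂ) - L ^ 2 := by
    linear_combination e2
  rw [this, e1]
  push_cast
  rw [mul_pow, Complex.I_sq]
  ring


end Gen

section Star

variable {ι κ : Type*} [Fintype ι] [DecidableEq ι] [Fintype κ]
variable {μ : Measure (Option ι → κ → ℝ)} {e : ℝ} {a β : ι → ℝ}

lemma StarHyp.memLp (H : StarHyp μ e a β) (c : Option ι) (l : κ) :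
    MemLp (fun y : Option ι → κ → ℝ => y c l) 2 μ :=
  (memLp_two_iff_integrable_sq (show Measurable (fun y : Option ι → κ → ℝ => y c l) from
    (measurable_pi_apply l).comp (measurable_pi_apply c)).aestronglyMeasurable).2 (H.sq c l)

lemma StarHyp.memLpW (H : StarHyp μ e a β) (i : ι) (l : κ) :
    MemLp (fun y : Option ι → κ → ℝ => y (some i) l - β i * y none l) 2 μ :=
  (H.memLp (some i) l).sub ((H.memLp none l).const_mul (β i))

/-- `psi` is `C²` in both variables -/
lemma StarHyp.contDiff (H : StarHyp μ e a β) :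
    ContDiff ℝ 2 (fun p : (κ → ℝ) × (ι → κ → ℝ) => psi μ β p.1 p.2) := by
  have := H.prob
  set U : (Option ι → κ → ℝ) → (κ ⊕ ι × κ) → ℝ := fun y j => Sum.elim (fun l => y none l)
    (fun q => y (some q.1) q.2 - β q.1 * y none q.2) j with hU
  have h1 := contDiff_cf (μ := μ) U (by
    rintro (l | ⟨i, l⟩)
    · exact H.memLp none l
    · exact H.memLpW i l)
  have h2 : ContDiff ℝ 2 (fun p : (κ → ℝ) × (ι → κ → ℝ) =>
      (fun j : κ ⊕ ι × κ => Sum.elim (fun l => p.1 l) (fun q => p.2 q.1 q.2) j)) := by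
    rw [contDiff_pi]
    rintro (l | ⟨i, l⟩)
    · simp only [Sum.elim_inl]; fun_prop
    · simp only [Sum.elim_inr]; fun_prop
  have := h1.comp h2
  convert this using 1
  funext p
  simp only [Function.comp_apply, psi, hU]
  congr 1
  funext y
  congr 3
  rw [Fintype.sum_sum_type, Fintype.sum_prod_type, Finset.sum_add_distrib]
  simp only [Sum.elim_inl, Sum.elim_inr]
  rw [Finset.sum_comm]

lemma StarHyp.psi_zero (H : StarHyp μ e a β) : psi μ β 0 0 = 1 := by
  have := H.prob
  simp [psi]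

lemma StarHyp.psi_inv (H : StarHyp μ e a β) (hβ : ∑ i, β i = e) (x : κ → ℝ) (w : ι → κ → ℝ)
    (c : κ → ℝ) : psi μ β x (w + fun _ => c) = psi μ β x w := by
  rw [psi, psi]
  refine integral_congr_ae ?_
  filter_upwards [H.eq] with y hy
  congr 3
  refine Finset.sum_congr rfl fun l _ => ?_
  congr 1
  simp only [Pi.add_apply, add_mul, Finset.sum_add_distrib]
  rw [← Finset.mul_sum, Finset.sum_sub_distrib, ← Finset.sum_mul, hβ, hy l]
  ring

lemma single_contr {a : ι → ℝ} (ha : ∀ i, 0 < a i) (h3 : 3 ≤ Fintype.card ι) {i j : ι}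
    (hij : j ≠ i) :
    |(a j / ((∑ k, a k) - a i)) * (a i / ((∑ k, a k) - a j))| < 1 := by
  have h1 := sum_lt2 ha h3 hij
  have hi := ha i
  have hj := ha j
  have p1 : 0 < (∑ k, a k) - a i := by linarith
  have p2 : 0 < (∑ k, a k) - a j := by linarith
  rw [abs_of_pos (by positivity), div_mul_div_comm, div_lt_one (by positivity)]
  nlinarith

/-- `V` is independent of `W`. -/
theorem StarHyp.psi_mul (H : StarHyp μ e a β) (hβ : ∑ i, β i = e) (ha : ∀ i, 0 < a i)
    (h3 : 3 ≤ Fintype.card ι) (x : κ → ℝ) (w : ι → κ → ℝ) :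
    psi μ β x w = psi μ β x 0 * psi μ β 0 w := by
  have hcont := H.contDiff.continuous
  have hg : Continuous (psi μ β (0 : κ → ℝ)) := hcont.comp (by fun_prop : Continuous
    fun w : ι → κ → ℝ => ((0 : κ → ℝ), w))
  have hgx : Continuous (psi μ β x) := hcont.comp (by fun_prop : Continuous
    fun w : ι → κ → ℝ => (x, w))
  have hne := star_ne_zero ha h3 hg H.psi_zero (fun w c => H.psi_inv hβ 0 w c)
    (fun i w => H.split i 0 w)
  set R : (ι → κ → ℝ) → ℂ := fun w => psi μ β x w / psi μ β 0 w with hR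
  have hRc : Continuous R := hgx.div hg hne
  have hRQ : ∀ i w, R w = R (Q a i w) := by
    intro i w
    rw [hR]
    simp only
    rw [H.split i x w, H.split i 0 w]
    have := hne (w - Q a i w)
    have := hne (Q a i w)
    field_simp
  have h2 : 1 < Fintype.card ι := by omega
  have hsingle : ∀ i (u : κ → ℝ), R (Pi.single i u) = R 0 := by
    intro i u
    obtain ⟨j, hj⟩ := Fintype.exists_ne_of_one_lt_card h2 i
    set c := (a j / ((∑ k, a k) - a i)) * (a i / ((∑ k, a k) - a j)) with hc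
    have hstep : ∀ v : κ → ℝ, R (Pi.single i v) = R (Pi.single i (c • v)) := by
      intro v
      rw [hRQ j (Pi.single i v), hRQ i (Q a j (Pi.single i v)), Q_single_ne (Ne.symm hj),
        map_smul, Q_single_ne hj, smul_smul, ← Pi.single_smul]
      congr 3
      rw [hc]; ring
    have hn : ∀ n : ℕ, R (Pi.single i u) = R (Pi.single i (c ^ n • u)) := by
      intro n
      induction n with
      | zero => simp
      | succ n ih => rw [ih, hstep, smul_smul, pow_succ']
    have hlim : Filter.Tendsto (fun n : ℕ => R (Pi.single i (c ^ n • u))) Filter.atTop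
        (nhds (R 0)) := by
      have h1 : Filter.Tendsto (fun n : ℕ => c ^ n • u) Filter.atTop (nhds ((0 : ℝ) • u)) :=
        (tendsto_pow_atTop_nhds_zero_of_abs_lt_one (single_contr ha h3 hj)).smul_const u
      rw [zero_smul] at h1
      have h2 : Continuous (fun v : κ → ℝ => R (Pi.single i v)) := by
        have h4 : Continuous (fun v : κ → ℝ => (Pi.single i v : ι → κ → ℝ)) :=
          continuous_single (A := fun _ : ι => κ → ℝ) i
        exact hRc.comp h4
      have h3 := h2.tendsto 0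
      rw [Pi.single_zero] at h3
      exact h3.comp h1
    exact tendsto_nhds_unique (tendsto_const_nhds.congr hn) hlim
  obtain ⟨i0⟩ : Nonempty ι := Fintype.card_pos_iff.1 (by omega)
  have hRw : R w = R 0 := by rw [hRQ i0 w, Q_apply, hsingle]
  rw [hR] at hRw
  simp only [H.psi_zero, div_one] at hRw
  rw [div_eq_iff (hne w)] at hRw
  exact hRw

/-- joint characteristic function of the centre and neighbour `i` -/
noncomputable def phc (μ : Measure (Option ι → κ → ℝ)) (i : ι) (x y : κ → ℝ) : ℂ :=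
  ∫ z, Complex.exp (Complex.I * ((∑ l, (x l * z none l + y l * z (some i) l) : ℝ) : ℂ)) ∂μ

lemma phc_eq_psi (i : ι) (x y : κ → ℝ) :
    phc μ i x y = psi μ β (x + β i • y) (Pi.single i y) := by
  rw [phc, psi]
  congr 1
  funext z
  congr 3
  refine Finset.sum_congr rfl fun l _ => ?_
  rw [Finset.sum_eq_single i]
  · simp only [Pi.add_apply, Pi.smul_apply, smul_eq_mul, Pi.single_eq_same]
    ring
  · intro j _ hj
    simp [Pi.single_eq_of_ne hj]
  · simp

/-- quadratic form of a matrix -/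
noncomputable def qf (S : κ → κ → ℂ) (y : κ → ℝ) : ℂ := ∑ l, ∑ m, S l m * ((y l * y m : ℝ) : ℂ)

lemma qf_smul (S : κ → κ → ℂ) (c : ℝ) (y : κ → ℝ) : qf S (c • y) = (c : ℂ) ^ 2 * qf S y := by
  simp only [qf, Finset.mul_sum]
  refine Finset.sum_congr rfl fun l _ => Finset.sum_congr rfl fun m _ => ?_
  simp only [Pi.smul_apply, smul_eq_mul]
  push_cast
  ring

omit [Fintype κ] in
lemma Kf_single (a : ι → ℝ) (i : ι) (y : κ → ℝ) (l m : κ) :
    Kf a (fun j => (Pi.single i y : ι → κ → ℝ) j l) (fun j => (Pi.single i y : ι → κ → ℝ) j m) =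
      (a i - a i ^ 2 / ∑ j, a j) * (y l * y m) := by
  have h1 : ∀ l, ∑ j, a j * (Pi.single i y : ι → κ → ℝ) j l = a i * y l := by
    intro l
    rw [Finset.sum_eq_single i]
    · simp
    · intro j _ hj; simp [Pi.single_eq_of_ne hj]
    · simp
  have h2 : ∑ j, a j * (Pi.single i y : ι → κ → ℝ) j l * (Pi.single i y : ι → κ → ℝ) j m =
      a i * y l * y m := by
    rw [Finset.sum_eq_single i]
    · simp
    · intro j _ hj; simp [Pi.single_eq_of_ne hj]
    · simp
  rw [Kf, h1, h1, h2]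
  ring

/-- **Star theorem.** -/
theorem StarHyp.out [DecidableEq κ] (H : StarHyp μ e a β) (hβ : ∑ i, β i = e)
    (ha : ∀ i, 0 < a i) (h3 : 3 ≤ Fintype.card ι) :
    ∃ S : κ → κ → ℂ, ∀ i, ∃ ℓ : (κ → ℝ) →ₗ[ℝ] ℂ, ∀ x y,
      phc μ i x y = phc μ i (x + β i • y) 0 *
        Complex.exp (ℓ y + ((a i - a i ^ 2 / ∑ j, a j : ℝ) : ℂ) * qf S y / 2) := by
  have hg : ContDiff ℝ 2 (psi μ β (0 : κ → ℝ)) := H.contDiff.comp (by fun_prop : ContDiff ℝ 2
    fun w : ι → κ → ℝ => ((0 : κ → ℝ), w))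
  obtain ⟨ℓ, S, hS⟩ := star_quad ha h3 hg H.psi_zero (fun w c => H.psi_inv hβ 0 w c)
    (fun i w => H.split i 0 w)
  refine ⟨S, fun i => ⟨ℓ.toLinearMap ∘ₗ LinearMap.single ℝ (fun _ : ι => κ → ℝ) i, fun x y => ?_⟩⟩
  rw [phc_eq_psi (β := β), H.psi_mul hβ ha h3, phc_eq_psi (β := β), hS]
  rw [smul_zero, add_zero, Pi.single_zero]
  congr 2
  · simp only [LinearMap.comp_apply, LinearMap.coe_single, ContinuousLinearMap.coe_coe]
    congr 2
    rw [qf, Finset.mul_sum]
    refine Finset.sum_congr rfl fun l _ => ?_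
    rw [Finset.mul_sum]
    refine Finset.sum_congr rfl fun m _ => ?_
    rw [Kf_single]
    push_cast
    ring

end Star

end Crest.Agent.R166.B2
end

-- ▼ part R166/Edge_385
section

/-!
# Row 166, 42.6: the edge theorem (helper385)

A pair `(V, U)` of square integrable vectors such that `U - β V` is Gaussian and independent of `V`
and `V - β' U` is Gaussian and independent of `U` is Gaussian (`β β' < 1`); relation between the
covariances.
-/

set_option autoImplicit false

open MeasureTheory ProbabilityTheory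
open Crest.Agent.R166.Bern385
open scoped ContDiff

namespace Crest.Agent.R166.B2

section Edge

variable {κ : Type*} [Fintype κ] {Ω' : Type*} [MeasurableSpace Ω'] {μ : Measure Ω'}

/-- mean of `x · V` -/
noncomputable def mn1 (μ : Measure Ω') (V : Ω' → κ → ℝ) (x : κ → ℝ) : ℝ := ∫ y, ∑ l, x l * V y l ∂μ

/-- variance of `x · V` -/
noncomputable def vr1 (μ : Measure Ω') (V : Ω' → κ → ℝ) (x : κ → ℝ) : ℝ :=
  ∫ y, (∑ l, x l * V y l) ^ 2 ∂μ - (∫ y, ∑ l, x l * V y l ∂μ) ^ 2

/-- joint characteristic function -/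
noncomputable def ph (μ : Measure Ω') (V U : Ω' → κ → ℝ) (x y : κ → ℝ) : ℂ :=
  ∫ z, Complex.exp (Complex.I * ((∑ l, (x l * V z l + y l * U z l) : ℝ) : ℂ)) ∂μ

lemma memLp_lin {V : Ω' → κ → ℝ} (hV : ∀ l, MemLp (fun y => V y l) 2 μ) (x : κ → ℝ) :
    MemLp (fun y => ∑ l, x l * V y l) 2 μ :=
  memLp_finsetSum _ fun l _ => (hV l).const_mul (x l)


lemma mn1_smul {V : Ω' → κ → ℝ} (c : ℝ) (x : κ → ℝ) :
    mn1 μ V (c • x) = c * mn1 μ V x := by
  have h1 : ∀ y, ∑ l, (c • x) l * V y l = c * ∑ l, x l * V y l := by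
    intro y
    rw [Finset.mul_sum]
    exact Finset.sum_congr rfl fun l _ => by simp [mul_assoc]
  simp only [mn1, h1]
  rw [integral_const_mul]

lemma ph_left {V U : Ω' → κ → ℝ} (x : κ → ℝ) (t : ℝ) :
    ph μ V U (t • x) 0 = ∫ z, Complex.exp (Complex.I * ((t * ∑ l, x l * V z l : ℝ) : ℂ)) ∂μ := by
  rw [ph]
  congr 1
  funext z
  congr 3
  rw [Finset.mul_sum]
  exact Finset.sum_congr rfl fun l _ => by simp [mul_assoc]


lemma exp_moments_left [IsProbabilityMeasure μ] {V U : Ω' → κ → ℝ}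
    (hV : ∀ l, MemLp (fun y => V y l) 2 μ) (x : κ → ℝ) (L q : ℂ)
    (h : ∀ t : ℝ, ph μ V U (t • x) 0 = Complex.exp (t * L + t ^ 2 * q / 2)) :
    L = Complex.I * (mn1 μ V x : ℂ) ∧ q = -((vr1 μ V x : ℝ) : ℂ) :=
  moments_of_exp (fun y => ∑ l, x l * V y l) (memLp_lin hV x) L q
    (fun t => by rw [← ph_left x t]; exact h t)


/-- hypotheses of the edge theorem -/
structure EdgeHyp (μ : Measure Ω') (V U : Ω' → κ → ℝ) (b b' Pv Pu : ℝ) (S S' : κ → κ → ℂ)
    (ℓ ℓ' : (κ → ℝ) →ₗ[ℝ] ℂ) : Prop where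
  hV : ∀ l, MemLp (fun y => V y l) 2 μ
  hU : ∀ l, MemLp (fun y => U y l) 2 μ
  Pv_pos : 0 < Pv
  Pu_pos : 0 < Pu
  bb : b * Pv = b' * Pu
  r1 : b * b' < 1
  h1 : ∀ x y, ph μ V U x y = ph μ V U (x + b • y) 0 *
    Complex.exp (ℓ y + (((1 - b * b') * Pu : ℝ) : ℂ) * qf S y / 2)
  h2 : ∀ x y, ph μ V U x y = ph μ V U 0 (y + b' • x) *
    Complex.exp (ℓ' x + (((1 - b * b') * Pv : ℝ) : ℂ) * qf S' x / 2)

variable {V U : Ω' → κ → ℝ} {b b' Pv Pu : ℝ} {S S' : κ → κ → ℂ} {ℓ ℓ' : (κ → ℝ) →ₗ[ℝ] ℂ}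

lemma ph_swap (x y : κ → ℝ) : ph μ U V y x = ph μ V U x y := by
  rw [ph, ph]
  congr 1
  funext z
  congr 3
  exact Finset.sum_congr rfl fun l _ => by ring

lemma EdgeHyp.swap (H : EdgeHyp μ V U b b' Pv Pu S S' ℓ ℓ') :
    EdgeHyp μ U V b' b Pu Pv S' S ℓ' ℓ where
  hV := H.hU
  hU := H.hV
  Pv_pos := H.Pu_pos
  Pu_pos := H.Pv_pos
  bb := H.bb.symm
  r1 := by rw [mul_comm]; exact H.r1
  h1 x y := by
    rw [ph_swap, H.h2, ph_swap, mul_comm b' b]
  h2 x y := by
    rw [ph_swap, H.h1, ph_swap, mul_comm b' b]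

lemma ph_zero [IsProbabilityMeasure μ] : ph μ V U 0 0 = 1 := by simp [ph]

/-- the law of `V` is Gaussian: explicit form -/
lemma EdgeHyp.left [IsProbabilityMeasure μ] (H : EdgeHyp μ V U b b' Pv Pu S S' ℓ ℓ') (x : κ → ℝ) :
    ((vr1 μ V x : ℝ) : ℂ) * (1 - b * b') ^ 2 =
      -(((1 - b * b') * Pv : ℝ) : ℂ) * qf S' x + (((1 - b * b') * Pu : ℝ) : ℂ) * b' ^ 2 * qf S x ∧
    ∀ t : ℝ, ph μ V U (t • x) 0 = Complex.exp (t * (Complex.I * (mn1 μ V x : ℂ)) +
      t ^ 2 * (-((vr1 μ V x : ℝ) : ℂ)) / 2) := by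
  have hr : 1 - b * b' ≠ 0 := by have := H.r1; linarith
  have hrC : (1 - (b : ℂ) * b') ≠ 0 := by exact_mod_cast hr
  have key : ∀ x : κ → ℝ, ph μ V U ((1 - b * b') • x) 0 = Complex.exp (ℓ' x + b' * ℓ x +
      ((((1 - b * b') * Pv : ℝ) : ℂ) * qf S' x - (((1 - b * b') * Pu : ℝ) : ℂ) * b' ^ 2 * qf S x) / 2) := by
    intro x
    have e1 := H.h1 x ((-b') • x)
    have e2 := H.h2 x ((-b') • x)
    have z1 : x + b • (-b') • x = (1 - b * b') • x := by
      rw [smul_smul, sub_smul, one_smul]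
      module
    have z2 : (-b') • x + b' • x = 0 := by module
    rw [z1] at e1
    rw [z2, ph_zero, one_mul] at e2
    rw [e2, map_smul, qf_smul] at e1
    have e3 : ph μ V U ((1 - b * b') • x) 0 =
        Complex.exp (ℓ' x + (((1 - b * b') * Pv : ℝ) : ℂ) * qf S' x / 2) /
        Complex.exp ((-b') • ℓ x + (((1 - b * b') * Pu : ℝ) : ℂ) * (((-b' : ℝ) : ℂ) ^ 2 * qf S x) / 2) := by
      rw [eq_div_iff (Complex.exp_ne_zero _)]
      exact e1.symm
    rw [e3, ← Complex.exp_sub]
    congr 1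
    simp only [Complex.real_smul]
    push_cast
    ring
  have key2 : ∀ t : ℝ, ph μ V U (t • x) 0 = Complex.exp (t * ((ℓ' x + b' * ℓ x) / (1 - b * b')) +
      t ^ 2 * (((((1 - b * b') * Pv : ℝ) : ℂ) * qf S' x -
        (((1 - b * b') * Pu : ℝ) : ℂ) * b' ^ 2 * qf S x) / (1 - b * b') ^ 2) / 2) := by
    intro t
    have h := key ((t / (1 - b * b')) • x)
    rw [smul_smul, mul_div_cancel₀ _ hr, map_smul, map_smul, qf_smul, qf_smul] at h
    rw [h]
    congr 1
    simp only [Complex.real_smul]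
    push_cast
    field_simp
  obtain ⟨m1, m2⟩ := exp_moments_left H.hV x _ _ key2
  constructor
  · have : ((vr1 μ V x : ℝ) : ℂ) = -(((((1 - b * b') * Pv : ℝ) : ℂ) * qf S' x -
        (((1 - b * b') * Pu : ℝ) : ℂ) * b' ^ 2 * qf S x) / (1 - b * b') ^ 2) := by
      rw [m2]; ring
    rw [this, neg_mul, div_mul_cancel₀ _ (pow_ne_zero 2 hrC)]
    ring
  · intro t
    rw [key2 t, m1, m2]

lemma EdgeHyp.third [IsProbabilityMeasure μ] (H : EdgeHyp μ V U b b' Pv Pu S S' ℓ ℓ') (x : κ → ℝ) :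
    ((vr1 μ V x : ℝ) : ℂ) = b' ^ 2 * ((vr1 μ U x : ℝ) : ℂ) -
      (((1 - b * b') * Pv : ℝ) : ℂ) * qf S' x ∧
    Complex.I * (mn1 μ V x : ℂ) = b' * (Complex.I * (mn1 μ U x : ℂ)) + ℓ' x := by
  have h2 := (H.swap.left x).2
  have hk : ∀ t : ℝ, ph μ V U (t • x) 0 = Complex.exp (t * (b' * (Complex.I * (mn1 μ U x : ℂ)) + ℓ' x) +
      t ^ 2 * (-(b' ^ 2 * ((vr1 μ U x : ℝ) : ℂ)) + (((1 - b * b') * Pv : ℝ) : ℂ) * qf S' x) / 2) := by
    intro t
    have e := H.h2 (t • x) 0
    have e2 : ph μ V U 0 ((b' * t) • x) = _ := (ph_swap (μ := μ) (V := V) (U := U) 0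
      ((b' * t) • x)).symm.trans (h2 (b' * t))
    rw [zero_add, smul_smul, e2, ← Complex.exp_add, map_smul, qf_smul] at e
    rw [e]
    congr 1
    simp only [Complex.real_smul]
    push_cast
    ring
  obtain ⟨m1, m2⟩ := exp_moments_left H.hV x _ _ hk
  constructor
  · linear_combination m2
  · exact m1.symm

lemma mn1_add [IsProbabilityMeasure μ] (hV : ∀ l, MemLp (fun y => V y l) 2 μ) (x y : κ → ℝ) :
    mn1 μ V (x + y) = mn1 μ V x + mn1 μ V y := by
  rw [mn1, mn1, mn1, ← integral_add ((memLp_lin hV x).integrable one_le_two)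
    ((memLp_lin hV y).integrable one_le_two)]
  congr 1
  funext z
  rw [← Finset.sum_add_distrib]
  exact Finset.sum_congr rfl fun l _ => by simp [add_mul]

/-- **Edge theorem** -/
theorem EdgeHyp.out [IsProbabilityMeasure μ] (H : EdgeHyp μ V U b b' Pv Pu S S' ℓ ℓ') :
    (∀ x, ((vr1 μ V x : ℝ) : ℂ) = -(Pv : ℂ) * qf S' x) ∧
    (∀ x, ((vr1 μ U x : ℝ) : ℂ) = -(Pu : ℂ) * qf S x) ∧
    ∀ x y, ph μ V U x y = Complex.exp (Complex.I * (mn1 μ V x + mn1 μ U y : ℂ) -
      (vr1 μ V (x + b • y) : ℂ) / 2 - (1 - b * b') * (vr1 μ U y : ℂ) / 2) := by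
  have hr : (1 - b * b' : ℝ) ≠ 0 := by have := H.r1; linarith
  have hrC : (1 - (b : ℂ) * b') ≠ 0 := by exact_mod_cast hr
  have hPv : (Pv : ℂ) ≠ 0 := by exact_mod_cast H.Pv_pos.ne'
  have hPu : (Pu : ℂ) ≠ 0 := by exact_mod_cast H.Pu_pos.ne'
  have hbb : (b : ℂ) * Pv = b' * Pu := by exact_mod_cast H.bb
  have hE1 : ∀ x, ((vr1 μ V x : ℝ) : ℂ) * (1 - b * b') = -Pv * (qf S' x - b * b' * qf S x) := by
    intro x
    have E1 := (H.left x).1
    push_cast at E1
    have : (1 - (b : ℂ) * b') * (((vr1 μ V x : ℝ) : ℂ) * (1 - b * b') +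
        Pv * (qf S' x - b * b' * qf S x)) = 0 := by
      linear_combination E1 - (1 - (b : ℂ) * b') * b' * qf S x * hbb
    rcases mul_eq_zero.1 this with h | h
    · exact absurd h hrC
    · linear_combination h
  have hE2 : ∀ x, ((vr1 μ U x : ℝ) : ℂ) * (1 - b * b') = -Pu * (qf S x - b * b' * qf S' x) := by
    intro x
    have E2 := (H.swap.left x).1
    push_cast at E2
    have : (1 - (b : ℂ) * b') * (((vr1 μ U x : ℝ) : ℂ) * (1 - b * b') +
        Pu * (qf S x - b * b' * qf S' x)) = 0 := by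
      linear_combination E2 + (1 - (b : ℂ) * b') * b * qf S' x * hbb
    rcases mul_eq_zero.1 this with h | h
    · exact absurd h hrC
    · linear_combination h
  have hS : ∀ x, (b : ℂ) * b' * (qf S' x - qf S x) = 0 := by
    intro x
    have E3 := (H.third x).1
    push_cast at E3
    have : (Pv : ℂ) * ((b : ℂ) * b' * (qf S' x - qf S x)) * 2 = 0 := by
      linear_combination hE1 x - (1 - (b : ℂ) * b') * E3 - (b' : ℂ) ^ 2 * hE2 x -
        b' * (qf S x - b * b' * qf S' x) * hbb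
    rcases mul_eq_zero.1 this with h | h
    · rcases mul_eq_zero.1 h with h | h
      · exact absurd h hPv
      · exact h
    · norm_num at h
  have c1 : ∀ x, ((vr1 μ V x : ℝ) : ℂ) = -(Pv : ℂ) * qf S' x := by
    intro x
    refine mul_right_cancel₀ hrC ?_
    linear_combination hE1 x - (Pv : ℂ) * hS x
  have c2 : ∀ x, ((vr1 μ U x : ℝ) : ℂ) = -(Pu : ℂ) * qf S x := by
    intro x
    refine mul_right_cancel₀ hrC ?_
    linear_combination hE2 x + (Pu : ℂ) * hS x
  refine ⟨c1, c2, fun x y => ?_⟩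
  have h3 := (H.swap.third y).2
  have h4 := (H.left (x + b • y)).2 1
  rw [one_smul] at h4
  rw [H.h1, h4, ← Complex.exp_add, mn1_add H.hV, mn1_smul]
  congr 1
  push_cast
  linear_combination -h3 + (1 - (b : ℂ) * b') * c2 y / 2

end Edge

end Crest.Agent.R166.B2
end

-- ▼ part R166/Kap0_63
section

/-!
# Generalities on `condDistrib` (row 166, sec 42.5; helper63)

`B` plays the role of the environment (later `B = Ω` with a smaller σ-algebra and `e = id`).
-/

set_option autoImplicit false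

open MeasureTheory ProbabilityTheory

namespace Crest.Agent.R166.Kap063

variable {Ω B A : Type*} [MeasurableSpace Ω] [mB : MeasurableSpace B] [MeasurableSpace A]
  [StandardBorelSpace A] [Nonempty A] {P : Measure Ω} [IsProbabilityMeasure P]
  {e : Ω → B} {S : Ω → A}

/-- equivariance of the conditional distribution under an invertible measure preserving map -/
theorem condDistrib_equivariant (he : Measurable e) (hS : Measurable S) {T : Ω → Ω}
    (hT : MeasurePreserving T P P) {TB TB' : B → B} (hTB : Measurable TB) (hTB' : Measurable TB')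
    (h1 : ∀ h, e (T h) = TB (e h)) (h2 : ∀ b, TB' (TB b) = b) :
    condDistrib (S ∘ T) e P =ᵐ[P.map e] (condDistrib S e P).comap TB hTB := by
  refine condDistrib_ae_eq_of_measure_eq_compProd e (hS.comp hT.measurable).aemeasurable ?_
  have hQ : (P.map e).map TB = P.map e := by
    rw [Measure.map_map hTB he]
    have : TB ∘ e = e ∘ T := by funext h; exact (h1 h).symm
    rw [this, ← Measure.map_map he hT.measurable, hT.map_eq]
  have : IsProbabilityMeasure (P.map e) := Measure.isProbabilityMeasure_map he.aemeasurable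
  refine Measure.ext_prod ?_
  intro s t hs ht
  rw [Measure.compProd_apply_prod hs ht, Measure.map_apply (he.prodMk (hS.comp hT.measurable))
    (hs.prod ht)]
  have hs' : MeasurableSet (TB' ⁻¹' s) := hTB' hs
  have e1 : ∫⁻ b in s, ((condDistrib S e P).comap TB hTB) b t ∂(P.map e) =
      ∫⁻ b in TB' ⁻¹' s, condDistrib S e P b t ∂(P.map e) := by
    conv_rhs => rw [← hQ]
    rw [setLIntegral_map hs' (Kernel.measurable_coe _ ht) hTB]
    have : TB ⁻¹' (TB' ⁻¹' s) = s := by ext b; simp [h2]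
    rw [this]
    rfl
  rw [e1, ← Measure.compProd_apply_prod hs' ht, compProd_map_condDistrib hS.aemeasurable,
    Measure.map_apply (he.prodMk hS) (hs'.prod ht),
    ← hT.measure_preimage ((he.prodMk hS) (hs'.prod ht)).nullMeasurableSet]
  congr 1
  ext h
  simp [h1, h2]

/-- pointwise form -/
theorem condDistrib_equivariant' (he : Measurable e) (hS : Measurable S) {T : Ω → Ω}
    (hT : MeasurePreserving T P P) {TB TB' : B → B} (hTB : Measurable TB) (hTB' : Measurable TB')
    (h1 : ∀ h, e (T h) = TB (e h)) (h2 : ∀ b, TB' (TB b) = b) :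
    ∀ᵐ h ∂P, condDistrib (S ∘ T) e P (e h) = condDistrib S e P (e (T h)) := by
  have := ae_of_ae_map he.aemeasurable (condDistrib_equivariant he hS hT hTB hTB' h1 h2)
  filter_upwards [this] with h hh
  rw [hh, Kernel.comap_apply, h1]

/-- image under a measurable map -/
theorem condDistrib_map_fun {A' : Type*} [MeasurableSpace A'] [StandardBorelSpace A']
    [Nonempty A'] (he : Measurable e) (hS : Measurable S) {f : A → A'} (hf : Measurable f) :
    ∀ᵐ h ∂P, condDistrib (f ∘ S) e P (e h) = (condDistrib S e P (e h)).map f := by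
  have := ae_of_ae_map he.aemeasurable (condDistrib_comp (μ := P) e hS.aemeasurable hf)
  filter_upwards [this] with h hh
  rw [hh, Kernel.map_apply _ hf]

/-- a.s. properties pass to the kernel -/
theorem ae_ae_condDistrib (he : Measurable e) (hS : Measurable S) {p : B × A → Prop}
    (hp : MeasurableSet {x | p x}) (h : ∀ᵐ a ∂P, p (e a, S a)) :
    ∀ᵐ a ∂P, ∀ᵐ y ∂(condDistrib S e P (e a)), p (e a, y) := by
  have : IsProbabilityMeasure (P.map e) := Measure.isProbabilityMeasure_map he.aemeasurable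
  have h1 : ∀ᵐ x ∂(P.map fun a => (e a, S a)), p x :=
    (ae_map_iff (he.prodMk hS).aemeasurable hp).2 h
  rw [← compProd_map_condDistrib hS.aemeasurable] at h1
  exact ae_of_ae_map he.aemeasurable (Measure.ae_ae_of_ae_compProd h1)

omit [IsProbabilityMeasure P] in
/-- a.s. equality for every parameter gives, by continuity, a.s. equality for all parameters. -/
theorem ae_forall_of_continuous {Θ F : Type*} [TopologicalSpace Θ]
    [TopologicalSpace.SeparableSpace Θ] [TopologicalSpace F] [T2Space F] {f g : Θ → Ω → F}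
    (hf : ∀ h, Continuous fun θ => f θ h) (hg : ∀ h, Continuous fun θ => g θ h)
    (H : ∀ θ, ∀ᵐ h ∂P, f θ h = g θ h) : ∀ᵐ h ∂P, ∀ θ, f θ h = g θ h := by
  obtain ⟨D, hDc, hD⟩ := TopologicalSpace.exists_countable_dense Θ
  have h1 : ∀ᵐ h ∂P, ∀ θ ∈ D, f θ h = g θ h := (ae_ball_iff hDc).2 fun θ _ => H θ
  filter_upwards [h1] with h hh θ
  have h2 : (fun θ => f θ h) = fun θ => g θ h :=
    Continuous.ext_on hD (hf h) (hg h) fun θ hθ => hh θ hθ
  exact congrFun h2 θ

end Crest.Agent.R166.Kap063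
end

-- ▼ part R166/Kap1_63
section

/-!
# The splitting of the conditional star law at one port (row 166, sec 42.5; helper63)
-/

set_option autoImplicit false

open MeasureTheory ProbabilityTheory
open Crest.Agent.R166.Bern385 Crest.Agent.R166.B2

namespace Crest.Agent.R166.Kap63

variable {ι κ : Type*} [Fintype ι] [DecidableEq ι] [Fintype κ]

/-- innovation at `j` relative to `i0`, as a function of the star vector `η` -/
noncomputable def inn (a β : ι → ℝ) (i0 j : ι) (η : Option ι → κ → ℝ) (l : κ) : ℝ :=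
  (η (some j) l - β j * η none l) +
    a j / ((∑ i, a i) - a i0) * (η (some i0) l - β i0 * η none l)

/-- the phase -/
noncomputable def Lθ (a β : ι → ℝ) (i0 : ι) (θ : (κ → ℝ) × (κ → ℝ) × (ι → κ → ℝ))
    (η : Option ι → κ → ℝ) : ℝ :=
  ∑ l, (θ.1 l * η none l + θ.2.1 l * η (some i0) l +
    ∑ j, (if j = i0 then 0 else θ.2.2 j l) * inn a β i0 j η l)

lemma sum_inn_eq {a : ι → ℝ} {i0 : ι} (hD : (∑ j, a j) - a i0 ≠ 0) (w W : ι → ℝ) :
    ∑ j, w j * W j = ((∑ j, a j) * w i0 - ∑ j, a j * w j) / ((∑ j, a j) - a i0) * W i0 +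
      ∑ j, (if j = i0 then 0 else w j) * (W j + a j / ((∑ i, a i) - a i0) * W i0) := by
  set D := (∑ j, a j) - a i0 with hDdef
  have h1 : ∀ j, (if j = i0 then 0 else w j) * (W j + a j / D * W i0) =
      w j * W j + (a j * w j) * (W i0 / D) -
        (if j = i0 then w i0 * (W i0 + a i0 / D * W i0) else 0) := by
    intro j
    split_ifs with hj
    · subst hj; ring
    · ring
  rw [Finset.sum_congr rfl fun j _ => h1 j, Finset.sum_sub_distrib, Finset.sum_add_distrib,
    ← Finset.sum_mul, Finset.sum_ite_eq' Finset.univ i0]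
  simp only [Finset.mem_univ, if_true]
  have hA : ∑ j, a j = D + a i0 := by rw [hDdef]; ring
  rw [hA]
  field_simp
  ring

/-- the phase of `psi` in terms of the innovations -/
lemma phase_eq {a β : ι → ℝ} {i0 : ι} (hD : (∑ j, a j) - a i0 ≠ 0) (x : κ → ℝ) (w : ι → κ → ℝ)
    (η : Option ι → κ → ℝ) :
    ∑ l, (x l * η none l + ∑ i, w i l * (η (some i) l - β i * η none l)) =
      Lθ a β i0 (fun l => x l - β i0 * cf a i0 w l, cf a i0 w, w) η := by
  unfold Lθ inn
  refine Finset.sum_congr rfl fun l _ => ?_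
  rw [sum_inn_eq hD (fun i => w i l) (fun i => η (some i) l - β i * η none l)]
  simp only [cf]
  ring

lemma phase_Q {a β : ι → ℝ} {i0 : ι} (x : κ → ℝ) (w : ι → κ → ℝ)
    (η : Option ι → κ → ℝ) :
    ∑ l, (x l * η none l + ∑ i, Q a i0 w i l * (η (some i) l - β i * η none l)) =
      Lθ a β i0 (fun l => x l - β i0 * cf a i0 w l, cf a i0 w, 0) η := by
  unfold Lθ
  refine Finset.sum_congr rfl fun l _ => ?_
  rw [Q_apply]
  have h1 : ∑ i, (Pi.single i0 (cf a i0 w) : ι → κ → ℝ) i l * (η (some i) l - β i * η none l) =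
      cf a i0 w l * (η (some i0) l - β i0 * η none l) := by
    rw [Finset.sum_eq_single i0]
    · simp
    · intro j _ hj; simp [Pi.single_eq_of_ne hj]
    · simp
  rw [h1]
  simp
  ring

lemma phase_sub_Q {a β : ι → ℝ} {i0 : ι} (hD : (∑ j, a j) - a i0 ≠ 0) (w : ι → κ → ℝ)
    (η : Option ι → κ → ℝ) :
    ∑ l, ((0 : κ → ℝ) l * η none l +
      ∑ i, (w - Q a i0 w) i l * (η (some i) l - β i * η none l)) =
      Lθ a β i0 (0, 0, w) η := by
  unfold Lθ
  refine Finset.sum_congr rfl fun l _ => ?_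
  rw [Q_apply]
  have h1 : ∑ i, (w - (Pi.single i0 (cf a i0 w) : ι → κ → ℝ)) i l *
      (η (some i) l - β i * η none l) =
      ∑ i, w i l * (η (some i) l - β i * η none l) -
      cf a i0 w l * (η (some i0) l - β i0 * η none l) := by
    have h2 : ∑ i, (Pi.single i0 (cf a i0 w) : ι → κ → ℝ) i l * (η (some i) l - β i * η none l) =
      cf a i0 w l * (η (some i0) l - β i0 * η none l) := by
      rw [Finset.sum_eq_single i0]
      · simp
      · intro j _ hj; simp [Pi.single_eq_of_ne hj]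
      · simp
    rw [← h2, ← Finset.sum_sub_distrib]
    refine Finset.sum_congr rfl fun i _ => ?_
    simp only [Pi.sub_apply]
    ring
  rw [h1, sum_inn_eq hD (fun i => w i l) (fun i => η (some i) l - β i * η none l)]
  simp only [Pi.zero_apply, zero_mul, cf, inn]
  ring

/-- the characteristic function in the parameters `θ` -/
noncomputable def Phi (μ : Measure (Option ι → κ → ℝ)) (a β : ι → ℝ) (i0 : ι)
    (θ : (κ → ℝ) × (κ → ℝ) × (ι → κ → ℝ)) : ℂ :=
  ∫ η, Complex.exp (Complex.I * (Lθ a β i0 θ η : ℝ)) ∂μ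

lemma psi_eq_Phi {μ : Measure (Option ι → κ → ℝ)} {a β : ι → ℝ} {i0 : ι}
    (hD : (∑ j, a j) - a i0 ≠ 0) (x : κ → ℝ) (w : ι → κ → ℝ) :
    psi μ β x w = Phi μ a β i0 (fun l => x l - β i0 * cf a i0 w l, cf a i0 w, w) := by
  unfold psi Phi
  refine integral_congr_ae (Filter.Eventually.of_forall fun η => ?_)
  simp only
  rw [phase_eq hD]

lemma psi_Q_eq_Phi {μ : Measure (Option ι → κ → ℝ)} {a β : ι → ℝ} {i0 : ι}
    (x : κ → ℝ) (w : ι → κ → ℝ) :
    psi μ β x (Q a i0 w) = Phi μ a β i0 (fun l => x l - β i0 * cf a i0 w l, cf a i0 w, 0) := by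
  unfold psi Phi
  refine integral_congr_ae (Filter.Eventually.of_forall fun η => ?_)
  simp only
  rw [phase_Q]

lemma psi_sub_Q_eq_Phi {μ : Measure (Option ι → κ → ℝ)} {a β : ι → ℝ} {i0 : ι}
    (hD : (∑ j, a j) - a i0 ≠ 0) (w : ι → κ → ℝ) :
    psi μ β 0 (w - Q a i0 w) = Phi μ a β i0 (0, 0, w) := by
  unfold psi Phi
  refine integral_congr_ae (Filter.Eventually.of_forall fun η => ?_)
  simp only
  rw [phase_sub_Q hD]

lemma norm_exp_I (r : ℝ) : ‖Complex.exp (Complex.I * (r : ℂ))‖ = 1 := by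
  rw [mul_comm]; exact Complex.norm_exp_ofReal_mul_I r

lemma measurable_Lθ (a β : ι → ℝ) (i0 : ι) (θ : (κ → ℝ) × (κ → ℝ) × (ι → κ → ℝ)) :
    Measurable (Lθ a β i0 θ) := by
  unfold Lθ inn
  fun_prop

lemma continuous_Lθ (a β : ι → ℝ) (i0 : ι) (η : Option ι → κ → ℝ) :
    Continuous fun θ : (κ → ℝ) × (κ → ℝ) × (ι → κ → ℝ) => Lθ a β i0 θ η := by
  unfold Lθ
  refine continuous_finsetSum _ fun l _ => ?_
  refine Continuous.add (by fun_prop) (continuous_finsetSum _ fun j _ => ?_)
  by_cases hj : j = i0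
  · simp only [hj, if_true]; fun_prop
  · simp only [hj, if_false]; fun_prop

lemma continuous_Phi (μ : Measure (Option ι → κ → ℝ)) [IsProbabilityMeasure μ] (a β : ι → ℝ)
    (i0 : ι) : Continuous (Phi μ a β i0) := by
  unfold Phi
  refine continuous_of_dominated (bound := fun _ => 1) ?_ ?_ ?_ ?_
  · intro θ
    refine Measurable.aestronglyMeasurable ?_
    have := measurable_Lθ a β i0 θ
    fun_prop
  · intro θ
    exact Filter.Eventually.of_forall fun η => (norm_exp_I _).le
  · exact integrable_const _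
  · refine Filter.Eventually.of_forall fun η => ?_
    have := continuous_Lθ a β i0 η
    fun_prop

/-! ### from conditional expectations to the kernel -/

section Core

variable {Ω B : Type*} [MeasurableSpace Ω] [mB : MeasurableSpace B] {P : Measure Ω}
  [IsProbabilityMeasure P] {e : Ω → B} {S : Ω → Option ι → κ → ℝ} {aB bB : B → ι → ℝ} {i0 : ι}

lemma measurable_phase (haB : Measurable aB) (hbB : Measurable bB)
    (θ : (κ → ℝ) × (κ → ℝ) × (ι → κ → ℝ)) :
    Measurable fun p : B × (Option ι → κ → ℝ) => Lθ (aB p.1) (bB p.1) i0 θ p.2 := by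
  have h1 : ∀ i, Measurable fun p : B × (Option ι → κ → ℝ) => aB p.1 i := fun i =>
    (measurable_pi_apply i).comp (haB.comp measurable_fst)
  have h2 : ∀ i, Measurable fun p : B × (Option ι → κ → ℝ) => bB p.1 i := fun i =>
    (measurable_pi_apply i).comp (hbB.comp measurable_fst)
  unfold Lθ inn
  fun_prop

lemma condExp_eq_Phi (he : Measurable e) (hS : Measurable S) (haB : Measurable aB)
    (hbB : Measurable bB) (θ : (κ → ℝ) × (κ → ℝ) × (ι → κ → ℝ)) :
    P[fun h => Complex.exp (Complex.I * ((Lθ (aB (e h)) (bB (e h)) i0 θ (S h) : ℝ) : ℂ)) |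
      mB.comap e] =ᵐ[P]
      fun h => Phi (condDistrib S e P (e h)) (aB (e h)) (bB (e h)) i0 θ := by
  have hm := measurable_phase (i0 := i0) haB hbB θ
  have hm2 : Measurable fun p : B × (Option ι → κ → ℝ) =>
      Complex.exp (Complex.I * ((Lθ (aB p.1) (bB p.1) i0 θ p.2 : ℝ) : ℂ)) := by fun_prop
  refine condExp_prod_ae_eq_integral_condDistrib (f := fun p : B × (Option ι → κ → ℝ) =>
    Complex.exp (Complex.I * ((Lθ (aB p.1) (bB p.1) i0 θ p.2 : ℝ) : ℂ))) he hS.aemeasurable
    hm2.stronglyMeasurable ?_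
  refine Integrable.mono' (integrable_const (1 : ℝ)) ?_ ?_
  · exact (hm2.comp (he.prodMk hS)).aestronglyMeasurable
  · exact Filter.Eventually.of_forall fun h => (norm_exp_I _).le

/-- **Core splitting** at the port `i0`. -/
theorem core_split (he : Measurable e) (hS : Measurable S) (haB : Measurable aB)
    (hbB : Measurable bB) (hD : ∀ᵐ h ∂P, (∑ j, aB (e h) j) - aB (e h) i0 ≠ 0)
    (H : ∀ (x y : κ → ℝ) (w : ι → κ → ℝ),
      P[fun h => Complex.exp (Complex.I *
        ((Lθ (aB (e h)) (bB (e h)) i0 (x, y, w) (S h) : ℝ) : ℂ)) | mB.comap e] =ᵐ[P]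
      fun h => (P[fun h => Complex.exp (Complex.I *
        ((Lθ (aB (e h)) (bB (e h)) i0 (x, y, 0) (S h) : ℝ) : ℂ)) | mB.comap e] h) *
        (P[fun h => Complex.exp (Complex.I *
        ((Lθ (aB (e h)) (bB (e h)) i0 (0, 0, w) (S h) : ℝ) : ℂ)) | mB.comap e] h)) :
    ∀ᵐ h ∂P, ∀ (x : κ → ℝ) (w : ι → κ → ℝ),
      psi (condDistrib S e P (e h)) (bB (e h)) x w =
        psi (condDistrib S e P (e h)) (bB (e h)) x (Q (aB (e h)) i0 w) *
          psi (condDistrib S e P (e h)) (bB (e h)) 0 (w - Q (aB (e h)) i0 w) := by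
  have h1 : ∀ᵐ h ∂P, ∀ θ : (κ → ℝ) × (κ → ℝ) × (ι → κ → ℝ),
      Phi (condDistrib S e P (e h)) (aB (e h)) (bB (e h)) i0 θ =
      Phi (condDistrib S e P (e h)) (aB (e h)) (bB (e h)) i0 (θ.1, θ.2.1, 0) *
        Phi (condDistrib S e P (e h)) (aB (e h)) (bB (e h)) i0 (0, 0, θ.2.2) := by
    refine Kap063.ae_forall_of_continuous ?_ ?_ ?_
    · intro h; exact continuous_Phi _ _ _ _
    · intro h
      refine Continuous.mul ?_ ?_
      · exact (continuous_Phi _ _ _ _).comp (by fun_prop)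
      · exact (continuous_Phi _ _ _ _).comp (by fun_prop)
    · rintro ⟨x, y, w⟩
      filter_upwards [H x y w, condExp_eq_Phi (i0 := i0) (P := P) he hS haB hbB (x, y, w),
        condExp_eq_Phi (i0 := i0) (P := P) he hS haB hbB (x, y, 0),
        condExp_eq_Phi (i0 := i0) (P := P) he hS haB hbB (0, 0, w)] with h a1 a2 a3 a4
      rw [← a2, a1, a3, a4]
  filter_upwards [h1, hD] with h hh hDh x w
  rw [psi_eq_Phi hDh, psi_Q_eq_Phi, psi_sub_Q_eq_Phi hDh, hh]

end Core

end Crest.Agent.R166.Kap63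
end

-- ▼ part R166/Kap2_63
section

/-!
# Rotation of the star and the splitting at every port (row 166, sec 42.5; helper63)
-/

set_option autoImplicit false

open MeasureTheory ProbabilityTheory
open Crest.Agent.R166.Bern385 Crest.Agent.R166.B2

namespace Crest.Agent.R166.Kap63

variable {ι κ : Type*} [Fintype ι] [DecidableEq ι] [Fintype κ]

/-- permutation of the star vector -/
def perm (σ : ι → ι) (y : Option ι → κ → ℝ) : Option ι → κ → ℝ := fun c => y (c.map σ)

omit [Fintype ι] [DecidableEq ι] [Fintype κ] in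
lemma measurable_perm (σ : ι → ι) : Measurable (perm (κ := κ) σ) := by
  unfold perm
  fun_prop

/-- the splitting at port `i` -/
def Sp (μ : Measure (Option ι → κ → ℝ)) (a β : ι → ℝ) (i : ι) : Prop :=
  ∀ x w, psi μ β x w = psi μ β x (Q a i w) * psi μ β 0 (w - Q a i w)

lemma psi_perm (μ : Measure (Option ι → κ → ℝ)) (β : ι → ℝ) (σ : Equiv.Perm ι)
    (x : κ → ℝ) (w : ι → κ → ℝ) :
    psi (μ.map (perm σ)) (β ∘ σ) x w = psi μ β x (w ∘ σ.symm) := by
  unfold psi
  have hm : Measurable fun y : Option ι → κ → ℝ => Complex.exp (Complex.I * ((∑ l,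
      (x l * y none l + ∑ i, w i l * (y (some i) l - (β ∘ σ) i * y none l)) : ℝ) : ℂ)) := by
    fun_prop
  rw [integral_map (measurable_perm σ).aemeasurable hm.aestronglyMeasurable]
  refine integral_congr_ae (Filter.Eventually.of_forall fun y => ?_)
  simp only [perm, Option.map_none, Option.map_some, Function.comp_apply]
  congr 3
  refine Finset.sum_congr rfl fun l _ => ?_
  congr 1
  rw [← Equiv.sum_comp σ fun i => w (σ.symm i) l * (y (some i) l - β i * y none l)]
  refine Finset.sum_congr rfl fun i _ => ?_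
  rw [Equiv.symm_apply_apply]

omit [DecidableEq ι] [Fintype κ] in
lemma cf_perm (a : ι → ℝ) (σ : Equiv.Perm ι) (j : ι) (w : ι → κ → ℝ) :
    cf (a ∘ σ) j w = cf a (σ j) (w ∘ σ.symm) := by
  funext l
  unfold cf
  have h1 : ∑ i, (a ∘ σ) i = ∑ i, a i := Equiv.sum_comp σ a
  have h2 : ∑ i, (a ∘ σ) i * w i l = ∑ i, a i * (w ∘ σ.symm) i l := by
    rw [← Equiv.sum_comp σ fun i => a i * (w ∘ σ.symm) i l]
    refine Finset.sum_congr rfl fun i _ => ?_
    simp
  rw [h1, h2]
  simp

lemma Q_perm (a : ι → ℝ) (σ : Equiv.Perm ι) (j : ι) (w : ι → κ → ℝ) :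
    (Q (a ∘ σ) j w) ∘ σ.symm = Q a (σ j) (w ∘ σ.symm) := by
  rw [Q_apply, Q_apply, cf_perm]
  funext i
  simp only [Function.comp_apply]
  by_cases hi : i = σ j
  · subst hi; simp
  · have : σ.symm i ≠ j := by
      intro h; apply hi; rw [← h]; simp
    rw [Pi.single_eq_of_ne this, Pi.single_eq_of_ne hi]

lemma Sp_perm {μ : Measure (Option ι → κ → ℝ)} {a β : ι → ℝ} (σ : Equiv.Perm ι) {j : ι}
    (h : Sp (μ.map (perm σ)) (a ∘ σ) (β ∘ σ) j) : Sp μ a β (σ j) := by
  intro x w
  have h1 := h x (w ∘ σ)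
  rw [psi_perm, psi_perm, psi_perm] at h1
  have e1 : (w ∘ σ) ∘ σ.symm = w := by funext i; simp
  have e2 : (Q (a ∘ σ) j (w ∘ σ)) ∘ σ.symm = Q a (σ j) w := by rw [Q_perm, e1]
  have e3 : (w ∘ σ - Q (a ∘ σ) j (w ∘ σ)) ∘ σ.symm = w - Q a (σ j) w := by
    rw [← e2]
    funext i l
    simp [Function.comp_apply, Pi.sub_apply]
  rw [e1, e2, e3] at h1
  exact h1

section Core

variable {Ω B : Type*} [MeasurableSpace Ω] [mB : MeasurableSpace B] {P : Measure Ω}
  [IsProbabilityMeasure P] {e : Ω → B} {S : Ω → Option ι → κ → ℝ} {aB bB : B → ι → ℝ} {i0 : ι}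

omit [DecidableEq ι] in
/-- rotation of the kernel -/
theorem kap_rot (he : Measurable e) (hS : Measurable S) {T : Ω → Ω}
    (hT : MeasurePreserving T P P) {TB TB' : B → B} (hTB : Measurable TB) (hTB' : Measurable TB')
    (h1 : ∀ h, e (T h) = TB (e h)) (h2 : ∀ b, TB' (TB b) = b) {A' : Type*} [MeasurableSpace A']
    [StandardBorelSpace A'] [Nonempty A'] {f g : (Option ι → κ → ℝ) → A'} (hf : Measurable f)
    (hg : Measurable g) (hS2 : ∀ᵐ h ∂P, f (S (T h)) = g (S h)) :
    ∀ᵐ h ∂P, (condDistrib S e P (e (T h))).map f = (condDistrib S e P (e h)).map g := by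
  have a1 := Kap063.condDistrib_equivariant' (P := P) he hS hT hTB hTB' h1 h2
  have a2 := Kap063.condDistrib_map_fun (P := P) he (hS.comp hT.measurable) hf
  have a3 := Kap063.condDistrib_map_fun (P := P) he hS hg
  have a4 : condDistrib (f ∘ S ∘ T) e P = condDistrib (g ∘ S) e P :=
    condDistrib_congr_left hS2
  filter_upwards [a1, a2, a3] with h b1 b2 b3
  rw [← b1, ← b3, ← a4, b2]

theorem all_split (he : Measurable e) (hS : Measurable S) {T : Ω → Ω}
    (hT : MeasurePreserving T P P) {TB TB' : B → B} (hTB : Measurable TB) (hTB' : Measurable TB')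
    (h1 : ∀ h, e (T h) = TB (e h)) (h2 : ∀ b, TB' (TB b) = b) (σ : Equiv.Perm ι)
    (hS2 : ∀ᵐ h ∂P, S (T h) = perm σ (S h))
    (ha : ∀ᵐ h ∂P, aB (e (T h)) = aB (e h) ∘ σ) (hb : ∀ᵐ h ∂P, bB (e (T h)) = bB (e h) ∘ σ)
    (h0 : ∀ᵐ h ∂P, Sp (condDistrib S e P (e h)) (aB (e h)) (bB (e h)) i0)
    (hσ : ∀ i, ∃ r : ℕ, i = σ^[r] i0) :
    ∀ᵐ h ∂P, ∀ i, Sp (condDistrib S e P (e h)) (aB (e h)) (bB (e h)) i := by
  have hrot := kap_rot (P := P) he hS hT hTB hTB' h1 h2 (f := id) (g := perm σ) measurable_id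
    (measurable_perm σ) hS2
  have step : ∀ r : ℕ, ∀ᵐ h ∂P, Sp (condDistrib S e P (e h)) (aB (e h)) (bB (e h)) (σ^[r] i0) := by
    intro r
    induction r with
    | zero => exact h0
    | succ r ih =>
      have ih' := hT.quasiMeasurePreserving.ae ih
      filter_upwards [ih', hrot, ha, hb] with h c1 c2 c3 c4
      rw [Measure.map_id] at c2
      rw [c2, c3, c4] at c1
      rw [Function.iterate_succ_apply']
      exact Sp_perm σ c1
  rw [ae_all_iff]
  intro i
  obtain ⟨r, hr⟩ := hσ i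
  rw [hr]
  exact step r

end Core

/-! ### square integrability from the characteristic function -/

lemma sq_le_cos {u : ℝ} (hu : |u| ≤ Real.pi) : 2 / Real.pi ^ 2 * u ^ 2 ≤ 1 - Real.cos u := by
  have := Real.cos_le_one_sub_mul_cos_sq hu
  linarith

theorem memLp_two_of_condChar {Ω : Type*} {m mΩ : MeasurableSpace Ω} {P : Measure Ω}
    [IsProbabilityMeasure P] (hm : m ≤ mΩ) {Z v : Ω → ℝ} (hZ : Measurable Z)
    (hv : Integrable v P)
    (H : ∀ r : ℝ, P[fun h => Complex.exp (Complex.I * ((r * Z h : ℝ) : ℂ)) | m] =ᵐ[P]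
      fun h => ((Real.exp (-(1 / 2) * (r ^ 2 * v h)) : ℝ) : ℂ)) :
    MemLp Z 2 P := by
  rw [memLp_two_iff_integrable_sq hZ.aestronglyMeasurable]
  refine ⟨(hZ.pow_const 2).aestronglyMeasurable, ?_⟩
  rw [hasFiniteIntegral_iff_ofReal (Filter.Eventually.of_forall fun h => sq_nonneg _)]
  -- the approximations
  have hint : ∀ r : ℝ, 0 < r → ∫⁻ h, ENNReal.ofReal (2 / r ^ 2 * (1 - Real.cos (r * Z h))) ∂P ≤
      ENNReal.ofReal (∫ h, v h ∂P) := by
    intro r hr
    have hmeas : Measurable fun h => Complex.exp (Complex.I * ((r * Z h : ℝ) : ℂ)) := by fun_prop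
    have hI : Integrable (fun h => Complex.exp (Complex.I * ((r * Z h : ℝ) : ℂ))) P :=
      Integrable.mono' (integrable_const (1 : ℝ)) hmeas.aestronglyMeasurable
        (Filter.Eventually.of_forall fun h => (norm_exp_I _).le)
    have h1 : ∫ h, Complex.exp (Complex.I * ((r * Z h : ℝ) : ℂ)) ∂P =
        ∫ h, ((Real.exp (-(1 / 2) * (r ^ 2 * v h)) : ℝ) : ℂ) ∂P := by
      rw [← integral_condExp hm, integral_congr_ae (H r)]
    have hIv : Integrable (fun h => ((Real.exp (-(1 / 2) * (r ^ 2 * v h)) : ℝ) : ℂ)) P :=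
      (integrable_condExp (m := m) (μ := P)
        (f := fun h => Complex.exp (Complex.I * ((r * Z h : ℝ) : ℂ)))).congr (H r)
    have h2 : ∫ h, Real.cos (r * Z h) ∂P = ∫ h, Real.exp (-(1 / 2) * (r ^ 2 * v h)) ∂P := by
      have h3 := congrArg Complex.re h1
      rw [← RCLike.re_eq_complex_re, ← integral_re hI, ← integral_re hIv] at h3
      simp only [RCLike.re_eq_complex_re, Complex.ofReal_re] at h3
      rw [← h3]
      refine integral_congr_ae (Filter.Eventually.of_forall fun h => ?_)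
      simp only
      rw [mul_comm Complex.I, Complex.exp_ofReal_mul_I_re]
    have hIr : Integrable (fun h => Real.exp (-(1 / 2) * (r ^ 2 * v h))) P := by
      have := hIv.re
      simpa only [RCLike.re_eq_complex_re, Complex.ofReal_re] using this
    have hIc : Integrable (fun h => Real.cos (r * Z h)) P := by
      refine Integrable.mono' (integrable_const (1 : ℝ)) ?_
        (Filter.Eventually.of_forall fun h => by
          rw [Real.norm_eq_abs]; exact Real.abs_cos_le_one _)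
      have : Measurable fun h => Real.cos (r * Z h) := by fun_prop
      exact this.aestronglyMeasurable
    rw [← ofReal_integral_eq_lintegral_ofReal]
    · apply ENNReal.ofReal_le_ofReal
      rw [integral_const_mul, integral_sub (integrable_const _) hIc, h2, integral_const]
      simp only [probReal_univ, smul_eq_mul, mul_one]
      have h4 : ∫ h, (1 - 1 / 2 * (r ^ 2 * v h)) ∂P ≤ ∫ h, Real.exp (-(1 / 2) * (r ^ 2 * v h)) ∂P := by
        refine integral_mono ?_ hIr fun h => ?_
        · exact (integrable_const _).sub ((hv.const_mul _).const_mul _)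
        · have := Real.add_one_le_exp (-(1 / 2) * (r ^ 2 * v h))
          simp only
          linarith
      rw [integral_sub (integrable_const _) ((hv.const_mul _).const_mul _), integral_const,
        integral_const_mul, integral_const_mul] at h4
      simp only [probReal_univ, smul_eq_mul, mul_one] at h4
      have h5 : 1 - ∫ h, Real.exp (-(1 / 2) * (r ^ 2 * v h)) ∂P ≤ 1 / 2 * (r ^ 2 * ∫ h, v h ∂P) := by
        linarith
      calc 2 / r ^ 2 * (1 - ∫ h, Real.exp (-(1 / 2) * (r ^ 2 * v h)) ∂P)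
          ≤ 2 / r ^ 2 * (1 / 2 * (r ^ 2 * ∫ h, v h ∂P)) := by
            apply mul_le_mul_of_nonneg_left h5; positivity
        _ = ∫ h, v h ∂P := by field_simp
    · exact ((integrable_const _).sub hIc).const_mul _
    · refine Filter.Eventually.of_forall fun h => ?_
      have := Real.cos_le_one (r * Z h)
      have h6 : 0 ≤ 2 / r ^ 2 := by positivity
      exact mul_nonneg h6 (by linarith)
  have hpi := Real.pi_pos
  -- Fatou
  have hF : ∫⁻ h, ENNReal.ofReal (4 / Real.pi ^ 2 * Z h ^ 2) ∂P ≤ ENNReal.ofReal (∫ h, v h ∂P) := by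
    have h7 : ∀ h, ENNReal.ofReal (4 / Real.pi ^ 2 * Z h ^ 2) ≤ Filter.liminf (fun n : ℕ =>
        ENNReal.ofReal (2 / (1 / ((n : ℝ) + 1)) ^ 2 *
          (1 - Real.cos ((1 / ((n : ℝ) + 1)) * Z h)))) Filter.atTop := by
      intro h
      refine Filter.le_liminf_of_le (by isBoundedDefault) ?_
      have h8 : ∀ᶠ n : ℕ in Filter.atTop, |Z h| / Real.pi ≤ (n : ℝ) :=
        (Filter.tendsto_atTop.1 tendsto_natCast_atTop_atTop) _
      filter_upwards [h8] with n hn
      apply ENNReal.ofReal_le_ofReal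
      have hn1 : (0 : ℝ) < (n : ℝ) + 1 := by positivity
      have h9 : |1 / ((n : ℝ) + 1) * Z h| ≤ Real.pi := by
        rw [abs_mul, abs_of_pos (by positivity : (0 : ℝ) < 1 / ((n : ℝ) + 1)), one_div,
          inv_mul_le_iff₀ hn1]
        rw [div_le_iff₀ hpi] at hn
        nlinarith
      have h10 := sq_le_cos h9
      have h11 : 0 ≤ 2 / (1 / ((n : ℝ) + 1)) ^ 2 := by positivity
      calc 4 / Real.pi ^ 2 * Z h ^ 2 = 2 / (1 / ((n : ℝ) + 1)) ^ 2 *
          (2 / Real.pi ^ 2 * (1 / ((n : ℝ) + 1) * Z h) ^ 2) := by field_simp; ring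
        _ ≤ _ := mul_le_mul_of_nonneg_left h10 h11
    calc ∫⁻ h, ENNReal.ofReal (4 / Real.pi ^ 2 * Z h ^ 2) ∂P
        ≤ ∫⁻ h, Filter.liminf (fun n : ℕ =>
        ENNReal.ofReal (2 / (1 / ((n : ℝ) + 1)) ^ 2 *
          (1 - Real.cos ((1 / ((n : ℝ) + 1)) * Z h)))) Filter.atTop ∂P := lintegral_mono h7
      _ ≤ Filter.liminf (fun n : ℕ => ∫⁻ h,
        ENNReal.ofReal (2 / (1 / ((n : ℝ) + 1)) ^ 2 *
          (1 - Real.cos ((1 / ((n : ℝ) + 1)) * Z h))) ∂P) Filter.atTop := by
          refine lintegral_liminf_le fun n => ?_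
          fun_prop
      _ ≤ Filter.liminf (fun _ : ℕ => ENNReal.ofReal (∫ h, v h ∂P)) Filter.atTop := by
          refine Filter.liminf_le_liminf (Filter.Eventually.of_forall fun n => ?_)
            (by isBoundedDefault) (by isBoundedDefault)
          exact hint _ (by positivity)
      _ = ENNReal.ofReal (∫ h, v h ∂P) := Filter.liminf_const _
  have hc : ∫⁻ h, ENNReal.ofReal (4 / Real.pi ^ 2 * Z h ^ 2) ∂P =
      ENNReal.ofReal (4 / Real.pi ^ 2) * ∫⁻ h, ENNReal.ofReal (Z h ^ 2) ∂P := by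
    rw [← lintegral_const_mul _ (by fun_prop)]
    refine lintegral_congr fun h => ?_
    rw [ENNReal.ofReal_mul (by positivity)]
  rw [hc] at hF
  by_contra hcon
  rw [not_lt, top_le_iff] at hcon
  rw [hcon, ENNReal.mul_top] at hF
  · exact absurd hF (by simp)
  · simp only [ne_eq, ENNReal.ofReal_eq_zero, not_le]; positivity

end Crest.Agent.R166.Kap63
end

-- ▼ part R166/Kap_63
section

/-!
# First half of 42.6: `Stmt_42_5` (row 166; helper63)
-/

set_option autoImplicit false

open MeasureTheory ProbabilityTheory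
open Crest.Agent.R166.Bern385 Crest.Agent.R166.B2

namespace Crest.Agent.R166.Kap63

/-! ### general facts on the kernel -/

section Gen

variable {ι κ : Type*} [Fintype ι] [Fintype κ]

omit [Fintype κ] in
lemma measurableSet_eqn [Countable κ] {B : Type*} [MeasurableSpace B] {om : B → ℝ}
    (hom : Measurable om) (s E : ℝ) :
    MeasurableSet {x : B × (Option ι → κ → ℝ) |
      ∀ l, ∑ i, x.2 (some i) l = (E - s * om x.1) * x.2 none l} := by
  rw [Set.ofPred_forall]
  refine MeasurableSet.iInter fun l => ?_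
  exact measurableSet_eq_fun (by fun_prop) (by fun_prop)

lemma int_kernel {Ω B : Type*} [MeasurableSpace Ω] [mB : MeasurableSpace B] {P : Measure Ω}
    [IsProbabilityMeasure P] {e : Ω → B} {S : Ω → Option ι → κ → ℝ} (he : Measurable e)
    (hS : Measurable S) (f : (Option ι → κ → ℝ) → ℝ) (hf : Measurable f)
    (hfi : Integrable (fun h => f (S h)) P) :
    ∀ᵐ h ∂P, Integrable f (condDistrib S e P (e h)) := by
  have hm : Measurable fun p : B × (Option ι → κ → ℝ) => f p.2 := hf.comp measurable_snd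
  exact Integrable.condDistrib_ae (f := fun p : B × (Option ι → κ → ℝ) => f p.2)
    he.aemeasurable hS.aemeasurable
    ((integrable_map_measure hm.aestronglyMeasurable (he.prodMk hS).aemeasurable).2 hfi)

end Gen

/-! ### algebra of the ports -/

section Ports

variable {Ω : Type*} {pp rr : Ω → Ω} {d : ℕ}

lemma iter_mod (hd : ∀ h, rr^[d] h = h) (m : ℕ) (h : Ω) : rr^[m % d] h = rr^[m] h :=
  Function.IsPeriodicPt.iterate_mod_apply (hd h) m

lemma mv_rr (i : ℕ) (h : Ω) : mv pp rr i (rr h) = mv pp rr (i + 1) h := by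
  unfold mv
  rw [Function.iterate_succ_apply]

lemma mv_mod (hd : ∀ h, rr^[d] h = h) (m : ℕ) (h : Ω) :
    mv pp rr (m % d) h = mv pp rr m h := by
  unfold mv
  rw [iter_mod hd]

lemma sum_rot (hd : ∀ h, rr^[d] h = h) (hd0 : 0 < d) {M : Type*} [AddCommMonoid M]
    (f : Ω → M) (h : Ω) :
    ∑ i ∈ Finset.range d, f (mv pp rr i (rr h)) = ∑ i ∈ Finset.range d, f (mv pp rr i h) := by
  obtain ⟨n, rfl⟩ : ∃ n, d = n + 1 := ⟨d - 1, by omega⟩
  have h0 : mv pp rr n (rr h) = mv pp rr 0 h := by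
    rw [mv_rr]
    have := mv_mod (pp := pp) hd (n + 1) h
    rw [Nat.mod_self] at this
    exact this.symm
  rw [Finset.sum_range_succ (fun i => f (mv pp rr i (rr h))),
    Finset.sum_range_succ' (fun i => f (mv pp rr i h)), h0]
  congr 1

end Ports

/-! ### measurability of the coefficients -/

section Meas

variable {Ω : Type*} [MeasurableSpace Ω] {pp rr : Ω → Ω} {d : ℕ} {om : Ω → ℝ} {cav : Ω → ℂ}

lemma measurable_mv (hpp : Measurable pp) (hrr : Measurable rr) (i : ℕ) :
    Measurable (mv pp rr i) := hpp.comp (hrr.iterate i)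

lemma measurable_Gd (hpp : Measurable pp) (hrr : Measurable rr) (hom : Measurable om)
    (hcav : Measurable cav) (s E : ℝ) : Measurable (Gd pp rr d s E om cav) := by
  unfold Gd
  have h1 : ∀ i, Measurable fun h => cav (mv pp rr i h) := fun i =>
    hcav.comp (measurable_mv hpp hrr i)
  have h2 : Measurable fun h => ∑ i ∈ Finset.range d, cav (mv pp rr i h) :=
    Finset.measurable_sum _ fun i _ => h1 i
  have h3 : Measurable fun h => ((E : ℂ) - s * om h + ∑ i ∈ Finset.range d, cav (mv pp rr i h)) :=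
    (measurable_const.sub ((Complex.measurable_ofReal.comp hom).const_mul _)).add h2
  exact measurable_const.div h3

lemma measurable_bet (hpp : Measurable pp) (hrr : Measurable rr) (hom : Measurable om)
    (hcav : Measurable cav) (s E : ℝ) (i : ℕ) : Measurable (bet pp rr d s E om cav i) := by
  unfold bet
  have h1 : Measurable fun h => cav (mv pp rr i h) := hcav.comp (measurable_mv hpp hrr i)
  have h2 := measurable_Gd (d := d) hpp hrr hom hcav s E
  exact (Complex.measurable_im.comp (h2.mul h1.neg)).div (Complex.measurable_im.comp h2)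

lemma measurable_aB (hpp : Measurable pp) (hrr : Measurable rr)
    (hcav : Measurable cav) :
    Measurable fun (h : Ω) (i : Fin d) => (cav (mv pp rr i h)).im := by
  rw [measurable_pi_iff]
  intro i
  exact Complex.measurable_im.comp (hcav.comp (measurable_mv hpp hrr i))

lemma measurable_bB (hpp : Measurable pp) (hrr : Measurable rr) (hom : Measurable om)
    (hcav : Measurable cav) (s E : ℝ) :
    Measurable fun (h : Ω) (i : Fin d) => bet pp rr d s E om cav i h := by
  rw [measurable_pi_iff]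
  intro i
  exact measurable_bet hpp hrr hom hcav s E i

lemma measurable_SY (hpp : Measurable pp) (hrr : Measurable rr) {k : ℕ} {t : ℝ}
    {X Z : Ω → Fin k → ℝ} (hX : Measurable X) (hZ : Measurable Z) :
    Measurable (SY pp rr d t X Z) := by
  rw [measurable_pi_iff]
  intro c
  rw [measurable_pi_iff]
  intro l
  have h1 : Measurable fun h => YY t X Z h l := by
    unfold YY
    exact ((measurable_pi_apply l).comp hX).add
      (((measurable_pi_apply l).comp hZ).const_mul _)
  cases c with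
  | none => exact h1
  | some i => exact h1.comp (measurable_mv hpp hrr i)

end Meas

/-! ### the sums of `InnovProp` -/

lemma sum_Ico_eq {d : ℕ} (hd : 0 < d) (g : ℕ → ℝ) :
    ∑ j ∈ Finset.Ico 1 d, g j = ∑ j : Fin d, if j = ⟨0, hd⟩ then 0 else g j := by
  have h1 : ∀ j : Fin d, (if j = ⟨0, hd⟩ then 0 else g j) =
      (fun j : ℕ => if j = 0 then 0 else g j) j := by
    intro j
    simp only [Fin.ext_iff]
  rw [Finset.sum_congr rfl fun j _ => h1 j, ← Finset.sum_range fun j => if j = 0 then 0 else g j,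
    Finset.range_eq_Ico, Finset.sum_eq_sum_Ico_succ_bot hd]
  simp only [if_true, zero_add]
  refine Finset.sum_congr rfl fun j hj => ?_
  rw [if_neg]
  have := (Finset.mem_Ico.1 hj).1
  omega

section Main

variable {Ω : Type*} {Env FX : MeasurableSpace Ω} [mΩ : MeasurableSpace Ω] {d k : ℕ}
  {s E t ρ : ℝ} {P : Measure Ω} {pp rr : Ω → Ω} {om : Ω → ℝ} {cav : Ω → ℂ}
  {X Z : Ω → Fin k → ℝ}

omit mΩ in
lemma inn_eq (hd : 0 < d) (j : Fin d) (h : Ω) (l : Fin k) :
    inn (fun i : Fin d => (cav (mv pp rr i h)).im) (fun i : Fin d => bet pp rr d s E om cav i h)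
      ⟨0, hd⟩ j (SY pp rr d t X Z h) l = Inn pp rr d s E t om cav X Z j h l := by
  unfold inn Inn Wr
  rw [Finset.sum_range fun i => (cav (mv pp rr i h)).im]
  rfl

omit mΩ in
lemma Lθ_eq (hd : 0 < d) (x y : Fin k → ℝ) (w : ℕ → Fin k → ℝ) (h : Ω) :
    Lθ (fun i : Fin d => (cav (mv pp rr i h)).im) (fun i : Fin d => bet pp rr d s E om cav i h)
      ⟨0, hd⟩ (x, y, fun j => w j) (SY pp rr d t X Z h) =
    ∑ l, (x l * YY t X Z h l + y l * YY t X Z (pp h) l
        + ∑ j ∈ Finset.Ico 1 d, w j l * Inn pp rr d s E t om cav X Z j h l) := by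
  unfold Lθ
  refine Finset.sum_congr rfl fun l _ => ?_
  rw [sum_Ico_eq hd]
  congr 1
  refine Finset.sum_congr rfl fun j _ => ?_
  rw [inn_eq hd]
  split_ifs <;> simp

variable (hL : LimProc Env FX d k s E t ρ P pp rr om cav X Z)

include hL

lemma d_pos : 0 < d := by have := hL.hd; omega

lemma Env_le' : Env ≤ mΩ := hL.Env_le.trans hL.FX_le

lemma mp_mv (i : ℕ) : MeasurePreserving (mv pp rr i) P P :=
  hL.pp_mp.comp (hL.rr_mp.iterate i)

lemma X_meas' : Measurable X := hL.X_meas.mono hL.FX_le le_rfl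

lemma SY_meas : Measurable (SY pp rr d t X Z) :=
  measurable_SY hL.pp_mp.measurable hL.rr_mp.measurable (X_meas' hL) hL.Z_meas

lemma ae_pos : ∀ᵐ h ∂P, ∀ i : ℕ, 0 < (cav (mv pp rr i h)).im := by
  rw [ae_all_iff]
  intro i
  exact (mp_mv hL i).quasiMeasurePreserving.ae hL.cav_im

lemma ae_D (hd : 0 < d) : ∀ᵐ h ∂P, (∑ j : Fin d, (cav (mv pp rr j h)).im) -
    (cav (mv pp rr (⟨0, hd⟩ : Fin d) h)).im ≠ 0 := by
  filter_upwards [ae_pos hL] with h hh
  have h3 : 3 ≤ Fintype.card (Fin d) := by rw [Fintype.card_fin]; exact hL.hd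
  have := sum_lt (a := fun j : Fin d => (cav (mv pp rr j h)).im) (fun j => hh j) h3 ⟨0, hd⟩
  simp only at this
  linarith [this]

lemma ae_YY_rr : ∀ᵐ h ∂P, YY t X Z (rr h) = YY t X Z h := by
  filter_upwards with h
  have h1 := hL.X_rr h
  have h2 := hL.Z_rr h
  funext l
  unfold YY
  rw [h1, h2]

/-- the environment coefficients are rotated -/
lemma ae_bet_rr : ∀ᵐ h ∂P, ∀ i : ℕ,
    bet pp rr d s E om cav i (rr h) = bet pp rr d s E om cav (i + 1) h := by
  filter_upwards with h i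
  have h1 := hL.om_rr h
  have h2 : Gd pp rr d s E om cav (rr h) = Gd pp rr d s E om cav h := by
    unfold Gd
    rw [h1, sum_rot hL.rr_d (d_pos hL) cav h]
  unfold bet
  rw [h2, mv_rr]

lemma ae_SY_rr {σ : Fin d → Fin d} (hσ : ∀ i : Fin d, (σ i : ℕ) = (i + 1) % d) :
    ∀ᵐ h ∂P, SY pp rr d t X Z (rr h) = perm σ (SY pp rr d t X Z h) := by
  filter_upwards [ae_YY_rr hL] with h h1
  funext c l
  cases c with
  | none =>
    change YY t X Z (rr h) l = YY t X Z h l
    rw [h1]
  | some i =>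
    change YY t X Z (mv pp rr i (rr h)) l = YY t X Z (mv pp rr (σ i) h) l
    rw [mv_rr, hσ, mv_mod hL.rr_d]

/-! ### the port `0` -/

lemma split0 (hI : InnovProp Env d k s E t P pp rr om cav X Z) [IsFiniteMeasure P] :
    ∀ᵐ h ∂P, Sp (kap Env P pp rr d t X Z h) (fun i : Fin d => (cav (mv pp rr i h)).im)
      (fun i : Fin d => bet pp rr d s E om cav i h) ⟨0, d_pos hL⟩ := by
  have hP : IsProbabilityMeasure P := hL.prob
  have hEnv := Env_le' hL
  have he : Measurable[mΩ, Env] (id : Ω → Ω) := measurable_id'' hEnv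
  have haB : Measurable[Env] fun (h : Ω) (i : Fin d) => (cav (mv pp rr i h)).im :=
    @measurable_aB Ω Env pp rr d cav hL.pp_Env hL.rr_Env hL.cav_meas
  have hbB : Measurable[Env] fun (h : Ω) (i : Fin d) => bet pp rr d s E om cav i h :=
    @measurable_bB Ω Env pp rr d om cav hL.pp_Env hL.rr_Env hL.om_meas hL.cav_meas s E
  have key := @core_split (Fin d) (Fin k) _ _ _ Ω Ω mΩ Env P _ id (SY pp rr d t X Z)
    (fun (h : Ω) (i : Fin d) => (cav (mv pp rr i h)).im)
    (fun (h : Ω) (i : Fin d) => bet pp rr d s E om cav i h) ⟨0, d_pos hL⟩ he (SY_meas hL)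
    haB hbB (ae_D hL (d_pos hL)) ?_
  · filter_upwards [key] with h hh x w
    exact hh x w
  · intro x y w
    obtain ⟨w', rfl⟩ : ∃ w' : ℕ → Fin k → ℝ, w = fun j : Fin d => w' j :=
      ⟨fun j => if hj : j < d then w ⟨j, hj⟩ else 0, by funext j; simp⟩
    have h1 : (fun h : Ω => Complex.exp (Complex.I *
        ((Lθ (fun i : Fin d => (cav (mv pp rr i h)).im)
          (fun i : Fin d => bet pp rr d s E om cav i h) ⟨0, d_pos hL⟩
          (x, y, fun j : Fin d => w' j) (SY pp rr d t X Z h) : ℝ) : ℂ))) =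
        fun h => Complex.exp (Complex.I * ((∑ l, (x l * YY t X Z h l + y l * YY t X Z (pp h) l
        + ∑ j ∈ Finset.Ico 1 d, w' j l * Inn pp rr d s E t om cav X Z j h l) : ℝ) : ℂ)) := by
      funext h
      rw [Lθ_eq]
    have h2 : (fun h : Ω => Complex.exp (Complex.I *
        ((Lθ (fun i : Fin d => (cav (mv pp rr i h)).im)
          (fun i : Fin d => bet pp rr d s E om cav i h) ⟨0, d_pos hL⟩
          (x, y, (0 : Fin d → Fin k → ℝ)) (SY pp rr d t X Z h) : ℝ) : ℂ))) =
        fun h => Complex.exp (Complex.I *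
        ((∑ l, (x l * YY t X Z h l + y l * YY t X Z (pp h) l) : ℝ) : ℂ)) := by
      funext h
      have := Lθ_eq (pp := pp) (rr := rr) (s := s) (E := E) (t := t) (om := om) (cav := cav)
        (X := X) (Z := Z) (d_pos hL) x y (0 : ℕ → Fin k → ℝ) h
      simp only [Pi.zero_apply, zero_mul, Finset.sum_const_zero, add_zero] at this
      rw [← this]
      rfl
    have h3 : (fun h : Ω => Complex.exp (Complex.I *
        ((Lθ (fun i : Fin d => (cav (mv pp rr i h)).im)
          (fun i : Fin d => bet pp rr d s E om cav i h) ⟨0, d_pos hL⟩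
          ((0 : Fin k → ℝ), (0 : Fin k → ℝ), fun j : Fin d => w' j)
            (SY pp rr d t X Z h) : ℝ) : ℂ))) =
        fun h => Complex.exp (Complex.I *
        ((∑ l, (∑ j ∈ Finset.Ico 1 d, w' j l * Inn pp rr d s E t om cav X Z j h l) : ℝ) : ℂ)) := by
      funext h
      rw [Lθ_eq]
      simp only [Pi.zero_apply, zero_mul, zero_add]
    have h4 := hI x y w'
    rw [← h1, ← h2, ← h3] at h4
    simp only [id_eq, MeasurableSpace.comap_id]
    exact h4

/-! ### all ports -/

omit hL in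
lemma exists_rot (hd : 0 < d) : ∃ σ : Equiv.Perm (Fin d), (∀ i : Fin d, (σ i : ℕ) = (i + 1) % d) ∧
    ∀ i, ∃ r : ℕ, i = σ^[r] ⟨0, hd⟩ := by
  have : NeZero d := ⟨by omega⟩
  have h1 : ∀ i : Fin d, ((Equiv.addRight (1 : Fin d)) i : ℕ) = (i + 1) % d := by
    intro i
    rw [Equiv.coe_addRight, Fin.val_add, Fin.val_one', Nat.add_mod_mod]
  refine ⟨Equiv.addRight (1 : Fin d), h1, fun i => ⟨i, ?_⟩⟩
  have h2 : ∀ r : ℕ, (((Equiv.addRight (1 : Fin d))^[r] ⟨0, hd⟩ : Fin d) : ℕ) = r % d := by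
    intro r
    induction r with
    | zero => simp
    | succ r ih => rw [Function.iterate_succ_apply', h1, ih, Nat.mod_add_mod]
  apply Fin.ext
  rw [h2, Nat.mod_eq_of_lt i.2]

lemma all_ports (hI : InnovProp Env d k s E t P pp rr om cav X Z) [IsFiniteMeasure P] :
    ∀ᵐ h ∂P, ∀ i, Sp (kap Env P pp rr d t X Z h) (fun i : Fin d => (cav (mv pp rr i h)).im)
      (fun i : Fin d => bet pp rr d s E om cav i h) i := by
  have hP : IsProbabilityMeasure P := hL.prob
  have hEnv := Env_le' hL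
  have he : Measurable[mΩ, Env] (id : Ω → Ω) := measurable_id'' hEnv
  obtain ⟨σ, hσ1, hσ2⟩ := exists_rot (d_pos hL)
  have h2 : ∀ b : Ω, rr^[d - 1] (rr b) = b := by
    intro b
    rw [← Function.iterate_succ_apply, Nat.succ_eq_add_one,
      Nat.sub_add_cancel (d_pos hL), hL.rr_d]
  have ha : ∀ᵐ h ∂P, (fun i : Fin d => (cav (mv pp rr i (rr h))).im) =
      (fun i : Fin d => (cav (mv pp rr i h)).im) ∘ σ := by
    refine Filter.Eventually.of_forall fun h => ?_
    funext i
    simp only [Function.comp_apply]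
    rw [mv_rr, hσ1, mv_mod hL.rr_d]
  have hb : ∀ᵐ h ∂P, (fun i : Fin d => bet pp rr d s E om cav i (rr h)) =
      (fun i : Fin d => bet pp rr d s E om cav i h) ∘ σ := by
    filter_upwards [ae_bet_rr hL] with h hh
    funext i
    simp only [Function.comp_apply]
    rw [hh]
    unfold bet
    rw [hσ1, mv_mod hL.rr_d]
  exact @all_split (Fin d) (Fin k) _ _ _ Ω Ω mΩ Env P _ id (SY pp rr d t X Z)
    (fun (h : Ω) (i : Fin d) => (cav (mv pp rr i h)).im)
    (fun (h : Ω) (i : Fin d) => bet pp rr d s E om cav i h) ⟨0, d_pos hL⟩ he (SY_meas hL)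
    rr hL.rr_mp rr (rr^[d - 1]) hL.rr_Env (hL.rr_Env.iterate _) (fun _ => rfl) h2 σ
    (ae_SY_rr hL hσ1) ha hb (split0 hL hI) hσ2

/-! ### second moments -/

lemma Z_L2 (l : Fin k) : MemLp (fun h => Z h l) 2 P := by
  have hP : IsProbabilityMeasure P := hL.prob
  refine memLp_two_of_condChar (m := FX) hL.FX_le (v := fun h =>
    (Gd pp rr d s E om cav h).im / (Real.pi * ρ)) ((measurable_pi_apply l).comp hL.Z_meas)
    (hL.G_int.div_const _) fun r => ?_
  have h1 := hL.Z_gauss [] (by intro j hj; simp at hj) 0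
    (fun a => a.elim (Pi.single l r) (fun _ => 0))
  refine (Filter.EventuallyEq.symm ?_).trans (h1.trans ?_)
  · have e1 : (fun h => Complex.exp (Complex.I * ((r * Z h l : ℝ) : ℂ))) =
        fun h => Complex.exp (Complex.I * ((∑ l', ((0 : Fin k → ℝ) l' *
          Z (wd pp rr [] (pp h)) l' + ∑ a : St d, (a.elim (Pi.single l r) (fun _ => 0) :
            Fin k → ℝ) l' * Z (sv pp rr d h a) l') : ℝ) : ℂ)) := by
      funext h
      congr 3
      simp only [Pi.zero_apply, zero_mul, zero_add, Fintype.sum_option, Option.elim_none,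
        Option.elim_some, Finset.sum_const_zero, add_zero]
      rw [Finset.sum_eq_single l]
      · simp [sv]
      · intro b _ hb; simp [Pi.single_eq_of_ne hb]
      · simp
    rw [e1]
  · refine Filter.Eventually.of_forall fun h => ?_
    simp only
    rw [Complex.ofReal_exp]
    congr 2
    simp only [Pi.zero_apply, zero_mul, Fintype.sum_option, Option.elim_none,
        Option.elim_some, Finset.sum_const_zero,
      add_zero, mul_zero, ne_eq, OfNat.ofNat_ne_zero, not_false_eq_true, zero_pow, zero_add, Gs]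
    rw [Finset.sum_eq_single l]
    · simp only [Pi.single_eq_same]
      ring
    · intro b _ hb; simp [Pi.single_eq_of_ne hb]
    · simp

lemma Y_L2 (l : Fin k) : MemLp (fun h => YY t X Z h l) 2 P :=
  (hL.X_L2 l).add ((Z_L2 hL l).const_mul _)

lemma SY_L2 (c : St d) (l : Fin k) : MemLp (fun h => SY pp rr d t X Z h c l) 2 P := by
  cases c with
  | none => exact Y_L2 hL l
  | some i => exact (Y_L2 hL l).comp_measurePreserving (mp_mv hL i)

/-! ### `KapStar` -/

theorem kapStar (hI : InnovProp Env d k s E t P pp rr om cav X Z) [IsFiniteMeasure P] :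
    KapStar Env P d s E t pp rr om cav X Z := by
  have hP : IsProbabilityMeasure P := hL.prob
  have hEnv := Env_le' hL
  have he : Measurable[mΩ, Env] (id : Ω → Ω) := measurable_id'' hEnv
  have hsq : ∀ᵐ h ∂P, ∀ c l, Integrable (fun y : St d → Fin k → ℝ => (y c l) ^ 2)
      (kap Env P pp rr d t X Z h) := by
    rw [ae_all_iff]
    intro c
    rw [ae_all_iff]
    intro l
    exact @int_kernel (Fin d) (Fin k) _ _ Ω Ω mΩ Env P _ id (SY pp rr d t X Z) he (SY_meas hL)
      (fun y => (y c l) ^ 2) (by fun_prop) (SY_L2 hL c l).integrable_sq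
  have heq : ∀ᵐ h ∂P, ∀ᵐ y ∂(kap Env P pp rr d t X Z h), ∀ l, ∑ i, y (some i) l =
      (E - s * om h) * y none l := by
    have hp := @measurableSet_eqn (Fin d) (Fin k) _ _ Ω Env om hL.om_meas s E
    refine @Kap063.ae_ae_condDistrib Ω Ω (St d → Fin k → ℝ) mΩ Env _ _ _ P _ id
      (SY pp rr d t X Z) he (SY_meas hL)
      (fun x => ∀ l, ∑ i, x.2 (some i) l = (E - s * om x.1) * x.2 none l) hp ?_
    filter_upwards [hL.X_eq, hL.Z_eq] with h h1 h2 l
    simp only [id_eq, SY, sv, YY]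
    rw [Finset.sum_add_distrib, ← Finset.mul_sum,
      ← Finset.sum_range fun i => X (mv pp rr i h) l,
      ← Finset.sum_range fun i => Z (mv pp rr i h) l, h1, h2]
    ring
  filter_upwards [all_ports hL hI, hsq, heq] with h h1 h2 h3
  refine ⟨?_, h2, h3, h1⟩
  unfold kap
  infer_instance

/-! ### `KapEdge`, `KapRot` -/

theorem kapEdge [IsFiniteMeasure P] : KapEdge Env P d t pp rr X Z := by
  intro i0 hi0
  have hP : IsProbabilityMeasure P := hL.prob
  have hEnv := Env_le' hL
  have he : Measurable[mΩ, Env] (id : Ω → Ω) := measurable_id'' hEnv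
  refine @kap_rot (Fin d) (Fin k) _ _ Ω Ω mΩ Env P _ id (SY pp rr d t X Z) he (SY_meas hL)
    pp hL.pp_mp pp pp hL.pp_Env hL.pp_Env (fun _ => rfl) hL.pp_pp ((Fin k → ℝ) × (Fin k → ℝ)) _ _ _
    (fun y => (y (some i0), y none)) (fun y => (y none, y (some i0))) (by fun_prop) (by fun_prop)
    (Filter.Eventually.of_forall fun h => ?_)
  have h1 : ∀ h, mv pp rr i0 h = pp h := by
    intro h
    rw [hi0]
    rfl
  change (SY pp rr d t X Z (pp h) (some i0), SY pp rr d t X Z (pp h) none) =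
    (SY pp rr d t X Z h none, SY pp rr d t X Z h (some i0))
  unfold SY
  simp only [sv, h1, hL.pp_pp]

theorem kapRot [IsFiniteMeasure P] : KapRot Env P d t pp rr X Z := by
  intro σ hσ
  have hP : IsProbabilityMeasure P := hL.prob
  have hEnv := Env_le' hL
  have he : Measurable[mΩ, Env] (id : Ω → Ω) := measurable_id'' hEnv
  have h2 : ∀ b : Ω, rr^[d - 1] (rr b) = b := by
    intro b
    rw [← Function.iterate_succ_apply, Nat.succ_eq_add_one,
      Nat.sub_add_cancel (d_pos hL), hL.rr_d]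
  have := @kap_rot (Fin d) (Fin k) _ _ Ω Ω mΩ Env P _ id (SY pp rr d t X Z) he (SY_meas hL)
    rr hL.rr_mp rr (rr^[d - 1]) hL.rr_Env (hL.rr_Env.iterate _) (fun _ => rfl) h2 _ _ _ _
    id (perm σ) measurable_id (measurable_perm σ) (ae_SY_rr hL hσ)
  filter_upwards [this] with h hh
  rw [Measure.map_id] at hh
  exact hh

end Main


end Crest.Agent.R166.Kap63
end

-- ▼ part R166/StarAlg_341
section

/-!
# Row 166, section 42.6: star / edge algebra of the tree Green function (helper341)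

Everything is pointwise for the points `h` satisfying `Pt` (the cavity equations and the positivity
hold on the whole orbit of `h`), and `ae_pt` says that almost every `h` satisfies `Pt`.
-/

set_option autoImplicit false

noncomputable section

open MeasureTheory ProbabilityTheory

namespace Crest.Agent.R166.StarAlg341

open Crest.Agent.R166.B2

variable {Ω : Type*}

/-! ### 1. orbits -/

/-- action of words in the two maps -/
def act (pp rr : Ω → Ω) : List Bool → Ω → Ω
  | [] => fun h => h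
  | true :: w => fun h => act pp rr w (pp h)
  | false :: w => fun h => act pp rr w (rr h)




/-- an a.e. property holds a.e. on the whole orbit -/
theorem ae_act [MeasurableSpace Ω] {P : Measure Ω} {pp rr : Ω → Ω}
    (hpp : MeasurePreserving pp P P) (hrr : MeasurePreserving rr P P) {p : Ω → Prop}
    (hp : ∀ᵐ h ∂P, p h) : ∀ᵐ h ∂P, ∀ w : List Bool, p (act pp rr w h) := by
  rw [ae_all_iff]
  intro w
  induction w with
  | nil => exact hp
  | cons b w ih =>
    cases b with
    | true => exact hpp.quasiMeasurePreserving.ae ih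
    | false => exact hrr.quasiMeasurePreserving.ae ih

/-- the pointwise good set -/
structure Pt (pp rr : Ω → Ω) (d : ℕ) (s E : ℝ) (om : Ω → ℝ) (cav : Ω → ℂ) (h : Ω) : Prop where
  im : ∀ w, 0 < (cav (act pp rr w h)).im
  eqn : ∀ w, cav (act pp rr w h) * ((E : ℂ) - s * om (act pp rr w h) +
    ∑ j ∈ Finset.range (d - 1), cav (mv pp rr (j + 1) (act pp rr w h))) = -1

theorem ae_pt {Env FX : MeasurableSpace Ω} [mΩ : MeasurableSpace Ω] {d k : ℕ} {s E t ρ : ℝ}
    {P : Measure Ω} {pp rr : Ω → Ω} {om : Ω → ℝ} {cav : Ω → ℂ} {X Z : Ω → Fin k → ℝ}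
    (L : LimProc Env FX d k s E t ρ P pp rr om cav X Z) :
    ∀ᵐ h ∂P, Pt pp rr d s E om cav h := by
  filter_upwards [ae_act L.pp_mp L.rr_mp L.cav_im, ae_act L.pp_mp L.rr_mp L.cav_rec] with h h1 h2
  exact ⟨h1, h2⟩

section Basic

variable {pp rr : Ω → Ω} {d : ℕ} {s E : ℝ} {om : Ω → ℝ} {cav : Ω → ℂ} {h : Ω}

lemma Pt.cav_im (hp : Pt pp rr d s E om cav h) : 0 < (cav h).im := hp.im []

lemma Pt.cav_eqn (hp : Pt pp rr d s E om cav h) : cav h * ((E : ℂ) - s * om h +
    ∑ j ∈ Finset.range (d - 1), cav (mv pp rr (j + 1) h)) = -1 := hp.eqn []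

lemma Pt.flip (hp : Pt pp rr d s E om cav h) : Pt pp rr d s E om cav (pp h) :=
  ⟨fun w => hp.im (true :: w), fun w => hp.eqn (true :: w)⟩

lemma Pt.turn (hp : Pt pp rr d s E om cav h) : Pt pp rr d s E om cav (rr h) :=
  ⟨fun w => hp.im (false :: w), fun w => hp.eqn (false :: w)⟩

lemma Pt.turns (hp : Pt pp rr d s E om cav h) (i : ℕ) : Pt pp rr d s E om cav (rr^[i] h) := by
  induction i with
  | zero => exact hp
  | succ i ih => rw [Function.iterate_succ_apply']; exact ih.turn

lemma Pt.move (hp : Pt pp rr d s E om cav h) (i : ℕ) : Pt pp rr d s E om cav (mv pp rr i h) :=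
  (hp.turns i).flip

/-! ### 2. the maps -/

lemma mv_zero (pp rr : Ω → Ω) (h : Ω) : mv pp rr 0 h = pp h := rfl

lemma mv_turn (pp rr : Ω → Ω) (i : ℕ) (h : Ω) : mv pp rr i (rr h) = mv pp rr (i + 1) h := by
  unfold B2.mv
  rw [Function.iterate_succ_apply]

lemma mv_turns (pp rr : Ω → Ω) (i j : ℕ) (h : Ω) :
    mv pp rr i (rr^[j] h) = mv pp rr (i + j) h := by
  unfold B2.mv
  rw [Function.iterate_add_apply]

lemma mv_add_d {pp rr : Ω → Ω} {d : ℕ} (hrd : ∀ h, rr^[d] h = h) (i : ℕ) (h : Ω) :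
    mv pp rr (i + d) h = mv pp rr i h := by
  unfold B2.mv
  rw [Function.iterate_add_apply, hrd]


lemma om_turns {rr : Ω → Ω} {om : Ω → ℝ} (hom : ∀ h, om (rr h) = om h) (i : ℕ) (h : Ω) :
    om (rr^[i] h) = om h := by
  induction i with
  | zero => rfl
  | succ i ih => rw [Function.iterate_succ_apply', hom, ih]

/-- sums over the neighbours do not depend on the port -/
lemma sum_turn {pp rr : Ω → Ω} {d : ℕ} (hrd : ∀ h, rr^[d] h = h) {M : Type*}
    [AddCommGroup M] (f : Ω → M) (h : Ω) :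
    ∑ i ∈ Finset.range d, f (mv pp rr i (rr h)) = ∑ i ∈ Finset.range d, f (mv pp rr i h) := by
  have h1 := Finset.sum_range_succ' (fun i => f (mv pp rr i h)) d
  have h2 := Finset.sum_range_succ (fun i => f (mv pp rr i h)) d
  rw [h1] at h2
  have h3 : mv pp rr d h = mv pp rr 0 h := by
    have := mv_add_d (pp := pp) hrd 0 h
    rwa [zero_add] at this
  rw [h3] at h2
  simp only [mv_turn]
  exact add_right_cancel h2

lemma sum_turns {pp rr : Ω → Ω} {d : ℕ} (hrd : ∀ h, rr^[d] h = h) {M : Type*}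
    [AddCommGroup M] (f : Ω → M) (j : ℕ) (h : Ω) :
    ∑ i ∈ Finset.range d, f (mv pp rr i (rr^[j] h)) = ∑ i ∈ Finset.range d, f (mv pp rr i h) := by
  induction j with
  | zero => rfl
  | succ j ih => rw [Function.iterate_succ_apply', sum_turn hrd, ih]

/-- (S1) `G_vv` does not depend on the port -/
lemma Gd_turn {pp rr : Ω → Ω} {d : ℕ} {s E : ℝ} {om : Ω → ℝ} {cav : Ω → ℂ}
    (hrd : ∀ h, rr^[d] h = h) (hom : ∀ h, om (rr h) = om h) (h : Ω) :
    Gd pp rr d s E om cav (rr h) = Gd pp rr d s E om cav h := by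
  unfold Gd
  rw [sum_turn hrd cav, hom]

lemma Gd_turns {pp rr : Ω → Ω} {d : ℕ} {s E : ℝ} {om : Ω → ℝ} {cav : Ω → ℂ}
    (hrd : ∀ h, rr^[d] h = h) (hom : ∀ h, om (rr h) = om h) (j : ℕ) (h : Ω) :
    Gd pp rr d s E om cav (rr^[j] h) = Gd pp rr d s E om cav h := by
  unfold Gd
  rw [sum_turns hrd cav, om_turns hom]

/-- (S3) rotation of `bet` -/
lemma bet_turns {pp rr : Ω → Ω} {d : ℕ} {s E : ℝ} {om : Ω → ℝ} {cav : Ω → ℂ}
    (hrd : ∀ h, rr^[d] h = h) (hom : ∀ h, om (rr h) = om h) (i j : ℕ) (h : Ω) :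
    bet pp rr d s E om cav i (rr^[j] h) = bet pp rr d s E om cav (i + j) h := by
  unfold bet
  rw [Gd_turns hrd hom, mv_turns]



/-! ### 3. complex algebra -/


lemma one_sub_mul_ne {x y : ℂ} (hx : 0 < x.im) (hy : 0 < y.im) : 1 - x * y ≠ 0 := by
  intro h
  have h1 : x * y = 1 := by linear_combination -h
  have hre : x.re * y.re - x.im * y.im = 1 := by
    have := congrArg Complex.re h1; simpa [Complex.mul_re] using this
  have him : x.re * y.im + x.im * y.re = 0 := by
    have := congrArg Complex.im h1; simpa [Complex.mul_im] using this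
  nlinarith [mul_pos hx hy, mul_pos hx hx, mul_pos hy hy, sq_nonneg x.re, sq_nonneg y.re,
    mul_self_nonneg (x.re * y.re)]

lemma ne_zero_of_im_pos {x : ℂ} (hx : 0 < x.im) : x ≠ 0 := by
  rintro rfl
  simp at hx

/-- entries of the edge block -/
lemma edge_g00 {x y : ℂ} (hx : 0 < x.im) (hy : 0 < y.im) :
    (x / (1 - x * y)).im = (x.im + Complex.normSq x * y.im) / Complex.normSq (1 - x * y) := by
  have h0 := one_sub_mul_ne hx hy
  have h1 : Complex.normSq (1 - x * y) ≠ 0 := fun h => h0 (Complex.normSq_eq_zero.1 h)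
  rw [Complex.div_im, ← sub_div]
  congr 1
  simp only [Complex.sub_re, Complex.sub_im, Complex.mul_re, Complex.mul_im, Complex.one_re,
    Complex.one_im, Complex.normSq_apply]
  ring

lemma edge_g01 {x y : ℂ} (hx : 0 < x.im) (hy : 0 < y.im) :
    (-(x * y) / (1 - x * y)).im = -(x * y).im / Complex.normSq (1 - x * y) := by
  have h0 := one_sub_mul_ne hx hy
  have h1 : Complex.normSq (1 - x * y) ≠ 0 := fun h => h0 (Complex.normSq_eq_zero.1 h)
  rw [Complex.div_im, ← sub_div]
  congr 1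
  simp only [Complex.sub_re, Complex.sub_im, Complex.mul_re, Complex.mul_im, Complex.one_re,
    Complex.one_im, Complex.neg_re, Complex.neg_im]
  ring

/-- determinant of the imaginary part of the edge block -/
lemma edge_det {x y : ℂ} (hx : 0 < x.im) (hy : 0 < y.im) :
    (x / (1 - x * y)).im * (y / (1 - x * y)).im - (-(x * y) / (1 - x * y)).im ^ 2 =
      x.im * y.im / Complex.normSq (1 - x * y) := by
  have h0 := one_sub_mul_ne hx hy
  have h1 : Complex.normSq (1 - x * y) ≠ 0 := fun h => h0 (Complex.normSq_eq_zero.1 h)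
  have h2 : (y / (1 - x * y)).im = (y.im + Complex.normSq y * x.im) / Complex.normSq (1 - x * y) := by
    have := edge_g00 hy hx
    rwa [mul_comm y x] at this
  rw [edge_g00 hx hy, h2, edge_g01 hx hy]
  field_simp
  simp only [Complex.sub_re, Complex.sub_im, Complex.mul_re, Complex.mul_im, Complex.one_re,
    Complex.one_im, Complex.normSq_apply]
  ring

/-! ### 4. (S1) the Green function at the base vertex -/

lemma Pt.mv_im (hp : Pt pp rr d s E om cav h) (i : ℕ) : 0 < (cav (mv pp rr i h)).im :=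
  (hp.move i).cav_im

/-- `A_v = ∑ Im c_i` -/
def AA (pp rr : Ω → Ω) (d : ℕ) (cav : Ω → ℂ) (h : Ω) : ℝ :=
  ∑ i ∈ Finset.range d, (cav (mv pp rr i h)).im

lemma AA_turns (hrd : ∀ h, rr^[d] h = h) (j : ℕ) (h : Ω) :
    AA pp rr d cav (rr^[j] h) = AA pp rr d cav h := by
  unfold AA
  exact sum_turns hrd (fun h => (cav h).im) j h

lemma Pt.AA_pos (hp : Pt pp rr d s E om cav h) (hd : 0 < d) : 0 < AA pp rr d cav h := by
  unfold AA
  exact Finset.sum_pos (fun i _ => hp.mv_im i) ⟨0, Finset.mem_range.2 hd⟩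


/-- denominator of the Green function -/
def DD (pp rr : Ω → Ω) (d : ℕ) (s E : ℝ) (om : Ω → ℝ) (cav : Ω → ℂ) (h : Ω) : ℂ :=
  (E : ℂ) - s * om h + ∑ i ∈ Finset.range d, cav (mv pp rr i h)

lemma DD_im : (DD pp rr d s E om cav h).im = AA pp rr d cav h := by
  unfold DD AA
  simp only [Complex.add_im, Complex.sub_im, Complex.ofReal_im, Complex.mul_im, Complex.ofReal_re,
    mul_zero, zero_mul, add_zero, sub_zero, zero_add, Complex.im_sum]

lemma Gd_def : Gd pp rr d s E om cav h = -1 / DD pp rr d s E om cav h := rfl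

lemma Pt.DD_im_pos (hp : Pt pp rr d s E om cav h) (hd : 0 < d) :
    0 < (DD pp rr d s E om cav h).im := by
  rw [DD_im]; exact hp.AA_pos hd

lemma Pt.DD_ne (hp : Pt pp rr d s E om cav h) (hd : 0 < d) : DD pp rr d s E om cav h ≠ 0 :=
  ne_zero_of_im_pos (hp.DD_im_pos hd)

/-- (S1) the equation at the base vertex -/
theorem Pt.Gd_eqn (hp : Pt pp rr d s E om cav h) (hd : 0 < d) :
    Gd pp rr d s E om cav h * ((E : ℂ) - s * om h + ∑ i ∈ Finset.range d,
      cav (mv pp rr i h)) = -1 := by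
  have h0 := hp.DD_ne hd
  rw [Gd_def]
  change -1 / DD pp rr d s E om cav h * DD pp rr d s E om cav h = -1
  field_simp

theorem Pt.Gd_ne (hp : Pt pp rr d s E om cav h) (hd : 0 < d) : Gd pp rr d s E om cav h ≠ 0 := by
  intro h0
  have := hp.Gd_eqn hd
  rw [h0, zero_mul] at this
  norm_num at this

/-- (S1) `Im G_vv = A |G_vv|²` -/
theorem Pt.Gd_im (hp : Pt pp rr d s E om cav h) (hd : 0 < d) :
    (Gd pp rr d s E om cav h).im =
      AA pp rr d cav h * Complex.normSq (Gd pp rr d s E om cav h) := by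
  have h0 := hp.DD_ne hd
  have h1 : Complex.normSq (DD pp rr d s E om cav h) ≠ 0 := fun hh =>
    h0 (Complex.normSq_eq_zero.1 hh)
  rw [Gd_def, Complex.normSq_div, Complex.div_im, ← DD_im (E := E) (s := s) (om := om)]
  simp only [Complex.neg_im, Complex.one_im, Complex.neg_re, Complex.one_re, Complex.normSq_neg,
    Complex.normSq_one]
  ring

theorem Pt.Gd_normSq_pos (hp : Pt pp rr d s E om cav h) (hd : 0 < d) :
    0 < Complex.normSq (Gd pp rr d s E om cav h) := Complex.normSq_pos.2 (hp.Gd_ne hd)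

theorem Pt.Gd_im_pos (hp : Pt pp rr d s E om cav h) (hd : 0 < d) :
    0 < (Gd pp rr d s E om cav h).im := by
  rw [hp.Gd_im hd]
  exact mul_pos (hp.AA_pos hd) (hp.Gd_normSq_pos hd)


/-! ### 5. (S2) the edge -/

/-- `D_v = -1/cav h + cav (pp h)` -/
theorem Pt.DD_edge (hp : Pt pp rr d s E om cav h) (hd : 0 < d) :
    DD pp rr d s E om cav h = -1 / cav h + cav (pp h) := by
  have hc := ne_zero_of_im_pos hp.cav_im
  have h1 := hp.cav_eqn
  have h2 : ∑ i ∈ Finset.range d, cav (mv pp rr i h) =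
      ∑ j ∈ Finset.range (d - 1), cav (mv pp rr (j + 1) h) + cav (pp h) := by
    obtain ⟨m, rfl⟩ : ∃ m, d = m + 1 := ⟨d - 1, by omega⟩
    rw [Finset.sum_range_succ']
    rfl
  have h3 : (E : ℂ) - s * om h + ∑ j ∈ Finset.range (d - 1), cav (mv pp rr (j + 1) h) =
      -1 / cav h := by
    rw [eq_div_iff hc, mul_comm]
    exact h1
  unfold DD
  rw [h2, ← add_assoc, h3]

/-- (S2) `G_vv = c / (1 - c c')` -/
theorem Pt.Gd_edge (hp : Pt pp rr d s E om cav h) (hd : 0 < d) :
    Gd pp rr d s E om cav h = cav h / (1 - cav h * cav (pp h)) := by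
  have hc := ne_zero_of_im_pos hp.cav_im
  have h1 := one_sub_mul_ne hp.cav_im hp.flip.cav_im
  have h2 : DD pp rr d s E om cav h = -(1 - cav h * cav (pp h)) / cav h := by
    rw [hp.DD_edge hd]
    field_simp
    ring
  rw [Gd_def, h2, div_div_eq_mul_div, neg_one_mul, neg_div_neg_eq]

theorem Pt.Gd_edge' (hpp : ∀ h, pp (pp h) = h) (hp : Pt pp rr d s E om cav h) (hd : 0 < d) :
    Gd pp rr d s E om cav (pp h) = cav (pp h) / (1 - cav h * cav (pp h)) := by
  rw [hp.flip.Gd_edge hd, hpp, mul_comm (cav (pp h)) (cav h)]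

theorem Pt.Bk00 (hp : Pt pp rr d s E om cav h) (hd : 0 < d) :
    Bk pp cav h 0 0 = Gd pp rr d s E om cav h := by
  rw [hp.Gd_edge hd]
  simp [Bk]
  ring

theorem Pt.Bk11 (hpp : ∀ h, pp (pp h) = h) (hp : Pt pp rr d s E om cav h) (hd : 0 < d) :
    Bk pp cav h 1 1 = Gd pp rr d s E om cav (pp h) := by
  rw [hp.Gd_edge' hpp hd]
  simp [Bk]
  ring

theorem Pt.Bk01 (hp : Pt pp rr d s E om cav h) (hd : 0 < d) :
    Bk pp cav h 0 1 = Gd pp rr d s E om cav h * (-cav (pp h)) := by
  rw [hp.Gd_edge hd]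
  simp [Bk]
  ring

theorem Bk10 : Bk pp cav h 1 0 = Bk pp cav h 0 1 := by
  simp [Bk]

/-- (S2) consistency of the off-diagonal entry -/
theorem Pt.edge_cons (hpp : ∀ h, pp (pp h) = h) (hp : Pt pp rr d s E om cav h) (hd : 0 < d) :
    Gd pp rr d s E om cav h * (-cav (pp h)) = Gd pp rr d s E om cav (pp h) * (-cav h) := by
  rw [hp.Gd_edge hd, hp.Gd_edge' hpp hd]
  ring

theorem Bk_flip (hpp : ∀ h, pp (pp h) = h) (a b : Fin 2) :
    Bk pp cav (pp h) a b = Bk pp cav h (1 - a) (1 - b) := by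
  fin_cases a <;> fin_cases b <;> simp [Bk, hpp, mul_comm]

/-- the block of the star at neighbour `0` -/
theorem Pt.Gs_nn (hp : Pt pp rr d s E om cav h) (hd : 0 < d) :
    Gs pp rr d s E om cav h none none = Bk pp cav h 0 0 := (hp.Bk00 hd).symm

theorem Pt.Gs_n0 (hp : Pt pp rr d s E om cav h) (hd : 0 < d) (i : Fin d) (hi : (i : ℕ) = 0) :
    Gs pp rr d s E om cav h none (some i) = Bk pp cav h 0 1 := by
  rw [hp.Bk01 hd]
  simp only [Gs, hi, mv_zero]

theorem Pt.Gs_0n (hp : Pt pp rr d s E om cav h) (hd : 0 < d) (i : Fin d) (hi : (i : ℕ) = 0) :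
    Gs pp rr d s E om cav h (some i) none = Bk pp cav h 1 0 := by
  rw [Bk10, hp.Bk01 hd]
  simp only [Gs, hi, mv_zero]

theorem Pt.Gs_00 (hpp : ∀ h, pp (pp h) = h) (hp : Pt pp rr d s E om cav h) (hd : 0 < d)
    (i : Fin d) (hi : (i : ℕ) = 0) :
    Gs pp rr d s E om cav h (some i) (some i) = Bk pp cav h 1 1 := by
  have h1 := one_sub_mul_ne hp.cav_im hp.flip.cav_im
  rw [hp.Bk11 hpp hd, hp.Gd_edge' hpp hd]
  simp only [Gs, hi, mv_zero, if_true]
  rw [hp.Gd_edge hd]
  field_simp
  ring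

/-! ### 6. (S3) regression coefficients -/

/-- `Im G_{v,i} = β_i Im G_vv` -/
theorem Pt.bet_mul (hp : Pt pp rr d s E om cav h) (hd : 0 < d) (i : ℕ) :
    bet pp rr d s E om cav i h * (Gd pp rr d s E om cav h).im =
      (Gd pp rr d s E om cav h * (-cav (mv pp rr i h))).im := by
  unfold bet
  rw [div_mul_cancel₀ _ (hp.Gd_im_pos hd).ne']

/-- (S3) `∑ β_i = E - s ω_v` -/
theorem Pt.sum_bet (hp : Pt pp rr d s E om cav h) (hd : 0 < d) :
    ∑ i ∈ Finset.range d, bet pp rr d s E om cav i h = E - s * om h := by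
  have h1 := hp.Gd_eqn hd
  have h2 : ∑ i ∈ Finset.range d, Gd pp rr d s E om cav h * (-cav (mv pp rr i h)) =
      1 + ((E - s * om h : ℝ) : ℂ) * Gd pp rr d s E om cav h := by
    rw [← Finset.mul_sum, Finset.sum_neg_distrib]
    push_cast
    linear_combination -h1
  have h3 := congrArg Complex.im h2
  rw [Complex.im_sum, Complex.add_im, Complex.one_im, zero_add, Complex.im_ofReal_mul] at h3
  unfold bet
  rw [← Finset.sum_div, h3, mul_div_assoc, div_self (hp.Gd_im_pos hd).ne', mul_one]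

/-- (S3) `β Φ_00 = Φ_01` -/
theorem Pt.bet_Bk (hp : Pt pp rr d s E om cav h) (hd : 0 < d) :
    bet pp rr d s E om cav 0 h * (Bk pp cav h 0 0).im = (Bk pp cav h 0 1).im := by
  rw [hp.Bk00 hd, hp.Bk01 hd, hp.bet_mul hd, mv_zero]

/-- (S3) `β' Φ_11 = Φ_01` -/
theorem Pt.bet_Bk' (hpp : ∀ h, pp (pp h) = h) (hp : Pt pp rr d s E om cav h) (hd : 0 < d) :
    bet pp rr d s E om cav 0 (pp h) * (Bk pp cav h 1 1).im = (Bk pp cav h 0 1).im := by
  rw [hp.Bk11 hpp hd, hp.Bk01 hd, hp.flip.bet_mul hd, mv_zero, hpp, hp.edge_cons hpp hd]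

theorem Pt.Bk00_im_pos (hp : Pt pp rr d s E om cav h) (hd : 0 < d) :
    0 < (Bk pp cav h 0 0).im := by rw [hp.Bk00 hd]; exact hp.Gd_im_pos hd

theorem Pt.Bk11_im_pos (hpp : ∀ h, pp (pp h) = h) (hp : Pt pp rr d s E om cav h) (hd : 0 < d) :
    0 < (Bk pp cav h 1 1).im := by rw [hp.Bk11 hpp hd]; exact hp.flip.Gd_im_pos hd

/-- `Φ_00 = (Im x + |x|² Im y)/|1-xy|²`, `x = cav h`, `y = cav (pp h)` -/
theorem Pt.Bk00_im (hp : Pt pp rr d s E om cav h) :
    (Bk pp cav h 0 0).im = ((cav h).im + Complex.normSq (cav h) * (cav (pp h)).im) /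
      Complex.normSq (1 - cav h * cav (pp h)) := by
  rw [← edge_g00 hp.cav_im hp.flip.cav_im]
  congr 1
  simp [Bk]
  ring



/-- `det Φ = Im x Im y / |1-xy|²` -/
theorem Pt.det_Bk (hp : Pt pp rr d s E om cav h) :
    (Bk pp cav h 0 0).im * (Bk pp cav h 1 1).im - (Bk pp cav h 0 1).im ^ 2 =
      (cav h).im * (cav (pp h)).im / Complex.normSq (1 - cav h * cav (pp h)) := by
  rw [← edge_det hp.cav_im hp.flip.cav_im]
  have e1 : Bk pp cav h 0 0 = cav h / (1 - cav h * cav (pp h)) := by simp [Bk]; ring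
  have e2 : Bk pp cav h 1 1 = cav (pp h) / (1 - cav h * cav (pp h)) := by simp [Bk]; ring
  have e3 : Bk pp cav h 0 1 = -(cav h * cav (pp h)) / (1 - cav h * cav (pp h)) := by
    simp [Bk]; ring
  rw [e1, e2, e3]

theorem Pt.det_Bk_pos (hp : Pt pp rr d s E om cav h) :
    0 < (Bk pp cav h 0 0).im * (Bk pp cav h 1 1).im - (Bk pp cav h 0 1).im ^ 2 := by
  rw [hp.det_Bk]
  have h0 := one_sub_mul_ne hp.cav_im hp.flip.cav_im
  exact div_pos (mul_pos hp.cav_im hp.flip.cav_im) (Complex.normSq_pos.2 h0)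


/-- (S3) `1 - β β' = det Φ / (Φ_00 Φ_11)` -/
theorem Pt.one_sub_bet (hpp : ∀ h, pp (pp h) = h) (hp : Pt pp rr d s E om cav h) (hd : 0 < d) :
    (1 - bet pp rr d s E om cav 0 h * bet pp rr d s E om cav 0 (pp h)) *
      ((Bk pp cav h 0 0).im * (Bk pp cav h 1 1).im) =
      (Bk pp cav h 0 0).im * (Bk pp cav h 1 1).im - (Bk pp cav h 0 1).im ^ 2 := by
  have h1 := hp.bet_Bk hd
  have h2 := hp.bet_Bk' hpp hd
  have h3 : (bet pp rr d s E om cav 0 h * bet pp rr d s E om cav 0 (pp h)) *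
      ((Bk pp cav h 0 0).im * (Bk pp cav h 1 1).im) = (Bk pp cav h 0 1).im ^ 2 := by
    rw [sq]
    nth_rewrite 1 [← h1]
    nth_rewrite 1 [← h2]
    ring
  linear_combination -h3

/-- (S3) `β β' < 1` -/
theorem Pt.bet_mul_lt_one (hpp : ∀ h, pp (pp h) = h) (hp : Pt pp rr d s E om cav h)
    (hd : 0 < d) : bet pp rr d s E om cav 0 h * bet pp rr d s E om cav 0 (pp h) < 1 := by
  have h1 := hp.one_sub_bet hpp hd
  have h2 := hp.det_Bk_pos
  have p0 := hp.Bk00_im_pos hd
  have p1 := hp.Bk11_im_pos hpp hd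
  by_contra hge
  push Not at hge
  have : (1 - bet pp rr d s E om cav 0 h * bet pp rr d s E om cav 0 (pp h)) *
      ((Bk pp cav h 0 0).im * (Bk pp cav h 1 1).im) ≤ 0 :=
    mul_nonpos_of_nonpos_of_nonneg (by linarith) (mul_pos p0 p1).le
  linarith

/-- (S3) residual variance: `(1 - β β') Φ_11 = a_0 (A - a_0) / A` -/
theorem Pt.resid (hpp : ∀ h, pp (pp h) = h) (hp : Pt pp rr d s E om cav h) (hd : 0 < d) :
    (1 - bet pp rr d s E om cav 0 h * bet pp rr d s E om cav 0 (pp h)) *
      (Bk pp cav h 1 1).im = (cav (pp h)).im * (AA pp rr d cav h - (cav (pp h)).im) /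
        AA pp rr d cav h := by
  have h1 := hp.one_sub_bet hpp hd
  have p0 := hp.Bk00_im_pos hd
  have hA := hp.AA_pos hd
  have h0 := one_sub_mul_ne hp.cav_im hp.flip.cav_im
  have hN := Complex.normSq_pos.2 h0
  have hx := Complex.normSq_pos.2 (ne_zero_of_im_pos hp.cav_im)
  -- `A = Im x/|x|² + Im y`
  have hA' : AA pp rr d cav h = (cav h).im / Complex.normSq (cav h) + (cav (pp h)).im := by
    rw [← DD_im (E := E) (s := s) (om := om), hp.DD_edge hd, Complex.add_im]
    congr 1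
    rw [Complex.div_im]
    simp only [Complex.neg_im, Complex.one_im, Complex.neg_re, Complex.one_re]
    ring
  rw [hp.det_Bk] at h1
  have h2 : (1 - bet pp rr d s E om cav 0 h * bet pp rr d s E om cav 0 (pp h)) *
      (Bk pp cav h 1 1).im = (cav h).im * (cav (pp h)).im /
        Complex.normSq (1 - cav h * cav (pp h)) / (Bk pp cav h 0 0).im := by
    rw [eq_div_iff p0.ne', ← h1]
    ring
  have hpos : (cav h).im + Complex.normSq (cav h) * (cav (pp h)).im ≠ 0 := by
    have := mul_pos hx hp.flip.cav_im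
    have := hp.cav_im
    positivity
  rw [h2, hp.Bk00_im, hA']
  field_simp
  ring

/-! ### 7. (S4) the covariance of the residuals -/



end Basic

end Crest.Agent.R166.StarAlg341
end
end

-- ▼ part R166/Fin42_385

/-!
# Row 166, 42.6: end of the section (helper385): `Stmt_42_6`.
-/

set_option autoImplicit false

open MeasureTheory ProbabilityTheory
open Crest.Agent.R166.Bern385 Crest.Agent.R166.B2 Crest.Agent.R166.Kap63
open Crest.Agent.R166.StarAlg341 (Pt AA ae_pt)

namespace Crest.Agent.R166.Fin42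

variable {Ω : Type*} {Env FX : MeasurableSpace Ω} [mΩ : MeasurableSpace Ω] {d k : ℕ}
  {s E t ρ : ℝ} {P : Measure Ω} {pp rr : Ω → Ω} {om : Ω → ℝ} {cav : Ω → ℂ}
  {X Z : Ω → Fin k → ℝ}

/-- quadratic form of the edge block -/
noncomputable def Qe (pp : Ω → Ω) (cav : Ω → ℂ) (ρ : ℝ) (x y : Fin k → ℝ) (h : Ω) : ℝ :=
  ∑ l, (x l ^ 2 * (Bk pp cav h 0 0).im + 2 * (x l * y l) * (Bk pp cav h 0 1).im +
    y l ^ 2 * (Bk pp cav h 1 1).im) / (Real.pi * ρ)

/-- phase of the pair -/
noncomputable def eX (pp : Ω → Ω) (V : Ω → Fin k → ℝ) (x y : Fin k → ℝ) (h : Ω) : ℂ :=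
  Complex.exp (Complex.I * ((∑ l, (x l * V h l + y l * V (pp h) l) : ℝ) : ℂ))

omit mΩ in
lemma norm_eX (pp : Ω → Ω) (V : Ω → Fin k → ℝ) (x y : Fin k → ℝ) (h : Ω) :
    ‖eX pp V x y h‖ = 1 := by
  unfold eX
  rw [mul_comm]
  exact Complex.norm_exp_ofReal_mul_I _

omit mΩ in
lemma meas_eX {m : MeasurableSpace Ω} {pp : Ω → Ω} (hpp : Measurable pp) {V : Ω → Fin k → ℝ}
    (hV : Measurable V) (x y : Fin k → ℝ) : Measurable (eX pp V x y) := by
  unfold eX
  have h1 : ∀ l, Measurable fun h => V h l := fun l => (measurable_pi_apply l).comp hV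
  have h2 : ∀ l, Measurable fun h => V (pp h) l := fun l => (h1 l).comp hpp
  fun_prop

omit mΩ in
lemma eX_YY (x y : Fin k → ℝ) (h : Ω) : eX pp (YY t X Z) x y h =
    eX pp X x y h * eX pp Z (Real.sqrt t • x) (Real.sqrt t • y) h := by
  unfold eX
  rw [← Complex.exp_add, ← mul_add, ← Complex.ofReal_add, ← Finset.sum_add_distrib]
  congr 3
  refine Finset.sum_congr rfl fun l _ => ?_
  simp only [YY, Pi.smul_apply, smul_eq_mul]
  ring

omit mΩ in
lemma meas_Bk {m : MeasurableSpace Ω} {pp : Ω → Ω} {cav : Ω → ℂ} (hpp : Measurable pp)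
    (hcav : Measurable cav) (a b : Fin 2) : Measurable fun h => (Bk pp cav h a b).im := by
  have h1 : Measurable fun h => cav (pp h) := hcav.comp hpp
  have h2 : Measurable fun h => Bk pp cav h a b := by
    unfold Bk
    fin_cases a <;> fin_cases b <;> simp <;> fun_prop
  exact Complex.measurable_im.comp h2

omit mΩ in
lemma meas_Qe {m : MeasurableSpace Ω} {pp : Ω → Ω} {cav : Ω → ℂ} (hpp : Measurable pp)
    (hcav : Measurable cav) (ρ : ℝ) (x y : Fin k → ℝ) : Measurable (Qe pp cav ρ x y) := by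
  unfold Qe
  have h1 := meas_Bk hpp hcav
  have h00 := h1 0 0
  have h01 := h1 0 1
  have h11 := h1 1 1
  fun_prop

section

variable (L : LimProc Env FX d k s E t ρ P pp rr om cav X Z)

include L

/-- conditional characteristic function of `Z` at an edge -/
lemma Z_edge (x y : Fin k → ℝ) :
    P[eX pp Z (Real.sqrt t • x) (Real.sqrt t • y) | FX] =ᵐ[P]
      fun h => ((Real.exp (-(1 / 2) * (t * Qe pp cav ρ x y h)) : ℝ) : ℂ) := by
  have hd := d_pos L
  have h1 := L.Z_gauss [] (by intro j hj; simp at hj) 0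
    (fun a => a.elim (Real.sqrt t • x) (fun i => if (i : ℕ) = 0 then Real.sqrt t • y else 0))
  have hsum : ∀ (F : Fin d → ℝ), (∀ i : Fin d, (i : ℕ) ≠ 0 → F i = 0) →
      ∑ i, F i = F ⟨0, hd⟩ := by
    intro F hF
    rw [Finset.sum_eq_single (⟨0, hd⟩ : Fin d)]
    · intro i _ hi
      exact hF i fun h0 => hi (Fin.ext h0)
    · simp
  refine Filter.EventuallyEq.trans ?_ (h1.trans ?_)
  · refine Filter.EventuallyEq.of_eq ?_
    congr 1
    funext h
    unfold eX
    congr 3
    refine Finset.sum_congr rfl fun l _ => ?_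
    rw [Fintype.sum_option, hsum]
    · simp [sv, mv]
    · intro i hi
      simp [hi]
  · filter_upwards [ae_pt L] with h hp
    rw [Complex.ofReal_exp]
    congr 2
    have ht : Real.sqrt t * Real.sqrt t = t := Real.mul_self_sqrt L.ht.le
    have hD : ∀ l, ∑ a : St d, ∑ b : St d,
        (a.elim (Real.sqrt t • x) (fun i => if (i : ℕ) = 0 then Real.sqrt t • y else 0) :
          Fin k → ℝ) l *
        (b.elim (Real.sqrt t • x) (fun i => if (i : ℕ) = 0 then Real.sqrt t • y else 0) :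
          Fin k → ℝ) l * (Gs pp rr d s E om cav h a b).im =
        t * (x l ^ 2 * (Bk pp cav h 0 0).im + 2 * (x l * y l) * (Bk pp cav h 0 1).im +
          y l ^ 2 * (Bk pp cav h 1 1).im) := by
      intro l
      rw [Fintype.sum_option, Fintype.sum_option, hsum, hsum]
      · rw [Fintype.sum_option, hsum]
        · rw [hp.Gs_nn hd, hp.Gs_n0 hd _ rfl, hp.Gs_0n hd _ rfl, hp.Gs_00 L.pp_pp hd _ rfl]
          simp only [Option.elim_none, Option.elim_some, if_true, Pi.smul_apply,
            smul_eq_mul]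
          rw [StarAlg341.Bk10]
          linear_combination (x l ^ 2 * (Bk pp cav h 0 0).im +
            2 * (x l * y l) * (Bk pp cav h 0 1).im + y l ^ 2 * (Bk pp cav h 1 1).im) * ht
        · intro i hi
          simp [hi]
      · intro i hi
        simp [hi]
      · intro i hi
        simp [hi]
    unfold Qe
    congr 1
    rw [Finset.mul_sum]
    refine Finset.sum_congr rfl fun l _ => ?_
    rw [hD l]
    simp only [Pi.zero_apply, ne_eq, OfNat.ofNat_ne_zero, not_false_eq_true, zero_pow, zero_mul,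
      Finset.sum_const_zero, mul_zero, zero_add, add_zero]
    rw [mul_div_assoc]

/-- removing the Gaussian noise from the conditional characteristic function -/
theorem tower (x y : Fin k → ℝ) :
    P[eX pp (YY t X Z) x y | Env] =ᵐ[P] fun h =>
      ((Real.exp (-(1 / 2) * (t * Qe pp cav ρ x y h)) : ℝ) : ℂ) * (P[eX pp X x y | Env]) h := by
  have hP : IsProbabilityMeasure P := L.prob
  have hEnv := Env_le' L
  set G : Ω → ℂ := fun h => ((Real.exp (-(1 / 2) * (t * Qe pp cav ρ x y h)) : ℝ) : ℂ) with hG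
  have hA : Measurable[FX] (eX pp X x y) := @meas_eX Ω k FX pp L.pp_FX X L.X_meas x y
  have hB : Measurable (eX pp Z (Real.sqrt t • x) (Real.sqrt t • y)) :=
    meas_eX L.pp_mp.measurable L.Z_meas _ _
  have hA' : Measurable (eX pp X x y) := hA.mono L.FX_le le_rfl
  have hGm : Measurable[Env] G := by
    have := @meas_Qe Ω k Env pp cav L.pp_Env L.cav_meas ρ x y
    exact Complex.measurable_ofReal.comp (Real.measurable_exp.comp
      ((this.const_mul t).const_mul (-(1 / 2))))
  have hAi : Integrable (eX pp X x y) P :=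
    Integrable.of_bound hA'.aestronglyMeasurable 1 (Filter.Eventually.of_forall fun h =>
      (norm_eX _ _ _ _ _).le)
  have hBi : Integrable (eX pp Z (Real.sqrt t • x) (Real.sqrt t • y)) P :=
    Integrable.of_bound hB.aestronglyMeasurable 1 (Filter.Eventually.of_forall fun h =>
      (norm_eX _ _ _ _ _).le)
  have hABi : Integrable (fun h => eX pp X x y h *
      eX pp Z (Real.sqrt t • x) (Real.sqrt t • y) h) P :=
    Integrable.of_bound (hA'.mul hB).aestronglyMeasurable 1 (Filter.Eventually.of_forall fun h => by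
      rw [norm_mul, norm_eX, norm_eX, one_mul])
  have e1 : P[fun h => eX pp X x y h * eX pp Z (Real.sqrt t • x) (Real.sqrt t • y) h | FX] =ᵐ[P]
      fun h => eX pp X x y h * (P[eX pp Z (Real.sqrt t • x) (Real.sqrt t • y) | FX]) h :=
    condExp_bilin_of_stronglyMeasurable_left (ContinuousLinearMap.mul ℝ ℂ)
      hA.stronglyMeasurable hABi hBi
  have e2 : P[fun h => eX pp X x y h * eX pp Z (Real.sqrt t • x) (Real.sqrt t • y) h | FX] =ᵐ[P]
      fun h => G h * eX pp X x y h := by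
    filter_upwards [e1, Z_edge L x y] with h h1 h2
    rw [h1, h2, mul_comm]
  have hGAi : Integrable (fun h => G h * eX pp X x y h) P :=
    integrable_condExp.congr e2
  have e3 : P[fun h => G h * eX pp X x y h | Env] =ᵐ[P] fun h => G h * (P[eX pp X x y | Env]) h :=
    condExp_bilin_of_stronglyMeasurable_left (ContinuousLinearMap.mul ℝ ℂ)
      hGm.stronglyMeasurable hGAi hAi
  have e4 : (eX pp (YY t X Z) x y) = fun h => eX pp X x y h *
      eX pp Z (Real.sqrt t • x) (Real.sqrt t • y) h := by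
    funext h; exact eX_YY x y h
  rw [e4]
  refine ((condExp_condExp_of_le L.Env_le L.FX_le).symm.trans ?_).trans e3
  exact condExp_congr_ae e2

omit L in
/-- conditional expectation through the regular conditional distribution -/
lemma cd_condExp {A F : Type*} [MeasurableSpace A] [StandardBorelSpace A] [Nonempty A]
    [NormedAddCommGroup F] [NormedSpace ℝ F] [CompleteSpace F] [IsFiniteMeasure P]
    (hEnv : Env ≤ mΩ) {S : Ω → A} (hS : Measurable S) {f : A → F} (hf : StronglyMeasurable f)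
    (hfi : Integrable (fun h => f (S h)) P) :
    P[fun h => f (S h) | Env] =ᵐ[P] fun h =>
      ∫ y, f y ∂((@condDistrib Ω Ω A _ _ _ mΩ Env S id P _) h) := by
  have he : Measurable[mΩ, Env] (id : Ω → Ω) := measurable_id'' hEnv
  have key := @condExp_ae_eq_integral_condDistrib Ω Ω A F _ _ _ _ mΩ P _ id
    S Env _ _ he hS.aemeasurable _ hf hfi
  rw [MeasurableSpace.comap_id] at key
  exact key


/-- kernel form of the conditional characteristic function -/
theorem kap_phc [IsFiniteMeasure P] (x y : Fin k → ℝ) :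
    P[eX pp (YY t X Z) x y | Env] =ᵐ[P] fun h =>
      phc (kap Env P pp rr d t X Z h) ⟨0, d_pos L⟩ x y := by
  have hm : Measurable fun z : St d → Fin k → ℝ => Complex.exp (Complex.I *
      ((∑ l, (x l * z none l + y l * z (some ⟨0, d_pos L⟩) l) : ℝ) : ℂ)) := by
    have h1 : ∀ (c : St d) (l : Fin k), Measurable fun z : St d → Fin k → ℝ => z c l := fun c l =>
      (measurable_pi_apply l).comp (measurable_pi_apply c)
    fun_prop
  have hi : Integrable (fun h => (fun z : St d → Fin k → ℝ => Complex.exp (Complex.I *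
      ((∑ l, (x l * z none l + y l * z (some ⟨0, d_pos L⟩) l) : ℝ) : ℂ)))
        (SY pp rr d t X Z h)) P := by
    refine Integrable.of_bound (hm.comp (SY_meas L)).aestronglyMeasurable 1
      (Filter.Eventually.of_forall fun h => ?_)
    simp only
    rw [mul_comm]
    exact (Complex.norm_exp_ofReal_mul_I _).le
  refine Filter.EventuallyEq.trans (Filter.EventuallyEq.of_eq ?_)
    (cd_condExp (Env_le' L) (SY_meas L) hm.stronglyMeasurable hi)
  rfl

/-- conditional law of `x · X` given the environment -/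
noncomputable def KU (Env : MeasurableSpace Ω) [mΩ : MeasurableSpace Ω] (P : Measure Ω)
    [IsFiniteMeasure P] (X : Ω → Fin k → ℝ) (x : Fin k → ℝ) : @Kernel Ω ℝ Env _ :=
  @condDistrib Ω Ω ℝ _ _ _ mΩ Env (fun h => ∑ l, x l * X h l) id P _

lemma meas_xX (x : Fin k → ℝ) : Measurable fun h => ∑ l, x l * X h l :=
  Finset.measurable_sum _ fun l _ => ((measurable_pi_apply l).comp (X_meas' L)).const_mul _

lemma KU_cf [IsFiniteMeasure P] (x : Fin k → ℝ) (r : ℝ) :
    P[eX pp X (r • x) 0 | Env] =ᵐ[P] fun h =>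
      ∫ u, Complex.exp (Complex.I * ((r * u : ℝ) : ℂ)) ∂(KU Env P X x h) := by
  have hm : Measurable fun u : ℝ => Complex.exp (Complex.I * ((r * u : ℝ) : ℂ)) := by fun_prop
  have hi : Integrable (fun h => (fun u : ℝ => Complex.exp (Complex.I * ((r * u : ℝ) : ℂ)))
        (∑ l, x l * X h l)) P := by
    refine Integrable.of_bound (hm.comp (meas_xX L x)).aestronglyMeasurable 1
      (Filter.Eventually.of_forall fun h => ?_)
    simp only
    rw [mul_comm]
    exact (Complex.norm_exp_ofReal_mul_I _).le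
  refine Filter.EventuallyEq.trans (Filter.EventuallyEq.of_eq ?_)
    (cd_condExp (Env_le' L) (meas_xX L x) hm.stronglyMeasurable hi)
  congr 1
  funext h
  unfold eX
  congr 3
  rw [Finset.mul_sum]
  exact Finset.sum_congr rfl fun l _ => by simp [mul_assoc]

omit L in
omit mΩ in
lemma int_kernel' {A B : Type*} [MeasurableSpace A] [StandardBorelSpace A] [Nonempty A]
    [MeasurableSpace Ω] [MeasurableSpace B] {P : Measure Ω}
    [IsFiniteMeasure P] {e : Ω → B} {S : Ω → A} (he : Measurable e)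
    (hS : Measurable S) (f : A → ℝ) (hf : Measurable f)
    (hfi : Integrable (fun h => f (S h)) P) :
    ∀ᵐ h ∂P, Integrable f (condDistrib S e P (e h)) := by
  have hm : Measurable fun p : B × A => f p.2 := hf.comp measurable_snd
  exact Integrable.condDistrib_ae (f := fun p : B × A => f p.2)
    he.aemeasurable hS.aemeasurable
    ((integrable_map_measure hm.aestronglyMeasurable (he.prodMk hS).aemeasurable).2 hfi)

omit L in
lemma cd_integrable {A : Type*} [MeasurableSpace A] [StandardBorelSpace A] [Nonempty A]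
    [IsFiniteMeasure P] (hEnv : Env ≤ mΩ) {S : Ω → A} (hS : Measurable S) {f : A → ℝ}
    (hf : Measurable f) (hfi : Integrable (fun h => f (S h)) P) :
    ∀ᵐ h ∂P, Integrable f ((@condDistrib Ω Ω A _ _ _ mΩ Env S id P _) h) := by
  have he : Measurable[mΩ, Env] (id : Ω → Ω) := measurable_id'' hEnv
  exact @int_kernel' Ω A Ω _ _ _ mΩ Env P _ id S he hS f hf hfi

omit L in
omit mΩ in
lemma Qe_smul (x : Fin k → ℝ) (r : ℝ) (h : Ω) :
    Qe pp cav ρ (r • x) 0 h = r ^ 2 * Qe pp cav ρ x 0 h := by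
  unfold Qe
  rw [Finset.mul_sum]
  refine Finset.sum_congr rfl fun l _ => ?_
  simp only [Pi.smul_apply, smul_eq_mul, Pi.zero_apply]
  ring

lemma cf_rel [IsFiniteMeasure P] (x : Fin k → ℝ) : ∀ᵐ h ∂P, ∀ r : ℝ,
    phc (kap Env P pp rr d t X Z h) ⟨0, d_pos L⟩ (r • x) 0 =
      ((Real.exp (-(1 / 2) * (t * (r ^ 2 * Qe pp cav ρ x 0 h))) : ℝ) : ℂ) *
      ∫ u, Complex.exp (Complex.I * ((r * u : ℝ) : ℂ)) ∂(KU Env P X x h) := by
  have hP : IsProbabilityMeasure P := L.prob
  refine Crest.Agent.R166.Kap063.ae_forall_of_continuous (f := fun (r : ℝ) h =>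
    phc (kap Env P pp rr d t X Z h) ⟨0, d_pos L⟩ (r • x) 0) ?_ ?_ ?_
  · intro h
    have hpr : IsProbabilityMeasure (kap Env P pp rr d t X Z h) := by unfold kap; infer_instance
    simp only [phc]
    refine continuous_of_dominated (bound := fun _ => 1) ?_ ?_ ?_ ?_
    · intro r
      refine Measurable.aestronglyMeasurable ?_
      have h1 : ∀ (c : St d) (l : Fin k), Measurable fun z : St d → Fin k → ℝ => z c l :=
        fun c l => (measurable_pi_apply l).comp (measurable_pi_apply c)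
      fun_prop
    · intro r
      refine Filter.Eventually.of_forall fun η => ?_
      rw [mul_comm]
      exact (Complex.norm_exp_ofReal_mul_I _).le
    · exact integrable_const _
    · refine Filter.Eventually.of_forall fun η => ?_
      simp only [Pi.smul_apply]
      fun_prop
  · intro h
    have hpr : IsProbabilityMeasure (KU Env P X x h) := by unfold KU; infer_instance
    refine Continuous.mul (by fun_prop) ?_
    refine continuous_of_dominated (bound := fun _ => 1) ?_ ?_ ?_ ?_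
    · intro r
      exact (by fun_prop : Measurable _).aestronglyMeasurable
    · intro r
      refine Filter.Eventually.of_forall fun η => ?_
      rw [mul_comm]
      exact (Complex.norm_exp_ofReal_mul_I _).le
    · exact integrable_const _
    · refine Filter.Eventually.of_forall fun η => ?_
      fun_prop
  · intro r
    filter_upwards [tower L (r • x) 0, kap_phc L (r • x) 0, KU_cf L x r] with h h1 h2 h3
    rw [← h2, h1, h3, Qe_smul]

lemma KU_mean [IsFiniteMeasure P] (x : Fin k → ℝ) : ∀ᵐ h ∂P, ∫ u, u ∂(KU Env P X x h) = 0 := by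
  have hint : ∀ l, Integrable (fun h => X h l) P := fun l => (L.X_L2 l).integrable one_le_two
  have hi : Integrable (fun h => ∑ l, x l * X h l) P :=
    integrable_finsetSum _ fun l _ => (hint l).const_mul _
  have h1 := cd_condExp (P := P) (Env_le' L) (meas_xX L x) (f := fun u : ℝ => u)
    stronglyMeasurable_id hi
  have h2 : P[fun h => ∑ l, x l * X h l | Env] =ᵐ[P] 0 := by
    have e1 : (fun h => ∑ l, x l * X h l) = ∑ l, x l • (fun h => X h l) := by
      funext h
      simp [Finset.sum_apply]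
    rw [e1]
    refine (condExp_finsetSum (fun l _ => (hint l).smul (x l)) _).trans ?_
    have h3 : ∀ᵐ h ∂P, ∀ l, (P[x l • (fun h => X h l) | Env]) h = 0 := by
      rw [ae_all_iff]
      intro l
      filter_upwards [condExp_smul (x l) (fun h => X h l) Env (μ := P), L.X_mean l] with h h4 h5
      rw [h4, Pi.smul_apply, h5]
      simp
    filter_upwards [h3] with h h4
    rw [Finset.sum_apply]
    simp [h4]
  filter_upwards [h1, h2] with h h3 h4
  exact h3.symm.trans h4

lemma KU_L2 [IsFiniteMeasure P] (x : Fin k → ℝ) :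
    (∀ᵐ h ∂P, MemLp (fun u : ℝ => u) 2 (KU Env P X x h)) ∧
    (P[fun h => (∑ l, x l * X h l) ^ 2 | Env] =ᵐ[P] fun h => ∫ u, u ^ 2 ∂(KU Env P X x h)) := by
  have hmem : MemLp (fun h => ∑ l, x l * X h l) 2 P :=
    memLp_finsetSum _ fun l _ => (L.X_L2 l).const_mul (x l)
  have h1 := cd_integrable (P := P) (Env_le' L) (meas_xX L x) (f := fun u : ℝ => u ^ 2)
    (by fun_prop) hmem.integrable_sq
  refine ⟨?_, cd_condExp (P := P) (Env_le' L) (meas_xX L x) (f := fun u : ℝ => u ^ 2)
    (by fun_prop : Measurable fun u : ℝ => u ^ 2).stronglyMeasurable hmem.integrable_sq⟩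
  filter_upwards [h1] with h h2
  exact (memLp_two_iff_integrable_sq aestronglyMeasurable_id).2 h2

lemma sq_xX (x : Fin k → ℝ) : ∫ h, (∑ l, x l * X h l) ^ 2 ∂P = ∑ l, x l ^ 2 := by
  have hi : ∀ l m, Integrable (fun h => x l * x m * (X h l * X h m)) P := fun l m =>
    ((L.X_L2 l).integrable_mul (L.X_L2 m)).const_mul _
  have e1 : (fun h => (∑ l, x l * X h l) ^ 2) = fun h => ∑ l, ∑ m, x l * x m * (X h l * X h m) := by
    funext h
    rw [sq, Finset.sum_mul_sum]
    exact Finset.sum_congr rfl fun l _ => Finset.sum_congr rfl fun m _ => by ring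
  rw [e1, integral_finsetSum _ fun l _ => integrable_finsetSum _ fun m _ => hi l m]
  refine Finset.sum_congr rfl fun l _ => ?_
  rw [integral_finsetSum _ fun m _ => hi l m]
  simp_rw [integral_const_mul, L.X_cov]
  simp [sq]

/-- one-sided regression at port `i` -/
def SO (μ : Measure (St d → Fin k → ℝ)) (i : Fin d) (b c : ℝ) (S : Fin k → Fin k → ℂ) : Prop :=
  ∃ ℓ : (Fin k → ℝ) →ₗ[ℝ] ℂ, ∀ x y, phc μ i x y = phc μ i (x + b • y) 0 *
    Complex.exp (ℓ y + (c : ℂ) * qf S y / 2)

/-- residual variance coefficient at port `0` -/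
noncomputable def k0 (pp rr : Ω → Ω) (d : ℕ) (cav : Ω → ℂ) (h : Ω) : ℝ :=
  (cav (pp h)).im - (cav (pp h)).im ^ 2 / AA pp rr d cav h

lemma so_ae [IsFiniteMeasure P] (hI : InnovProp Env d k s E t P pp rr om cav X Z) :
    ∀ᵐ h ∂P, ∃ S : Fin k → Fin k → ℂ, ∀ i : Fin d,
      SO (kap Env P pp rr d t X Z h) i (bet pp rr d s E om cav i h)
        ((cav (mv pp rr i h)).im - (cav (mv pp rr i h)).im ^ 2 / AA pp rr d cav h) S := by
  filter_upwards [kapStar L hI, ae_pt L] with h h1 hp
  have hd := d_pos L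
  have hβ : ∑ i : Fin d, bet pp rr d s E om cav i h = E - s * om h := by
    rw [← hp.sum_bet hd, Finset.sum_range fun i => bet pp rr d s E om cav i h]
  have ha : ∀ i : Fin d, 0 < (cav (mv pp rr i h)).im := fun i => hp.mv_im i
  have h3 : 3 ≤ Fintype.card (Fin d) := by rw [Fintype.card_fin]; exact L.hd
  obtain ⟨S, hS⟩ := h1.out hβ ha h3
  refine ⟨S, fun i => ?_⟩
  obtain ⟨ℓ, hl⟩ := hS i
  refine ⟨ℓ, fun x y => ?_⟩
  rw [hl x y, AA, Finset.sum_range fun i => (cav (mv pp rr i h)).im]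

omit L in
omit mΩ in
lemma phc_map (μ : Measure (St d → Fin k → ℝ)) (σ : Fin d → Fin d) (i : Fin d)
    (x y : Fin k → ℝ) :
    phc (μ.map (fun (y : St d → Fin k → ℝ) => fun c => y (c.map σ))) i x y =
      phc μ (σ i) x y := by
  unfold phc
  have h1 : ∀ (c : St d) (l : Fin k), Measurable fun z : St d → Fin k → ℝ => z c l :=
    fun c l => (measurable_pi_apply l).comp (measurable_pi_apply c)
  rw [integral_map]
  · rfl
  · exact (by fun_prop : Measurable _).aemeasurable
  · exact (by fun_prop : Measurable _).aestronglyMeasurable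

lemma so_rot [IsFiniteMeasure P] (hI : InnovProp Env d k s E t P pp rr om cav X Z) :
    ∀ᵐ h ∂P, ∃ S : Fin k → Fin k → ℂ,
      SO (kap Env P pp rr d t X Z h) ⟨0, d_pos L⟩ (bet pp rr d s E om cav 0 h)
        (k0 pp rr d cav h) S ∧
      SO (kap Env P pp rr d t X Z (rr h)) ⟨0, d_pos L⟩ (bet pp rr d s E om cav 0 (rr h))
        (k0 pp rr d cav (rr h)) S := by
  have hd := d_pos L
  have hd3 := L.hd
  obtain ⟨σ, hσ1, -⟩ := exists_rot hd
  filter_upwards [so_ae L hI, kapRot L σ hσ1] with h h1 h2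
  obtain ⟨S, hS⟩ := h1
  refine ⟨S, hS ⟨0, hd⟩, ?_⟩
  have hσ0 : σ ⟨0, hd⟩ = ⟨1, by omega⟩ := by
    apply Fin.ext
    rw [hσ1]
    exact Nat.mod_eq_of_lt (show 0 + 1 < d by omega)
  obtain ⟨ℓ, hl⟩ := hS ⟨1, by omega⟩
  refine ⟨ℓ, fun x y => ?_⟩
  rw [h2, phc_map, phc_map, hσ0, hl x y]
  have e1 : bet pp rr d s E om cav 0 (rr h) = bet pp rr d s E om cav 1 h := by
    have := StarAlg341.bet_turns (pp := pp) (s := s) (E := E) (cav := cav) L.rr_d L.om_rr 0 1 h
    simpa using this
  have e2 : k0 pp rr d cav (rr h) = (cav (mv pp rr 1 h)).im -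
      (cav (mv pp rr 1 h)).im ^ 2 / AA pp rr d cav h := by
    have := StarAlg341.AA_turns (pp := pp) (cav := cav) L.rr_d 1 h
    simp only [Function.iterate_one] at this
    rw [k0, this]
    rfl
  rw [e1, e2]

omit L in
omit mΩ in
lemma phc_pair (μ : Measure (St d → Fin k → ℝ)) (i : Fin d) (x y : Fin k → ℝ) :
    phc μ i x y = ∫ p : (Fin k → ℝ) × (Fin k → ℝ), Complex.exp (Complex.I *
      ((∑ l, (x l * p.1 l + y l * p.2 l) : ℝ) : ℂ)) ∂(μ.map fun z => (z none, z (some i))) := by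
  unfold phc
  rw [integral_map]
  · exact (by fun_prop : Measurable _).aemeasurable
  · have h1 : ∀ l : Fin k, Measurable fun p : (Fin k → ℝ) × (Fin k → ℝ) => p.1 l :=
      fun l => (measurable_pi_apply l).comp measurable_fst
    have h2 : ∀ l : Fin k, Measurable fun p : (Fin k → ℝ) × (Fin k → ℝ) => p.2 l :=
      fun l => (measurable_pi_apply l).comp measurable_snd
    exact (by fun_prop : Measurable _).aestronglyMeasurable

omit L in
omit mΩ in
lemma phc_pair' (μ : Measure (St d → Fin k → ℝ)) (i : Fin d) (x y : Fin k → ℝ) :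
    phc μ i y x = ∫ p : (Fin k → ℝ) × (Fin k → ℝ), Complex.exp (Complex.I *
      ((∑ l, (x l * p.1 l + y l * p.2 l) : ℝ) : ℂ)) ∂(μ.map fun z => (z (some i), z none)) := by
  unfold phc
  rw [integral_map]
  · congr 1
    funext z
    congr 3
    exact Finset.sum_congr rfl fun l _ => by ring
  · exact (by fun_prop : Measurable _).aemeasurable
  · have h1 : ∀ l : Fin k, Measurable fun p : (Fin k → ℝ) × (Fin k → ℝ) => p.1 l :=
      fun l => (measurable_pi_apply l).comp measurable_fst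
    have h2 : ∀ l : Fin k, Measurable fun p : (Fin k → ℝ) × (Fin k → ℝ) => p.2 l :=
      fun l => (measurable_pi_apply l).comp measurable_snd
    exact (by fun_prop : Measurable _).aestronglyMeasurable

lemma edge_ae [IsFiniteMeasure P] : ∀ᵐ h ∂P, ∀ x y,
    phc (kap Env P pp rr d t X Z (pp h)) ⟨0, d_pos L⟩ y x =
      phc (kap Env P pp rr d t X Z h) ⟨0, d_pos L⟩ x y := by
  filter_upwards [kapEdge L ⟨0, d_pos L⟩ rfl] with h h1 x y
  rw [phc_pair', phc_pair, h1]

lemma edgeHyp [IsFiniteMeasure P] {h : Ω} (hp : Pt pp rr d s E om cav h)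
    {S S' : Fin k → Fin k → ℂ}
    (hs : SO (kap Env P pp rr d t X Z h) ⟨0, d_pos L⟩ (bet pp rr d s E om cav 0 h)
        (k0 pp rr d cav h) S)
    (hs' : SO (kap Env P pp rr d t X Z (pp h)) ⟨0, d_pos L⟩ (bet pp rr d s E om cav 0 (pp h))
        (k0 pp rr d cav (pp h)) S')
    (hm : ∀ c l, MemLp (fun z : St d → Fin k → ℝ => z c l) 2 (kap Env P pp rr d t X Z h))
    (he : ∀ x y, phc (kap Env P pp rr d t X Z (pp h)) ⟨0, d_pos L⟩ y x =
      phc (kap Env P pp rr d t X Z h) ⟨0, d_pos L⟩ x y) :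
    ∃ ℓ ℓ' : (Fin k → ℝ) →ₗ[ℝ] ℂ, EdgeHyp (kap Env P pp rr d t X Z h) (fun z => z none)
      (fun z => z (some ⟨0, d_pos L⟩)) (bet pp rr d s E om cav 0 h)
      (bet pp rr d s E om cav 0 (pp h)) (Bk pp cav h 0 0).im (Bk pp cav h 1 1).im S S' ℓ ℓ' := by
  have hd := d_pos L
  obtain ⟨ℓ, hl⟩ := hs
  obtain ⟨ℓ', hl'⟩ := hs'
  have e1 : k0 pp rr d cav h = (1 - bet pp rr d s E om cav 0 h *
      bet pp rr d s E om cav 0 (pp h)) * (Bk pp cav h 1 1).im := by
    have hA := hp.AA_pos hd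
    rw [hp.resid L.pp_pp hd, k0]
    field_simp
  have e2 : k0 pp rr d cav (pp h) = (1 - bet pp rr d s E om cav 0 h *
      bet pp rr d s E om cav 0 (pp h)) * (Bk pp cav h 0 0).im := by
    have hA := hp.flip.AA_pos hd
    have h1 := hp.flip.resid L.pp_pp hd
    rw [StarAlg341.Bk_flip L.pp_pp, L.pp_pp] at h1
    simp only [sub_self] at h1
    rw [k0, L.pp_pp, mul_comm (bet pp rr d s E om cav 0 h), h1]
    field_simp
  refine ⟨ℓ, ℓ', ⟨fun l => hm none l, fun l => hm _ l, hp.Bk00_im_pos hd,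
    hp.Bk11_im_pos L.pp_pp hd, ?_, hp.bet_mul_lt_one L.pp_pp hd, ?_, ?_⟩⟩
  · rw [hp.bet_Bk hd, hp.bet_Bk' L.pp_pp hd]
  · intro x y
    have := hl x y
    rw [e1] at this
    exact this
  · intro x y
    have := hl' y x
    rw [e2, he, he] at this
    exact this

lemma memLp_ae [IsFiniteMeasure P] (hI : InnovProp Env d k s E t P pp rr om cav X Z) :
    ∀ᵐ h ∂P, ∀ c l, MemLp (fun z : St d → Fin k → ℝ => z c l) 2
      (kap Env P pp rr d t X Z h) := by
  filter_upwards [kapStar L hI] with h h1 c l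
  exact h1.memLp c l

/-- variance of `x · Y_v` under the conditional law, `v` = base vertex -/
noncomputable def vv (Env : MeasurableSpace Ω) [mΩ : MeasurableSpace Ω] (P : Measure Ω)
    [IsFiniteMeasure P] (pp rr : Ω → Ω) (d : ℕ) {k : ℕ} (t : ℝ) (X Z : Ω → Fin k → ℝ)
    (x : Fin k → ℝ) (h : Ω) : ℝ :=
  vr1 (kap Env P pp rr d t X Z h) (fun z => z none) x

lemma inv_even [IsFiniteMeasure P] (hI : InnovProp Env d k s E t P pp rr om cav X Z)
    (x : Fin k → ℝ) : ∀ᵐ h ∂P,
    vv Env P pp rr d t X Z x (pp (rr (pp h))) / (Gd pp rr d s E om cav (pp (rr (pp h)))).im =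
      vv Env P pp rr d t X Z x h / (Gd pp rr d s E om cav h).im := by
  have hd := d_pos L
  have hprob : ∀ h, IsProbabilityMeasure (kap Env P pp rr d t X Z h) := fun h => by
    unfold kap; infer_instance
  -- edge statement at `h`
  have hedge : ∀ᵐ h ∂P, ∀ S' : Fin k → Fin k → ℂ,
      SO (kap Env P pp rr d t X Z (pp h)) ⟨0, d_pos L⟩ (bet pp rr d s E om cav 0 (pp h))
        (k0 pp rr d cav (pp h)) S' →
      ((vv Env P pp rr d t X Z x h / (Gd pp rr d s E om cav h).im : ℝ) : ℂ) = -qf S' x := by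
    filter_upwards [so_rot L hI, memLp_ae L hI, edge_ae L, ae_pt L] with h h1 h2 h3 h4 S' h5
    obtain ⟨S, hS, -⟩ := h1
    obtain ⟨ℓ, ℓ', H⟩ := edgeHyp L h4 hS h5 h2 h3
    have := hprob h
    have h6 := H.out.1 x
    have h7 := h4.Gd_im_pos hd
    rw [h4.Bk00 hd] at h6
    rw [vv, Complex.ofReal_div, h6]
    have : ((Gd pp rr d s E om cav h).im : ℂ) ≠ 0 := by exact_mod_cast h7.ne'
    field_simp
  have mp1 : MeasurePreserving (fun h => pp (rr (pp h))) P P :=
    L.pp_mp.comp (L.rr_mp.comp L.pp_mp)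
  filter_upwards [L.pp_mp.quasiMeasurePreserving.ae (so_rot L hI), hedge,
    mp1.quasiMeasurePreserving.ae hedge] with h h1 h2 h3
  obtain ⟨S, hS1, hS2⟩ := h1
  have a1 := h2 S hS1
  have a2 := h3 S (by rw [L.pp_pp]; exact hS2)
  rw [← a1] at a2
  exact_mod_cast a2

lemma inv_rr [IsFiniteMeasure P] (x : Fin k → ℝ) : ∀ᵐ h ∂P,
    vv Env P pp rr d t X Z x (rr h) / (Gd pp rr d s E om cav (rr h)).im =
      vv Env P pp rr d t X Z x h / (Gd pp rr d s E om cav h).im := by
  obtain ⟨σ, hσ1, -⟩ := exists_rot (d_pos L)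
  filter_upwards [kapRot L σ hσ1] with h h1
  rw [StarAlg341.Gd_turn L.rr_d L.om_rr]
  congr 1
  unfold vv vr1
  have h2 : ∀ (c : St d) (l : Fin k), Measurable fun z : St d → Fin k → ℝ => z c l :=
    fun c l => (measurable_pi_apply l).comp (measurable_pi_apply c)
  have h3 : Measurable (fun (y : St d → Fin k → ℝ) => fun c : St d => y (c.map σ)) := by fun_prop
  rw [h1, integral_map h3.aemeasurable (by fun_prop : Measurable _).aestronglyMeasurable,
    integral_map h3.aemeasurable (by fun_prop : Measurable _).aestronglyMeasurable]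
  rfl

lemma meas_Gd' : Measurable[Env] (Gd pp rr d s E om cav) :=
  @measurable_Gd Ω Env pp rr d om cav L.pp_Env L.rr_Env L.om_meas L.cav_meas s E

omit L in
omit mΩ in
lemma meas_int_kernel {B A : Type*} [MeasurableSpace B] [MeasurableSpace A] (κ : Kernel B A)
    [IsMarkovKernel κ] {f : A → ℝ} (hf : Measurable f) : Measurable fun b => ∫ z, f z ∂(κ b) :=
  (StronglyMeasurable.integral_kernel hf.stronglyMeasurable).measurable

omit L in
lemma meas_vv [IsFiniteMeasure P] (x : Fin k → ℝ) : Measurable[Env] (vv Env P pp rr d t X Z x) := by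
  unfold vv vr1 kap
  have h2 : ∀ (c : St d) (l : Fin k), Measurable fun z : St d → Fin k → ℝ => z c l :=
    fun c l => (measurable_pi_apply l).comp (measurable_pi_apply c)
  have m1 : Measurable (fun z : St d → Fin k → ℝ => ∑ l, x l * z none l) := by fun_prop
  have m2 : Measurable (fun z : St d → Fin k → ℝ => (∑ l, x l * z none l) ^ 2) := by fun_prop
  have a1 := @meas_int_kernel Ω (St d → Fin k → ℝ) Env _
    (@condDistrib Ω Ω (St d → Fin k → ℝ) _ _ _ mΩ Env (SY pp rr d t X Z) id P _) inferInstance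
    _ m1
  have a2 := @meas_int_kernel Ω (St d → Fin k → ℝ) Env _
    (@condDistrib Ω Ω (St d → Fin k → ℝ) _ _ _ mΩ Env (SY pp rr d t X Z) id P _) inferInstance
    _ m2
  exact a2.sub (a1.pow_const 2)

/-- constancy of the normalised conditional variance -/
lemma vv_const [IsFiniteMeasure P] (hI : InnovProp Env d k s E t P pp rr om cav X Z)
    (x : Fin k → ℝ) : ∃ c : ℝ, ∀ᵐ h ∂P,
      vv Env P pp rr d t X Z x h = c * (Gd pp rr d s E om cav h).im := by
  have hm : Measurable[Env] fun h => vv Env P pp rr d t X Z x h /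
      (Gd pp rr d s E om cav h).im :=
    (meas_vv x).div (Complex.measurable_im.comp (meas_Gd' L))
  obtain ⟨c, hc⟩ := L.erg _ hm (inv_rr L x) (inv_even L hI x)
  refine ⟨c, ?_⟩
  filter_upwards [hc, ae_pt L] with h h1 h2
  rw [div_eq_iff (h2.Gd_im_pos (d_pos L)).ne'] at h1
  exact h1

/-- the conditional mean vanishes, and the conditional variance of `x · Y` is that of `x · X`
plus the noise -/
lemma vv_eq [IsFiniteMeasure P] (hI : InnovProp Env d k s E t P pp rr om cav X Z)
    (x : Fin k → ℝ) : ∀ᵐ h ∂P,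
      mn1 (kap Env P pp rr d t X Z h) (fun z => z none) x = 0 ∧
      vv Env P pp rr d t X Z x h = ∫ u, u ^ 2 ∂(KU Env P X x h) + t * Qe pp cav ρ x 0 h := by
  have hd := d_pos L
  filter_upwards [cf_rel L x, KU_mean L x, (KU_L2 L x).1, so_rot L hI,
    L.pp_mp.quasiMeasurePreserving.ae (so_rot L hI), memLp_ae L hI, edge_ae L, ae_pt L]
    with h h1 h2 h3 h4 h5 h6 h7 h8
  have hprob : IsProbabilityMeasure (kap Env P pp rr d t X Z h) := by
    unfold kap; infer_instance
  have hprob2 : IsProbabilityMeasure (KU Env P X x h) := by unfold KU; infer_instance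
  obtain ⟨S, hS, -⟩ := h4
  obtain ⟨S', hS', -⟩ := h5
  obtain ⟨ℓ, ℓ', H⟩ := edgeHyp L h8 hS hS' h6 h7
  have h9 := (H.left x).2
  have h10 : ∀ r : ℝ, ∫ u, Complex.exp (Complex.I * ((r * u : ℝ) : ℂ)) ∂(KU Env P X x h) =
      Complex.exp (r * (Complex.I * (mn1 (kap Env P pp rr d t X Z h) (fun z => z none) x : ℂ)) +
      r ^ 2 * (-(vr1 (kap Env P pp rr d t X Z h) (fun z => z none) x : ℂ) +
        (t * Qe pp cav ρ x 0 h : ℝ)) / 2) := by
    intro r
    have e1 := h1 r
    have e2 := h9 r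
    have e3 : phc (kap Env P pp rr d t X Z h) ⟨0, hd⟩ (r • x) 0 =
      ph (kap Env P pp rr d t X Z h) (fun z => z none) (fun z => z (some ⟨0, hd⟩)) (r • x) 0 := rfl
    rw [e3, e2] at e1
    have hne : ((Real.exp (-(1 / 2) * (t * (r ^ 2 * Qe pp cav ρ x 0 h))) : ℝ) : ℂ) ≠ 0 := by
      exact_mod_cast (Real.exp_pos _).ne'
    refine mul_left_cancel₀ hne ?_
    rw [← e1, Complex.ofReal_exp, ← Complex.exp_add]
    congr 1
    push_cast
    ring
  obtain ⟨m1, m2⟩ := moments_of_exp (fun u : ℝ => u) h3 _ _ h10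
  rw [h2] at m1 m2
  constructor
  · simpa using m1
  · have : (((vr1 (kap Env P pp rr d t X Z h) (fun z => z none) x : ℝ)) : ℂ) =
        ((∫ u, u ^ 2 ∂(KU Env P X x h) + t * Qe pp cav ρ x 0 h : ℝ) : ℂ) := by
      push_cast at m2 ⊢
      linear_combination -m2
    exact_mod_cast this

/-- value of the constant -/
theorem vv_val [IsFiniteMeasure P] (hI : InnovProp Env d k s E t P pp rr om cav X Z)
    (x : Fin k → ℝ) : ∀ᵐ h ∂P,
      vv Env P pp rr d t X Z x h =
        (1 + t) * (∑ l, x l ^ 2) / (Real.pi * ρ) * (Gd pp rr d s E om cav h).im := by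
  have hd := d_pos L
  have hP : IsProbabilityMeasure P := L.prob
  obtain ⟨c, hc⟩ := vv_const L hI x
  have hQ : ∀ᵐ h ∂P, Qe pp cav ρ x 0 h = (∑ l, x l ^ 2) / (Real.pi * ρ) *
      (Gd pp rr d s E om cav h).im := by
    filter_upwards [ae_pt L] with h hp
    rw [Qe, Finset.sum_div, Finset.sum_mul]
    refine Finset.sum_congr rfl fun l _ => ?_
    rw [hp.Bk00 hd]
    simp only [Pi.zero_apply]
    ring
  have hρ : (Real.pi * ρ) ≠ 0 := (mul_pos Real.pi_pos L.hρ).ne'
  have h1 : ∀ᵐ h ∂P, (P[fun h => (∑ l, x l * X h l) ^ 2 | Env]) h =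
      (c - t * (∑ l, x l ^ 2) / (Real.pi * ρ)) * (Gd pp rr d s E om cav h).im := by
    filter_upwards [hc, hQ, vv_eq L hI x, (KU_L2 L x).2] with h a1 a2 a3 a4
    rw [a4]
    have := a3.2
    rw [a1, a2] at this
    linear_combination -this
  have h2 : ∫ h, (∑ l, x l * X h l) ^ 2 ∂P =
      (c - t * (∑ l, x l ^ 2) / (Real.pi * ρ)) * (Real.pi * ρ) := by
    rw [← integral_condExp (Env_le' L), integral_congr_ae h1, integral_const_mul, L.G_rho]
  rw [sq_xX L x, sub_mul, div_mul_cancel₀ _ hρ] at h2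
  have h3 : c = (1 + t) * (∑ l, x l ^ 2) / (Real.pi * ρ) := by
    rw [eq_div_iff hρ]
    linear_combination -h2
  filter_upwards [hc] with h a1
  rw [a1, h3]

lemma mn_right [IsFiniteMeasure P] : ∀ᵐ h ∂P, ∀ x : Fin k → ℝ,
    mn1 (kap Env P pp rr d t X Z h) (fun z => z (some ⟨0, d_pos L⟩)) x =
      mn1 (kap Env P pp rr d t X Z (pp h)) (fun z => z none) x ∧
    vr1 (kap Env P pp rr d t X Z h) (fun z => z (some ⟨0, d_pos L⟩)) x =
      vr1 (kap Env P pp rr d t X Z (pp h)) (fun z => z none) x := by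
  filter_upwards [kapEdge L ⟨0, d_pos L⟩ rfl] with h h1 x
  have m0 : ∀ (c : St d) (l : Fin k), Measurable fun z : St d → Fin k → ℝ => z c l :=
    fun c l => (measurable_pi_apply l).comp (measurable_pi_apply c)
  have m1 : ∀ l : Fin k, Measurable fun p : (Fin k → ℝ) × (Fin k → ℝ) => p.2 l :=
    fun l => (measurable_pi_apply l).comp measurable_snd
  have hm1 : Measurable fun y : St d → Fin k → ℝ => (y (some (⟨0, d_pos L⟩ : Fin d)), y none) := by
    fun_prop
  have hm2 : Measurable fun y : St d → Fin k → ℝ => (y none, y (some (⟨0, d_pos L⟩ : Fin d))) := by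
    fun_prop
  have key : ∀ f : ℝ → ℝ, Measurable f →
      ∫ y, f (∑ l, x l * y (some ⟨0, d_pos L⟩) l) ∂(kap Env P pp rr d t X Z h) =
      ∫ y, f (∑ l, x l * y none l) ∂(kap Env P pp rr d t X Z (pp h)) := by
    intro f hf
    have hF : Measurable fun p : (Fin k → ℝ) × (Fin k → ℝ) => f (∑ l, x l * p.2 l) := by fun_prop
    have e1 := integral_map (μ := kap Env P pp rr d t X Z (pp h)) hm1.aemeasurable
      hF.aestronglyMeasurable
    have e2 := integral_map (μ := kap Env P pp rr d t X Z h) hm2.aemeasurable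
      hF.aestronglyMeasurable
    rw [h1] at e1
    exact e2.symm.trans e1
  constructor
  · exact key id measurable_id
  · have a1 := key (fun u => u ^ 2) (by fun_prop)
    have a2 := key id measurable_id
    simp only [id] at a1 a2
    unfold vr1
    rw [a1, a2]

omit L in
omit mΩ in
lemma vr1_add_smul {Ω' : Type*} [MeasurableSpace Ω'] {μ : Measure Ω'} [IsProbabilityMeasure μ]
    {V : Ω' → Fin k → ℝ} (hV : ∀ l, MemLp (fun y => V y l) 2 μ) (b : ℝ) (x y : Fin k → ℝ) :
    vr1 μ V (x + b • y) = vr1 μ V x + b * (vr1 μ V (x + y) - vr1 μ V x - vr1 μ V y) +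
      b ^ 2 * vr1 μ V y := by
  have h1 := memLp_lin hV x
  have h2 := memLp_lin hV y
  have key : ∀ c : ℝ, vr1 μ V (x + c • y) = (∫ z, (∑ l, x l * V z l) ^ 2 ∂μ +
      2 * c * ∫ z, (∑ l, x l * V z l) * (∑ l, y l * V z l) ∂μ +
      c ^ 2 * ∫ z, (∑ l, y l * V z l) ^ 2 ∂μ) -
      (∫ z, ∑ l, x l * V z l ∂μ + c * ∫ z, ∑ l, y l * V z l ∂μ) ^ 2 := by
    intro c
    have e1 : ∀ z, ∑ l, (x + c • y) l * V z l = ∑ l, x l * V z l + c * ∑ l, y l * V z l := by
      intro z
      rw [Finset.mul_sum, ← Finset.sum_add_distrib]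
      exact Finset.sum_congr rfl fun l _ => by simp [add_mul, mul_assoc]
    unfold vr1
    simp only [e1]
    have e2 : ∀ z, (∑ l, x l * V z l + c * ∑ l, y l * V z l) ^ 2 =
        (∑ l, x l * V z l) ^ 2 + 2 * c * ((∑ l, x l * V z l) * (∑ l, y l * V z l)) +
        c ^ 2 * (∑ l, y l * V z l) ^ 2 := fun z => by ring
    simp only [e2]
    have i1 : Integrable (fun z => (∑ l, x l * V z l) ^ 2) μ := h1.integrable_sq
    have i2 : Integrable (fun z => 2 * c * ((∑ l, x l * V z l) * (∑ l, y l * V z l))) μ :=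
      (h1.integrable_mul h2).const_mul _
    have i3 : Integrable (fun z => c ^ 2 * (∑ l, y l * V z l) ^ 2) μ :=
      h2.integrable_sq.const_mul _
    have i12 : Integrable (fun z => (∑ l, x l * V z l) ^ 2 +
      2 * c * ((∑ l, x l * V z l) * (∑ l, y l * V z l))) μ := i1.add i2
    rw [integral_add i12 i3, integral_add i1 i2, integral_const_mul, integral_const_mul,
      integral_add (h1.integrable one_le_two) ((h2.integrable one_le_two).const_mul _),
      integral_const_mul]
  have k1 := key 1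
  have k2 : vr1 μ V y = ∫ z, (∑ l, y l * V z l) ^ 2 ∂μ - (∫ z, ∑ l, y l * V z l ∂μ) ^ 2 := rfl
  have k3 : vr1 μ V x = ∫ z, (∑ l, x l * V z l) ^ 2 ∂μ - (∫ z, ∑ l, x l * V z l ∂μ) ^ 2 := rfl
  rw [one_smul] at k1
  rw [key b, k1, k2, k3]
  ring

/-- conditional law of the pair `(Y_v, Y_u)` -/
theorem kap_gauss [IsFiniteMeasure P] (hI : InnovProp Env d k s E t P pp rr om cav X Z)
    (x y : Fin k → ℝ) : ∀ᵐ h ∂P,
      phc (kap Env P pp rr d t X Z h) ⟨0, d_pos L⟩ x y =
        ((Real.exp (-(1 / 2) * ((1 + t) * Qe pp cav ρ x y h)) : ℝ) : ℂ) := by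
  have hd := d_pos L
  filter_upwards [vv_val L hI x, vv_val L hI y, vv_val L hI (x + y),
    L.pp_mp.quasiMeasurePreserving.ae (vv_val L hI y), vv_eq L hI x,
    L.pp_mp.quasiMeasurePreserving.ae (vv_eq L hI y), mn_right L, so_rot L hI,
    L.pp_mp.quasiMeasurePreserving.ae (so_rot L hI), memLp_ae L hI, edge_ae L, ae_pt L]
    with h v1 v2 v3 v4 w1 w2 h3 h4 h5 h6 h7 h8
  have hprob : IsProbabilityMeasure (kap Env P pp rr d t X Z h) := by
    unfold kap; infer_instance
  obtain ⟨S, hS, -⟩ := h4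
  obtain ⟨S', hS', -⟩ := h5
  obtain ⟨ℓ, ℓ', H⟩ := edgeHyp L h8 hS hS' h6 h7
  have h9 := H.out.2.2 x y
  rw [(h3 y).1, (h3 y).2, w2.1, w1.1] at h9
  have hV : ∀ l, MemLp (fun z : St d → Fin k → ℝ => z none l) 2
    (kap Env P pp rr d t X Z h) := fun l => h6 none l
  have h10 := vr1_add_smul hV (bet pp rr d s E om cav 0 h) x y
  have hB := h8.bet_Bk hd
  have hB' := h8.bet_Bk' L.pp_pp hd
  rw [h8.Bk00 hd] at hB
  rw [h8.Bk11 L.pp_pp hd] at hB'
  unfold vv at v1 v2 v3 v4
  rw [v1, v2, v3] at h10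
  rw [h10, v4] at h9
  have hρ : (Real.pi * ρ) ≠ 0 := (mul_pos Real.pi_pos L.hρ).ne'
  have hQ : Qe pp cav ρ x y h = ((∑ l, x l ^ 2) * (Gd pp rr d s E om cav h).im +
      (∑ l, (x + y) l ^ 2 - ∑ l, x l ^ 2 - ∑ l, y l ^ 2) * (Bk pp cav h 0 1).im +
      (∑ l, y l ^ 2) * (Gd pp rr d s E om cav (pp h)).im) / (Real.pi * ρ) := by
    have e1 : ∑ l, (x + y) l ^ 2 - ∑ l, x l ^ 2 - ∑ l, y l ^ 2 = ∑ l, 2 * (x l * y l) := by
      rw [← Finset.sum_sub_distrib, ← Finset.sum_sub_distrib]
      exact Finset.sum_congr rfl fun l _ => by simp only [Pi.add_apply]; ring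
    rw [e1, Qe, h8.Bk00 hd, h8.Bk11 L.pp_pp hd, Finset.sum_mul, Finset.sum_mul, Finset.sum_mul,
      ← Finset.sum_add_distrib, ← Finset.sum_add_distrib, Finset.sum_div]
  have e3 : phc (kap Env P pp rr d t X Z h) ⟨0, hd⟩ x y =
      ph (kap Env P pp rr d t X Z h) (fun z => z none) (fun z => z (some ⟨0, hd⟩)) x y := rfl
  rw [e3, h9, Complex.ofReal_exp, hQ]
  congr 1
  rw [← Complex.ofReal_one]
  simp only [Complex.ofReal_zero, add_zero, mul_zero, zero_sub]
  norm_cast
  generalize bet pp rr d s E om cav 0 h = b at *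
  generalize bet pp rr d s E om cav 0 (pp h) = b' at *
  generalize (Gd pp rr d s E om cav h).im = G at *
  generalize (Gd pp rr d s E om cav (pp h)).im = G' at *
  rw [← hB] at hB' ⊢
  field_simp
  have hρ' : ρ ≠ 0 := L.hρ.ne'
  rw [div_eq_iff hρ', neg_mul, div_mul_cancel₀ _ hρ']
  linear_combination ((1 + t) * b * ∑ l, y l ^ 2) * hB'

theorem edgeGauss (hI : InnovProp Env d k s E t P pp rr om cav X Z) :
    EdgeGauss Env k ρ P pp cav X := by
  have hP : IsProbabilityMeasure P := L.prob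
  have hd := d_pos L
  intro τ
  have h1 := tower L (fun l => τ l 0) (fun l => τ l 1)
  have h2 := kap_phc L (fun l => τ l 0) (fun l => τ l 1)
  have h3 := kap_gauss L hI (fun l => τ l 0) (fun l => τ l 1)
  have e : (fun h => Complex.exp (Complex.I *
        ((∑ l, (τ l 0 * X h l + τ l 1 * X (pp h) l) : ℝ) : ℂ))) =
      eX pp X (fun l => τ l 0) (fun l => τ l 1) := rfl
  rw [e]
  filter_upwards [h1, h2, h3] with h a1 a2 a3
  rw [a1, a3] at a2
  have hne : ((Real.exp (-(1 / 2) * (t * Qe pp cav ρ (fun l => τ l 0) (fun l => τ l 1) h)) : ℝ) : ℂ)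
      ≠ 0 := by exact_mod_cast (Real.exp_pos _).ne'
  refine mul_left_cancel₀ hne ?_
  rw [a2, ← Complex.ofReal_mul, ← Real.exp_add]
  congr 2
  have hQ : ∑ l, ∑ a, ∑ b, τ l a * ((Bk pp cav h a b).im / (Real.pi * ρ)) * τ l b =
      Qe pp cav ρ (fun l => τ l 0) (fun l => τ l 1) h := by
    unfold Qe
    refine Finset.sum_congr rfl fun l _ => ?_
    rw [Fin.sum_univ_two, Fin.sum_univ_two, Fin.sum_univ_two, StarAlg341.Bk10]
    ring
  rw [hQ]
  ring

end

/-- **42.5-42.6** -/
theorem stmt_42_6 : Stmt_42_6 := by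
  intro Ω Env FX mΩ d k s E t ρ P pp rr om cav X Z L hI
  exact edgeGauss L hI

end Crest.Agent.R166.Fin42
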