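import Crest.Agent.R166.InvDefs_988
import Crest.Agent.R166.CayDet_93
import Crest.Agent.R166.Res3_789

-- ▼ part R166/CayG_424
section

/-!
# R166 / CayG_424 (helper424)

Calculus of the Cayley transform `CayG` over an arbitrary finite index type (leaf L2 of section C):
transport of the facts on `Cay` (`CayDet_93`) along an equivalence `Fin m ≃ ι`; uniform continuity.
-/

set_option autoImplicit false
set_option linter.unusedSectionVars false

open Matrix
open scoped BigOperators

namespace Crest.Agent.R166.CayG424

open Crest.Agent.R166 Crest.Agent.R166.Inv988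

variable {ι κ : Type*} [Fintype ι] [DecidableEq ι] [Fintype κ] [DecidableEq κ]




/-- the equivalence used for the transport -/
noncomputable def eqv (ι : Type*) [Fintype ι] : Fin (Fintype.card ι) ≃ ι :=
  (Fintype.equivFin ι).symm

/-- transported matrix -/
noncomputable def tr {R : Type*} (C : Matrix ι ι R) :
    Matrix (Fin (Fintype.card ι)) (Fin (Fintype.card ι)) R := C.submatrix (eqv ι) (eqv ι)


















/-! ### uniform continuity -/






end Crest.Agent.R166.CayG424
end

-- ▼ part R166/PertMn_424

/-!
# R166 / PertMn_424 (helper424)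

Leaf L3 of section C: the normalised trace of the resolvent is stable under perturbations on a fixed
number of vertices: `|m_n(H + emb f K)(z) - m_n(H)(z)| ≤ #P / (n Im z)`, hence `≤ #P / K` at
`z = E + i K / n`; the effect on the centring of the test arrays.
-/

set_option autoImplicit false
set_option linter.unusedSectionVars false

open Matrix
open scoped BigOperators

namespace Crest.Agent.R166.PertMn424

open Crest.Agent.R166 Crest.Agent.R166.Res789 Crest.Agent.R166.Inv988 Crest.Agent.R166.CayG424

variable {V P : Type*} [Fintype V] [DecidableEq V] [Fintype P] [DecidableEq P]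

/-- trace of the resolvent under a finite rank perturbation -/
theorem norm_trace_Res_emb_sub_le {H : Matrix V V ℝ} (hH : Hᵀ = H) {z : ℂ} (hz : 0 < z.im)
    {f : P → V} (hf : Function.Injective f) {K : Matrix P P ℝ} (hK : Kᵀ = K) :
    ‖(Res789.Res (H + emb f K) z).trace - (Res789.Res H z).trace‖ ≤ Fintype.card P / z.im := by
  rw [← Matrix.trace_sub, Matrix.trace]
  calc ‖∑ v, (Res789.Res (H + emb f K) z - Res789.Res H z).diag v‖
      ≤ ∑ v, gam f (Res789.Res H z) v ^ 2 := by
        refine norm_sum_le_of_le _ fun v _ => ?_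
        rw [sq]
        exact norm_Res_emb_sub_le hH hz hf hK v v
    _ = _ := sum_gam_sq hH hz hf

/-- normalised trace under a finite rank perturbation -/
theorem norm_mn_emb_sub_le {n : ℕ} {H : Matrix (Fin n) (Fin n) ℝ} (hH : Hᵀ = H) {z : ℂ}
    (hz : 0 < z.im) {f : P → Fin n} (hf : Function.Injective f) {K : Matrix P P ℝ} (hK : Kᵀ = K) :
    ‖mn (H + emb f K) z - mn H z‖ ≤ Fintype.card P / (n * z.im) := by
  unfold mn
  rw [← sub_div, norm_div, Complex.norm_natCast]
  have h := norm_trace_Res_emb_sub_le hH hz hf hK
  rcases Nat.eq_zero_or_pos n with h0 | h0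
  · subst h0; simp
  · have hn : (0 : ℝ) < n := by exact_mod_cast h0
    rw [div_le_div_iff₀ hn (by positivity)]
    rw [le_div_iff₀ hz] at h
    calc ‖(Crest.Agent.R166.Res (H + emb f K) z).trace - (Crest.Agent.R166.Res H z).trace‖ *
          (n * z.im) = (‖(Res789.Res (H + emb f K) z).trace - (Res789.Res H z).trace‖ * z.im) * n :=
          by rw [← Res_eq419, ← Res_eq419]; ring
      _ ≤ Fintype.card P * n := mul_le_mul_of_nonneg_right h hn.le

@[simp] lemma zz_im (E K : ℝ) (n : ℕ) : (zz E K n).im = K / n := by
  simp only [zz, Complex.add_im, Complex.ofReal_im, Complex.mul_im, Complex.I_re, Complex.I_im,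
    Complex.ofReal_re]
  ring

@[simp] lemma zz_re (E K : ℝ) (n : ℕ) : (zz E K n).re = E := by
  simp [zz]

@[simp] lemma ze_im (E η : ℝ) : (ze E η).im = η := by simp [ze]

@[simp] lemma ze_re (E η : ℝ) : (ze E η).re = E := by simp [ze]

/-- normalised trace at the scale `K / n` -/
theorem norm_mn_zz_emb_sub_le {n : ℕ} (hn : 0 < n) {H : Matrix (Fin n) (Fin n) ℝ} (hH : Hᵀ = H)
    (E : ℝ) {K : ℝ} (hK0 : 0 < K) {f : P → Fin n} (hf : Function.Injective f) {W : Matrix P P ℝ}
    (hW : Wᵀ = W) :
    ‖mn (H + emb f W) (zz E K n) - mn H (zz E K n)‖ ≤ Fintype.card P / K := by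
  have hn' : (0 : ℝ) < n := by exact_mod_cast hn
  have h := norm_mn_emb_sub_le hH (z := zz E K n) (by rw [zz_im]; positivity) hf hW
  rw [zz_im, mul_div_cancel₀ _ hn'.ne'] at h
  exact h



/-! ### the centring of the arrays -/



section Ref

variable {m : ℕ}













end Ref

end Crest.Agent.R166.PertMn424
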