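import Crest.Agent.R166.DosB_420
import Crest.Agent.R166.EnvB_536
import Crest.Agent.R166.EnvC_536
import Crest.Agent.R166.TreeWalk_356
import Crest.Agent.R166.PertMn_424
import Crest.Agent.R166.GoeLL_583
import Crest.Agent.R166.Stab_269
import Crest.Agent.R166.Ports_269
import Crest.Agent.R166.Spine_419
import Crest.Agent.R166.OffDet_522
import Crest.Agent.R166.SpecF3_798

-- ▼ part R166/DosC_420
section

/-!
Row 166, section 32 (graph half), helper420: the moments of the empirical spectral measure converge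
to the tree moments (`momLim_of_word`), given the word identity `WordId`.
-/

set_option autoImplicit false

namespace Crest.Agent.R166.DosC420

open MeasureTheory Filter Topology Set Crest.ProbabilityR.RandomMatrix
open Crest.Agent.R166.DosB420 Crest.Agent.R166.Env536 TreeLike942

variable {n d : ℕ} [NeZero d]

/-- nodes at depth at most `R` -/
noncomputable def ballF (d : ℕ) [NeZero d] (R : ℕ) : Finset (Node d) :=
  ((Set.finite_univ (α := Bool)).prod (List.finite_length_le (Lt d) R)).toFinset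

theorem mem_ballF {R : ℕ} {y : Node d} : y ∈ ballF d R ↔ y.2.length ≤ R := by
  simp [ballF]

/-- extension by zero -/
noncomputable def ext (R : ℕ) (ξ : ↥(ballF d R) → ℝ) : Node d → ℝ := fun y =>
  by classical exact if h : y ∈ ballF d R then ξ ⟨y, h⟩ else 0

theorem ext_apply {R : ℕ} (ξ : ↥(ballF d R) → ℝ) {y : Node d} (h : y ∈ ballF d R) :
    ext R ξ y = ξ ⟨y, h⟩ := by
  unfold ext
  rw [dif_pos h]

theorem continuous_ext (R : ℕ) : Continuous (ext (d := d) R) := by
  classical
  refine continuous_pi fun y => ?_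
  unfold ext
  by_cases h : y ∈ ballF d R
  · simp only [dif_pos h]
    exact continuous_apply _
  · simp only [dif_neg h]
    exact continuous_const

open Classical in
/-- the unit vector at the root -/
noncomputable def rootV (d : ℕ) [NeZero d] : Node d → ℝ := Pi.single (true, []) 1

/-- the `k`-th moment at the root as a function of the potentials in the ball -/
noncomputable def mom (s : ℝ) (R k : ℕ) (ξ : ↥(ballF d R) → ℝ) : ℝ :=
  ((Tl s (ext R ξ)) ^ k) (rootV d) (true, [])

/-- word identity (helper356) -/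
def WordId (d : ℕ) [NeZero d] (s : ℝ) : Prop :=
  ∀ k R : ℕ, k ≤ R → ∫ ξ, mom (d := d) s R k ξ ∂(Measure.pi fun _ => mu0) = treeMoment d s k

theorem continuous_mom (s : ℝ) (R k : ℕ) : Continuous (mom (d := d) s R k) :=
  (continuous_pow s (rootV d) k (true, [])).comp (continuous_ext R)

/-- bound of the powers of the tree operator -/
theorem abs_pow_le {s : ℝ} (hs : 0 ≤ s) (hd : 1 ≤ d) {Ω : Node d → ℝ} (hΩ : ∀ y, |Ω y| ≤ 1)
    {F : Node d → ℝ} {M : ℝ} (hF : ∀ y, |F y| ≤ M) (k : ℕ) (x : Node d) :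
    |((Tl s Ω) ^ k) F x| ≤ ((d : ℝ) + s) ^ k * M := by
  induction k generalizing x with
  | zero => simpa using hF x
  | succ k ih =>
    rw [pow_succ', Module.End.mul_apply, Tl_apply]
    have hcard : (Fintype.card (Lt d) : ℝ) = (d : ℝ) - 1 := by
      have h1 : Fintype.card (Lt d) = d - 1 := by
        have := Fintype.card_subtype_compl (fun k : Fin d => k = 0)
        simp only [Fintype.card_fin, Fintype.card_subtype_eq] at this
        exact this
      rw [h1, Nat.cast_sub hd, Nat.cast_one]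
    set A : ℝ := ((d : ℝ) + s) ^ k * M with hA
    have h2 : |((Tl s Ω) ^ k) F (par x)| ≤ A := ih _
    have h3 : |∑ j : Lt d, ((Tl s Ω) ^ k) F (x.1, j :: x.2)| ≤ ((d : ℝ) - 1) * A := by
      refine (Finset.abs_sum_le_sum_abs _ _).trans ?_
      calc ∑ j : Lt d, |((Tl s Ω) ^ k) F (x.1, j :: x.2)| ≤ ∑ _j : Lt d, A :=
            Finset.sum_le_sum fun j _ => ih _
        _ = ((d : ℝ) - 1) * A := by rw [Finset.sum_const, Finset.card_univ, nsmul_eq_mul, hcard]
    have h4 : |s * Ω x * ((Tl s Ω) ^ k) F x| ≤ s * A := by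
      rw [abs_mul, abs_mul, abs_of_nonneg hs]
      have hA0 : 0 ≤ A := (abs_nonneg _).trans h2
      calc s * |Ω x| * |((Tl s Ω) ^ k) F x| ≤ s * 1 * A :=
            mul_le_mul (mul_le_mul_of_nonneg_left (hΩ x) hs) (ih x) (abs_nonneg _) (by linarith)
        _ = s * A := by ring
    calc _ ≤ |((Tl s Ω) ^ k) F (par x)| + |∑ j : Lt d, ((Tl s Ω) ^ k) F (x.1, j :: x.2)| +
          |s * Ω x * ((Tl s Ω) ^ k) F x| := abs_add_three _ _ _
      _ ≤ A + ((d : ℝ) - 1) * A + s * A := by linarith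
      _ = ((d : ℝ) + s) ^ (k + 1) * M := by rw [hA]; ring

/-- diagonal entry of the power at a tree-like vertex -/
theorem pow_diag {p : Equiv.Perm (HE n d)} (hp : IsPort p) {s : ℝ} {ω : Fin n → ℝ} {k R : ℕ}
    (hk : k ≤ R) {h : HE n d} (ht : TreeAt Prod.fst p (R + 1) h.1) :
    ((Hm (graphOf p) s ω) ^ k) h.1 h.1 = mom s R k (fun y : ↥(ballF d R) => ω (nv p h y.1)) := by
  classical
  have h1 := pow_nv hp s ω (Pi.single h.1 1) h k (true, [])
  rw [nv_true hp, Matrix.mulVec_single_one] at h1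
  have h2 : ((Hm (graphOf p) s ω) ^ k).col h.1 h.1 = ((Hm (graphOf p) s ω) ^ k) h.1 h.1 := rfl
  rw [h2] at h1
  rw [h1]
  unfold mom
  refine pow_local s k 0 ?_ ?_ (true, []) (by simp)
  · intro y hy
    rw [zero_add] at hy
    simp only [Function.comp_apply, rootV]
    by_cases hy0 : y = (true, [])
    · rw [hy0, nv_true hp, Pi.single_eq_same, Pi.single_eq_same]
    · rw [Pi.single_eq_of_ne hy0, Pi.single_eq_of_ne]
      intro hcon
      apply hy0
      refine nv_inj hp ht (by omega) (by simp) ?_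
      rw [nv_true hp]
      exact hcon
  · intro y hy
    rw [zero_add] at hy
    rw [ext_apply _ (mem_ballF.2 (hy.trans hk))]
    rfl

/-- crude bound of the diagonal entries of the powers -/
theorem abs_pow_diag_le {p : Equiv.Perm (HE n d)} (hp : IsPort p) {s : ℝ} (hs : 0 ≤ s)
    (hd : 1 ≤ d) {ω : Fin n → ℝ} (hω : ∀ i, |ω i| ≤ 1) (k : ℕ) (h : HE n d) :
    |((Hm (graphOf p) s ω) ^ k) h.1 h.1| ≤ ((d : ℝ) + s) ^ k := by
  classical
  have h1 := pow_nv hp s ω (Pi.single h.1 1) h k (true, [])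
  rw [nv_true hp, Matrix.mulVec_single_one] at h1
  have h2 : ((Hm (graphOf p) s ω) ^ k).col h.1 h.1 = ((Hm (graphOf p) s ω) ^ k) h.1 h.1 := rfl
  rw [h2] at h1
  rw [h1]
  have := abs_pow_le hs hd (Ω := ω ∘ nv p h) (fun y => hω _)
    (F := (Pi.single h.1 1 : Fin n → ℝ) ∘ nv p h) (M := 1) (fun y => by
      simp only [Function.comp_apply, Pi.single_apply]
      split_ifs <;> simp) k (true, [])
  rwa [mul_one] at this

omit [NeZero d] in
/-- the trace as a sum over the half-edges -/
theorem trace_eq (hd : 1 ≤ d) (M : Matrix (Fin n) (Fin n) ℝ) :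
    M.trace / n = (∑ h : HE n d, M h.1 h.1) / (n * d : ℝ) := by
  have := IsPort.vAvg_eq (n := n) (d := d) (by omega) (fun v => M v v)
  rw [← this]
  rfl

/-- clipping to `[-M, M]` -/
def clip (M x : ℝ) : ℝ := max (-M) (min M x)

theorem abs_clip_le {M : ℝ} (hM : 0 ≤ M) (x : ℝ) : |clip M x| ≤ M := by
  unfold clip
  rw [abs_le]
  exact ⟨le_max_left _ _, max_le (by linarith) (min_le_left _ _)⟩

theorem clip_eq {M x : ℝ} (h : |x| ≤ M) : clip M x = x := by
  unfold clip
  rw [abs_le] at h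
  rw [min_eq_right h.2, max_eq_right h.1]

theorem continuous_clip (M : ℝ) : Continuous (clip M) := by
  unfold clip; fun_prop

theorem mom_ae {s : ℝ} (hs : 0 ≤ s) (hd : 1 ≤ d) (R k : ℕ) :
    ∀ᵐ ξ ∂(Measure.pi fun _ : ↥(ballF d R) => mu0),
      clip (((d : ℝ) + s) ^ k) (mom s R k ξ) = mom s R k ξ := by
  have h1 : ∀ᵐ ξ ∂(Measure.pi fun _ : ↥(ballF d R) => mu0), ∀ i, |ξ i| ≤ 1 := by
    rw [ae_all_iff]
    intro i
    exact (Measure.quasiMeasurePreserving_eval (fun _ : ↥(ballF d R) => mu0) i).ae mu0_ae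
  filter_upwards [h1] with ξ hξ
  apply clip_eq
  have h2 := abs_pow_le hs hd (Ω := ext R ξ) (fun y => by
    classical
    unfold ext
    split_ifs with h
    · exact hξ _
    · simp) (F := rootV d) (M := 1) (fun y => by
      unfold rootV
      simp only [Pi.single_apply]
      split_ifs <;> simp) k (true, [])
  rwa [mul_one] at h2

/-- Chebyshev for local functions of the potentials -/
theorem cheb_ports {B : Type*} [Fintype B] (p : Equiv.Perm (HE n d)) (e : B → Node d)
    (S : Finset (HE n d)) (hinj : ∀ h ∈ S, Function.Injective fun y : B => nv p h (e y))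
    {g : (B → ℝ) → ℝ} (hg : Measurable g) {M : ℝ} (hM : ∀ ξ, |g ξ| ≤ M) {t : ℝ} (ht : 0 < t) :
    (potentialLaw n) {ω | t ≤ |∑ h ∈ S, (g (fun b => ω (nv p h (e b))) -
      ∫ ξ, g ξ ∂(Measure.pi fun _ : B => mu0))|} ≤
      ENNReal.ofReal ((2 * M) ^ 2 *
        (((Fintype.card B * Fintype.card B) * ((n * d) * d) : ℕ) : ℝ) / t ^ 2) :=
  lln_cheb (μ := mu0) (ι := Fin n) S (fun h (y : B) => nv p h (e y)) hinj hg hM _
    (fun T hT => card_overlap_le p e T hT) ht

/-- the quenched estimate: few bad vertices imply concentration of the moment -/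
theorem quenched {s : ℝ} (hs : 0 ≤ s) (hd : 1 ≤ d) (hW : WordId d s) (k : ℕ) {ε : ℝ}
    (hε : 0 < ε) :
    ∃ N : ℕ, ∀ n : ℕ, N ≤ n → ∀ p : Equiv.Perm (HE n d), IsPort p →
      ((nbad (k + 1) p : ℝ) < ε / (4 * (((d : ℝ) + s) ^ k + 1)) * n) →
      (potentialLaw n) {ω | ¬ (|((Hm (graphOf p) s ω) ^ k).trace / n - treeMoment d s k| ≤ ε)} ≤
        ENNReal.ofReal ε := by
  classical
  set M : ℝ := ((d : ℝ) + s) ^ k with hMdef
  have hM0 : 0 ≤ M := by positivity
  set c := treeMoment d s k with hc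
  set C : ℝ := (2 * M) ^ 2 * ((Fintype.card ↥(ballF d k) * Fintype.card ↥(ballF d k) : ℕ) : ℝ) /
    (ε / 2) ^ 2 with hC
  have hC0 : 0 ≤ C := by positivity
  obtain ⟨N, hN⟩ := exists_nat_ge (C / ε)
  refine ⟨N + 1, fun n hn p hp hb => ?_⟩
  have hn1 : 1 ≤ n := by omega
  have hn0 : (0 : ℝ) < n := by exact_mod_cast hn1
  have hd0 : (0 : ℝ) < d := by exact_mod_cast hd
  set S : Finset (HE n d) := Finset.univ.filter fun h => TreeAt Prod.fst p (k + 1) h.1 with hS
  -- number of the bad half-edges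
  have hbad : ((Finset.univ.filter fun h : HE n d => ¬ TreeAt Prod.fst p (k + 1) h.1).card : ℝ) ≤
      d * (nbad (k + 1) p : ℝ) := by
    have e1 : (Finset.univ.filter fun h : HE n d => ¬ TreeAt Prod.fst p (k + 1) h.1) =
        (Finset.univ.filter fun v : Fin n => ¬ TreeAt Prod.fst p (k + 1) v) ×ˢ
          (Finset.univ : Finset (Fin d)) := by
      ext h
      simp
    rw [e1, Finset.card_product, Finset.card_univ, Fintype.card_fin, nbad, Nat.card_eq_fintype_card,
      Fintype.card_subtype]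
    push_cast
    rw [mul_comm]
  -- Chebyshev
  have hg : Measurable fun ξ : ↥(ballF d k) → ℝ => clip M (mom s k k ξ) :=
    ((continuous_clip M).comp (continuous_mom s k k)).measurable
  have hinj : ∀ h ∈ S, Function.Injective fun y : ↥(ballF d k) => nv p h y.1 := by
    intro h hh x y hxy
    rw [hS, Finset.mem_filter] at hh
    have hx := mem_ballF.1 x.2
    have hy := mem_ballF.1 y.2
    exact Subtype.ext (nv_inj hp hh.2 (by omega) (by omega) hxy)
  have ht : 0 < ε / 2 * ((n : ℝ) * d) := by positivity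
  have hch := cheb_ports p (fun y : ↥(ballF d k) => y.1) S hinj hg
    (fun ξ => abs_clip_le hM0 _) ht
  have hcint : ∫ ξ, clip M (mom (d := d) s k k ξ) ∂(Measure.pi fun _ : ↥(ballF d k) => mu0) = c := by
    rw [hc, ← hW k k le_rfl]
    exact integral_congr_ae (mom_ae hs hd k k)
  rw [hcint] at hch
  -- inclusion
  have hsub : {ω : Fin n → ℝ | ¬ (|((Hm (graphOf p) s ω) ^ k).trace / n - c| ≤ ε)} ⊆
      {ω | ε / 2 * (n * d) ≤ |∑ h ∈ S, (clip M (mom s k k
        (fun y : ↥(ballF d k) => ω (nv p h y.1))) - c)|} ∪ {ω | ¬ ∀ i, |ω i| ≤ 1} := by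
    intro ω hω
    rw [mem_union]
    by_contra hcon
    rw [not_or] at hcon
    obtain ⟨h1, h2⟩ := hcon
    simp only [mem_ofPred_eq, not_not, not_le] at h1 h2 hω
    have hterm : ∀ h ∈ S, clip M (mom s k k (fun y : ↥(ballF d k) => ω (nv p h y.1))) =
        ((Hm (graphOf p) s ω) ^ k) h.1 h.1 := by
      intro h hh
      rw [hS, Finset.mem_filter] at hh
      rw [← pow_diag hp le_rfl hh.2]
      exact clip_eq (abs_pow_diag_le hp hs hd h2 k h)
    rw [Finset.sum_congr rfl fun h hh => by rw [hterm h hh]] at h1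
    have hcabs : |c| ≤ M := by
      rw [← hcint]
      have := norm_integral_le_of_norm_le_const (μ := Measure.pi fun _ : ↥(ballF d k) => mu0)
        (f := fun ξ => clip M (mom (d := d) s k k ξ)) (C := M)
        (Filter.Eventually.of_forall fun ξ => abs_clip_le hM0 _)
      simpa using this
    have e1 : (∑ h : HE n d, ((Hm (graphOf p) s ω) ^ k) h.1 h.1) / (n * d : ℝ) - c =
        (∑ h ∈ S, (((Hm (graphOf p) s ω) ^ k) h.1 h.1 - c) +
          ∑ h ∈ Finset.univ.filter (fun h : HE n d => ¬ TreeAt Prod.fst p (k + 1) h.1),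
            (((Hm (graphOf p) s ω) ^ k) h.1 h.1 - c)) / (n * d : ℝ) := by
      rw [hS, Finset.sum_filter_add_sum_filter_not, Finset.sum_sub_distrib, Finset.sum_const,
        Finset.card_univ, IsPort.card_HE, nsmul_eq_mul]
      push_cast
      field_simp
    rw [trace_eq hd, e1, abs_div, abs_of_pos (show (0:ℝ) < n * d by positivity),
      lt_div_iff₀ (by positivity)] at hω
    have e2 : |∑ h ∈ Finset.univ.filter (fun h : HE n d => ¬ TreeAt Prod.fst p (k + 1) h.1),
            (((Hm (graphOf p) s ω) ^ k) h.1 h.1 - c)| ≤ ε / 2 * (n * d) := by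
      refine (Finset.abs_sum_le_sum_abs _ _).trans ?_
      calc ∑ h ∈ Finset.univ.filter (fun h : HE n d => ¬ TreeAt Prod.fst p (k + 1) h.1),
            |((Hm (graphOf p) s ω) ^ k) h.1 h.1 - c|
          ≤ ∑ h ∈ Finset.univ.filter (fun h : HE n d => ¬ TreeAt Prod.fst p (k + 1) h.1),
            (2 * M) := by
            refine Finset.sum_le_sum fun h _ => ?_
            have := abs_sub (((Hm (graphOf p) s ω) ^ k) h.1 h.1) c
            have h3 := abs_pow_diag_le hp hs hd h2 k h
            linarith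
        _ ≤ (d * (nbad (k + 1) p : ℝ)) * (2 * M) := by
            rw [Finset.sum_const, nsmul_eq_mul]
            exact mul_le_mul_of_nonneg_right hbad (by positivity)
        _ ≤ (d * (ε / (4 * (M + 1)) * n)) * (2 * M) := by
            refine mul_le_mul_of_nonneg_right ?_ (by positivity)
            exact mul_le_mul_of_nonneg_left hb.le hd0.le
        _ = ε / 2 * (n * d) * (M / (M + 1)) := by
            field_simp
            ring
        _ ≤ ε / 2 * (n * d) * 1 := by
            refine mul_le_mul_of_nonneg_left ?_ (by positivity)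
            rw [div_le_one (by positivity)]
            linarith
        _ = ε / 2 * (n * d) := mul_one _
    have e3 := abs_add_le (∑ h ∈ S, (((Hm (graphOf p) s ω) ^ k) h.1 h.1 - c))
      (∑ h ∈ Finset.univ.filter (fun h : HE n d => ¬ TreeAt Prod.fst p (k + 1) h.1),
            (((Hm (graphOf p) s ω) ^ k) h.1 h.1 - c))
    linarith
  refine (measure_mono hsub).trans ((measure_union_le _ _).trans ?_)
  have hz : (potentialLaw n) {ω | ¬ ∀ i, |ω i| ≤ 1} = 0 := by
    have := potentialLaw_ae n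
    rwa [ae_iff] at this
  rw [hz, add_zero]
  refine hch.trans (ENNReal.ofReal_le_ofReal ?_)
  have e5 : (2 * M) ^ 2 * ((Fintype.card ↥(ballF d k) * Fintype.card ↥(ballF d k) *
      (n * d * d) : ℕ) : ℝ) / (ε / 2 * (n * d)) ^ 2 = C / n := by
    rw [hC]
    push_cast
    field_simp
  rw [e5, div_le_iff₀ hn0]
  have hNn : (N : ℝ) ≤ n := by
    have : N ≤ n := by omega
    exact_mod_cast this
  have := hN.trans hNn
  rw [div_le_iff₀ hε] at this
  linarith

/-- **the moments converge**, given the word identity -/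
theorem momLim_of_word {s : ℝ} (hs : 0 ≤ s) (hd : 1 ≤ d) (hW : WordId d s) : MomLim d s := by
  classical
  intro k ε hε
  obtain ⟨N1, h1⟩ := quenched hs hd hW k (show 0 < ε / 2 by positivity)
  set δ : ℝ := min (ε / 2) (ε / 2 / (4 * (((d : ℝ) + s) ^ k + 1))) with hδ
  have hδ0 : 0 < δ := lt_min (by positivity) (by positivity)
  obtain ⟨N2, h2⟩ := few_bad d hd (k + 1) δ hδ0
  refine ⟨N1 + N2, fun n hn hne => ?_⟩
  have a1 := h1 n (by omega)
  have a2 := h2 n (by omega)
  rw [Whp_iff]
  have hcard : 0 < (Ports n d).card := Finset.card_pos.2 (Ports_nonempty_iff.2 hne)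
  have hc0 : ((Ports n d).card : ENNReal) ≠ 0 := by exact_mod_cast hcard.ne'
  have hct : ((Ports n d).card : ENNReal) ≠ ⊤ := ENNReal.natCast_ne_top _
  have key : ∑ p ∈ Ports n d, (potentialLaw n)
      {ω | ¬ (|((Hm (graphOf p) s ω) ^ k).trace / n - treeMoment d s k| ≤ ε)} ≤
      (Ports n d).card * ENNReal.ofReal ε := by
    rw [← Finset.sum_filter_add_sum_filter_not (Ports n d) (fun p => δ * n ≤ (nbad (k + 1) p : ℝ))]
    have b1 : ∑ p ∈ (Ports n d).filter (fun p => δ * n ≤ (nbad (k + 1) p : ℝ)), (potentialLaw n)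
        {ω | ¬ (|((Hm (graphOf p) s ω) ^ k).trace / n - treeMoment d s k| ≤ ε)} ≤
        (Ports n d).card * ENNReal.ofReal (ε / 2) := by
      calc _ ≤ ∑ p ∈ (Ports n d).filter (fun p => δ * n ≤ (nbad (k + 1) p : ℝ)), (1 : ENNReal) :=
            Finset.sum_le_sum fun p _ => prob_le_one
        _ = (((Ports n d).filter (fun p => δ * n ≤ (nbad (k + 1) p : ℝ))).card : ENNReal) := by
            rw [Finset.sum_const, nsmul_eq_mul, mul_one]
        _ ≤ ENNReal.ofReal (δ * (Ports n d).card) := by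
            rw [← ENNReal.ofReal_natCast]
            exact ENNReal.ofReal_le_ofReal a2
        _ ≤ ENNReal.ofReal ((Ports n d).card * (ε / 2)) := by
            refine ENNReal.ofReal_le_ofReal ?_
            rw [mul_comm]
            exact mul_le_mul_of_nonneg_left (min_le_left _ _) (Nat.cast_nonneg _)
        _ = (Ports n d).card * ENNReal.ofReal (ε / 2) := by
            rw [ENNReal.ofReal_mul (Nat.cast_nonneg _), ENNReal.ofReal_natCast]
    have b2 : ∑ p ∈ (Ports n d).filter (fun p => ¬ (δ * n ≤ (nbad (k + 1) p : ℝ))),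
        (potentialLaw n)
        {ω | ¬ (|((Hm (graphOf p) s ω) ^ k).trace / n - treeMoment d s k| ≤ ε)} ≤
        (Ports n d).card * ENNReal.ofReal (ε / 2) := by
      calc _ ≤ ∑ p ∈ (Ports n d).filter (fun p => ¬ (δ * n ≤ (nbad (k + 1) p : ℝ))),
            ENNReal.ofReal (ε / 2) := by
            refine Finset.sum_le_sum fun p hp => ?_
            rw [Finset.mem_filter] at hp
            have hp1 := mem_Ports.1 hp.1
            have hp2 : (nbad (k + 1) p : ℝ) <
                ε / 2 / (4 * (((d : ℝ) + s) ^ k + 1)) * n := by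
              refine (not_le.1 hp.2).trans_le ?_
              exact mul_le_mul_of_nonneg_right (min_le_right _ _) (Nat.cast_nonneg _)
            refine le_trans (measure_mono ?_) (a1 p hp1 hp2)
            intro ω hω
            simp only [mem_ofPred_eq, not_le] at hω ⊢
            linarith
        _ ≤ (Ports n d).card * ENNReal.ofReal (ε / 2) := by
            rw [Finset.sum_const, nsmul_eq_mul]
            exact mul_le_mul_left (by exact_mod_cast Finset.card_filter_le _ _) _
    calc _ ≤ (Ports n d).card * ENNReal.ofReal (ε / 2) + (Ports n d).card * ENNReal.ofReal (ε / 2) :=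
          add_le_add b1 b2
      _ = (Ports n d).card * ENNReal.ofReal ε := by
          rw [← mul_add, ← ENNReal.ofReal_add (by positivity) (by positivity), add_halves]
  calc ((Ports n d).card : ENNReal)⁻¹ * _ ≤
        ((Ports n d).card : ENNReal)⁻¹ * ((Ports n d).card * ENNReal.ofReal ε) :=
        mul_le_mul_right key _
    _ = ENNReal.ofReal ε := by
        rw [← mul_assoc, ENNReal.inv_mul_cancel hc0 hct, one_mul]

/-- the word identity, from helper356's `integral_Tl_pow` -/
theorem wordId (d : ℕ) [NeZero d] (s : ℝ) : WordId d s := by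
  classical
  intro k R hk
  rw [← TreeWalk356.integral_Tl_pow s k]
  have h1 : (Measure.pi fun _ : ↥(ballF d R) => mu0) =
      (Measure.infinitePi fun _ : Node d => TreeDefs350.unif).map (ballF d R).restrict :=
    (Measure.infinitePi_map_restrict (μ := fun _ : Node d => TreeDefs350.unif)).symm
  rw [h1, integral_map (Finset.measurable_restrict _).aemeasurable
    (continuous_mom s R k).aestronglyMeasurable]
  refine integral_congr_ae (Filter.Eventually.of_forall fun Ω => ?_)
  simp only [mom]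
  have h2 : (Pi.single (true, []) 1 : Node d → ℝ) = rootV d := by
    unfold rootV
    congr
  rw [h2]
  refine pow_local s k 0 (fun y _ => rfl) ?_ (true, []) (by simp)
  intro y hy
  rw [zero_add] at hy
  rw [ext_apply _ (mem_ballF.2 (hy.trans hk))]
  rfl

/-- **the moments of the empirical spectral measures converge to the tree moments** -/
theorem momLim {d : ℕ} (hd : 1 ≤ d) {s : ℝ} (hs : 0 ≤ s) : MomLim d s := by
  have : NeZero d := ⟨by omega⟩
  exact momLim_of_word hs hd (wordId d s)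


end Crest.Agent.R166.DosC420
end

-- ▼ part R166/ImLimS_424
section

/-!
# R166 / ImLimS_424 (helper424)

Task E3 of 32G: `ImLim` (scale `K / n`) from `ImFix` (fixed small `η`), `LocLim` and uniform
integrability of `Im R_vv` at both scales; calculus of `Whp`.
-/

set_option autoImplicit false

open Matrix MeasureTheory
open scoped BigOperators ENNReal

namespace Crest.Agent.R166.ImLimS424

open Crest.Agent.R166 Crest.ProbabilityR.RandomMatrix Crest.Agent.R166.PertMn424

/-! ### calculus of `Whp` -/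

section whp

variable {n d : ℕ}

lemma gLaw_notMem_reg : gLaw n d {G | G ∉ regularGraphs n d} = 0 := by
  unfold gLaw
  rw [Measure.smul_apply, Measure.finsetSum_apply]
  have h : ∀ G ∈ regularGraphs n d,
      (Measure.dirac G : Measure (SimpleGraph (Fin n))) {G | G ∉ regularGraphs n d} = 0 := by
    intro G hG
    rw [Measure.dirac_apply' _ (MeasurableSet.of_discrete)]
    simp [hG]
  rw [Finset.sum_eq_zero h, smul_zero]

lemma law_notMem_reg : law n d {x | x.1 ∉ regularGraphs n d} = 0 := by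
  have e : {x : SimpleGraph (Fin n) × (Fin n → ℝ) | x.1 ∉ regularGraphs n d} =
      {G | G ∉ regularGraphs n d} ×ˢ Set.univ := by
    ext x; simp
  rw [e]
  have h := Measure.prod_prod_le (μ := gLaw n d) (ν := potentialLaw n)
    {G | G ∉ regularGraphs n d} Set.univ
  unfold law
  rw [gLaw_notMem_reg, zero_mul] at h
  exact le_antisymm h bot_le

/-- monotonicity: only regular graphs matter -/
theorem Whp.mono {ε ε' : ℝ} {P Q : SimpleGraph (Fin n) → (Fin n → ℝ) → Prop} (h : Whp n d ε P)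
    (hε : ε ≤ ε') (hPQ : ∀ G ∈ regularGraphs n d, ∀ ω, P G ω → Q G ω) : Whp n d ε' Q := by
  unfold Whp at *
  calc (law n d) {x | ¬ Q x.1 x.2}
      ≤ (law n d) ({x | ¬ P x.1 x.2} ∪ {x | x.1 ∉ regularGraphs n d}) := by
        refine measure_mono fun x hx => ?_
        by_cases hG : x.1 ∈ regularGraphs n d
        · left
          intro hP
          exact hx (hPQ _ hG _ hP)
        · right; exact hG
    _ ≤ (law n d) {x | ¬ P x.1 x.2} + (law n d) {x | x.1 ∉ regularGraphs n d} :=
        measure_union_le _ _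
    _ ≤ ENNReal.ofReal ε' := by
        rw [law_notMem_reg, add_zero]
        exact h.trans (ENNReal.ofReal_le_ofReal hε)

/-- union bound -/
theorem Whp.and {ε ε' : ℝ} {P Q : SimpleGraph (Fin n) → (Fin n → ℝ) → Prop} (hε : 0 ≤ ε)
    (hε' : 0 ≤ ε') (h : Whp n d ε P) (h' : Whp n d ε' Q) :
    Whp n d (ε + ε') fun G ω => P G ω ∧ Q G ω := by
  unfold Whp at *
  calc (law n d) {x | ¬ (P x.1 x.2 ∧ Q x.1 x.2)}
      ≤ (law n d) ({x | ¬ P x.1 x.2} ∪ {x | ¬ Q x.1 x.2}) := by
        refine measure_mono fun x hx => ?_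
        by_cases hP : P x.1 x.2
        · right; exact fun hQ => hx ⟨hP, hQ⟩
        · left; exact hP
    _ ≤ (law n d) {x | ¬ P x.1 x.2} + (law n d) {x | ¬ Q x.1 x.2} := measure_union_le _ _
    _ ≤ ENNReal.ofReal ε + ENNReal.ofReal ε' := add_le_add h h'
    _ = ENNReal.ofReal (ε + ε') := (ENNReal.ofReal_add hε hε').symm

end whp

/-! ### averages -/

section avg

variable {n d : ℕ}

lemma sum_darts (G : SimpleGraph (Fin n)) (hG : G ∈ regularGraphs n d) (f : Fin n → ℝ) :
    ∑ p ∈ darts G, f p.1 = d * ∑ v, f v := by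
  classical
  have hdeg : ∀ v, (Finset.univ.filter fun w => G.Adj v w).card = d := by
    have := hG
    unfold regularGraphs at this
    simpa using this
  unfold darts
  rw [Finset.sum_filter]
  rw [← Finset.univ_product_univ, Finset.sum_product]
  rw [Finset.mul_sum]
  refine Finset.sum_congr rfl fun v _ => ?_
  have : ∑ w : Fin n, (if G.Adj v w then f v else 0) = d * f v := by
    rw [← Finset.sum_filter, Finset.sum_const, nsmul_eq_mul]
    congr 2
    convert hdeg v
  convert this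

lemma card_darts (G : SimpleGraph (Fin n)) (hG : G ∈ regularGraphs n d) :
    ((darts G).card : ℝ) = n * d := by
  have h := sum_darts G hG fun _ => (1 : ℝ)
  simp only [Finset.sum_const, nsmul_eq_mul, mul_one, Finset.card_univ, Fintype.card_fin] at h
  rw [h]; ring

/-- the average over directed edges of a function of the first vertex -/
theorem eAvg_fst {G : SimpleGraph (Fin n)} (hd : 0 < d) (hG : G ∈ regularGraphs n d)
    (f : Fin n → ℝ) : eAvg G (fun u _ => f u) = vAvg f := by
  unfold eAvg vAvg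
  rw [sum_darts G hG f, card_darts G hG]
  have : (d : ℝ) ≠ 0 := by exact_mod_cast hd.ne'
  rw [mul_comm (n : ℝ), mul_div_mul_left _ _ this]

lemma eAvg_mono {G : SimpleGraph (Fin n)} {f g : Fin n → Fin n → ℝ} (h : ∀ u w, f u w ≤ g u w) :
    eAvg G f ≤ eAvg G g := by
  unfold eAvg
  exact div_le_div_of_nonneg_right (Finset.sum_le_sum fun p _ => h p.1 p.2) (Nat.cast_nonneg _)

lemma vAvg_mono {f g : Fin n → ℝ} (h : ∀ v, f v ≤ g v) : vAvg f ≤ vAvg g := by
  unfold vAvg
  exact div_le_div_of_nonneg_right (Finset.sum_le_sum fun v _ => h v) (Nat.cast_nonneg _)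

lemma vAvg_add (f g : Fin n → ℝ) : vAvg (fun v => f v + g v) = vAvg f + vAvg g := by
  unfold vAvg
  rw [Finset.sum_add_distrib, add_div]

lemma vAvg_sub (f g : Fin n → ℝ) : vAvg (fun v => f v - g v) = vAvg f - vAvg g := by
  unfold vAvg
  rw [Finset.sum_sub_distrib, sub_div]

lemma vAvg_const_mul (c : ℝ) (f : Fin n → ℝ) : vAvg (fun v => c * f v) = c * vAvg f := by
  unfold vAvg
  rw [← Finset.mul_sum, mul_div_assoc]

lemma abs_vAvg_le (f : Fin n → ℝ) : |vAvg f| ≤ vAvg fun v => |f v| := by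
  unfold vAvg
  rw [abs_div, Nat.abs_cast]
  exact div_le_div_of_nonneg_right (Finset.abs_sum_le_sum_abs _ _) (Nat.cast_nonneg _)

lemma mn_im (H : Matrix (Fin n) (Fin n) ℝ) (z : ℂ) :
    (mn H z).im = vAvg fun v => (Res H z v v).im := by
  unfold mn vAvg Matrix.trace
  rw [Complex.div_natCast_im, Complex.im_sum]
  rfl

/-- truncated first moments -/
noncomputable def tail (M : ℝ) (f : Fin n → ℝ) : ℝ := vAvg fun v => if M < f v then f v else 0

lemma tail_mono {M M' : ℝ} (h : M ≤ M') {f : Fin n → ℝ} (hf : ∀ v, 0 ≤ f v) :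
    tail M' f ≤ tail M f := by
  refine vAvg_mono fun v => ?_
  by_cases h1 : M' < f v
  · rw [if_pos h1, if_pos (lt_of_le_of_lt h h1)]
  · rw [if_neg h1]
    split_ifs
    · exact hf v
    · exact le_rfl

lemma abs_sub_le_trunc {a b M t : ℝ} (ha : 0 ≤ a) (hb : 0 ≤ b) (hM : 1 ≤ M) (ht : |a - b| ≤ t) :
    |a - b| ≤ M * min 1 t + (if M < a then a else 0) + (if M < b then b else 0) := by
  have hmin : 0 ≤ min 1 t := le_min zero_le_one ((abs_nonneg _).trans ht)
  by_cases h1 : M < a
  · by_cases h2 : M < b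
    · rw [if_pos h1, if_pos h2]
      have : |a - b| ≤ a + b := by
        rw [abs_le]; constructor <;> linarith
      nlinarith
    · rw [if_pos h1, if_neg h2]
      push Not at h2
      have : |a - b| ≤ a := by
        rw [abs_le]; constructor <;> linarith
      nlinarith
  · by_cases h2 : M < b
    · rw [if_neg h1, if_pos h2]
      push Not at h1
      have : |a - b| ≤ b := by
        rw [abs_le]; constructor <;> linarith
      nlinarith
    · rw [if_neg h1, if_neg h2]
      push Not at h1 h2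
      have h3 : |a - b| ≤ M := by
        rw [abs_le]; constructor <;> linarith
      rcases le_total 1 t with h | h
      · rw [min_eq_left h]; linarith
      · rw [min_eq_right h]
        have : 0 ≤ t := (abs_nonneg _).trans ht
        nlinarith

/-- deterministic comparison of the two scales -/
theorem abs_mn_im_sub_le {G : SimpleGraph (Fin n)} (hd : 0 < d) (hG : G ∈ regularGraphs n d)
    {H : Matrix (Fin n) (Fin n) ℝ} {z w : ℂ} (hz : ∀ v, 0 ≤ (Res H z v v).im)
    (hw : ∀ v, 0 ≤ (Res H w v v).im) {M : ℝ} (hM : 1 ≤ M) :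
    |(mn H z).im - (mn H w).im| ≤
      M * eAvg G (fun u v => min 1 (bnorm (Blk (Res H z) u v - Blk (Res H w) u v))) +
        tail M (fun v => (Res H z v v).im) + tail M (fun v => (Res H w v v).im) := by
  rw [mn_im, mn_im, ← vAvg_sub]
  refine (abs_vAvg_le _).trans ?_
  have h1 : vAvg (fun v => |(Res H z v v).im - (Res H w v v).im|) ≤
      vAvg (fun v => M * min 1 |(Res H z v v).im - (Res H w v v).im| +
        (if M < (Res H z v v).im then (Res H z v v).im else 0) +
        (if M < (Res H w v v).im then (Res H w v v).im else 0)) :=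
    vAvg_mono fun v => abs_sub_le_trunc (hz v) (hw v) hM le_rfl
  refine h1.trans ?_
  rw [vAvg_add, vAvg_add, vAvg_const_mul]
  refine add_le_add_left (add_le_add_left (mul_le_mul_of_nonneg_left ?_ (by linarith)) _) _
  rw [← eAvg_fst hd hG]
  refine eAvg_mono fun u v => min_le_min_left _ ?_
  have h2 : |(Res H z u u).im - (Res H w u u).im| ≤
      ‖(Blk (Res H z) u v - Blk (Res H w) u v) 0 0‖ := by
    rw [← Complex.sub_im]
    exact Complex.abs_im_le_norm _
  refine h2.trans ?_
  unfold bnorm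
  exact (le_max_left _ _).trans (le_max_left _ _)

end avg

/-! ### the theorem -/

/-- uniform integrability of `Im R_vv` at the scale `K / n` -/
def UIscale (d : ℕ) (s E : ℝ) : Prop :=
  ∀ ε : ℝ, 0 < ε → ∃ M : ℝ, ∃ K0 : ℝ, 0 < K0 ∧ ∀ K : ℝ, K0 ≤ K → ∃ N : ℕ, ∀ n : ℕ, N ≤ n →
    (regularGraphs n d).Nonempty →
    Whp n d ε fun G ω =>
      vAvg (fun v => if M < (Res (Hm G s ω) (zz E K n) v v).im then
        (Res (Hm G s ω) (zz E K n) v v).im else 0) ≤ ε

/-- uniform integrability of `Im R_vv` at fixed small `η` -/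
def UIfix (d : ℕ) (s E : ℝ) : Prop :=
  ∀ ε : ℝ, 0 < ε → ∃ M : ℝ, ∃ η0 : ℝ, 0 < η0 ∧ ∀ η : ℝ, 0 < η → η ≤ η0 → ∃ N : ℕ, ∀ n : ℕ,
    N ≤ n → (regularGraphs n d).Nonempty →
    Whp n d ε fun G ω =>
      vAvg (fun v => if M < (Res (Hm G s ω) (ze E η) v v).im then
        (Res (Hm G s ω) (ze E η) v v).im else 0) ≤ ε

lemma Hm_symm {n : ℕ} (G : SimpleGraph (Fin n)) (s : ℝ) (ω : Fin n → ℝ) :
    (Hm G s ω)ᵀ = Hm G s ω := by
  classical
  unfold Hm
  rw [Matrix.transpose_add, Matrix.transpose_smul, Matrix.diagonal_transpose,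
    SimpleGraph.transpose_adjMatrix]

/-- diagonal entries of the resolvent have positive imaginary part -/
lemma im_diag_pos {n : ℕ} {H : Matrix (Fin n) (Fin n) ℝ} (hH : Hᵀ = H) {z : ℂ} (hz : 0 < z.im)
    (v : Fin n) : 0 < (Res H z v v).im := by
  have h := (Res789.Res_sieg hH hz).posDef.diag_pos (i := v)
  exact h

/-- **E3** -/
theorem imLim_of {d : ℕ} (hd : 0 < d) {s E ρ : ℝ} (hfix : ImFix d s E ρ) (hloc : LocLim d s E)
    (hui : UIscale d s E) (huif : UIfix d s E) : ImLim d s E ρ := by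
  intro ε hε
  set e1 : ℝ := ε / 8 with he1
  have he1p : 0 < e1 := by positivity
  obtain ⟨M1, K1, hK1, h1⟩ := hui e1 he1p
  obtain ⟨M2, η1, hη1, h2⟩ := huif e1 he1p
  obtain ⟨η2, hη2, h3⟩ := hfix e1 he1p
  set M : ℝ := max 1 (max M1 M2) with hM
  have hM1 : 1 ≤ M := le_max_left _ _
  have hM0 : 0 < M := lt_of_lt_of_le one_pos hM1
  obtain ⟨η3, hη3, K2, hK2, h4⟩ := hloc (e1 / M) (by positivity)
  set η : ℝ := min η1 (min η2 η3) with hη
  have hηp : 0 < η := lt_min hη1 (lt_min hη2 hη3)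
  have hηle1 : η ≤ η1 := min_le_left _ _
  have hηle2 : η ≤ η2 := (min_le_right _ _).trans (min_le_left _ _)
  have hηle3 : η ≤ η3 := (min_le_right _ _).trans (min_le_right _ _)
  refine ⟨max K1 K2, lt_of_lt_of_le hK1 (le_max_left _ _), fun K hK => ?_⟩
  have hKpos : 0 < K := lt_of_lt_of_le hK1 ((le_max_left _ _).trans hK)
  obtain ⟨N1, g1⟩ := h1 K ((le_max_left _ _).trans hK)
  obtain ⟨N2, g2⟩ := h2 η hηp hηle1
  obtain ⟨N3, g3⟩ := h3 η hηp hηle2
  obtain ⟨N4, g4⟩ := h4 η hηp hηle3 K ((le_max_right _ _).trans hK)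
  refine ⟨max (max N1 N2) (max (max N3 N4) 1), fun n hn hne => ?_⟩
  have hn1 : N1 ≤ n := ((le_max_left _ _).trans (le_max_left _ _)).trans hn
  have hn2 : N2 ≤ n := ((le_max_right _ _).trans (le_max_left _ _)).trans hn
  have hn3 : N3 ≤ n :=
    (((le_max_left _ _).trans (le_max_left _ _)).trans (le_max_right _ _)).trans hn
  have hn4 : N4 ≤ n :=
    (((le_max_right _ _).trans (le_max_left _ _)).trans (le_max_right _ _)).trans hn
  have hn0 : 1 ≤ n := ((le_max_right _ _).trans (le_max_right _ _)).trans hn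
  have hnpos : (0 : ℝ) < n := by exact_mod_cast hn0
  have he4 : e1 / M ≤ e1 := div_le_self he1p.le hM1
  have hall := Whp.and (by positivity) (by positivity)
    (Whp.and he1p.le he1p.le (g1 n hn1 hne) (g2 n hn2 hne))
    (Whp.and he1p.le (by positivity) (g3 n hn3 hne) (g4 n hn4 hne))
  refine Whp.mono hall (by rw [he1] at *; linarith) fun G hG ω hω => ?_
  obtain ⟨⟨b1, b2⟩, b3, b4⟩ := hω
  have hH := Hm_symm G s ω
  have hp1 : ∀ v, 0 ≤ (Res (Hm G s ω) (zz E K n) v v).im := fun v =>
    (im_diag_pos hH (by rw [zz_im]; positivity) v).le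
  have hp2 : ∀ v, 0 ≤ (Res (Hm G s ω) (ze E η) v v).im := fun v =>
    (im_diag_pos hH (by rw [ze_im]; exact hηp) v).le
  have h5 := abs_mn_im_sub_le hd hG hp1 hp2 hM1
  have b1' : tail M (fun v => (Res (Hm G s ω) (zz E K n) v v).im) ≤ e1 :=
    (tail_mono ((le_max_left _ _).trans (le_max_right _ _)) hp1).trans b1
  have b2' : tail M (fun v => (Res (Hm G s ω) (ze E η) v v).im) ≤ e1 :=
    (tail_mono ((le_max_right _ _).trans (le_max_right _ _)) hp2).trans b2
  have b4' : M * eAvg G (fun u w => min 1 (bnorm (Blk (Res (Hm G s ω) (zz E K n)) u w -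
        Blk (Res (Hm G s ω) (ze E η)) u w))) ≤ e1 := by
    calc _ ≤ M * (e1 / M) := mul_le_mul_of_nonneg_left b4 hM0.le
      _ = e1 := mul_div_cancel₀ _ hM0.ne'
  have h6 : |(mn (Hm G s ω) (zz E K n)).im - Real.pi * ρ| ≤
      |(mn (Hm G s ω) (zz E K n)).im - (mn (Hm G s ω) (ze E η)).im| +
        |(mn (Hm G s ω) (ze E η)).im - Real.pi * ρ| := abs_sub_le _ _ _
  have : e1 = ε / 8 := he1
  linarith

end Crest.Agent.R166.ImLimS424
end

-- ▼ part R166/NoEscS_583
section

/-!
Row 166 (helper583), section 32.E2: Wegner estimate and no mass escape for `s > 0`.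

* `res_update`, `yv_update`: dependence of `R_vv` on `ω_v`
* `wegner`: `E[Im R_vv 1{y_v < κ}] ≤ (π / 2s) P(y_v < κ)`, `y_v = Im(-1/R_vv)`
* `yv_mono`: `y_v(E + iη) / η` is nonincreasing in `η`
* `noEsc_of_lowTail`
-/

set_option autoImplicit false

open MeasureTheory ProbabilityTheory Matrix
open Crest.ProbabilityR.RandomMatrix

namespace Crest.Agent.R166.NoEsc583

open Res789 (cx imM)

section det

variable {V : Type*} [Fintype V] [DecidableEq V]

/-- `y_v = Im (-1 / R_vv)` -/
noncomputable def yv (H : Matrix V V ℝ) (z : ℂ) (v : V) : ℝ := (-(Res789.Res H z v v)⁻¹).im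

lemma res_im_pos {H : Matrix V V ℝ} (hH : Hᵀ = H) {z : ℂ} (hz : 0 < z.im) (v : V) :
    0 < (Res789.Res H z v v).im := by
  have h := (Res789.Res_sieg hH hz).posDef
  exact h.diag_pos (i := v)

lemma res_ne_zero {H : Matrix V V ℝ} (hH : Hᵀ = H) {z : ℂ} (hz : 0 < z.im) (v : V) :
    Res789.Res H z v v ≠ 0 := by
  intro h
  have := res_im_pos hH hz v
  rw [h] at this
  simp at this

/-- the matrix unit `E_vv` -/
def Ev (v : V) : Matrix V V ℝ := Matrix.diagonal (Pi.single v 1)

lemma Ev_symm (v : V) : (Ev v)ᵀ = Ev v := Matrix.diagonal_transpose _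

lemma cx_Ev_apply (v i j : V) : cx (Ev v) i j = if i = v ∧ j = v then 1 else 0 := by
  rw [Res789.cx_apply, Ev, Matrix.diagonal_apply]
  by_cases hij : i = j
  · subst hij
    by_cases hv : i = v
    · subst hv; simp
    · simp [hv]
  · by_cases hv : i = v
    · subst hv
      have : ¬ j = i := fun h => hij h.symm
      simp [hij, this]
    · simp [hij, hv]

lemma res_rank_one {H : Matrix V V ℝ} (hH : Hᵀ = H) {z : ℂ} (hz : 0 < z.im) (v : V) (t : ℝ) :
    Res789.Res (H + t • Ev v) z v v - Res789.Res H z v v =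
      -(t : ℂ) * (Res789.Res (H + t • Ev v) z v v * Res789.Res H z v v) := by
  have hH' : (H + t • Ev v)ᵀ = H + t • Ev v := by
    rw [Matrix.transpose_add, Matrix.transpose_smul, hH, Ev_symm]
  have h := Goe583.res_sub_res hH hH' hz
  have h2 : H + t • Ev v - H = t • Ev v := by abel
  rw [h2, Res789.cx_smul, mul_smul_comm, smul_mul_assoc] at h
  have h3 := congrFun (congrFun h v) v
  rw [Matrix.sub_apply, Matrix.neg_apply, Matrix.smul_apply, smul_eq_mul] at h3
  rw [h3]
  have h4 : (Res789.Res (H + t • Ev v) z * cx (Ev v) * Res789.Res H z) v v =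
      Res789.Res (H + t • Ev v) z v v * Res789.Res H z v v := by
    rw [Matrix.mul_apply]
    simp only [Matrix.mul_apply, cx_Ev_apply]
    rw [Finset.sum_eq_single v]
    · congr 1
      rw [Finset.sum_eq_single v]
      · simp
      · intro b _ hb; simp [hb]
      · simp
    · intro b _ hb
      simp [hb]
    · simp
  rw [h4]
  ring

lemma inv_res_rank_one {H : Matrix V V ℝ} (hH : Hᵀ = H) {z : ℂ} (hz : 0 < z.im) (v : V)
    (t : ℝ) :
    (Res789.Res (H + t • Ev v) z v v)⁻¹ = (Res789.Res H z v v)⁻¹ + t := by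
  have hH' : (H + t • Ev v)ᵀ = H + t • Ev v := by
    rw [Matrix.transpose_add, Matrix.transpose_smul, hH, Ev_symm]
  have h := res_rank_one hH hz v t
  have h1 := res_ne_zero hH hz v
  have h2 := res_ne_zero hH' hz v
  field_simp
  linear_combination -h

/-- `A + s diag ω` -/
noncomputable def HA (A : Matrix V V ℝ) (s : ℝ) (ω : V → ℝ) : Matrix V V ℝ :=
  A + s • Matrix.diagonal ω

lemma HA_symm {A : Matrix V V ℝ} (hA : Aᵀ = A) (s : ℝ) (ω : V → ℝ) : (HA A s ω)ᵀ = HA A s ω := by
  unfold HA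
  rw [Matrix.transpose_add, Matrix.transpose_smul, hA, Matrix.diagonal_transpose]

lemma HA_update (A : Matrix V V ℝ) (s : ℝ) (ω : V → ℝ) (v : V) (t : ℝ) :
    HA A s (Function.update ω v t) = HA A s ω + (s * (t - ω v)) • Ev v := by
  unfold HA Ev
  have : Function.update ω v t = ω + (t - ω v) • Pi.single v (1 : ℝ) := by
    ext i
    by_cases h : i = v
    · subst h; simp
    · simp [h]
  rw [this]
  ext i j
  by_cases hij : i = j
  · subst hij
    simp
    ring
  · simp [hij]

lemma inv_res_update {A : Matrix V V ℝ} (hA : Aᵀ = A) (s : ℝ) (ω : V → ℝ) {z : ℂ} (hz : 0 < z.im)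
    (v : V) (t : ℝ) :
    (Res789.Res (HA A s (Function.update ω v t)) z v v)⁻¹ =
      (Res789.Res (HA A s ω) z v v)⁻¹ + (s * (t - ω v) : ℝ) := by
  rw [HA_update, inv_res_rank_one (HA_symm hA s ω) hz]

lemma yv_update {A : Matrix V V ℝ} (hA : Aᵀ = A) (s : ℝ) (ω : V → ℝ) {z : ℂ} (hz : 0 < z.im)
    (v : V) (t : ℝ) :
    yv (HA A s (Function.update ω v t)) z v = yv (HA A s ω) z v := by
  unfold yv
  rw [inv_res_update hA s ω hz]
  simp

lemma yv_eq {H : Matrix V V ℝ} (hH : Hᵀ = H) {z : ℂ} (hz : 0 < z.im) (v : V) :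
    yv H z v = (Res789.Res H z v v).im / ‖Res789.Res H z v v‖ ^ 2 := by
  unfold yv
  rw [Complex.neg_im, Complex.inv_im, Complex.normSq_eq_norm_sq]
  ring

lemma yv_pos {H : Matrix V V ℝ} (hH : Hᵀ = H) {z : ℂ} (hz : 0 < z.im) (v : V) : 0 < yv H z v := by
  rw [yv_eq hH hz]
  have h1 := res_im_pos hH hz v
  have h2 : 0 < ‖Res789.Res H z v v‖ := norm_pos_iff.2 (res_ne_zero hH hz v)
  positivity

/-- `Im R_vv ≤ 1 / y_v` -/
lemma im_le_inv_yv {H : Matrix V V ℝ} (hH : Hᵀ = H) {z : ℂ} (hz : 0 < z.im) (v : V) :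
    (Res789.Res H z v v).im ≤ 1 / yv H z v := by
  have h1 := res_im_pos hH hz v
  have h2 : 0 < ‖Res789.Res H z v v‖ := norm_pos_iff.2 (res_ne_zero hH hz v)
  rw [yv_eq hH hz, one_div_div, le_div_iff₀ h1, ← sq]
  have h3 := Complex.abs_im_le_norm (Res789.Res H z v v)
  rw [abs_of_pos h1] at h3
  exact pow_le_pow_left₀ h1.le h3 2

/-! ### monotonicity in `η` -/

/-- Ward identity in the form `Σ_j |R_jv|² / |R_vv|² = y_v / η` -/
lemma yv_div {H : Matrix V V ℝ} (hH : Hᵀ = H) {z : ℂ} (hz : 0 < z.im) (v : V) :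
    ∑ j, ‖Res789.Res H z j v / Res789.Res H z v v‖ ^ 2 = yv H z v / z.im := by
  have h0 := res_ne_zero hH hz v
  have hT : ∀ j, Res789.Res H z j v = Res789.Res H z v j := fun j => by
    have := congrFun (congrFun (Res789.Res_transpose hH hz) v) j
    simpa using this
  rw [yv_eq hH hz, Goe583.ward_diag hH hz]
  simp only [norm_div, div_pow, hT]
  rw [← Finset.sum_div]
  have h2 : ‖Res789.Res H z v v‖ ^ 2 ≠ 0 := by
    have : 0 < ‖Res789.Res H z v v‖ := norm_pos_iff.2 h0
    positivity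
  field_simp

/-- the vector `u_j = R_jv / R_vv` -/
noncomputable def uvec (H : Matrix V V ℝ) (z : ℂ) (v : V) (j : V) : ℂ :=
  Res789.Res H z j v / Res789.Res H z v v

lemma uvec_self {H : Matrix V V ℝ} (hH : Hᵀ = H) {z : ℂ} (hz : 0 < z.im) (v : V) :
    uvec H z v v = 1 := div_self (res_ne_zero hH hz v)

lemma uvec_eq {H : Matrix V V ℝ} (hH : Hᵀ = H) {z : ℂ} (hz : 0 < z.im) {v j : V} (hj : j ≠ v) :
    ∑ k, (H j k : ℂ) * uvec H z v k = z * uvec H z v j := by
  have h := congrFun (congrFun (Res789.sub_mul_Res hH hz) j) v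
  rw [Matrix.one_apply_ne hj, sub_mul, Matrix.sub_apply, smul_mul_assoc, one_mul,
    Matrix.smul_apply, smul_eq_mul, Matrix.mul_apply, sub_eq_zero] at h
  simp only [Res789.cx_apply] at h
  unfold uvec
  simp only [← mul_div_assoc]
  rw [← Finset.sum_div, h]

/-- a real symmetric quadratic form is real -/
lemma form_real {H : Matrix V V ℝ} (hH : Hᵀ = H) (x : V → ℂ) :
    (∑ j, star (x j) * ∑ k, (H j k : ℂ) * x k).im = 0 := by
  have h1 : star (∑ j, star (x j) * ∑ k, (H j k : ℂ) * x k) =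
      ∑ j, star (x j) * ∑ k, (H j k : ℂ) * x k := by
    simp only [star_sum, star_mul', star_star, Finset.mul_sum, Complex.star_def,
      Complex.conj_ofReal, Complex.conj_conj]
    rw [Finset.sum_comm]
    refine Finset.sum_congr rfl fun j _ => Finset.sum_congr rfl fun k _ => ?_
    have : H k j = H j k := by
      have := congrFun (congrFun hH j) k
      simpa using this
    rw [this]
    ring
  have h2 : -(∑ j, star (x j) * ∑ k, (H j k : ℂ) * x k).im =
      (∑ j, star (x j) * ∑ k, (H j k : ℂ) * x k).im := by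
    rw [← Complex.conj_im]
    exact congrArg Complex.im h1
  linarith

lemma yv_mono {H : Matrix V V ℝ} (hH : Hᵀ = H) {E η η' : ℝ} (hη : 0 < η) (hηη' : η ≤ η') (v : V) :
    yv H (ze E η') v / η' ≤ yv H (ze E η) v / η := by
  rcases hηη'.eq_or_lt with rfl | hlt
  · exact le_rfl
  have hη' : 0 < η' := hη.trans hlt
  have hz : 0 < (ze E η).im := by simpa [ze] using hη
  have hz' : 0 < (ze E η').im := by simpa [ze] using hη'
  have e1 := yv_div hH hz v
  have e2 := yv_div hH hz' v
  have i1 : (ze E η).im = η := by simp [ze]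
  have i2 : (ze E η').im = η' := by simp [ze]
  rw [i1] at e1
  rw [i2] at e2
  rw [← e1, ← e2]
  set u : V → ℂ := uvec H (ze E η) v with hu
  set u' : V → ℂ := uvec H (ze E η') v with hu'
  change ∑ j, ‖u' j‖ ^ 2 ≤ ∑ j, ‖u j‖ ^ 2
  -- δ = u' - u
  have hδv : u' v - u v = 0 := by
    rw [hu, hu', uvec_self hH hz, uvec_self hH hz', sub_self]
  have key : ∑ j, star (u' j - u j) * ∑ k, (H j k : ℂ) * (u' k - u k) =
      ∑ j, star (u' j - u j) * (ze E η * (u' j - u j) + (ze E η' - ze E η) * u' j) := by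
    refine Finset.sum_congr rfl fun j _ => ?_
    by_cases hj : j = v
    · subst hj
      rw [hδv]; simp
    · congr 1
      simp only [mul_sub, Finset.sum_sub_distrib]
      rw [uvec_eq hH hz' hj, uvec_eq hH hz hj]
      ring
  have him := form_real hH (fun j => u' j - u j)
  rw [key] at him
  have hdz : ze E η' - ze E η = Complex.I * ((η' - η : ℝ) : ℂ) := by
    unfold ze; push_cast; ring
  have h3 : ∀ j, (star (u' j - u j) * (ze E η * (u' j - u j) + (ze E η' - ze E η) * u' j)).im =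
      η * ‖u' j - u j‖ ^ 2 + (η' - η) * (star (u' j - u j) * u' j).re := by
    intro j
    have h4 : star (u' j - u j) * (ze E η * (u' j - u j) + (ze E η' - ze E η) * u' j) =
        ze E η * (star (u' j - u j) * (u' j - u j)) +
          Complex.I * ((η' - η : ℝ) : ℂ) * (star (u' j - u j) * u' j) := by
      rw [hdz]; ring
    have h5 : star (u' j - u j) * (u' j - u j) = ((‖u' j - u j‖ ^ 2 : ℝ) : ℂ) := by
      rw [mul_comm, Complex.star_def, Complex.mul_conj, Complex.normSq_eq_norm_sq]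
    rw [h4, h5, Complex.add_im, Complex.im_mul_ofReal, i1]
    congr 1
    rw [mul_assoc, Complex.I_mul_im, Complex.re_ofReal_mul]
  rw [Complex.im_sum, Finset.sum_congr rfl fun j _ => h3 j, Finset.sum_add_distrib,
    ← Finset.mul_sum, ← Finset.mul_sum] at him
  have h6 : ∑ j, (star (u' j - u j) * u' j).re ≤ 0 := by
    have hD : 0 ≤ ∑ j, ‖u' j - u j‖ ^ 2 := Finset.sum_nonneg fun _ _ => by positivity
    by_contra hcon
    push Not at hcon
    have : 0 < (η' - η) * ∑ j, (star (u' j - u j) * u' j).re := mul_pos (by linarith) hcon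
    have : 0 ≤ η * ∑ j, ‖u' j - u j‖ ^ 2 := mul_nonneg hη.le hD
    linarith
  have h7 : ∀ j, ‖u j‖ ^ 2 = ‖u' j‖ ^ 2 + ‖u' j - u j‖ ^ 2 -
      2 * (star (u' j - u j) * u' j).re := by
    intro j
    simp only [← Complex.normSq_eq_norm_sq, Complex.normSq_apply, Complex.star_def,
      Complex.mul_re, Complex.conj_re, Complex.conj_im, Complex.sub_re, Complex.sub_im]
    ring
  calc ∑ j, ‖u' j‖ ^ 2 ≤ ∑ j, (‖u' j‖ ^ 2 + ‖u' j - u j‖ ^ 2 -
        2 * (star (u' j - u j) * u' j).re) := by
        rw [Finset.sum_sub_distrib, Finset.sum_add_distrib, ← Finset.mul_sum]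
        have hD : 0 ≤ ∑ j, ‖u' j - u j‖ ^ 2 := Finset.sum_nonneg fun _ _ => by positivity
        linarith
    _ = ∑ j, ‖u j‖ ^ 2 := Finset.sum_congr rfl fun j _ => (h7 j).symm

end det

end Crest.Agent.R166.NoEsc583
end

-- ▼ part R166/NoEscS2_583
section

/-!
Row 166 (helper583), section 32.E2, second half: the Wegner estimate
`E[Im R_vv g] ≤ (π / 2s) E[g]` (`g ≥ 0` independent of `ω_v`), uniform integrability of the
diagonal of the resolvent and no mass escape for `s > 0`.

* `wegner`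
* `tail_single`, `whp_tail`
* `LowTail`, `UIS`, `uis_of_lowTail`, `noEsc_of_lowTail`
-/

set_option autoImplicit false

open MeasureTheory ProbabilityTheory Matrix
open Crest.ProbabilityR.RandomMatrix
open scoped ENNReal NNReal

namespace Crest.Agent.R166.NoEsc583

open Res789 (cx imM)

/-- the uniform law on `[-1,1]` -/
noncomputable def unif : Measure ℝ := (2⁻¹ : NNReal) • volume.restrict (Set.Icc (-1 : ℝ) 1)

instance unif_prob : IsProbabilityMeasure unif := by
  constructor
  unfold unif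
  rw [Measure.smul_apply, Measure.restrict_apply_univ, Real.volume_Icc]
  have h2 : ENNReal.ofReal (1 - -1) = 2 := by norm_num
  rw [h2, ENNReal.smul_def, smul_eq_mul, ENNReal.coe_inv (by norm_num)]
  exact ENNReal.inv_mul_cancel (by norm_num) (by norm_num)

lemma potentialLaw_eq (n : ℕ) : potentialLaw n = Measure.pi fun _ : Fin n => unif := rfl

/-- one-dimensional Wegner integral -/
lemma wegner1 {s y : ℝ} (hs : 0 < s) (hy : 0 < y) (x : ℝ) :
    ∫⁻ t, ENNReal.ofReal (y / ((s * t - x) ^ 2 + y ^ 2)) ∂unif ≤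
      ENNReal.ofReal (Real.pi / (2 * s)) := by
  have hcont : Continuous fun t : ℝ => y / ((s * t - x) ^ 2 + y ^ 2) := by
    refine continuous_const.div (by fun_prop) fun t => ?_
    positivity
  have hder : ∀ t ∈ Set.uIcc (-1:ℝ) 1,
      HasDerivAt (fun t : ℝ => Real.arctan ((s * t - x) / y) / s)
        (y / ((s * t - x) ^ 2 + y ^ 2)) t := by
    intro t _
    have h1 : HasDerivAt (fun t : ℝ => (s * t - x) / y) (s / y) t := by
      simpa using (((hasDerivAt_id t).const_mul s).sub_const x).div_const y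
    refine (h1.arctan.div_const s).congr_deriv ?_
    field_simp
    ring
  have hint := intervalIntegral.integral_eq_sub_of_hasDerivAt hder (hcont.intervalIntegrable _ _)
  have hle : ∫ t in Set.Icc (-1 : ℝ) 1, y / ((s * t - x) ^ 2 + y ^ 2) ≤ Real.pi / s := by
    rw [integral_Icc_eq_integral_Ioc, ← intervalIntegral.integral_of_le (by norm_num), hint]
    have h1 := Real.arctan_lt_pi_div_two ((s * 1 - x) / y)
    have h2 := Real.neg_pi_div_two_lt_arctan ((s * (-1) - x) / y)
    rw [← sub_div]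
    gcongr
    linarith
  unfold unif
  rw [lintegral_smul_measure, ← ofReal_integral_eq_lintegral_ofReal
    (hcont.integrableOn_Icc) (Filter.Eventually.of_forall fun t => by positivity)]
  rw [ENNReal.smul_def, smul_eq_mul]
  have h3 : ((2⁻¹ : NNReal) : ℝ≥0∞) = ENNReal.ofReal (1 / 2) := by
    rw [ENNReal.ofReal, Real.toNNReal_div (by norm_num)]
    simp
  rw [h3, ← ENNReal.ofReal_mul (by norm_num)]
  apply ENNReal.ofReal_le_ofReal
  calc 1 / 2 * ∫ t in Set.Icc (-1 : ℝ) 1, y / ((s * t - x) ^ 2 + y ^ 2)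
      ≤ 1 / 2 * (Real.pi / s) := by gcongr
    _ = Real.pi / (2 * s) := by field_simp

section wegner

variable {V : Type*} [Fintype V] [DecidableEq V]

/-- replacing one coordinate by an independent copy preserves the product law -/
lemma map_update (ν : Measure ℝ) [IsProbabilityMeasure ν] (k : V) :
    (ν.prod (Measure.pi fun _ : V => ν)).map
      (fun p : ℝ × (V → ℝ) => Function.update p.2 k p.1) = Measure.pi fun _ : V => ν := by
  symm
  apply Measure.pi_eq
  intro s hs
  have hmeas : Measurable (fun p : ℝ × (V → ℝ) => Function.update p.2 k p.1) :=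
    Stein583.measurable_update' k
  rw [Measure.map_apply hmeas (MeasurableSet.univ_pi hs)]
  have hpre : (fun p : ℝ × (V → ℝ) => Function.update p.2 k p.1) ⁻¹' (Set.univ.pi s) =
      (s k) ×ˢ (Set.univ.pi fun j => if j = k then Set.univ else s j) := by
    ext ⟨t, x⟩
    simp only [Set.mem_preimage, Set.mem_pi, Set.mem_univ, true_implies, Set.mem_prod]
    constructor
    · intro h
      refine ⟨by simpa using h k, fun j => ?_⟩
      by_cases hj : j = k
      · simp [hj]
      · simpa [hj] using h j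
    · rintro ⟨h1, h2⟩ j
      by_cases hj : j = k
      · subst hj; simpa using h1
      · have := h2 j
        simpa [hj] using this
  rw [hpre, Measure.prod_prod, Measure.pi_pi]
  rw [← Finset.mul_prod_erase Finset.univ _ (Finset.mem_univ k),
    ← Finset.mul_prod_erase Finset.univ (fun i => ν (s i)) (Finset.mem_univ k)]
  simp only [if_true, measure_univ, one_mul]
  congr 1
  refine Finset.prod_congr rfl fun j hj => ?_
  rw [if_neg (Finset.ne_of_mem_erase hj)]

/-- entries of the resolvent are measurable functions of the potentials -/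
lemma measurable_res (A : Matrix V V ℝ) (s : ℝ) (z : ℂ) (i j : V) :
    Measurable fun ω : V → ℝ => Res789.Res (HA A s ω) z i j := by
  have hM : Continuous fun ω : V → ℝ => (cx (HA A s ω) - z • (1 : Matrix V V ℂ)) := by
    refine continuous_matrix fun a b => ?_
    simp only [Matrix.sub_apply, Res789.cx_apply, HA, Matrix.add_apply, Matrix.smul_apply,
      Matrix.diagonal_apply, smul_eq_mul]
    by_cases hab : a = b
    · simp only [hab, if_true]
      fun_prop
    · simp only [hab, if_false]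
      fun_prop
  unfold Res789.Res
  simp only [Matrix.inv_def, Matrix.smul_apply, smul_eq_mul, Ring.inverse_eq_inv']
  refine Measurable.mul ?_ ?_
  · exact (hM.matrix_det.measurable).inv
  · exact ((hM.matrix_adjugate).matrix_elem i j).measurable

lemma im_res_update {A : Matrix V V ℝ} (hA : Aᵀ = A) (s : ℝ) (ω : V → ℝ) {z : ℂ} (hz : 0 < z.im)
    (v : V) (t : ℝ) :
    (Res789.Res (HA A s (Function.update ω v t)) z v v).im =
      yv (HA A s ω) z v /
        ((s * t - (s * ω v - ((Res789.Res (HA A s ω) z v v)⁻¹).re)) ^ 2 + yv (HA A s ω) z v ^ 2) := by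
  have h1 := inv_res_update hA s ω hz v t
  have h2 : Res789.Res (HA A s (Function.update ω v t)) z v v =
      ((Res789.Res (HA A s ω) z v v)⁻¹ + (s * (t - ω v) : ℝ))⁻¹ := by
    rw [← h1, inv_inv]
  rw [h2, Complex.inv_im, Complex.normSq_apply, Complex.add_im, Complex.add_re, Complex.ofReal_im,
    Complex.ofReal_re, add_zero]
  unfold yv
  rw [Complex.neg_im]
  congr 1
  ring

/-- **Wegner estimate**. -/
theorem wegner {A : Matrix V V ℝ} (hA : Aᵀ = A) {s : ℝ} (hs : 0 < s) {z : ℂ} (hz : 0 < z.im)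
    (v : V) {g : (V → ℝ) → ℝ≥0∞} (hg : Measurable g)
    (hgv : ∀ ω t, g (Function.update ω v t) = g ω) :
    ∫⁻ ω, ENNReal.ofReal (Res789.Res (HA A s ω) z v v).im * g ω ∂(Measure.pi fun _ : V => unif) ≤
      ENNReal.ofReal (Real.pi / (2 * s)) * ∫⁻ ω, g ω ∂(Measure.pi fun _ : V => unif) := by
  have hu := Stein583.measurable_update' (κ := V) v
  have hm : Measurable fun ω : V → ℝ => ENNReal.ofReal (Res789.Res (HA A s ω) z v v).im * g ω :=
    ((Complex.measurable_im.comp (measurable_res A s z v v)).ennreal_ofReal).mul hg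
  have e1 : ∫⁻ ω, ENNReal.ofReal (Res789.Res (HA A s ω) z v v).im * g ω
      ∂(Measure.pi fun _ : V => unif) =
      ∫⁻ p : ℝ × (V → ℝ), ENNReal.ofReal
        (Res789.Res (HA A s (Function.update p.2 v p.1)) z v v).im *
          g (Function.update p.2 v p.1) ∂(unif.prod (Measure.pi fun _ : V => unif)) := by
    conv_lhs => rw [← map_update unif v]
    rw [lintegral_map hm hu]
  have hAE : AEMeasurable (fun p : ℝ × (V → ℝ) => ENNReal.ofReal
        (Res789.Res (HA A s (Function.update p.2 v p.1)) z v v).im *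
          g (Function.update p.2 v p.1)) (unif.prod (Measure.pi fun _ : V => unif)) :=
    (hm.comp hu).aemeasurable
  rw [e1, lintegral_prod_symm _ hAE, ← lintegral_const_mul _ hg]
  refine lintegral_mono fun ω => ?_
  simp only [hgv]
  rw [lintegral_mul_const]
  · gcongr
    simp only [im_res_update hA s ω hz]
    exact wegner1 hs (yv_pos (HA_symm hA s ω) hz v) _
  · exact ((Complex.measurable_im.comp (measurable_res A s z v v)).comp
      (hu.comp (measurable_id.prodMk measurable_const))).ennreal_ofReal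

end wegner

/-! ### the tail average -/

section tail

variable {n : ℕ}

/-- **single graph tail bound** (Wegner + Markov).  `y v` is any function of the potentials not
depending on `ω v`. -/
theorem tail_single {A : Matrix (Fin n) (Fin n) ℝ} (hA : Aᵀ = A) {s : ℝ} (hs : 0 < s) {z : ℂ}
    (hz : 0 < z.im) {M κ ε ε' : ℝ} (hε : 0 < ε)
    {y : (Fin n → ℝ) → Fin n → ℝ} (hym : ∀ v, Measurable fun ω => y ω v)
    (hyu : ∀ ω v t, y (Function.update ω v t) v = y ω v)
    (hM : ∀ ω v, M < (Res789.Res (HA A s ω) z v v).im → y ω v < κ) :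
    potentialLaw n {ω | ¬ vAvg (fun v => if M < (Res789.Res (HA A s ω) z v v).im then
        (Res789.Res (HA A s ω) z v v).im else 0) ≤ ε} ≤
      ENNReal.ofReal (Real.pi / (2 * s * ε)) * (ENNReal.ofReal ε' +
        potentialLaw n {ω | ¬ vAvg (fun v => if y ω v < κ then 1 else 0) ≤ ε'}) := by
  classical
  rw [potentialLaw_eq]
  set P : Measure (Fin n → ℝ) := Measure.pi fun _ : Fin n => unif with hP
  set T : (Fin n → ℝ) → ℝ := fun ω => vAvg (fun v => if M < (Res789.Res (HA A s ω) z v v).im then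
        (Res789.Res (HA A s ω) z v v).im else 0) with hT
  set L : (Fin n → ℝ) → ℝ := fun ω => vAvg (fun v => if y ω v < κ then (1 : ℝ) else 0) with hL
  have hpos : ∀ ω v, 0 < (Res789.Res (HA A s ω) z v v).im := fun ω v =>
    res_im_pos (HA_symm hA s ω) hz v
  set g : Fin n → (Fin n → ℝ) → ℝ≥0∞ := fun v ω => if y ω v < κ then 1 else 0 with hg
  have hgm : ∀ v, Measurable (g v) := fun v =>
    Measurable.ite (measurableSet_lt (hym v) measurable_const) measurable_const measurable_const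
  have hgu : ∀ v ω t, g v (Function.update ω v t) = g v ω := fun v ω t => by
    simp only [hg, hyu]
  have hIm : ∀ v, Measurable fun ω : Fin n → ℝ => (Res789.Res (HA A s ω) z v v).im := fun v =>
    Complex.measurable_im.comp (measurable_res A s z v v)
  have hn : (0 : ℝ) ≤ (n : ℝ)⁻¹ := by positivity
  -- step 1
  have h1 : ∀ ω, ENNReal.ofReal (T ω) ≤
      ENNReal.ofReal (n : ℝ)⁻¹ * ∑ v, ENNReal.ofReal (Res789.Res (HA A s ω) z v v).im * g v ω := by
    intro ω
    simp only [hT, vAvg]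
    rw [div_eq_inv_mul, ENNReal.ofReal_mul hn, ENNReal.ofReal_sum_of_nonneg]
    · gcongr with v
      by_cases hv : M < (Res789.Res (HA A s ω) z v v).im
      · have := hM ω v hv
        simp [hg, hv, this]
      · simp [hv]
    · intro v _
      split_ifs
      · exact (hpos ω v).le
      · exact le_rfl
  have h2 : ∫⁻ ω, ENNReal.ofReal (T ω) ∂P ≤
      ENNReal.ofReal (Real.pi / (2 * s)) * ∫⁻ ω, ENNReal.ofReal (L ω) ∂P := by
    calc ∫⁻ ω, ENNReal.ofReal (T ω) ∂P ≤ ∫⁻ ω, ENNReal.ofReal (n : ℝ)⁻¹ *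
          ∑ v, ENNReal.ofReal (Res789.Res (HA A s ω) z v v).im * g v ω ∂P := lintegral_mono h1
      _ = ENNReal.ofReal (n : ℝ)⁻¹ * ∑ v, ∫⁻ ω,
            ENNReal.ofReal (Res789.Res (HA A s ω) z v v).im * g v ω ∂P := by
          rw [lintegral_const_mul, lintegral_finsetSum]
          · exact fun v _ => (hIm v).ennreal_ofReal.mul (hgm v)
          · exact Finset.measurable_sum _ fun v _ => (hIm v).ennreal_ofReal.mul (hgm v)
      _ ≤ ENNReal.ofReal (n : ℝ)⁻¹ * ∑ v, (ENNReal.ofReal (Real.pi / (2 * s)) *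
            ∫⁻ ω, g v ω ∂P) := by
          gcongr with v
          exact wegner hA hs hz v (hgm v) (hgu v)
      _ = ENNReal.ofReal (Real.pi / (2 * s)) * ∫⁻ ω, ENNReal.ofReal (L ω) ∂P := by
          have h3 : ∀ ω, ENNReal.ofReal (L ω) = ENNReal.ofReal (n : ℝ)⁻¹ * ∑ v, g v ω := by
            intro ω
            simp only [hL, vAvg]
            rw [div_eq_inv_mul, ENNReal.ofReal_mul hn, ENNReal.ofReal_sum_of_nonneg]
            · congr 1
              refine Finset.sum_congr rfl fun v _ => ?_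
              simp only [hg]
              split_ifs <;> simp
            · intro v _
              split_ifs <;> norm_num
          simp only [h3]
          rw [lintegral_const_mul _ (Finset.measurable_sum _ fun v _ => hgm v),
            lintegral_finsetSum _ fun v _ => hgm v, ← Finset.mul_sum]
          ring
  have hL1 : ∀ ω, L ω ≤ 1 := by
    intro ω
    simp only [hL, vAvg]
    refine div_le_one_of_le₀ ?_ (Nat.cast_nonneg _)
    calc ∑ v, (if y ω v < κ then (1 : ℝ) else 0) ≤ ∑ v : Fin n, (1 : ℝ) :=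
          Finset.sum_le_sum fun v _ => by split_ifs <;> norm_num
      _ = n := by simp
  have hLm : Measurable L := by
    simp only [hL, vAvg]
    refine Measurable.div_const ?_ _
    exact Finset.measurable_sum _ fun v _ =>
      Measurable.ite (measurableSet_lt (hym v) measurable_const) measurable_const measurable_const
  have h4 : ∫⁻ ω, ENNReal.ofReal (L ω) ∂P ≤ ENNReal.ofReal ε' + P {ω | ¬ L ω ≤ ε'} := by
    have hms : MeasurableSet {ω | ¬ L ω ≤ ε'} := (measurableSet_le hLm measurable_const).compl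
    calc ∫⁻ ω, ENNReal.ofReal (L ω) ∂P ≤
        ∫⁻ ω, ENNReal.ofReal ε' + Set.indicator {ω | ¬ L ω ≤ ε'} 1 ω ∂P := by
          refine lintegral_mono fun ω => ?_
          by_cases h : L ω ≤ ε'
          · exact (ENNReal.ofReal_le_ofReal h).trans le_self_add
          · have : ω ∈ {ω | ¬ L ω ≤ ε'} := h
            rw [Set.indicator_of_mem this]
            refine le_trans ?_ le_add_self
            simpa using ENNReal.ofReal_le_ofReal (hL1 ω)
      _ = ENNReal.ofReal ε' + P {ω | ¬ L ω ≤ ε'} := by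
          rw [lintegral_add_left measurable_const, lintegral_const, measure_univ, mul_one,
            lintegral_indicator_one hms]
  have hTm : Measurable T := by
    simp only [hT, vAvg]
    refine Measurable.div_const ?_ _
    exact Finset.measurable_sum _ fun v _ =>
      Measurable.ite (measurableSet_lt measurable_const (hIm v)) (hIm v) measurable_const
  have h5 : P {ω | ¬ T ω ≤ ε} ≤ (∫⁻ ω, ENNReal.ofReal (T ω) ∂P) / ENNReal.ofReal ε := by
    refine le_trans (measure_mono ?_) (meas_ge_le_lintegral_div hTm.ennreal_ofReal.aemeasurable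
      (by simpa using hε) ENNReal.ofReal_ne_top)
    intro ω hω
    exact ENNReal.ofReal_le_ofReal (not_le.1 hω).le
  calc P {ω | ¬ T ω ≤ ε} ≤ (∫⁻ ω, ENNReal.ofReal (T ω) ∂P) / ENNReal.ofReal ε := h5
    _ ≤ (ENNReal.ofReal (Real.pi / (2 * s)) * (ENNReal.ofReal ε' + P {ω | ¬ L ω ≤ ε'})) /
        ENNReal.ofReal ε := by
        gcongr
        exact h2.trans (by gcongr)
    _ = ENNReal.ofReal (Real.pi / (2 * s * ε)) * (ENNReal.ofReal ε' + P {ω | ¬ L ω ≤ ε'}) := by
        have h6 : ENNReal.ofReal (Real.pi / (2 * s * ε)) =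
            ENNReal.ofReal (Real.pi / (2 * s)) / ENNReal.ofReal ε := by
          rw [← ENNReal.ofReal_div_of_pos hε, div_div]
        rw [h6, ENNReal.div_eq_inv_mul, ENNReal.div_eq_inv_mul, mul_assoc]

end tail

/-! ### the statements for random regular graphs -/

/-- adjacency matrix -/
noncomputable def adjM {n : ℕ} (G : SimpleGraph (Fin n)) : Matrix (Fin n) (Fin n) ℝ := by
  classical exact G.adjMatrix ℝ

lemma Hm_eq {n : ℕ} (G : SimpleGraph (Fin n)) (s : ℝ) (ω : Fin n → ℝ) :
    Hm G s ω = HA (adjM G) s ω := rfl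

lemma adjM_symm {n : ℕ} (G : SimpleGraph (Fin n)) : (adjM G)ᵀ = adjM G := by
  classical
  unfold adjM
  exact SimpleGraph.transpose_adjMatrix G

lemma measurable_yv {n : ℕ} (A : Matrix (Fin n) (Fin n) ℝ) (s : ℝ) (z : ℂ) (v : Fin n) :
    Measurable fun ω : Fin n → ℝ => yv (HA A s ω) z v :=
  Complex.measurable_im.comp ((measurable_res A s z v v).inv.neg)

theorem whp_tail {n d : ℕ} {s : ℝ} (hs : 0 < s) {z z' : ℂ} (hz : 0 < z.im) (hz' : 0 < z'.im)
    {M κ ε ε' : ℝ} (hε : 0 < ε) (hε' : 0 ≤ ε') (hεε' : Real.pi * ε' ≤ s * ε ^ 2)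
    (hM : ∀ (G : SimpleGraph (Fin n)) (ω : Fin n → ℝ) (v : Fin n),
      M < (Res789.Res (Hm G s ω) z v v).im → yv (Hm G s ω) z' v < κ)
    (hlow : Whp n d ε' fun G ω => vAvg (fun v => if yv (Hm G s ω) z' v < κ then 1 else 0) ≤ ε') :
    Whp n d ε fun G ω => vAvg (fun v => if M < (Res789.Res (Hm G s ω) z v v).im then
      (Res789.Res (Hm G s ω) z v v).im else 0) ≤ ε := by
  classical
  rw [Whp_iff] at hlow ⊢
  set C : ℝ≥0∞ := ENNReal.ofReal (Real.pi / (2 * s * ε)) with hC
  set c : ℝ≥0∞ := ((Ports n d).card : ℝ≥0∞) with hc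
  have h1 : ∀ p ∈ Ports n d, potentialLaw n {ω | ¬ vAvg (fun v =>
      if M < (Res789.Res (Hm (graphOf p) s ω) z v v).im then
      (Res789.Res (Hm (graphOf p) s ω) z v v).im else 0) ≤ ε} ≤
      C * (ENNReal.ofReal ε' + potentialLaw n {ω | ¬ vAvg (fun v =>
        if yv (Hm (graphOf p) s ω) z' v < κ then 1 else 0) ≤ ε'}) := by
    intro p _
    simp only [Hm_eq]
    exact tail_single (adjM_symm _) hs hz hε (fun v => measurable_yv _ s z' v)
      (fun ω v t => yv_update (adjM_symm _) s ω hz' v t) (fun ω v => hM (graphOf p) ω v)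
  calc c⁻¹ * ∑ p ∈ Ports n d, potentialLaw n {ω | ¬ vAvg (fun v =>
      if M < (Res789.Res (Hm (graphOf p) s ω) z v v).im then
      (Res789.Res (Hm (graphOf p) s ω) z v v).im else 0) ≤ ε}
      ≤ c⁻¹ * ∑ p ∈ Ports n d, C * (ENNReal.ofReal ε' + potentialLaw n {ω | ¬ vAvg (fun v =>
        if yv (Hm (graphOf p) s ω) z' v < κ then 1 else 0) ≤ ε'}) := by
        gcongr with p hp
        exact h1 p hp
    _ = C * (c⁻¹ * c * ENNReal.ofReal ε' + c⁻¹ * ∑ p ∈ Ports n d, potentialLaw n {ω | ¬ vAvg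
        (fun v => if yv (Hm (graphOf p) s ω) z' v < κ then 1 else 0) ≤ ε'}) := by
        rw [← Finset.mul_sum, Finset.sum_add_distrib, Finset.sum_const, nsmul_eq_mul]
        ring
    _ ≤ C * (1 * ENNReal.ofReal ε' + ENNReal.ofReal ε') := by
        gcongr
        exact ENNReal.inv_mul_le_one _
    _ = ENNReal.ofReal (Real.pi / (2 * s * ε) * (ε' + ε')) := by
        rw [one_mul, ← ENNReal.ofReal_add hε' hε', hC, ← ENNReal.ofReal_mul (by positivity)]
    _ ≤ ENNReal.ofReal ε := by
        apply ENNReal.ofReal_le_ofReal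
        rw [div_mul_eq_mul_div, div_le_iff₀ (by positivity)]
        nlinarith

/-- the low tail of `y_v = Im(-1/R_vv)`, uniformly in `η ∈ [K1/n, η1]` -/
def LowTail (d : ℕ) (s E : ℝ) : Prop :=
  ∀ ε : ℝ, 0 < ε → ∃ κ : ℝ, 0 < κ ∧ ∃ K1 : ℝ, 0 < K1 ∧ ∃ η1 : ℝ, 0 < η1 ∧
    ∃ N : ℕ, ∀ n : ℕ, N ≤ n → (regularGraphs n d).Nonempty →
    ∀ η : ℝ, K1 / n ≤ η → η ≤ η1 →
    Whp n d ε fun G ω => vAvg (fun v =>
      if (-(Res (Hm G s ω) (ze E η) v v)⁻¹).im < κ then 1 else 0) ≤ ε

/-- uniform integrability of `Im R_vv`, uniformly in `η ∈ [K1/n, η1]` -/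
def UIS (d : ℕ) (s E : ℝ) : Prop :=
  ∀ ε : ℝ, 0 < ε → ∃ M : ℝ, 0 < M ∧ ∃ K1 : ℝ, 0 < K1 ∧ ∃ η1 : ℝ, 0 < η1 ∧
    ∃ N : ℕ, ∀ n : ℕ, N ≤ n → (regularGraphs n d).Nonempty →
    ∀ η : ℝ, K1 / n ≤ η → η ≤ η1 →
    Whp n d ε fun G ω => vAvg (fun v => if M < (Res (Hm G s ω) (ze E η) v v).im then
      (Res (Hm G s ω) (ze E η) v v).im else 0) ≤ ε

theorem uis_of_lowTail {d : ℕ} {s E : ℝ} (hs : 0 < s) (h : LowTail d s E) : UIS d s E := by
  intro ε hε
  set ε' : ℝ := s * ε ^ 2 / Real.pi with hε'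
  have hε'0 : 0 < ε' := by have := Real.pi_pos; positivity
  obtain ⟨κ, hκ, K1, hK1, η1, hη1, N, hN⟩ := h ε' hε'0
  refine ⟨1 / κ, by positivity, K1, hK1, η1, hη1, max N 1, fun n hn hne η hη hη' => ?_⟩
  have hn1 : (0 : ℝ) < n := by
    have : 1 ≤ n := (le_max_right _ _).trans hn
    exact_mod_cast this
  have hη0 : 0 < η := lt_of_lt_of_le (by positivity) hη
  have hz : 0 < (ze E η).im := by simpa [ze] using hη0
  refine whp_tail (κ := κ) (ε' := ε') hs hz hz hε hε'0.le ?_ ?_
    (hN n ((le_max_left _ _).trans hn) hne η hη hη')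
  · rw [hε', mul_div_cancel₀ _ Real.pi_ne_zero]
  · intro G ω v hv
    have h1 := im_le_inv_yv (Stab269.Hm_symm G s ω) hz v
    have h2 := yv_pos (Stab269.Hm_symm G s ω) hz v
    have h3 := lt_of_lt_of_le hv h1
    exact (one_div_lt_one_div hκ h2).1 h3

/-- **no mass escape for `s > 0`** -/
theorem noEsc_of_lowTail {d : ℕ} {s E : ℝ} (hs : 0 < s) (h : LowTail d s E) : NoEsc d s E := by
  intro K hK ε hε
  set ε' : ℝ := s * ε ^ 2 / Real.pi with hε'
  have hε'0 : 0 < ε' := by have := Real.pi_pos; positivity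
  obtain ⟨κ, hκ, K1, hK1, η1, hη1, N, hN⟩ := h ε' hε'0
  set K' : ℝ := max K K1 with hK'
  have hKK' : K ≤ K' := le_max_left _ _
  have hK'0 : 0 < K' := hK.trans_le hKK'
  obtain ⟨N1, hN1⟩ := exists_nat_gt (K' / η1)
  refine ⟨K' / (K * κ), max N (max N1 1), fun n hn hne => ?_⟩
  have hn1 : (0 : ℝ) < n := by
    have : 1 ≤ n := (le_max_right _ _).trans ((le_max_right _ _).trans hn)
    exact_mod_cast this
  have hnN1 : (N1 : ℝ) ≤ n := by
    have : N1 ≤ n := (le_max_left _ _).trans ((le_max_right _ _).trans hn)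
    exact_mod_cast this
  have hz : 0 < (ze E (K / n)).im := by
    have : 0 < K / n := by positivity
    simpa [ze] using this
  have hz' : 0 < (ze E (K' / n)).im := by
    have : 0 < K' / n := by positivity
    simpa [ze] using this
  refine whp_tail (z := ze E (K / n)) (z' := ze E (K' / n)) (κ := κ) (ε' := ε') hs hz hz' hε
    hε'0.le ?_ ?_ (hN n ((le_max_left _ _).trans hn) hne (K' / n) ?_ ?_)
  · rw [hε', mul_div_cancel₀ _ Real.pi_ne_zero]
  · intro G ω v hv
    have h1 := im_le_inv_yv (Stab269.Hm_symm G s ω) hz v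
    have h2 := yv_pos (Stab269.Hm_symm G s ω) hz v
    have h2' := yv_pos (Stab269.Hm_symm G s ω) hz' v
    have h3 := lt_of_lt_of_le hv h1
    have h4 := yv_mono (Stab269.Hm_symm G s ω) (E := E) (η := K / n) (η' := K' / n) (by positivity)
      (by gcongr) v
    have h5 : yv (Hm G s ω) (ze E (K / n)) v < K * κ / K' := by
      rw [lt_div_iff₀ h2, div_mul_eq_mul_div, div_lt_one (by positivity)] at h3
      rw [lt_div_iff₀ hK'0]
      linarith
    rw [div_div_eq_mul_div, div_div_eq_mul_div, div_le_div_iff₀ hK'0 hK] at h4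
    rw [lt_div_iff₀ hK'0] at h5
    have h6 : yv (Hm G s ω) (ze E (K' / n)) v * K ≤ yv (Hm G s ω) (ze E (K / n)) v * K' := by
      have : (yv (Hm G s ω) (ze E (K' / n)) v * K) * n ≤
          (yv (Hm G s ω) (ze E (K / n)) v * K') * n := by linarith
      exact le_of_mul_le_mul_right this hn1
    have h7 : yv (Hm G s ω) (ze E (K' / n)) v * K < κ * K := by linarith
    exact lt_of_mul_lt_mul_right h7 hK.le
  · gcongr
    exact le_max_right _ _
  · rw [div_le_iff₀ hn1]
    rw [div_lt_iff₀ hη1] at hN1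
    nlinarith

end Crest.Agent.R166.NoEsc583
end

-- ▼ part R166/ImLimS2_424
section

/-!
# R166 / ImLimS2_424 (helper424)

Task E3 of 32G, final form: `ImFix → LocLim → UIS → ImLim` (`UIS` of `NoEscS2_583`), and from
`LowTail` for `s > 0`.
-/

set_option autoImplicit false

open Matrix MeasureTheory

namespace Crest.Agent.R166.ImLimS424

open Crest.Agent.R166 Crest.ProbabilityR.RandomMatrix Crest.Agent.R166.NoEsc583


theorem uiscale_of_UIS {d : ℕ} {s E : ℝ} (h : UIS d s E) : UIscale d s E := by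
  intro ε hε
  obtain ⟨M, hM, K1, hK1, η1, hη1, N, hN⟩ := h ε hε
  refine ⟨M, K1, hK1, fun K hK => ⟨max N (max 1 ⌈K / η1⌉₊), fun n hn hne => ?_⟩⟩
  have hn1 : N ≤ n := (le_max_left _ _).trans hn
  have hn2 : 1 ≤ n := ((le_max_left _ _).trans (le_max_right _ _)).trans hn
  have hn3 : ⌈K / η1⌉₊ ≤ n := ((le_max_right _ _).trans (le_max_right _ _)).trans hn
  have hnp : (0 : ℝ) < n := by exact_mod_cast hn2
  have h1 : K1 / n ≤ K / n := div_le_div_of_nonneg_right hK hnp.le
  have h2 : K / n ≤ η1 := by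
    rw [div_le_iff₀ hnp, mul_comm, ← div_le_iff₀ hη1]
    exact (Nat.le_ceil _).trans (by exact_mod_cast hn3)
  exact hN n hn1 hne (K / n) h1 h2

theorem uifix_of_UIS {d : ℕ} {s E : ℝ} (h : UIS d s E) : UIfix d s E := by
  intro ε hε
  obtain ⟨M, hM, K1, hK1, η1, hη1, N, hN⟩ := h ε hε
  refine ⟨M, η1, hη1, fun η hη hη' => ⟨max N (max 1 ⌈K1 / η⌉₊), fun n hn hne => ?_⟩⟩
  have hn1 : N ≤ n := (le_max_left _ _).trans hn
  have hn2 : 1 ≤ n := ((le_max_left _ _).trans (le_max_right _ _)).trans hn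
  have hn3 : ⌈K1 / η⌉₊ ≤ n := ((le_max_right _ _).trans (le_max_right _ _)).trans hn
  have hnp : (0 : ℝ) < n := by exact_mod_cast hn2
  have h1 : K1 / n ≤ η := by
    rw [div_le_iff₀ hnp, mul_comm, ← div_le_iff₀ hη]
    exact (Nat.le_ceil _).trans (by exact_mod_cast hn3)
  exact hN n hn1 hne η h1 hη'

/-- **E3**: `ImLim` from `ImFix`, `LocLim` and uniform integrability -/
theorem imLim_of_UIS {d : ℕ} (hd : 0 < d) {s E ρ : ℝ} (hfix : ImFix d s E ρ)
    (hloc : LocLim d s E) (h : UIS d s E) : ImLim d s E ρ :=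
  imLim_of hd hfix hloc (uiscale_of_UIS h) (uifix_of_UIS h)


end Crest.Agent.R166.ImLimS424
end

-- ▼ part R166/F1Out_583
section

/-!
Row 166 (helper583), section 32: from the quenched statement `F1` ("most edge blocks are
`κ`-fine", helper522) to `LowTail`, `NonDeg`, `NoEsc`, `UIS`.

* `whp_of_quenched`: quenched (every fixed `ω` in the cube) ⟹ `Whp`.
-/

set_option autoImplicit false

open MeasureTheory ProbabilityTheory Matrix
open Crest.ProbabilityR.RandomMatrix
open scoped ENNReal NNReal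

namespace Crest.Agent.R166.F1Out583

open NoEsc583

/-- **transfer**: a bound on the number of bad port numberings for every fixed `ω` in the cube gives
`Whp`. -/
theorem whp_of_quenched {n d : ℕ} {ε : ℝ} {Q : SimpleGraph (Fin n) → (Fin n → ℝ) → Prop}
    (hm : ∀ G, MeasurableSet {ω | Q G ω})
    (hq : ∀ ω : Fin n → ℝ, (∀ v, |ω v| ≤ 1) → (open Classical in
      (((Ports n d).filter fun p => ¬ Q (graphOf p) ω).card : ℝ)) ≤ ε * (Ports n d).card) :
    Whp n d ε Q := by
  classical
  rw [Whp_iff]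
  set c : ℝ≥0∞ := ((Ports n d).card : ℝ≥0∞) with hc
  have h1 : ∑ p ∈ Ports n d, (potentialLaw n) {ω | ¬ Q (graphOf p) ω} =
      ∫⁻ ω, ((((Ports n d).filter fun p => ¬ Q (graphOf p) ω).card : ℕ) : ℝ≥0∞)
        ∂(potentialLaw n) := by
    have h2 : ∀ ω, ((((Ports n d).filter fun p => ¬ Q (graphOf p) ω).card : ℕ) : ℝ≥0∞) =
        ∑ p ∈ Ports n d, Set.indicator {ω | ¬ Q (graphOf p) ω} 1 ω := by
      intro ω
      rw [Finset.card_filter]
      push_cast
      refine Finset.sum_congr rfl fun p _ => ?_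
      by_cases h : Q (graphOf p) ω
      · simp [h]
      · simp [h]
    simp only [h2]
    rw [lintegral_finsetSum]
    · refine Finset.sum_congr rfl fun p _ => ?_
      rw [lintegral_indicator_one]
      exact (hm (graphOf p)).compl
    · intro p _
      exact measurable_one.indicator (hm (graphOf p)).compl
  rw [h1]
  have h3 : ∫⁻ ω, ((((Ports n d).filter fun p => ¬ Q (graphOf p) ω).card : ℕ) : ℝ≥0∞)
        ∂(potentialLaw n) ≤ ENNReal.ofReal ε * c := by
    calc ∫⁻ ω, ((((Ports n d).filter fun p => ¬ Q (graphOf p) ω).card : ℕ) : ℝ≥0∞)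
        ∂(potentialLaw n) ≤ ∫⁻ _, ENNReal.ofReal ε * c ∂(potentialLaw n) := by
          refine lintegral_mono_ae ?_
          filter_upwards [Env536.potentialLaw_ae n] with ω hω
          have h4 := hq ω hω
          have h5 : ENNReal.ofReal (((Ports n d).filter fun p => ¬ Q (graphOf p) ω).card : ℝ) ≤
              ENNReal.ofReal (ε * (Ports n d).card) := ENNReal.ofReal_le_ofReal (by
                convert h4 using 3)
          rw [ENNReal.ofReal_natCast, ENNReal.ofReal_mul' (Nat.cast_nonneg _),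
            ENNReal.ofReal_natCast] at h5
          exact h5
      _ = ENNReal.ofReal ε * c := by
          rw [lintegral_const, measure_univ, mul_one]
  calc c⁻¹ * ∫⁻ ω, ((((Ports n d).filter fun p => ¬ Q (graphOf p) ω).card : ℕ) : ℝ≥0∞)
        ∂(potentialLaw n) ≤ c⁻¹ * (ENNReal.ofReal ε * c) := by gcongr
    _ = ENNReal.ofReal ε * (c⁻¹ * c) := by ring
    _ ≤ ENNReal.ofReal ε * 1 := by
        gcongr
        exact ENNReal.inv_mul_le_one _
    _ = ENNReal.ofReal ε := mul_one _

/-- `Whp` is monotone in the event and in `ε` -/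
theorem Whp_mono {n d : ℕ} {ε ε' : ℝ} {Q Q' : SimpleGraph (Fin n) → (Fin n → ℝ) → Prop}
    (h : Whp n d ε Q) (hε : ε ≤ ε') (hQ : ∀ p ∈ Ports n d, ∀ ω, Q (graphOf p) ω → Q' (graphOf p) ω) :
    Whp n d ε' Q' := by
  rw [Whp_iff] at h ⊢
  refine le_trans ?_ (h.trans (ENNReal.ofReal_le_ofReal hε))
  gcongr with p hp ω
  exact hQ p hp _

open Classical in
/-- (F1), helper522: most edge blocks are fine, for every fixed `ω` in the cube, on average over the
port numberings, uniformly in `η ∈ [K0/n, 1]`. -/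
def F1 (d : ℕ) : Prop :=
  ∀ A : ℝ, 0 < A → A ^ 2 < 4 * ((d : ℝ) - 1) → ∃ s1 : ℝ, 0 < s1 ∧
    ∀ ε : ℝ, 0 < ε → ∃ κ : ℝ, 0 < κ ∧ ∃ K0 : ℝ, 0 < K0 ∧ ∃ N : ℕ, ∀ n : ℕ, N ≤ n →
      ∀ E s η : ℝ, |E| ≤ A → |s| ≤ s1 → K0 / n ≤ η → η ≤ 1 →
      ∀ ω : Fin n → ℝ, (∀ v, |ω v| ≤ 1) →
        (∑ p ∈ Ports n d, ((Finset.univ.filter fun h : HE n d =>
          ¬ Off522.Fine κ (Stab269.BE p s ω (ze E η) h)).card : ℝ)) ≤
          ε * (n * d) * (Ports n d).card

/-! ### Fine blocks -/

/-- a measurable substitute of `Fine` -/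
def MFine (κ : ℝ) (B : Matrix (Fin 2) (Fin 2) ℂ) : Prop :=
  κ ^ 2 ≤ (B 0 0).im * (B 1 1).im - (B 0 1).im ^ 2 ∧ (B 0 0).im + (B 1 1).im ≤ 2 * κ⁻¹ ∧
    0 < (B 0 0).im

lemma qf_eval {c : ℝ} {B : Matrix (Fin 2) (Fin 2) ℂ} (h : Off522.Fine c B) (x y : ℝ) :
    c * (x ^ 2 + y ^ 2) ≤ (B 0 0).im * x ^ 2 + 2 * (B 0 1).im * x * y + (B 1 1).im * y ^ 2 := by
  have h1 := h.im ![(x : ℂ), (y : ℂ)]
  have hs : B 1 0 = B 0 1 := by
    have := congrFun (congrFun h.symm 0) 1
    simpa using this
  have e : Res598.qf (Res598.imM B) ![(x : ℂ), (y : ℂ)] =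
      (B 0 0).im * x ^ 2 + 2 * (B 0 1).im * x * y + (B 1 1).im * y ^ 2 := by
    unfold Res598.qf
    simp only [dotProduct, Fin.sum_univ_two, mulVec]
    simp [Res598.imM, Res598.vre, Res598.vim, hs]
    ring
  rw [e] at h1
  simpa using h1

lemma Fine.mfine {κ : ℝ} {B : Matrix (Fin 2) (Fin 2) ℂ} (h : Off522.Fine κ B) : MFine κ B := by
  have hκ := h.pos
  have h0 := qf_eval h 1 0
  have h1 := qf_eval h 0 1
  simp only [one_pow, mul_one, ne_eq, OfNat.ofNat_ne_zero, not_false_eq_true, zero_pow, add_zero,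
    mul_zero, zero_add] at h0 h1
  refine ⟨?_, ?_, lt_of_lt_of_le hκ h0⟩
  · -- determinant
    set a := (B 0 0).im
    set b := (B 0 1).im
    set c := (B 1 1).im
    have h2 := qf_eval h (-b) a
    -- κ (b² + a²) ≤ a b² - 2 b² a + c a² = a (a c - b²)
    have ha : 0 < a := lt_of_lt_of_le hκ h0
    have h3 : κ * (b ^ 2 + a ^ 2) ≤ a * (a * c - b ^ 2) := by
      have : κ * ((-b) ^ 2 + a ^ 2) ≤ a * (-b) ^ 2 + 2 * b * (-b) * a + c * a ^ 2 := h2
      nlinarith
    have h4 : κ * a ≤ a * c - b ^ 2 := by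
      have h5 : κ * a ^ 2 ≤ a * (a * c - b ^ 2) := by nlinarith [sq_nonneg b]
      have h6 : a * (κ * a) ≤ a * (a * c - b ^ 2) := by nlinarith
      exact le_of_mul_le_mul_left h6 ha
    nlinarith
  · have h2 := (Complex.abs_im_le_norm _).trans (h.le 0 0)
    have h3 := (Complex.abs_im_le_norm _).trans (h.le 1 1)
    have h4 := (le_abs_self _).trans h2
    have h5 := (le_abs_self _).trans h3
    linarith

lemma MFine.form {κ : ℝ} (hκ : 0 < κ) {B : Matrix (Fin 2) (Fin 2) ℂ} (h : MFine κ B) (x y : ℝ) :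
    κ ^ 3 / 2 * (x ^ 2 + y ^ 2) ≤
      (B 0 0).im * x ^ 2 + 2 * (B 0 1).im * x * y + (B 1 1).im * y ^ 2 := by
  obtain ⟨h1, h2, h3⟩ := h
  set a := (B 0 0).im
  set b := (B 0 1).im
  set c := (B 1 1).im
  set δ := κ ^ 3 / 2 with hδ
  have hδ0 : 0 < δ := by positivity
  have hc : 0 < c := by
    have : 0 < a * c := by nlinarith [sq_nonneg b, pow_pos hκ 2]
    exact (mul_pos_iff_of_pos_left h3).1 this
  have h4 : δ * (a + c) ≤ κ ^ 2 := by
    calc δ * (a + c) ≤ δ * (2 * κ⁻¹) := by gcongr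
      _ = κ ^ 2 := by rw [hδ]; field_simp
  have h5 : b ^ 2 + δ ^ 2 ≤ (a - δ) * (c - δ) := by nlinarith
  have h6 : 0 < a - δ := by
    have h7 : 0 < (a - δ) * (c - δ) := by nlinarith [sq_nonneg b, pow_pos hδ0 2]
    by_contra hcon
    push Not at hcon
    have h8 : c - δ < 0 := by
      by_contra h9
      push Not at h9
      have := mul_nonpos_of_nonpos_of_nonneg hcon h9
      linarith
    have : a + c < 2 * δ := by linarith
    have h10 : δ * (a + c) < 2 * δ ^ 2 := by nlinarith
    have : a * c ≤ δ ^ 2 := by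
      have : a ≤ δ := by linarith
      have : c ≤ δ := by linarith
      nlinarith
    have h11 : κ ^ 2 ≤ δ ^ 2 := by nlinarith [sq_nonneg b]
    nlinarith
  have h12 : 0 ≤ (a - δ) * ((a - δ) * x ^ 2 + 2 * b * x * y + (c - δ) * y ^ 2) := by
    have : (a - δ) * ((a - δ) * x ^ 2 + 2 * b * x * y + (c - δ) * y ^ 2) =
        ((a - δ) * x + b * y) ^ 2 + ((a - δ) * (c - δ) - b ^ 2) * y ^ 2 := by ring
    rw [this]
    have : 0 ≤ (a - δ) * (c - δ) - b ^ 2 := by nlinarith [sq_nonneg δ]
    positivity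
  have h13 := nonneg_of_mul_nonneg_right h12 h6
  nlinarith

/-! ### consequences of (F1) -/

lemma yv_ge {n : ℕ} {H : Matrix (Fin n) (Fin n) ℝ} (hH : Hᵀ = H) {z : ℂ} (hz : 0 < z.im)
    {κ : ℝ} {u w : Fin n} (h : Off522.Fine κ (Blk (Res H z) u w)) : κ ^ 3 ≤ yv H z u := by
  have hκ := h.pos
  have h0 := qf_eval h 1 0
  simp only [one_pow, mul_one, ne_eq, OfNat.ofNat_ne_zero, not_false_eq_true, zero_pow, add_zero,
    mul_zero] at h0
  have e : Blk (Res H z) u w 0 0 = Res789.Res H z u u := rfl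
  have h1 := h.le 0 0
  rw [e] at h0 h1
  rw [yv_eq hH hz]
  have h2 : 0 < ‖Res789.Res H z u u‖ := norm_pos_iff.2 (res_ne_zero hH hz u)
  rw [le_div_iff₀ (by positivity)]
  have h3 : ‖Res789.Res H z u u‖ ^ 2 ≤ κ⁻¹ ^ 2 := pow_le_pow_left₀ h2.le h1 2
  calc κ ^ 3 * ‖Res789.Res H z u u‖ ^ 2 ≤ κ ^ 3 * κ⁻¹ ^ 2 := by gcongr
    _ = κ := by field_simp
    _ ≤ _ := h0

/-- counting: Markov over the port numberings -/
lemma markov_ports {n d : ℕ} {ε : ℝ} (hε : 0 < ε) {f : Equiv.Perm (HE n d) → ℝ}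
    (hf : ∀ p, 0 ≤ f p) (h : ∑ p ∈ Ports n d, f p ≤ ε ^ 2 * (Ports n d).card) :
    open Classical in
    (((Ports n d).filter fun p => ¬ f p ≤ ε).card : ℝ) ≤ ε * (Ports n d).card := by
  classical
  have h1 : (((Ports n d).filter fun p => ¬ f p ≤ ε).card : ℝ) * ε ≤ ∑ p ∈ Ports n d, f p := by
    calc (((Ports n d).filter fun p => ¬ f p ≤ ε).card : ℝ) * ε =
        ∑ p ∈ (Ports n d).filter fun p => ¬ f p ≤ ε, ε := by
          rw [Finset.sum_const, nsmul_eq_mul]
      _ ≤ ∑ p ∈ (Ports n d).filter fun p => ¬ f p ≤ ε, f p := by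
          refine Finset.sum_le_sum fun p hp => ?_
          exact (not_le.1 (Finset.mem_filter.1 hp).2).le
      _ ≤ ∑ p ∈ Ports n d, f p :=
          Finset.sum_le_sum_of_subset_of_nonneg (Finset.filter_subset _ _) fun p _ _ => hf p
  have h2 : (((Ports n d).filter fun p => ¬ f p ≤ ε).card : ℝ) * ε ≤
      (ε * (Ports n d).card) * ε := by
    calc _ ≤ _ := h1
      _ ≤ _ := h
      _ = _ := by ring
  have h3 := le_of_mul_le_mul_right h2 hε
  convert h3 using 3

/-- fraction of the non-fine half-edges -/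
noncomputable def badF {n d : ℕ} (κ s : ℝ) (z : ℂ) (p : Equiv.Perm (HE n d)) (ω : Fin n → ℝ) : ℝ := by
  classical
  exact ((Finset.univ.filter fun h : HE n d =>
    ¬ Off522.Fine κ (Stab269.BE p s ω z h)).card : ℝ) / (n * d)

/-- common step -/
theorem whp_of_badF {n d : ℕ} (hn : 0 < n) (hd : 0 < d) {ε κ s : ℝ} (hε : 0 < ε) {z : ℂ}
    {Q : SimpleGraph (Fin n) → (Fin n → ℝ) → Prop}
    (hm : ∀ G, MeasurableSet {ω | Q G ω})
    (hF : ∀ ω : Fin n → ℝ, (∀ v, |ω v| ≤ 1) → (open Classical in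
        (∑ p ∈ Ports n d, ((Finset.univ.filter fun h : HE n d =>
          ¬ Off522.Fine κ (Stab269.BE p s ω z h)).card : ℝ))) ≤
          ε ^ 2 * (n * d) * (Ports n d).card)
    (hQ : ∀ p ∈ Ports n d, ∀ ω : Fin n → ℝ, badF κ s z p ω ≤ ε → Q (graphOf p) ω) :
    Whp n d ε Q := by
  classical
  have hnd : (0 : ℝ) < n * d := by positivity
  refine whp_of_quenched hm fun ω hω => ?_
  have h1 := hF ω hω
  have h2 : ∑ p ∈ Ports n d, badF κ s z p ω ≤ ε ^ 2 * (Ports n d).card := by
    unfold badF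
    rw [← Finset.sum_div, div_le_iff₀ hnd]
    calc _ ≤ _ := h1
      _ = _ := by ring
  have h3 := markov_ports hε (f := fun p => badF κ s z p ω)
    (fun p => by unfold badF; positivity) h2
  refine le_trans (Nat.cast_le.2 (Finset.card_le_card ?_)) h3
  intro p hp
  rw [Finset.mem_filter] at hp ⊢
  exact ⟨hp.1, fun hcon => hp.2 (hQ p hp.1 ω hcon)⟩

/-- **(F1) ⟹ LowTail** -/
theorem lowTail_of_F1 {d : ℕ} (hd : 0 < d) (hF : F1 d) {A : ℝ} (hA : 0 < A)
    (hA2 : A ^ 2 < 4 * ((d : ℝ) - 1)) :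
    ∃ s1 : ℝ, 0 < s1 ∧ ∀ E s : ℝ, |E| ≤ A → |s| ≤ s1 → LowTail d s E ∧ NonDeg d s E := by
  classical
  obtain ⟨s1, hs1, hF⟩ := hF A hA hA2
  have hdR : (0 : ℝ) < d := by exact_mod_cast hd
  refine ⟨s1, hs1, fun E s hE hs => ⟨?_, ?_⟩⟩
  · intro ε hε
    obtain ⟨κ, hκ, K0, hK0, N, hN⟩ := hF (ε ^ 2) (by positivity)
    refine ⟨κ ^ 3, by positivity, K0, hK0, 1, one_pos, max N 1, fun n hn hne η hη hη1 => ?_⟩
    have hn1 : 0 < n := (le_max_right _ _).trans hn
    have hnR : (0 : ℝ) < n := by exact_mod_cast hn1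
    have hη0 : 0 < η := lt_of_lt_of_le (by positivity) hη
    have hz : 0 < (ze E η).im := by simpa [ze] using hη0
    have hnd : (0 : ℝ) < n * d := by positivity
    refine whp_of_badF hn1 hd hε (fun G => ?_)
      (hN n ((le_max_left _ _).trans hn) E s η hE hs hη hη1) (fun p hp ω hb => ?_)
    · refine measurableSet_le ?_ measurable_const
      unfold vAvg
      refine Measurable.div_const ?_ _
      refine Finset.measurable_sum _ fun v _ => ?_
      exact Measurable.ite (measurableSet_lt (measurable_yv (adjM G) s (ze E η) v)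
        measurable_const) measurable_const measurable_const
    · refine le_trans ?_ hb
      rw [IsPort.vAvg_eq hd]
      unfold badF
      rw [Finset.card_filter]
      push_cast
      refine div_le_div_of_nonneg_right (Finset.sum_le_sum fun h _ => ?_) hnd.le
      by_cases hfine : Off522.Fine κ (Stab269.BE p s ω (ze E η) h)
      · have h5 := yv_ge (Stab269.Hm_symm _ _ _) hz hfine
        have h6 : ¬ (-(Res (Hm (graphOf p) s ω) (ze E η) h.1 h.1)⁻¹).im < κ ^ 3 := not_lt.2 h5
        rw [if_neg h6, if_neg (not_not.2 hfine)]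
      · rw [if_pos hfine]
        split_ifs <;> norm_num
  · intro ε hε
    obtain ⟨κ, hκ, K0, hK0, N, hN⟩ := hF (ε ^ 2) (by positivity)
    refine ⟨κ ^ 3 / 2, by positivity, 1, one_pos, fun η hη0 hη1 => ?_⟩
    obtain ⟨N1, hN1⟩ := exists_nat_gt (K0 / η)
    refine ⟨max N (max N1 1), fun n hn hne => ?_⟩
    have hn1 : 0 < n := (le_max_right _ _).trans ((le_max_right _ _).trans hn)
    have hnR : (0 : ℝ) < n := by exact_mod_cast hn1
    have hnN1 : (N1 : ℝ) ≤ n := by
      have : N1 ≤ n := (le_max_left _ _).trans ((le_max_right _ _).trans hn)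
      exact_mod_cast this
    have hz : 0 < (ze E η).im := by simpa [ze] using hη0
    have hnd : (0 : ℝ) < n * d := by positivity
    have hη : K0 / n ≤ η := by
      rw [div_le_iff₀ hnR]
      rw [div_lt_iff₀ hη0] at hN1
      nlinarith
    -- a measurable event
    have hW : Whp n d ε fun G ω => eAvg G (fun u w =>
        if MFine κ (Blk (Res (Hm G s ω) (ze E η)) u w) then 0 else 1) ≤ ε := by
      refine whp_of_badF hn1 hd hε (fun G => ?_)
        (hN n ((le_max_left _ _).trans hn) E s η hE hs hη hη1) (fun p hp ω hb => ?_)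
      · refine measurableSet_le ?_ measurable_const
        unfold eAvg
        refine Measurable.div_const ?_ _
        refine Finset.measurable_sum _ fun q _ => ?_
        have hB : ∀ a b : Fin 2, Measurable fun ω : Fin n → ℝ =>
            (Blk (Res (Hm G s ω) (ze E η)) q.1 q.2 a b).im := fun a b =>
          Complex.measurable_im.comp (measurable_res (adjM G) s (ze E η) _ _)
        refine Measurable.ite ?_ measurable_const measurable_const
        have m1 : MeasurableSet {ω : Fin n → ℝ | κ ^ 2 ≤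
            (Blk (Res (Hm G s ω) (ze E η)) q.1 q.2 0 0).im *
              (Blk (Res (Hm G s ω) (ze E η)) q.1 q.2 1 1).im -
              (Blk (Res (Hm G s ω) (ze E η)) q.1 q.2 0 1).im ^ 2} :=
          measurableSet_le measurable_const (((hB 0 0).mul (hB 1 1)).sub ((hB 0 1).pow_const 2))
        have m2 : MeasurableSet {ω : Fin n → ℝ |
            (Blk (Res (Hm G s ω) (ze E η)) q.1 q.2 0 0).im +
              (Blk (Res (Hm G s ω) (ze E η)) q.1 q.2 1 1).im ≤ 2 * κ⁻¹} :=
          measurableSet_le ((hB 0 0).add (hB 1 1)) measurable_const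
        have m3 : MeasurableSet {ω : Fin n → ℝ |
            0 < (Blk (Res (Hm G s ω) (ze E η)) q.1 q.2 0 0).im} :=
          measurableSet_lt measurable_const (hB 0 0)
        exact m1.inter (m2.inter m3)
      · refine le_trans ?_ hb
        rw [(mem_Ports.1 hp).eAvg_graphOf]
        unfold badF
        rw [Finset.card_filter]
        push_cast
        refine div_le_div_of_nonneg_right (Finset.sum_le_sum fun h _ => ?_) hnd.le
        by_cases hfine : Off522.Fine κ (Stab269.BE p s ω (ze E η) h)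
        · have h5 : MFine κ (Blk (Res (Hm (graphOf p) s ω) (ze E η)) h.1 (p h).1) :=
            Fine.mfine hfine
          rw [if_pos h5, if_neg (not_not.2 hfine)]
        · rw [if_pos hfine]
          split_ifs <;> norm_num
    refine Whp_mono hW le_rfl fun p hp ω hq => le_trans ?_ hq
    rw [(mem_Ports.1 hp).eAvg_graphOf, (mem_Ports.1 hp).eAvg_graphOf]
    refine div_le_div_of_nonneg_right (Finset.sum_le_sum fun h _ => ?_) hnd.le
    by_cases h5 : MFine κ (Blk (Res (Hm (graphOf p) s ω) (ze E η)) h.1 (p h).1)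
    · rw [if_pos h5, if_pos]
      intro x
      have h6 := h5.form hκ (x 0) (x 1)
      have hs : (Blk (Res (Hm (graphOf p) s ω) (ze E η)) h.1 (p h).1 1 0) =
          (Blk (Res (Hm (graphOf p) s ω) (ze E η)) h.1 (p h).1 0 1) := by
        have h7 := Res789.Res_transpose (Stab269.Hm_symm (graphOf p) s ω) hz
        exact congrFun (congrFun h7 h.1) (p h).1
      simp only [Fin.sum_univ_two, hs]
      linarith
    · rw [if_neg h5]
      split_ifs <;> norm_num

/-- all the consequences of (F1) for `0 < s ≤ s1` -/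
theorem outputs_of_F1 {d : ℕ} (hd : 0 < d) (hF : F1 d) {A : ℝ} (hA : 0 < A)
    (hA2 : A ^ 2 < 4 * ((d : ℝ) - 1)) :
    ∃ s1 : ℝ, 0 < s1 ∧ ∀ E s : ℝ, |E| ≤ A → 0 < s → s ≤ s1 →
      NonDeg d s E ∧ NoEsc d s E ∧ UIS d s E := by
  obtain ⟨s1, hs1, h⟩ := lowTail_of_F1 hd hF hA hA2
  refine ⟨s1, hs1, fun E s hE hs hs' => ?_⟩
  obtain ⟨h1, h2⟩ := h E s hE (by rwa [abs_of_pos hs])
  exact ⟨h2, noEsc_of_lowTail hs h1, uis_of_lowTail hs h1⟩

end Crest.Agent.R166.F1Out583
end

-- ▼ part R166/LocFrom_583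

/-!
Row 166 (helper583), section 32: `F3P → LocLim` (`SpecF3.LocFrom`), and the consequences of
`SpecF3.F1`.
-/

set_option autoImplicit false

open MeasureTheory ProbabilityTheory Matrix
open Crest.ProbabilityR.RandomMatrix
open scoped ENNReal NNReal

namespace Crest.Agent.R166.LocFrom583

open NoEsc583 F1Out583


/-- the consequences of `SpecF3.F1` for `0 < s ≤ s1` -/
theorem outputs_of_F1' {d : ℕ} (hd : 0 < d) (hF : SpecF3.F1 d) {A : ℝ} (hA : 0 < A)
    (hA2 : A ^ 2 < 4 * ((d : ℝ) - 1)) :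
    ∃ s1 : ℝ, 0 < s1 ∧ ∀ E s : ℝ, |E| ≤ A → 0 < s → s ≤ s1 →
      NonDeg d s E ∧ NoEsc d s E ∧ UIS d s E := outputs_of_F1 hd hF hA hA2

lemma measurable_bnorm_sub {n : ℕ} (G : SimpleGraph (Fin n)) (s : ℝ) (z z' : ℂ) (u w : Fin n) :
    Measurable fun ω : Fin n → ℝ => bnorm (Blk (Res (Hm G s ω) z) u w -
      Blk (Res (Hm G s ω) z') u w) := by
  have hB : ∀ a b : Fin 2, Measurable fun ω : Fin n → ℝ =>
      ‖(Blk (Res (Hm G s ω) z) u w - Blk (Res (Hm G s ω) z') u w) a b‖ := fun a b =>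
    ((measurable_res (adjM G) s z _ _).sub (measurable_res (adjM G) s z' _ _)).norm
  unfold bnorm
  exact ((hB 0 0).max (hB 0 1)).max ((hB 1 0).max (hB 1 1))

lemma bnorm_nonneg (B : Matrix (Fin 2) (Fin 2) ℂ) : 0 ≤ bnorm B :=
  (norm_nonneg (B 0 0)).trans ((le_max_left _ _).trans (le_max_left _ _))

theorem locFrom (d : ℕ) : SpecF3.LocFrom d := by
  classical
  intro A s0 hF E s hE hs ε hε
  obtain ⟨η1, hη1, K0, hK0, N, hN⟩ := hF (ε ^ 2) (by positivity)
  refine ⟨η1, hη1, K0, hK0, fun η hη hη' K hK => ?_⟩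
  obtain ⟨N1, hN1⟩ := exists_nat_gt (K / η1)
  obtain ⟨N2, hN2⟩ := exists_nat_gt (K0 / η)
  refine ⟨max N (max N1 (max N2 1)), fun n hn hne => ?_⟩
  have hn1 : 0 < n := by omega
  have hnR : (0 : ℝ) < n := by exact_mod_cast hn1
  have hnN1 : (N1 : ℝ) ≤ n := by
    have : N1 ≤ n := by omega
    exact_mod_cast this
  have hnN2 : (N2 : ℝ) ≤ n := by
    have : N2 ≤ n := by omega
    exact_mod_cast this
  have h1 : K0 / n ≤ K / n := by gcongr
  have h2 : K / n ≤ η1 := by
    rw [div_le_iff₀ hnR]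
    rw [div_lt_iff₀ hη1] at hN1
    nlinarith
  have h3 : K0 / n ≤ η := by
    rw [div_le_iff₀ hnR]
    rw [div_lt_iff₀ hη] at hN2
    nlinarith
  refine whp_of_quenched (fun G => ?_) (fun ω hω => ?_)
  · refine measurableSet_le ?_ measurable_const
    unfold eAvg
    refine Measurable.div_const ?_ _
    exact Finset.measurable_sum _ fun q _ => measurable_const.min
      (measurable_bnorm_sub G s (ze E (K / n)) (ze E η) q.1 q.2)
  · have h4 := hN n (by omega) E s (K / n) η hE hs h1 h2 h3 hη' ω hω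
    rcases Nat.eq_zero_or_pos d with rfl | hd
    · -- degenerate `d = 0`: all averages vanish
      have h5 : ((Ports n 0).filter fun p => ¬ eAvg (graphOf p) (fun u w =>
          min 1 (bnorm (Blk (Res (Hm (graphOf p) s ω) (zz E K n)) u w -
            Blk (Res (Hm (graphOf p) s ω) (ze E η)) u w))) ≤ ε) = ∅ := by
        rw [Finset.filter_eq_empty_iff]
        intro p hp
        rw [not_not, (mem_Ports.1 hp).eAvg_graphOf]
        simp [hε.le]
      rw [h5]
      simp
      positivity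
    have hnd : (0 : ℝ) < n * d := by positivity
    set f : Equiv.Perm (HE n d) → ℝ := fun p => (∑ h : HE n d,
          min 1 (bnorm (Stab269.BE p s ω (ze E (K / n)) h - Stab269.BE p s ω (ze E η) h))) / (n * d)
      with hf
    have h5 : ∑ p ∈ Ports n d, f p ≤ ε ^ 2 * (Ports n d).card := by
      simp only [hf]
      rw [← Finset.sum_div, div_le_iff₀ hnd]
      calc _ ≤ _ := h4
        _ = _ := by ring
    have h6 := markov_ports hε (f := f) (fun p => by
      simp only [hf]
      refine div_nonneg (Finset.sum_nonneg fun h _ => ?_) hnd.le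
      exact le_min zero_le_one (bnorm_nonneg _)) h5
    refine le_trans (Nat.cast_le.2 (Finset.card_le_card ?_)) h6
    intro p hp
    rw [Finset.mem_filter] at hp ⊢
    refine ⟨hp.1, fun hcon => hp.2 ?_⟩
    rw [(mem_Ports.1 hp.1).eAvg_graphOf]
    exact hcon

end Crest.Agent.R166.LocFrom583
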