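import Crest.Agent.R166.Master_423
import Crest.Agent.R166.LocFrom_583_Mg
import Crest.Agent.R166.SpecF3_798
import Crest.Agent.R166.SwInv_356
import Crest.Agent.R166.Rev2_811
import Crest.Agent.R166.TreeTL_798
import Crest.Agent.R166.FineDet2_522
import Crest.Agent.R166.McClean_797
import Crest.Agent.R166.Sec2_522
import Crest.Agent.R166.DecP4_789

-- ▼ part R166/Asm32G_583
section

/-!
Row 166 (helper583): assembly of the graph half of section 32 (`Master423.Stmt32G`) from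
`F1`, `F2`, `F3From`, Theorem A and the Stieltjes transform of the tree DOS (`StmtM1`).
-/

set_option autoImplicit false

open MeasureTheory ProbabilityTheory
open Crest.ProbabilityR.RandomMatrix

namespace Crest.Agent.R166.Asm32G583

open Master423 DosA420 DosB420

/-- `Im ∫ (x - z)⁻¹ dν = ∫ Poisson kernel dν` -/
lemma im_stj (ν : Measure ℝ) [IsProbabilityMeasure ν] (E : ℝ) {η : ℝ} (hη : 0 < η) :
    (∫ x : ℝ, ((x : ℂ) - ze E η)⁻¹ ∂ν).im = ∫ x, pk E η x ∂ν := by
  have hint : Integrable (fun x : ℝ => ((x : ℂ) - ze E η)⁻¹) ν := by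
    refine Integrable.of_bound (C := 1 / η) ?_ (Filter.Eventually.of_forall fun x => ?_)
    · refine (Measurable.inv ?_).aestronglyMeasurable
      exact Complex.measurable_ofReal.sub measurable_const
    · rw [norm_inv, ← one_div]
      apply one_div_le_one_div_of_le hη
      have h1 := Complex.abs_im_le_norm ((x : ℂ) - ze E η)
      rw [Complex.sub_im, Complex.ofReal_im, DosB420.ze_im, zero_sub, abs_neg, abs_of_pos hη] at h1
      exact h1
  have h2 := integral_im hint
  simp only [RCLike.im_to_complex] at h2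
  rw [← h2]
  refine integral_congr_ae (Filter.Eventually.of_forall fun x => ?_)
  exact inv_im E x

theorem imFix_of_gavLim (hM1 : StmtM1) {d : ℕ} (hd : 3 ≤ d) {s : ℝ} (hs : 0 ≤ s) {E ρ : ℝ}
    (h : GavLim d s E ρ) : ImFix d s E ρ := by
  obtain ⟨ν, hν, hStj⟩ := hM1 d s hd hs
  have := hν.1
  intro ε hε
  obtain ⟨η0, hη0, h1⟩ := h (ε / 2) (by positivity)
  refine ⟨η0, hη0, fun η hη hη' => ?_⟩
  have h2 := h1 η hη hη'
  rw [← hStj (ze E η) (by rw [DosB420.ze_im]; exact hη), im_stj ν E hη] at h2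
  obtain ⟨N, hN⟩ := dosLim (DosC420.momLim (by omega) hs) hν hs (continuous_pk (E := E) hη)
    (show 0 < ε / 2 by positivity)
  refine ⟨N, fun n hn hne => ?_⟩
  refine whp_mono (show ε / 2 ≤ ε by linarith) (hN n hn hne) ?_
  intro G ω h
  rw [im_mn_ze (Hm_herm G s ω) hη]
  have h7 := abs_sub_le ((∑ i, pk E η ((Hm_herm G s ω).eigenvalues i)) / n)
    (∫ x, pk E η x ∂ν) (Real.pi * ρ)
  linarith

/-- **the graph half of section 32** -/
theorem stmt32G (hM1 : StmtM1) (hA : ∀ d : ℕ, 3 ≤ d → SpecA.ThmA d)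
    (h1 : ∀ d : ℕ, 3 ≤ d → SpecF3.F1 d) (h2 : ∀ d : ℕ, 3 ≤ d → SpecF3.F2 d)
    (h3 : ∀ d : ℕ, 3 ≤ d → SpecF3.F3From d) : Stmt32G := by
  intro d hd κ hκ
  have hdR : (3 : ℝ) ≤ d := by exact_mod_cast hd
  set A : ℝ := max (2 * Real.sqrt ((d : ℝ) - 1) - κ) 1 with hAdef
  have hA0 : 0 < A := lt_of_lt_of_le one_pos (le_max_right _ _)
  have hsq : Real.sqrt ((d : ℝ) - 1) ^ 2 = (d : ℝ) - 1 := Real.sq_sqrt (by linarith)
  have hs0 : 0 ≤ Real.sqrt ((d : ℝ) - 1) := Real.sqrt_nonneg _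
  have hA2 : A ^ 2 < 4 * ((d : ℝ) - 1) := by
    rcases le_total (2 * Real.sqrt ((d : ℝ) - 1) - κ) 1 with h | h
    · rw [hAdef, max_eq_right h]; linarith
    · rw [hAdef, max_eq_left h]
      nlinarith
  obtain ⟨s1, hs1, H1⟩ := LocFrom583.outputs_of_F1' (by omega) (h1 d hd) hA0 hA2
  obtain ⟨s3, hs3, H3⟩ := h3 d hd hd (h1 d hd) (h2 d hd) (hA d hd) A hA0 hA2
  refine ⟨min s1 s3, lt_min hs1 hs3, fun s hs hs' E ρ hE hρ hG => ?_⟩
  have hs1' : s ≤ s1 := (hs'.trans_le (min_le_left _ _)).le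
  have hs3' : |s| ≤ s3 := by
    rw [abs_of_pos hs]; exact (hs'.trans_le (min_le_right _ _)).le
  have hEA : |E| ≤ A := hE.trans (le_max_left _ _)
  obtain ⟨hNd, hNo, hUI⟩ := H1 E s hEA hs hs1'
  have hLoc : LocLim d s E := LocFrom583.locFrom d A s3 H3 E s hEA hs3'
  have hFix : ImFix d s E ρ := imFix_of_gavLim hM1 hd hs.le hG
  exact ⟨ImLimS424.imLim_of_UIS (by omega) hFix hLoc hUI, hFix, hLoc, hNd, hNo⟩

end Crest.Agent.R166.Asm32G583
end

-- ▼ part R166/SpecF1_522
section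

/-!
# Row 166, section 32 (graph half): the one-step estimate of F1 (helper522)

`F1Step d`: one depth-2 two-sided resampling squares the fraction of non-fine edges, with a
constant `C0` which does not depend on `κ`.  Deterministic part: `FineDet2_522.fine_tree2`.
`F1From d`: `F1` from the one-step estimate and Theorem A.
-/

set_option autoImplicit false

namespace Crest.Agent.R166.SpecF1

open Crest.Agent.R166 Stab269 SwP470 Rev811

/-- one-step estimate, every simple `p`, every tree-like centre `h0`, every fixed `ω` -/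
def F1Step (d : ℕ) [NeZero d] : Prop :=
  ∃ C0 : ℝ, 0 < C0 ∧ ∀ κ : ℝ, 0 < κ → ∃ κ' : ℝ, 0 < κ' ∧ ∃ C : ℝ, 0 < C ∧
    ∀ n : ℕ, 0 < n → ∀ E s η : ℝ, |E| ≤ d → |s| ≤ 1 → 0 < η → η ≤ 1 →
      ∀ ω : Fin n → ℝ, (∀ v, |ω v| ≤ 1) → ∀ p : Equiv.Perm (HE n d), IsPort p →
        ∀ h0 : HE n d, TL 2 p h0 →
          pr (fun b : BI d 2 → HE n d =>
            ¬ Off522.Fine κ' (BE (bsw 2 p (h0, b)).1 s ω (ze E η) h0)) ≤
          C0 * (pr1 fun h : HE n d => ¬ Off522.Fine κ (BE p s ω (ze E η) h)) ^ 2 + C / (n * η)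

/-- `F1` from the one-step estimate (helper355) -/
def F1From (d : ℕ) [NeZero d] : Prop := 3 ≤ d → F1Step d → SpecA.ThmA d → SpecF3.F1 d

end Crest.Agent.R166.SpecF1
end

-- ▼ part R166/F1From_420
section

/-!
# Row 166, section 32 (graph half): `F1From` (helper420)

`F1` (most edge blocks are `κ`-fine at all scales) from the one-step estimate `F1Step` (helper522)
and Theorem A.

* `fine_of_dev` : a block whose cavity block is close to `m I` is fine;
* `qk_le_Vp`    : the fraction of non-fine edges is at most `V_G / r²`;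
* `one_step`    : the averaged one-step inequality;
* `iterate`     : abstract iteration;
* `f1From`      : `SpecF1.F1From d`.
-/

set_option autoImplicit false

open Matrix

namespace Crest.Agent.R166.F1From420

open Crest.Agent.R166 Stab269 SwP470 Rev811 SpecA
open Crest.Agent.R166.Res598 Crest.Agent.R166.Off522 Crest.Agent.R166.Fine522

variable {n d : ℕ}

/-! ### scalar matrices are fine -/

theorem imGe_smul_one {m : ℂ} {c : ℝ} (hc : c ≤ m.im) :
    ImGe c (m • (1 : Matrix (Fin 2) (Fin 2) ℂ)) := by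
  intro x
  have h1 : qf (imM (m • (1 : Matrix (Fin 2) (Fin 2) ℂ))) x = m.im * ∑ i, ‖x i‖ ^ 2 := by
    simp only [qf, vre, vim, dotProduct, Matrix.mulVec, Fin.sum_univ_two, imM_apply,
      Matrix.smul_apply, Matrix.one_apply, smul_eq_mul]
    have e0 : ‖x 0‖ ^ 2 = (x 0).re * (x 0).re + (x 0).im * (x 0).im := by
      rw [← Complex.normSq_eq_norm_sq, Complex.normSq_apply]
    have e1 : ‖x 1‖ ^ 2 = (x 1).re * (x 1).re + (x 1).im * (x 1).im := by
      rw [← Complex.normSq_eq_norm_sq, Complex.normSq_apply]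
    rw [e0, e1]
    simp
    ring
  rw [h1]
  exact mul_le_mul_of_nonneg_right hc (by positivity)

theorem fine_smul_one {m : ℂ} {c : ℝ} (hc0 : 0 < c) (hc : c ≤ m.im) (hm : ‖m‖ ≤ 1) (hc1 : c ≤ 1) :
    Fine c (m • (1 : Matrix (Fin 2) (Fin 2) ℂ)) := by
  refine ⟨?_, hc0, imGe_smul_one hc, fun i j => ?_⟩
  · rw [Matrix.transpose_smul, Matrix.transpose_one]
  · have h1 : (1 : ℝ) ≤ c⁻¹ := one_le_inv_iff₀.2 ⟨hc0, hc1⟩
    rw [Matrix.smul_apply, smul_eq_mul, norm_mul, Matrix.one_apply]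
    split_ifs
    · rw [norm_one, mul_one]; exact hm.trans h1
    · rw [norm_zero, mul_zero]; exact (zero_le_one).trans h1

/-- a block whose cavity block is close to `m I` is fine -/
theorem fine_of_dev {p : Equiv.Perm (HE n d)} (hp : IsPort p) (s : ℝ) (ω : Fin n → ℝ) {z : ℂ}
    (hz : 0 < z.im) (h : HE n d) {c r : ℝ} (hc0 : 0 < c) (hc1 : c ≤ 1) (hc : c ≤ (mc d z).im)
    (hm : ‖mc d z‖ ≤ 1) (hr0 : 0 ≤ r) (hr : r * 2 / c ≤ 1 / 2) (hdev : dev p s ω z h ≤ r) :
    Fine (kap1 2 (c / 2)) (BE p s ω z h) := by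
  have hS : Siegel (BE p s ω z h) := Dec598.siegel_iff.2 (sieg_BE hp s ω hz h)
  have hcav : Siegel (cavB (BE p s ω z h)) := siegel_cavB hS
  apply fine_of_cavB hS
  have h1 := fine_smul_one (m := mc d z) hc0 hc hm hc1
  refine fine_near h1 hr ?_
  have h2 := near_of_entry (c := c) (δ := r) (Z := mc d z • (1 : Matrix (Fin 2) (Fin 2) ℂ))
    (Z' := cavB (BE p s ω z h)) hc0 hr0 hcav.symm h1.im (fun i j => by
      rw [← Matrix.sub_apply]
      refine le_trans ?_ hdev
      unfold dev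
      exact McClean797.norm_le_bnorm _ i j)
  simpa using h2

/-- fraction of the half-edges whose block is not `κ`-fine -/
noncomputable def qk (κ : ℝ) (p : Equiv.Perm (HE n d)) (s : ℝ) (ω : Fin n → ℝ) (z : ℂ) : ℝ :=
  pr1 fun h : HE n d => ¬ Fine κ (BE p s ω z h)

open Classical in
theorem qk_eq (κ : ℝ) (p : Equiv.Perm (HE n d)) (s : ℝ) (ω : Fin n → ℝ) (z : ℂ) :
    qk κ p s ω z = (∑ h : HE n d, if ¬ Fine κ (BE p s ω z h) then (1 : ℝ) else 0) /
      (Fintype.card (HE n d) : ℝ) := by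
  unfold qk pr1 av1
  congr 1
  refine Finset.sum_congr rfl fun h _ => ?_
  by_cases hx : Fine κ (BE p s ω z h) <;> simp [hx]

theorem qk_nonneg (κ : ℝ) (p : Equiv.Perm (HE n d)) (s : ℝ) (ω : Fin n → ℝ) (z : ℂ) :
    0 ≤ qk κ p s ω z := by
  classical
  rw [qk_eq]
  exact div_nonneg (Finset.sum_nonneg fun h _ => by split_ifs <;> norm_num) (Nat.cast_nonneg _)

theorem qk_le_one (κ : ℝ) (p : Equiv.Perm (HE n d)) (s : ℝ) (ω : Fin n → ℝ) (z : ℂ) :
    qk κ p s ω z ≤ 1 := by
  classical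
  rw [qk_eq]
  refine div_le_one_of_le₀ ?_ (Nat.cast_nonneg _)
  calc (∑ h : HE n d, if ¬ Fine κ (BE p s ω z h) then (1 : ℝ) else 0) ≤ ∑ _h : HE n d, (1 : ℝ) :=
        Finset.sum_le_sum fun h _ => by split_ifs <;> norm_num
    _ = (Fintype.card (HE n d) : ℝ) := by simp

theorem qk_anti {κ κ' : ℝ} (hκ : 0 < κ') (h : κ' ≤ κ) (p : Equiv.Perm (HE n d)) (s : ℝ)
    (ω : Fin n → ℝ) (z : ℂ) : qk κ' p s ω z ≤ qk κ p s ω z := by
  classical
  rw [qk_eq, qk_eq]
  refine div_le_div_of_nonneg_right (Finset.sum_le_sum fun x _ => ?_) (Nat.cast_nonneg _)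
  by_cases hx : Fine κ (BE p s ω z x)
  · rw [if_neg (not_not.2 hx), if_neg (not_not.2 (hx.mono hκ h))]
  · rw [if_pos hx]
    split_ifs <;> norm_num

/-- the fraction of non-fine edges is controlled by `V_G` -/
theorem qk_le_Vp {p : Equiv.Perm (HE n d)} (hp : IsPort p) (s : ℝ) (ω : Fin n → ℝ) {z : ℂ}
    (hz : 0 < z.im) {c r rs : ℝ} (hc0 : 0 < c) (hc1 : c ≤ 1) (hc : c ≤ (mc d z).im)
    (hm : ‖mc d z‖ ≤ 1) (hr0 : 0 < r) (hrs : r ≤ rs) (hr : r * 2 / c ≤ 1 / 2) :
    qk (kap1 2 (c / 2)) p s ω z ≤ Vp rs p s ω z / r ^ 2 := by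
  classical
  rw [qk_eq, Vp, div_div, mul_comm (((n * d : ℕ) : ℝ)) (r ^ 2), ← div_div, IsPort.card_HE]
  refine div_le_div_of_nonneg_right ?_ (Nat.cast_nonneg _)
  rw [le_div_iff₀ (by positivity), Finset.sum_mul]
  refine Finset.sum_le_sum fun h _ => ?_
  by_cases hx : Fine (kap1 2 (c / 2)) (BE p s ω z h)
  · rw [if_neg (not_not.2 hx), zero_mul]; positivity
  · rw [if_pos hx, one_mul]
    have h1 : r ≤ Dv rs p s ω z h := by
      unfold Dv
      refine le_min hrs ?_
      by_contra hcon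
      exact hx (fine_of_dev hp s ω hz h hc0 hc1 hc hm hr0.le hr (not_le.1 hcon).le)
    exact pow_le_pow_left₀ hr0.le h1 2

/-! ### the averaged one-step inequality -/

theorem one_step [NeZero d] (hd : 3 ≤ d) (hn : 0 < n) {s η E : ℝ} {ω : Fin n → ℝ} {κ κ' C0 C : ℝ}
    (hstep : ∀ p : Equiv.Perm (HE n d), IsPort p → ∀ h0 : HE n d, TL 2 p h0 →
          pr (fun b : BI d 2 → HE n d =>
            ¬ Off522.Fine κ' (BE (bsw 2 p (h0, b)).1 s ω (ze E η) h0)) ≤
          C0 * (pr1 fun h : HE n d => ¬ Off522.Fine κ (BE p s ω (ze E η) h)) ^ 2 + C / (n * η))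
    (hX : 0 ≤ C0) (hX' : 0 ≤ C / (n * η)) :
    ∑ p ∈ Ports n d, qk κ' p s ω (ze E η) ≤
      ∑ p ∈ Ports n d, C0 * qk κ p s ω (ze E η) ^ 2 +
        (C / (n * η) + Tree798.CT d 2 / (n * d)) * (Ports n d).card := by
  classical
  have hd0 : 0 < d := by omega
  have hHE : (0 : ℝ) < (Fintype.card (HE n d) : ℝ) := by
    rw [IsPort.card_HE]; exact_mod_cast Nat.mul_pos hn hd0
  have hne : Nonempty (HE n d) := ⟨(⟨0, hn⟩, ⟨0, hd0⟩)⟩
  have hMv : (Finset.univ : Finset (HE n d × (BI d 2 → HE n d))).Nonempty := Finset.univ_nonempty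
  set f : Equiv.Perm (HE n d) → HE n d → ℝ := fun p h =>
    if ¬ Fine κ' (BE p s ω (ze E η) h) then (1 : ℝ) else 0 with hf
  have h1 := Sec522.sum_nu_eq_sum_g (SwP470.moveSystem n d 2 (by norm_num)) hMv f
  have e1 : ∀ p, Sec269.nuAvg (Finset.univ : Finset (HE n d)) f p = qk κ' p s ω (ze E η) := by
    intro p
    rw [qk_eq, Sec269.nuAvg, Finset.card_univ]
  simp only [e1] at h1
  rw [h1]
  have e2 : ∀ p ∈ Ports n d, Sec269.gAvg (Finset.univ : Finset (HE n d × (BI d 2 → HE n d)))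
      Prod.fst (bsw 2) f p ≤ C0 * qk κ p s ω (ze E η) ^ 2 + (C / (n * η) +
        ((Finset.univ.filter fun h : HE n d => ¬ TL 2 p h).card : ℝ) / (n * d)) := by
    intro p hp
    set X : ℝ := C0 * qk κ p s ω (ze E η) ^ 2 + C / (n * η) with hXdef
    have hX0 : 0 ≤ X := by
      have := mul_nonneg hX (sq_nonneg (qk κ p s ω (ze E η)))
      linarith
    have e3 : Sec269.gAvg (Finset.univ : Finset (HE n d × (BI d 2 → HE n d)))
        Prod.fst (bsw 2) f p = (∑ h0 : HE n d, pr (fun b : BI d 2 → HE n d =>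
            ¬ Fine κ' (BE (bsw 2 p (h0, b)).1 s ω (ze E η) h0))) / (Fintype.card (HE n d) : ℝ) := by
      rw [Sec269.gAvg, Fintype.sum_prod_type, Finset.card_univ, Fintype.card_prod, Nat.cast_mul,
        mul_comm, ← div_div, Finset.sum_div]
      congr 1
      refine Finset.sum_congr rfl fun h0 _ => ?_
      unfold pr av
      congr 1
      refine Finset.sum_congr rfl fun b _ => ?_
      simp only [hf]
      by_cases hx : Fine κ' (BE (bsw 2 p (h0, b)).1 s ω (ze E η) h0) <;> simp [hx]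
    rw [e3, div_le_iff₀ hHE]
    have e4 : ∑ h0 : HE n d, pr (fun b : BI d 2 → HE n d =>
            ¬ Fine κ' (BE (bsw 2 p (h0, b)).1 s ω (ze E η) h0)) ≤
        ∑ h0 : HE n d, (X + if ¬ TL 2 p h0 then (1 : ℝ) else 0) := by
      refine Finset.sum_le_sum fun h0 _ => ?_
      by_cases hTL : TL 2 p h0
      · rw [if_neg (not_not.2 hTL), add_zero]
        exact hstep p (mem_Ports.1 hp) h0 hTL
      · rw [if_pos hTL]
        have : pr (fun b : BI d 2 → HE n d =>
            ¬ Fine κ' (BE (bsw 2 p (h0, b)).1 s ω (ze E η) h0)) ≤ 1 := by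
          calc _ ≤ av (fun _ : BI d 2 → HE n d => (1 : ℝ)) :=
                av_mono fun e => by split_ifs <;> norm_num
            _ = 1 := av_const 1
        linarith
    refine e4.trans ?_
    rw [Finset.sum_add_distrib, Finset.sum_const, Finset.card_univ, nsmul_eq_mul,
      ← Finset.sum_filter, Finset.sum_const, nsmul_eq_mul, mul_one, IsPort.card_HE]
    push_cast
    have hnd : (0 : ℝ) < n * d := by
      have : (0 : ℝ) < ((n * d : ℕ) : ℝ) := by exact_mod_cast Nat.mul_pos hn hd0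
      push_cast at this
      exact this
    have e5 : ((Finset.univ.filter fun h : HE n d => ¬ TL 2 p h).card : ℝ) / (n * d) * (n * d) =
        ((Finset.univ.filter fun h : HE n d => ¬ TL 2 p h).card : ℝ) :=
      div_mul_cancel₀ _ hnd.ne'
    rw [add_mul, add_mul, e5, hXdef]
    ring_nf
    rfl
  refine (Finset.sum_le_sum e2).trans ?_
  rw [Finset.sum_add_distrib, Finset.sum_add_distrib, Finset.sum_const, nsmul_eq_mul,
    ← Finset.sum_div, add_mul]
  have h3 := Tree798.sum_card_not_TL_le (n := n) (d := d) (by omega) 2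
  have h4 : (∑ p ∈ Ports n d, ((Finset.univ.filter fun h : HE n d => ¬ TL 2 p h).card : ℝ)) /
      (n * d) ≤ Tree798.CT d 2 / (n * d) * (Ports n d).card := by
    rw [div_mul_eq_mul_div]
    refine div_le_div_of_nonneg_right ?_ (by positivity)
    convert h3
  linarith

/-! ### abstract iteration -/

theorem iterate {Γ : Type*} [DecidableEq Γ] (Gr Bd : Finset Γ) (hBd : Bd ⊆ Gr) (q : ℕ → Γ → ℝ)
    {C0 v δ e : ℝ} (hC0 : 0 ≤ C0) (hv : C0 * v ≤ 1 / 4)
    (h0 : ∀ j p, 0 ≤ q j p) (h1 : ∀ j p, q j p ≤ 1)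
    (hgood : ∀ j, ∀ p ∈ Gr, p ∉ Bd → q j p ≤ v)
    (hB : (Bd.card : ℝ) ≤ δ * Gr.card) (J : ℕ)
    (hstep : ∀ j, j < J → ∑ p ∈ Gr, q (j + 1) p ≤ ∑ p ∈ Gr, C0 * q j p ^ 2 + e * Gr.card)
    (he : 0 ≤ e) (hδ : 0 ≤ δ) :
    ∑ p ∈ Gr, q J p ≤ ((1 / 4) ^ J + 2 * (C0 * δ + e)) * Gr.card := by
  have key : ∀ j, j ≤ J → ∑ p ∈ Gr, q j p ≤ ((1 / 4) ^ j + 2 * (C0 * δ + e)) * Gr.card := by
    intro j
    induction j with
    | zero =>
      intro _
      have h2 : ∑ p ∈ Gr, q 0 p ≤ Gr.card := by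
        calc ∑ p ∈ Gr, q 0 p ≤ ∑ _p ∈ Gr, (1 : ℝ) := Finset.sum_le_sum fun p _ => h1 0 p
          _ = Gr.card := by simp
      have h3 : 0 ≤ C0 * δ + e := by positivity
      have h4 : (0 : ℝ) ≤ Gr.card := Nat.cast_nonneg _
      rw [pow_zero]
      nlinarith
    | succ j ih =>
      intro hj
      have ih' := ih (by omega)
      refine (hstep j (by omega)).trans ?_
      have h2 : ∑ p ∈ Gr, C0 * q j p ^ 2 ≤ 1 / 4 * ∑ p ∈ Gr, q j p + C0 * δ * Gr.card := by
        have h3 : ∀ p ∈ Gr, C0 * q j p ^ 2 ≤ 1 / 4 * q j p + if p ∈ Bd then C0 else 0 := by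
          intro p hp
          by_cases hpB : p ∈ Bd
          · rw [if_pos hpB]
            have a1 := h0 j p
            have a2 := h1 j p
            have a3 : q j p ^ 2 ≤ 1 := pow_le_one₀ a1 a2
            nlinarith [mul_le_mul_of_nonneg_left a3 hC0]
          · rw [if_neg hpB, add_zero]
            have a1 := h0 j p
            have a2 := hgood j p hp hpB
            calc C0 * q j p ^ 2 = C0 * q j p * q j p := by ring
              _ ≤ C0 * v * q j p := by
                  exact mul_le_mul_of_nonneg_right (mul_le_mul_of_nonneg_left a2 hC0) a1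
              _ ≤ 1 / 4 * q j p := mul_le_mul_of_nonneg_right hv a1
        refine (Finset.sum_le_sum h3).trans ?_
        rw [Finset.sum_add_distrib, ← Finset.mul_sum, ← Finset.sum_filter, Finset.sum_const,
          nsmul_eq_mul]
        have h4 : Gr.filter (fun p => p ∈ Bd) = Bd := by
          ext p
          simp only [Finset.mem_filter]
          exact ⟨fun h => h.2, fun h => ⟨hBd h, h⟩⟩
        rw [h4]
        have h5 := mul_le_mul_of_nonneg_left hB hC0
        nlinarith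
      have h3 : 0 ≤ C0 * δ + e := by positivity
      have h4 : (0 : ℝ) ≤ Gr.card := Nat.cast_nonneg _
      rw [pow_succ]
      nlinarith [mul_nonneg h3 h4]
  exact key J le_rfl

/-! ### the conclusion -/

set_option maxHeartbeats 1000000 in
/-- **F1 from the one-step estimate and Theorem A** -/
theorem f1From (d : ℕ) [NeZero d] : SpecF1.F1From d := by
  classical
  intro hd hF hA A hA0 hA2
  obtain ⟨C0, hC0, hF⟩ := hF
  obtain ⟨rs, C1, s0A, hrs, hC1, hs0A, hA⟩ := hA A hA0 hA2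
  have hd3 : (3 : ℝ) ≤ d := by exact_mod_cast hd
  -- constants of the clean root
  set c : ℝ := min (McClean797.cIm d A) 1 with hc
  have hcpos : 0 < c := lt_min (McClean797.cIm_pos hd hA2) one_pos
  have hc1 : c ≤ 1 := min_le_right _ _
  set r : ℝ := min rs (c / 4) with hr
  have hrpos : 0 < r := lt_min hrs (by positivity)
  have hr2 : r * 2 / c ≤ 1 / 2 := by
    have : r ≤ c / 4 := min_le_right _ _
    rw [div_le_iff₀ hcpos]
    linarith
  set κs : ℝ := kap1 2 (c / 2) with hκs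
  have hκs0 : 0 < κs := kap1_pos (by positivity)
  set v : ℝ := 1 / (4 * C0) with hv
  have hv0 : 0 < v := by positivity
  have hCv : C0 * v ≤ 1 / 4 := by
    rw [hv]
    apply le_of_eq
    field_simp
  -- the strength
  set s1 : ℝ := Real.sqrt (v * r ^ 2 / (2 * C1)) with hs1
  have hs1pos : 0 < s1 := Real.sqrt_pos.2 (by positivity)
  refine ⟨min (min s0A 1) s1, lt_min (lt_min hs0A one_pos) hs1pos, fun ε hε => ?_⟩
  -- the sequence of levels
  choose κ' hκ' C hC H using hF
  let lev : ℕ → {κ : ℝ // 0 < κ} := fun j => Nat.rec ⟨κs, hκs0⟩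
    (fun _ k => ⟨min (κ' k.1 k.2) k.1, lt_min (hκ' k.1 k.2) k.2⟩) j
  have lev_succ : ∀ j, (lev (j + 1)).1 = min (κ' (lev j).1 (lev j).2) (lev j).1 := fun j => rfl
  have lev_le : ∀ j, (lev j).1 ≤ κs := by
    intro j
    induction j with
    | zero => exact le_rfl
    | succ j ih => rw [lev_succ]; exact (min_le_right _ _).trans ih
  -- number of steps
  obtain ⟨J, hJ⟩ := exists_pow_lt_of_lt_one (show (0:ℝ) < ε / 4 by positivity)
    (show (1 / 4 : ℝ) < 1 by norm_num)
  -- the exceptional fraction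
  set δ : ℝ := min (v * r ^ 2 / 2) (ε / (16 * C0)) with hδ
  have hδ0 : 0 < δ := lt_min (by positivity) (by positivity)
  obtain ⟨KA, hKA, hA⟩ := hA δ hδ0
  -- the scale
  set Cm : ℝ := ∑ j ∈ Finset.range J, C (lev j).1 (lev j).2 with hCm
  have hCm0 : 0 ≤ Cm := Finset.sum_nonneg fun j _ => (hC _ _).le
  set K0 : ℝ := max KA (16 * Cm / ε) with hK0
  have hK0pos : 0 < K0 := lt_of_lt_of_le hKA (le_max_left _ _)
  obtain ⟨NA, hA⟩ := hA K0 (le_max_left _ _)
  have hCT : 0 ≤ Tree798.CT d 2 := Tree798.CT_nonneg d 2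
  obtain ⟨NC, hNC⟩ := exists_nat_ge (16 * Tree798.CT d 2 / ε)
  refine ⟨(lev J).1, (lev J).2, K0, hK0pos, max NA (NC + 1), ?_⟩
  intro n hn E s η hE hs hη1 hη2 ω hω
  have hn1 : 0 < n := lt_of_lt_of_le (Nat.succ_pos NC) (le_trans (le_max_right _ _) hn)
  have hn0 : (0 : ℝ) < n := by exact_mod_cast hn1
  have hη : 0 < η := lt_of_lt_of_le (div_pos hK0pos hn0) hη1
  have hs' : |s| ≤ s0A := hs.trans ((min_le_left _ _).trans (min_le_left _ _))
  have hs'' : |s| ≤ 1 := hs.trans ((min_le_left _ _).trans (min_le_right _ _))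
  have hs1' : |s| ≤ s1 := hs.trans (min_le_right _ _)
  have hEd : |E| ≤ d := by
    refine hE.trans ?_
    have : A ^ 2 ≤ (d : ℝ) ^ 2 := by nlinarith [sq_nonneg ((d : ℝ) - 2)]
    exact (sq_le_sq₀ hA0.le (by linarith)).1 this
  set z := ze E η with hz
  have hzim : z.im = η := McClean797.ze_im E η
  have hzre : z.re = E := McClean797.ze_re E η
  have hzpos : 0 < z.im := by rw [hzim]; exact hη
  have hcz : c ≤ (mc d z).im := (min_le_left _ _).trans
    (McClean797.cIm_le hd hA2 (by rw [hzre]; exact hE) hzpos.le (by rw [hzim]; exact hη2))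
  have hmz : ‖mc d z‖ ≤ 1 :=
    (McClean797.mc_norm_le_34 hd (McClean797.dom_of_im hzpos)).trans (by norm_num)
  -- the exceptional set
  set Bd : Finset (Equiv.Perm (HE n d)) := (Ports n d).filter fun p => ∃ η : ℝ, K0 / n ≤ η ∧
    η ≤ 1 ∧ C1 * s ^ 2 + δ < Vp rs p s ω (ze E η) with hBd
  have hBdcard : (Bd.card : ℝ) ≤ δ * (Ports n d).card := by
    have := hA n (le_trans (le_max_left _ _) hn) E s hE hs' ω hω
    exact this
  have hs2 : C1 * s ^ 2 ≤ v * r ^ 2 / 2 := by
    have h1 : s ^ 2 ≤ s1 ^ 2 := by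
      rw [← sq_abs s]; exact pow_le_pow_left₀ (abs_nonneg _) hs1' 2
    have h2 : s1 ^ 2 = v * r ^ 2 / (2 * C1) := Real.sq_sqrt (by positivity)
    rw [h2] at h1
    calc C1 * s ^ 2 ≤ C1 * (v * r ^ 2 / (2 * C1)) := mul_le_mul_of_nonneg_left h1 hC1.le
      _ = v * r ^ 2 / 2 := by field_simp
  have hgood0 : ∀ p ∈ Ports n d, p ∉ Bd → qk κs p s ω z ≤ v := by
    intro p hp hpB
    have h1 : Vp rs p s ω z ≤ C1 * s ^ 2 + δ := by
      by_contra hcon
      apply hpB
      rw [hBd, Finset.mem_filter]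
      exact ⟨hp, η, hη1, hη2, not_le.1 hcon⟩
    have h2 := qk_le_Vp (mem_Ports.1 hp) s ω hzpos hcpos hc1 hcz hmz hrpos (min_le_left _ _) hr2
      (rs := rs)
    refine h2.trans ?_
    rw [div_le_iff₀ (by positivity)]
    have h3 : δ ≤ v * r ^ 2 / 2 := min_le_left _ _
    linarith
  set q : ℕ → Equiv.Perm (HE n d) → ℝ := fun j p => qk (lev j).1 p s ω z with hq
  set e : ℝ := Cm / K0 + Tree798.CT d 2 / (n * d) with he
  have he0 : 0 ≤ e := by positivity
  have hit := iterate (Ports n d) Bd (Finset.filter_subset _ _) q hC0.le hCv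
    (fun j p => qk_nonneg _ p s ω z) (fun j p => qk_le_one _ p s ω z)
    (fun j p hp hpB => (qk_anti (lev j).2 (lev_le j) p s ω z).trans (hgood0 p hp hpB))
    hBdcard J (fun j hj => by
      have h1 := one_step (n := n) (d := d) hd hn1 (s := s) (η := η) (E := E) (ω := ω)
        (κ := (lev j).1) (κ' := κ' (lev j).1 (lev j).2) (C0 := C0) (C := C (lev j).1 (lev j).2)
        (fun p hp h0 hTL => H (lev j).1 (lev j).2 n hn1 E s η hEd hs'' hη hη2 ω hω p hp h0 hTL)
        hC0.le (by have := (hC (lev j).1 (lev j).2).le; positivity)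
      have h2 : ∑ p ∈ Ports n d, q (j + 1) p ≤
          ∑ p ∈ Ports n d, qk (κ' (lev j).1 (lev j).2) p s ω z := by
        refine Finset.sum_le_sum fun p _ => ?_
        exact qk_anti (lev (j + 1)).2 (by rw [lev_succ]; exact min_le_left _ _) p s ω z
      refine h2.trans (h1.trans ?_)
      have h3 : C (lev j).1 (lev j).2 / (n * η) ≤ Cm / K0 := by
        have h4 : C (lev j).1 (lev j).2 ≤ Cm :=
          Finset.single_le_sum (f := fun j => C (lev j).1 (lev j).2)
            (fun i _ => (hC _ _).le) (Finset.mem_range.2 hj)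
        have h5 : K0 ≤ n * η := by
          rw [div_le_iff₀ hn0] at hη1
          linarith
        exact div_le_div₀ hCm0 h4 hK0pos h5
      have h6 : (C (lev j).1 (lev j).2 / (n * η) + Tree798.CT d 2 / (n * d)) *
          ((Ports n d).card : ℝ) ≤ e * (Ports n d).card :=
        mul_le_mul_of_nonneg_right (by rw [he]; linarith) (Nat.cast_nonneg _)
      linarith) he0 hδ0.le
  -- numerics
  have e1 : C0 * δ ≤ ε / 16 := by
    have : δ ≤ ε / (16 * C0) := min_le_right _ _
    calc C0 * δ ≤ C0 * (ε / (16 * C0)) := mul_le_mul_of_nonneg_left this hC0.le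
      _ = ε / 16 := by field_simp
  have e2 : Cm / K0 ≤ ε / 16 := by
    have h1 : 16 * Cm / ε ≤ K0 := le_max_right _ _
    rw [div_le_iff₀ hε] at h1
    rw [div_le_iff₀ hK0pos]
    linarith
  have e3 : Tree798.CT d 2 / (n * d) ≤ ε / 16 := by
    have h1 : (NC : ℝ) ≤ n := by
      have : NC ≤ n := le_trans (Nat.le_succ NC) (le_trans (le_max_right _ _) hn)
      exact_mod_cast this
    have h2 := hNC.trans h1
    rw [div_le_iff₀ hε] at h2
    rw [div_le_iff₀ (by positivity)]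
    have h3 : (n : ℝ) * 1 ≤ n * d := mul_le_mul_of_nonneg_left (by linarith only [hd3]) hn0.le
    have h4 : ε / 16 * ((n : ℝ) * 1) ≤ ε / 16 * (n * d) :=
      mul_le_mul_of_nonneg_left h3 (by positivity)
    linarith only [h2, h4]
  have e4 : (1 / 4 : ℝ) ^ J + 2 * (C0 * δ + e) ≤ ε := by
    rw [he]
    linarith only [e1, e2, e3, hJ, hε]
  have e5 : ∑ p ∈ Ports n d, q J p ≤ ε * (Ports n d).card :=
    hit.trans (mul_le_mul_of_nonneg_right e4 (Nat.cast_nonneg _))
  have hnd : (0 : ℝ) < n * d := by positivity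
  have e6 : ∀ p : Equiv.Perm (HE n d), ((Finset.univ.filter fun h : HE n d =>
      ¬ Off522.Fine (lev J).1 (BE p s ω (ze E η) h)).card : ℝ) = (n * d) * q J p := by
    intro p
    simp only [hq]
    rw [qk_eq, IsPort.card_HE, ← Finset.sum_filter, Finset.sum_const, nsmul_eq_mul, mul_one]
    push_cast
    rw [mul_div_cancel₀ _ hnd.ne']
  calc ∑ p ∈ Ports n d, ((Finset.univ.filter fun h : HE n d =>
        ¬ Off522.Fine (lev J).1 (BE p s ω (ze E η) h)).card : ℝ)
      = ∑ p ∈ Ports n d, (n * d : ℝ) * q J p := Finset.sum_congr rfl fun p _ => e6 p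
    _ = (n * d : ℝ) * ∑ p ∈ Ports n d, q J p := by rw [Finset.mul_sum]
    _ ≤ (n * d : ℝ) * (ε * (Ports n d).card) := mul_le_mul_of_nonneg_left e5 hnd.le
    _ = ε * (n * d) * (Ports n d).card := by ring

end Crest.Agent.R166.F1From420
end

-- ▼ part R166/FineStep_522
section

/-!
# Row 166, section 32 (graph half), helper522: the one-step estimate of F1, port side

* `phi2`, `t2`, `dat2` : the two-sided ball of depth 2 as a `DecP789.Dat` with tree
  `Bool × Option (NZ d)`;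
* `hT2_root`, `hT2_child` : rows of the tree Hamiltonian;
* `fine_det` : deterministic one-step statement;
-/

set_option autoImplicit false
set_option linter.unusedSectionVars false

open Matrix Finset

namespace Crest.Agent.R166.Fine522

open Crest.Agent.R166 Crest.Agent.R166.Stab269 Crest.Agent.R166.SwP470 Crest.Agent.R166.DecP789
open Crest.Agent.R166.Dec598 (edgeM emb treeOut leafXi)
open Crest.Agent.R166.Off522

variable {n d : ℕ} [NeZero d]

/-- word of a tree vertex -/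
def wo : Option (NZ d) → List (Fin d)
  | none => []
  | some k => [k.1]

lemma wo_NZw (o : Option (NZ d)) : NZw (wo o) := by
  cases o with
  | none => simp [wo, NZw]
  | some k =>
    intro x hx
    simp only [wo, List.mem_singleton] at hx
    rw [hx]; exact k.2

lemma wo_length (o : Option (NZ d)) : (wo o).length ≤ 1 := by
  cases o <;> simp [wo]

lemma wo_inj {o o' : Option (NZ d)} (h : wo o = wo o') : o = o' := by
  cases o <;> cases o' <;> simp_all [wo, Subtype.ext_iff]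

/-- ball vertices of depth `< 2` -/
def phi2 (p : Equiv.Perm (HE n d)) (h0 : HE n d) (x : Bool × Option (NZ d)) : Fin n :=
  bv p h0 x.1 (wo x.2)

/-- parents of the leaves -/
def t2 (i : BI d 2) : Bool × Option (NZ d) := (i.1, some (i.2 0))

variable {p : Equiv.Perm (HE n d)} {h0 : HE n d}

lemma phi2_eq (htl : TL 2 p h0) {x y : Bool × Option (NZ d)} :
    phi2 p h0 x = phi2 p h0 y ↔ x = y := by
  constructor
  · intro h
    have h1 := wo_length x.2
    have h2 := wo_length y.2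
    have := htl _ _ _ _ (wo_NZw x.2) (wo_NZw y.2) (by omega) (by omega) h
    exact Prod.ext this.1 (wo_inj this.2)
  · rintro rfl; rfl

lemma phi2_injective (htl : TL 2 p h0) : Function.Injective (phi2 p h0) :=
  fun _ _ h => (phi2_eq htl).1 h

lemma phi2_range (x : Fin n) : x ∈ Set.range (phi2 p h0) ↔
    ∃ s w, NZw w ∧ w.length < 2 ∧ bv p h0 s w = x := by
  constructor
  · rintro ⟨y, rfl⟩
    have := wo_length y.2
    exact ⟨y.1, wo y.2, wo_NZw _, by omega, rfl⟩
  · rintro ⟨s, w, hw, hl, rfl⟩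
    match w, hw, hl with
    | [], _, _ => exact ⟨(s, none), rfl⟩
    | [k], hw, _ => exact ⟨(s, some ⟨k, hw k (by simp)⟩), rfl⟩
    | _ :: _ :: _, _, hl => simp at hl

lemma wd_two (f : Fin 2 → NZ d) : wd f = [(f 0).1] ++ [(f 1).1] := by
  unfold wd
  simp [List.ofFn_succ]

lemma phi2_t2 (i : BI d 2) : phi2 p h0 (t2 i) = (tau p h0 i).1 := by
  unfold phi2 t2 tau
  rw [wd_two, desc_fst_snoc]
  rfl

lemma dat2 (hp : IsPort p) {b : BI d 2 → HE n d} (h : BVal 2 p h0 b) :
    Dat p (np p h0 b) (phi2 p h0) t2 (tau p h0) b :=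
  dat_np (by norm_num) hp h (phi2_injective h.tl) phi2_range phi2_t2

/-- the tree Hamiltonian -/
noncomputable def hT2 (p : Equiv.Perm (HE n d)) (h0 : HE n d) (s : ℝ) (ω : Fin n → ℝ) :
    Matrix (Bool × Option (NZ d)) (Bool × Option (NZ d)) ℝ :=
  hT p (phi2 p h0) s ω (UR (false, none) (true, none))

/-- adjacency of the root vertices -/
lemma adj_root_root (hp : IsPort p) (htl : TL 2 p h0) (s s' : Bool) :
    (graphOf p).Adj (phi2 p h0 (s, none)) (phi2 p h0 (s', none)) ↔ s' = !s := by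
  have h1 : phi2 p h0 (s, none) = bv p h0 s [] := rfl
  rw [h1, DecP789.adj_bv hp]
  constructor
  · rintro (⟨k, hk, he⟩ | he)
    · have he' : bv p h0 s' [] = bv p h0 s [k] := he
      have := htl _ _ _ _ (by simp [NZw]) (by simpa [NZw] using hk) (by simp) (by simp) he'
      simp at this
    · rw [desc_fst_nil hp] at he
      have := htl _ _ _ _ (by simp [NZw, wo]) (by simp [NZw]) (by simp [wo]) (by simp) he
      exact this.1
  · rintro rfl
    right
    rw [desc_fst_nil hp]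
    rfl

lemma adj_root_child (hp : IsPort p) (htl : TL 2 p h0) (s s' : Bool) (k : NZ d) :
    (graphOf p).Adj (phi2 p h0 (s, none)) (phi2 p h0 (s', some k)) ↔ s' = s := by
  have h1 : phi2 p h0 (s, none) = bv p h0 s [] := rfl
  rw [h1, DecP789.adj_bv hp]
  constructor
  · rintro (⟨l, hl, he⟩ | he)
    · have he' : bv p h0 s' [k.1] = bv p h0 s [l] := he
      have := htl _ _ _ _ (by simpa [NZw] using k.2) (by simpa [NZw] using hl) (by simp) (by simp)
        he'
      exact this.1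
    · rw [desc_fst_nil hp] at he
      have he' : bv p h0 s' [k.1] = bv p h0 (!s) [] := he
      have := htl _ _ _ _ (by simpa [NZw] using k.2) (by simp [NZw]) (by simp) (by simp) he'
      simp at this
  · rintro rfl
    left
    exact ⟨k.1, k.2, rfl⟩

lemma adj_child_child (hp : IsPort p) (htl : TL 2 p h0) (s s' : Bool) (k l : NZ d) :
    ¬ (graphOf p).Adj (phi2 p h0 (s, some k)) (phi2 p h0 (s', some l)) := by
  have h1 : phi2 p h0 (s, some k) = bv p h0 s [k.1] := rfl
  rw [h1, DecP789.adj_bv hp]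
  rintro (⟨m, hm, he⟩ | he)
  · have he' : bv p h0 s' [l.1] = bv p h0 s [k.1, m] := he
    have h2 : NZw [k.1, m] := by
      intro x hx
      simp only [List.mem_cons, List.not_mem_nil, or_false] at hx
      rcases hx with rfl | rfl
      · exact k.2
      · exact hm
    have := htl _ _ _ _ (by simpa [NZw] using l.2) h2 (by simp) (by simp) he'
    simp at this
  · have h3 : (desc p (rt p h0 s) [k.1]).1 = bv p h0 s [] := desc_fst_snoc s [] k.1
    rw [h3] at he
    have he' : bv p h0 s' [l.1] = bv p h0 s [] := he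
    have := htl _ _ _ _ (by simpa [NZw] using l.2) (by simp [NZw]) (by simp) (by simp) he'
    simp at this

lemma UR_entry (x y : Bool × Option (NZ d)) :
    UR ((false, none) : Bool × Option (NZ d)) (true, none) x y =
      -((if x = (false, none) ∧ y = (true, none) then 1 else 0) +
        (if x = (true, none) ∧ y = (false, none) then 1 else 0)) := by
  unfold UR
  rw [Matrix.neg_apply, Dec598.edgeM_apply]
  simp

lemma hT2_entry (hp : IsPort p) (htl : TL 2 p h0) (s : ℝ) (ω : Fin n → ℝ)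
    (x y : Bool × Option (NZ d)) :
    hT2 p h0 s ω x y = (if x = y then s * ω (phi2 p h0 x) else 0) +
      (if x.1 = y.1 ∧ (x.2.isNone ↔ y.2.isSome) then 1 else 0) := by
  classical
  unfold hT2 hT
  rw [Matrix.add_apply, Matrix.submatrix_apply, Hm_apply, UR_entry]
  obtain ⟨a, x⟩ := x
  obtain ⟨c, y⟩ := y
  have hd : (s * if phi2 p h0 (a, x) = phi2 p h0 (c, y) then ω (phi2 p h0 (a, x)) else 0) =
      if (a, x) = (c, y) then s * ω (phi2 p h0 (a, x)) else 0 := by
    by_cases h : (a, x) = (c, y)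
    · rw [if_pos h, if_pos (by rw [h])]
    · rw [if_neg h, if_neg (fun h' => h ((phi2_eq htl).1 h')), mul_zero]
  rw [hd]
  cases x with
  | none =>
    cases y with
    | none =>
      rw [if_congr (adj_root_root hp htl a c) rfl rfl]
      cases a <;> cases c <;> simp
    | some l =>
      rw [if_congr (adj_root_child hp htl a c l) rfl rfl]
      cases a <;> cases c <;> simp
  | some k =>
    cases y with
    | none =>
      rw [if_congr ((graphOf p).adj_comm _ _ |>.trans (adj_root_child hp htl c a k)) rfl rfl]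
      cases a <;> cases c <;> simp
    | some l =>
      rw [if_neg (adj_child_child hp htl a c k l)]
      simp


lemma hT2_root (hp : IsPort p) (htl : TL 2 p h0) (s : ℝ) (ω : Fin n → ℝ) (a : Bool)
    (y : Bool × Option (NZ d) → ℂ) :
    (Res598.cx (hT2 p h0 s ω) *ᵥ y) (a, none) =
      ((s * ω (phi2 p h0 (a, none)) : ℝ) : ℂ) * y (a, none) + ∑ k, y (a, some k) := by
  simp only [Matrix.mulVec, dotProduct, Res598.cx_apply, hT2_entry hp htl, Fintype.sum_prod_type,
    Fintype.sum_option, Fintype.sum_bool]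
  cases a <;> simp

lemma hT2_child (hp : IsPort p) (htl : TL 2 p h0) (s : ℝ) (ω : Fin n → ℝ) (a : Bool) (k : NZ d)
    (y : Bool × Option (NZ d) → ℂ) :
    (Res598.cx (hT2 p h0 s ω) *ᵥ y) (a, some k) =
      ((s * ω (phi2 p h0 (a, some k)) : ℝ) : ℂ) * y (a, some k) + y (a, none) := by
  simp only [Matrix.mulVec, dotProduct, Res598.cx_apply, hT2_entry hp htl, Fintype.sum_prod_type,
    Fintype.sum_option, Fintype.sum_bool]
  have h1 : ∀ a : Bool, ∑ x : NZ d, ((if k = x then s * ω (phi2 p h0 (a, some k)) else 0 : ℝ) : ℂ) *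
      y (a, some x) = s * ω (phi2 p h0 (a, some k)) * y (a, some k) := by
    intro a
    rw [Finset.sum_eq_single k]
    · simp
    · intro l _ hl
      rw [if_neg (Ne.symm hl)]; simp
    · simp
  cases a <;> simp [add_comm, h1]

/-! ### combinatorics of one exceptional leaf -/

lemma card_NZ : Fintype.card (NZ d) = d - 1 := by
  classical
  have : Fintype.card (NZ d) = Fintype.card (Fin d) - 1 := by
    rw [Fintype.card_subtype_compl, Fintype.card_subtype_eq]
  rw [this, Fintype.card_fin]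

lemma exists_other (hd : 3 ≤ d) (k : NZ d) : ∃ l : NZ d, l ≠ k := by
  have h1 : 1 < Fintype.card (NZ d) := by rw [card_NZ]; omega
  have : Nontrivial (NZ d) := Fintype.one_lt_card_iff_nontrivial.1 h1
  exact exists_ne k

lemma hg1 (hd : 3 ≤ d) {A : Finset (BI d 2)} (hA : A.card ≤ 1) (s : Bool) (k : NZ d) :
    ∃ j : Jt A, tt t2 A (Sum.inr j) = (s, some k) := by
  obtain ⟨l, hl⟩ := exists_other hd k
  have h1 : ∃ f : Fin 2 → NZ d, f 0 = k ∧ (s, f) ∉ A := by
    by_contra hno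
    push Not at hno
    have ha := hno ![k, k] rfl
    have hb := hno ![k, l] rfl
    have hne : ((s, ![k, k]) : BI d 2) ≠ (s, ![k, l]) := by
      intro h
      have h2 := congrFun (Prod.mk.inj h).2 1
      simp at h2
      exact hl h2.symm
    have : 1 < A.card := Finset.one_lt_card.2 ⟨_, ha, _, hb, hne⟩
    omega
  obtain ⟨f, hf, hfA⟩ := h1
  exact ⟨⟨(s, f), hfA⟩, by simp [tt, t2, hf]⟩

lemma hg2 (hd : 3 ≤ d) {A : Finset (BI d 2)} (hA : A.card ≤ 1) (s : Bool) :
    ∃ k : NZ d, ∀ a : At A, tt t2 A (Sum.inl a) ≠ (s, some k) := by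
  obtain ⟨l0, hl0⟩ : ∃ l : NZ d, True := ⟨⟨⟨1, by omega⟩, by
    intro h
    have := congrArg Fin.val h
    simp at this⟩, trivial⟩
  rcases A.eq_empty_or_nonempty with rfl | ⟨a, ha⟩
  · exact ⟨l0, fun x => absurd x.2 (Finset.notMem_empty _)⟩
  · obtain ⟨l, hl⟩ := exists_other hd (a.2 0)
    refine ⟨l, fun x hx => ?_⟩
    have hxa : x.1 = a := Finset.card_le_one.1 hA _ x.2 _ ha
    simp only [tt, t2, Sum.elim_inl, hxa, Prod.mk.injEq, Option.some.injEq] at hx
    exact hl hx.2.symm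

/-- `S0` of the depth-two ball -/
noncomputable def S2t (p : Equiv.Perm (HE n d)) (h0 : HE n d) : Finset (Fin n) :=
  S0 p (phi2 p h0) (tau p h0 : BI d 2 → HE n d)

/-- number of leaves -/
def NL (d : ℕ) [NeZero d] : ℕ := Fintype.card (BI d 2) + Fintype.card (NZ d)

/-- constant of the deterministic step -/
noncomputable def kap2 (d : ℕ) [NeZero d] (κ : ℝ) : ℝ :=
  kap1 2 (kap1 2 κ / (2 * C2 (NL d) (d + 1) (kap1 2 κ)⁻¹ ^ 2) / 2)

lemma C2_pos {N : ℕ} {Z0 M : ℝ} (hZ : 0 ≤ Z0) (hM : 0 ≤ M) : 0 < C2 N Z0 M := by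
  unfold C2 C1
  have h1 : (0 : ℝ) ≤ N := Nat.cast_nonneg _
  have h2 : 0 ≤ 2 * (N : ℝ) * M := by positivity
  nlinarith

lemma kap2_pos {κ : ℝ} (hκ : 0 < κ) : 0 < kap2 d κ := by
  unfold kap2
  have h1 : 0 < kap1 2 κ := kap1_pos hκ
  have h2 : 0 < C2 (NL d) ((d : ℝ) + 1) (kap1 2 κ)⁻¹ :=
    C2_pos (by positivity) (inv_nonneg.2 h1.le)
  exact kap1_pos (by positivity)

lemma fine_B0 {κ : ℝ} {s : ℝ} {ω : Fin n → ℝ} {z : ℂ} {h : HE n d} (hf : Fine κ (BE p s ω z h)) :
    Fine (kap1 2 κ) (B0 p s ω z h) := hf.cavB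

/-- generic form of the deterministic step -/
theorem fine_gen {ι K : Type*} [Fintype ι] [DecidableEq ι] [Fintype K] [DecidableEq K]
    {p p' : Equiv.Perm (HE n d)} {φ : Bool × Option K → Fin n} {t : ι → Bool × Option K}
    {τ b : ι → HE n d} (hD : Dat p p' φ t τ b) {h0 : HE n d}
    (h0r : φ (false, none) = h0.1) (h1r : φ (true, none) = (p' h0).1)
    {s : ℝ} {ω : Fin n → ℝ} {z : ℂ} (hz : 0 < z.im) {Z0 : ℝ} (hz0 : ‖z‖ ≤ Z0)
    (a : Bool × Option K → ℝ) (ha : ∀ τ, |a τ| ≤ 1)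
    (hroot : ∀ r (y : Bool × Option K → ℂ),
      (Res598.cx (hT p φ s ω (UR (false, none) (true, none))) *ᵥ y) (r, none) =
      a (r, none) * y (r, none) + ∑ k, y (r, some k))
    (hchild : ∀ r k (y : Bool × Option K → ℂ),
      (Res598.cx (hT p φ s ω (UR (false, none) (true, none))) *ᵥ y) (r, some k) =
      a (r, some k) * y (r, some k) + y (r, none))
    {κ : ℝ} (hκ : 0 < κ) {A : Finset ι}
    (hB : ∀ j, j ∉ A → Fine κ (BE p s ω z (b j)))
    (ht : ∀ i r, t i ≠ (r, none))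
    (hg1 : ∀ r k, ∃ j : Jt A, tt t A (Sum.inr j) = (r, some k))
    (hg2 : ∀ r, ∃ k, ∀ a : At A, tt t A (Sum.inl a) ≠ (r, some k))
    {N : ℕ} (hJ : Fintype.card ι ≤ N) (hK : Fintype.card K ≤ N)
    (hlt : cE (S0 p φ τ) (Res789.Res (Hm (graphOf p) s ω) z) p b A κ ≤ 1 / 3) :
    Fine (kap1 2 κ / (2 * C2 N Z0 (kap1 2 κ)⁻¹ ^ 2) / 2) (B0 p' s ω z h0) := by
  have hk1 : 0 < kap1 2 κ := kap1_pos hκ
  have hlt1 : cE (S0 p φ τ) (Res789.Res (Hm (graphOf p) s ω) z) p b A κ < 1 := by linarith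
  have key := dec_port hD A s ω (UR_symm (false, none) (true, none)) hz hκ
    (fun j hj y => (hB j hj).im y) hlt1
  set ε := cE (S0 p φ τ) (Res789.Res (Hm (graphOf p) s ω) z) p b A κ with hε
  have hSg := siegel_SgB hD A s ω (UR_symm ((false, none) : Bool × Option K) (true, none)) hz
  have hC : ∀ j : Jt A, Res598.Siegel (B0 p s ω z (b j.1)) := fun j =>
    siegel_cavB (hB j.1 j.2).siegel
  have hsym := hT_symm p φ s ω (UR_symm ((false, none) : Bool × Option K) (true, none))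
  set h := hT p φ s ω (UR (false, none) (true, none)) with hh
  have hSO := Dec598.siegel_treeOut (Res789.Res_sieg hsym hz).siegel (tt t A)
      (Dec598.siegel_leafXi hSg hC (aJ A) (uA_injective A))
  have key2 := key.sub ![((false, none) : Bool × Option K), (true, none)] hSO
  rw [root_corner hD.port' s ω hz (h0 := h0) h0r h1r] at key2
  have hF := fine_tree2 hSg hC (aJ A) (uA_injective A) (tt t A) hk1
    (fun j => (fine_B0 (hB j.1 j.2)).im) (inv_nonneg.2 hk1.le)
    (fun j => (fine_B0 (hB j.1 j.2)).le) hsym a ha hroot hchild hz hz0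
    (fun i r => by
      rcases i with i | i
      · exact ht _ r
      · exact ht _ r) hg1 hg2 (N := N)
    ((Fintype.card_subtype_le (fun i : ι => i ∉ A)).trans hJ) hK
  have hε0 : 0 ≤ ε := by
    rw [hε]; unfold cE
    positivity
  have h5 : ε / (1 - ε) ≤ 1 / 2 := by
    rw [div_le_iff₀ (by linarith)]
    linarith
  exact fine_near hF h5 key2

/-- **deterministic one-step statement** -/
theorem fine_det (hd : 3 ≤ d) (hp : IsPort p) {b : BI d 2 → HE n d} (h : BVal 2 p h0 b)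
    {s : ℝ} (hs : |s| ≤ 1) {ω : Fin n → ℝ} (hω : ∀ v, |ω v| ≤ 1) {z : ℂ} (hz : 0 < z.im)
    (hz0 : ‖z‖ ≤ d + 1) {κ : ℝ} {A : Finset (BI d 2)} (hA : A.card ≤ 1)
    (hB : ∀ j, j ∉ A → Fine κ (BE p s ω z (b j)))
    (hlt : cE (S2t p h0) (Res789.Res (Hm (graphOf p) s ω) z) p b A κ ≤ 1 / 3) :
    Fine (kap2 d κ) (BE (np p h0 b) s ω z h0) := by
  have hκ : 0 < κ := by
    obtain ⟨j, -⟩ := hg1 hd hA true ⟨⟨1, by omega⟩, by
      intro h
      have := congrArg Fin.val h
      simp at this⟩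
    exact (hB j.1 j.2).pos
  have hnp : np p h0 b h0 = p h0 := by
    have := h.np_interior (by norm_num) hp true (w := []) (by simp [NZw]) (by simp)
    simpa [rt] using this
  have h6 := fine_gen (dat2 hp h) (h0 := h0)
    (by simp [phi2, wo, bv, rt, hp.inv]) (by rw [hnp]; simp [phi2, wo, bv, rt]) hz hz0
    (fun τ => s * ω (phi2 p h0 τ))
    (fun τ => by
      rw [abs_mul]
      exact mul_le_one₀ hs (abs_nonneg _) (hω _))
    (fun a y => hT2_root hp h.tl s ω a y) (fun a k y => hT2_child hp h.tl s ω a k y) hκ hB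
    (fun i a => by simp [t2])
    (fun a k => hg1 hd hA a k) (fun a => hg2 hd hA a) (N := NL d)
    (by unfold NL; omega) (by unfold NL; omega) hlt
  exact fine_of_cavB (sieg_BE (h.isPort (by norm_num) hp) s ω hz h0).siegel h6

end Crest.Agent.R166.Fine522
private theorem rz_6b4ffaac0b : type_of% @_root_.Crest.Agent.R166.Fine522.wo.eq_1 := @_root_.Crest.Agent.R166.Fine522.wo.eq_1 -- L28
end

-- ▼ part R166/FineProb_522

/-!
# Row 166, section 32 (graph half), helper522: the one-step estimate `F1Step`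
-/

set_option autoImplicit false
set_option linter.unusedSectionVars false

open Matrix Finset

namespace Crest.Agent.R166.Fine522

open Crest.Agent.R166 Crest.Agent.R166.Stab269 Crest.Agent.R166.SwP470 Crest.Agent.R166.DecP789
open Crest.Agent.R166.Off522 Crest.Agent.R166.Rev811

variable {n d : ℕ} [NeZero d]

/-- bound of the total coupling on admissible events -/
lemma cE_le_adm {ι : Type*} [Fintype ι] [DecidableEq ι] {S : Finset (Fin n)}
    {R : Matrix (Fin n) (Fin n) ℂ} {p : Equiv.Perm (HE n d)} {b : ι → HE n d} {A : Finset ι}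
    {c ε : ℝ} (hc : 0 < c) (hε : 0 ≤ ε) {Bad : HE n d → Prop}
    (hadm : Adm Bad (CpW S R p ε) (PrW R p ε) A b) :
    cE S R p b A c ≤ (2 * Fintype.card ι / Real.sqrt c + (Fintype.card ι : ℝ) ^ 2 / c) * ε := by
  unfold cE
  have h1 : ∑ j ∈ Aᶜ, Real.sqrt (cpl (GA S p A b) R p (b j)) ≤ Fintype.card ι * ε := by
    calc _ ≤ ∑ _j ∈ Aᶜ, ε := by
          refine Finset.sum_le_sum fun j hj => ?_
          have h2 := hadm.1 j (Finset.mem_compl.1 hj)
          unfold Wk CpW at h2
          push Not at h2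
          exact Real.sqrt_le_iff.2 ⟨hε, h2.2⟩
      _ = (Aᶜ.card : ℝ) * ε := by rw [Finset.sum_const, nsmul_eq_mul]
      _ ≤ _ := mul_le_mul_of_nonneg_right (by exact_mod_cast Finset.card_le_univ _) hε
  have h2 : ∑ jk ∈ (Aᶜ).offDiag, Real.sqrt (cpl2 R p (b jk.1) (b jk.2)) ≤
      (Fintype.card ι : ℝ) ^ 2 * ε := by
    calc _ ≤ ∑ _jk ∈ (Aᶜ).offDiag, ε := by
          refine Finset.sum_le_sum fun jk hjk => ?_
          obtain ⟨ha, hb, hne⟩ := Finset.mem_offDiag.1 hjk
          have h2 := hadm.2 jk.1 jk.2 (Finset.mem_compl.1 ha) (Finset.mem_compl.1 hb) hne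
          unfold PrW at h2
          push Not at h2
          exact Real.sqrt_le_iff.2 ⟨hε, h2⟩
      _ = ((Aᶜ).offDiag.card : ℝ) * ε := by rw [Finset.sum_const, nsmul_eq_mul]
      _ ≤ _ := by
          apply mul_le_mul_of_nonneg_right _ hε
          have h3 : (Aᶜ).offDiag.card ≤ Fintype.card ι * Fintype.card ι := by
            have := Finset.card_le_univ (Aᶜ).offDiag
            rwa [Fintype.card_prod] at this
          rw [sq]
          exact_mod_cast h3
  have hs : 0 < Real.sqrt c := Real.sqrt_pos.2 hc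
  calc _ ≤ 2 * (Fintype.card ι * ε) / Real.sqrt c + (Fintype.card ι : ℝ) ^ 2 * ε / c := by
        gcongr
    _ = _ := by ring

lemma card_S2t_le (p : Equiv.Perm (HE n d)) (h0 : HE n d) :
    (S2t p h0).card ≤ Fintype.card (Bool × Option (NZ d)) + Fintype.card (BI d 2) :=
  card_S0_le _ _ _

lemma norm_ze_le {E η : ℝ} (hE : |E| ≤ d) (hη : 0 < η) (hη1 : η ≤ 1) :
    ‖ze E η‖ ≤ (d : ℝ) + 1 := by
  unfold ze
  refine (norm_add_le _ _).trans (add_le_add ?_ ?_)
  · rw [Complex.norm_real]; exact hE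
  · rw [norm_mul, Complex.norm_I, Complex.norm_real, one_mul, Real.norm_eq_abs, abs_of_pos hη]
    exact hη1

lemma pr_eq_card {ι Ω : Type*} [Fintype ι] [DecidableEq ι] [Fintype Ω] (P : (ι → Ω) → Prop)
    [DecidablePred P] :
    pr P = ((Finset.univ.filter P).card : ℝ) / Fintype.card (ι → Ω) := by
  classical
  unfold pr av
  congr 1
  rw [Finset.card_filter]
  push_cast
  refine Finset.sum_congr rfl fun x _ => ?_
  split_ifs <;> rfl

lemma pr_le_one {ι Ω : Type*} [Fintype ι] [DecidableEq ι] [Fintype Ω] [Nonempty Ω]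
    (P : (ι → Ω) → Prop) : pr P ≤ 1 := by
  rw [← pr_true (ι := ι) (Ω := Ω)]
  exact pr_mono fun _ _ => trivial

lemma im_le_of_fine {κ : ℝ} {s : ℝ} {ω : Fin n → ℝ} {z : ℂ} {p : Equiv.Perm (HE n d)} {h : HE n d}
    (hf : Fine κ (BE p s ω z h)) :
    (Res789.Res (Hm (graphOf p) s ω) z h.1 h.1).im +
      (Res789.Res (Hm (graphOf p) s ω) z (p h).1 (p h).1).im ≤ 2 * κ⁻¹ := by
  have h0 := hf.le 0 0
  have h1 := hf.le 1 1
  have e0 : BE p s ω z h 0 0 = Res789.Res (Hm (graphOf p) s ω) z h.1 h.1 := rfl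
  have e1 : BE p s ω z h 1 1 = Res789.Res (Hm (graphOf p) s ω) z (p h).1 (p h).1 := rfl
  rw [e0] at h0
  rw [e1] at h1
  have h2 := (le_abs_self _).trans (Complex.abs_im_le_norm
    (Res789.Res (Hm (graphOf p) s ω) z h.1 h.1))
  have h3 := (le_abs_self _).trans (Complex.abs_im_le_norm
    (Res789.Res (Hm (graphOf p) s ω) z (p h).1 (p h).1))
  linarith

/-- **the one-step estimate of F1** -/
theorem f1Step (hd : 3 ≤ d) : SpecF1.F1Step d := by
  classical
  set N : ℝ := (Fintype.card (BI d 2) : ℝ) with hN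
  have hN0 : 0 ≤ N := Nat.cast_nonneg _
  set NS : ℕ := Fintype.card (Bool × Option (NZ d)) + Fintype.card (BI d 2) with hNS
  refine ⟨4 * N ^ 3 + 1, by positivity, fun κ hκ => ⟨kap2 d κ, kap2_pos hκ, ?_⟩⟩
  have hsκ : 0 < Real.sqrt κ := Real.sqrt_pos.2 hκ
  set D : ℝ := 2 * N / Real.sqrt κ + N ^ 2 / κ with hD
  have hD0 : 0 ≤ D := by positivity
  set ε : ℝ := 1 / (3 * (D + 1)) with hε
  have hε0 : 0 < ε := by positivity
  have hDε : D * ε ≤ 1 / 3 := by
    rw [hε, mul_one_div, div_le_iff₀ (by positivity)]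
    linarith
  set CQ : ℝ := (2 * (NS + 2 : ℝ) + 2 * (2 * κ⁻¹)) / ε ^ 2 with hCQ
  have hκi : 0 < κ⁻¹ := inv_pos.2 hκ
  have hCQ0 : 0 < CQ := by positivity
  refine ⟨(4 * N ^ 3 + N ^ 2 + 1) * CQ + SwInv356.Cinv d 2, by positivity, ?_⟩
  intro n hn E s η hE hs hη hη1 ω hω p hp h0 htl
  have hn0 : (0 : ℝ) < n := by exact_mod_cast hn
  have hd0 : 0 < d := by omega
  have hne : Nonempty (HE n d) := ⟨(⟨0, hn⟩, ⟨0, hd0⟩)⟩
  have hz : 0 < (ze E η).im := by simp [ze, hη]
  have hzim : (ze E η).im = η := by simp [ze]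
  set R := Res789.Res (Hm (graphOf p) s ω) (ze E η) with hR
  set q : ℝ := CQ / (n * η) with hq
  have hnη : 0 < (n : ℝ) * η := by positivity
  have hq0 : 0 ≤ q := by positivity
  have HY : Hyp (ι := BI d 2) (fun h => ¬ Fine κ (BE p s ω (ze E η) h))
      (CpW (S2t p h0) R p ε) (PrW R p ε) 1
      (pr1 fun h : HE n d => ¬ Fine κ (BE p s ω (ze E η) h)) q := by
    refine hyp_ward (Hm_symm _ s ω) hz hd0 p (S2t p h0) 1 hε0 _ (M := 2 * κ⁻¹) ?_ hq0 ?_ ?_
    · intro x hx
      exact im_le_of_fine (not_not.1 hx)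
    · rw [hzim, hq, hCQ, div_div, mul_comm (ε ^ 2)]
      apply div_le_div_of_nonneg_right _ (by positivity)
      have h1 : ((S2t p h0).card : ℝ) ≤ NS := by
        rw [hNS]; exact_mod_cast card_S2t_le p h0
      push_cast
      linarith
    · rw [hzim, hq, hCQ, div_div, mul_comm (ε ^ 2)]
      apply div_le_div_of_nonneg_right _ (by positivity)
      have : (0 : ℝ) ≤ NS := Nat.cast_nonneg _
      linarith
  have h1 := pr_not_adm_one (ι := BI d 2) le_rfl HY
  set P1 := pr1 fun h : HE n d => ¬ Fine κ (BE p s ω (ze E η) h) with hP1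
  have hP10 : 0 ≤ P1 := pr1_nonneg _
  -- validity
  have h2 : pr (fun b : BI d 2 → HE n d => ¬ BVal 2 p h0 b) ≤ SwInv356.Cinv d 2 / n := by
    rw [pr_eq_card]
    have h3 := SwInv356.card_inv_le hn hp htl
    have h4 : (0 : ℝ) < Fintype.card (BI d 2 → HE n d) := by
      exact_mod_cast Fintype.card_pos
    rw [div_le_iff₀ h4]
    convert h3
  -- the main inclusion
  have h3 : pr (fun b : BI d 2 → HE n d =>
      ¬ Fine (kap2 d κ) (BE (bsw 2 p (h0, b)).1 s ω (ze E η) h0)) ≤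
      pr (fun b : BI d 2 → HE n d => ¬ BVal 2 p h0 b ∨
        ∀ A : Finset (BI d 2), A.card ≤ 1 → ¬ Adm (fun h => ¬ Fine κ (BE p s ω (ze E η) h))
          (CpW (S2t p h0) R p ε) (PrW R p ε) A b) := by
    apply pr_mono
    intro b hb
    by_contra hcon
    push Not at hcon
    obtain ⟨hv, A, hA, hadm⟩ := hcon
    apply hb
    rw [bsw_pos (m := (h0, b)) hv]
    refine fine_det hd hp hv hs hω hz (norm_ze_le hE hη hη1) hA ?_ ?_
    · intro j hj
      have := hadm.1 j hj
      unfold Wk at this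
      push Not at this
      exact this.1
    · refine (cE_le_adm hκ hε0.le hadm).trans ?_
      exact hDε
  have h4 := h3.trans (pr_or _ _)
  -- numerics
  have h5 : (SwInv356.Cinv d 2 : ℝ) / n ≤ SwInv356.Cinv d 2 / (n * η) := by
    apply div_le_div_of_nonneg_left (Nat.cast_nonneg _) hnη
    nlinarith
  have h6 : ((4 * N ^ 3 + N ^ 2 + 1) * CQ + SwInv356.Cinv d 2) / (n * η) =
      (4 * N ^ 3 + N ^ 2 + 1) * q + SwInv356.Cinv d 2 / (n * η) := by
    rw [hq, add_div, mul_div_assoc]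
  rw [h6]
  by_cases hq1 : q ≤ 1
  · have h7 : (P1 + q) ^ 2 ≤ 2 * P1 ^ 2 + 2 * q := by
      nlinarith [sq_nonneg (P1 - q)]
    have h8 : 2 * N ^ 3 * (P1 + q) ^ 2 + N ^ 2 * q ≤
        (4 * N ^ 3) * P1 ^ 2 + (4 * N ^ 3 + N ^ 2) * q := by
      have : 2 * N ^ 3 * (P1 + q) ^ 2 ≤ 2 * N ^ 3 * (2 * P1 ^ 2 + 2 * q) :=
        mul_le_mul_of_nonneg_left h7 (by positivity)
      linarith
    have h9 : 0 ≤ P1 ^ 2 := sq_nonneg _
    linarith
  · push Not at hq1
    have h7 : pr (fun b : BI d 2 → HE n d =>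
      ¬ Fine (kap2 d κ) (BE (bsw 2 p (h0, b)).1 s ω (ze E η) h0)) ≤ 1 := pr_le_one _
    have h8 : 0 ≤ (4 * N ^ 3 + 1) * P1 ^ 2 := by positivity
    have h9 : 0 ≤ (4 * N ^ 3 + N ^ 2) * q := by positivity
    have h10 : (0 : ℝ) ≤ SwInv356.Cinv d 2 / (n * η) := by positivity
    linarith

end Crest.Agent.R166.Fine522
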