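import Crest.Agent.R166.TreeCost2_350
import Crest.Agent.R166.MeanEq_269
import Crest.Agent.R166.SpecF3b_798
import Crest.Agent.R166.Sec2_522
import Crest.Agent.R166.SwComm_356
import Crest.Agent.R166.SwP3_470
import Crest.Agent.R166.MuU_395
import Crest.Agent.R166.Glue_269
import Crest.Agent.R166.ShapeT_598

-- ▼ part R166/AvgCon_798
section

/-!
# Row 166, section 32 (graph half, helper798): averaged one-level contraction over a finite set

`Ω` a finite nonempty set (half-edges), `P : Ω → ℂ × ℂ` pairs of cavity values, `e : Fin b → Ω`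
uniform choices.
* `cost_avg` : `E cost(F(X∘e), F(Y∘e)) ≤ (3/4 + 1/1000) V + C1 |D|² + C2 p V`;
* `mean_avg` : `|E (u F(X∘e) - u F(Y∘e)) - b m² D|² ≤ small V + C p V`;
* `av_comp`, `avC_comp` : marginals of the uniform choice under an injection of index sets.
-/

set_option autoImplicit false
set_option linter.unusedSectionVars false

open Finset

namespace Crest.Agent.R166.AvgCon798

open Crest.Agent.R166.TreeDet350 Crest.Agent.R166.Rev811 Crest.Agent.R166.MeanEq269

/-! ### marginals -/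

section marginal

variable {κ ι Ω : Type*} [Fintype κ] [DecidableEq κ] [Fintype ι] [DecidableEq ι] [Fintype Ω]

open Classical in
/-- overwrite `e` by `f` on the range of `k` -/
noncomputable def ovr (k : κ → ι) (e : ι → Ω) (f : κ → Ω) : ι → Ω := fun i =>
  if h : ∃ j, k j = i then f h.choose else e i

lemma ovr_k {k : κ → ι} (hk : Function.Injective k) (e : ι → Ω) (f : κ → Ω) (j : κ) :
    ovr k e f (k j) = f j := by
  unfold ovr
  have h : ∃ j', k j' = k j := ⟨j, rfl⟩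
  rw [dif_pos h, hk h.choose_spec]

lemma ovr_ovr {k : κ → ι} (hk : Function.Injective k) (e : ι → Ω) (f : κ → Ω) :
    ovr k (ovr k e f) (fun j => e (k j)) = e := by
  funext i
  by_cases h : ∃ j, k j = i
  · obtain ⟨j, rfl⟩ := h
    rw [ovr_k hk]
  · unfold ovr
    rw [dif_neg h, dif_neg h]

/-- the exchange -/
noncomputable def ovrE {k : κ → ι} (hk : Function.Injective k) :
    (ι → Ω) × (κ → Ω) ≃ (ι → Ω) × (κ → Ω) where
  toFun x := (ovr k x.1 x.2, fun j => x.1 (k j))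
  invFun x := (ovr k x.1 x.2, fun j => x.1 (k j))
  left_inv x := by
    refine Prod.ext (ovr_ovr hk _ _) ?_
    funext j
    exact ovr_k hk _ _ _
  right_inv x := by
    refine Prod.ext (ovr_ovr hk _ _) ?_
    funext j
    exact ovr_k hk _ _ _

theorem sum_comp {k : κ → ι} (hk : Function.Injective k) (G : (κ → Ω) → ℝ) :
    (Fintype.card (κ → Ω) : ℝ) * ∑ e : ι → Ω, G (fun j => e (k j)) =
      (Fintype.card (ι → Ω) : ℝ) * ∑ f, G f := by
  have h1 : ∑ x : (ι → Ω) × (κ → Ω), G (fun j => x.1 (k j)) =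
      ∑ x : (ι → Ω) × (κ → Ω), G x.2 :=
    Fintype.sum_equiv (ovrE hk) _ _ fun x => rfl
  rw [Fintype.sum_prod_type, Fintype.sum_prod_type] at h1
  simp only [Finset.sum_const, Finset.card_univ, nsmul_eq_mul] at h1
  rw [← h1, Finset.mul_sum]

theorem av_comp [Nonempty Ω] {k : κ → ι} (hk : Function.Injective k) (G : (κ → Ω) → ℝ) :
    av (fun e : ι → Ω => G (fun j => e (k j))) = av G := by
  have h := sum_comp (Ω := Ω) hk G
  have h1 : (0 : ℝ) < Fintype.card (ι → Ω) := by exact_mod_cast Fintype.card_pos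
  have h2 : (0 : ℝ) < Fintype.card (κ → Ω) := by exact_mod_cast Fintype.card_pos
  unfold av
  rw [div_eq_div_iff h1.ne' h2.ne']
  linarith

theorem avC_comp [Nonempty Ω] {k : κ → ι} (hk : Function.Injective k) (G : (κ → Ω) → ℂ) :
    avC (fun e : ι → Ω => G (fun j => e (k j))) = avC G := by
  apply Complex.ext
  · rw [avC_re, avC_re]
    exact av_comp hk fun f => (G f).re
  · rw [avC_im, avC_im]
    exact av_comp hk fun f => (G f).im

end marginal

/-! ### averages -/

section avg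

variable {Ω : Type*} [Fintype Ω] [Nonempty Ω]

lemma av1_mul_sq_le (f g : Ω → ℝ) :
    av1 (fun x => f x * g x) ^ 2 ≤ av1 (fun x => f x ^ 2) * av1 fun x => g x ^ 2 := by
  unfold av1
  have hO : (0 : ℝ) < Fintype.card Ω := by exact_mod_cast Fintype.card_pos
  rw [div_pow, div_mul_div_comm, ← sq]
  exact div_le_div_of_nonneg_right (Finset.sum_mul_sq_le_sq_mul_sq _ _ _) (by positivity)

lemma av1_const (c : ℝ) : av1 (fun _ : Ω => c) = c := by
  unfold av1
  have hO : (0 : ℝ) < Fintype.card Ω := by exact_mod_cast Fintype.card_pos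
  rw [Finset.sum_const, Finset.card_univ, nsmul_eq_mul]
  field_simp

lemma norm_avc_le (f : Ω → ℂ) : ‖avc f‖ ≤ av1 fun x => ‖f x‖ := by
  unfold avc av1
  rw [norm_div, Complex.norm_natCast]
  exact div_le_div_of_nonneg_right (norm_sum_le _ _) (Nat.cast_nonneg _)

lemma avc_sub (f g : Ω → ℂ) : avc f - avc g = avc fun x => f x - g x := by
  unfold avc
  rw [Finset.sum_sub_distrib, sub_div]

lemma avc_const_mul (c : ℂ) (f : Ω → ℂ) : avc (fun x => c * f x) = c * avc f := by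
  unfold avc
  rw [← Finset.mul_sum, mul_div_assoc]

end avg

/-! ### the contraction -/

section con

variable {Ω : Type*} [Fintype Ω] [Nonempty Ω] {b : ℕ} {y0 : ℝ} {z m : ℂ}

/-- `V` -/
noncomputable def VV (b : ℕ) (y0 : ℝ) (m : ℂ) (P : Ω → ℂ × ℂ) : ℝ :=
  av1 fun x => cost (Mc b y0) m (P x)

/-- `D` -/
noncomputable def DD (m : ℂ) (P : Ω → ℂ × ℂ) : ℂ :=
  avc fun x => uu m (P x).1 - uu m (P x).2

/-- `p` -/
noncomputable def pp (b : ℕ) (y0 : ℝ) (m : ℂ) (P : Ω → ℂ × ℂ) : ℝ :=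
  av1 fun x => bI m (rr b y0) (P x)

lemma pp_nonneg (b : ℕ) (y0 : ℝ) (m : ℂ) (P : Ω → ℂ × ℂ) : 0 ≤ pp b y0 m P :=
  av1_nonneg fun _ => bI_nonneg _ _

lemma pp_le_one (b : ℕ) (y0 : ℝ) (m : ℂ) (P : Ω → ℂ × ℂ) : pp b y0 m P ≤ 1 := by
  refine (av1_mono fun x => bI_le_one _ _).trans (le_of_eq ?_)
  exact av1_const 1

lemma VV_nonneg (h : Adm b y0 z m) (P : Ω → ℂ × ℂ) : 0 ≤ VV b y0 m P :=
  av1_nonneg fun _ => cost_nonneg h.Mc_pos.le _

lemma av1_rho_sq_le (h : Adm b y0 z m) (P : Ω → ℂ × ℂ) :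
    av1 (fun x => rho (P x).1 (P x).2 ^ 2) ≤ VV b y0 m P :=
  av1_mono fun _ => rho_sq_le_cost h.Mc_pos.le _

/-- `E ρ ≤ √V` -/
lemma av1_rho_le (h : Adm b y0 z m) (P : Ω → ℂ × ℂ) :
    av1 (fun x => rho (P x).1 (P x).2) ≤ Real.sqrt (VV b y0 m P) := by
  apply Real.le_sqrt_of_sq_le
  exact (av1_sq_le _).trans (av1_rho_sq_le h P)

/-- `E 1_bad ρ ≤ √(p V)` -/
lemma av1_bI_rho_le (h : Adm b y0 z m) (P : Ω → ℂ × ℂ) :
    av1 (fun x => bI m (rr b y0) (P x) * rho (P x).1 (P x).2) ≤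
      Real.sqrt (pp b y0 m P * VV b y0 m P) := by
  apply Real.le_sqrt_of_sq_le
  refine (av1_mul_sq_le _ _).trans ?_
  refine mul_le_mul ?_ (av1_rho_sq_le h P) (av1_nonneg fun _ => sq_nonneg _) (pp_nonneg _ _ _ _)
  refine av1_mono fun x => ?_
  have h1 := bI_nonneg (m := m) (rr b y0) (P x)
  have h2 := bI_le_one (m := m) (rr b y0) (P x)
  nlinarith

/-- constants -/
noncomputable def C1 (y0 : ℝ) : ℝ := 3 / y0 ^ 2
noncomputable def C2 (b : ℕ) (y0 : ℝ) : ℝ := 25 / y0 ^ 4 + CF b y0 * b ^ 2 + C3 b y0 * b ^ 3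

lemma xi_sq_le (h : Adm b y0 z m) {p : ℂ × ℂ} (h1 : 0 < p.1.im) (h2 : 0 < p.2.im) :
    CA b m * (b * ‖(gI m (rr b y0) p : ℂ) * (p.1 - p.2)‖ ^ 2) ≤
      3 / 4 * (gI m (rr b y0) p * cost (Mc b y0) m p) := by
  have hr0 := h.rr_pos
  have hyp := h.hy
  have him := h.im_pos
  have hb2 := h.b2
  have hr400 := h.rr_le'
  have hy1 := h.y0_lt_one
  have hb0 : (0 : ℝ) < b := by linarith
  by_cases hg : Good m (rr b y0) p
  · rw [gI_good hg]
    have hδ := h.norm_sub_le_good h1 h2 (by linarith) hg.1 hg.2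
    have hrho := rho_nonneg p.1 p.2
    have hc := rho_sq_le_cost (m := m) h.Mc_pos.le p
    rw [Complex.ofReal_one, one_mul, one_mul]
    have h3 : ‖p.1 - p.2‖ ^ 2 ≤ (2 * m.im + 4 * rr b y0) ^ 2 * rho p.1 p.2 ^ 2 := by
      rw [← mul_pow]
      exact pow_le_pow_left₀ (norm_nonneg _) hδ 2
    have h4 : (2 * m.im + 4 * rr b y0) ^ 2 ≤ (1 + 1 / 50) * (4 * m.im ^ 2) := by
      have h5 : 400 * rr b y0 ≤ m.im := by linarith [h.him]
      nlinarith [mul_nonneg hr0.le (sub_nonneg.2 h5), mul_nonneg him.le (sub_nonneg.2 h5)]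
    have h6 : ‖p.1 - p.2‖ ^ 2 ≤ (1 + 1 / 50) * (4 * m.im ^ 2) * cost (Mc b y0) m p := by
      refine h3.trans (mul_le_mul h4 hc (by positivity) (by positivity))
    have hcost := cost_nonneg (m := m) h.Mc_pos.le p
    have hCA : 0 ≤ CA b m := by unfold CA; positivity
    calc CA b m * (b * ‖p.1 - p.2‖ ^ 2)
        ≤ CA b m * (b * ((1 + 1 / 50) * (4 * m.im ^ 2) * cost (Mc b y0) m p)) :=
          mul_le_mul_of_nonneg_left (mul_le_mul_of_nonneg_left h6 hb0.le) hCA
      _ = (1 + 6 / 100) * (1 + 1 / 50) * ((b : ℝ)⁻¹ * cost (Mc b y0) m p) := by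
          unfold CA
          field_simp
      _ ≤ (1 + 6 / 100) * (1 + 1 / 50) * ((1 / 2) * cost (Mc b y0) m p) := by
          have h7 : (b : ℝ)⁻¹ ≤ 1 / 2 := by
            rw [inv_le_comm₀ hb0 (by norm_num)]
            linarith
          exact mul_le_mul_of_nonneg_left (mul_le_mul_of_nonneg_right h7 hcost) (by norm_num)
      _ ≤ 3 / 4 * cost (Mc b y0) m p := by nlinarith
  · rw [gI_bad hg]
    simp

lemma avc_xi_sq_le (h : Adm b y0 z m) {P : Ω → ℂ × ℂ} (hP1 : ∀ x, 0 < (P x).1.im)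
    (hP2 : ∀ x, 0 < (P x).2.im) :
    CA b m * (b ^ 2 * ‖avc (fun x => (gI m (rr b y0) (P x) : ℂ) * ((P x).1 - (P x).2))‖ ^ 2) ≤
      C1 y0 * ‖DD m P‖ ^ 2 + 1 / 1000 * VV b y0 m P +
        25 / y0 ^ 4 * (pp b y0 m P * VV b y0 m P) := by
  have hr0 := h.rr_pos
  have hyp := h.hy
  have hy1 := h.y0_lt_one
  have him := h.im_pos
  have hb2 := h.b2
  have hb0 : (0 : ℝ) < b := by linarith
  have hV := VV_nonneg h P
  have hp := pp_nonneg b y0 m P
  set S := Real.sqrt (VV b y0 m P) with hS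
  set T := Real.sqrt (pp b y0 m P * VV b y0 m P) with hT
  have hS2 : S ^ 2 = VV b y0 m P := Real.sq_sqrt hV
  have hT2 : T ^ 2 = pp b y0 m P * VV b y0 m P := Real.sq_sqrt (mul_nonneg hp hV)
  have hS0 : 0 ≤ S := Real.sqrt_nonneg _
  have hT0 : 0 ≤ T := Real.sqrt_nonneg _
  have h1 : ‖avc (fun x => (gI m (rr b y0) (P x) : ℂ) * ((P x).1 - (P x).2))‖ ≤
      3 / 2 * ‖DD m P‖ + 1600 * rr b y0 * S + 5 / y0 * T := by
    have e1 : avc (fun x => (gI m (rr b y0) (P x) : ℂ) * ((P x).1 - (P x).2)) =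
        (avc (fun x => (gI m (rr b y0) (P x) : ℂ) * ((P x).1 - (P x).2)) -
          (1 - m ^ 2) * DD m P) + (1 - m ^ 2) * DD m P := by ring
    rw [e1]
    refine (norm_add_le _ _).trans ?_
    have h2 : ‖(1 - m ^ 2) * DD m P‖ ≤ 3 / 2 * ‖DD m P‖ := by
      rw [norm_mul]
      exact mul_le_mul_of_nonneg_right h.norm_a_le (norm_nonneg _)
    have h3 : ‖avc (fun x => (gI m (rr b y0) (P x) : ℂ) * ((P x).1 - (P x).2)) -
          (1 - m ^ 2) * DD m P‖ ≤ 1600 * rr b y0 * S + 5 / y0 * T := by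
      unfold DD
      rw [← avc_const_mul, avc_sub]
      refine (norm_avc_le _).trans ((av1_mono fun x => h.disp_u (hP1 x) (hP2 x)).trans ?_)
      rw [av1_add, av1_const_mul, av1_const_mul]
      exact add_le_add (mul_le_mul_of_nonneg_left (av1_rho_le h P) (by positivity))
        (mul_le_mul_of_nonneg_left (av1_bI_rho_le h P) (by positivity))
    linarith
  have h2 : ‖avc (fun x => (gI m (rr b y0) (P x) : ℂ) * ((P x).1 - (P x).2))‖ ^ 2 ≤
      3 * ((3 / 2 * ‖DD m P‖) ^ 2 + (1600 * rr b y0 * S) ^ 2 + (5 / y0 * T) ^ 2) := by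
    refine (pow_le_pow_left₀ (norm_nonneg _) h1 2).trans ?_
    nlinarith [sq_nonneg (3 / 2 * ‖DD m P‖ - 1600 * rr b y0 * S),
      sq_nonneg (3 / 2 * ‖DD m P‖ - 5 / y0 * T), sq_nonneg (1600 * rr b y0 * S - 5 / y0 * T)]
  have hCA : CA b m * b ^ 2 ≤ 1 / (3 * y0 ^ 2) := by
    unfold CA
    rw [div_mul_eq_mul_div, div_le_div_iff₀ (by positivity) (by positivity)]
    have h3 : y0 ^ 2 ≤ m.im ^ 2 := pow_le_pow_left₀ hyp.le h.him 2
    nlinarith [sq_nonneg (b : ℝ), mul_nonneg (sq_nonneg (b : ℝ)) (sub_nonneg.2 h3)]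
  have hCA0 : 0 ≤ CA b m * b ^ 2 := by unfold CA; positivity
  have h5 : (1600 * rr b y0) ^ 2 ≤ 1 / 1000 * y0 ^ 2 := by
    have h6 : 1600 * rr b y0 ≤ 1 / 100 * y0 := by
      have h7 := h.rr_le
      have h8 : y0 ^ 6 ≤ y0 := by
        calc y0 ^ 6 ≤ y0 ^ 1 := pow_le_pow_of_le_one hyp.le hy1.le (by norm_num)
          _ = y0 := pow_one _
      linarith
    have h9 : (1600 * rr b y0) ^ 2 ≤ (1 / 100 * y0) ^ 2 := pow_le_pow_left₀ (by positivity) h6 2
    nlinarith [sq_nonneg y0]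
  calc CA b m * (b ^ 2 * ‖avc (fun x => (gI m (rr b y0) (P x) : ℂ) * ((P x).1 - (P x).2))‖ ^ 2)
      = (CA b m * b ^ 2) *
        ‖avc (fun x => (gI m (rr b y0) (P x) : ℂ) * ((P x).1 - (P x).2))‖ ^ 2 := by ring
    _ ≤ (1 / (3 * y0 ^ 2)) *
        (3 * ((3 / 2 * ‖DD m P‖) ^ 2 + (1600 * rr b y0 * S) ^ 2 + (5 / y0 * T) ^ 2)) :=
        mul_le_mul hCA h2 (by positivity) (by positivity)
    _ = (9 / 4) / y0 ^ 2 * ‖DD m P‖ ^ 2 + (1600 * rr b y0) ^ 2 / y0 ^ 2 * S ^ 2 +
        25 / y0 ^ 4 * T ^ 2 := by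
        field_simp
        ring
    _ ≤ _ := by
        rw [hS2, hT2]
        unfold C1
        have h6 : (1600 * rr b y0) ^ 2 / y0 ^ 2 ≤ 1 / 1000 := by
          rw [div_le_iff₀ (by positivity)]
          exact h5
        have h7 := mul_le_mul_of_nonneg_right h6 hV
        have h8 : (9 / 4) / y0 ^ 2 * ‖DD m P‖ ^ 2 ≤ 3 / y0 ^ 2 * ‖DD m P‖ ^ 2 := by
          apply mul_le_mul_of_nonneg_right _ (by positivity)
          exact div_le_div_of_nonneg_right (by norm_num) (by positivity)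
        linarith

lemma av_bI_rho_sq (P : Ω → ℂ × ℂ) {i j : Fin b} (hij : i ≠ j) :
    av (fun e : Fin b → Ω => bI m (rr b y0) (P (e i)) * rho (P (e j)).1 (P (e j)).2 ^ 2) =
      pp b y0 m P * av1 (fun x => rho (P x).1 (P x).2 ^ 2) :=
  av_coord_mul hij (fun x => bI m (rr b y0) (P x)) (fun x => rho (P x).1 (P x).2 ^ 2)

/-- **the averaged contraction of the cost** -/
theorem cost_avg (h : Adm b y0 z m) {t : ℝ} (ht : |t| ≤ rr b y0) {P : Ω → ℂ × ℂ}
    (hP1 : ∀ x, 0 < (P x).1.im) (hP2 : ∀ x, 0 < (P x).2.im) :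
    av (fun e : Fin b → Ω =>
        cost (Mc b y0) m (cav z t fun j => (P (e j)).1, cav z t fun j => (P (e j)).2)) ≤
      (3 / 4 + 1 / 1000) * VV b y0 m P + C1 y0 * ‖DD m P‖ ^ 2 +
        C2 b y0 * (pp b y0 m P * VV b y0 m P) := by
  have hV := VV_nonneg h P
  have hp := pp_nonneg b y0 m P
  have hM := h.Mc_pos
  have hyp := h.hy
  have hb2 := h.b2
  have hb0 : (0 : ℝ) < b := by linarith
  have him := h.im_pos
  have hC3 := h.C3_pos
  have hCA : 0 ≤ CA b m := by unfold CA; positivity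
  have hCF : 0 ≤ CF b y0 := by unfold CF; positivity
  have hR := av1_rho_sq_le h P
  have hR0 : 0 ≤ av1 (fun x => rho (P x).1 (P x).2 ^ 2) := av1_nonneg fun _ => sq_nonneg _
  refine (av_mono fun e => h.cost_pointwise ht (p := fun j => P (e j)) (fun k => hP1 _)
    (fun k => hP2 _)).trans ?_
  rw [av_add, av_add, av_add, av_const_mul, av_const_mul, av_const_mul, av_const_mul]
  -- first term
  have t1 : CA b m * av (fun e : Fin b → Ω =>
      ‖∑ k, (gI m (rr b y0) (P (e k)) : ℂ) * ((P (e k)).1 - (P (e k)).2)‖ ^ 2) ≤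
      3 / 4 * av1 (fun x => gI m (rr b y0) (P x) * cost (Mc b y0) m (P x)) +
      (C1 y0 * ‖DD m P‖ ^ 2 + 1 / 1000 * VV b y0 m P +
        25 / y0 ^ 4 * (pp b y0 m P * VV b y0 m P)) := by
    have h1 := av_norm_sum_sq (ι := Fin b) (Ω := Ω)
      (fun _ x => (gI m (rr b y0) (P x) : ℂ) * ((P x).1 - (P x).2))
    simp only [Finset.sum_const, Finset.card_univ, Fintype.card_fin, nsmul_eq_mul, norm_mul,
      Complex.norm_natCast, mul_pow] at h1
    have h2 := mul_le_mul_of_nonneg_left h1 hCA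
    rw [mul_add] at h2
    have h3 : CA b m * (b * av1 (fun x => ‖(gI m (rr b y0) (P x) : ℂ)‖ ^ 2 *
        ‖(P x).1 - (P x).2‖ ^ 2)) ≤
        3 / 4 * av1 (fun x => gI m (rr b y0) (P x) * cost (Mc b y0) m (P x)) := by
      rw [← av1_const_mul, ← av1_const_mul, ← av1_const_mul]
      refine av1_mono fun x => ?_
      have := xi_sq_le h (hP1 x) (hP2 x)
      rw [norm_mul, mul_pow] at this
      exact this
    have h4 := avc_xi_sq_le h hP1 hP2
    have h5 : CA b m * ((b : ℝ) ^ 2 *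
        ‖avc (fun x => (gI m (rr b y0) (P x) : ℂ) * ((P x).1 - (P x).2))‖ ^ 2) =
        CA b m * ((b : ℝ) ^ 2 *
        ‖avc (fun x => (gI m (rr b y0) (P x) : ℂ) * ((P x).1 - (P x).2))‖ ^ 2) := rfl
    linarith
  -- second term
  have t2 : 3 / 4 * (b : ℝ)⁻¹ * av (fun e : Fin b → Ω =>
      ∑ j, bI m (rr b y0) (P (e j)) * cost (Mc b y0) m (P (e j))) =
      3 / 4 * av1 (fun x => bI m (rr b y0) (P x) * cost (Mc b y0) m (P x)) := by
    rw [av_sum]
    have h1 : ∀ j ∈ (Finset.univ : Finset (Fin b)), av (fun e : Fin b → Ω =>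
        bI m (rr b y0) (P (e j)) * cost (Mc b y0) m (P (e j))) =
        av1 (fun x => bI m (rr b y0) (P x) * cost (Mc b y0) m (P x)) := fun j _ =>
      av_coord j fun x => bI m (rr b y0) (P x) * cost (Mc b y0) m (P x)
    rw [Finset.sum_congr rfl h1, Finset.sum_const, Finset.card_univ, Fintype.card_fin,
      nsmul_eq_mul]
    field_simp
  have t12 : av1 (fun x => gI m (rr b y0) (P x) * cost (Mc b y0) m (P x)) +
      av1 (fun x => bI m (rr b y0) (P x) * cost (Mc b y0) m (P x)) = VV b y0 m P := by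
    rw [← av1_add]
    unfold VV
    congr 1
    ext x
    unfold bI
    ring
  -- third term
  have hcard : (((Finset.univ : Finset (Fin b)).offDiag).card : ℝ) ≤ (b : ℝ) ^ 2 := by
    rw [Finset.offDiag_card, Finset.card_univ, Fintype.card_fin]
    have : b * b - b ≤ b ^ 2 := by rw [pow_two]; exact Nat.sub_le _ _
    exact_mod_cast this
  have hpR : 0 ≤ pp b y0 m P * av1 (fun x => rho (P x).1 (P x).2 ^ 2) := mul_nonneg hp hR0
  have hpV : pp b y0 m P * av1 (fun x => rho (P x).1 (P x).2 ^ 2) ≤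
      pp b y0 m P * VV b y0 m P := mul_le_mul_of_nonneg_left hR hp
  have t3 : CF b y0 * av (fun e : Fin b → Ω =>
      ∑ q ∈ (Finset.univ : Finset (Fin b)).offDiag,
        bI m (rr b y0) (P (e q.1)) * rho (P (e q.2)).1 (P (e q.2)).2 ^ 2) ≤
      CF b y0 * b ^ 2 * (pp b y0 m P * VV b y0 m P) := by
    rw [av_sum]
    have h1 : ∀ q ∈ (Finset.univ : Finset (Fin b)).offDiag, av (fun e : Fin b → Ω =>
        bI m (rr b y0) (P (e q.1)) * rho (P (e q.2)).1 (P (e q.2)).2 ^ 2) =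
        pp b y0 m P * av1 (fun x => rho (P x).1 (P x).2 ^ 2) := fun q hq =>
      av_bI_rho_sq P (Finset.mem_offDiag.1 hq).2.2
    rw [Finset.sum_congr rfl h1, Finset.sum_const, nsmul_eq_mul, mul_assoc]
    refine mul_le_mul_of_nonneg_left ?_ hCF
    exact mul_le_mul hcard hpV hpR (by positivity)
  -- fourth term
  have t4 : C3 b y0 * av (fun e : Fin b → Ω =>
      ∑ q ∈ (Finset.univ : Finset (Fin b)).offDiag,
        bI m (rr b y0) (P (e q.1)) * bI m (rr b y0) (P (e q.2)) *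
          ∑ l, rho (P (e l)).1 (P (e l)).2 ^ 2) ≤
      C3 b y0 * b ^ 3 * (pp b y0 m P * VV b y0 m P) := by
    rw [av_sum, mul_assoc]
    refine mul_le_mul_of_nonneg_left ?_ hC3.le
    have h1 : ∀ q ∈ (Finset.univ : Finset (Fin b)).offDiag, av (fun e : Fin b → Ω =>
        bI m (rr b y0) (P (e q.1)) * bI m (rr b y0) (P (e q.2)) *
          ∑ l, rho (P (e l)).1 (P (e l)).2 ^ 2) ≤ b * (pp b y0 m P * VV b y0 m P) := by
      intro q hq
      have hne := (Finset.mem_offDiag.1 hq).2.2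
      have h2 : (fun e : Fin b → Ω =>
        bI m (rr b y0) (P (e q.1)) * bI m (rr b y0) (P (e q.2)) *
          ∑ l, rho (P (e l)).1 (P (e l)).2 ^ 2) = fun e : Fin b → Ω =>
          ∑ l, bI m (rr b y0) (P (e q.1)) * bI m (rr b y0) (P (e q.2)) *
            rho (P (e l)).1 (P (e l)).2 ^ 2 := by
        funext e
        rw [Finset.mul_sum]
      rw [h2, av_sum]
      have h3 : ∀ l ∈ (Finset.univ : Finset (Fin b)), av (fun e : Fin b → Ω =>
          bI m (rr b y0) (P (e q.1)) * bI m (rr b y0) (P (e q.2)) *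
            rho (P (e l)).1 (P (e l)).2 ^ 2) ≤ pp b y0 m P * VV b y0 m P := by
        intro l _
        by_cases hl : q.1 = l
        · have hl2 : q.2 ≠ l := fun h' => hne (hl.trans h'.symm)
          refine le_trans (av_mono fun e => ?_) ((av_bI_rho_sq (m := m) (y0 := y0) P hl2).le.trans
            hpV)
          have g1 := bI_nonneg (m := m) (rr b y0) (P (e q.1))
          have g2 := bI_le_one (m := m) (rr b y0) (P (e q.1))
          have g3 := bI_nonneg (m := m) (rr b y0) (P (e q.2))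
          have g4 : 0 ≤ rho (P (e l)).1 (P (e l)).2 ^ 2 := sq_nonneg _
          have g5 : bI m (rr b y0) (P (e q.1)) * bI m (rr b y0) (P (e q.2)) ≤
              bI m (rr b y0) (P (e q.2)) := by nlinarith
          exact mul_le_mul_of_nonneg_right g5 g4
        · refine le_trans (av_mono fun e => ?_) ((av_bI_rho_sq (m := m) (y0 := y0) P hl).le.trans
            hpV)
          have g1 := bI_nonneg (m := m) (rr b y0) (P (e q.2))
          have g2 := bI_le_one (m := m) (rr b y0) (P (e q.2))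
          have g3 := bI_nonneg (m := m) (rr b y0) (P (e q.1))
          have g4 : 0 ≤ rho (P (e l)).1 (P (e l)).2 ^ 2 := sq_nonneg _
          have g5 : bI m (rr b y0) (P (e q.1)) * bI m (rr b y0) (P (e q.2)) ≤
              bI m (rr b y0) (P (e q.1)) := by nlinarith
          exact mul_le_mul_of_nonneg_right g5 g4
      refine (Finset.sum_le_sum h3).trans (le_of_eq ?_)
      rw [Finset.sum_const, Finset.card_univ, Fintype.card_fin, nsmul_eq_mul]
    refine (Finset.sum_le_sum h1).trans ?_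
    rw [Finset.sum_const, nsmul_eq_mul]
    have h5 : 0 ≤ b * (pp b y0 m P * VV b y0 m P) := by positivity
    refine (mul_le_mul_of_nonneg_right hcard h5).trans (le_of_eq ?_)
    ring
  have t5 : C2 b y0 * (pp b y0 m P * VV b y0 m P) =
      25 / y0 ^ 4 * (pp b y0 m P * VV b y0 m P) +
      CF b y0 * b ^ 2 * (pp b y0 m P * VV b y0 m P) +
      C3 b y0 * b ^ 3 * (pp b y0 m P * VV b y0 m P) := by unfold C2; ring
  rw [t5, t2]
  linarith

/-- **the averaged mean** -/
theorem mean_avg (h : Adm b y0 z m) {t : ℝ} (ht : |t| ≤ rr b y0) {P : Ω → ℂ × ℂ}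
    (hP1 : ∀ x, 0 < (P x).1.im) (hP2 : ∀ x, 0 < (P x).2.im) :
    ‖avC (fun e : Fin b → Ω =>
        uu m (cav z t fun j => (P (e j)).1) - uu m (cav z t fun j => (P (e j)).2)) -
      b * m ^ 2 * DD m P‖ ≤
      4000 * b ^ 2 * rr b y0 * Real.sqrt (VV b y0 m P) +
        6 / y0 * b ^ 2 * Real.sqrt (pp b y0 m P * VV b y0 m P) := by
  have hV := VV_nonneg h P
  have hp := pp_nonneg b y0 m P
  have hp1 := pp_le_one b y0 m P
  have hyp := h.hy
  have hb2 := h.b2
  have hb0 : (0 : ℝ) < b := by linarith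
  have hr0 := h.rr_pos
  have e1 : (b : ℂ) * m ^ 2 * DD m P = avC (fun e : Fin b → Ω =>
      m ^ 2 * ∑ k, (uu m (P (e k)).1 - uu m (P (e k)).2)) := by
    rw [avC_const_mul, avC_sum]
    have h1 : ∀ k ∈ (Finset.univ : Finset (Fin b)), avC (fun e : Fin b → Ω =>
        uu m (P (e k)).1 - uu m (P (e k)).2) = DD m P := fun k _ =>
      avC_coord k fun x => uu m (P x).1 - uu m (P x).2
    rw [Finset.sum_congr rfl h1, Finset.sum_const, Finset.card_univ, Fintype.card_fin,
      nsmul_eq_mul]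
    ring
  rw [e1, avC_sub]
  refine (norm_avC_le _).trans ?_
  refine (av_mono fun e => h.mean_pointwise ht (p := fun j => P (e j)) (fun k => hP1 _)
    (fun k => hP2 _)).trans ?_
  rw [av_add, av_const_mul, av_const_mul, av_sum, av_sum]
  set S := Real.sqrt (VV b y0 m P) with hS
  set T := Real.sqrt (pp b y0 m P * VV b y0 m P) with hT
  have hS0 : 0 ≤ S := Real.sqrt_nonneg _
  have hT0 : 0 ≤ T := Real.sqrt_nonneg _
  have h1 : ∀ k ∈ (Finset.univ : Finset (Fin b)), av (fun e : Fin b → Ω =>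
      rho (P (e k)).1 (P (e k)).2) ≤ S := fun k _ =>
    (av_coord k (fun x => rho (P x).1 (P x).2)).le.trans (av1_rho_le h P)
  have h2 := Finset.sum_le_sum h1
  rw [Finset.sum_const, Finset.card_univ, Fintype.card_fin, nsmul_eq_mul] at h2
  have h3 : ∀ j ∈ (Finset.univ : Finset (Fin b)), av (fun e : Fin b → Ω =>
      ∑ k, bI m (rr b y0) (P (e j)) * rho (P (e k)).1 (P (e k)).2) ≤ b * T := by
    intro j _
    rw [av_sum]
    have h4 : ∀ k ∈ (Finset.univ : Finset (Fin b)), av (fun e : Fin b → Ω =>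
        bI m (rr b y0) (P (e j)) * rho (P (e k)).1 (P (e k)).2) ≤ T := by
      intro k _
      by_cases hjk : j = k
      · subst hjk
        exact (av_coord j (fun x => bI m (rr b y0) (P x) * rho (P x).1 (P x).2)).le.trans
          (av1_bI_rho_le h P)
      · rw [av_coord_mul hjk (fun x => bI m (rr b y0) (P x)) (fun x => rho (P x).1 (P x).2)]
        apply Real.le_sqrt_of_sq_le
        rw [mul_pow]
        have g1 : av1 (fun x => rho (P x).1 (P x).2) ^ 2 ≤ VV b y0 m P :=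
          (av1_sq_le _).trans (av1_rho_sq_le h P)
        have g2 : (av1 fun x => bI m (rr b y0) (P x)) ^ 2 ≤ pp b y0 m P := by
          change pp b y0 m P ^ 2 ≤ pp b y0 m P
          nlinarith
        exact mul_le_mul g2 g1 (sq_nonneg _) hp
    refine (Finset.sum_le_sum h4).trans (le_of_eq ?_)
    rw [Finset.sum_const, Finset.card_univ, Fintype.card_fin, nsmul_eq_mul]
  have h5 := Finset.sum_le_sum h3
  rw [Finset.sum_const, Finset.card_univ, Fintype.card_fin, nsmul_eq_mul] at h5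
  have h6 := mul_le_mul_of_nonneg_left h2 (show 0 ≤ 4000 * b * rr b y0 by positivity)
  have h7 := mul_le_mul_of_nonneg_left h5 (show 0 ≤ 6 / y0 by positivity)
  calc _ ≤ 4000 * b * rr b y0 * (b * S) + 6 / y0 * (b * (b * T)) := add_le_add h6 h7
    _ = _ := by ring


end con

end Crest.Agent.R166.AvgCon798
end

-- ▼ part R166/FineStab_798

/-!
# Row 166, section 32 (graph half, helper798): mean stability of the bounded coordinate of the
cavity value, and the second moment estimate for differences at two energies.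

* `rho_of_near` : `Near ε Z Z'` implies `ρ(Z'ᵢᵢ, Zᵢᵢ) ≤ ε`;
* `uu_stab`     : `|u(X(B')) - u(X(B))| ≤ CS ‖B' - B‖` if `B` is `κ`-fine;
* `sum_uu_stab` : sum over the half-edges, for two port-numbered graphs;
* `sm_D`        : `∑_p |D_p - g_D(p)|² ≤ ...`.
-/

set_option autoImplicit false
set_option linter.unusedSectionVars false

open Matrix Finset

namespace Crest.Agent.R166.FineStab798

open Crest.Agent.R166 Crest.Agent.R166.Stab269 Crest.Agent.R166.TreeDet350
  Crest.Agent.R166.AvgCon798 Crest.Agent.R166.Rev811 Crest.Agent.R166.MeanEq269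
open Crest.Agent.R166.Off522 (Fine)
open Crest.Agent.R166.Res598 (Siegel Near mob imM qf nq)
open Crest.Agent.R166.SwP470 (BI NZ bsw)

attribute [local instance] Matrix.linftyOpNormedRing Matrix.linftyOpNormedAlgebra

section near

variable {ι : Type*} [Fintype ι] [DecidableEq ι]

lemma dot_single (Z : Matrix ι ι ℂ) (i : ι) :
    (Pi.single i 1 : ι → ℂ) ⬝ᵥ (Z *ᵥ (Pi.single i 1 : ι → ℂ)) = Z i i := by
  rw [single_one_dotProduct, mulVec_single_one]
  rfl

lemma near_diag_sub {ε : ℝ} {Z Z' : Matrix ι ι ℂ} (hZ : Siegel Z) (h : Near ε Z Z') (i : ι) :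
    ‖Z' i i - Z i i‖ ≤ ε * (Z i i).im := by
  have h1 := h.2 (Pi.single i 1) (Pi.single i 1)
  rw [dot_single, Matrix.sub_apply] at h1
  have h2 : nq (imM Z) (Pi.single i 1 : ι → ℂ) * nq (imM Z) (Pi.single i 1 : ι → ℂ) =
      (Z i i).im := by
    rw [← sq, Res598.nq_sq hZ.pos.posSemidef, ← Res598.im_form hZ.symm]
    have h3 : star (Pi.single i 1 : ι → ℂ) = Pi.single i 1 := by
      ext j
      by_cases hj : j = i
      · subst hj; simp
      · simp [Pi.single_eq_of_ne hj]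
    rw [h3, dot_single]
  rw [mul_assoc, h2] at h1
  exact h1

lemma im_le_norm_sub_conj {x y : ℂ} (hx : 0 ≤ x.im) (hy : 0 ≤ y.im) :
    y.im ≤ ‖x - (starRingEnd ℂ) y‖ := by
  refine le_trans ?_ (Complex.abs_im_le_norm _)
  rw [Complex.sub_im, Complex.conj_im, sub_neg_eq_add, abs_of_nonneg (by linarith)]
  linarith

lemma rho_le_of_sub {ε : ℝ} {x y : ℂ} (hx : 0 ≤ x.im) (hy : 0 < y.im)
    (h : ‖x - y‖ ≤ ε * y.im) : rho x y ≤ ε := by
  unfold rho
  have h1 := im_le_norm_sub_conj hx hy.le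
  have h2 : 0 < ‖x - (starRingEnd ℂ) y‖ := lt_of_lt_of_le hy h1
  rw [div_le_iff₀ h2]
  have hε : 0 ≤ ε := by
    by_contra hneg
    push Not at hneg
    have := norm_nonneg (x - y)
    nlinarith
  exact h.trans (mul_le_mul_of_nonneg_left h1 hε)

/-- `Near` controls the pseudo-hyperbolic distance of the diagonal entries -/
theorem rho_of_near {ε : ℝ} {Z Z' : Matrix ι ι ℂ} (hZ : Siegel Z) (hZ' : Siegel Z')
    (h : Near ε Z Z') (i : ι) : rho (Z' i i) (Z i i) ≤ ε :=
  rho_le_of_sub (Dec598.siegel_entry_pos hZ' i).le (Dec598.siegel_entry_pos hZ i)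
    (near_diag_sub hZ h i)

end near

/-! ### stability of the bounded coordinate -/

/-- constant -/
noncomputable def CS (y0 κ : ℝ) : ℝ := 12 / (y0 * κ) + 8 * BB y0 / κ

theorem CS_nonneg {y0 κ : ℝ} (hy : 0 < y0) (hκ : 0 < κ) : 0 ≤ CS y0 κ := by
  have := BB_pos hy
  unfold CS; positivity

theorem uu_stab {b : ℕ} {y0 : ℝ} {z m : ℂ} (h : Adm b y0 z m) {κ : ℝ}
    {B B' : Matrix (Fin 2) (Fin 2) ℂ} (hB : Fine κ B) (hB' : Siegel B') :
    ‖uu m (cavB B' 0 0) - uu m (cavB B 0 0)‖ ≤ CS y0 κ * ‖B' - B‖ := by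
  have hκ := hB.pos
  have hy := h.hy
  have hBB := BB_pos hy
  have hS := hB.siegel
  set t := ‖B' - B‖ with ht
  have ht0 : 0 ≤ t := norm_nonneg _
  have hc := Off522.siegel_cavB hS
  have hc' := Off522.siegel_cavB hB'
  have hp := Dec598.siegel_entry_pos hc 0
  have hp' := Dec598.siegel_entry_pos hc' 0
  by_cases hsmall : 2 * t / κ ≤ 1 / 2
  · have h1 : Near (t * Fintype.card (Fin 2) / κ) B B' :=
      Off522.near_of_entry hκ ht0 hB'.symm hB.im fun i j => by
        rw [← Matrix.sub_apply]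
        exact entry_le_norm _ i j
    have e1 : t * (Fintype.card (Fin 2) : ℝ) / κ = 2 * t / κ := by
      rw [Fintype.card_fin]; push_cast; ring
    rw [e1] at h1
    have hε0 : 0 ≤ 2 * t / κ := by positivity
    have hV : (-Off522.W2r)ᵀ = -Off522.W2r := by rw [Matrix.transpose_neg, Off522.W2r_symm]
    have h2 := Near.mob hε0 (by linarith) hS h1 hV
    rw [← Off522.cavB_eq_mob hS, ← Off522.cavB_eq_mob hB'] at h2
    have h3 : 2 * t / κ / (1 - 2 * t / κ) ≤ 4 * t / κ := by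
      rw [div_le_iff₀ (by linarith)]
      have : 4 * t / κ = 2 * (2 * t / κ) := by ring
      rw [this]
      nlinarith
    have h4 := rho_of_near hc hc' (h2.mono h3) 0
    have h5 := h.uu_lip hp' hp
    calc ‖uu m (cavB B' 0 0) - uu m (cavB B 0 0)‖ ≤ 3 / y0 * rho (cavB B' 0 0) (cavB B 0 0) := h5
      _ ≤ 3 / y0 * (4 * t / κ) := mul_le_mul_of_nonneg_left h4 (by positivity)
      _ = 12 / (y0 * κ) * t := by field_simp; ring
      _ ≤ CS y0 κ * t := by
          apply mul_le_mul_of_nonneg_right _ ht0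
          unfold CS
          have : 0 ≤ 8 * BB y0 / κ := by positivity
          linarith
  · push Not at hsmall
    have h1 : 1 ≤ 4 * t / κ := by
      have : 4 * t / κ = 2 * (2 * t / κ) := by ring
      linarith
    have h2 : ‖uu m (cavB B' 0 0) - uu m (cavB B 0 0)‖ ≤ 2 * BB y0 := by
      refine (norm_sub_le _ _).trans ?_
      have := h.norm_uu_le hp.le
      have := h.norm_uu_le hp'.le
      linarith
    calc ‖uu m (cavB B' 0 0) - uu m (cavB B 0 0)‖ ≤ 2 * BB y0 * 1 := by linarith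
      _ ≤ 2 * BB y0 * (4 * t / κ) := mul_le_mul_of_nonneg_left h1 (by positivity)
      _ = 8 * BB y0 / κ * t := by ring
      _ ≤ CS y0 κ * t := by
          apply mul_le_mul_of_nonneg_right _ ht0
          unfold CS
          have : 0 ≤ 12 / (y0 * κ) := by positivity
          linarith

section port

variable {n d : ℕ}

open Classical in
/-- number of half-edges with a block that is not `κ`-fine -/
noncomputable def nbad (κ : ℝ) (p : Equiv.Perm (HE n d)) (s : ℝ) (ω : Fin n → ℝ) (z : ℂ) : ℝ :=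
  ((Finset.univ.filter fun h : HE n d => ¬ Fine κ (BE p s ω z h)).card : ℝ)

/-- **mean stability** of the bounded coordinate -/
theorem sum_uu_stab {b : ℕ} {y0 : ℝ} {z0 m : ℂ} (h : Adm b y0 z0 m) {κ : ℝ} (hκ : 0 < κ)
    {p p' : Equiv.Perm (HE n d)} (hp : IsPort p) (hp' : IsPort p') (s : ℝ) (ω : Fin n → ℝ)
    {z : ℂ} (hz : 0 < z.im) :
    ∑ h : HE n d, ‖uu m (B0 p' s ω z h 0 0) - uu m (B0 p s ω z h 0 0)‖ ≤
      4 * CS y0 κ * d * ((Ch p p').card : ℝ) / z.im + 2 * BB y0 * ((Ch p p').card : ℝ) +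
        2 * BB y0 * nbad κ p s ω z := by
  classical
  obtain ⟨γ, hγ0, hγ, hsum⟩ := exists_gamma hp hp' s ω hz
  have hy := h.hy
  have hBB := BB_pos hy
  have hCS := CS_nonneg hy hκ
  have hpt : ∀ x : HE n d, ‖uu m (B0 p' s ω z x 0 0) - uu m (B0 p s ω z x 0 0)‖ ≤
      2 * CS y0 κ * (γ x.1 ^ 2 + γ (p x).1 ^ 2) +
        ((if x ∈ Ch p p' then 2 * BB y0 else 0) +
          (if ¬ Fine κ (BE p s ω z x) then 2 * BB y0 else 0)) := by
    intro x
    have hb : ‖uu m (B0 p' s ω z x 0 0) - uu m (B0 p s ω z x 0 0)‖ ≤ 2 * BB y0 := by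
      refine (norm_sub_le _ _).trans ?_
      have := h.norm_uu_le (MuU395.im_B0_pos hp s ω hz x 0).le
      have := h.norm_uu_le (MuU395.im_B0_pos hp' s ω hz x 0).le
      linarith
    have h0 : 0 ≤ 2 * CS y0 κ * (γ x.1 ^ 2 + γ (p x).1 ^ 2) := by positivity
    by_cases hx : x ∈ Ch p p'
    · rw [if_pos hx]
      have : (0 : ℝ) ≤ if ¬ Fine κ (BE p s ω z x) then 2 * BB y0 else 0 := by
        split_ifs <;> linarith
      linarith
    · rw [if_neg hx]
      by_cases hF : Fine κ (BE p s ω z x)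
      · rw [if_neg (not_not.2 hF), add_zero, add_zero]
        have hpx : p x = p' x := by
          by_contra hne
          exact hx (Finset.mem_filter.2 ⟨Finset.mem_univ _, hne⟩)
        have h1 := norm_BE_sub_le s ω hγ0 hγ hpx
        have h2 := uu_stab h hF (sieg_BE hp' s ω hz x).siegel
        refine h2.trans ((mul_le_mul_of_nonneg_left h1 hCS).trans (le_of_eq ?_))
        ring
      · rw [if_pos hF, zero_add]
        linarith
  refine (Finset.sum_le_sum fun x _ => hpt x).trans ?_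
  rw [Finset.sum_add_distrib, Finset.sum_add_distrib, ← Finset.mul_sum, Finset.sum_add_distrib,
    Stab269.sum_fst (fun v => γ v ^ 2), Stab269.sum_snd p (fun v => γ v ^ 2), ← Finset.sum_filter,
    ← Finset.sum_filter, Finset.sum_const, Finset.sum_const, nsmul_eq_mul, nsmul_eq_mul]
  have h2 : (Finset.univ.filter fun x => x ∈ Ch p p') = Ch p p' := by
    ext x
    simp
  rw [h2]
  have h3 : 2 * CS y0 κ * ((d : ℝ) * ∑ v, γ v ^ 2 + (d : ℝ) * ∑ v, γ v ^ 2)
      ≤ 4 * CS y0 κ * d * ((Ch p p').card : ℝ) / z.im := by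
    have : 2 * CS y0 κ * ((d : ℝ) * ∑ v, γ v ^ 2 + (d : ℝ) * ∑ v, γ v ^ 2)
        = 4 * CS y0 κ * d * ∑ v, γ v ^ 2 := by ring
    rw [this, mul_div_assoc]
    exact mul_le_mul_of_nonneg_left hsum (by positivity)
  have h4 : ((Finset.univ.filter fun x : HE n d => ¬ Fine κ (BE p s ω z x)).card : ℝ) =
      nbad κ p s ω z := by
    unfold nbad
    congr!
  rw [h4]
  linarith

end port

/-! ### second moment of the difference -/

section sm

variable {n d : ℕ}

/-- pairs of cavity values at two energies -/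
noncomputable def PP (p : Equiv.Perm (HE n d)) (s : ℝ) (ω : Fin n → ℝ) (z z' : ℂ) (h : HE n d) :
    ℂ × ℂ := (B0 p s ω z h 0 0, B0 p s ω z' h 0 0)

/-- the difference of the bounded coordinates -/
noncomputable def fD (m : ℂ) (s : ℝ) (ω : Fin n → ℝ) (z z' : ℂ) (p : Equiv.Perm (HE n d))
    (h : HE n d) : ℂ := uu m (B0 p s ω z h 0 0) - uu m (B0 p s ω z' h 0 0)

/-- one-step mean of the difference -/
noncomputable def gD [NeZero d] (m : ℂ) (s : ℝ) (ω : Fin n → ℝ) (z z' : ℂ)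
    (p : Equiv.Perm (HE n d)) : ℂ :=
  (∑ mv : HE n d × (BI d 1 → HE n d), fD m s ω z z' (bsw 1 p mv).1 mv.1) /
    ((Finset.univ : Finset (HE n d × (BI d 1 → HE n d))).card : ℂ)

theorem DD_eq (m : ℂ) (s : ℝ) (ω : Fin n → ℝ) (z z' : ℂ) (p : Equiv.Perm (HE n d)) :
    DD m (PP p s ω z z') = avc (fD m s ω z z' p) := rfl

theorem fD_le {b : ℕ} {y0 : ℝ} {z0 m : ℂ} (h : Adm b y0 z0 m) {p : Equiv.Perm (HE n d)}
    (hp : IsPort p) (s : ℝ) (ω : Fin n → ℝ) {z z' : ℂ} (hz : 0 < z.im) (hz' : 0 < z'.im)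
    (x : HE n d) : ‖fD m s ω z z' p x‖ ≤ 2 * BB y0 := by
  unfold fD
  refine (norm_sub_le _ _).trans ?_
  have := h.norm_uu_le (MuU395.im_B0_pos hp s ω hz x 0).le
  have := h.norm_uu_le (MuU395.im_B0_pos hp s ω hz' x 0).le
  linarith

/-- the number of changed half-edges -/
noncomputable def cL (d : ℕ) [NeZero d] : ℝ := 4 * (Fintype.card (BI d 1) : ℝ)

/-- the stability constant -/
noncomputable def del2 (n d : ℕ) [NeZero d] (y0 κ K ε : ℝ) : ℝ :=
  (4 * CS y0 κ * cL d / K) / BB y0 + 2 * cL d / (n * d) + 2 * ε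

/-- real second moment for a real-linear functional of `fD` -/
theorem sm_real [NeZero d] {b : ℕ} {y0 : ℝ} {z0 m : ℂ} (h : Adm b y0 z0 m) {κ : ℝ} (hκ : 0 < κ)
    (hn : 0 < n) (s : ℝ) (ω : Fin n → ℝ) {z z' : ℂ} {K ε : ℝ} (hK : 0 < K)
    (hz : K / n ≤ z.im) (hz' : K / n ≤ z'.im)
    (hN1 : ∑ p ∈ Ports n d, nbad κ p s ω z ≤ ε * (n * d) * (Ports n d).card)
    (hN2 : ∑ p ∈ Ports n d, nbad κ p s ω z' ≤ ε * (n * d) * (Ports n d).card)
    (φ : ℂ → ℝ) (hφ : ∀ a, |φ a| ≤ ‖a‖) (hφs : ∀ a b, φ a - φ b = φ (a - b)) :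
    ∑ p ∈ Ports n d, (Sec269.nuAvg Finset.univ (fun p x => φ (fD m s ω z z' p x) / (2 * BB y0)) p -
      Sec269.gAvg (Finset.univ : Finset (HE n d × (BI d 1 → HE n d))) Prod.fst (bsw 1)
        (fun p x => φ (fD m s ω z z' p x) / (2 * BB y0)) p) ^ 2 ≤
      (2 * del2 n d y0 κ K ε + 2 * ((Fintype.card (SwComm356.J d 1) : ℝ) ^ 2 / n)) *
        ((Ports n d).card : ℝ) := by
  classical
  have hn' : (0 : ℝ) < n := by exact_mod_cast hn
  have hd' : (0 : ℝ) < d := by exact_mod_cast Nat.pos_of_ne_zero (NeZero.ne d)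
  have hzp : 0 < z.im := lt_of_lt_of_le (by positivity) hz
  have hzp' : 0 < z'.im := lt_of_lt_of_le (by positivity) hz'
  have hBB := BB_pos h.hy
  have hCS := CS_nonneg h.hy hκ
  have hMv : (Finset.univ : Finset (HE n d × (BI d 1 → HE n d))).Nonempty :=
    H4.univ_nonempty 1 hn
  obtain ⟨Bad, hBad, hcomm⟩ := SwComm356.hcomm n d 1 hn
  refine Sec522.second_moment_avg (SwP470.moveSystem n d 1 le_rfl) hMv _ ?_ _ _ ?_
    ⟨Bad, fun p hp => hBad p hp, fun p hp mv hmv mv' hmv' hb => hcomm p hp mv hmv mv' hmv' hb⟩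
  · intro p hp x _
    rw [mem_Ports] at hp
    rw [abs_div, abs_of_pos (by positivity : (0 : ℝ) < 2 * BB y0), div_le_one (by positivity)]
    exact (hφ _).trans (fD_le h hp s ω hzp hzp' x)
  · -- mean stability
    have hone : ∀ p ∈ Ports n d, ∀ mv ∈ (Finset.univ : Finset (HE n d × (BI d 1 → HE n d))),
        ∑ x : HE n d, |φ (fD m s ω z z' (bsw 1 p mv).1 x) / (2 * BB y0) -
          φ (fD m s ω z z' p x) / (2 * BB y0)| ≤
        ((8 * CS y0 κ * d * cL d * (n / K)) + 4 * BB y0 * cL d) / (2 * BB y0) +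
          (nbad κ p s ω z + nbad κ p s ω z') := by
      intro p hp mv _
      have hp1 : IsPort p := mem_Ports.1 hp
      have hp2 : IsPort (bsw 1 p mv).1 :=
        mem_Ports.1 ((SwP470.moveSystem n d 1 le_rfl).mem_left p hp mv (Finset.mem_univ _))
      have hCh : ((Ch p (bsw 1 p mv).1).card : ℝ) ≤ cL d := by
        unfold cL
        exact_mod_cast SwP470.card_Ch_bsw (L := 1) hp1 mv
      have hCh0 : (0 : ℝ) ≤ ((Ch p (bsw 1 p mv).1).card : ℝ) := Nat.cast_nonneg _
      have h1 := sum_uu_stab h hκ hp1 hp2 s ω hzp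
      have h2 := sum_uu_stab h hκ hp1 hp2 s ω hzp'
      have hpt : ∀ x : HE n d, |φ (fD m s ω z z' (bsw 1 p mv).1 x) / (2 * BB y0) -
          φ (fD m s ω z z' p x) / (2 * BB y0)| ≤
          (‖uu m (B0 (bsw 1 p mv).1 s ω z x 0 0) - uu m (B0 p s ω z x 0 0)‖ +
          ‖uu m (B0 (bsw 1 p mv).1 s ω z' x 0 0) - uu m (B0 p s ω z' x 0 0)‖) / (2 * BB y0) := by
        intro x
        rw [← sub_div, abs_div, abs_of_pos (by positivity : (0 : ℝ) < 2 * BB y0)]
        refine div_le_div_of_nonneg_right ?_ (by positivity)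
        rw [hφs]
        refine (hφ _).trans ?_
        unfold fD
        have e : uu m (B0 (bsw 1 p mv).1 s ω z x 0 0) - uu m (B0 (bsw 1 p mv).1 s ω z' x 0 0) -
            (uu m (B0 p s ω z x 0 0) - uu m (B0 p s ω z' x 0 0)) =
            (uu m (B0 (bsw 1 p mv).1 s ω z x 0 0) - uu m (B0 p s ω z x 0 0)) -
            (uu m (B0 (bsw 1 p mv).1 s ω z' x 0 0) - uu m (B0 p s ω z' x 0 0)) := by ring
        rw [e]
        exact norm_sub_le _ _
      refine (Finset.sum_le_sum fun x _ => hpt x).trans ?_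
      rw [← Finset.sum_div, Finset.sum_add_distrib]
      have hinv : ∀ w : ℂ, K / n ≤ w.im → 4 * CS y0 κ * d * ((Ch p (bsw 1 p mv).1).card : ℝ) / w.im ≤
          4 * CS y0 κ * d * cL d * (n / K) := by
        intro w hw
        have hw0 : 0 < w.im := lt_of_lt_of_le (by positivity) hw
        have h3 : 1 / w.im ≤ n / K := by
          rw [div_le_div_iff₀ hw0 hK]
          rw [div_le_iff₀ hn'] at hw
          linarith
        rw [div_eq_mul_one_div]
        refine mul_le_mul (mul_le_mul_of_nonneg_left hCh (by positivity)) h3 (by positivity) ?_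
        have : 0 ≤ cL d := by unfold cL; positivity
        positivity
      have h3 := hinv z hz
      have h4 := hinv z' hz'
      have h5 : 2 * BB y0 * ((Ch p (bsw 1 p mv).1).card : ℝ) ≤ 2 * BB y0 * cL d :=
        mul_le_mul_of_nonneg_left hCh (by positivity)
      have h6 : (8 * CS y0 κ * d * cL d * (n / K) + 4 * BB y0 * cL d) / (2 * BB y0) +
          (nbad κ p s ω z + nbad κ p s ω z') =
          (8 * CS y0 κ * d * cL d * (n / K) + 4 * BB y0 * cL d +
            2 * BB y0 * (nbad κ p s ω z + nbad κ p s ω z')) / (2 * BB y0) := by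
        field_simp
      rw [h6]
      refine div_le_div_of_nonneg_right ?_ (by positivity)
      linarith
    have hcE : ((Finset.univ : Finset (HE n d)).card : ℝ) = n * d := by
      rw [Finset.card_univ, IsPort.card_HE]; push_cast; rfl
    refine (Finset.sum_le_sum fun p hp => Finset.sum_le_sum fun mv hmv => hone p hp mv hmv).trans ?_
    rw [hcE]
    simp only [Finset.sum_const, nsmul_eq_mul]
    rw [← Finset.mul_sum, Finset.sum_add_distrib, Finset.sum_const, nsmul_eq_mul,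
      Finset.sum_add_distrib]
    have hMc : (0 : ℝ) ≤ ((Finset.univ : Finset (HE n d × (BI d 1 → HE n d))).card : ℝ) :=
      Nat.cast_nonneg _
    have e1 : del2 n d y0 κ K ε * ((Ports n d).card : ℝ) *
        ((Finset.univ : Finset (HE n d × (BI d 1 → HE n d))).card : ℝ) * (n * d) =
        ((Finset.univ : Finset (HE n d × (BI d 1 → HE n d))).card : ℝ) *
        (((Ports n d).card : ℝ) * (((8 * CS y0 κ * d * cL d * (n / K)) + 4 * BB y0 * cL d) /
          (2 * BB y0)) + (ε * (n * d) * (Ports n d).card + ε * (n * d) * (Ports n d).card)) := by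
      unfold del2
      field_simp
      ring
    rw [e1]
    exact mul_le_mul_of_nonneg_left (by linarith) hMc

/-- **second moment of the difference** -/
theorem sm_D [NeZero d] {b : ℕ} {y0 : ℝ} {z0 m : ℂ} (h : Adm b y0 z0 m) {κ : ℝ} (hκ : 0 < κ)
    (hn : 0 < n) (s : ℝ) (ω : Fin n → ℝ) {z z' : ℂ} {K ε : ℝ} (hK : 0 < K)
    (hz : K / n ≤ z.im) (hz' : K / n ≤ z'.im)
    (hN1 : ∑ p ∈ Ports n d, nbad κ p s ω z ≤ ε * (n * d) * (Ports n d).card)
    (hN2 : ∑ p ∈ Ports n d, nbad κ p s ω z' ≤ ε * (n * d) * (Ports n d).card) :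
    ∑ p ∈ Ports n d, ‖DD m (PP p s ω z z') - gD m s ω z z' p‖ ^ 2 ≤
      8 * BB y0 ^ 2 * (2 * del2 n d y0 κ K ε +
        2 * ((Fintype.card (SwComm356.J d 1) : ℝ) ^ 2 / n)) * ((Ports n d).card : ℝ) := by
  have hBB := BB_pos h.hy
  have h1 := sm_real h hκ hn s ω hK hz hz' hN1 hN2 Complex.re Complex.abs_re_le_norm
    (fun a b => (Complex.sub_re a b).symm)
  have h2 := sm_real h hκ hn s ω hK hz hz' hN1 hN2 Complex.im Complex.abs_im_le_norm
    (fun a b => (Complex.sub_im a b).symm)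
  have e : ∀ p, ‖DD m (PP p s ω z z') - gD m s ω z z' p‖ ^ 2 = (2 * BB y0) ^ 2 *
      ((Sec269.nuAvg Finset.univ (fun p x => (fD m s ω z z' p x).re / (2 * BB y0)) p -
      Sec269.gAvg (Finset.univ : Finset (HE n d × (BI d 1 → HE n d))) Prod.fst (bsw 1)
        (fun p x => (fD m s ω z z' p x).re / (2 * BB y0)) p) ^ 2 +
      (Sec269.nuAvg Finset.univ (fun p x => (fD m s ω z z' p x).im / (2 * BB y0)) p -
      Sec269.gAvg (Finset.univ : Finset (HE n d × (BI d 1 → HE n d))) Prod.fst (bsw 1)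
        (fun p x => (fD m s ω z z' p x).im / (2 * BB y0)) p) ^ 2) := by
    intro p
    have er : (DD m (PP p s ω z z') - gD m s ω z z' p).re = (2 * BB y0) *
        (Sec269.nuAvg Finset.univ (fun p x => (fD m s ω z z' p x).re / (2 * BB y0)) p -
        Sec269.gAvg (Finset.univ : Finset (HE n d × (BI d 1 → HE n d))) Prod.fst (bsw 1)
        (fun p x => (fD m s ω z z' p x).re / (2 * BB y0)) p) := by
      rw [Complex.sub_re, DD_eq, avc_re, Sec269.nuAvg, Sec269.gAvg, gD]
      unfold av1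
      have hc : ((Finset.univ : Finset (HE n d × (BI d 1 → HE n d))).card : ℂ) =
          ((((Finset.univ : Finset (HE n d × (BI d 1 → HE n d))).card : ℝ)) : ℂ) := by push_cast; rfl
      rw [hc, Complex.div_ofReal_re, Complex.re_sum, ← Finset.sum_div, ← Finset.sum_div]
      simp only [Finset.card_univ]
      field_simp
    have ei : (DD m (PP p s ω z z') - gD m s ω z z' p).im = (2 * BB y0) *
        (Sec269.nuAvg Finset.univ (fun p x => (fD m s ω z z' p x).im / (2 * BB y0)) p -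
        Sec269.gAvg (Finset.univ : Finset (HE n d × (BI d 1 → HE n d))) Prod.fst (bsw 1)
        (fun p x => (fD m s ω z z' p x).im / (2 * BB y0)) p) := by
      rw [Complex.sub_im, DD_eq, avc_im, Sec269.nuAvg, Sec269.gAvg, gD]
      unfold av1
      have hc : ((Finset.univ : Finset (HE n d × (BI d 1 → HE n d))).card : ℂ) =
          ((((Finset.univ : Finset (HE n d × (BI d 1 → HE n d))).card : ℝ)) : ℂ) := by push_cast; rfl
      rw [hc, Complex.div_ofReal_im, Complex.im_sum, ← Finset.sum_div, ← Finset.sum_div]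
      simp only [Finset.card_univ]
      field_simp
    rw [← Complex.normSq_eq_norm_sq, Complex.normSq_apply, er, ei]
    ring
  rw [Finset.sum_congr rfl fun p _ => e p, ← Finset.mul_sum, Finset.sum_add_distrib]
  have h3 := mul_le_mul_of_nonneg_left (add_le_add h1 h2) (show 0 ≤ (2 * BB y0) ^ 2 by positivity)
  refine h3.trans (le_of_eq ?_)
  ring

end sm

end Crest.Agent.R166.FineStab798
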