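import Crest.Agent.R166.MeasMat_93
import Crest.Agent.R166.Gen_85

-- ▼ part R166/GoeInvA_93
section

/-!
# R166 / GoeInvA_93 (helper93)

Measure preserving selections between products of iid Gaussian arrays, second moments.
-/

set_option autoImplicit false

open MeasureTheory ProbabilityTheory Matrix WithLp
open scoped BigOperators RealInnerProductSpace
open Crest.ProbabilityR.RandomMatrix

namespace Crest.Agent.R166.GoeInv93

open Crest.Agent.R166 Crest.Agent.R166.GaussPi93 Crest.Agent.R166.GoeRot93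
open Crest.Agent.R166.CayDet93 Crest.Agent.R166.Schur93 Crest.Agent.R166.MeasMat93

instance goe_prob (n : ℕ) : IsProbabilityMeasure (goeDisorderLaw n) := by
  unfold goeDisorderLaw; infer_instance


section enc
variable {A B C D E : Type*} [Fintype A] [Fintype B] [Fintype C] [Fintype D] [Fintype E]

/-- joint vector -/
def enc2 (p : (A → B → ℝ) × (C → D → ℝ)) : (A × B) ⊕ (C × D) → ℝ :=
  Sum.elim (fun q => p.1 q.1 q.2) (fun q => p.2 q.1 q.2)

def dec2 (x : (A × B) ⊕ (C × D) → ℝ) : (A → B → ℝ) × (C → D → ℝ) :=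
  (fun a b => x (Sum.inl (a, b)), fun c d => x (Sum.inr (c, d)))

lemma mp_dec2 : MeasurePreserving (dec2 (A := A) (B := B) (C := C) (D := D))
    (gv ((A × B) ⊕ (C × D))) ((gm A B).prod (gm C D)) := by
  have h1 := measurePreserving_sumPiEquivProdPi
    (fun _ : (A × B) ⊕ (C × D) => gaussianReal 0 1)
  have h2 := (mp_curry (I := A) (J := B)).prod (mp_curry (I := C) (J := D))
  exact h2.comp h1

lemma mp_enc2 : MeasurePreserving (enc2 (A := A) (B := B) (C := C) (D := D))
    ((gm A B).prod (gm C D)) (gv ((A × B) ⊕ (C × D))) := by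
  have h1 := (measurePreserving_sumPiEquivProdPi
    (fun _ : (A × B) ⊕ (C × D) => gaussianReal 0 1)).symm
  have h2 := (mp_uncurry (I := A) (J := B)).prod (mp_uncurry (I := C) (J := D))
  have h3 := h1.comp h2
  convert h3 using 1
  ext p q
  rcases q with q | q <;> rfl

def dec3 (x : E ⊕ ((A × B) ⊕ (C × D)) → ℝ) : (E → ℝ) × ((A → B → ℝ) × (C → D → ℝ)) :=
  (fun e => x (Sum.inl e), dec2 fun q => x (Sum.inr q))

lemma mp_dec3 : MeasurePreserving (dec3 (A := A) (B := B) (C := C) (D := D) (E := E))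
    (gv (E ⊕ ((A × B) ⊕ (C × D)))) ((gv E).prod ((gm A B).prod (gm C D))) := by
  have h1 := measurePreserving_sumPiEquivProdPi
    (fun _ : E ⊕ ((A × B) ⊕ (C × D)) => gaussianReal 0 1)
  have h2 := (MeasurePreserving.id (gv E)).prod
    (mp_dec2 (A := A) (B := B) (C := C) (D := D))
  exact h2.comp h1

end enc

/-- change of variables for measurable functions -/
lemma mp_integral {α β : Type*} [MeasurableSpace α] [MeasurableSpace β] {μ : Measure α}
    {ν : Measure β} {T : α → β} (hT : MeasurePreserving T μ ν) {F : β → ℝ} (hF : Measurable F) :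
    ∫ a, F (T a) ∂μ = ∫ b, F b ∂ν := by
  rw [← hT.map_eq, integral_map hT.measurable.aemeasurable hF.aestronglyMeasurable]

section sel
variable {n m : ℕ}

/-- splitting off the first column of the directions. -/
def splitMap (p : GOEDisorder n × (Fin n → Fin (m + 1) → ℝ)) :
    (Fin n → ℝ) × (GOEDisorder n × (Fin n → Fin m → ℝ)) :=
  (fun i => p.2 i 0, (p.1, fun i k => p.2 i k.succ))

lemma mp_split : MeasurePreserving (splitMap (n := n) (m := m))
    ((goeDisorderLaw n).prod (gm (Fin n) (Fin (m + 1))))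
    ((gv (Fin n)).prod ((goeDisorderLaw n).prod (gm (Fin n) (Fin m)))) := by
  let φ : Fin n ⊕ ((Fin n × Fin n) ⊕ (Fin n × Fin m)) →
      (Fin n × Fin n) ⊕ (Fin n × Fin (m + 1)) :=
    Sum.elim (fun i => Sum.inr (i, 0)) (Sum.elim Sum.inl (fun q => Sum.inr (q.1, q.2.succ)))
  have hφ : Function.Injective φ := by
    intro a b hab
    rcases a with i | (⟨i, j⟩ | ⟨i, k⟩) <;> rcases b with i' | (⟨i', j'⟩ | ⟨i', k'⟩) <;>
      simp_all [φ]
    exact absurd hab.2.symm (Fin.succ_ne_zero _)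
  have h := (mp_dec3 (A := Fin n) (B := Fin n) (C := Fin n) (D := Fin m) (E := Fin n)).comp
    ((mp_sel φ hφ).comp (mp_enc2 (A := Fin n) (B := Fin n) (C := Fin n) (D := Fin (m + 1))))
  exact h

/-- reduction by one coordinate. -/
def redMap (p : GOEDisorder (n + 1) × (Fin (n + 1) → Fin m → ℝ)) :
    GOEDisorder n × (Fin n → Fin (m + 1) → ℝ) :=
  (fun i j => p.1 i.succ j.succ, Gred (fun j => p.1 0 j.succ) (fun j => p.2 j.succ))

lemma mp_red : MeasurePreserving (redMap (n := n) (m := m))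
    ((goeDisorderLaw (n + 1)).prod (gm (Fin (n + 1)) (Fin m)))
    ((goeDisorderLaw n).prod (gm (Fin n) (Fin (m + 1)))) := by
  let φ : (Fin n × Fin n) ⊕ (Fin n × Fin (m + 1)) →
      (Fin (n + 1) × Fin (n + 1)) ⊕ (Fin (n + 1) × Fin m) :=
    Sum.elim (fun q => Sum.inl (q.1.succ, q.2.succ))
      (fun q => Fin.cases (Sum.inl (0, q.1.succ)) (fun k => Sum.inr (q.1.succ, k)) q.2)
  have hφ : Function.Injective φ := by
    intro a b hab
    rcases a with ⟨i, j⟩ | ⟨i, k⟩ <;> rcases b with ⟨i', j'⟩ | ⟨i', k'⟩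
    · simp_all [φ]
    · exfalso
      induction k' using Fin.cases with
      | zero =>
        simp only [φ, Sum.elim_inl, Sum.elim_inr, Fin.cases_zero, Sum.inl.injEq, Prod.mk.injEq] at hab
        exact Fin.succ_ne_zero _ hab.1
      | succ k' => simp [φ] at hab
    · exfalso
      induction k using Fin.cases with
      | zero =>
        simp only [φ, Sum.elim_inl, Sum.elim_inr, Fin.cases_zero, Sum.inl.injEq, Prod.mk.injEq] at hab
        exact (Fin.succ_ne_zero _ hab.1.symm)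
      | succ k' => simp [φ] at hab
    · induction k using Fin.cases with
      | zero =>
        induction k' using Fin.cases with
        | zero => simp_all [φ]
        | succ k' => simp [φ] at hab
      | succ k =>
        induction k' using Fin.cases with
        | zero => simp [φ] at hab
        | succ k' => simp_all [φ]
  have h := (mp_dec2 (A := Fin n) (B := Fin n) (C := Fin n) (D := Fin (m + 1))).comp
    ((mp_sel φ hφ).comp (mp_enc2 (A := Fin (n + 1)) (B := Fin (n + 1)) (C := Fin (n + 1))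
      (D := Fin m)))
  have he : redMap (n := n) (m := m) = dec2 ∘ (fun x j => x (φ j)) ∘ enc2 := by
    ext p
    · rfl
    · rename_i j k
      induction k using Fin.cases with
      | zero => rfl
      | succ k => rfl
  rw [he]
  exact h

end sel

section moments

lemma memLp_sq : MemLp (fun t : ℝ => t ^ 2) 2 (gaussianReal 0 1) := by
  have h4 : MemLp (id : ℝ → ℝ) (4 : ℕ) (gaussianReal 0 1) := memLp_id_gaussianReal' _ (by simp)
  have h5 := h4.integrable_norm_pow (by norm_num)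
  rw [memLp_two_iff_integrable_sq (by fun_prop)]
  refine h5.congr (Filter.Eventually.of_forall fun t => ?_)
  simp only [id, Real.norm_eq_abs]
  rw [← pow_mul, show 2 * 2 = 4 by norm_num, ← abs_pow, abs_of_nonneg (by positivity)]

lemma integral_sq : ∫ t, t ^ 2 ∂(gaussianReal 0 1) = 1 := by
  have h := variance_id_gaussianReal (μ := 0) (v := 1)
  rw [variance_eq_integral (by fun_prop)] at h
  simp only [id, integral_id_gaussianReal, sub_zero] at h
  simpa using h

/-- the second moment of the square fluctuation. -/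
noncomputable def V0 : ℝ := Var[fun t : ℝ => t ^ 2; gaussianReal 0 1]

variable {n : ℕ}

lemma memLp_sumsq : MemLp (fun v : Fin n → ℝ => ∑ i, (v i) ^ 2) 2 (gv (Fin n)) := by
  have h : MemLp (∑ i : Fin n, fun v : Fin n → ℝ => (v i) ^ 2) 2 (gv (Fin n)) :=
    memLp_finsetSum' _ fun i _ =>
      memLp_sq.comp_measurePreserving (measurePreserving_eval (fun _ : Fin n => gaussianReal 0 1) i)
  convert h using 1
  ext v
  simp

lemma integral_sumsq : ∫ v, (∑ i, (v i) ^ 2) ∂(gv (Fin n)) = n := by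
  rw [integral_finsetSum]
  · have h : ∀ i : Fin n, ∫ v : Fin n → ℝ, (v i) ^ 2 ∂(gv (Fin n)) = 1 := by
      intro i
      rw [← integral_sq]
      exact mp_integral (measurePreserving_eval (fun _ : Fin n => gaussianReal 0 1) i)
        (F := fun t => t ^ 2) (by fun_prop)
    simp [h]
  · intro i _
    exact ((memLp_sq.comp_measurePreserving
      (measurePreserving_eval (fun _ : Fin n => gaussianReal 0 1) i)).integrable (by norm_num))

lemma integral_sumsq_sub : ∫ v, ((∑ i, (v i) ^ 2) - n) ^ 2 ∂(gv (Fin n)) = n * V0 := by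
  have h1 := variance_eq_integral (X := fun v : Fin n → ℝ => ∑ i, (v i) ^ 2) (μ := gv (Fin n))
    memLp_sumsq.aestronglyMeasurable.aemeasurable
  rw [integral_sumsq] at h1
  rw [← h1]
  have h2 := variance_sum_pi (μ := fun _ : Fin n => gaussianReal 0 1)
    (X := fun _ t => t ^ 2) (fun _ => memLp_sq)
  have h3 : (∑ i : Fin n, fun v : Fin n → ℝ => (v i) ^ 2) = fun v => ∑ i, (v i) ^ 2 := by
    ext v; simp
  rw [h3] at h2
  rw [h2]
  simp [V0]

lemma integrable_sumsq_sub :
    Integrable (fun v : Fin n → ℝ => ((∑ i, (v i) ^ 2) - n) ^ 2) (gv (Fin n)) :=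
  (memLp_sumsq.sub (memLp_const _)).integrable_sq

end moments

end Crest.Agent.R166.GoeInv93
end

-- ▼ part R166/GoeInvB_93
section

/-!
# R166 / GoeInvB_93 (helper93)

Rotation of the first direction to a coordinate vector; pointwise estimates.
-/

set_option autoImplicit false

open MeasureTheory ProbabilityTheory Matrix WithLp
open scoped BigOperators RealInnerProductSpace
open Crest.ProbabilityR.RandomMatrix

namespace Crest.Agent.R166.GoeInv93

open Crest.Agent.R166 Crest.Agent.R166.GaussPi93 Crest.Agent.R166.GoeRot93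
open Crest.Agent.R166.CayDet93 Crest.Agent.R166.Schur93 Crest.Agent.R166.MeasMat93

section rot
variable {n m : ℕ}

/-- glue a first column -/
def glue (v : Fin n → ℝ) (G : Fin n → Fin m → ℝ) : Fin n → Fin (m + 1) → ℝ :=
  fun i => Fin.cons (v i) (G i)

lemma glue_split (G : Fin n → Fin (m + 1) → ℝ) :
    glue (fun i => G i 0) (fun i k => G i k.succ) = G := by
  ext i k
  induction k using Fin.cases with
  | zero => rfl
  | succ k => rfl

lemma glue_rot (O : Matrix (Fin n) (Fin n) ℝ) (v : Fin n → ℝ) (G : Fin n → Fin m → ℝ) :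
    glue (O *ᵥ v) (fun i j => (O * Matrix.of G) i j)
      = fun i j => (O * Matrix.of (glue v G)) i j := by
  ext i k
  induction k using Fin.cases with
  | zero => simp [glue, Matrix.mulVec, dotProduct, Matrix.mul_apply]
  | succ k => simp [glue, Matrix.mul_apply]

/-- the shifted, rescaled matrix -/
noncomputable def Wx (a : ℝ) {n : ℕ} (g : GOEDisorder n) (x : ℝ) : Matrix (Fin n) (Fin n) ℝ :=
  a • goeMatrix g - x • (1 : Matrix (Fin n) (Fin n) ℝ)

lemma Wx_transpose (a : ℝ) (g : GOEDisorder n) (x : ℝ) : (Wx a g x)ᵀ = Wx a g x := by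
  rw [Wx, Matrix.transpose_sub, Matrix.transpose_smul, goeMatrix_transpose, Matrix.transpose_smul,
    Matrix.transpose_one]

lemma Wx_theta (a : ℝ) (O : Matrix (Fin n) (Fin n) ℝ) (hO : O * Oᵀ = 1) (g : GOEDisorder n)
    (x : ℝ) : Wx a (theta O g) x = O * Wx a g x * Oᵀ := by
  rw [Wx, Wx, goeMatrix_theta, Matrix.mul_sub, Matrix.sub_mul, Matrix.mul_smul, Matrix.smul_mul,
    Matrix.mul_smul, Matrix.mul_one, Matrix.smul_mul, hO]

lemma MM_Wx (a : ℝ) : MM (fun q : ℝ × GOEDisorder n => Wx a q.2 q.1) := by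
  intro i j
  have h := MM_goeMatrix (N := n) i j
  have h2 : Measurable fun q : ℝ × GOEDisorder n => goeMatrix q.2 i j := h.comp measurable_snd
  simp only [Wx, Matrix.sub_apply, Matrix.smul_apply, smul_eq_mul]
  exact (h2.const_mul a).sub (measurable_fst.mul_const _)

lemma norm_Cay_arr_le (a : ℝ) (g : GOEDisorder n) (x : ℝ) (G : Fin n → Fin m → ℝ) (i j : Fin m) :
    ‖Cay (arr (Wx a g x) G) i j‖ ≤ 1 :=
  norm_Cay_le _ (arr_transpose _ (Wx_transpose a g x) _) i j

/-- the integrand (shift, (disorder, directions)) -/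
noncomputable def Fq (a : ℝ) {n m : ℕ} (f : Matrix (Fin m) (Fin m) ℂ → ℝ)
    (q : ℝ × (GOEDisorder n × (Fin n → Fin m → ℝ))) : ℝ :=
  f (Cay (arr (Wx a q.2.1 q.1) q.2.2))

/-- joint measurability of the integrand (in the shift, the disorder and the directions). -/
lemma meas_all (a : ℝ) (n : ℕ) {f : Matrix (Fin m) (Fin m) ℂ → ℝ} (hf : Continuous f) :
    Measurable (Fq a (n := n) f) := by
  unfold Fq
  refine MM.comp_continuous ?_ hf
  refine MM.cay ?_
  refine MM.arr ?_ ?_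
  · intro i j
    exact (MM_Wx (n := n) a i j).comp (measurable_fst.prodMk (measurable_fst.comp measurable_snd))
  · intro i j
    exact (measurable_pi_apply j).comp ((measurable_pi_apply i).comp
      (measurable_snd.comp measurable_snd))

attribute [irreducible] Fq

lemma meas_x (a : ℝ) (n : ℕ) {f : Matrix (Fin m) (Fin m) ℂ → ℝ} (hf : Continuous f) (x : ℝ) :
    Measurable fun p : GOEDisorder n × (Fin n → Fin m → ℝ) => Fq a f (x, p) := by
  have h1 : Measurable (fun p : GOEDisorder n × (Fin n → Fin m → ℝ) => (x, p)) :=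
    measurable_const.prodMk measurable_id
  exact (meas_all a n hf).comp h1

/-- expectation functional at fixed shift `x` -/
noncomputable def JJ (a : ℝ) (n m : ℕ) (x : ℝ) (f : Matrix (Fin m) (Fin m) ℂ → ℝ) : ℝ :=
  ∫ p : GOEDisorder n × (Fin n → Fin m → ℝ),
    Fq a f (x, p) ∂((goeDisorderLaw n).prod (gm (Fin n) (Fin m)))

/-- exact invariance under real orthogonal matrices -/
theorem JJ_right (a : ℝ) (n m : ℕ) (x : ℝ) {f : Matrix (Fin m) (Fin m) ℂ → ℝ}
    (hf : Continuous f) (O : Matrix (Fin m) (Fin m) ℝ) (hO : O * Oᵀ = 1) :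
    JJ a n m x (fun U => f (cx O * U * (cx O)ᵀ)) = JJ a n m x f := by
  have hO' : Oᵀ * (Oᵀ)ᵀ = 1 := by
    rw [Matrix.transpose_transpose]; exact mul_eq_one_comm.mp hO
  have h1 : ∀ p : GOEDisorder n × (Fin n → Fin m → ℝ),
      Fq a (fun U => f (cx O * U * (cx O)ᵀ)) (x, p)
        = Fq a f (x, (p.1, fun i j => (Matrix.of p.2 * Oᵀ) i j)) := by
    intro p
    simp only [Fq]
    rw [arr_mul, Matrix.transpose_transpose, Cay_conj _ _
      (arr_transpose _ (Wx_transpose a p.1 x) _) hO]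
  have h2 := (MeasurePreserving.id (goeDisorderLaw n)).prod (mp_right (I := Fin n) Oᵀ hO')
  have h3 := mp_integral h2 (meas_x a n hf x)
  unfold JJ
  rw [← h3]
  exact integral_congr_ae (Filter.Eventually.of_forall h1)

/-- the functional with a prescribed first direction -/
noncomputable def PhiF (a : ℝ) (n m : ℕ) (x : ℝ) (f : Matrix (Fin (m + 1)) (Fin (m + 1)) ℂ → ℝ)
    (v : Fin n → ℝ) : ℝ :=
  ∫ p : GOEDisorder n × (Fin n → Fin m → ℝ),
    Fq a f (x, (p.1, glue v p.2)) ∂((goeDisorderLaw n).prod (gm (Fin n) (Fin m)))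

lemma measurable_glue : Measurable fun q : (Fin n → ℝ) × (GOEDisorder n × (Fin n → Fin m → ℝ)) =>
      ((q.2.1, glue q.1 q.2.2) : GOEDisorder n × (Fin n → Fin (m + 1) → ℝ)) := by
  refine (measurable_fst.comp measurable_snd).prodMk ?_
  refine measurable_pi_lambda _ fun i => measurable_pi_lambda _ fun k => ?_
  induction k using Fin.cases with
  | zero =>
    simp only [glue, Fin.cons_zero]
    exact (measurable_pi_apply i).comp measurable_fst
  | succ k =>
    simp only [glue, Fin.cons_succ]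
    exact (measurable_pi_apply k).comp ((measurable_pi_apply i).comp
      (measurable_snd.comp measurable_snd))

lemma meas_glue (a : ℝ) {f : Matrix (Fin (m + 1)) (Fin (m + 1)) ℂ → ℝ} (hf : Continuous f)
    (x : ℝ) : Measurable fun q : (Fin n → ℝ) × (GOEDisorder n × (Fin n → Fin m → ℝ)) =>
      Fq a f (x, (q.2.1, glue q.1 q.2.2)) :=
  (meas_x a n hf x).comp measurable_glue

theorem PhiF_rot (a : ℝ) (n m : ℕ) (x : ℝ) {f : Matrix (Fin (m + 1)) (Fin (m + 1)) ℂ → ℝ}
    (hf : Continuous f) (O : Matrix (Fin n) (Fin n) ℝ) (hO : O * Oᵀ = 1) (v : Fin n → ℝ) :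
    PhiF a n m x f (O *ᵥ v) = PhiF a n m x f v := by
  have hO' : Oᵀ * O = 1 := mul_eq_one_comm.mp hO
  have h2 := (theta_mp O hO').prod (mp_left (J := Fin m) O hO')
  have hm1 : Measurable fun p : GOEDisorder n × (Fin n → Fin m → ℝ) =>
      ((O *ᵥ v, p) : (Fin n → ℝ) × (GOEDisorder n × (Fin n → Fin m → ℝ))) :=
    measurable_const.prodMk measurable_id
  have hmeas : Measurable fun p : GOEDisorder n × (Fin n → Fin m → ℝ) =>
      Fq a f (x, (p.1, glue (O *ᵥ v) p.2)) := (meas_glue a hf x).comp hm1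
  have h3 := mp_integral h2 hmeas
  unfold PhiF
  rw [← h3]
  refine integral_congr_ae (Filter.Eventually.of_forall fun p => ?_)
  simp only [Prod.map, Fq]
  rw [glue_rot, Wx_theta a O hO, arr_left _ _ hO]

/-- `‖v‖ e_0` -/
noncomputable def nv (v : Fin (n + 1) → ℝ) : Fin (n + 1) → ℝ :=
  Fin.cons (Real.sqrt (∑ i, (v i) ^ 2)) (fun _ => 0)

lemma toMatrix_coiso {N : ℕ} (T : (Fin N → ℝ) →ₗ[ℝ] (Fin N → ℝ))
    (hT : ∀ x, ∑ i, (T x i) ^ 2 = ∑ i, (x i) ^ 2) :
    LinearMap.toMatrix' T * (LinearMap.toMatrix' T)ᵀ = 1 := by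
  have hpol : ∀ x y : Fin N → ℝ, ∑ i, T x i * T y i = ∑ i, x i * y i := by
    intro x y
    have h1 := hT (x + y)
    have h2 := hT x
    have h3 := hT y
    simp only [map_add, Pi.add_apply, add_sq, Finset.sum_add_distrib] at h1
    have h4 : ∑ i, 2 * T x i * T y i = 2 * ∑ i, T x i * T y i := by
      rw [Finset.mul_sum]; exact Finset.sum_congr rfl fun i _ => by ring
    have h5 : ∑ i, 2 * x i * y i = 2 * ∑ i, x i * y i := by
      rw [Finset.mul_sum]; exact Finset.sum_congr rfl fun i _ => by ring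
    rw [h4, h5] at h1
    linarith
  set A := LinearMap.toMatrix' T with hA
  have hAT : Aᵀ * A = 1 := by
    ext j k
    rw [Matrix.mul_apply]
    have := hpol (Pi.single j 1) (Pi.single k 1)
    simp only [Matrix.transpose_apply, hA, LinearMap.toMatrix'_apply, Matrix.one_apply]
    rw [this]
    by_cases hjk : j = k
    · subst hjk; simp [Pi.single_apply]
    · simp [Pi.single_apply, hjk, Ne.symm hjk]
  exact mul_eq_one_comm.mp hAT

lemma exists_rot (v : Fin (n + 1) → ℝ) :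
    ∃ O : Matrix (Fin (n + 1)) (Fin (n + 1)) ℝ, O * Oᵀ = 1 ∧ O *ᵥ v = nv v := by
  set v' : EuclideanSpace ℝ (Fin (n + 1)) := toLp 2 v with hv'
  set w' : EuclideanSpace ℝ (Fin (n + 1)) := toLp 2 (nv v) with hw'
  have hnorm : ‖v'‖ = ‖w'‖ := by
    rw [EuclideanSpace.norm_eq, EuclideanSpace.norm_eq]
    congr 1
    simp only [hv', hw', Real.norm_eq_abs, sq_abs]
    rw [Fin.sum_univ_succ (f := fun i => (nv v i) ^ 2)]
    simp only [nv, Fin.cons_zero, Fin.cons_succ]
    rw [Real.sq_sqrt (Finset.sum_nonneg fun i _ => sq_nonneg _)]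
    simp
  set Rf := ((ℝ ∙ (v' - w'))ᗮ).reflection with hRf
  have hR : Rf v' = w' := Submodule.reflection_sub hnorm
  let T : (Fin (n + 1) → ℝ) →ₗ[ℝ] (Fin (n + 1) → ℝ) :=
    (WithLp.linearEquiv 2 ℝ (Fin (n + 1) → ℝ)).toLinearMap ∘ₗ
      (Rf.toLinearEquiv.toLinearMap) ∘ₗ (WithLp.linearEquiv 2 ℝ (Fin (n + 1) → ℝ)).symm.toLinearMap
  have hT : ∀ x, ∑ i, (T x i) ^ 2 = ∑ i, (x i) ^ 2 := by
    intro x
    have h1 : ‖Rf (toLp 2 x)‖ ^ 2 = ‖(toLp 2 x : EuclideanSpace ℝ (Fin (n + 1)))‖ ^ 2 := by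
      rw [Rf.norm_map]
    rw [EuclideanSpace.norm_sq_eq, EuclideanSpace.norm_sq_eq] at h1
    simp only [Real.norm_eq_abs, sq_abs] at h1
    exact h1
  refine ⟨LinearMap.toMatrix' T, ?_, ?_⟩
  · exact toMatrix_coiso T hT
  · rw [← Matrix.toLin'_apply, Matrix.toLin'_toMatrix']
    have : T v = ofLp (Rf v') := rfl
    rw [this, hR]

theorem PhiF_nv (a : ℝ) (n m : ℕ) (x : ℝ) {f : Matrix (Fin (m + 1)) (Fin (m + 1)) ℂ → ℝ}
    (hf : Continuous f) (v : Fin (n + 1) → ℝ) :
    PhiF a (n + 1) m x f v = PhiF a (n + 1) m x f (nv v) := by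
  obtain ⟨O, hO, hv⟩ := exists_rot v
  rw [← hv, PhiF_rot a (n + 1) m x hf O hO]

end rot

section pt
variable {n m : ℕ}

/-- congruence matrix -/
noncomputable def Smat (r : ℝ) (c : Fin m → ℝ) : Matrix (Fin (m + 1)) (Fin (m + 1)) ℝ :=
  Matrix.of (Fin.cons (Fin.cons r c) (fun k => Fin.cons 0 (Pi.single k 1)))

/-- its inverse transpose -/
noncomputable def Rmat (r : ℝ) (c : Fin m → ℝ) : Matrix (Fin (m + 1)) (Fin (m + 1)) ℝ :=
  Matrix.of (Fin.cons (Fin.cons r⁻¹ (fun _ => 0)) (fun k => Fin.cons (-(c k) / r) (Pi.single k 1)))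

lemma S_R {r : ℝ} (hr : r ≠ 0) (c : Fin m → ℝ) : (Smat r c)ᵀ * Rmat r c = 1 := by
  ext i k
  rw [Matrix.mul_apply, Fin.sum_univ_succ]
  induction i using Fin.cases with
  | zero =>
    induction k using Fin.cases with
    | zero => simp [Smat, Rmat, hr]
    | succ k => simp [Smat, Rmat, Matrix.one_apply_ne (Fin.succ_ne_zero k).symm]
  | succ i =>
    induction k using Fin.cases with
    | zero =>
      simp only [Smat, Rmat, Matrix.transpose_apply, Matrix.of_apply, Fin.cons_zero, Fin.cons_succ,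
        Matrix.one_apply_ne (Fin.succ_ne_zero i)]
      rw [Finset.sum_eq_single i]
      · rw [Pi.single_eq_same]; field_simp; ring
      · intro l _ hl
        rw [Pi.single_eq_of_ne (Ne.symm hl)]; ring
      · simp
    | succ k =>
      simp only [Smat, Rmat, Matrix.transpose_apply, Matrix.of_apply, Fin.cons_zero, Fin.cons_succ,
        mul_zero, zero_add]
      rw [Finset.sum_eq_single i]
      · rw [Pi.single_eq_same, one_mul]
        by_cases h : i = k
        · subst h; simp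
        · rw [Pi.single_eq_of_ne (Ne.symm h), Matrix.one_apply_ne]
          exact fun h' => h (Fin.succ_injective _ h')
      · intro l _ hl
        rw [Pi.single_eq_of_ne (Ne.symm hl)]; ring
      · simp

lemma glue_nv (v : Fin (n + 1) → ℝ) (G : Fin (n + 1) → Fin m → ℝ) {s0 : ℝ} (hs0 : s0 ≠ 0) :
    glue (nv v) G = fun i j => (Matrix.of (Gext s0 (fun j => G j.succ)) *
      Smat (Real.sqrt (∑ i, (v i) ^ 2) / s0) (fun k => G 0 k / s0)) i j := by
  ext i k
  rw [Matrix.mul_apply, Fin.sum_univ_succ]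
  induction i using Fin.cases with
  | zero =>
    have h0 : ∀ l : Fin m, Matrix.of (Gext (n := n) s0 (fun j => G j.succ)) 0 l.succ = 0 := by
      intro l; simp [Gext]
    simp only [h0, zero_mul, Finset.sum_const_zero, add_zero]
    induction k using Fin.cases with
    | zero => simp [glue, nv, Gext, Smat]; field_simp
    | succ k => simp [glue, nv, Gext, Smat]; field_simp
  | succ j =>
    have h0 : Matrix.of (Gext (n := n) s0 (fun j => G j.succ)) j.succ 0 = 0 := by simp [Gext]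
    rw [h0, zero_mul, zero_add]
    induction k using Fin.cases with
    | zero => simp [glue, nv, Gext, Smat]
    | succ k =>
      simp only [glue, Gext, Smat, Matrix.of_apply, Fin.cons_succ]
      rw [Finset.sum_eq_single k]
      · rw [Pi.single_eq_same, mul_one]
      · intro l _ hl
        rw [Pi.single_eq_of_ne (Ne.symm hl), mul_zero]
      · simp

lemma S_sub_one {r η : ℝ} {c : Fin m → ℝ} (hr : |r - 1| ≤ η) (hc : ∀ k, |c k| ≤ η) (hη : 0 ≤ η)
    (i j : Fin (m + 1)) :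
    |Smat r c i j - (1 : Matrix (Fin (m + 1)) (Fin (m + 1)) ℝ) i j| ≤ η := by
  induction i using Fin.cases with
  | zero =>
    induction j using Fin.cases with
    | zero => simpa [Smat] using hr
    | succ k =>
      rw [Matrix.one_apply_ne (Fin.succ_ne_zero k).symm]
      simpa [Smat] using hc k
  | succ i =>
    induction j using Fin.cases with
    | zero =>
      rw [Matrix.one_apply_ne (Fin.succ_ne_zero i)]
      simpa [Smat] using hη
    | succ k =>
      have : Smat r c i.succ k.succ = (1 : Matrix (Fin (m + 1)) (Fin (m + 1)) ℝ) i.succ k.succ := by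
        simp only [Smat, Matrix.of_apply, Fin.cons_succ]
        by_cases h : i = k
        · subst h; simp
        · rw [Pi.single_eq_of_ne (Ne.symm h), Matrix.one_apply_ne]
          exact fun h' => h (Fin.succ_injective _ h')
      rw [this, sub_self, abs_zero]
      exact hη

lemma S_sub_R {r η : ℝ} {c : Fin m → ℝ} (hη : 0 ≤ η) (hη1 : η ≤ 1) (hr : |r - 1| ≤ η / 4)
    (hc : ∀ k, |c k| ≤ η / 4)
    (i j : Fin (m + 1)) : |Smat r c i j - Rmat r c i j| ≤ η := by
  have hr2 : 3 / 4 ≤ r := by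
    have := (abs_le.mp hr).1
    linarith
  have hr0 : 0 < r := by linarith
  induction i using Fin.cases with
  | zero =>
    induction j using Fin.cases with
    | zero =>
      simp only [Smat, Rmat, Matrix.of_apply, Fin.cons_zero]
      have h1 : r - r⁻¹ = (r - 1) * (1 + r⁻¹) := by field_simp; ring
      rw [h1, abs_mul]
      have h2 : |1 + r⁻¹| ≤ 4 := by
        have h3 : r⁻¹ ≤ 4 / 3 := by
          rw [inv_le_comm₀ hr0 (by norm_num)]
          norm_num
          exact hr2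
        rw [abs_of_nonneg (by positivity)]
        linarith
      calc |r - 1| * |1 + r⁻¹| ≤ (η / 4) * 4 :=
            mul_le_mul hr h2 (abs_nonneg _) (by linarith)
        _ = η := by ring
    | succ k =>
      simp only [Smat, Rmat, Matrix.of_apply, Fin.cons_zero, Fin.cons_succ, sub_zero]
      linarith [hc k]
  | succ i =>
    induction j using Fin.cases with
    | zero =>
      simp only [Smat, Rmat, Matrix.of_apply, Fin.cons_zero, Fin.cons_succ, zero_sub, abs_neg,
        abs_div, abs_of_pos hr0]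
      rw [div_le_iff₀ hr0]
      nlinarith [hc i, abs_nonneg (c i)]
    | succ k =>
      simp only [Smat, Rmat, Matrix.of_apply, Fin.cons_succ, sub_self, abs_zero]
      exact hη

end pt

end Crest.Agent.R166.GoeInv93
end

-- ▼ part R166/GoeInvC_93

/-!
# R166 / GoeInvC_93 (helper93)

Pointwise comparison of the size `n+1` array with (the `κ`-conjugate of) the size `n` array and its
integrated form.
-/

set_option autoImplicit false

open MeasureTheory ProbabilityTheory Matrix WithLp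
open scoped BigOperators RealInnerProductSpace
open Crest.ProbabilityR.RandomMatrix

namespace Crest.Agent.R166.GoeInv93

open Crest.Agent.R166 Crest.Agent.R166.GaussPi93 Crest.Agent.R166.GoeRot93
open Crest.Agent.R166.CayDet93 Crest.Agent.R166.Schur93 Crest.Agent.R166.MeasMat93

variable {m : ℕ}

/-- scale of the reduced matrix -/
noncomputable def sc (n : ℕ) : ℝ := Real.sqrt (n + 1) * Real.sqrt n

/-- the minor of the big matrix is the reduced matrix. -/
lemma minor_eq {n : ℕ} (hn : 0 < n) (g : GOEDisorder (n + 1)) (x : ℝ) :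
    (Wx ((n : ℝ) + 1) g x).submatrix Fin.succ Fin.succ
      = Wx (sc n) (fun i j => g i.succ j.succ) x := by
  have hn' : (0:ℝ) < n := by exact_mod_cast hn
  have hs : Real.sqrt (n:ℝ) ≠ 0 := (Real.sqrt_pos.mpr hn').ne'
  have hs1 : Real.sqrt ((n:ℝ) + 1) ≠ 0 := (Real.sqrt_pos.mpr (by positivity)).ne'
  have hsq : Real.sqrt ((n:ℝ) + 1) * Real.sqrt ((n:ℝ) + 1) = (n:ℝ) + 1 :=
    Real.mul_self_sqrt (by positivity)
  have key : ∀ t : ℝ, ((n:ℝ) + 1) * (t / Real.sqrt ((n:ℝ) + 1)) = sc n * (t / Real.sqrt (n:ℝ)) := by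
    intro t
    rw [sc]
    field_simp
    rw [sq, hsq]
    ring
  ext i j
  simp only [Wx, Matrix.submatrix_apply, Matrix.sub_apply, Matrix.smul_apply, smul_eq_mul,
    goeMatrix, Nat.cast_add, Nat.cast_one, Fin.succ_lt_succ_iff, Fin.succ_inj]
  have h1 : (1 : Matrix (Fin (n + 1)) (Fin (n + 1)) ℝ) i.succ j.succ
      = (1 : Matrix (Fin n) (Fin n) ℝ) i j := by
    simp only [Matrix.one_apply, Fin.succ_inj]
  rw [h1]
  split_ifs <;> rw [key]

lemma row_eq {n : ℕ} (g : GOEDisorder (n + 1)) (x : ℝ) (j : Fin n) :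
    Wx ((n : ℝ) + 1) g x 0 j.succ = Real.sqrt ((n:ℝ) + 1) * g 0 j.succ := by
  have hs1 : Real.sqrt ((n:ℝ) + 1) ≠ 0 := (Real.sqrt_pos.mpr (by positivity)).ne'
  have hsq : Real.sqrt ((n:ℝ) + 1) * Real.sqrt ((n:ℝ) + 1) = (n:ℝ) + 1 :=
    Real.mul_self_sqrt (by positivity)
  simp only [Wx, Matrix.sub_apply, Matrix.smul_apply, smul_eq_mul, goeMatrix, Nat.cast_add,
    Nat.cast_one, Matrix.one_apply_ne (Fin.succ_ne_zero j).symm, mul_zero, sub_zero,
    (Fin.succ_ne_zero j).symm, if_false, Fin.succ_pos, if_true]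
  field_simp
  rw [sq, hsq]
  ring

lemma corner_eq {n : ℕ} (g : GOEDisorder (n + 1)) (x : ℝ) :
    Wx ((n : ℝ) + 1) g x 0 0 / (Real.sqrt ((n:ℝ) + 1)) ^ 2
      = Real.sqrt 2 * g 0 0 / Real.sqrt ((n:ℝ) + 1) - x / ((n:ℝ) + 1) := by
  have hn1 : (0:ℝ) < (n:ℝ) + 1 := by positivity
  rw [Real.sq_sqrt hn1.le]
  simp only [Wx, Matrix.sub_apply, Matrix.smul_apply, smul_eq_mul, goeMatrix, Nat.cast_add,
    Nat.cast_one, Matrix.one_apply_eq, if_true, mul_one]
  rw [sub_div, mul_div_cancel_left₀ _ hn1.ne']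

/-- bad quantity -/
noncomputable def Ebad (n : ℕ) (x : ℝ)
    (q : (Fin (n + 1) → ℝ) × (GOEDisorder (n + 1) × (Fin (n + 1) → Fin m → ℝ))) : ℝ :=
  ((n:ℝ) + 1)⁻¹ * (((n:ℝ) + 1)⁻¹ * ((∑ i, (q.1 i) ^ 2) - ((n + 1 : ℕ) : ℝ)) ^ 2
    + (∑ k, (q.2.2 0 k) ^ 2) + 4 * (q.2.1 0 0) ^ 2 + 2 * x ^ 2)

/-- consequences of the smallness of the bad quantity -/
lemma Ebad_bounds (n : ℕ) (x : ℝ) (v : Fin (n + 1) → ℝ) (g : GOEDisorder (n + 1))
    (G : Fin (n + 1) → Fin m → ℝ) {τ : ℝ} (hcase : Ebad n x (v, (g, G)) ≤ τ) :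
    (((n:ℝ) + 1)⁻¹ * ((∑ i, (v i) ^ 2) - ((n + 1 : ℕ) : ℝ))) ^ 2 ≤ τ
      ∧ (∀ k, (G 0 k / Real.sqrt ((n:ℝ) + 1)) ^ 2 ≤ τ)
      ∧ (Real.sqrt 2 * g 0 0 / Real.sqrt ((n:ℝ) + 1) - x / ((n:ℝ) + 1)) ^ 2 ≤ τ := by
  have hn1 : (0:ℝ) < (n:ℝ) + 1 := by positivity
  have hn1' : (1:ℝ) ≤ (n:ℝ) + 1 := by
    have : (0:ℝ) ≤ n := by positivity
    linarith
  have hs0sq : (Real.sqrt ((n:ℝ) + 1)) ^ 2 = (n:ℝ) + 1 := Real.sq_sqrt hn1.le
  unfold Ebad at hcase
  simp only at hcase
  have i0 : 0 < ((n:ℝ) + 1)⁻¹ := by positivity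
  have p1 : 0 ≤ ((n:ℝ) + 1)⁻¹ * ((∑ i, (v i) ^ 2) - ((n + 1 : ℕ) : ℝ)) ^ 2 := by positivity
  have p2 : 0 ≤ ∑ k, (G 0 k) ^ 2 := Finset.sum_nonneg fun _ _ => sq_nonneg _
  have p3 : 0 ≤ 4 * (g 0 0) ^ 2 := by positivity
  have p4 : 0 ≤ 2 * x ^ 2 := by positivity
  refine ⟨?_, ?_, ?_⟩
  · refine le_trans ?_ hcase
    have : (((n:ℝ) + 1)⁻¹ * ((∑ i, (v i) ^ 2) - ((n + 1 : ℕ) : ℝ))) ^ 2
      = ((n:ℝ) + 1)⁻¹ * (((n:ℝ) + 1)⁻¹ * ((∑ i, (v i) ^ 2) - ((n + 1 : ℕ) : ℝ)) ^ 2) := by
      ring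
    rw [this]
    exact mul_le_mul_of_nonneg_left (by linarith) i0.le
  · intro k
    refine le_trans ?_ hcase
    have h1 : (G 0 k / Real.sqrt ((n:ℝ) + 1)) ^ 2 = ((n:ℝ) + 1)⁻¹ * (G 0 k) ^ 2 := by
      rw [div_pow, hs0sq, div_eq_inv_mul]
    rw [h1]
    have h2 : (G 0 k) ^ 2 ≤ ∑ k, (G 0 k) ^ 2 :=
      Finset.single_le_sum (f := fun k => (G 0 k) ^ 2) (fun _ _ => sq_nonneg _)
        (Finset.mem_univ k)
    exact mul_le_mul_of_nonneg_left (by linarith) i0.le
  · refine le_trans ?_ hcase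
    set a := Real.sqrt 2 * g 0 0 / Real.sqrt ((n:ℝ) + 1) with ha
    set b := x / ((n:ℝ) + 1) with hb
    have h1 : (a - b) ^ 2 ≤ 2 * a ^ 2 + 2 * b ^ 2 := by nlinarith [sq_nonneg (a + b)]
    have h2 : a ^ 2 = ((n:ℝ) + 1)⁻¹ * (2 * (g 0 0) ^ 2) := by
      rw [ha, div_pow, mul_pow, Real.sq_sqrt (by norm_num), hs0sq, div_eq_inv_mul]
    have h3 : b ^ 2 ≤ ((n:ℝ) + 1)⁻¹ * x ^ 2 := by
      rw [hb, div_pow, div_eq_inv_mul]
      refine mul_le_mul_of_nonneg_right ?_ (sq_nonneg _)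
      rw [sq, mul_inv]
      have : ((n:ℝ) + 1)⁻¹ ≤ 1 := inv_le_one_of_one_le₀ hn1'
      nlinarith
    have h4 : ((n:ℝ) + 1)⁻¹ * (4 * (g 0 0) ^ 2 + 2 * x ^ 2)
        ≤ ((n:ℝ) + 1)⁻¹ * (((n:ℝ) + 1)⁻¹ * ((∑ i, (v i) ^ 2) - ((n + 1 : ℕ) : ℝ)) ^ 2
          + (∑ k, (G 0 k) ^ 2) + 4 * (g 0 0) ^ 2 + 2 * x ^ 2) :=
      mul_le_mul_of_nonneg_left (by linarith) i0.le
    refine le_trans ?_ h4
    calc (a - b) ^ 2 ≤ 2 * a ^ 2 + 2 * b ^ 2 := h1
      _ ≤ 2 * (((n:ℝ) + 1)⁻¹ * (2 * (g 0 0) ^ 2)) + 2 * (((n:ℝ) + 1)⁻¹ * x ^ 2) := by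
          rw [h2]; linarith
      _ = _ := by ring

set_option maxHeartbeats 1000000 in
/-- **pointwise estimate** -/
theorem pt_est {f : Matrix (Fin (m + 1)) (Fin (m + 1)) ℂ → ℝ} (hf : Continuous f) {ε : ℝ}
    (hε : 0 < ε) : ∃ K : ℝ, 0 ≤ K ∧ ∀ (n : ℕ) (x : ℝ)
      (q : (Fin (n + 1) → ℝ) × (GOEDisorder (n + 1) × (Fin (n + 1) → Fin m → ℝ))), 0 < n →
      IsUnit (Wx ((n:ℝ) + 1) q.2.1 x).det →
      IsUnit (Wx (sc n) (fun i j => q.2.1 i.succ j.succ) x).det →
      |Fq ((n:ℝ) + 1) f (x, (q.2.1, glue (nv q.1) q.2.2))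
        - Fq (sc n) (fun U => f (kap m * U * kap m)) (x, redMap q.2)| ≤ 2 * ε + K * Ebad n x q := by
  have hf' : Continuous (fun U => f (kap m * U * kap m)) :=
    hf.comp ((continuous_const.mul continuous_id).mul continuous_const)
  obtain ⟨B1, hB1, hB1'⟩ := exists_bound hf
  obtain ⟨B2, hB2, hB2'⟩ := exists_bound hf'
  obtain ⟨η1, hη1, hu1⟩ := exists_unif hf hε
  obtain ⟨η2, hη2, hu2⟩ := exists_unif hf' hε
  set M : ℝ := (m:ℝ) + 1 with hM
  have hMpos : 1 ≤ M := by rw [hM]; have : (0:ℝ) ≤ m := by positivity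
                           linarith
  set C : ℝ := 2 * (M + M * (M * 2) + M * (M * M * 2)) + 2 * (M * M) + 1 with hC
  have hCpos : 0 < C := by positivity
  set η : ℝ := min 1 (min (η1 / C) (η2 / C)) with hη
  have hηpos : 0 < η := by
    rw [hη]; exact lt_min one_pos (lt_min (div_pos hη1 hCpos) (div_pos hη2 hCpos))
  have hη1' : η ≤ 1 := min_le_left _ _
  have hηa : η * C ≤ η1 := by
    have : η ≤ η1 / C := (min_le_right _ _).trans (min_le_left _ _)
    rwa [le_div_iff₀ hCpos] at this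
  have hηb : η * C ≤ η2 := by
    have : η ≤ η2 / C := (min_le_right _ _).trans (min_le_right _ _)
    rwa [le_div_iff₀ hCpos] at this
  set τ : ℝ := (η / 4) ^ 2 with hτ
  have hτpos : 0 < τ := by positivity
  refine ⟨(B1 + B2) / τ, by positivity, ?_⟩
  intro n x q hn hA hD
  obtain ⟨v, g, G⟩ := q
  simp only at hA hD ⊢
  have hn1 : (0:ℝ) < (n:ℝ) + 1 := by positivity
  have hn1' : (1:ℝ) ≤ (n:ℝ) + 1 := by have : (0:ℝ) ≤ n := by positivity
                                      linarith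
  set s0 : ℝ := Real.sqrt ((n:ℝ) + 1) with hs0
  have hs0pos : 0 < s0 := Real.sqrt_pos.mpr hn1
  have hs0sq : s0 ^ 2 = (n:ℝ) + 1 := Real.sq_sqrt hn1.le
  set A := Wx ((n:ℝ) + 1) g x with hAdef
  have hAt : Aᵀ = A := Wx_transpose _ g x
  set ξ : Fin n → Fin m → ℝ := fun j => G j.succ with hξ
  set r : ℝ := Real.sqrt (∑ i, (v i) ^ 2) / s0 with hr
  set c : Fin m → ℝ := fun k => G 0 k / s0 with hc
  set T := arr A (Gext s0 ξ) with hT
  have hTt : Tᵀ = T := arr_transpose A hAt _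
  set D := Wx (sc n) (fun i j => g i.succ j.succ) x with hDdef
  have hDeq : A.submatrix Fin.succ Fin.succ = D := minor_eq hn g x
  have hDt : Dᵀ = D := Wx_transpose _ _ x
  set ω : Fin n → ℝ := fun j => g 0 j.succ with hω
  set N0 := arr D (Gred ω ξ) with hN0
  have hN0t : N0ᵀ = N0 := arr_transpose D hDt _
  set t : ℝ := Real.sqrt 2 * g 0 0 / s0 - x / ((n:ℝ) + 1) with ht
  set Nt := N0 - t • diagonal (e0 (m := m)) with hNt
  have hNtt : Ntᵀ = Nt := by
    rw [hNt, Matrix.transpose_sub, hN0t, Matrix.transpose_smul, diagonal_transpose]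
  -- the three arrays
  have e1 : Fq ((n:ℝ) + 1) f (x, (g, glue (nv v) G)) = f (Cay ((Smat r c)ᵀ * T * Smat r c)) := by
    unfold Fq
    simp only
    rw [glue_nv v G hs0pos.ne', arr_mul]
  have e2 : Cay T = kap m * Cay Nt * kap m := by
    have h := Cay_arr_Gext A hAt hA (by rw [hDeq]; exact hD) s0 hs0pos.ne' ω
      (fun j => row_eq g x j) ξ
    rw [hDeq, corner_eq g x] at h
    exact h
  have e3 : Fq (sc n) (fun U => f (kap m * U * kap m)) (x, redMap (g, G))
      = f (kap m * Cay N0 * kap m) := by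
    unfold Fq
    rfl
  rw [e1, e3]
  have hb1 : |f (Cay ((Smat r c)ᵀ * T * Smat r c))| ≤ B1 := by
    apply hB1'
    apply norm_Cay_le
    rw [Matrix.transpose_mul, Matrix.transpose_mul, Matrix.transpose_transpose, hTt,
      Matrix.mul_assoc]
  have hb2 : |f (kap m * Cay N0 * kap m)| ≤ B2 := hB2' _ (norm_Cay_le _ hN0t)
  have hE0 : 0 ≤ Ebad n x (v, (g, G)) := by
    unfold Ebad
    positivity
  by_cases hcase : Ebad n x (v, (g, G)) ≤ τ
  · -- good case
    have hsum := Ebad_bounds n x v g G hcase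
    obtain ⟨q1, q2, q3⟩ := hsum
    have hη4 : 0 ≤ η / 4 := by positivity
    have hc4 : ∀ k, |c k| ≤ η / 4 := fun k => abs_le_of_sq_le_sq (q2 k) hη4
    have ht4 : |t| ≤ η / 4 := abs_le_of_sq_le_sq q3 hη4
    have hr0 : 0 ≤ r := div_nonneg (Real.sqrt_nonneg _) hs0pos.le
    have hrsq : r ^ 2 - 1 = ((n:ℝ) + 1)⁻¹ * ((∑ i, (v i) ^ 2) - ((n + 1 : ℕ) : ℝ)) := by
      rw [hr, div_pow, Real.sq_sqrt (Finset.sum_nonneg fun i _ => sq_nonneg _), hs0sq]
      push_cast
      field_simp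
    have hr4 : |r - 1| ≤ η / 4 := by
      have h1 : |r ^ 2 - 1| ≤ η / 4 := by
        rw [hrsq]; exact abs_le_of_sq_le_sq q1 hη4
      have h2 : |r ^ 2 - 1| = |r - 1| * (r + 1) := by
        have : r ^ 2 - 1 = (r - 1) * (r + 1) := by ring
        rw [this, abs_mul, abs_of_nonneg (by linarith : (0:ℝ) ≤ r + 1)]
      rw [h2] at h1
      nlinarith [abs_nonneg (r - 1)]
    have hrne : r ≠ 0 := by
      have := (abs_le.mp hr4).1
      have h34 : 0 < r := by linarith
      exact h34.ne'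
    -- first comparison
    have c1 : |f (Cay ((Smat r c)ᵀ * T * Smat r c)) - f (Cay T)| ≤ ε := by
      apply hu1
      · apply norm_Cay_le
        rw [Matrix.transpose_mul, Matrix.transpose_mul, Matrix.transpose_transpose, hTt,
          Matrix.mul_assoc]
      · exact norm_Cay_le _ hTt
      · intro i j
        have h := norm_Cay_congr_le T (Smat r c) (Rmat r c) hTt (S_R hrne c) hη1'
          (S_sub_one (hr4.trans (by linarith)) (fun k => (hc4 k).trans (by linarith)) hηpos.le)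
          (S_sub_R hηpos.le hη1' hr4 hc4) i j
        refine lt_of_le_of_lt h ?_
        push_cast
        have : 2 * (M * η + M * (M * 2 * η) + M * (M * (M * η) * 2)) < η * C := by
          rw [hC]
          nlinarith [mul_pos hηpos (show (0:ℝ) < 2 * (M * M) + 1 by positivity)]
        exact lt_of_lt_of_le this hηa
    -- second comparison
    have c2 : |f (kap m * Cay Nt * kap m) - f (kap m * Cay N0 * kap m)| ≤ ε := by
      apply hu2 _ _ (norm_Cay_le _ hNtt) (norm_Cay_le _ hN0t)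
      intro i j
      have h := norm_Cay_sub_le Nt N0 hNtt hN0t (η := η) (by
        intro i j
        have h1 : Nt i j - N0 i j = -(t * (diagonal (e0 (m := m))) i j) := by
          rw [hNt]; simp [Matrix.sub_apply, Matrix.smul_apply]
        rw [h1, abs_neg, abs_mul]
        have h2 : |(diagonal (e0 (m := m))) i j| ≤ 1 := by
          by_cases hij : i = j
          · subst hij
            rw [diagonal_apply_eq]
            induction i using Fin.cases with
            | zero => simp [e0]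
            | succ i => simp [e0]
          · rw [diagonal_apply_ne _ hij]; simp
        calc |t| * |(diagonal (e0 (m := m))) i j| ≤ (η / 4) * 1 :=
              mul_le_mul ht4 h2 (abs_nonneg _) hη4
          _ ≤ η := by linarith) i j
      refine lt_of_le_of_lt h ?_
      push_cast
      have : 2 * (M * (M * η)) < η * C := by
        rw [hC]
        nlinarith [mul_pos hηpos (show (0:ℝ) < 2 * (M + M * (M * 2) + M * (M * M * 2)) + 1 by
          positivity)]
      exact lt_of_lt_of_le this hηb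
    rw [e2] at c1
    have hK : 0 ≤ (B1 + B2) / τ * Ebad n x (v, (g, G)) := by positivity
    have := abs_sub_le (f (Cay ((Smat r c)ᵀ * T * Smat r c))) (f (kap m * Cay Nt * kap m))
      (f (kap m * Cay N0 * kap m))
    linarith
  · -- bad case
    have hcase' : τ < Ebad n x (v, (g, G)) := not_le.mp hcase
    have h1 : (B1 + B2) ≤ (B1 + B2) / τ * Ebad n x (v, (g, G)) := by
      rw [div_mul_eq_mul_div, le_div_iff₀ hτpos]
      exact mul_le_mul_of_nonneg_left hcase'.le (by linarith)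
    have h2 := abs_sub (f (Cay ((Smat r c)ᵀ * T * Smat r c))) (f (kap m * Cay N0 * kap m))
    linarith

section integ

lemma integrable_of_bdd {α : Type*} [MeasurableSpace α] {μ : Measure α} [IsProbabilityMeasure μ]
    {F : α → ℝ} (hF : Measurable F) {B : ℝ} (hB : ∀ a, |F a| ≤ B) : Integrable F μ :=
  Integrable.of_bound hF.aestronglyMeasurable B
    (Filter.Eventually.of_forall fun a => by rw [Real.norm_eq_abs]; exact hB a)

lemma Fq_bdd (a : ℝ) {n m : ℕ} {f : Matrix (Fin m) (Fin m) ℂ → ℝ} {B : ℝ}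
    (hB : ∀ U : Matrix (Fin m) (Fin m) ℂ, (∀ i j, ‖U i j‖ ≤ 1) → |f U| ≤ B)
    (q : ℝ × (GOEDisorder n × (Fin n → Fin m → ℝ))) : |Fq a f q| ≤ B := by
  unfold Fq
  exact hB _ (norm_Cay_arr_le a q.2.1 q.1 q.2.2)

/-- first form: `JJ` as an integral over (first direction, (disorder, other directions)) with the
first direction rotated to the first axis. -/
theorem JJ_eq_nv (a : ℝ) (n m : ℕ) (x : ℝ) {f : Matrix (Fin (m + 1)) (Fin (m + 1)) ℂ → ℝ}
    (hf : Continuous f) :
    JJ a (n + 1) (m + 1) x f = ∫ q : (Fin (n + 1) → ℝ) ×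
        (GOEDisorder (n + 1) × (Fin (n + 1) → Fin m → ℝ)),
      Fq a f (x, (q.2.1, glue (nv q.1) q.2.2))
      ∂((gv (Fin (n + 1))).prod ((goeDisorderLaw (n + 1)).prod (gm (Fin (n + 1)) (Fin m)))) := by
  obtain ⟨B, _, hB⟩ := exists_bound hf
  have hm := meas_glue (n := n + 1) (m := m) a hf x
  have h1 := mp_integral (mp_split (n := n + 1) (m := m)) hm
  have h2 : JJ a (n + 1) (m + 1) x f = ∫ q : (Fin (n + 1) → ℝ) ×
        (GOEDisorder (n + 1) × (Fin (n + 1) → Fin m → ℝ)),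
      Fq a f (x, (q.2.1, glue q.1 q.2.2))
      ∂((gv (Fin (n + 1))).prod ((goeDisorderLaw (n + 1)).prod (gm (Fin (n + 1)) (Fin m)))) := by
    rw [← h1]
    unfold JJ
    refine integral_congr_ae (Filter.Eventually.of_forall fun p => ?_)
    simp only [splitMap, glue_split]
  have hnvm : Measurable (nv (n := n)) := by
    refine measurable_pi_lambda _ fun i => ?_
    induction i using Fin.cases with
    | zero =>
      simp only [nv, Fin.cons_zero]
      fun_prop
    | succ i =>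
      simp only [nv, Fin.cons_succ]
      exact measurable_const
  have hm' : Measurable fun q : (Fin (n + 1) → ℝ) ×
        (GOEDisorder (n + 1) × (Fin (n + 1) → Fin m → ℝ)) =>
      Fq a f (x, (q.2.1, glue (nv q.1) q.2.2)) :=
    hm.comp ((hnvm.comp measurable_fst).prodMk measurable_snd)
  rw [h2, integral_prod _ (integrable_of_bdd hm (fun q => Fq_bdd a hB _)),
    integral_prod _ (integrable_of_bdd hm' (fun q => Fq_bdd a hB _))]
  exact integral_congr_ae (Filter.Eventually.of_forall fun v => PhiF_nv a n m x hf v)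

/-- second form: the reduced functional as an integral over the same space. -/
theorem JJ_eq_red (a : ℝ) (n m : ℕ) (x : ℝ) {f : Matrix (Fin (m + 1)) (Fin (m + 1)) ℂ → ℝ}
    (hf : Continuous f) :
    JJ a n (m + 1) x f = ∫ q : (Fin (n + 1) → ℝ) ×
        (GOEDisorder (n + 1) × (Fin (n + 1) → Fin m → ℝ)),
      Fq a f (x, redMap q.2)
      ∂((gv (Fin (n + 1))).prod ((goeDisorderLaw (n + 1)).prod (gm (Fin (n + 1)) (Fin m)))) := by
  obtain ⟨B, _, hB⟩ := exists_bound hf
  have h1 := mp_integral (mp_red (n := n) (m := m)) (meas_x a n hf x)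
  have hm : Measurable fun q : (Fin (n + 1) → ℝ) ×
        (GOEDisorder (n + 1) × (Fin (n + 1) → Fin m → ℝ)) =>
      Fq a f (x, redMap q.2) :=
    (meas_x a n hf x).comp (mp_red.measurable.comp measurable_snd)
  rw [integral_prod _ (integrable_of_bdd hm (fun q => Fq_bdd a hB _))]
  simp only [integral_const, probReal_univ, one_smul]
  rw [h1]
  rfl

lemma integral_Ebad (n m : ℕ) (x : ℝ) :
    Integrable (Ebad (m := m) n x) ((gv (Fin (n + 1))).prod
        ((goeDisorderLaw (n + 1)).prod (gm (Fin (n + 1)) (Fin m)))) ∧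
    ∫ q, Ebad (m := m) n x q ∂((gv (Fin (n + 1))).prod
        ((goeDisorderLaw (n + 1)).prod (gm (Fin (n + 1)) (Fin m))))
      = ((n:ℝ) + 1)⁻¹ * (V0 + m + 4 + 2 * x ^ 2) := by
  have hn1 : ((n:ℝ) + 1) ≠ 0 := by positivity
  set Q := ((gv (Fin (n + 1))).prod
        ((goeDisorderLaw (n + 1)).prod (gm (Fin (n + 1)) (Fin m)))) with hQ
  -- marginals
  have f1 : MeasurePreserving (fun q : (Fin (n + 1) → ℝ) ×
      (GOEDisorder (n + 1) × (Fin (n + 1) → Fin m → ℝ)) => q.1) Q (gv (Fin (n + 1))) :=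
    measurePreserving_fst
  have f2 : ∀ k, MeasurePreserving (fun q : (Fin (n + 1) → ℝ) ×
      (GOEDisorder (n + 1) × (Fin (n + 1) → Fin m → ℝ)) => q.2.2 0 k) Q (gaussianReal 0 1) := by
    intro k
    exact ((measurePreserving_eval (fun _ : Fin m => gaussianReal 0 1) k).comp
      (measurePreserving_eval (fun _ : Fin (n + 1) => gv (Fin m)) 0)).comp
      (measurePreserving_snd.comp measurePreserving_snd)
  have f3 : MeasurePreserving (fun q : (Fin (n + 1) → ℝ) ×
      (GOEDisorder (n + 1) × (Fin (n + 1) → Fin m → ℝ)) => q.2.1 0 0) Q (gaussianReal 0 1) := by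
    exact ((measurePreserving_eval (fun _ : Fin (n + 1) => gaussianReal 0 1) 0).comp
      (measurePreserving_eval (fun _ : Fin (n + 1) => gv (Fin (n + 1))) 0)).comp
      (measurePreserving_fst.comp measurePreserving_snd)
  have hsqi : Integrable (fun t : ℝ => t ^ 2) (gaussianReal 0 1) := memLp_sq.integrable (by norm_num)
  have i1 : Integrable (fun q : (Fin (n + 1) → ℝ) ×
      (GOEDisorder (n + 1) × (Fin (n + 1) → Fin m → ℝ)) =>
      ((∑ i, (q.1 i) ^ 2) - ((n + 1 : ℕ) : ℝ)) ^ 2) Q :=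
    f1.integrable_comp_of_integrable integrable_sumsq_sub
  have i2 : ∀ k, Integrable (fun q : (Fin (n + 1) → ℝ) ×
      (GOEDisorder (n + 1) × (Fin (n + 1) → Fin m → ℝ)) => (q.2.2 0 k) ^ 2) Q :=
    fun k => (f2 k).integrable_comp_of_integrable hsqi
  have i2s : Integrable (fun q : (Fin (n + 1) → ℝ) ×
      (GOEDisorder (n + 1) × (Fin (n + 1) → Fin m → ℝ)) => ∑ k, (q.2.2 0 k) ^ 2) Q :=
    integrable_finsetSum _ fun k _ => i2 k
  have i3 : Integrable (fun q : (Fin (n + 1) → ℝ) ×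
      (GOEDisorder (n + 1) × (Fin (n + 1) → Fin m → ℝ)) => (q.2.1 0 0) ^ 2) Q :=
    f3.integrable_comp_of_integrable hsqi
  have j1 : ∫ q : (Fin (n + 1) → ℝ) × (GOEDisorder (n + 1) × (Fin (n + 1) → Fin m → ℝ)),
      ((∑ i, (q.1 i) ^ 2) - ((n + 1 : ℕ) : ℝ)) ^ 2 ∂Q = ((n:ℝ) + 1) * V0 := by
    have h := mp_integral f1 (F := fun v : Fin (n + 1) → ℝ =>
      ((∑ i, (v i) ^ 2) - ((n + 1 : ℕ) : ℝ)) ^ 2) (by fun_prop)
    rw [h, integral_sumsq_sub]
    push_cast; ring
  have j2 : ∀ k, ∫ q : (Fin (n + 1) → ℝ) × (GOEDisorder (n + 1) × (Fin (n + 1) → Fin m → ℝ)),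
      (q.2.2 0 k) ^ 2 ∂Q = 1 := by
    intro k
    rw [← integral_sq]
    exact mp_integral (f2 k) (F := fun t => t ^ 2) (by fun_prop)
  have j3 : ∫ q : (Fin (n + 1) → ℝ) × (GOEDisorder (n + 1) × (Fin (n + 1) → Fin m → ℝ)),
      (q.2.1 0 0) ^ 2 ∂Q = 1 := by
    rw [← integral_sq]
    exact mp_integral f3 (F := fun t => t ^ 2) (by fun_prop)
  have hint : Integrable (Ebad (m := m) n x) Q := by
    unfold Ebad
    exact ((((i1.const_mul _).add i2s).add (i3.const_mul 4)).add (integrable_const _)).const_mul _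
  refine ⟨hint, ?_⟩
  unfold Ebad
  have a1 : Integrable (fun q : (Fin (n + 1) → ℝ) ×
      (GOEDisorder (n + 1) × (Fin (n + 1) → Fin m → ℝ)) =>
      ((n:ℝ) + 1)⁻¹ * ((∑ i, (q.1 i) ^ 2) - ((n + 1 : ℕ) : ℝ)) ^ 2) Q := i1.const_mul _
  have a2 : Integrable (fun q : (Fin (n + 1) → ℝ) ×
      (GOEDisorder (n + 1) × (Fin (n + 1) → Fin m → ℝ)) =>
      ((n:ℝ) + 1)⁻¹ * ((∑ i, (q.1 i) ^ 2) - ((n + 1 : ℕ) : ℝ)) ^ 2
        + ∑ k, (q.2.2 0 k) ^ 2) Q := a1.add i2s
  have a3 : Integrable (fun q : (Fin (n + 1) → ℝ) ×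
      (GOEDisorder (n + 1) × (Fin (n + 1) → Fin m → ℝ)) =>
      ((n:ℝ) + 1)⁻¹ * ((∑ i, (q.1 i) ^ 2) - ((n + 1 : ℕ) : ℝ)) ^ 2
        + (∑ k, (q.2.2 0 k) ^ 2) + 4 * (q.2.1 0 0) ^ 2) Q := a2.add (i3.const_mul 4)
  rw [integral_const_mul, integral_add a3 (integrable_const _),
    integral_add a2 (i3.const_mul 4), integral_add a1 i2s, integral_const_mul, integral_const_mul,
    j1, j3, integral_finsetSum _ (fun k _ => i2 k)]
  simp only [j2, Finset.sum_const, Finset.card_univ, Fintype.card_fin, integral_const,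
    probReal_univ, smul_eq_mul, one_mul, nsmul_eq_mul, mul_one]
  rw [inv_mul_cancel_left₀ hn1]

/-- **integrated comparison** -/
theorem JJ_compare {f : Matrix (Fin (m + 1)) (Fin (m + 1)) ℂ → ℝ} (hf : Continuous f) {ε : ℝ}
    (hε : 0 < ε) : ∃ K : ℝ, 0 ≤ K ∧ ∀ (n : ℕ) (x : ℝ), 0 < n →
      (∀ᵐ g ∂(goeDisorderLaw (n + 1)), IsUnit (Wx ((n:ℝ) + 1) g x).det ∧
        IsUnit (Wx (sc n) (fun i j => g i.succ j.succ) x).det) →
      |JJ ((n:ℝ) + 1) (n + 1) (m + 1) x f - JJ (sc n) n (m + 1) x (fun U => f (kap m * U * kap m))|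
        ≤ 2 * ε + K * (((n:ℝ) + 1)⁻¹ * (V0 + m + 4 + 2 * x ^ 2)) := by
  obtain ⟨K, hK, hpt⟩ := pt_est hf hε
  refine ⟨K, hK, fun n x hn hae => ?_⟩
  have hf' : Continuous (fun U => f (kap m * U * kap m)) :=
    hf.comp ((continuous_const.mul continuous_id).mul continuous_const)
  obtain ⟨B1, _, hB1⟩ := exists_bound hf
  obtain ⟨B2, _, hB2⟩ := exists_bound hf'
  rw [JJ_eq_nv _ n m x hf, JJ_eq_red _ n m x hf']
  set Q := ((gv (Fin (n + 1))).prod
        ((goeDisorderLaw (n + 1)).prod (gm (Fin (n + 1)) (Fin m)))) with hQ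
  obtain ⟨hEi, hEe⟩ := integral_Ebad n m x
  have hnvm : Measurable (nv (n := n)) := by
    refine measurable_pi_lambda _ fun i => ?_
    induction i using Fin.cases with
    | zero =>
      simp only [nv, Fin.cons_zero]
      fun_prop
    | succ i =>
      simp only [nv, Fin.cons_succ]
      exact measurable_const
  have hm1 : Measurable fun q : (Fin (n + 1) → ℝ) ×
        (GOEDisorder (n + 1) × (Fin (n + 1) → Fin m → ℝ)) =>
      Fq ((n:ℝ) + 1) f (x, (q.2.1, glue (nv q.1) q.2.2)) :=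
    (meas_glue (n := n + 1) (m := m) _ hf x).comp
      ((hnvm.comp measurable_fst).prodMk measurable_snd)
  have hm2 : Measurable fun q : (Fin (n + 1) → ℝ) ×
        (GOEDisorder (n + 1) × (Fin (n + 1) → Fin m → ℝ)) =>
      Fq (sc n) (fun U => f (kap m * U * kap m)) (x, redMap q.2) :=
    (meas_x (sc n) n hf' x).comp (mp_red.measurable.comp measurable_snd)
  have hi1 := integrable_of_bdd (μ := Q) hm1 (fun q => Fq_bdd _ hB1 _)
  have hi2 := integrable_of_bdd (μ := Q) hm2 (fun q => Fq_bdd _ hB2 _)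
  rw [← integral_sub hi1 hi2]
  have hae' : ∀ᵐ q ∂Q, IsUnit (Wx ((n:ℝ) + 1) q.2.1 x).det ∧
        IsUnit (Wx (sc n) (fun i j => q.2.1 i.succ j.succ) x).det := by
    have f3 : MeasurePreserving (fun q : (Fin (n + 1) → ℝ) ×
        (GOEDisorder (n + 1) × (Fin (n + 1) → Fin m → ℝ)) => q.2.1) Q
        (goeDisorderLaw (n + 1)) := measurePreserving_fst.comp measurePreserving_snd
    exact f3.quasiMeasurePreserving.ae hae
  have hbd : ∀ᵐ q ∂Q, ‖Fq ((n:ℝ) + 1) f (x, (q.2.1, glue (nv q.1) q.2.2))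
      - Fq (sc n) (fun U => f (kap m * U * kap m)) (x, redMap q.2)‖ ≤ 2 * ε + K * Ebad n x q := by
    filter_upwards [hae'] with q hq
    rw [Real.norm_eq_abs]
    exact hpt n x q hn hq.1 hq.2
  have hadd : Integrable (fun q => 2 * ε + K * Ebad n x q) Q :=
    (integrable_const (2 * ε)).add (hEi.const_mul K)
  have h := norm_integral_le_of_norm_le hadd hbd
  have hsum : ∫ q, (2 * ε + K * Ebad n x q) ∂Q =
      2 * ε + K * (((n:ℝ) + 1)⁻¹ * (V0 + m + 4 + 2 * x ^ 2)) := by
    have h1 : ∫ q, (2 * ε + K * Ebad n x q) ∂Q = ∫ _, (2 * ε) ∂Q + ∫ q, K * Ebad n x q ∂Q :=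
      integral_add (integrable_const (2 * ε)) (hEi.const_mul K)
    have h2 : ∫ q, K * Ebad n x q ∂Q = K * ∫ q, Ebad n x q ∂Q := integral_const_mul _ _
    have h3 : ∫ _, (2 * ε) ∂Q = 2 * ε := by
      rw [integral_const]; simp
    rw [h1, h2, h3, hEe]
  rw [Real.norm_eq_abs, hsum] at h
  exact h

end integ

end Crest.Agent.R166.GoeInv93
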