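import Crest.Agent.R166.Res2_789
import Crest.Agent.R166.Spine_419
import Crest.Agent.R166.InvDefs_988
import Crest.Agent.R166.Gen_85

-- ▼ part R166/InvA_348
section

/-!
Row 166, section 50 (helper348): algebra of the relative Cayley transform and of real Moebius maps.
-/

set_option autoImplicit false
set_option linter.unusedSectionVars false

namespace Crest.Agent.R166.InvA348

open Matrix Complex Crest.Agent.R166.Res789

variable {ι : Type*} [Fintype ι] [DecidableEq ι]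

/-- Cayley transform (arbitrary index type) -/
noncomputable def CayI (C : Matrix ι ι ℝ) : Matrix ι ι ℂ :=
  (cx C - I • (1 : Matrix ι ι ℂ)) * (cx C + I • (1 : Matrix ι ι ℂ))⁻¹

/-- relative Cayley transform: `A` = real part of the reference, `T Tᵀ` = imaginary part. -/
noncomputable def Uref (A T M : Matrix ι ι ℝ) : Matrix ι ι ℂ := CayI (T⁻¹ * (M - A) * (T⁻¹)ᵀ)

/-- entrywise complex conjugate -/
def cjM {α β : Type*} (Z : Matrix α β ℂ) : Matrix α β ℂ := Z.map (starRingEnd ℂ)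

omit [Fintype ι] [DecidableEq ι] in
@[simp] lemma cjM_apply {α β : Type*} (Z : Matrix α β ℂ) (i : α) (j : β) :
    cjM Z i j = (starRingEnd ℂ) (Z i j) := rfl

lemma cjM_mul (A B : Matrix ι ι ℂ) : cjM (A * B) = cjM A * cjM B := by
  unfold cjM; exact Matrix.map_mul

lemma cjM_one : cjM (1 : Matrix ι ι ℂ) = 1 := by
  unfold cjM; exact Matrix.map_one _ (by simp) (by simp)

lemma cjM_add (A B : Matrix ι ι ℂ) : cjM (A + B) = cjM A + cjM B := by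
  ext i j; simp

lemma cjM_cx (A : Matrix ι ι ℝ) : cjM (cx A) = cx A := by
  ext i j; simp

lemma cjM_cjM (A : Matrix ι ι ℂ) : cjM (cjM A) = A := by
  ext i j; simp

lemma cjM_transpose (A : Matrix ι ι ℂ) : (cjM A)ᵀ = cjM Aᵀ := rfl

lemma conjTranspose_eq (A : Matrix ι ι ℂ) : Aᴴ = cjM Aᵀ := by
  ext i j; simp

lemma isUnit_cjM {A : Matrix ι ι ℂ} (h : IsUnit A.det) : IsUnit (cjM A).det := by
  have h1 : (cjM A) * cjM A⁻¹ = 1 := by
    rw [← cjM_mul, Matrix.mul_nonsing_inv _ h, cjM_one]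
  exact Matrix.isUnit_det_of_right_inverse h1


lemma isUnit_cx {T : Matrix ι ι ℝ} (hT : IsUnit T.det) : IsUnit (cx T).det := by
  have h1 : cx T * cx T⁻¹ = 1 := by
    rw [← cx_mul, Matrix.mul_nonsing_inv _ hT, cx_one]
  exact Matrix.isUnit_det_of_right_inverse h1

lemma sub_eq_im (Z : Matrix ι ι ℂ) : Z - cjM Z = (2 * I) • cx (imM Z) := by
  ext i j
  simp only [Matrix.sub_apply, cjM_apply, Matrix.smul_apply, cx_apply, imM_apply, smul_eq_mul]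
  apply Complex.ext <;> simp
  ring

lemma eq_re_im (Z : Matrix ι ι ℂ) : Z = cx (reM Z) + I • cx (imM Z) := by
  ext i j
  simp only [Matrix.add_apply, Matrix.smul_apply, cx_apply, imM_apply, reM_apply, smul_eq_mul]
  apply Complex.ext <;> simp

lemma cj_eq_re_im (Z : Matrix ι ι ℂ) : cjM Z = cx (reM Z) - I • cx (imM Z) := by
  ext i j
  simp only [Matrix.sub_apply, cjM_apply, Matrix.smul_apply, cx_apply, imM_apply, reM_apply,
    smul_eq_mul]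
  apply Complex.ext <;> simp



/-- closed formula of the relative Cayley transform -/
theorem Uref_eq {Z : Matrix ι ι ℂ} (hZ : Sieg Z) {A T M : Matrix ι ι ℝ} (hT : IsUnit T.det)
    (hA : reM Z = A) (hTT : imM Z = T * Tᵀ) (hM : Mᵀ = M) :
    Uref A T M = cx T⁻¹ * (cx M - Z) * (cx M - cjM Z)⁻¹ * cx T := by
  have hT' : IsUnit (cx T).det := isUnit_cx hT
  have h1 : cx (T⁻¹ * (M - A) * (T⁻¹)ᵀ) - I • (1 : Matrix ι ι ℂ) =
      cx T⁻¹ * (cx M - Z) * (cx T⁻¹)ᵀ := by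
    have e1 : (1 : Matrix ι ι ℂ) = cx (T⁻¹ * (T * Tᵀ) * (T⁻¹)ᵀ) := by
      have : T⁻¹ * (T * Tᵀ) * (T⁻¹)ᵀ = 1 := by
        rw [← mul_assoc, Matrix.nonsing_inv_mul _ hT, one_mul, ← Matrix.transpose_mul,
          Matrix.nonsing_inv_mul _ hT, Matrix.transpose_one]
      rw [this, cx_one]
    rw [e1, eq_re_im Z, hA, hTT]
    simp only [cx_mul, cx_sub, cx_transpose]
    simp only [mul_sub, sub_mul, mul_add, add_mul, Matrix.mul_smul, Matrix.smul_mul]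
    abel
  have h2 : cx (T⁻¹ * (M - A) * (T⁻¹)ᵀ) + I • (1 : Matrix ι ι ℂ) =
      cx T⁻¹ * (cx M - cjM Z) * (cx T⁻¹)ᵀ := by
    have e1 : (1 : Matrix ι ι ℂ) = cx (T⁻¹ * (T * Tᵀ) * (T⁻¹)ᵀ) := by
      have : T⁻¹ * (T * Tᵀ) * (T⁻¹)ᵀ = 1 := by
        rw [← mul_assoc, Matrix.nonsing_inv_mul _ hT, one_mul, ← Matrix.transpose_mul,
          Matrix.nonsing_inv_mul _ hT, Matrix.transpose_one]
      rw [this, cx_one]
    rw [e1, cj_eq_re_im Z, hA, hTT]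
    simp only [cx_mul, cx_sub, cx_transpose]
    simp only [mul_sub, sub_mul, Matrix.mul_smul, Matrix.smul_mul]
    abel
  unfold Uref CayI
  rw [h1, h2, Matrix.mul_inv_rev, Matrix.mul_inv_rev]
  have h3 : (cx T⁻¹)ᵀ * ((cx T⁻¹)ᵀ)⁻¹ = 1 := by
    apply Matrix.mul_nonsing_inv
    rw [Matrix.det_transpose]
    have : cx T⁻¹ * cx T = 1 := by rw [← cx_mul, Matrix.nonsing_inv_mul _ hT, cx_one]
    exact Matrix.isUnit_det_of_right_inverse this
  have h4 : (cx T⁻¹)⁻¹ = cx T := by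
    apply Matrix.inv_eq_right_inv
    rw [← cx_mul, Matrix.nonsing_inv_mul _ hT, cx_one]
  rw [h4]
  calc cx T⁻¹ * (cx M - Z) * (cx T⁻¹)ᵀ * (((cx T⁻¹)ᵀ)⁻¹ * ((cx M - cjM Z)⁻¹ * cx T))
      = cx T⁻¹ * (cx M - Z) * ((cx T⁻¹)ᵀ * ((cx T⁻¹)ᵀ)⁻¹) * ((cx M - cjM Z)⁻¹ * cx T) := by
        simp only [mul_assoc]
    _ = cx T⁻¹ * (cx M - Z) * (cx M - cjM Z)⁻¹ * cx T := by
        rw [h3, mul_one]; simp only [mul_assoc]

/-- pure algebra: difference of Moebius images -/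
lemma mob_diff {X0 X m0 m w : Matrix ι ι ℂ} (hX : (1 + X0 * w) * X = X0)
    (hu : IsUnit (1 + X0 * w).det) (hm : m = m0 - m0 * w * m) :
    m - X = (1 + X0 * w)⁻¹ * (m0 - X0) * (1 - w * m) := by
  have h1 : (1 + X0 * w) * (m - X) = (m0 - X0) * (1 - w * m) := by
    rw [mul_sub, hX]
    have : (m0 - X0) * (1 - w * m) = (m0 - m0 * w * m) - X0 + X0 * w * m := by
      rw [mul_sub, mul_one, ← mul_assoc, sub_mul, sub_mul]
      abel
    rw [this, ← hm, add_mul, one_mul]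
    abel
  calc m - X = (1 + X0 * w)⁻¹ * ((1 + X0 * w) * (m - X)) := by
        rw [← mul_assoc, Matrix.nonsing_inv_mul _ hu, one_mul]
    _ = _ := by rw [h1, mul_assoc]

/-- the unitary attached to a real Moebius map and two factorised references -/
noncomputable def kap (T0 T W : Matrix ι ι ℝ) (Z0 : Matrix ι ι ℂ) : Matrix ι ι ℂ :=
  cx T⁻¹ * (1 + Z0 * cx W)⁻¹ * cx T0

section Moebius

variable {Z0 : Matrix ι ι ℂ} {W T0 T M0 M : Matrix ι ι ℝ}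

lemma im_mob (hZ0 : Sieg Z0) (hW : Wᵀ = W) :
    (1 + cjM Z0 * cx W) * cx (imM (Pm Z0 W)) * (1 + cx W * Z0) = cx (imM Z0) := by
  have hu1 := hZ0.isUnit_one_add hW
  have hu2 := hZ0.isUnit_one_add' hW
  have e1 : Pm Z0 W * (1 + cx W * Z0) = Z0 := by
    rw [hZ0.Pm_eq hW, mul_assoc, Matrix.nonsing_inv_mul _ hu2, mul_one]
  have e2 : (1 + Z0 * cx W) * Pm Z0 W = Z0 := by
    rw [hZ0.Pm_eq' hW, ← mul_assoc, Matrix.mul_nonsing_inv _ hu1, one_mul]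
  have e3 : (1 + cjM Z0 * cx W) * cjM (Pm Z0 W) = cjM Z0 := by
    have := congrArg cjM e2
    rwa [cjM_mul, cjM_add, cjM_one, cjM_mul, cjM_cx] at this
  have e4 : (1 + cjM Z0 * cx W) * (Pm Z0 W - cjM (Pm Z0 W)) * (1 + cx W * Z0) =
      Z0 - cjM Z0 := by
    rw [mul_sub, sub_mul, e3, mul_assoc, e1]
    rw [add_mul, one_mul, mul_add, mul_one, mul_assoc]
    abel
  rw [sub_eq_im, sub_eq_im] at e4
  have h8 : (2 * I : ℂ) ≠ 0 := by simp
  have e5 := congrArg (fun M => (2 * I : ℂ)⁻¹ • M) e4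
  simpa [smul_smul, inv_mul_cancel₀ h8, Matrix.mul_smul, Matrix.smul_mul] using e5

lemma kap_transpose (hZ0 : Sieg Z0) (hW : Wᵀ = W) (hT0 : IsUnit T0.det) (hT : IsUnit T.det)
    (hTT0 : imM Z0 = T0 * T0ᵀ) (hTT : imM (Pm Z0 W) = T * Tᵀ) :
    (kap T0 T W Z0)ᵀ = cx T0⁻¹ * (1 + cjM Z0 * cx W) * cx T := by
  have hu2 := hZ0.isUnit_one_add' hW
  have h1 := im_mob hZ0 hW
  rw [hTT, hTT0, cx_mul, cx_mul] at h1
  have ht : (kap T0 T W Z0)ᵀ = (cx T0)ᵀ * (1 + cx W * Z0)⁻¹ * (cx T⁻¹)ᵀ := by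
    unfold kap
    rw [Matrix.transpose_mul, Matrix.transpose_mul, Matrix.transpose_nonsing_inv,
      Matrix.transpose_add, Matrix.transpose_one, Matrix.transpose_mul, hZ0.symm,
      ← cx_transpose W, hW, mul_assoc]
  rw [ht]
  have h2 : cx T0⁻¹ * ((1 + cjM Z0 * cx W) * (cx T * cx Tᵀ) * (1 + cx W * Z0)) =
      (cx T0)ᵀ := by
    rw [h1, ← mul_assoc, ← cx_mul, Matrix.nonsing_inv_mul _ hT0, cx_one, one_mul, cx_transpose]
  rw [← h2]
  have h3 : cx Tᵀ * (cx T⁻¹)ᵀ = 1 := by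
    rw [← cx_transpose, ← cx_mul, ← Matrix.transpose_mul, Matrix.nonsing_inv_mul _ hT,
      Matrix.transpose_one, cx_one]
  calc cx T0⁻¹ * ((1 + cjM Z0 * cx W) * (cx T * cx Tᵀ) * (1 + cx W * Z0)) *
        (1 + cx W * Z0)⁻¹ * (cx T⁻¹)ᵀ
      = cx T0⁻¹ * ((1 + cjM Z0 * cx W) * (cx T * cx Tᵀ)) * ((1 + cx W * Z0) *
        (1 + cx W * Z0)⁻¹) * (cx T⁻¹)ᵀ := by simp only [mul_assoc]
    _ = cx T0⁻¹ * (1 + cjM Z0 * cx W) * cx T * (cx Tᵀ * (cx T⁻¹)ᵀ) := by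
        rw [Matrix.mul_nonsing_inv _ hu2, mul_one]; simp only [mul_assoc]
    _ = _ := by rw [h3, mul_one]

lemma kap_unitary (hZ0 : Sieg Z0) (hW : Wᵀ = W) (hT0 : IsUnit T0.det) (hT : IsUnit T.det)
    (hTT0 : imM Z0 = T0 * T0ᵀ) (hTT : imM (Pm Z0 W) = T * Tᵀ) :
    kap T0 T W Z0 * (kap T0 T W Z0)ᴴ = 1 := by
  have hu1 := hZ0.isUnit_one_add hW
  rw [conjTranspose_eq, kap_transpose hZ0 hW hT0 hT hTT0 hTT, cjM_mul, cjM_mul, cjM_cx, cjM_cx,
    cjM_add, cjM_one, cjM_mul, cjM_cjM, cjM_cx]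
  unfold kap
  calc cx T⁻¹ * (1 + Z0 * cx W)⁻¹ * cx T0 * (cx T0⁻¹ * (1 + Z0 * cx W) * cx T)
      = cx T⁻¹ * ((1 + Z0 * cx W)⁻¹ * (cx T0 * cx T0⁻¹) * (1 + Z0 * cx W)) * cx T := by
        simp only [mul_assoc]
    _ = cx T⁻¹ * cx T := by
        rw [← cx_mul, Matrix.mul_nonsing_inv _ hT0, cx_one, mul_one,
          Matrix.nonsing_inv_mul _ hu1, mul_one]
    _ = 1 := by rw [← cx_mul, Matrix.nonsing_inv_mul _ hT, cx_one]

lemma kap_mem (hZ0 : Sieg Z0) (hW : Wᵀ = W) (hT0 : IsUnit T0.det) (hT : IsUnit T.det)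
    (hTT0 : imM Z0 = T0 * T0ᵀ) (hTT : imM (Pm Z0 W) = T * Tᵀ) :
    kap T0 T W Z0 ∈ Matrix.unitaryGroup ι ℂ := by
  rw [Matrix.mem_unitaryGroup_iff]
  exact kap_unitary hZ0 hW hT0 hT hTT0 hTT

/-- `κᵀ κ = T0⁻¹ (1 + conj Z0 W) (1 + Z0 W)⁻¹ T0` -/
lemma kap_transpose_mul (hZ0 : Sieg Z0) (hW : Wᵀ = W) (hT0 : IsUnit T0.det) (hT : IsUnit T.det)
    (hTT0 : imM Z0 = T0 * T0ᵀ) (hTT : imM (Pm Z0 W) = T * Tᵀ) :
    (kap T0 T W Z0)ᵀ * kap T0 T W Z0 =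
      cx T0⁻¹ * ((1 + cjM Z0 * cx W) * (1 + Z0 * cx W)⁻¹) * cx T0 := by
  rw [kap_transpose hZ0 hW hT0 hT hTT0 hTT]
  unfold kap
  calc cx T0⁻¹ * (1 + cjM Z0 * cx W) * cx T * (cx T⁻¹ * (1 + Z0 * cx W)⁻¹ * cx T0)
      = cx T0⁻¹ * (1 + cjM Z0 * cx W) * (cx T * cx T⁻¹) * (1 + Z0 * cx W)⁻¹ * cx T0 := by
        simp only [mul_assoc]
    _ = _ := by
        rw [← cx_mul, Matrix.mul_nonsing_inv _ hT, cx_one, mul_one]; simp only [mul_assoc]

/-- covariance of the relative Cayley transform under a real Moebius map -/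
theorem Uref_mob (hZ0 : Sieg Z0) (hW : Wᵀ = W) (hT0 : IsUnit T0.det) (hT : IsUnit T.det)
    (hTT0 : imM Z0 = T0 * T0ᵀ) (hTT : imM (Pm Z0 W) = T * Tᵀ)
    (hM0 : M0ᵀ = M0) (hM : Mᵀ = M) (hrel : M = M0 - M0 * W * M) :
    Uref (reM (Pm Z0 W)) T M =
      kap T0 T W Z0 * Uref (reM Z0) T0 M0 * (kap T0 T W Z0)ᵀ := by
  have hu1 := hZ0.isUnit_one_add hW
  have hZ : Sieg (Pm Z0 W) := hZ0.Pm hW
  rw [Uref_eq hZ hT rfl hTT hM, Uref_eq hZ0 hT0 rfl hTT0 hM0,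
    kap_transpose hZ0 hW hT0 hT hTT0 hTT]
  have hrelc : cx M = cx M0 - cx M0 * cx W * cx M := by
    have := congrArg cx hrel
    rwa [cx_sub, cx_mul, cx_mul] at this
  have hrel2 : M = M0 - M * W * M0 := by
    have := congrArg Matrix.transpose hrel
    rw [hM, Matrix.transpose_sub, Matrix.transpose_mul, Matrix.transpose_mul, hM0, hM, hW,
      ← mul_assoc] at this
    exact this
  have hrelc2 : cx M = cx M0 - cx M * cx W * cx M0 := by
    have := congrArg cx hrel2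
    rwa [cx_sub, cx_mul, cx_mul] at this
  have e2 : (1 + Z0 * cx W) * Pm Z0 W = Z0 := by
    rw [hZ0.Pm_eq' hW, ← mul_assoc, Matrix.mul_nonsing_inv _ hu1, one_mul]
  have hu1c : IsUnit (1 + cjM Z0 * cx W).det := by
    have := isUnit_cjM hu1
    rwa [cjM_add, cjM_one, cjM_mul, cjM_cx] at this
  have e3 : (1 + cjM Z0 * cx W) * cjM (Pm Z0 W) = cjM Z0 := by
    have := congrArg cjM e2
    rwa [cjM_mul, cjM_add, cjM_one, cjM_mul, cjM_cx] at this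
  have d1 := mob_diff e2 hu1 hrelc
  have d2 := mob_diff e3 hu1c hrelc
  have hinv : (1 - cx W * cx M) * (1 + cx W * cx M0) = 1 := by
    have : (1 - cx W * cx M) * (1 + cx W * cx M0) =
        1 + cx W * ((cx M0 - cx M * cx W * cx M0) - cx M) := by
      simp only [mul_add, mul_sub, sub_mul, mul_one, one_mul, mul_assoc]
      abel
    rw [this, ← hrelc2, sub_self, mul_zero, add_zero]
  have hu3 : IsUnit (1 - cx W * cx M).det := Matrix.isUnit_det_of_right_inverse hinv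
  rw [d2, d1, Matrix.mul_inv_rev, Matrix.mul_inv_rev, Matrix.nonsing_inv_nonsing_inv _ hu1c]
  unfold kap
  have hTc : cx T0 * cx T0⁻¹ = 1 := by rw [← cx_mul, Matrix.mul_nonsing_inv _ hT0, cx_one]
  calc cx T⁻¹ * ((1 + Z0 * cx W)⁻¹ * (cx M0 - Z0) * (1 - cx W * cx M)) *
        ((1 - cx W * cx M)⁻¹ * ((cx M0 - cjM Z0)⁻¹ * (1 + cjM Z0 * cx W))) * cx T
      = cx T⁻¹ * (1 + Z0 * cx W)⁻¹ * (cx M0 - Z0) * ((1 - cx W * cx M) *
        (1 - cx W * cx M)⁻¹) * (cx M0 - cjM Z0)⁻¹ * (1 + cjM Z0 * cx W) * cx T := by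
        simp only [mul_assoc]
    _ = cx T⁻¹ * (1 + Z0 * cx W)⁻¹ * (cx T0 * cx T0⁻¹) * (cx M0 - Z0) *
        (cx M0 - cjM Z0)⁻¹ * (cx T0 * cx T0⁻¹) * (1 + cjM Z0 * cx W) * cx T := by
        rw [Matrix.mul_nonsing_inv _ hu3, hTc, mul_one, mul_one, mul_one]
    _ = _ := by simp only [mul_assoc]

end Moebius

end Crest.Agent.R166.InvA348
end

-- ▼ part R166/InvB_348

/-!
Row 166, section 50 (helper348): the fixed unitary `k` of the edge switching, its covariance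
property and the fact that it is not a scalar times a real orthogonal matrix.
-/

set_option autoImplicit false
set_option linter.unusedSectionVars false

namespace Crest.Agent.R166.InvB348

open Matrix Complex Crest.Agent.R166.Res789 Crest.Agent.R166.InvA348 Crest.Agent.R166.Inv988

/-- the coupling of an edge -/
def W2 : Matrix (Fin 2) (Fin 2) ℝ := !![0, 1; 1, 0]

lemma W2_symm : W2ᵀ = W2 := by
  ext i j; fin_cases i <;> fin_cases j <;> simp [W2]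

/-- coupling of both edges -/
def WI (m : ℕ) : Matrix (Idx m) (Idx m) ℝ := fromBlocks (fromBlocks W2 0 0 W2) 0 0 0

lemma WI_symm (m : ℕ) : (WI m)ᵀ = WI m := by
  unfold WI
  rw [fromBlocks_transpose, fromBlocks_transpose, W2_symm]
  simp

/-- exchange of the second port of the first edge and the first port of the second edge -/
def tau (m : ℕ) : Equiv.Perm (Idx m) :=
  Equiv.swap (Sum.inl (Sum.inl 1)) (Sum.inl (Sum.inr 0))

/-- diagonal references -/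
def xd (m : ℕ) (a1 a2 b1 b2 c : ℂ) : Idx m → ℂ :=
  Sum.elim (Sum.elim ![a1, a2] ![b1, b2]) (fun _ => c)

lemma xd_im {m : ℕ} {a1 a2 b1 b2 c : ℂ} (h1 : 0 < a1.im) (h2 : 0 < a2.im) (h3 : 0 < b1.im)
    (h4 : 0 < b2.im) (h5 : 0 < c.im) (i : Idx m) : 0 < (xd m a1 a2 b1 b2 c i).im := by
  rcases i with (i | i) | i
  · fin_cases i <;> simpa [xd]
  · fin_cases i <;> simpa [xd]
  · simpa [xd]

lemma xd_tau (m : ℕ) (x1 x2 c : ℂ) (i : Idx m) :
    xd m x1 x2 x1 x2 c (tau m i) = xd m x1 x1 x2 x2 c i := by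
  rcases i with (i | i) | i
  · fin_cases i
    · have : tau m (Sum.inl (Sum.inl 0)) = Sum.inl (Sum.inl 0) := by
        unfold tau; rw [Equiv.swap_apply_of_ne_of_ne] <;> simp
      simp [this, xd]
    · have : tau m (Sum.inl (Sum.inl 1)) = Sum.inl (Sum.inr 0) := by
        unfold tau; rw [Equiv.swap_apply_left]
      simp [this, xd]
  · fin_cases i
    · have : tau m (Sum.inl (Sum.inr 0)) = Sum.inl (Sum.inl 1) := by
        unfold tau; rw [Equiv.swap_apply_right]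
      simp [this, xd]
    · have : tau m (Sum.inl (Sum.inr 1)) = Sum.inl (Sum.inr 1) := by
        unfold tau; rw [Equiv.swap_apply_of_ne_of_ne] <;> simp
      simp [this, xd]
  · have : tau m (Sum.inr i) = Sum.inr i := by
      unfold tau; rw [Equiv.swap_apply_of_ne_of_ne] <;> simp
    simp [this, xd]

section general

variable {ι : Type*} [Fintype ι] [DecidableEq ι]

lemma sieg_diagonal {x : ι → ℂ} (hx : ∀ i, 0 < (x i).im) : Sieg (diagonal x) := by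
  refine ⟨diagonal_transpose x, fun u hu => ?_⟩
  have h1 : qf (imM (diagonal x)) u = ∑ i, (x i).im * ‖u i‖ ^ 2 := by
    rw [qf_expand]
    refine Finset.sum_congr rfl fun i _ => ?_
    rw [Finset.sum_eq_single i]
    · simp only [imM_apply, diagonal_apply_eq]
      rw [← Complex.normSq_eq_norm_sq, Complex.normSq_apply]
    · intro j _ hj
      rw [imM_apply, diagonal_apply_ne _ (Ne.symm hj)]
      simp
    · simp
  rw [h1]
  obtain ⟨i, hi⟩ : ∃ i, u i ≠ 0 := by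
    by_contra hcon
    push Not at hcon
    exact hu (funext hcon)
  refine Finset.sum_pos' (fun j _ => mul_nonneg (hx j).le (by positivity))
    ⟨i, Finset.mem_univ _, mul_pos (hx i) (by positivity)⟩

/-- factor of a diagonal reference -/
noncomputable def td (x : ι → ℂ) : Matrix ι ι ℝ := diagonal fun i => Real.sqrt (x i).im

lemma td_mul {x : ι → ℂ} (hx : ∀ i, 0 < (x i).im) : imM (diagonal x) = td x * (td x)ᵀ := by
  unfold td
  rw [diagonal_transpose, diagonal_mul_diagonal]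
  ext i j
  by_cases h : i = j
  · subst h
    simp [Real.mul_self_sqrt (hx i).le]
  · simp [diagonal_apply_ne _ h]

lemma isUnit_td {x : ι → ℂ} (hx : ∀ i, 0 < (x i).im) : IsUnit (td x).det := by
  unfold td
  rw [det_diagonal, isUnit_iff_ne_zero, Finset.prod_ne_zero_iff]
  intro i _
  exact (Real.sqrt_pos.2 (hx i)).ne'

end general

section blocks

variable {α β : Type*} [Fintype α] [DecidableEq α] [Fintype β] [DecidableEq β]

lemma inv_fromBlocks_diag {A : Matrix α α ℂ} {D : Matrix β β ℂ} (hA : IsUnit A.det)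
    (hD : IsUnit D.det) : (fromBlocks A 0 0 D)⁻¹ = fromBlocks A⁻¹ 0 0 D⁻¹ := by
  apply Matrix.inv_eq_right_inv
  rw [fromBlocks_multiply]
  simp [Matrix.mul_nonsing_inv _ hA, Matrix.mul_nonsing_inv _ hD]

lemma Pm_fromBlocks {Z1 : Matrix α α ℂ} {Z2 : Matrix β β ℂ} (h1 : Sieg Z1) (h2 : Sieg Z2)
    {K1 : Matrix α α ℝ} {K2 : Matrix β β ℝ} (hK1 : K1ᵀ = K1) (hK2 : K2ᵀ = K2) :
    Pm (fromBlocks Z1 0 0 Z2) (fromBlocks K1 0 0 K2) =
      fromBlocks (Pm Z1 K1) 0 0 (Pm Z2 K2) := by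
  have hcx : cx (fromBlocks K1 0 0 K2) = fromBlocks (cx K1) 0 0 (cx K2) := by
    unfold cx
    rw [fromBlocks_map]
    simp
  unfold Pm
  rw [inv_fromBlocks_diag h1.isUnit_det h2.isUnit_det, hcx, fromBlocks_add]
  simp only [add_zero]
  rw [inv_fromBlocks_diag (h1.isUnit_inv_add hK1) (h2.isUnit_inv_add hK2)]

end blocks

/-- edge block with cavity values `a1, a2` -/
noncomputable def Ze2 (a1 a2 : ℂ) : Matrix (Fin 2) (Fin 2) ℂ := Pm (diagonal ![a1, a2]) W2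

lemma vec2_im {a1 a2 : ℂ} (h1 : 0 < a1.im) (h2 : 0 < a2.im) (i : Fin 2) :
    0 < ((![a1, a2] : Fin 2 → ℂ) i).im := by
  fin_cases i <;> simpa

lemma sieg_Ze2 {a1 a2 : ℂ} (h1 : 0 < a1.im) (h2 : 0 < a2.im) : Sieg (Ze2 a1 a2) :=
  (sieg_diagonal (vec2_im h1 h2)).Pm W2_symm

lemma diagonal_xd (m : ℕ) (a1 a2 b1 b2 c : ℂ) :
    diagonal (xd m a1 a2 b1 b2 c) =
      fromBlocks (fromBlocks (diagonal ![a1, a2]) 0 0 (diagonal ![b1, b2])) 0 0
        (c • (1 : Matrix (Fin m) (Fin m) ℂ)) := by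
  unfold xd
  rw [← Matrix.fromBlocks_diagonal, ← Matrix.fromBlocks_diagonal]
  congr 1
  rw [← Matrix.diagonal_one, ← diagonal_smul]
  congr 1
  ext i
  simp

lemma Pm_xd {m : ℕ} {a1 a2 b1 b2 c : ℂ} (h1 : 0 < a1.im) (h2 : 0 < a2.im) (h3 : 0 < b1.im)
    (h4 : 0 < b2.im) (h5 : 0 < c.im) :
    Pm (diagonal (xd m a1 a2 b1 b2 c)) (WI m) =
      fromBlocks (fromBlocks (Ze2 a1 a2) 0 0 (Ze2 b1 b2)) 0 0
        (c • (1 : Matrix (Fin m) (Fin m) ℂ)) := by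
  have hc : Sieg (c • (1 : Matrix (Fin m) (Fin m) ℂ)) := by
    have : c • (1 : Matrix (Fin m) (Fin m) ℂ) = diagonal fun _ => c := by
      rw [← Matrix.diagonal_one, ← diagonal_smul]
      congr 1
      ext i
      simp
    rw [this]
    exact sieg_diagonal fun _ => h5
  have s1 : Sieg (fromBlocks (diagonal ![a1, a2]) 0 0 (diagonal ![b1, b2])) := by
    rw [Matrix.fromBlocks_diagonal]
    apply sieg_diagonal
    rintro (i | i)
    · simpa using vec2_im h1 h2 i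
    · simpa using vec2_im h3 h4 i
  rw [diagonal_xd]
  unfold WI
  rw [Pm_fromBlocks s1 hc (by rw [fromBlocks_transpose, W2_symm]; simp) (by simp),
    Pm_fromBlocks (sieg_diagonal (vec2_im h1 h2)) (sieg_diagonal (vec2_im h3 h4)) W2_symm W2_symm]
  have h6 : Pm (c • (1 : Matrix (Fin m) (Fin m) ℂ)) 0 = c • (1 : Matrix (Fin m) (Fin m) ℂ) := by
    unfold Pm
    rw [cx_zero, add_zero, Matrix.nonsing_inv_nonsing_inv _ hc.isUnit_det]
  rw [h6]
  rfl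

lemma reM_Pm_xd {m : ℕ} {a1 a2 b1 b2 : ℂ} {ρ a : ℝ} (h1 : 0 < a1.im) (h2 : 0 < a2.im)
    (h3 : 0 < b1.im) (h4 : 0 < b2.im) (hρ : 0 < ρ) :
    reM (Pm (diagonal (xd m a1 a2 b1 b2 ((a : ℂ) + I * ((Real.pi * ρ : ℝ) : ℂ)))) (WI m)) =
      Aref (Ze2 a1 a2) (Ze2 b1 b2) a := by
  have h5 : 0 < ((a : ℂ) + I * ((Real.pi * ρ : ℝ) : ℂ)).im := by
    simp only [Complex.add_im, Complex.ofReal_im, Complex.mul_im, Complex.I_re, Complex.I_im,
      Complex.ofReal_re]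
    have := mul_pos Real.pi_pos hρ
    simpa using this
  rw [Pm_xd h1 h2 h3 h4 h5]
  unfold reM Aref rePart
  rw [fromBlocks_map, fromBlocks_map]
  simp only [Matrix.map_zero _ Complex.zero_re]
  congr 1
  ext i j
  by_cases h : i = j
  · subst h; simp
  · simp [h]

lemma imM_Pm_xd {m : ℕ} {a1 a2 b1 b2 : ℂ} {ρ a : ℝ} (h1 : 0 < a1.im) (h2 : 0 < a2.im)
    (h3 : 0 < b1.im) (h4 : 0 < b2.im) (hρ : 0 < ρ) {Ta Tb : Matrix (Fin 2) (Fin 2) ℝ}
    (hTa : Ta * Taᵀ = imPart (Ze2 a1 a2)) (hTb : Tb * Tbᵀ = imPart (Ze2 b1 b2)) :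
    imM (Pm (diagonal (xd m a1 a2 b1 b2 ((a : ℂ) + I * ((Real.pi * ρ : ℝ) : ℂ)))) (WI m)) =
      (Tref Ta Tb ρ : Matrix (Idx m) (Idx m) ℝ) * (Tref Ta Tb ρ)ᵀ := by
  have hpr := mul_pos Real.pi_pos hρ
  have h5 : 0 < ((a : ℂ) + I * ((Real.pi * ρ : ℝ) : ℂ)).im := by
    simp only [Complex.add_im, Complex.ofReal_im, Complex.mul_im, Complex.I_re, Complex.I_im,
      Complex.ofReal_re]
    simpa using hpr
  rw [Pm_xd h1 h2 h3 h4 h5]
  unfold imM Tref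
  rw [fromBlocks_map, fromBlocks_map, fromBlocks_transpose, fromBlocks_transpose,
    fromBlocks_multiply, fromBlocks_multiply]
  simp only [Matrix.map_zero _ Complex.zero_im, transpose_zero, Matrix.mul_zero, Matrix.zero_mul,
    add_zero, zero_add, hTa, hTb, transpose_smul, transpose_one]
  congr 1
  ext i j
  by_cases h : i = j
  · subst h; simp [Real.mul_self_sqrt hpr.le]
  · simp [h]

lemma isUnit_Tref {m : ℕ} {Ta Tb : Matrix (Fin 2) (Fin 2) ℝ} {ρ : ℝ} (hρ : 0 < ρ)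
    (hTa : IsUnit Ta.det) (hTb : IsUnit Tb.det) :
    IsUnit (Tref Ta Tb ρ : Matrix (Idx m) (Idx m) ℝ).det := by
  have hpr := mul_pos Real.pi_pos hρ
  unfold Tref
  rw [det_fromBlocks_zero₂₁, det_fromBlocks_zero₂₁]
  refine (hTa.mul hTb).mul ?_
  rw [det_smul, det_one, mul_one, isUnit_iff_ne_zero]
  exact pow_ne_zero _ (Real.sqrt_pos.2 hpr).ne'

/-- the reference number on the tests -/
noncomputable def cc (ρ a : ℝ) : ℂ := (a : ℂ) + I * ((Real.pi * ρ : ℝ) : ℂ)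

lemma cc_im {ρ : ℝ} (hρ : 0 < ρ) (a : ℝ) : 0 < (cc ρ a).im := by
  unfold cc
  simp only [Complex.add_im, Complex.ofReal_im, Complex.mul_im, Complex.I_re, Complex.I_im,
    Complex.ofReal_re]
  simpa using mul_pos Real.pi_pos hρ

lemma td_cc {m : ℕ} (a1 a2 b1 b2 : ℂ) (ρ a : ℝ) :
    td (xd m a1 a2 b1 b2 (cc ρ a)) = td (xd m a1 a2 b1 b2 (cc ρ 0)) := by
  unfold td
  congr 1
  ext i
  rcases i with (i | i) | i
  · rfl
  · rfl
  · simp [xd, cc]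

lemma xd_mul_WI {m : ℕ} (a1 a2 b1 b2 c c' : ℂ) :
    diagonal (xd m a1 a2 b1 b2 c) * cx (WI m) = diagonal (xd m a1 a2 b1 b2 c') * cx (WI m) := by
  have hcx : cx (WI m) = fromBlocks (cx (fromBlocks W2 0 0 W2)) 0 0 0 := by
    unfold WI cx
    rw [fromBlocks_map]
    simp
  rw [diagonal_xd, diagonal_xd, hcx, fromBlocks_multiply, fromBlocks_multiply]
  simp

/-- the unitary attached to the removal of the edges, in the frame `(a1,a2 | b1,b2)` -/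
noncomputable def kp (m : ℕ) (a1 a2 b1 b2 : ℂ) (ρ : ℝ) (Ta Tb : Matrix (Fin 2) (Fin 2) ℝ) :
    Matrix (Idx m) (Idx m) ℂ :=
  kap (td (xd m a1 a2 b1 b2 (cc ρ 0))) (Tref Ta Tb ρ) (WI m) (diagonal (xd m a1 a2 b1 b2 (cc ρ 0)))

lemma kap_cc {m : ℕ} (a1 a2 b1 b2 : ℂ) (ρ a : ℝ) (Ta Tb : Matrix (Fin 2) (Fin 2) ℝ) :
    kap (td (xd m a1 a2 b1 b2 (cc ρ a))) (Tref Ta Tb ρ) (WI m)
      (diagonal (xd m a1 a2 b1 b2 (cc ρ a))) = kp m a1 a2 b1 b2 ρ Ta Tb := by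
  unfold kp kap
  rw [td_cc, xd_mul_WI a1 a2 b1 b2 (cc ρ a) (cc ρ 0)]

section kp

variable {m : ℕ} {a1 a2 b1 b2 : ℂ} {ρ : ℝ} {Ta Tb : Matrix (Fin 2) (Fin 2) ℝ}

/-- hypotheses on a frame -/
structure Frame (a1 a2 b1 b2 : ℂ) (ρ : ℝ) (Ta Tb : Matrix (Fin 2) (Fin 2) ℝ) : Prop where
  h1 : 0 < a1.im
  h2 : 0 < a2.im
  h3 : 0 < b1.im
  h4 : 0 < b2.im
  hρ : 0 < ρ
  ua : IsUnit Ta.det
  ub : IsUnit Tb.det
  hTa : Ta * Taᵀ = imPart (Ze2 a1 a2)
  hTb : Tb * Tbᵀ = imPart (Ze2 b1 b2)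

lemma kp_mem (h : Frame a1 a2 b1 b2 ρ Ta Tb) :
    kp m a1 a2 b1 b2 ρ Ta Tb ∈ unitaryGroup (Idx m) ℂ := by
  have hx : ∀ i, 0 < (xd m a1 a2 b1 b2 (cc ρ 0) i).im :=
    xd_im h.h1 h.h2 h.h3 h.h4 (cc_im h.hρ 0)
  exact kap_mem (sieg_diagonal hx) (WI_symm m) (isUnit_td hx) (isUnit_Tref h.hρ h.ua h.ub)
    (td_mul hx) (imM_Pm_xd h.h1 h.h2 h.h3 h.h4 h.hρ h.hTa h.hTb)

/-- covariance: array with edges versus array without edges -/
theorem CayG_kp (h : Frame a1 a2 b1 b2 ρ Ta Tb) (a : ℝ) {M0 M : Matrix (Idx m) (Idx m) ℝ}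
    (hM0 : M0ᵀ = M0) (hM : Mᵀ = M) (hrel : M = M0 - M0 * WI m * M) :
    CayG ((Tref Ta Tb ρ)⁻¹ * (M - Aref (Ze2 a1 a2) (Ze2 b1 b2) a) * ((Tref Ta Tb ρ)⁻¹)ᵀ) =
      kp m a1 a2 b1 b2 ρ Ta Tb *
        Uref (reM (diagonal (xd m a1 a2 b1 b2 (cc ρ a)))) (td (xd m a1 a2 b1 b2 (cc ρ a))) M0 *
        (kp m a1 a2 b1 b2 ρ Ta Tb)ᵀ := by
  have hx : ∀ i, 0 < (xd m a1 a2 b1 b2 (cc ρ a) i).im :=
    xd_im h.h1 h.h2 h.h3 h.h4 (cc_im h.hρ a)
  have := Uref_mob (sieg_diagonal hx) (WI_symm m) (isUnit_td hx) (isUnit_Tref h.hρ h.ua h.ub)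
    (td_mul hx) (imM_Pm_xd h.h1 h.h2 h.h3 h.h4 h.hρ h.hTa h.hTb) hM0 hM hrel
  rw [kap_cc] at this
  rw [← this]
  unfold cc
  rw [reM_Pm_xd h.h1 h.h2 h.h3 h.h4 h.hρ]
  rfl

end kp

end Crest.Agent.R166.InvB348
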