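import Crest.Agent.R166.MeasMat_93
import Crest.Agent.R166.InvDefs_988
import Crest.Agent.R166.Ports_269

/-!
# R166 / MeasC_780 (helper780)

Measurability, a priori bounds and integrability of the test functionals of section 50
(`TestVal`, `tAvg`, `PV`, `cAvg`, blocks and normalised traces of resolvents), the same for the GOE,
and the calculus of the expectations `EG`, `EO`.
-/

set_option autoImplicit false
set_option linter.unusedSectionVars false

open Matrix MeasureTheory ProbabilityTheory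
open scoped BigOperators

namespace Crest.Agent.R166.MeasC780

open Crest.Agent.R166 Crest.Agent.R166.CayDet93 Crest.Agent.R166.Schur93
open Crest.Agent.R166.MeasMat93 Crest.Agent.R166.Inv988
open Crest.ProbabilityR.RandomMatrix

/-! ### Entrywise measurability, general index types -/

section tools
variable {Ω : Type*} [MeasurableSpace Ω]

lemma MM_ofReal {n k : Type*} {A : Ω → Matrix n k ℝ} (hA : MM A) :
    MM (fun p => (A p).map (fun x : ℝ => (x : ℂ))) :=
  fun i j => Complex.measurable_ofReal.comp (hA i j)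



lemma MM_submatrix {n k n' k' R : Type*} [MeasurableSpace R] {A : Ω → Matrix n k R} (hA : MM A)
    (e : n' → n) (e' : k' → k) : MM (fun p => (A p).submatrix e e') :=
  fun i j => hA (e i) (e' j)

lemma MM_cayG {ι : Type*} [Fintype ι] [DecidableEq ι] {A : Ω → Matrix ι ι ℝ} (hA : MM A) :
    MM (fun p => CayG (A p)) := by
  have h1 : MM (fun p => (A p).map (fun x : ℝ => (x : ℂ)) - Complex.I • (1 : Matrix ι ι ℂ)) :=
    (MM_ofReal hA).sub (MM.const _)
  have h2 : MM (fun p => (A p).map (fun x : ℝ => (x : ℂ)) + Complex.I • (1 : Matrix ι ι ℂ)) :=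
    (MM_ofReal hA).add (MM.const _)
  exact h1.mul h2.inv_complex

lemma MM_trace {ι : Type*} [Fintype ι] {A : Ω → Matrix ι ι ℂ} (hA : MM A) :
    Measurable (fun p => (A p).trace) := by
  simp only [Matrix.trace, Matrix.diag_apply]
  exact Finset.measurable_sum _ fun i _ => hA i i

/-- continuous functions of an entrywise measurable complex matrix are measurable -/
lemma MM_comp {ι κ : Type*} [Finite ι] [Finite κ] {A : Ω → Matrix ι κ ℂ} (hA : MM A)
    {f : Matrix ι κ ℂ → ℝ} (hf : Continuous f) : Measurable fun p => f (A p) := by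
  have := Fintype.ofFinite ι
  have := Fintype.ofFinite κ
  have h1 : Measurable (fun u : ι → κ → ℂ => f (Matrix.of u)) := by
    have : Continuous (fun u : ι → κ → ℂ => f (Matrix.of u)) := hf
    exact this.measurable
  have h2 : Measurable (fun p => (fun i j => A p i j : ι → κ → ℂ)) :=
    measurable_pi_lambda _ fun i => measurable_pi_lambda _ fun j => hA i j
  exact h1.comp h2

/-- continuous functions of two entrywise measurable complex matrices are measurable -/
lemma MM_comp2 {ι κ ι' κ' : Type*} [Finite ι] [Finite κ] [Finite ι'] [Finite κ']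
    {A : Ω → Matrix ι κ ℂ} (hA : MM A) {B : Ω → Matrix ι' κ' ℂ} (hB : MM B)
    {f : Matrix ι κ ℂ → Matrix ι' κ' ℂ → ℝ}
    (hf : Continuous fun b : Matrix ι κ ℂ × Matrix ι' κ' ℂ => f b.1 b.2) :
    Measurable fun p => f (A p) (B p) := by
  have := Fintype.ofFinite ι
  have := Fintype.ofFinite κ
  have := Fintype.ofFinite ι'
  have := Fintype.ofFinite κ'
  have h1 : Measurable (fun u : (ι → κ → ℂ) × (ι' → κ' → ℂ) =>
      f (Matrix.of u.1) (Matrix.of u.2)) := by
    have : Continuous (fun u : (ι → κ → ℂ) × (ι' → κ' → ℂ) =>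
      f (Matrix.of u.1) (Matrix.of u.2)) := hf
    exact this.measurable
  have h2 : Measurable (fun p => (fun i j => A p i j : ι → κ → ℂ)) :=
    measurable_pi_lambda _ fun i => measurable_pi_lambda _ fun j => hA i j
  have h3 : Measurable (fun p => (fun i j => B p i j : ι' → κ' → ℂ)) :=
    measurable_pi_lambda _ fun i => measurable_pi_lambda _ fun j => hB i j
  exact h1.comp (h2.prodMk h3)

variable {n m : ℕ}

lemma MM_Hm (G : SimpleGraph (Fin n)) (s : ℝ) : MM (fun ω : Fin n → ℝ => Hm G s ω) := by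
  intro i j
  have h : (fun ω : Fin n → ℝ => Hm G s ω i j) =
      fun ω => Hm G s 0 i j + s * (if i = j then ω i else 0) := by
    funext ω
    unfold Hm
    by_cases hij : i = j
    · subst hij; simp
    · simp [hij, Matrix.diagonal_apply_ne]
  rw [h]
  by_cases hij : i = j
  · simp only [hij, if_true]; fun_prop
  · simp only [hij, if_false]; fun_prop


lemma MM_res {ι : Type*} [Fintype ι] [DecidableEq ι] {A : Ω → Matrix ι ι ℝ} (hA : MM A)
    {z : Ω → ℂ} (hz : Measurable z) : MM (fun p => Res (A p) (z p)) := by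
  have h1 : MM (fun p => (A p).map (fun x : ℝ => (x : ℂ)) - z p • (1 : Matrix ι ι ℂ)) :=
    (MM_ofReal hA).sub (MM.smul hz (MM.const _))
  exact h1.inv_complex

lemma measurable_mn {A : Ω → Matrix (Fin n) (Fin n) ℝ} (hA : MM A)
    {z : Ω → ℂ} (hz : Measurable z) : Measurable (fun p => mn (A p) (z p)) := by
  unfold mn
  exact (MM_trace (MM_res hA hz)).div_const _

lemma MM_blk {A : Ω → Matrix (Fin n) (Fin n) ℝ} (hA : MM A)
    {z : Ω → ℂ} (hz : Measurable z) (u w : Fin n) :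
    MM (fun p => Blk (Res (A p) (z p)) u w) :=
  MM_submatrix (MM_res hA hz) _ _

lemma MM_testArr {A : Ω → Matrix (Fin n) (Fin n) ℝ} (hA : MM A) {e : Ω → ℝ} (he : Measurable e)
    {g : Ω → Fin n → Fin m → ℝ} (hg : Measurable g) :
    MM (fun p => testArr (A p) (e p) (g p)) := by
  have hg' : MM (fun p => Matrix.of (g p)) := fun i j =>
    (measurable_pi_apply j).comp ((measurable_pi_apply i).comp hg)
  have h1 : MM (fun p => A p - e p • (1 : Matrix (Fin n) (Fin n) ℝ)) :=
    hA.sub (MM.smul he (MM.const _))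
  exact MM.smul (a := fun _ : Ω => 1 / (n : ℝ)) measurable_const
    (((hg'.transpose).mul h1.inv_real).mul hg')

lemma MM_uOf {A : Ω → Matrix (Fin n) (Fin n) ℝ} (hA : MM A) (E ρ : ℝ) {K x : Ω → ℝ}
    (hK : Measurable K) (hx : Measurable x)
    {g : Ω → Fin n → Fin m → ℝ} (hg : Measurable g) :
    MM (fun p => uOf (A p) E ρ (K p) (x p) (g p)) := by
  have hz : Measurable (fun p => zz E (K p) n) := by unfold zz; fun_prop
  have h1 : MM (fun p => testArr (A p) (E + x p / n) (g p)) :=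
    MM_testArr hA (by fun_prop) hg
  have h2 : Measurable (fun p => (mn (A p) (zz E (K p) n)).re) :=
    Complex.measurable_re.comp (measurable_mn hA hz)
  have h3 : MM (fun p => (1 / (Real.pi * ρ)) • (testArr (A p) (E + x p / n) (g p) -
    (mn (A p) (zz E (K p) n)).re • (1 : Matrix (Fin m) (Fin m) ℝ))) :=
    MM.smul measurable_const (h1.sub (MM.smul h2 (MM.const _)))
  exact h3.cay

lemma MM_dirs (p1 p2 : Fin n × Fin n) {g : Ω → Fin n → Fin m → ℝ} (hg : Measurable g) :
    MM (fun p => dirs p1 p2 (g p)) := by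
  intro v j
  rcases j with (a | a) | k
  · exact measurable_const
  · exact measurable_const
  · exact ((measurable_pi_apply k).comp ((measurable_pi_apply v).comp hg)).div_const _

lemma MM_fromBlocks {n k n' k' R : Type*} [MeasurableSpace R] {A : Ω → Matrix n k R}
    {B : Ω → Matrix n k' R} {C : Ω → Matrix n' k R} {D : Ω → Matrix n' k' R}
    (hA : MM A) (hB : MM B) (hC : MM C) (hD : MM D) :
    MM (fun p => Matrix.fromBlocks (A p) (B p) (C p) (D p)) := by
  intro i j
  rcases i with i | i <;> rcases j with j | j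
  · exact hA i j
  · exact hB i j
  · exact hC i j
  · exact hD i j

lemma MM_Aref (Za Zb : M2) {a : Ω → ℝ} (ha : Measurable a) :
    MM (fun p => (Aref Za Zb (a p) : Matrix (Idx m) (Idx m) ℝ)) :=
  MM_fromBlocks (MM.const _) (MM.const _) (MM.const _) (MM.smul ha (MM.const _))

lemma MM_Uref {A : Ω → Matrix (Fin n) (Fin n) ℝ} (hA : MM A) (E ρ : ℝ) {K x : Ω → ℝ}
    (hK : Measurable K) (hx : Measurable x) (Za Zb : M2) (Ta Tb : Matrix (Fin 2) (Fin 2) ℝ)
    (p1 p2 : Fin n × Fin n) {g : Ω → Fin n → Fin m → ℝ} (hg : Measurable g) :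
    MM (fun p => Uref (A p) E ρ (K p) (x p) Za Zb Ta Tb p1 p2 (g p)) := by
  have hz : Measurable (fun p => zz E (K p) n) := by unfold zz; fun_prop
  have h2 : Measurable (fun p => (mn (A p) (zz E (K p) n)).re) :=
    Complex.measurable_re.comp (measurable_mn hA hz)
  have hd := MM_dirs (m := m) p1 p2 hg
  have he : Measurable (fun p => E + x p / n) := by fun_prop
  have h0 : MM (fun p => A p - (E + x p / n) • (1 : Matrix (Fin n) (Fin n) ℝ)) :=
    hA.sub (MM.smul he (MM.const _))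
  have h1 : MM (fun p => Inv988.arr (A p) (E + x p / n) (dirs p1 p2 (g p))) :=
    ((hd.transpose).mul h0.inv_real).mul hd
  exact MM_cayG (((MM.const _).mul (h1.sub (MM_Aref Za Zb h2))).mul (MM.const _))

end tools

/-! ### Symmetry and a priori bounds -/

section bounds

lemma Hm_transpose {n : ℕ} (G : SimpleGraph (Fin n)) (s : ℝ) (ω : Fin n → ℝ) :
    (Hm G s ω)ᵀ = Hm G s ω := by
  classical
  unfold Hm
  rw [Matrix.transpose_add, Matrix.transpose_smul, Matrix.diagonal_transpose]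
  congr 1
  ext i j
  simp [Matrix.transpose_apply, SimpleGraph.adjMatrix_apply, G.adj_comm]



lemma sub_smul_transpose {ι : Type*} [DecidableEq ι] {H : Matrix ι ι ℝ}
    (hH : Hᵀ = H) (e : ℝ) : (H - e • (1 : Matrix ι ι ℝ))ᵀ = H - e • (1 : Matrix ι ι ℝ) := by
  rw [Matrix.transpose_sub, hH, Matrix.transpose_smul, Matrix.transpose_one]

lemma quad_transpose {ι κ : Type*} [Fintype ι] [Fintype κ] {S : Matrix ι ι ℝ} (hS : Sᵀ = S)
    (Q : Matrix ι κ ℝ) : (Qᵀ * S * Q)ᵀ = Qᵀ * S * Q := by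
  rw [Matrix.transpose_mul, Matrix.transpose_mul, Matrix.transpose_transpose, hS,
    Matrix.mul_assoc]

lemma testArr_transpose {n m : ℕ} {H : Matrix (Fin n) (Fin n) ℝ} (hH : Hᵀ = H) (e : ℝ)
    (g : Fin n → Fin m → ℝ) : (testArr H e g)ᵀ = testArr H e g := by
  unfold testArr
  rw [Matrix.transpose_smul, quad_transpose]
  rw [Matrix.transpose_nonsing_inv, sub_smul_transpose hH]

lemma uArg_transpose {n m : ℕ} {H : Matrix (Fin n) (Fin n) ℝ} (hH : Hᵀ = H) (E ρ a x : ℝ)
    (g : Fin n → Fin m → ℝ) :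
    ((1 / (Real.pi * ρ)) • (testArr H (E + x / n) g - a • (1 : Matrix (Fin m) (Fin m) ℝ)))ᵀ =
    (1 / (Real.pi * ρ)) • (testArr H (E + x / n) g - a • (1 : Matrix (Fin m) (Fin m) ℝ)) := by
  rw [Matrix.transpose_smul, Matrix.transpose_sub, testArr_transpose hH, Matrix.transpose_smul,
    Matrix.transpose_one]


lemma norm_uOf_le {n m : ℕ} {H : Matrix (Fin n) (Fin n) ℝ} (hH : Hᵀ = H) (E ρ K x : ℝ)
    (g : Fin n → Fin m → ℝ) (i j : Fin m) : ‖uOf H E ρ K x g i j‖ ≤ 1 :=
  norm_Cay_le _ (uArg_transpose hH _ _ _ _ _) i j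

/-- reindexing of the Cayley transform -/
lemma CayG_reindex {ι κ : Type*} [Fintype ι] [DecidableEq ι] [Fintype κ] [DecidableEq κ]
    (e : ι ≃ κ) (C : Matrix κ κ ℝ) :
    CayG (C.submatrix e e) = (CayG C).submatrix e e := by
  unfold CayG
  have h1 : ((C.submatrix e e).map (fun x : ℝ => (x : ℂ)) - Complex.I • (1 : Matrix ι ι ℂ)) =
      (C.map (fun x : ℝ => (x : ℂ)) - Complex.I • (1 : Matrix κ κ ℂ)).submatrix e e := by
    ext i j
    simp [Matrix.one_apply]
  have h2 : ((C.submatrix e e).map (fun x : ℝ => (x : ℂ)) + Complex.I • (1 : Matrix ι ι ℂ)) =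
      (C.map (fun x : ℝ => (x : ℂ)) + Complex.I • (1 : Matrix κ κ ℂ)).submatrix e e := by
    ext i j
    simp [Matrix.one_apply]
  rw [h1, h2, Matrix.inv_submatrix_equiv, Matrix.submatrix_mul_equiv]

/-- every Cayley transform is a reindexed `Cay` -/
lemma CayG_eq_submatrix {ι : Type*} [Fintype ι] [DecidableEq ι] (C : Matrix ι ι ℝ) :
    CayG C = (Cay (C.submatrix (Fintype.equivFin ι).symm (Fintype.equivFin ι).symm)).submatrix
      (Fintype.equivFin ι) (Fintype.equivFin ι) := by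
  rw [Inv988.Cay_eq, CayG_reindex, Matrix.submatrix_submatrix]
  simp

lemma norm_CayG_le {ι : Type*} [Fintype ι] [DecidableEq ι] {C : Matrix ι ι ℝ} (hC : Cᵀ = C)
    (i j : ι) : ‖CayG C i j‖ ≤ 1 := by
  rw [CayG_eq_submatrix, Matrix.submatrix_apply]
  refine norm_Cay_le _ ?_ _ _
  rw [Matrix.transpose_submatrix, hC]

lemma Aref_transpose {m : ℕ} {Za Zb : M2} (hZa : Za.transpose = Za) (hZb : Zb.transpose = Zb)
    (a : ℝ) : (Aref Za Zb a : Matrix (Idx m) (Idx m) ℝ)ᵀ = Aref Za Zb a := by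
  have h : ∀ Z : M2, Z.transpose = Z → (rePart Z)ᵀ = rePart Z := by
    intro Z hZ
    unfold rePart
    rw [← Matrix.transpose_map, hZ]
  unfold Aref
  rw [Matrix.fromBlocks_transpose, Matrix.fromBlocks_transpose, h _ hZa, h _ hZb,
    Matrix.transpose_smul, Matrix.transpose_one]
  simp

lemma arr_transpose' {n : ℕ} {ι : Type*} [Fintype ι] {H : Matrix (Fin n) (Fin n) ℝ}
    (hH : Hᵀ = H) (e : ℝ) (Q : Matrix (Fin n) ι ℝ) : (Inv988.arr H e Q)ᵀ = Inv988.arr H e Q := by
  unfold Inv988.arr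
  rw [quad_transpose]
  rw [Matrix.transpose_nonsing_inv, sub_smul_transpose hH]

lemma norm_Uref_le {n m : ℕ} {H : Matrix (Fin n) (Fin n) ℝ} (hH : Hᵀ = H) (E ρ K x : ℝ)
    {Za Zb : M2} (hZa : Za.transpose = Za) (hZb : Zb.transpose = Zb)
    (Ta Tb : Matrix (Fin 2) (Fin 2) ℝ) (p1 p2 : Fin n × Fin n)
    (g : Fin n → Fin m → ℝ) (i j : Idx m) : ‖Uref H E ρ K x Za Zb Ta Tb p1 p2 g i j‖ ≤ 1 := by
  unfold Uref
  refine norm_CayG_le ?_ i j
  rw [Matrix.transpose_mul, Matrix.transpose_mul, Matrix.transpose_transpose,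
    Matrix.transpose_sub, arr_transpose' hH, Aref_transpose hZa hZb, Matrix.mul_assoc]

/-- bound of a continuous function on the matrices with entries of modulus `≤ 1`. -/
lemma exists_boundG {ι : Type*} [Finite ι] {f : Matrix ι ι ℂ → ℝ} (hf : Continuous f) :
    ∃ B : ℝ, 0 ≤ B ∧ ∀ U : Matrix ι ι ℂ, (∀ i j, ‖U i j‖ ≤ 1) → |f U| ≤ B := by
  have := Fintype.ofFinite ι
  have hf' : Continuous (fun u : ι → ι → ℂ => f (Matrix.of u)) := hf
  have hK : IsCompact (Metric.closedBall (0 : ι → ι → ℂ) 1) := isCompact_closedBall _ _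
  obtain ⟨B, hB⟩ := (hK.image hf').isBounded.exists_norm_le
  refine ⟨max B 0, le_max_right _ _, fun U hU => ?_⟩
  have hmem : (fun i j => U i j : ι → ι → ℂ) ∈ Metric.closedBall (0 : ι → ι → ℂ) 1 := by
    rw [mem_closedBall_zero_iff, pi_norm_le_iff_of_nonneg zero_le_one]
    intro i
    rw [pi_norm_le_iff_of_nonneg zero_le_one]
    exact fun j => hU i j
  have := hB _ ⟨_, hmem, rfl⟩
  rw [Real.norm_eq_abs] at this
  exact this.trans (le_max_left _ _)


end bounds

/-! ### Probability laws and parametric integrals -/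

section integrals

instance gaussM_prob (n m : ℕ) : IsProbabilityMeasure (gaussM n m) := by
  unfold gaussM; infer_instance

instance goeDisorderLaw_prob (n : ℕ) : IsProbabilityMeasure (goeDisorderLaw n) := by
  unfold goeDisorderLaw; infer_instance

lemma gLaw_prob {n d : ℕ} (h : (regularGraphs n d).Nonempty) :
    IsProbabilityMeasure (gLaw n d) := by
  constructor
  unfold gLaw
  rw [Measure.smul_apply, Measure.finsetSum_apply]
  have h0 : ((regularGraphs n d).card : ENNReal) ≠ 0 := by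
    exact_mod_cast (Finset.card_pos.2 h).ne'
  simp only [measure_univ, Finset.sum_const, nsmul_eq_mul, mul_one, smul_eq_mul]
  exact ENNReal.inv_mul_cancel h0 (ENNReal.natCast_ne_top _)

lemma law_prob {n d : ℕ} (h : (regularGraphs n d).Nonempty) :
    IsProbabilityMeasure (law n d) := by
  have := gLaw_prob h
  unfold law
  infer_instance

variable {Ω : Type*} [MeasurableSpace Ω]

/-- measurability of the average over `x ∈ [0,δ]` and a probability space -/
lemma measurable_avg {𝓖 : Type*} [MeasurableSpace 𝓖] (ν : Measure 𝓖) [SFinite ν] (δ : ℝ)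
    {F : Ω → ℝ → 𝓖 → ℝ} (hF : Measurable fun q : (Ω × ℝ) × 𝓖 => F q.1.1 q.1.2 q.2) :
    Measurable fun p => δ⁻¹ * ∫ x in (0 : ℝ)..δ, ∫ g, F p x g ∂ν := by
  have h1 : StronglyMeasurable fun q : Ω × ℝ => ∫ g, F q.1 q.2 g ∂ν :=
    hF.stronglyMeasurable.integral_prod_right
  have h2 : ∀ S : Set ℝ, StronglyMeasurable fun p : Ω => ∫ x in S, ∫ g, F p x g ∂ν := fun S =>
    h1.integral_prod_right
  have h3 : (fun p => ∫ x in (0 : ℝ)..δ, ∫ g, F p x g ∂ν) = fun p =>
      (∫ x in Set.Ioc 0 δ, ∫ g, F p x g ∂ν) - ∫ x in Set.Ioc δ 0, ∫ g, F p x g ∂ν := by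
    funext p
    rw [intervalIntegral]
  rw [show (fun p => δ⁻¹ * ∫ x in (0 : ℝ)..δ, ∫ g, F p x g ∂ν) = fun p => δ⁻¹ *
    ((fun p => ∫ x in (0 : ℝ)..δ, ∫ g, F p x g ∂ν) p) from rfl, h3]
  exact ((h2 _).measurable.sub (h2 _).measurable).const_mul _

/-- the average over `x ∈ [0,δ]` and a probability space of a function bounded by `B` is
bounded by `B` -/
lemma abs_avg_le {𝓖 : Type*} [MeasurableSpace 𝓖] (ν : Measure 𝓖) [IsProbabilityMeasure ν]
    (δ : ℝ) {B : ℝ} (hB : 0 ≤ B) {F : ℝ → 𝓖 → ℝ} (hF : ∀ x g, |F x g| ≤ B) :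
    |δ⁻¹ * ∫ x in (0 : ℝ)..δ, ∫ g, F x g ∂ν| ≤ B := by
  by_cases hδ : δ = 0
  · subst hδ; simpa using hB
  have h1 : ∀ x, ‖∫ g, F x g ∂ν‖ ≤ B := by
    intro x
    have := norm_integral_le_of_norm_le_const (μ := ν) (f := F x) (C := B)
      (Filter.Eventually.of_forall fun g => by simpa [Real.norm_eq_abs] using hF x g)
    simpa using this
  have h2 := intervalIntegral.norm_integral_le_of_norm_le_const (a := 0) (b := δ)
    (f := fun x => ∫ g, F x g ∂ν) (C := B) (fun x _ => h1 x)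
  rw [abs_mul, abs_inv]
  rw [Real.norm_eq_abs, sub_zero] at h2
  have h3 : 0 < |δ| := abs_pos.2 hδ
  calc |δ|⁻¹ * |∫ x in (0 : ℝ)..δ, ∫ g, F x g ∂ν| ≤ |δ|⁻¹ * (B * |δ|) := by gcongr
    _ = B := by field_simp

variable {n m : ℕ}

/-- measurability of `TestVal` along a measurable family of matrices -/
lemma measurable_TestVal {A : Ω → Matrix (Fin n) (Fin n) ℝ} (hA : MM A) (E ρ K δ : ℝ)
    {f : Matrix (Fin m) (Fin m) ℂ → ℝ} (hf : Continuous f) :
    Measurable fun p => TestVal (A p) E ρ K δ m f := by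
  unfold TestVal
  refine measurable_avg (gaussM n m) δ (F := fun p x g => f (uOf (A p) E ρ K x g)) ?_
  refine MM_comp (MM_uOf (A := fun q : (Ω × ℝ) × (Fin n → Fin m → ℝ) => A q.1.1)
    (fun i j => (hA i j).comp (measurable_fst.comp measurable_fst)) E ρ measurable_const
    (measurable_snd.comp measurable_fst) measurable_snd) hf

lemma abs_TestVal_le {H : Matrix (Fin n) (Fin n) ℝ} (hH : Hᵀ = H) (E ρ K δ : ℝ)
    {f : Matrix (Fin m) (Fin m) ℂ → ℝ} {B : ℝ} (hB : 0 ≤ B)
    (hfB : ∀ U : Matrix (Fin m) (Fin m) ℂ, (∀ i j, ‖U i j‖ ≤ 1) → |f U| ≤ B) :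
    |TestVal H E ρ K δ m f| ≤ B :=
  abs_avg_le _ _ hB fun _ _ => hfB _ fun i j => norm_uOf_le hH _ _ _ _ _ i j


lemma measurable_tAvg {A : Ω → Matrix (Fin n) (Fin n) ℝ} (hA : MM A) (E ρ K δ : ℝ)
    (Za Zb : M2) (Ta Tb : Matrix (Fin 2) (Fin 2) ℝ)
    {f : Matrix (Idx m) (Idx m) ℂ → ℝ} (hf : Continuous f) (p1 p2 : Fin n × Fin n) :
    Measurable fun p => tAvg (A p) E ρ K δ Za Zb Ta Tb f p1 p2 := by
  unfold tAvg
  refine measurable_avg (gaussM n m) δ
    (F := fun p x g => f (Uref (A p) E ρ K x Za Zb Ta Tb p1 p2 g)) ?_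
  refine MM_comp (MM_Uref (A := fun q : (Ω × ℝ) × (Fin n → Fin m → ℝ) => A q.1.1)
    (fun i j => (hA i j).comp (measurable_fst.comp measurable_fst)) E ρ measurable_const
    (measurable_snd.comp measurable_fst) Za Zb Ta Tb p1 p2 measurable_snd) hf

lemma abs_tAvg_le {H : Matrix (Fin n) (Fin n) ℝ} (hH : Hᵀ = H) (E ρ K δ : ℝ)
    {Za Zb : M2} (hZa : Za.transpose = Za) (hZb : Zb.transpose = Zb)
    (Ta Tb : Matrix (Fin 2) (Fin 2) ℝ) {f : Matrix (Idx m) (Idx m) ℂ → ℝ}
    (p1 p2 : Fin n × Fin n) {B : ℝ} (hB : 0 ≤ B)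
    (hfB : ∀ U : Matrix (Idx m) (Idx m) ℂ, (∀ i j, ‖U i j‖ ≤ 1) → |f U| ≤ B) :
    |tAvg H E ρ K δ Za Zb Ta Tb f p1 p2| ≤ B :=
  abs_avg_le _ _ hB fun _ _ => hfB _ fun i j => norm_Uref_le hH _ _ _ _ hZa hZb _ _ _ _ _ i j

lemma MM_blkη {A : Ω → Matrix (Fin n) (Fin n) ℝ} (hA : MM A) (E η : ℝ) (p : Fin n × Fin n) :
    MM (fun q => blk (A q) E η p) := by
  unfold blk
  exact MM_blk hA (z := fun _ => ze E η) measurable_const _ _



lemma measurable_eAvg2 (G : SimpleGraph (Fin n)) {F : Ω → Fin n × Fin n → Fin n × Fin n → ℝ}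
    (hF : ∀ p1 p2, Measurable fun p => F p p1 p2) : Measurable fun p => eAvg2 G (F p) := by
  unfold eAvg2
  exact (Finset.measurable_sum _ fun q _ => Finset.measurable_sum _ fun q' _ =>
    hF _ _).div_const _

lemma measurable_PV (G : SimpleGraph (Fin n)) {A : Ω → Matrix (Fin n) (Fin n) ℝ} (hA : MM A)
    (E ρ K δ η : ℝ) (Za Zb : M2) (Ta Tb : Matrix (Fin 2) (Fin 2) ℝ)
    {χ : M2 → M2 → ℝ} (hχ : Continuous fun b : M2 × M2 => χ b.1 b.2)
    {f : Matrix (Idx m) (Idx m) ℂ → ℝ} (hf : Continuous f) :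
    Measurable fun p => PV G (A p) E ρ K δ η Za Zb Ta Tb χ f := by
  unfold PV
  refine measurable_eAvg2 G fun p1 p2 => ?_
  exact (MM_comp2 (MM_blkη hA E η p1) (MM_blkη hA E η p2) hχ).mul
    (measurable_tAvg hA E ρ K δ Za Zb Ta Tb hf p1 p2)

lemma measurable_cAvg (G : SimpleGraph (Fin n)) {A : Ω → Matrix (Fin n) (Fin n) ℝ} (hA : MM A)
    (E η : ℝ) {χ : M2 → M2 → ℝ} (hχ : Continuous fun b : M2 × M2 => χ b.1 b.2) :
    Measurable fun p => cAvg G (A p) E η χ := by
  unfold cAvg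
  exact measurable_eAvg2 G fun p1 p2 => MM_comp2 (MM_blkη hA E η p1) (MM_blkη hA E η p2) hχ

/-! #### bounds of averages -/

lemma abs_eAvg_le (G : SimpleGraph (Fin n)) {B : ℝ} (hB : 0 ≤ B) {F : Fin n → Fin n → ℝ}
    (hF : ∀ u w, |F u w| ≤ B) : |eAvg G F| ≤ B := by
  unfold eAvg
  rcases (darts G).eq_empty_or_nonempty with h | h
  · simpa [h] using hB
  have hc : (0 : ℝ) < (darts G).card := by exact_mod_cast Finset.card_pos.2 h
  rw [abs_div, abs_of_pos hc, div_le_iff₀ hc]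
  calc |∑ p ∈ darts G, F p.1 p.2| ≤ ∑ p ∈ darts G, |F p.1 p.2| := Finset.abs_sum_le_sum_abs _ _
    _ ≤ ∑ p ∈ darts G, B := Finset.sum_le_sum fun p _ => hF _ _
    _ = B * (darts G).card := by rw [Finset.sum_const, nsmul_eq_mul, mul_comm]


lemma abs_eAvg2_le (G : SimpleGraph (Fin n)) {B : ℝ} (hB : 0 ≤ B)
    {F : Fin n × Fin n → Fin n × Fin n → ℝ}
    (hF : ∀ p1 p2, |F p1 p2| ≤ B) : |eAvg2 G F| ≤ B := by
  unfold eAvg2
  rcases (darts G).eq_empty_or_nonempty with h | h
  · simpa [h] using hB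
  have hc : (0 : ℝ) < (darts G).card := by exact_mod_cast Finset.card_pos.2 h
  have hc2 : (0 : ℝ) < ((darts G).card : ℝ) ^ 2 := by positivity
  rw [abs_div, abs_of_pos hc2, div_le_iff₀ hc2]
  calc |∑ p1 ∈ darts G, ∑ p2 ∈ darts G, F p1 p2| ≤ ∑ p1 ∈ darts G, |∑ p2 ∈ darts G, F p1 p2| :=
        Finset.abs_sum_le_sum_abs _ _
    _ ≤ ∑ p1 ∈ darts G, ∑ p2 ∈ darts G, |F p1 p2| :=
        Finset.sum_le_sum fun p _ => Finset.abs_sum_le_sum_abs _ _
    _ ≤ ∑ p1 ∈ darts G, ∑ p2 ∈ darts G, B :=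
        Finset.sum_le_sum fun p _ => Finset.sum_le_sum fun q _ => hF _ _
    _ = B * ((darts G).card : ℝ) ^ 2 := by
        simp only [Finset.sum_const, nsmul_eq_mul]; ring

lemma eAvg_mono (G : SimpleGraph (Fin n)) {F F' : Fin n → Fin n → ℝ}
    (h : ∀ u w, F u w ≤ F' u w) : eAvg G F ≤ eAvg G F' := by
  unfold eAvg
  exact div_le_div_of_nonneg_right (Finset.sum_le_sum fun p _ => h _ _) (Nat.cast_nonneg _)


lemma eAvg2_mono (G : SimpleGraph (Fin n)) {F F' : Fin n × Fin n → Fin n × Fin n → ℝ}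
    (h : ∀ p1 p2, F p1 p2 ≤ F' p1 p2) : eAvg2 G F ≤ eAvg2 G F' := by
  unfold eAvg2
  exact div_le_div_of_nonneg_right
    (Finset.sum_le_sum fun p _ => Finset.sum_le_sum fun q _ => h _ _) (by positivity)



lemma abs_PV_le (G : SimpleGraph (Fin n)) {H : Matrix (Fin n) (Fin n) ℝ} (hH : Hᵀ = H)
    (E ρ K δ η : ℝ) {Za Zb : M2} (hZa : Za.transpose = Za) (hZb : Zb.transpose = Zb)
    (Ta Tb : Matrix (Fin 2) (Fin 2) ℝ) {χ : M2 → M2 → ℝ} (hχ : ∀ b1 b2, |χ b1 b2| ≤ 1)
    {f : Matrix (Idx m) (Idx m) ℂ → ℝ} {B : ℝ} (hB : 0 ≤ B)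
    (hfB : ∀ U : Matrix (Idx m) (Idx m) ℂ, (∀ i j, ‖U i j‖ ≤ 1) → |f U| ≤ B) :
    |PV G H E ρ K δ η Za Zb Ta Tb χ f| ≤ B := by
  unfold PV
  refine abs_eAvg2_le G hB fun p1 p2 => ?_
  rw [abs_mul]
  calc |χ (blk H E η p1) (blk H E η p2)| * |tAvg H E ρ K δ Za Zb Ta Tb f p1 p2| ≤ 1 * B := by
        gcongr
        · exact hχ _ _
        · exact abs_tAvg_le hH _ _ _ _ hZa hZb _ _ _ _ hB hfB
    _ = B := one_mul _


end integrals

/-! ### Calculus of the expectations -/

section expect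

variable {n d : ℕ}

/-- expectation over the graph and the potentials of a general function -/
noncomputable def EGo (n d : ℕ) (Φ : SimpleGraph (Fin n) → (Fin n → ℝ) → ℝ) : ℝ :=
  regularAverage n d fun G => ∫ ω, Φ G ω ∂potentialLaw n



lemma abs_regularAverage_le {B : ℝ} (hB : 0 ≤ B) {F : SimpleGraph (Fin n) → ℝ}
    (hF : ∀ G, |F G| ≤ B) : |regularAverage n d F| ≤ B := by
  unfold regularAverage
  rcases (regularGraphs n d).eq_empty_or_nonempty with h | h
  · simpa [h] using hB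
  have hc : (0 : ℝ) < (regularGraphs n d).card := by exact_mod_cast Finset.card_pos.2 h
  rw [abs_div, abs_of_pos hc, div_le_iff₀ hc]
  calc |∑ G ∈ regularGraphs n d, F G| ≤ ∑ G ∈ regularGraphs n d, |F G| :=
        Finset.abs_sum_le_sum_abs _ _
    _ ≤ ∑ G ∈ regularGraphs n d, B := Finset.sum_le_sum fun p _ => hF _
    _ = B * (regularGraphs n d).card := by rw [Finset.sum_const, nsmul_eq_mul, mul_comm]

lemma regularAverage_sub (F F' : SimpleGraph (Fin n) → ℝ) :
    regularAverage n d (fun G => F G - F' G) = regularAverage n d F - regularAverage n d F' := by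
  unfold regularAverage
  rw [Finset.sum_sub_distrib, sub_div]

lemma regularAverage_add (F F' : SimpleGraph (Fin n) → ℝ) :
    regularAverage n d (fun G => F G + F' G) = regularAverage n d F + regularAverage n d F' := by
  unfold regularAverage
  rw [Finset.sum_add_distrib, add_div]

lemma regularAverage_const_mul (c : ℝ) (F : SimpleGraph (Fin n) → ℝ) :
    regularAverage n d (fun G => c * F G) = c * regularAverage n d F := by
  unfold regularAverage
  rw [← Finset.mul_sum, mul_div_assoc]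

lemma regularAverage_const (h : (regularGraphs n d).Nonempty) (c : ℝ) :
    regularAverage n d (fun _ => c) = c := by
  unfold regularAverage
  have hc : (0 : ℝ) < (regularGraphs n d).card := by exact_mod_cast Finset.card_pos.2 h
  rw [Finset.sum_const, nsmul_eq_mul, mul_div_assoc, mul_comm, div_mul_cancel₀]
  exact hc.ne'

/-- boundedness and measurability package for functions of `(G, ω)` -/
structure Good (n : ℕ) (B : ℝ) (Φ : SimpleGraph (Fin n) → (Fin n → ℝ) → ℝ) : Prop where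
  meas : ∀ G, Measurable (Φ G)
  bdd : ∀ G ω, |Φ G ω| ≤ B

namespace Good

variable {B B' : ℝ} {Φ Ψ : SimpleGraph (Fin n) → (Fin n → ℝ) → ℝ}

lemma nonneg (h : Good n B Φ) : 0 ≤ B := (abs_nonneg _).trans (h.bdd ⊥ 0)

lemma integrable (h : Good n B Φ) (G : SimpleGraph (Fin n)) :
    Integrable (Φ G) (potentialLaw n) :=
  Integrable.of_bound (h.meas G).aestronglyMeasurable B
    (Filter.Eventually.of_forall fun ω => by simpa [Real.norm_eq_abs] using h.bdd G ω)

lemma measurable_uncurry (h : Good n B Φ) :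
    Measurable fun x : SimpleGraph (Fin n) × (Fin n → ℝ) => Φ x.1 x.2 :=
  measurable_from_prod_countable_right fun G => h.meas G

lemma integrable_law (h : Good n B Φ) (hne : (regularGraphs n d).Nonempty) :
    Integrable (fun x : SimpleGraph (Fin n) × (Fin n → ℝ) => Φ x.1 x.2) (law n d) := by
  have := law_prob hne
  exact Integrable.of_bound h.measurable_uncurry.aestronglyMeasurable B
    (Filter.Eventually.of_forall fun x => by simpa [Real.norm_eq_abs] using h.bdd x.1 x.2)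

lemma sub (h : Good n B Φ) (h' : Good n B' Ψ) : Good n (B + B') fun G ω => Φ G ω - Ψ G ω :=
  ⟨fun G => (h.meas G).sub (h'.meas G), fun G ω =>
    (abs_sub _ _).trans (add_le_add (h.bdd G ω) (h'.bdd G ω))⟩

lemma add (h : Good n B Φ) (h' : Good n B' Ψ) : Good n (B + B') fun G ω => Φ G ω + Ψ G ω :=
  ⟨fun G => (h.meas G).add (h'.meas G), fun G ω =>
    (abs_add_le _ _).trans (add_le_add (h.bdd G ω) (h'.bdd G ω))⟩

lemma mul (h : Good n B Φ) (h' : Good n B' Ψ) : Good n (B * B') fun G ω => Φ G ω * Ψ G ω :=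
  ⟨fun G => (h.meas G).mul (h'.meas G), fun G ω => by
    rw [abs_mul]
    exact mul_le_mul (h.bdd G ω) (h'.bdd G ω) (abs_nonneg _) h.nonneg⟩

lemma const_mul (h : Good n B Φ) (c : ℝ) : Good n (|c| * B) fun G ω => c * Φ G ω :=
  ⟨fun G => (h.meas G).const_mul c, fun G ω => by
    rw [abs_mul]
    exact mul_le_mul_of_nonneg_left (h.bdd G ω) (abs_nonneg _)⟩

lemma mono (h : Good n B Φ) (hBB : B ≤ B') : Good n B' Φ :=
  ⟨h.meas, fun G ω => (h.bdd G ω).trans hBB⟩

end Good

variable {B B' : ℝ} {Φ Ψ : SimpleGraph (Fin n) → (Fin n → ℝ) → ℝ}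

/-- `EGo` is the expectation under `law n d` -/
lemma EGo_eq_integral (hΦ : Good n B Φ) (hne : (regularGraphs n d).Nonempty) :
    EGo n d Φ = ∫ x, Φ x.1 x.2 ∂(law n d) := by
  have := gLaw_prob hne
  rw [law, integral_prod _ (by simpa [law] using hΦ.integrable_law hne)]
  unfold EGo regularAverage gLaw
  rw [integral_smul_measure, integral_finsetSum_measure]
  · simp only [integral_dirac, ENNReal.toReal_inv, ENNReal.toReal_natCast, smul_eq_mul]
    rw [div_eq_inv_mul]
  · intro G _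
    exact integrable_dirac (by simp)

lemma EGo_sub (hΦ : Good n B Φ) (hΨ : Good n B' Ψ) :
    EGo n d (fun G ω => Φ G ω - Ψ G ω) = EGo n d Φ - EGo n d Ψ := by
  unfold EGo
  rw [← regularAverage_sub]
  congr 1
  funext G
  exact integral_sub (hΦ.integrable G) (hΨ.integrable G)


lemma EGo_const_mul (c : ℝ) :
    EGo n d (fun G ω => c * Φ G ω) = c * EGo n d Φ := by
  unfold EGo
  rw [← regularAverage_const_mul]
  congr 1
  funext G
  exact integral_const_mul _ _

lemma EGo_const (hne : (regularGraphs n d).Nonempty) (c : ℝ) :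
    EGo n d (fun _ _ => c) = c := by
  unfold EGo
  simp only [integral_const, probReal_univ, smul_eq_mul, one_mul]
  exact regularAverage_const hne c

lemma abs_EGo_le (hB : 0 ≤ B) (hΦ : ∀ G ω, |Φ G ω| ≤ B) : |EGo n d Φ| ≤ B := by
  unfold EGo
  refine abs_regularAverage_le hB fun G => ?_
  have := norm_integral_le_of_norm_le_const (μ := potentialLaw n) (f := Φ G) (C := B)
    (Filter.Eventually.of_forall fun ω => by simpa [Real.norm_eq_abs] using hΦ G ω)
  simpa [Real.norm_eq_abs] using this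


/-- expectation of a bounded function which is small with high probability -/
lemma EGo_le_of_whp {ε a : ℝ} (hε : 0 ≤ ε) (ha : 0 ≤ a) (hΦ : Good n B Φ)
    (hne : (regularGraphs n d).Nonempty) (h : Whp n d ε fun G ω => Φ G ω ≤ a) :
    EGo n d Φ ≤ a + B * ε := by
  have hP := law_prob hne
  rw [EGo_eq_integral hΦ hne]
  set S : Set (SimpleGraph (Fin n) × (Fin n → ℝ)) := {x | ¬ Φ x.1 x.2 ≤ a} with hS
  have hSm : MeasurableSet S := by
    have : S = (fun x : SimpleGraph (Fin n) × (Fin n → ℝ) => Φ x.1 x.2) ⁻¹' (Set.Ioi a) := by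
      ext x; simp [hS]
    rw [this]
    exact hΦ.measurable_uncurry measurableSet_Ioi
  have hSle : (law n d).real S ≤ ε := by
    rw [Measure.real, ← ENNReal.toReal_ofReal hε]
    exact ENNReal.toReal_mono ENNReal.ofReal_ne_top h
  have h1 : ∀ x : SimpleGraph (Fin n) × (Fin n → ℝ), Φ x.1 x.2 ≤ a + S.indicator (fun _ => B) x := by
    intro x
    by_cases hx : x ∈ S
    · rw [Set.indicator_of_mem hx]
      have := (le_abs_self _).trans (hΦ.bdd x.1 x.2)
      linarith
    · rw [Set.indicator_of_notMem hx, add_zero]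
      simpa [hS] using hx
  have h2 : Integrable (S.indicator (fun _ => B)) (law n d) :=
    (integrable_const B).indicator hSm
  calc ∫ x, Φ x.1 x.2 ∂(law n d) ≤ ∫ x, (a + S.indicator (fun _ => B) x) ∂(law n d) :=
        integral_mono (hΦ.integrable_law hne) ((integrable_const a).add h2) h1
    _ = a + B * (law n d).real S := by
        rw [integral_add (integrable_const a) h2, integral_indicator_const _ hSm]
        simp [mul_comm]
    _ ≤ a + B * ε := by
        have := hΦ.nonneg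
        gcongr

/-- comparison of two expectations of bounded functions which are close with high probability -/
lemma abs_EGo_sub_le_of_whp {ε a : ℝ} (hε : 0 ≤ ε) (ha : 0 ≤ a) (hΦ : Good n B Φ)
    (hΨ : Good n B' Ψ) (hne : (regularGraphs n d).Nonempty)
    (h : Whp n d ε fun G ω => |Φ G ω - Ψ G ω| ≤ a) :
    |EGo n d Φ - EGo n d Ψ| ≤ a + (B + B') * ε := by
  rw [← EGo_sub hΦ hΨ]
  have hg := hΦ.sub hΨ
  have hng : Good n (B + B') fun G ω => -(Φ G ω - Ψ G ω) :=
    ⟨fun G => (hg.meas G).neg, fun G ω => by rw [abs_neg]; exact hg.bdd G ω⟩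
  rw [abs_le']
  constructor
  · refine EGo_le_of_whp hε ha hg hne ?_
    refine le_trans (measure_mono fun x hx => ?_) h
    simp only [Set.mem_ofPred_eq, not_le] at hx ⊢
    exact lt_of_lt_of_le hx (le_abs_self _)
  · have h1 : -EGo n d (fun G ω => Φ G ω - Ψ G ω) = EGo n d (fun G ω => -(Φ G ω - Ψ G ω)) := by
      have := EGo_const_mul (n := n) (d := d) (Φ := fun G ω => Φ G ω - Ψ G ω) (-1)
      simp only [neg_mul, one_mul] at this
      exact this.symm
    rw [h1]
    refine EGo_le_of_whp hε ha hng hne ?_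
    refine le_trans (measure_mono fun x hx => ?_) h
    simp only [Set.mem_ofPred_eq, not_le] at hx ⊢
    exact lt_of_lt_of_le hx (neg_le_abs _)

/-! ### The packages for the functionals of section 50 -/

lemma good_TestVal (s E ρ K δ : ℝ) {m : ℕ} {f : Matrix (Fin m) (Fin m) ℂ → ℝ}
    (hf : Continuous f) {B : ℝ} (hB : 0 ≤ B)
    (hfB : ∀ U : Matrix (Fin m) (Fin m) ℂ, (∀ i j, ‖U i j‖ ≤ 1) → |f U| ≤ B) :
    Good n B fun G ω => TestVal (Hm G s ω) E ρ K δ m f :=
  ⟨fun G => measurable_TestVal (MM_Hm G s) E ρ K δ hf,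
    fun G ω => abs_TestVal_le (Hm_transpose G s ω) E ρ K δ hB hfB⟩

lemma good_PV (s E ρ K δ η : ℝ) {m : ℕ} {Za Zb : M2} (hZa : Za.transpose = Za)
    (hZb : Zb.transpose = Zb) (Ta Tb : Matrix (Fin 2) (Fin 2) ℝ)
    {χ : M2 → M2 → ℝ} (hχ : Continuous fun b : M2 × M2 => χ b.1 b.2)
    (hχ1 : ∀ b1 b2, |χ b1 b2| ≤ 1) {f : Matrix (Idx m) (Idx m) ℂ → ℝ}
    (hf : Continuous f) {B : ℝ} (hB : 0 ≤ B)
    (hfB : ∀ U : Matrix (Idx m) (Idx m) ℂ, (∀ i j, ‖U i j‖ ≤ 1) → |f U| ≤ B) :
    Good n B fun G ω => PV G (Hm G s ω) E ρ K δ η Za Zb Ta Tb χ f :=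
  ⟨fun G => measurable_PV G (MM_Hm G s) E ρ K δ η Za Zb Ta Tb hχ hf,
    fun G ω => abs_PV_le G (Hm_transpose G s ω) E ρ K δ η hZa hZb Ta Tb hχ1 hB hfB⟩

lemma good_cAvg (s E η : ℝ) {χ : M2 → M2 → ℝ} (hχ : Continuous fun b : M2 × M2 => χ b.1 b.2)
    (hχ1 : ∀ b1 b2, |χ b1 b2| ≤ 1) :
    Good n 1 fun G ω => cAvg G (Hm G s ω) E η χ :=
  ⟨fun G => measurable_cAvg G (MM_Hm G s) E η hχ,
    fun G _ => abs_eAvg2_le G zero_le_one fun _ _ => hχ1 _ _⟩




end expect

/-! ### GOE side -/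

section goeside

variable {n m : ℕ}




/-- package for bounded measurable functions of the GOE disorder -/
structure GoodO (n : ℕ) (B : ℝ) (Φ : GOEDisorder n → ℝ) : Prop where
  meas : Measurable Φ
  bdd : ∀ g, |Φ g| ≤ B

variable {B B' : ℝ} {Φ Ψ : GOEDisorder n → ℝ}


lemma GoodO.integrable (h : GoodO n B Φ) : Integrable Φ (goeDisorderLaw n) :=
  Integrable.of_bound h.meas.aestronglyMeasurable B
    (Filter.Eventually.of_forall fun ω => by simpa [Real.norm_eq_abs] using h.bdd ω)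

lemma GoodO.sub (h : GoodO n B Φ) (h' : GoodO n B' Ψ) : GoodO n (B + B') fun g => Φ g - Ψ g :=
  ⟨h.meas.sub h'.meas, fun g => (abs_sub _ _).trans (add_le_add (h.bdd g) (h'.bdd g))⟩




end goeside

end Crest.Agent.R166.MeasC780
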