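import Crest.Agent.R166.CayDet_93
import Crest.Agent.R166.GaussPi_93

-- ▼ part R166/Schur_93
section

/-!
# R166 / Schur_93 (helper93)

The exact Schur complement relation: removing one coordinate acts on the Cayley transform of the
test array by `κ = diag(-i,1,..,1)`.
-/

set_option autoImplicit false

open Matrix
open scoped BigOperators

namespace Crest.Agent.R166.Schur93

open Crest.Agent.R166 Crest.Agent.R166.CayDet93

section rel
variable {m : ℕ}

/-- indicator of the slot `0` -/
noncomputable def e0 : Fin (m + 1) → ℝ := Fin.cons 1 (fun _ => 0)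
/-- indicator of the slots `≥ 1` -/
noncomputable def p0 : Fin (m + 1) → ℝ := Fin.cons 0 (fun _ => 1)
/-- the diagonal of `κ` -/
noncomputable def kd : Fin (m + 1) → ℂ := Fin.cons (-Complex.I) (fun _ => 1)
/-- `κ = diag(-i,1,…,1)` -/
noncomputable def kap (m : ℕ) : Matrix (Fin (m + 1)) (Fin (m + 1)) ℂ := diagonal kd
/-- `κ⁻¹ = diag(i,1,…,1)` -/
noncomputable def kd' : Fin (m + 1) → ℂ := Fin.cons Complex.I (fun _ => 1)
noncomputable def kap' (m : ℕ) : Matrix (Fin (m + 1)) (Fin (m + 1)) ℂ := diagonal kd'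

lemma kap_mul_kap' : kap m * kap' m = 1 := by
  rw [kap, kap', diagonal_mul_diagonal, ← diagonal_one]
  congr 1
  ext i
  refine Fin.cases ?_ (fun j => ?_) i <;> simp [kd, kd']

lemma kap'_mul_kap : kap' m * kap m = 1 := mul_eq_one_comm.mp kap_mul_kap'

lemma kap_transpose : (kap m)ᵀ = kap m := by simp [kap]

lemma kap_mem : kap m ∈ Matrix.unitaryGroup (Fin (m + 1)) ℂ := by
  rw [Matrix.mem_unitaryGroup_iff]
  have : star (kap m) = kap' m := by
    rw [Matrix.star_eq_conjTranspose, kap, diagonal_conjTranspose, kap']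
    congr 1
    ext i
    refine Fin.cases ?_ (fun j => ?_) i <;> simp [kd, kd']
  rw [this, kap_mul_kap']

/-- The partial Möbius relation gives conjugation by `κ` after the Cayley transform. -/
theorem Cay_of_rel (T N : Matrix (Fin (m + 1)) (Fin (m + 1)) ℝ) (hN : Nᵀ = N)
    (hrel : T * (diagonal e0 * N + diagonal p0) = diagonal p0 * N - diagonal e0) :
    Cay T = kap m * Cay N * kap m := by
  have hrelc : cx T * (cx (diagonal e0) * cx N + cx (diagonal p0))
      = cx (diagonal p0) * cx N - cx (diagonal e0) := by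
    rw [← cx_mul, ← cx_add, ← cx_mul, hrel, cx_sub, cx_mul]
  set E := cx (diagonal (e0 (m := m))) with hE
  set P := cx (diagonal (p0 (m := m))) with hP
  set B := E * cx N + P with hB
  have hEP : kap m = P - Complex.I • E := by
    ext i j
    simp only [kap, hE, hP, cx, Matrix.sub_apply, Matrix.smul_apply, Matrix.map_apply,
      diagonal_apply]
    by_cases h : i = j
    · subst h
      simp only [if_true]
      refine Fin.cases ?_ (fun j => ?_) i <;> simp [kd, e0, p0]
    · simp [h]
  have hEP' : kap' m = P + Complex.I • E := by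
    ext i j
    simp only [kap', hE, hP, cx, Matrix.add_apply, Matrix.smul_apply, Matrix.map_apply,
      diagonal_apply]
    by_cases h : i = j
    · subst h
      simp only [if_true]
      refine Fin.cases ?_ (fun j => ?_) i <;> simp [kd', e0, p0]
    · simp [h]
  have hI : Complex.I • (Complex.I • E) = -E := by
    rw [smul_smul, Complex.I_mul_I, neg_one_smul]
  have h1 : (cx T + Complex.I • (1 : Matrix (Fin (m+1)) (Fin (m+1)) ℂ)) * B
      = kap' m * (cx N + Complex.I • (1 : Matrix (Fin (m+1)) (Fin (m+1)) ℂ)) := by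
    rw [Matrix.add_mul, hrelc, hEP', hB]
    simp only [Matrix.add_mul, Matrix.mul_add, Matrix.smul_mul, Matrix.one_mul, Matrix.mul_smul,
      Matrix.mul_one, hI, smul_add]
    abel
  have h2 : (cx T - Complex.I • (1 : Matrix (Fin (m+1)) (Fin (m+1)) ℂ)) * B
      = kap m * (cx N - Complex.I • (1 : Matrix (Fin (m+1)) (Fin (m+1)) ℂ)) := by
    rw [Matrix.sub_mul, hrelc, hEP, hB]
    simp only [Matrix.sub_mul, Matrix.mul_sub, Matrix.smul_mul, Matrix.one_mul, Matrix.mul_smul,
      Matrix.mul_one, hI, smul_add, smul_sub]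
    abel
  -- inverse of T + i
  have h3 : Yi T = B * Yi N * kap m := by
    have h4 : (cx T + Complex.I • (1 : Matrix (Fin (m+1)) (Fin (m+1)) ℂ)) * (B * Yi N * kap m) = 1 := by
      rw [Matrix.mul_assoc B, ← Matrix.mul_assoc, h1, Matrix.mul_assoc (kap' m),
        ← Matrix.mul_assoc (cx N + _), mul_Yi N hN, Matrix.one_mul, kap'_mul_kap]
    exact Matrix.inv_eq_right_inv h4
  rw [Cay_eq, h3, ← Matrix.mul_assoc, ← Matrix.mul_assoc, h2, Cay_eq]
  simp only [Matrix.mul_assoc]

end rel

section schur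

/-- the array of a matrix `A` (to be inverted) and directions `G`. -/
noncomputable def arr {n m : ℕ} (A : Matrix (Fin n) (Fin n) ℝ) (G : Fin n → Fin m → ℝ) :
    Matrix (Fin m) (Fin m) ℝ := (Matrix.of G)ᵀ * A⁻¹ * Matrix.of G

lemma arr_transpose {n m : ℕ} (A : Matrix (Fin n) (Fin n) ℝ) (hA : Aᵀ = A)
    (G : Fin n → Fin m → ℝ) : (arr A G)ᵀ = arr A G := by
  rw [arr, Matrix.transpose_mul, Matrix.transpose_mul, Matrix.transpose_transpose,
    Matrix.transpose_nonsing_inv, hA, Matrix.mul_assoc]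

lemma arr_mul {n m : ℕ} (A : Matrix (Fin n) (Fin n) ℝ) (G : Fin n → Fin m → ℝ)
    (S : Matrix (Fin m) (Fin m) ℝ) :
    arr A (fun i j => (Matrix.of G * S) i j) = Sᵀ * arr A G * S := by
  have h : (Matrix.of fun i j => (Matrix.of G * S) i j) = Matrix.of G * S := rfl
  rw [arr, h, arr, Matrix.transpose_mul]
  simp only [Matrix.mul_assoc]

lemma arr_left {n m : ℕ} (A O : Matrix (Fin n) (Fin n) ℝ) (hO : O * Oᵀ = 1)
    (G : Fin n → Fin m → ℝ) :
    arr (O * A * Oᵀ) (fun i j => (O * Matrix.of G) i j) = arr A G := by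
  have hO' : Oᵀ * O = 1 := mul_eq_one_comm.mp hO
  have h : (Matrix.of fun i j => (O * Matrix.of G) i j) = O * Matrix.of G := rfl
  have hinv : O⁻¹ = Oᵀ := Matrix.inv_eq_right_inv hO
  have hinv' : (Oᵀ)⁻¹ = O := Matrix.inv_eq_right_inv hO'
  rw [arr, h, arr, Matrix.transpose_mul, Matrix.mul_inv_rev, Matrix.mul_inv_rev, hinv, hinv']
  calc (Matrix.of G)ᵀ * Oᵀ * (O * (A⁻¹ * Oᵀ)) * (O * Matrix.of G)
      = (Matrix.of G)ᵀ * (Oᵀ * O) * A⁻¹ * (Oᵀ * O) * Matrix.of G := by
        simp only [Matrix.mul_assoc]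
    _ = _ := by rw [hO', Matrix.mul_one, Matrix.mul_one]

variable {n m : ℕ}

/-- reduced direction matrix: first column `ω`, other columns `ξ`. -/
def Gred (ω : Fin n → ℝ) (ξ : Fin n → Fin m → ℝ) : Fin n → Fin (m + 1) → ℝ :=
  fun j => Fin.cons (ω j) (ξ j)

/-- extended direction matrix: first column `s0 e_0`, other columns supported on `≥ 1`. -/
def Gext (s0 : ℝ) (ξ : Fin n → Fin m → ℝ) : Fin (n + 1) → Fin (m + 1) → ℝ :=
  Fin.cons (Fin.cons s0 fun _ => 0) (fun j => Fin.cons 0 (ξ j))

/-- **Schur complement relation** in Cayley form. -/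
theorem Cay_arr_Gext (A : Matrix (Fin (n + 1)) (Fin (n + 1)) ℝ) (hA : Aᵀ = A)
    (hdet : IsUnit A.det) (hdet' : IsUnit (A.submatrix Fin.succ Fin.succ).det)
    (s0 : ℝ) (hs0 : s0 ≠ 0) (ω : Fin n → ℝ) (hω : ∀ j, A 0 j.succ = s0 * ω j)
    (ξ : Fin n → Fin m → ℝ) :
    Cay (arr A (Gext s0 ξ)) = kap m *
      Cay (arr (A.submatrix Fin.succ Fin.succ) (Gred ω ξ) - (A 0 0 / s0 ^ 2) • diagonal e0)
      * kap m := by
  set D := A.submatrix Fin.succ Fin.succ with hD
  have hDt : Dᵀ = D := by
    rw [hD, Matrix.transpose_submatrix, hA]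
  have hAsymm : ∀ i j, A i j = A j i := fun i j => by
    conv_lhs => rw [← hA]
    rfl
  set M := arr D (Gred ω ξ) with hM
  have hMt : Mᵀ = M := arr_transpose D hDt _
  set N := M - (A 0 0 / s0 ^ 2) • diagonal (e0 (m := m)) with hN
  have hNt : Nᵀ = N := by
    rw [hN, Matrix.transpose_sub, hMt, Matrix.transpose_smul, diagonal_transpose]
  refine Cay_of_rel _ _ hNt ?_
  -- the solution matrix
  set Y : Matrix (Fin n) (Fin (m + 1)) ℝ := D⁻¹ * Matrix.of (Gred ω ξ) with hY
  have hDY : D * Y = Matrix.of (Gred ω ξ) := by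
    rw [hY, ← Matrix.mul_assoc, Matrix.mul_nonsing_inv _ hdet', Matrix.one_mul]
  have hMY : M = (Matrix.of (Gred ω ξ))ᵀ * Y := by rw [hM, arr, hY, Matrix.mul_assoc]
  set Z : Matrix (Fin (n + 1)) (Fin (m + 1)) ℝ :=
    Matrix.of (Fin.cons (fun k => -(1 / s0) * e0 k) (fun j k => Y j k)) with hZ
  have hAZ : A * Z = Matrix.of (Gext s0 ξ) * (diagonal e0 * N + diagonal p0) := by
    ext i k
    rw [Matrix.mul_apply, Matrix.mul_apply, Fin.sum_univ_succ, Fin.sum_univ_succ]
    refine Fin.cases ?_ (fun j => ?_) i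
    · -- row 0
      have h1 : ∑ l : Fin n, A 0 l.succ * Z l.succ k = s0 * M 0 k := by
        rw [hMY, Matrix.mul_apply, Finset.mul_sum]
        refine Finset.sum_congr rfl fun l _ => ?_
        rw [hω l, Matrix.transpose_apply, Matrix.of_apply]
        simp only [Gred, Fin.cons_zero, hZ, Matrix.of_apply, Fin.cons_succ]
        ring
      have h2 : Z 0 k = -(1 / s0) * e0 k := by simp [hZ]
      have h3 : ∑ l : Fin m, (Matrix.of (Gext s0 ξ)) (0 : Fin (n+1)) l.succ *
          (diagonal (e0 (m := m)) * N + diagonal (p0 (m := m))) l.succ k = 0 := by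
        refine Finset.sum_eq_zero fun l _ => ?_
        simp [Gext]
      have h4 : (Matrix.of (Gext s0 ξ)) (0 : Fin (n+1)) 0 = s0 := by simp [Gext]
      have h5 : (diagonal (e0 (m := m)) * N + diagonal (p0 (m := m))) 0 k = N 0 k := by
        rw [Matrix.add_apply, Matrix.diagonal_mul]
        refine Fin.cases ?_ (fun k' => ?_) k
        · simp [e0, p0]
        · simp [e0, p0, diagonal_apply]
      have h6 : N 0 k = M 0 k - (A 0 0 / s0 ^ 2) * e0 k := by
        rw [hN, Matrix.sub_apply, Matrix.smul_apply, smul_eq_mul, diagonal_apply]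
        refine Fin.cases ?_ (fun k' => ?_) k
        · simp
        · simp [e0]
          intro h; exact absurd h (Fin.succ_ne_zero k').symm
      rw [h1, h2, h3, h4, h5, h6]
      field_simp
      ring
    · -- rows ≥ 1
      have h1 : ∑ l : Fin n, A j.succ l.succ * Z l.succ k = Gred ω ξ j k := by
        have := congrFun (congrFun hDY j) k
        rw [Matrix.mul_apply] at this
        simp only [Matrix.of_apply] at this
        rw [← this]
        refine Finset.sum_congr rfl fun l _ => ?_
        simp [hZ, hD]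
      have h2 : Z 0 k = -(1 / s0) * e0 k := by simp [hZ]
      have h3 : (Matrix.of (Gext s0 ξ)) j.succ 0 = 0 := by simp [Gext]
      have h4 : ∑ l : Fin m, (Matrix.of (Gext s0 ξ)) j.succ l.succ *
          (diagonal (e0 (m := m)) * N + diagonal (p0 (m := m))) l.succ k = ∑ l : Fin m, ξ j l * (diagonal (p0 (m := m))) l.succ k := by
        refine Finset.sum_congr rfl fun l _ => ?_
        rw [Matrix.add_apply, Matrix.diagonal_mul]
        simp [Gext, e0]
      rw [h1, h2, h3, h4, hAsymm j.succ 0, hω j]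
      refine Fin.cases ?_ (fun k' => ?_) k
      · have : ∑ l : Fin m, ξ j l * (diagonal (p0 (m := m))) l.succ 0 = 0 :=
          Finset.sum_eq_zero fun l _ => by
            rw [diagonal_apply_ne _ (Fin.succ_ne_zero l)]; ring
        rw [this]
        simp only [Gred, Fin.cons_zero, e0]
        field_simp
        ring
      · have : ∑ l : Fin m, ξ j l * (diagonal (p0 (m := m))) l.succ k'.succ = ξ j k' := by
          rw [Finset.sum_eq_single k']
          · rw [diagonal_apply_eq]; simp [p0]
          · intro l _ hl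
            rw [diagonal_apply_ne _ (fun h => hl (Fin.succ_injective _ h))]; ring
          · simp
        rw [this]
        simp [Gred, e0]
  have hGZ : (Matrix.of (Gext s0 ξ))ᵀ * Z = diagonal p0 * N - diagonal e0 := by
    ext a k
    rw [Matrix.mul_apply, Fin.sum_univ_succ, Matrix.sub_apply, Matrix.diagonal_mul]
    refine Fin.cases ?_ (fun a' => ?_) a
    · have h1 : ∑ l : Fin n, (Matrix.of (Gext s0 ξ))ᵀ 0 l.succ * Z l.succ k = 0 :=
        Finset.sum_eq_zero fun l _ => by simp [Gext]
      rw [h1]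
      refine Fin.cases ?_ (fun k' => ?_) k
      · simp [Gext, hZ, e0, p0, hs0]
      · rw [diagonal_apply_ne _ (Fin.succ_ne_zero k').symm]
        simp [Gext, hZ, e0, p0]
    · have h1 : ∑ l : Fin n, (Matrix.of (Gext s0 ξ))ᵀ a'.succ l.succ * Z l.succ k
          = M a'.succ k := by
        rw [hMY, Matrix.mul_apply]
        refine Finset.sum_congr rfl fun l _ => ?_
        simp [Gext, Gred, hZ]
      rw [h1]
      have h2 : (diagonal (e0 (m := m))) a'.succ k = 0 := by
        by_cases h : a'.succ = k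
        · rw [← h, diagonal_apply_eq]; simp [e0]
        · rw [diagonal_apply_ne _ h]
      rw [hN, Matrix.sub_apply, Matrix.smul_apply, h2]
      simp [Gext, p0]
  rw [arr, Matrix.mul_assoc, ← hAZ, Matrix.mul_assoc, ← Matrix.mul_assoc A⁻¹,
    Matrix.nonsing_inv_mul _ hdet, Matrix.one_mul, hGZ]

end schur

end Crest.Agent.R166.Schur93
end

-- ▼ part R166/GoeRot_93
section

/-!
# R166 / GoeRot_93 (helper93)

Orthogonal invariance of the GOE disorder: an explicit measure preserving linear map `theta O` of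
the disorder with `goeMatrix (theta O g) = O * goeMatrix g * Oᵀ`; left/right rotations of iid
Gaussian arrays.
-/

set_option autoImplicit false

open MeasureTheory ProbabilityTheory Matrix WithLp
open scoped BigOperators RealInnerProductSpace
open Crest.ProbabilityR.RandomMatrix

namespace Crest.Agent.R166.GoeRot93

open Crest.Agent.R166.GaussPi93

section rot
variable {I J : Type*} [Fintype I] [Fintype J]

lemma sum_sq_eq_trace (M : Matrix I J ℝ) : ∑ i, ∑ j, (M i j) ^ 2 = Matrix.trace (Mᵀ * M) := by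
  simp only [Matrix.trace, Matrix.diag_apply, Matrix.mul_apply, Matrix.transpose_apply]
  rw [Finset.sum_comm]
  exact Finset.sum_congr rfl fun j _ => Finset.sum_congr rfl fun i _ => by ring

/-- Left rotation of an iid Gaussian array. -/
theorem mp_left [DecidableEq I] (O : Matrix I I ℝ) (hO : Oᵀ * O = 1) :
    MeasurePreserving (fun (G : I → J → ℝ) (i : I) (j : J) => (O * (Matrix.of G)) i j)
      (gm I J) (gm I J) := by
  let T : (I → J → ℝ) →ₗ[ℝ] (I → J → ℝ) :=
    { toFun := fun G i j => (O * (Matrix.of G)) i j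
      map_add' := fun x y => by
        ext i j
        change (O * (Matrix.of x + Matrix.of y)) i j = _
        rw [Matrix.mul_add]; rfl
      map_smul' := fun c x => by
        ext i j
        change (O * (c • Matrix.of x)) i j = _
        rw [Matrix.mul_smul]; rfl }
  refine mp_isometry₂ T ?_
  intro x
  have h1 := sum_sq_eq_trace (O * (Matrix.of x) : Matrix I J ℝ)
  have h2 := sum_sq_eq_trace (Matrix.of x : Matrix I J ℝ)
  have h3 : (O * (Matrix.of x))ᵀ * (O * (Matrix.of x)) = (Matrix.of x)ᵀ * Matrix.of x := by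
    rw [Matrix.transpose_mul, Matrix.mul_assoc, ← Matrix.mul_assoc Oᵀ, hO, Matrix.one_mul]
  rw [h3, ← h2] at h1
  exact h1

/-- Right rotation of an iid Gaussian array. -/
theorem mp_right [DecidableEq J] (O : Matrix J J ℝ) (hO : O * Oᵀ = 1) :
    MeasurePreserving (fun (G : I → J → ℝ) (i : I) (j : J) => ((Matrix.of G) * O) i j)
      (gm I J) (gm I J) := by
  let T : (I → J → ℝ) →ₗ[ℝ] (I → J → ℝ) :=
    { toFun := fun G i j => ((Matrix.of G) * O) i j
      map_add' := fun x y => by
        ext i j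
        change ((Matrix.of x + Matrix.of y) * O) i j = _
        rw [Matrix.add_mul]; rfl
      map_smul' := fun c x => by
        ext i j
        change ((c • Matrix.of x) * O) i j = _
        rw [Matrix.smul_mul]; rfl }
  refine mp_isometry₂ T ?_
  intro x
  have h1 := sum_sq_eq_trace (((Matrix.of x) * O : Matrix I J ℝ))ᵀ
  have h2 := sum_sq_eq_trace ((Matrix.of x : Matrix I J ℝ))ᵀ
  have h3 : ((((Matrix.of x) * O : Matrix I J ℝ))ᵀ)ᵀ * (((Matrix.of x) * O : Matrix I J ℝ))ᵀ
      = ((Matrix.of x : Matrix I J ℝ)ᵀ)ᵀ * (Matrix.of x : Matrix I J ℝ)ᵀ := by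
    rw [Matrix.transpose_transpose, Matrix.transpose_transpose, Matrix.transpose_mul,
      Matrix.mul_assoc, ← Matrix.mul_assoc O, hO, Matrix.one_mul]
  rw [h3, ← h2] at h1
  simp only [Matrix.transpose_apply] at h1
  rw [Finset.sum_comm, Finset.sum_comm (f := fun x_1 x_2 => Matrix.of x x_2 x_1 ^ 2)] at h1
  exact h1

end rot

section goe
variable {N : ℕ}

/-- The orthogonal involution mixing the `(i,j)` and `(j,i)` coordinates. -/
noncomputable def rho : (Fin N → Fin N → ℝ) →ₗ[ℝ] (Fin N → Fin N → ℝ) where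
  toFun A := fun i j => if i = j then A i i else
    if i < j then (A i j + A j i) / Real.sqrt 2 else (A j i - A i j) / Real.sqrt 2
  map_add' A B := by
    ext i j
    simp only [Pi.add_apply]
    split_ifs <;> ring
  map_smul' c A := by
    ext i j
    simp only [Pi.smul_apply, smul_eq_mul, RingHom.id_apply]
    split_ifs <;> ring

lemma rho_apply (A : Fin N → Fin N → ℝ) (i j : Fin N) : rho A i j = if i = j then A i i else
    if i < j then (A i j + A j i) / Real.sqrt 2 else (A j i - A i j) / Real.sqrt 2 := rfl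

lemma sqrt2_ne : Real.sqrt 2 ≠ 0 := by positivity

lemma rho_rho (A : Fin N → Fin N → ℝ) : rho (rho A) = A := by
  have h2' : Real.sqrt 2 ^ 2 = 2 := Real.sq_sqrt (by norm_num)
  have hne := sqrt2_ne
  ext i j
  rcases lt_trichotomy i j with h | h | h
  · have h1 : i ≠ j := ne_of_lt h
    have h3 : ¬ j < i := not_lt.2 h.le
    simp only [rho_apply, h1, h1.symm, h, h3, if_true, if_false]
    field_simp
    rw [h2']; ring
  · subst h; simp [rho_apply]
  · have h1 : i ≠ j := ne_of_gt h
    have h3 : ¬ i < j := not_lt.2 h.le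
    simp only [rho_apply, h1, h1.symm, h, h3, if_true, if_false]
    field_simp
    rw [h2']; ring

lemma rho_sq_pair (A : Fin N → Fin N → ℝ) (i j : Fin N) :
    (rho A i j) ^ 2 + (rho A j i) ^ 2 = (A i j) ^ 2 + (A j i) ^ 2 := by
  have h2 : Real.sqrt 2 ^ 2 = 2 := Real.sq_sqrt (by norm_num)
  rcases lt_trichotomy i j with h | h | h
  · have h1 : i ≠ j := ne_of_lt h
    have h3 : ¬ j < i := not_lt.2 h.le
    simp only [rho_apply, h1, h1.symm, h, h3, if_true, if_false, div_pow, h2]
    ring
  · subst h; simp [rho_apply]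
  · have h1 : i ≠ j := ne_of_gt h
    have h3 : ¬ i < j := not_lt.2 h.le
    simp only [rho_apply, h1, h1.symm, h, h3, if_true, if_false, div_pow, h2]
    ring

lemma rho_isom (A : Fin N → Fin N → ℝ) : ∑ i, ∑ j, (rho A i j) ^ 2 = ∑ i, ∑ j, (A i j) ^ 2 := by
  have h1 : ∑ i, ∑ j, ((rho A i j) ^ 2 + (rho A j i) ^ 2)
      = ∑ i, ∑ j, ((A i j) ^ 2 + (A j i) ^ 2) :=
    Finset.sum_congr rfl fun i _ => Finset.sum_congr rfl fun j _ => rho_sq_pair A i j
  simp only [Finset.sum_add_distrib] at h1
  rw [Finset.sum_comm (f := fun i j => (rho A j i) ^ 2),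
    Finset.sum_comm (f := fun i j => (A j i) ^ 2)] at h1
  linarith

lemma goeMatrix_rho (A : Fin N → Fin N → ℝ) :
    goeMatrix (rho A) = (Real.sqrt (2 * N))⁻¹ • (Matrix.of A + (Matrix.of A)ᵀ) := by
  have h2 : Real.sqrt 2 * Real.sqrt 2 = 2 := Real.mul_self_sqrt (by norm_num)
  have hs : Real.sqrt (2 * (N:ℝ)) = Real.sqrt 2 * Real.sqrt N := Real.sqrt_mul (by norm_num) _
  ext i j
  simp only [goeMatrix, Matrix.smul_apply, Matrix.add_apply, Matrix.of_apply,
    Matrix.transpose_apply, smul_eq_mul, hs, mul_inv]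
  rcases lt_trichotomy i j with h | h | h
  · have h1 : i ≠ j := ne_of_lt h
    simp only [rho_apply, h1, h, if_true, if_false, div_eq_mul_inv]
    ring
  · subst h
    simp only [rho_apply, if_true, div_eq_mul_inv]
    have : (Real.sqrt 2)⁻¹ * 2 = Real.sqrt 2 := by
      field_simp; nlinarith [h2]
    calc Real.sqrt 2 * A i i * (Real.sqrt (N:ℝ))⁻¹
        = ((Real.sqrt 2)⁻¹ * 2) * A i i * (Real.sqrt (N:ℝ))⁻¹ := by rw [this]
      _ = _ := by ring
  · have h1 : i ≠ j := ne_of_gt h
    have h3 : ¬ i < j := not_lt.2 h.le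
    simp only [rho_apply, h1, h1.symm, h, h3, if_true, if_false, div_eq_mul_inv]
    ring

/-- Conjugation by `O` as a linear map. -/
noncomputable def conjL (O : Matrix (Fin N) (Fin N) ℝ) :
    (Fin N → Fin N → ℝ) →ₗ[ℝ] (Fin N → Fin N → ℝ) where
  toFun A := (O * (Matrix.of A) * Oᵀ : Matrix (Fin N) (Fin N) ℝ)
  map_add' x y := by
    change O * (Matrix.of x + Matrix.of y) * Oᵀ = _
    rw [Matrix.mul_add, Matrix.add_mul]; rfl
  map_smul' c x := by
    change O * (c • Matrix.of x) * Oᵀ = _
    rw [Matrix.mul_smul, Matrix.smul_mul]; rfl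

lemma conjL_isom (O : Matrix (Fin N) (Fin N) ℝ) (hO : Oᵀ * O = 1) (x : Fin N → Fin N → ℝ) :
    ∑ i, ∑ j, (conjL O x i j) ^ 2 = ∑ i, ∑ j, (x i j) ^ 2 := by
  have h1 := sum_sq_eq_trace (O * (Matrix.of x) * Oᵀ : Matrix (Fin N) (Fin N) ℝ)
  have h2 := sum_sq_eq_trace (Matrix.of x : Matrix (Fin N) (Fin N) ℝ)
  have h3 : (O * (Matrix.of x) * Oᵀ)ᵀ * (O * (Matrix.of x) * Oᵀ)
      = O * ((Matrix.of x)ᵀ * Matrix.of x) * Oᵀ := by
    rw [Matrix.transpose_mul, Matrix.transpose_mul, Matrix.transpose_transpose]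
    calc O * ((Matrix.of x)ᵀ * Oᵀ) * (O * Matrix.of x * Oᵀ)
        = O * (Matrix.of x)ᵀ * (Oᵀ * O) * Matrix.of x * Oᵀ := by
          simp only [Matrix.mul_assoc]
      _ = _ := by rw [hO, Matrix.mul_one]; simp only [Matrix.mul_assoc]
  rw [h3, Matrix.trace_mul_comm, ← Matrix.mul_assoc, hO, Matrix.one_mul, ← h2] at h1
  exact h1

/-- The disorder map realising conjugation by `O`. -/
noncomputable def theta (O : Matrix (Fin N) (Fin N) ℝ) :
    (Fin N → Fin N → ℝ) →ₗ[ℝ] (Fin N → Fin N → ℝ) := rho ∘ₗ conjL O ∘ₗ rho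

theorem theta_mp (O : Matrix (Fin N) (Fin N) ℝ) (hO : Oᵀ * O = 1) :
    MeasurePreserving (fun g => theta O g) (goeDisorderLaw N) (goeDisorderLaw N) := by
  refine mp_isometry₂ (theta O) ?_
  intro x
  simp only [theta, LinearMap.comp_apply]
  rw [rho_isom, conjL_isom O hO, rho_isom]

theorem goeMatrix_theta (O : Matrix (Fin N) (Fin N) ℝ) (g : GOEDisorder N) :
    goeMatrix (theta O g) = O * goeMatrix g * Oᵀ := by
  have h1 : goeMatrix (theta O g)
      = (Real.sqrt (2 * N))⁻¹ • (Matrix.of (conjL O (rho g)) + (Matrix.of (conjL O (rho g)))ᵀ) := by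
    simp only [theta, LinearMap.comp_apply]
    exact goeMatrix_rho _
  have h2 : goeMatrix g = (Real.sqrt (2 * N))⁻¹ • (Matrix.of (rho g) + (Matrix.of (rho g))ᵀ) := by
    conv_lhs => rw [← rho_rho g]
    exact goeMatrix_rho _
  rw [h1, h2]
  have h3 : (Matrix.of (conjL O (rho g)) : Matrix (Fin N) (Fin N) ℝ)
      = O * (Matrix.of (rho g)) * Oᵀ := rfl
  rw [h3, Matrix.mul_smul, Matrix.smul_mul, Matrix.mul_add, Matrix.add_mul]
  congr 2
  rw [Matrix.transpose_mul, Matrix.transpose_mul, Matrix.transpose_transpose, Matrix.mul_assoc]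

end goe

end Crest.Agent.R166.GoeRot93
end

-- ▼ part R166/MeasMat_93

/-!
# R166 / MeasMat_93 (helper93)

Measurability of matrix valued functions (entrywise), in particular of inverses and of the Cayley
transform; uniform continuity of continuous functions on the set of matrices with entries of
modulus `≤ 1`.
-/

set_option autoImplicit false
set_option linter.unusedSectionVars false

open Matrix MeasureTheory
open scoped BigOperators

namespace Crest.Agent.R166.MeasMat93

open Crest.Agent.R166 Crest.Agent.R166.CayDet93 Crest.Agent.R166.Schur93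
open Crest.ProbabilityR.RandomMatrix

/-- entrywise measurability -/
def MM {Ω : Type*} [MeasurableSpace Ω] {n k : Type*} {R : Type*} [MeasurableSpace R]
    (A : Ω → Matrix n k R) : Prop := ∀ i j, Measurable fun p => A p i j

section tools
variable {Ω : Type*} [MeasurableSpace Ω]

lemma MM.const {n k R : Type*} [MeasurableSpace R] (A : Matrix n k R) :
    MM (fun _ : Ω => A) := fun _ _ => measurable_const

lemma MM.transpose {n k R : Type*} [MeasurableSpace R] {A : Ω → Matrix n k R} (hA : MM A) :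
    MM (fun p => (A p)ᵀ) := fun i j => hA j i

section ring
variable {R : Type*} [MeasurableSpace R] [CommRing R] [MeasurableAdd₂ R] [MeasurableMul₂ R]
  [MeasurableSub₂ R] [MeasurableNeg R]

lemma MM.mul {n k l : Type*} [Fintype k] {A : Ω → Matrix n k R} {B : Ω → Matrix k l R}
    (hA : MM A) (hB : MM B) : MM (fun p => A p * B p) := by
  intro i j
  simp only [Matrix.mul_apply]
  exact Finset.measurable_sum _ fun t _ => (hA i t).mul (hB t j)

lemma MM.add {n k : Type*} {A B : Ω → Matrix n k R}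
    (hA : MM A) (hB : MM B) : MM (fun p => A p + B p) := fun i j => (hA i j).add (hB i j)

lemma MM.sub {n k : Type*} {A B : Ω → Matrix n k R}
    (hA : MM A) (hB : MM B) : MM (fun p => A p - B p) := fun i j => (hA i j).sub (hB i j)

lemma MM.smul {n k : Type*} {a : Ω → R} {A : Ω → Matrix n k R}
    (ha : Measurable a) (hA : MM A) : MM (fun p => a p • A p) := fun i j => ha.mul (hA i j)

lemma MM.det {n : Type*} [Fintype n] [DecidableEq n] {A : Ω → Matrix n n R} (hA : MM A) :
    Measurable fun p => (A p).det := by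
  simp only [Matrix.det_apply]
  refine Finset.measurable_sum _ fun σ _ => ?_
  have h : Measurable fun p => ∏ i, A p (σ i) i := Finset.measurable_prod _ fun i _ => hA _ _
  rcases Int.units_eq_one_or (Equiv.Perm.sign σ) with hs | hs
  · simp only [hs, one_smul]; exact h
  · simp only [hs, Units.neg_smul, one_smul]; exact h.neg

lemma MM.adjugate {n : Type*} [Fintype n] [DecidableEq n] {A : Ω → Matrix n n R} (hA : MM A) :
    MM (fun p => (A p).adjugate) := by
  intro i j
  simp only [Matrix.adjugate_apply]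
  refine MM.det (A := fun p => (A p).updateRow j (Pi.single i 1)) ?_
  intro a b
  by_cases h : a = j
  · subst h
    simp only [Matrix.updateRow_self]
    exact measurable_const
  · simp only [Matrix.updateRow_ne h]
    exact hA a b

end ring

lemma MM.inv_real {n : Type*} [Fintype n] [DecidableEq n] {A : Ω → Matrix n n ℝ} (hA : MM A) :
    MM (fun p => (A p)⁻¹) := by
  intro i j
  simp only [Matrix.inv_def, Matrix.smul_apply, smul_eq_mul, Ring.inverse_eq_inv']
  exact (hA.det.inv).mul (hA.adjugate i j)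

lemma MM.inv_complex {n : Type*} [Fintype n] [DecidableEq n] {A : Ω → Matrix n n ℂ} (hA : MM A) :
    MM (fun p => (A p)⁻¹) := by
  intro i j
  simp only [Matrix.inv_def, Matrix.smul_apply, smul_eq_mul, Ring.inverse_eq_inv']
  exact (hA.det.inv).mul (hA.adjugate i j)

lemma MM.cx {m : ℕ} {A : Ω → Matrix (Fin m) (Fin m) ℝ} (hA : MM A) :
    MM (fun p => cx (A p)) := fun i j => Complex.measurable_ofReal.comp (hA i j)

lemma MM.cay {m : ℕ} {A : Ω → Matrix (Fin m) (Fin m) ℝ} (hA : MM A) :
    MM (fun p => Cay (A p)) := by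
  have h1 : MM (fun p => CayDet93.cx (A p) - Complex.I • (1 : Matrix (Fin m) (Fin m) ℂ)) :=
    hA.cx.sub (MM.const _)
  have h2 : MM (fun p => CayDet93.cx (A p) + Complex.I • (1 : Matrix (Fin m) (Fin m) ℂ)) :=
    hA.cx.add (MM.const _)
  exact h1.mul h2.inv_complex

lemma MM.arr {n m : ℕ} {A : Ω → Matrix (Fin n) (Fin n) ℝ} {G : Ω → Fin n → Fin m → ℝ}
    (hA : MM A) (hG : ∀ i j, Measurable fun p => G p i j) :
    MM (fun p => Schur93.arr (A p) (G p)) := by
  have h : MM (fun p => Matrix.of (G p)) := hG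
  exact ((h.transpose).mul hA.inv_real).mul h

lemma MM.comp_continuous {m : ℕ} {A : Ω → Matrix (Fin m) (Fin m) ℂ} (hA : MM A)
    {f : Matrix (Fin m) (Fin m) ℂ → ℝ} (hf : Continuous f) : Measurable fun p => f (A p) := by
  have h1 : Measurable (fun u : Fin m → Fin m → ℂ => f (Matrix.of u)) := by
    have : Continuous (fun u : Fin m → Fin m → ℂ => f (Matrix.of u)) := hf
    exact this.measurable
  have h2 : Measurable (fun p => (fun i j => A p i j : Fin m → Fin m → ℂ)) :=
    measurable_pi_lambda _ fun i => measurable_pi_lambda _ fun j => hA i j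
  exact h1.comp h2

end tools

section unif
variable {m : ℕ}

/-- bound of a continuous function on the matrices with entries of modulus `≤ 1`. -/
lemma exists_bound {f : Matrix (Fin m) (Fin m) ℂ → ℝ} (hf : Continuous f) :
    ∃ B : ℝ, 0 ≤ B ∧ ∀ U : Matrix (Fin m) (Fin m) ℂ, (∀ i j, ‖U i j‖ ≤ 1) → |f U| ≤ B := by
  have hf' : Continuous (fun u : Fin m → Fin m → ℂ => f (Matrix.of u)) := hf
  have hK : IsCompact (Metric.closedBall (0 : Fin m → Fin m → ℂ) 1) := isCompact_closedBall _ _
  obtain ⟨B, hB⟩ := (hK.image hf').isBounded.exists_norm_le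
  refine ⟨max B 0, le_max_right _ _, fun U hU => ?_⟩
  have hmem : (fun i j => U i j : Fin m → Fin m → ℂ) ∈
      Metric.closedBall (0 : Fin m → Fin m → ℂ) 1 := by
    rw [mem_closedBall_zero_iff, pi_norm_le_iff_of_nonneg zero_le_one]
    intro i
    rw [pi_norm_le_iff_of_nonneg zero_le_one]
    exact fun j => hU i j
  have := hB _ ⟨_, hmem, rfl⟩
  rw [Real.norm_eq_abs] at this
  exact this.trans (le_max_left _ _)

/-- uniform continuity on the matrices with entries of modulus `≤ 1`. -/
lemma exists_unif {f : Matrix (Fin m) (Fin m) ℂ → ℝ} (hf : Continuous f) {ε : ℝ} (hε : 0 < ε) :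
    ∃ η : ℝ, 0 < η ∧ ∀ U V : Matrix (Fin m) (Fin m) ℂ, (∀ i j, ‖U i j‖ ≤ 1) →
      (∀ i j, ‖V i j‖ ≤ 1) → (∀ i j, ‖U i j - V i j‖ < η) → |f U - f V| ≤ ε := by
  have hf' : Continuous (fun u : Fin m → Fin m → ℂ => f (Matrix.of u)) := hf
  have hK : IsCompact (Metric.closedBall (0 : Fin m → Fin m → ℂ) 1) := isCompact_closedBall _ _
  have hu := hK.uniformContinuousOn_of_continuous hf'.continuousOn
  rw [Metric.uniformContinuousOn_iff] at hu
  obtain ⟨η, hη, h⟩ := hu ε hε
  refine ⟨η, hη, fun U V hU hV hUV => ?_⟩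
  have hmem : ∀ U : Matrix (Fin m) (Fin m) ℂ, (∀ i j, ‖U i j‖ ≤ 1) →
      (fun i j => U i j : Fin m → Fin m → ℂ) ∈ Metric.closedBall (0 : Fin m → Fin m → ℂ) 1 := by
    intro U hU
    rw [mem_closedBall_zero_iff, pi_norm_le_iff_of_nonneg zero_le_one]
    intro i
    rw [pi_norm_le_iff_of_nonneg zero_le_one]
    exact fun j => hU i j
  have h1 := h (fun i j => U i j) (hmem U hU) (fun i j => V i j) (hmem V hV) (by
    rw [dist_pi_lt_iff hη]
    intro i
    rw [dist_pi_lt_iff hη]
    intro j
    rw [dist_eq_norm]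
    exact hUV i j)
  rw [Real.dist_eq] at h1
  exact h1.le

end unif

section goe

lemma MM_goeMatrix {N : ℕ} : MM (fun g : GOEDisorder N => goeMatrix g) := by
  intro i j
  simp only [goeMatrix]
  split_ifs
  · fun_prop
  · fun_prop
  · fun_prop

lemma goeMatrix_transpose {N : ℕ} (g : GOEDisorder N) : (goeMatrix g)ᵀ = goeMatrix g := by
  ext i j
  simp only [goeMatrix, Matrix.transpose_apply]
  rcases lt_trichotomy i j with h | h | h
  · simp [h.ne, h.ne', h, not_lt.2 h.le]
  · subst h; rfl
  · simp [h.ne, h.ne', h, not_lt.2 h.le]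

end goe

end Crest.Agent.R166.MeasMat93
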