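import Crest.Agent.R166.Sw_798
import Crest.Agent.R166.InvDefs_988
import Crest.Agent.R166.Stab_269

/-!
# R166, section 20 for section 50: the simple switching in mean (helper798)

`VSw G x y u w` is the validity of the switching which removes `xy`, `uw` and adds `xu`, `yw`.

* `sum_switch` : exact change of variables `(G, (x,y), (u,w)) ↦ (G', (x,u), (y,w))` on the set of
  valid configurations.
* `card_bad` : at most `2 d (d+2) n d` pairs of darts are not valid.
* `switch_avg` : for `|F| ≤ B`, the average over `G` and two darts of `F G (x,y) (u,w)` and of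
  `F G' (x,u) (y,w)` differ by at most `4 (d+2) B / n`.
* `Hm_sw` : the matrices differ by the explicit `4 × 4` perturbation `Ksw`.
-/

set_option autoImplicit false
set_option linter.unusedSectionVars false

open Finset

namespace Crest.Agent.R166.SwAvg798

open Crest.Agent.R166 Crest.Agent.R166.Sw798 Crest.Agent.R166.Res789
open Crest.ProbabilityR.RandomMatrix MeasureTheory
open Classical

section Abstract

variable {V : Type*} [Fintype V]

/-- pairs of darts -/
noncomputable def dd (G : SimpleGraph V) : Finset ((V × V) × (V × V)) :=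
  Sw798.darts G ×ˢ Sw798.darts G

/-- valid pairs of darts -/
noncomputable def vd (G : SimpleGraph V) : Finset ((V × V) × (V × V)) :=
  (dd G).filter fun e => VSw G e.1.1 e.1.2 e.2.1 e.2.2

lemma mem_vd {G : SimpleGraph V} {e : (V × V) × (V × V)} :
    e ∈ vd G ↔ VSw G e.1.1 e.1.2 e.2.1 e.2.2 := by
  simp only [vd, dd, Finset.mem_filter, Finset.mem_product, Sw798.mem_darts]
  exact ⟨fun h => h.2, fun h => ⟨⟨h.xy, h.uw⟩, h⟩⟩

/-- the switched graph -/
def sg (G : SimpleGraph V) (e : (V × V) × (V × V)) : SimpleGraph V :=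
  Sw798.sw G e.1.1 e.1.2 e.2.1 e.2.2

/-- the switched darts -/
def se (e : (V × V) × (V × V)) : (V × V) × (V × V) := ((e.1.1, e.2.1), (e.1.2, e.2.2))

lemma se_se (e : (V × V) × (V × V)) : se (se e) = e := rfl

lemma sg_sg {G : SimpleGraph V} {e : (V × V) × (V × V)} (h : e ∈ vd G) :
    sg (sg G e) (se e) = G := (mem_vd.1 h).sw_sw

lemma se_mem {G : SimpleGraph V} {e : (V × V) × (V × V)} (h : e ∈ vd G) :
    se e ∈ vd (sg G e) := mem_vd.2 (mem_vd.1 h).sw

lemma sg_mem {d : ℕ} {G : SimpleGraph V} {e : (V × V) × (V × V)} (h : e ∈ vd G)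
    (hG : G ∈ Reg V d) : sg G e ∈ Reg V d := (mem_vd.1 h).sw_mem_Reg hG

/-- **exact change of variables** -/
theorem sum_switch (d : ℕ) {α : Type*} [AddCommMonoid α]
    (F : SimpleGraph V → (V × V) × (V × V) → α) :
    ∑ G ∈ Reg V d, ∑ e ∈ vd G, F G e = ∑ G ∈ Reg V d, ∑ e ∈ vd G, F (sg G e) (se e) := by
  rw [Finset.sum_sigma', Finset.sum_sigma']
  refine Finset.sum_nbij' (fun x => ⟨sg x.1 x.2, se x.2⟩) (fun x => ⟨sg x.1 x.2, se x.2⟩)
    ?_ ?_ ?_ ?_ ?_
  · rintro ⟨G, e⟩ hx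
    rw [Finset.mem_sigma] at hx ⊢
    exact ⟨sg_mem hx.2 hx.1, se_mem hx.2⟩
  · rintro ⟨G, e⟩ hx
    rw [Finset.mem_sigma] at hx ⊢
    exact ⟨sg_mem hx.2 hx.1, se_mem hx.2⟩
  · rintro ⟨G, e⟩ hx
    rw [Finset.mem_sigma] at hx
    simp only [sg_sg hx.2, se_se]
  · rintro ⟨G, e⟩ hx
    rw [Finset.mem_sigma] at hx
    simp only [sg_sg hx.2, se_se]
  · rintro ⟨G, e⟩ hx
    rw [Finset.mem_sigma] at hx
    simp only [sg_sg hx.2, se_se]

lemma card_dd {d : ℕ} {G : SimpleGraph V} (hG : G ∈ Reg V d) :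
    (dd G).card = (Fintype.card V * d) * (Fintype.card V * d) := by
  rw [dd, Finset.card_product, Sw798.card_darts hG]

/-- the number of invalid pairs of darts -/
theorem card_bad {d : ℕ} {G : SimpleGraph V} (hG : G ∈ Reg V d) :
    ((dd G).filter fun e => ¬ VSw G e.1.1 e.1.2 e.2.1 e.2.2).card ≤
      (Fintype.card V * d) * (2 * d * (d + 2)) := by
  have h1 : (dd G).card ≤ (vd G).card + (Fintype.card V * d) * (2 * d * (d + 2)) := by
    have h2 : (vd G).card = ∑ p ∈ Sw798.darts G, (good G p.1 p.2 ∅).card := by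
      have : vd G = (Sw798.darts G).biUnion fun p => (good G p.1 p.2 ∅).image fun q => (p, q) := by
        ext ⟨p, q⟩
        rw [mem_vd, Finset.mem_biUnion]
        constructor
        · intro h
          refine ⟨p, Sw798.mem_darts.2 h.xy, Finset.mem_image.2 ⟨q, ?_, rfl⟩⟩
          simp only [good, Finset.mem_filter, Sw798.mem_darts, Finset.notMem_empty,
            not_false_eq_true, and_true]
          exact ⟨h.uw, h.xu, h.xw, h.yu, h.yw, h.nxu, h.nyw⟩
        · rintro ⟨p', hp', hq⟩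
          obtain ⟨q', hq', heq⟩ := Finset.mem_image.1 hq
          simp only [Prod.mk.injEq] at heq
          obtain ⟨rfl, rfl⟩ := heq
          simp only [good, Finset.mem_filter, Sw798.mem_darts, Finset.notMem_empty,
            not_false_eq_true, and_true] at hq'
          obtain ⟨h1, h2, h3, h4, h5, h6, h7⟩ := hq'
          exact ⟨Sw798.mem_darts.1 hp', h1, h2, h3, h4, h5, h6, h7⟩
      rw [this, Finset.card_biUnion]
      · refine Finset.sum_congr rfl fun p _ => ?_
        rw [Finset.card_image_of_injective]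
        intro a b hab
        exact (Prod.ext_iff.1 hab).2
      · intro p _ p' _ hpp
        rw [Function.onFun, Finset.disjoint_left]
        intro e he he'
        obtain ⟨q, _, rfl⟩ := Finset.mem_image.1 he
        obtain ⟨q', _, h⟩ := Finset.mem_image.1 he'
        exact hpp (Prod.ext_iff.1 h).1.symm
    have h3 : (Sw798.darts G).card * (Fintype.card V * d) ≤
        ∑ p ∈ Sw798.darts G, ((good G p.1 p.2 ∅).card + 2 * d * (d + 2)) := by
      rw [← smul_eq_mul]
      refine Finset.card_nsmul_le_sum _ _ _ fun p _ => ?_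
      have := card_good hG p.1 p.2 ∅
      simpa using this
    rw [Finset.sum_add_distrib, ← h2, Finset.sum_const, smul_eq_mul, Sw798.card_darts hG] at h3
    rw [card_dd hG]
    exact h3
  have h4 := Finset.card_filter_add_card_filter_not (s := dd G)
    (p := fun e => VSw G e.1.1 e.1.2 e.2.1 e.2.2)
  unfold vd at h1
  omega


end Abstract

/-! ### in the notation of `Defs_419` / `InvDefs_988` -/

section Concrete

variable {n : ℕ}

lemma darts_eq (G : SimpleGraph (Fin n)) : Crest.Agent.R166.darts G = Sw798.darts G := by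
  ext p
  simp [Crest.Agent.R166.darts, Sw798.darts]

lemma card_darts_real {d : ℕ} {G : SimpleGraph (Fin n)} (hG : G ∈ regularGraphs n d) :
    ((Crest.Agent.R166.darts G).card : ℝ) = n * d := by
  rw [regularGraphs_eq] at hG
  rw [darts_eq, Sw798.card_darts hG]
  simp

lemma eAvg2_eq {d : ℕ} {G : SimpleGraph (Fin n)} (hG : G ∈ regularGraphs n d)
    (F : Fin n × Fin n → Fin n × Fin n → ℝ) :
    Inv988.eAvg2 G F = (∑ e ∈ dd G, F e.1 e.2) / (n * d : ℝ) ^ 2 := by
  rw [Inv988.eAvg2, card_darts_real hG, dd, Finset.sum_product, darts_eq]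


/-- **exact version**: only valid configurations -/
theorem switch_avg_exact {d : ℕ} (F : SimpleGraph (Fin n) → Fin n × Fin n → Fin n × Fin n → ℝ) :
    regularAverage n d (fun G => Inv988.eAvg2 G
      (fun p q => if VSw G p.1 p.2 q.1 q.2 then F G p q else 0)) =
    regularAverage n d (fun G => Inv988.eAvg2 G
      (fun p q => if VSw G p.1 p.2 q.1 q.2 then
        F (Sw798.sw G p.1 p.2 q.1 q.2) (p.1, q.1) (p.2, q.2) else 0)) := by
  have key : ∀ Φ : SimpleGraph (Fin n) → (Fin n × Fin n) × (Fin n × Fin n) → ℝ,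
      regularAverage n d (fun G => Inv988.eAvg2 G
        (fun p q => if VSw G p.1 p.2 q.1 q.2 then Φ G (p, q) else 0)) =
      (∑ G ∈ Reg (Fin n) d, ∑ e ∈ vd G, Φ G e) / (n * d : ℝ) ^ 2 / (Reg (Fin n) d).card := by
    intro Φ
    rw [regularAverage, ← regularGraphs_eq]
    congr 1
    rw [Finset.sum_div]
    refine Finset.sum_congr rfl fun G hG => ?_
    rw [eAvg2_eq hG, vd, Finset.sum_filter]
  rw [key (fun G e => F G e.1 e.2),
    key (fun G e => F (Sw798.sw G e.1.1 e.1.2 e.2.1 e.2.2) (e.1.1, e.2.1) (e.1.2, e.2.2)),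
    sum_switch d (fun G e => F G e.1 e.2)]
  rfl

/-- the indicator of validity can be inserted -/
theorem avg_valid {d : ℕ} (hn : 0 < n) (hd : 0 < d)
    (F : SimpleGraph (Fin n) → Fin n × Fin n → Fin n × Fin n → ℝ) {B : ℝ} (hB : 0 ≤ B)
    (hF : ∀ G p q, ¬ VSw G p.1 p.2 q.1 q.2 → |F G p q| ≤ B) :
    |regularAverage n d (fun G => Inv988.eAvg2 G (F G)) -
      regularAverage n d (fun G => Inv988.eAvg2 G
        (fun p q => if VSw G p.1 p.2 q.1 q.2 then F G p q else 0))| ≤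
      2 * (d + 2) * B / n := by
  have hn' : (0 : ℝ) < n := by exact_mod_cast hn
  have hd' : (0 : ℝ) < d := by exact_mod_cast hd
  have e1 : regularAverage n d (fun G => Inv988.eAvg2 G (F G)) -
      regularAverage n d (fun G => Inv988.eAvg2 G
        (fun p q => if VSw G p.1 p.2 q.1 q.2 then F G p q else 0)) =
      (∑ G ∈ Reg (Fin n) d, ∑ e ∈ (dd G).filter (fun e => ¬ VSw G e.1.1 e.1.2 e.2.1 e.2.2),
        F G e.1 e.2) / (n * d : ℝ) ^ 2 / (Reg (Fin n) d).card := by
    rw [regularAverage, regularAverage, ← regularGraphs_eq, ← sub_div]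
    congr 1
    rw [Finset.sum_div, ← Finset.sum_sub_distrib]
    refine Finset.sum_congr rfl fun G hG => ?_
    rw [eAvg2_eq hG, eAvg2_eq hG, ← sub_div, ← Finset.sum_sub_distrib, Finset.sum_filter]
    congr 1
    refine Finset.sum_congr rfl fun e _ => ?_
    by_cases h : VSw G e.1.1 e.1.2 e.2.1 e.2.2
    · simp [h]
    · simp [h]
  have h1 : |∑ G ∈ Reg (Fin n) d,
      ∑ e ∈ (dd G).filter (fun e => ¬ VSw G e.1.1 e.1.2 e.2.1 e.2.2), F G e.1 e.2| ≤
      (Reg (Fin n) d).card * (((n * d) * (2 * d * (d + 2))) * B) := by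
    refine (Finset.abs_sum_le_sum_abs _ _).trans ?_
    rw [← nsmul_eq_mul]
    refine Finset.sum_le_card_nsmul _ _ _ fun G hG => ?_
    refine (Finset.abs_sum_le_sum_abs _ _).trans ?_
    refine (Finset.sum_le_card_nsmul _ _ B fun e he => hF G e.1 e.2
      (Finset.mem_filter.1 he).2).trans ?_
    rw [nsmul_eq_mul]
    refine mul_le_mul_of_nonneg_right ?_ hB
    have := card_bad hG
    rw [Fintype.card_fin] at this
    exact_mod_cast this
  rw [e1, abs_div, abs_div,
    abs_of_nonneg (by positivity : (0 : ℝ) ≤ (n * d : ℝ) ^ 2),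
    abs_of_nonneg (by positivity : (0 : ℝ) ≤ ((Reg (Fin n) d).card : ℝ))]
  rcases Nat.eq_zero_or_pos (Reg (Fin n) d).card with h0 | h0
  · rw [h0]
    simp only [Nat.cast_zero, div_zero]
    positivity
  have h0' : (0 : ℝ) < (Reg (Fin n) d).card := by exact_mod_cast h0
  rw [div_le_iff₀ h0', div_le_iff₀ (by positivity)]
  refine h1.trans (le_of_eq ?_)
  field_simp

/-- the form with `C`, `Val` inside on the right hand side -/
theorem switch_avg_valid {d : ℕ} (hn : 0 < n) (hd : 0 < d)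
    (F : SimpleGraph (Fin n) → Fin n × Fin n → Fin n × Fin n → ℝ) {B : ℝ}
    (hF : ∀ G p q, |F G p q| ≤ B) :
    |regularAverage n d (fun G => Inv988.eAvg2 G (F G)) -
      regularAverage n d (fun G => Inv988.eAvg2 G
        (fun p q => if VSw G p.1 p.2 q.1 q.2 then
          F (Sw798.sw G p.1 p.2 q.1 q.2) (p.1, q.1) (p.2, q.2) else 0))| ≤
      2 * (d + 2) * B / n := by
  have hB : 0 ≤ B := (abs_nonneg _).trans (hF ⊥ (⟨0, hn⟩, ⟨0, hn⟩) (⟨0, hn⟩, ⟨0, hn⟩))
  rw [← switch_avg_exact F]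
  exact avg_valid hn hd F hB fun G p q _ => hF G p q

/-- the perturbation of the simple switching, in the order `x, y, u, w` -/
def Ksw : Matrix (Fin 4) (Fin 4) ℝ :=
  !![0, -1, 1, 0; -1, 0, 0, 1; 1, 0, 0, -1; 0, 1, -1, 0]

theorem Ksw_symm : Ksw.transpose = Ksw := by
  ext i j
  fin_cases i <;> fin_cases j <;> simp [Ksw]

theorem Hm_sw {G : SimpleGraph (Fin n)} {x y u w : Fin n} (h : VSw G x y u w) (s : ℝ)
    (ω : Fin n → ℝ) :
    Hm (Sw798.sw G x y u w) s ω = Hm G s ω + emb ![x, y, u, w] Ksw := by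
  have hxy := h.xy.ne
  have huw := h.uw.ne
  have hxu := h.xu
  have hxw := h.xw
  have hyu := h.yu
  have hyw := h.yw
  have a1 := h.xy
  have a2 := h.uw
  have a3 := h.nxu
  have a4 := h.nyw
  have hsy : ∀ p q : Fin n, G.Adj p q ↔ G.Adj q p := fun p q => G.adj_comm p q
  ext a b
  rw [Matrix.add_apply, Stab269.Hm_apply, Stab269.Hm_apply, emb_apply]
  simp only [Fin.sum_univ_four, Ksw, Matrix.of_apply, Matrix.cons_val', Matrix.cons_val_zero,
    Matrix.cons_val_one, Matrix.cons_val, sw_adj]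
  by_cases c1 : s(a, b) = s(x, y)
  · rw [Sym2.eq_iff] at c1
    rcases c1 with ⟨rfl, rfl⟩ | ⟨rfl, rfl⟩ <;> simp_all [Ne.symm, eq_comm]
  by_cases c2 : s(a, b) = s(u, w)
  · rw [Sym2.eq_iff] at c2
    rcases c2 with ⟨rfl, rfl⟩ | ⟨rfl, rfl⟩ <;> simp_all [Ne.symm, eq_comm]
  by_cases c3 : s(a, b) = s(x, u)
  · rw [Sym2.eq_iff] at c3
    rcases c3 with ⟨rfl, rfl⟩ | ⟨rfl, rfl⟩ <;> simp_all [Ne.symm, eq_comm]
  by_cases c4 : s(a, b) = s(y, w)
  · rw [Sym2.eq_iff] at c4
    rcases c4 with ⟨rfl, rfl⟩ | ⟨rfl, rfl⟩ <;> simp_all [Ne.symm, eq_comm]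
  simp only [c1, c2, c3, c4, ne_eq, not_false_eq_true, and_true, false_and, or_false]
  rw [Sym2.eq_iff, not_or] at c1 c2 c3 c4
  have d1 : ∀ p q : Fin n, ((p = a ∧ q = b) ↔ False) ↔ ¬ (a = p ∧ b = q) := by
    intro p q
    constructor
    · rintro h1 ⟨rfl, rfl⟩
      exact h1.1 ⟨rfl, rfl⟩
    · rintro h1
      constructor
      · rintro ⟨rfl, rfl⟩
        exact h1 ⟨rfl, rfl⟩
      · exact False.elim
  simp [(d1 _ _).2 c1.1, (d1 _ _).2 c2.1, (d1 _ _).2 c3.1, (d1 _ _).2 c4.1,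
    (d1 _ _).2 c1.2, (d1 _ _).2 c2.2, (d1 _ _).2 c3.2, (d1 _ _).2 c4.2]

/-- the elementary symmetric matrix of a pair -/
noncomputable def Wp (p : Fin n × Fin n) : Matrix (Fin n) (Fin n) ℝ :=
  fun i j => if (i = p.1 ∧ j = p.2) ∨ (i = p.2 ∧ j = p.1) then 1 else 0

theorem Hm_sw_Wp {G : SimpleGraph (Fin n)} {x y u w : Fin n} (h : VSw G x y u w) (s : ℝ)
    (ω : Fin n → ℝ) :
    Hm (Sw798.sw G x y u w) s ω =
      Hm G s ω - Wp (x, y) - Wp (u, w) + Wp (x, u) + Wp (y, w) := by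
  have hxy := h.xy.ne
  have huw := h.uw.ne
  have hxu := h.xu
  have hxw := h.xw
  have hyu := h.yu
  have hyw := h.yw
  have a1 := h.xy
  have a2 := h.uw
  have a3 := h.nxu
  have a4 := h.nyw
  have hsy : ∀ p q : Fin n, G.Adj p q ↔ G.Adj q p := fun p q => G.adj_comm p q
  ext a b
  rw [Matrix.add_apply, Matrix.add_apply, Matrix.sub_apply, Matrix.sub_apply,
    Stab269.Hm_apply, Stab269.Hm_apply]
  simp only [Wp, sw_adj, ← Sym2.eq_iff]
  by_cases c1 : s(a, b) = s(x, y)
  · rw [Sym2.eq_iff] at c1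
    rcases c1 with ⟨rfl, rfl⟩ | ⟨rfl, rfl⟩ <;> simp_all [Ne.symm, eq_comm]
  by_cases c2 : s(a, b) = s(u, w)
  · rw [Sym2.eq_iff] at c2
    rcases c2 with ⟨rfl, rfl⟩ | ⟨rfl, rfl⟩ <;> simp_all [Ne.symm, eq_comm]
  by_cases c3 : s(a, b) = s(x, u)
  · rw [Sym2.eq_iff] at c3
    rcases c3 with ⟨rfl, rfl⟩ | ⟨rfl, rfl⟩ <;> simp_all [Ne.symm, eq_comm]
  by_cases c4 : s(a, b) = s(y, w)
  · rw [Sym2.eq_iff] at c4
    rcases c4 with ⟨rfl, rfl⟩ | ⟨rfl, rfl⟩ <;> simp_all [Ne.symm, eq_comm]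
  simp only [c1, c2, c3, c4, ne_eq, not_false_eq_true, and_true, false_and, or_false, if_false]
  ring

end Concrete

end Crest.Agent.R166.SwAvg798
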