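import Crest.Agent.R166.InvP2_348
import Crest.Agent.R166.MeasC_780
import Crest.Agent.R166.InvD_348
import Crest.Agent.R166.SwAvg_798
import Crest.Agent.R166.MeasMat_93
import Crest.Agent.R166.InvB_348
import Crest.Agent.R166.PertMn_424

-- ▼ part R166/InvP3_348
section

/-!
Row 166, section 50 (helper348): the environment; dichotomy for the limit of the averages of a
cutoff.
-/

set_option autoImplicit false
set_option linter.unusedSectionVars false

namespace Crest.Agent.R166.InvP348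

open Matrix Complex Topology MeasureTheory Crest.ProbabilityR.RandomMatrix
open Crest.Agent.R166.Inv988 (M2 blk eAvg2)

/-! ### calculus of `Whp` -/

section whp

variable {n d : ℕ} {a b : ℝ} {P Q : SimpleGraph (Fin n) → (Fin n → ℝ) → Prop}

lemma whp_mono (h : Whp n d a P) (hPQ : ∀ G ω, P G ω → Q G ω) : Whp n d a Q := by
  refine le_trans (measure_mono ?_) h
  intro x hx hP
  exact hx (hPQ _ _ hP)

lemma whp_mono_eps (h : Whp n d a P) (hab : a ≤ b) : Whp n d b P :=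
  le_trans h (ENNReal.ofReal_le_ofReal hab)

lemma whp_and (ha : 0 ≤ a) (hb : 0 ≤ b) (h1 : Whp n d a P) (h2 : Whp n d b Q) :
    Whp n d (a + b) fun G ω => P G ω ∧ Q G ω := by
  unfold Whp at *
  have hsub : {x : SimpleGraph (Fin n) × (Fin n → ℝ) | ¬ (P x.1 x.2 ∧ Q x.1 x.2)} ⊆
      {x | ¬ P x.1 x.2} ∪ {x | ¬ Q x.1 x.2} := by
    intro x hx
    by_cases hP : P x.1 x.2
    · right
      intro hQ
      exact hx ⟨hP, hQ⟩
    · left
      exact hP
  calc (law n d) {x | ¬ (P x.1 x.2 ∧ Q x.1 x.2)} ≤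
        (law n d) ({x | ¬ P x.1 x.2} ∪ {x | ¬ Q x.1 x.2}) := measure_mono hsub
    _ ≤ (law n d) {x | ¬ P x.1 x.2} + (law n d) {x | ¬ Q x.1 x.2} := measure_union_le _ _
    _ ≤ ENNReal.ofReal a + ENNReal.ofReal b := add_le_add h1 h2
    _ = ENNReal.ofReal (a + b) := (ENNReal.ofReal_add ha hb).symm

lemma whp_exists (hne : (regularGraphs n d).Nonempty) (h : Whp n d a P) (ha : a < 1) :
    ∃ G ω, P G ω := by
  by_contra hcon
  push Not at hcon
  have hP := MeasC780.law_prob hne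
  unfold Whp at h
  have h1 : {x : SimpleGraph (Fin n) × (Fin n → ℝ) | ¬ P x.1 x.2} = Set.univ := by
    ext x
    simp only [Set.mem_ofPred_eq, Set.mem_univ, iff_true]
    exact hcon _ _
  rw [h1, measure_univ] at h
  have h2 : ENNReal.ofReal a < 1 := by
    rw [← ENNReal.ofReal_one]
    exact (ENNReal.ofReal_lt_ofReal_iff zero_lt_one).2 ha
  exact absurd h (not_le.2 h2)

lemma whp_true (ha : 0 ≤ a) (h : ∀ G ω, P G ω) : Whp n d a P := by
  unfold Whp
  have h1 : {x : SimpleGraph (Fin n) × (Fin n → ℝ) | ¬ P x.1 x.2} = ∅ := by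
    ext x
    simp [h]
  rw [h1]
  simp

end whp

/-! ### averages over directed edges -/

section avg

variable {n : ℕ} {G : SimpleGraph (Fin n)}

lemma eAvg_add (F F' : Fin n → Fin n → ℝ) :
    eAvg G (fun u w => F u w + F' u w) = eAvg G F + eAvg G F' := by
  unfold eAvg
  rw [Finset.sum_add_distrib, add_div]

lemma eAvg_sub (F F' : Fin n → Fin n → ℝ) :
    eAvg G (fun u w => F u w - F' u w) = eAvg G F - eAvg G F' := by
  unfold eAvg
  rw [Finset.sum_sub_distrib, sub_div]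

lemma eAvg_const_mul (c : ℝ) (F : Fin n → Fin n → ℝ) :
    eAvg G (fun u w => c * F u w) = c * eAvg G F := by
  unfold eAvg
  rw [← Finset.mul_sum, mul_div_assoc]

lemma eAvg_const_le {c : ℝ} (hc : 0 ≤ c) : eAvg G (fun _ _ => c) ≤ c := by
  have := MeasC780.abs_eAvg_le G hc (F := fun _ _ => c) (fun _ _ => by rw [abs_of_nonneg hc])
  exact (le_abs_self _).trans this

lemma abs_eAvg_le' (F : Fin n → Fin n → ℝ) : |eAvg G F| ≤ eAvg G fun u w => |F u w| := by
  unfold eAvg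
  rw [abs_div, abs_of_nonneg (Nat.cast_nonneg _ : (0 : ℝ) ≤ ((darts G).card : ℝ))]
  exact div_le_div_of_nonneg_right (Finset.abs_sum_le_sum_abs _ _) (Nat.cast_nonneg _)

end avg

/-- a bound for continuous functions with compact support -/
lemma exists_bd {χ : M2 → ℝ} (hc : Continuous χ) (hs : HasCompactSupport χ) :
    ∃ B : ℝ, 0 < B ∧ ∀ b, |χ b| ≤ B := by
  obtain ⟨B, hB⟩ := hs.exists_bound_of_continuous hc
  refine ⟨max B 1, lt_of_lt_of_le one_pos (le_max_right _ _), fun b => ?_⟩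
  rw [← Real.norm_eq_abs]
  exact (hB b).trans (le_max_left _ _)

/-- comparison of the averages of a cutoff over two families of blocks -/
lemma avg_cut_close {χ : M2 → ℝ} (hc : Continuous χ) (hs : HasCompactSupport χ) {ε : ℝ}
    (hε : 0 < ε) : ∃ κ : ℝ, 0 < κ ∧ ∀ (n : ℕ) (G : SimpleGraph (Fin n))
      (b b' : Fin n → Fin n → M2), eAvg G (fun u w => min 1 (bnorm (b u w - b' u w))) ≤ κ →
      |eAvg G (fun u w => χ (b u w)) - eAvg G (fun u w => χ (b' u w))| ≤ ε := by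
  obtain ⟨B, hB0, hB⟩ := exists_bd hc hs
  obtain ⟨θ0, hθ0, hu⟩ := unif_bnorm hc hs (ε := ε / 2) (by positivity)
  set θ := min θ0 1 with hθ
  have hθp : 0 < θ := by positivity
  have hθ1 : θ ≤ 1 := min_le_right _ _
  have hθ0' : θ ≤ θ0 := min_le_left _ _
  refine ⟨ε / 2 / (2 * B / θ), by positivity, fun n G b b' h => ?_⟩
  rw [← eAvg_sub]
  refine (abs_eAvg_le' _).trans ?_
  have h1 : ∀ u w, |χ (b u w) - χ (b' u w)| ≤ ε / 2 + 2 * B / θ *
      min 1 (bnorm (b u w - b' u w)) := by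
    intro u w
    have hm : 0 ≤ min 1 (bnorm (b u w - b' u w)) := le_min zero_le_one (bnorm_nonneg _)
    by_cases hlt : bnorm (b u w - b' u w) ≤ θ
    · have := hu _ _ (hlt.trans hθ0')
      have : 0 ≤ 2 * B / θ * min 1 (bnorm (b u w - b' u w)) := by positivity
      linarith
    · push Not at hlt
      have h2 : |χ (b u w) - χ (b' u w)| ≤ 2 * B := by
        refine (abs_sub _ _).trans ?_
        have := hB (b u w)
        have := hB (b' u w)
        linarith
      have h3 : θ ≤ min 1 (bnorm (b u w - b' u w)) := le_min hθ1 hlt.le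
      have h4 : 2 * B = 2 * B / θ * θ := by field_simp
      have h5 : 2 * B / θ * θ ≤ 2 * B / θ * min 1 (bnorm (b u w - b' u w)) := by gcongr
      linarith
  refine (MeasC780.eAvg_mono G h1).trans ?_
  rw [eAvg_add, eAvg_const_mul]
  have h2 := eAvg_const_le (G := G) (c := ε / 2) (by positivity)
  have h3 : 2 * B / θ * eAvg G (fun u w => min 1 (bnorm (b u w - b' u w))) ≤
      2 * B / θ * (ε / 2 / (2 * B / θ)) := by gcongr
  have h4 : 2 * B / θ * (ε / 2 / (2 * B / θ)) = ε / 2 := by field_simp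
  linarith

/-! ### the dichotomy -/

/-- the averages of `χ` stay bounded below as `η → 0` -/
def PosE (d : ℕ) (s E : ℝ) (χ : M2 → ℝ) : Prop :=
  ∃ a : ℝ, 0 < a ∧ ∃ η0 : ℝ, 0 < η0 ∧ ∀ η : ℝ, 0 < η → η ≤ η0 → ∀ ε : ℝ, 0 < ε →
    ∃ N : ℕ, ∀ n : ℕ, N ≤ n → (regularGraphs n d).Nonempty →
      Whp n d ε fun G ω => a ≤ eAvg G (fun u w => χ (Blk (Res (Hm G s ω) (ze E η)) u w))

/-- the averages of `χ` tend to `0` as `η → 0` -/
def NegE (d : ℕ) (s E : ℝ) (χ : M2 → ℝ) : Prop :=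
  ∀ ε : ℝ, 0 < ε → ∃ η0 : ℝ, 0 < η0 ∧ ∀ η : ℝ, 0 < η → η ≤ η0 →
    ∃ N : ℕ, ∀ n : ℕ, N ≤ n → (regularGraphs n d).Nonempty →
      Whp n d ε fun G ω => eAvg G (fun u w => χ (Blk (Res (Hm G s ω) (ze E η)) u w)) ≤ ε

theorem dichotomy {d : ℕ} {s E : ℝ} (hEnv : EnvDet d s E) (hLoc : LocLim d s E)
    (hne : ∀ N : ℕ, ∃ n : ℕ, N ≤ n ∧ (regularGraphs n d).Nonempty)
    {χ : M2 → ℝ} (hc : Continuous χ) (hs : HasCompactSupport χ) (h : ¬ PosE d s E χ) :
    NegE d s E χ := by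
  intro ε hε
  choose c hcE using hEnv χ hc hs
  -- the constants are Cauchy
  have hCauchy : ∃ η1 : ℝ, 0 < η1 ∧ ∀ η (hη : 0 < η), η ≤ η1 → ∀ η' (hη' : 0 < η'), η' ≤ η1 →
      |c η hη - c η' hη'| ≤ ε / 4 := by
    obtain ⟨κ, hκ, hclose⟩ := avg_cut_close hc hs (ε := ε / 16) (by positivity)
    obtain ⟨η1, hη1, K0, hK0, hL⟩ := hLoc (min κ (1 / 8)) (by positivity)
    refine ⟨η1, hη1, ?_⟩
    intro η hη hηle η' hη' hη'le
    obtain ⟨N1, hN1⟩ := hL η hη hηle K0 le_rfl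
    obtain ⟨N2, hN2⟩ := hL η' hη' hη'le K0 le_rfl
    obtain ⟨N3, hN3⟩ := hcE η hη (min (ε / 16) (1 / 8)) (by positivity)
    obtain ⟨N4, hN4⟩ := hcE η' hη' (min (ε / 16) (1 / 8)) (by positivity)
    obtain ⟨n, hn, hnne⟩ := hne (max (max N1 N2) (max N3 N4))
    have w1 := whp_mono_eps (hN1 n (by omega) hnne) (min_le_right _ _)
    have w2 := whp_mono_eps (hN2 n (by omega) hnne) (min_le_right _ _)
    have w3 := whp_mono_eps (hN3 n (by omega) hnne) (min_le_right _ _)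
    have w4 := whp_mono_eps (hN4 n (by omega) hnne) (min_le_right _ _)
    have w := whp_and (by norm_num) (by norm_num)
      (whp_and (by norm_num) (by norm_num) w1 w2) (whp_and (by norm_num) (by norm_num) w3 w4)
    obtain ⟨G, ω, ⟨g1, g2⟩, g3, g4⟩ := whp_exists hnne w (by norm_num)
    have k1 := hclose n G _ _ (g1.trans (min_le_left _ _))
    have k2 := hclose n G _ _ (g2.trans (min_le_left _ _))
    have k3 := g3.trans (min_le_left _ _)
    have k4 := g4.trans (min_le_left _ _)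
    rw [abs_le] at k1 k2 k3 k4 ⊢
    constructor <;> linarith [k1.1, k1.2, k2.1, k2.2, k3.1, k3.2, k4.1, k4.2]
  obtain ⟨η1, hη1, hCau⟩ := hCauchy
  -- some `c η` is small
  have hsmall : ∃ (η : ℝ) (hη : 0 < η), η ≤ η1 ∧ c η hη ≤ ε / 4 := by
    by_contra hcon
    push Not at hcon
    apply h
    refine ⟨ε / 8, by positivity, η1, hη1, fun η hη hηle ε' hε' => ?_⟩
    obtain ⟨N, hN⟩ := hcE η hη (min ε' (ε / 8)) (by positivity)
    refine ⟨N, fun n hn hnne => ?_⟩
    refine whp_mono (whp_mono_eps (hN n hn hnne) (min_le_left _ _)) fun G ω hG => ?_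
    have h1 := hcon η hη hηle
    have h2 := hG.trans (min_le_right _ _)
    rw [abs_le] at h2
    linarith [h2.1]
  obtain ⟨η2, hη2, hη2le, hc2⟩ := hsmall
  refine ⟨η1, hη1, fun η hη hηle => ?_⟩
  obtain ⟨N, hN⟩ := hcE η hη (ε / 2) (by positivity)
  refine ⟨N, fun n hn hnne => ?_⟩
  refine whp_mono (whp_mono_eps (hN n hn hnne) (by linarith)) fun G ω hG => ?_
  have h1 := hCau η hη hηle η2 hη2 hη2le
  rw [abs_le] at h1 hG
  linarith [h1.2, hG.2]

end Crest.Agent.R166.InvP348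
end

-- ▼ part R166/InvP4_348
section

/-!
Row 166, section 50 (helper348): compactness of the non-degenerate blocks.
-/

set_option autoImplicit false
set_option linter.unusedSectionVars false

namespace Crest.Agent.R166.InvP348

open Matrix Complex Topology MeasureTheory Crest.ProbabilityR.RandomMatrix
open Crest.Agent.R166.Res789 Crest.Agent.R166.InvB348
open Crest.Agent.R166.Inv988 (M2 blk eAvg2)

/-- non-degenerate bounded blocks -/
def KK (M δ : ℝ) : Set M2 :=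
  {b | bᵀ = b ∧ bnorm b ≤ M ∧ ∀ x : Fin 2 → ℝ, δ * (x 0 ^ 2 + x 1 ^ 2) ≤
    ∑ a, ∑ c, x a * (b a c).im * x c}

lemma isClosed_KK (M δ : ℝ) : IsClosed (KK M δ) := by
  have h1 : IsClosed {b : M2 | bᵀ = b} := isClosed_eq continuous_id.matrix_transpose continuous_id
  have h2 : IsClosed {b : M2 | bnorm b ≤ M} := isClosed_le continuous_bnorm continuous_const
  have h3 : IsClosed {b : M2 | ∀ x : Fin 2 → ℝ, δ * (x 0 ^ 2 + x 1 ^ 2) ≤
      ∑ a, ∑ c, x a * (b a c).im * x c} := by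
    rw [Set.ofPred_forall]
    refine isClosed_iInter fun x => isClosed_le continuous_const ?_
    refine continuous_finsetSum _ fun a _ => continuous_finsetSum _ fun c _ => ?_
    exact (continuous_const.mul (Complex.continuous_im.comp (continuous_id.matrix_elem a c))).mul
      continuous_const
  exact (h1.inter (h2.inter h3))

lemma isCompact_KK (M δ : ℝ) : IsCompact (KK M δ) := by
  refine (isCompact_bnorm 0 M).of_isClosed_subset (isClosed_KK M δ) ?_
  intro b hb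
  have := hb.2.1
  simpa using this

lemma sieg_KK {M δ : ℝ} (hδ : 0 < δ) {b : M2} (hb : b ∈ KK M δ) : Sieg b := by
  refine ⟨hb.1, fun u hu => ?_⟩
  rw [qf_expand]
  have h1 := hb.2.2 (fun i => (u i).re)
  have h2 := hb.2.2 (fun i => (u i).im)
  have h3 : ∑ i, ∑ j, imM b i j * ((u i).re * (u j).re + (u i).im * (u j).im) =
      (∑ a, ∑ c, (u a).re * (b a c).im * (u c).re) +
        ∑ a, ∑ c, (u a).im * (b a c).im * (u c).im := by
    rw [← Finset.sum_add_distrib]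
    refine Finset.sum_congr rfl fun i _ => ?_
    rw [← Finset.sum_add_distrib]
    refine Finset.sum_congr rfl fun j _ => ?_
    rw [imM_apply]
    ring
  rw [h3]
  have h4 : 0 < ((u 0).re ^ 2 + (u 1).re ^ 2) + ((u 0).im ^ 2 + (u 1).im ^ 2) := by
    by_contra hcon
    push Not at hcon
    apply hu
    have a1 : (u 0).re = 0 := by nlinarith [sq_nonneg (u 0).re, sq_nonneg (u 1).re, sq_nonneg (u 0).im, sq_nonneg (u 1).im]
    have a2 : (u 1).re = 0 := by nlinarith [sq_nonneg (u 0).re, sq_nonneg (u 1).re, sq_nonneg (u 0).im, sq_nonneg (u 1).im]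
    have a3 : (u 0).im = 0 := by nlinarith [sq_nonneg (u 0).re, sq_nonneg (u 1).re, sq_nonneg (u 0).im, sq_nonneg (u 1).im]
    have a4 : (u 1).im = 0 := by nlinarith [sq_nonneg (u 0).re, sq_nonneg (u 1).re, sq_nonneg (u 0).im, sq_nonneg (u 1).im]
    ext i
    fin_cases i
    · exact Complex.ext a1 a3
    · exact Complex.ext a2 a4
  have h5 : 0 < δ * (((u 0).re ^ 2 + (u 1).re ^ 2) + ((u 0).im ^ 2 + (u 1).im ^ 2)) := by positivity
  have h6 := add_le_add h1 h2
  refine lt_of_lt_of_le h5 (le_trans (le_of_eq ?_) h6)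
  ring

lemma continuousAt_Zc {b : M2} (hb : Sieg b) : ContinuousAt (fun b => Zc b) b :=
  continuousAt_Pm (-W2) (isUnit_iff_ne_zero.1 hb.isUnit_det)
    (isUnit_iff_ne_zero.1 (hb.isUnit_inv_add negW2_symm))

lemma continuousOn_Zc {M δ : ℝ} (hδ : 0 < δ) : ContinuousOn (fun b => Zc b 0 1) (KK M δ) := by
  intro b hb
  have h1 := continuousAt_Zc (sieg_KK hδ hb)
  have h2 : Continuous fun B : M2 => B 0 1 := continuous_id.matrix_elem 0 1
  exact (h2.continuousAt.comp h1).continuousWithinAt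

lemma Ze2_of_off {b : M2} (h : Sieg b) (h0 : Zc b 0 1 = 0) :
    ∃ x1 x2 : ℂ, 0 < x1.im ∧ 0 < x2.im ∧ b = Ze2 x1 x2 := by
  have hs := sieg_Zc h
  have hd : ∀ i, 0 < (Zc b i i).im := by
    intro i
    have := hs.posDef.diag_pos (i := i)
    simpa using this
  refine ⟨Zc b 0 0, Zc b 1 1, hd 0, hd 1, ?_⟩
  have h10 : Zc b 1 0 = 0 := by
    have := congrFun (congrFun hs.1 0) 1
    simp only [Matrix.transpose_apply] at this
    rw [this, h0]
  have h1 : Zc b = diagonal ![Zc b 0 0, Zc b 1 1] := by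
    ext i j
    fin_cases i <;> fin_cases j
    · simp
    · simpa using h0
    · simpa using h10
    · simp
  unfold Ze2
  rw [← h1, Pm_Zc h]

/-- **compactness** -/
theorem compact_cover {M δ : ℝ} (hδ : 0 < δ) (F : Set (M2 → ℝ))
    (hF : ∀ χ ∈ F, Continuous χ ∧ ∀ b, 0 ≤ χ b)
    (hcov : ∀ x1 x2 : ℂ, 0 < x1.im → 0 < x2.im → ∃ χ ∈ F, 0 < χ (Ze2 x1 x2)) :
    ∃ T : Finset (M2 → ℝ), (∀ χ ∈ T, χ ∈ F) ∧ ∃ κ : ℝ, 0 < κ ∧ ∃ θ : ℝ, 0 < θ ∧
      ∀ b ∈ KK M δ, ‖Zc b 0 1‖ ≤ θ → κ ≤ ∑ χ ∈ T, χ b := by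
  classical
  set K0 : Set M2 := KK M δ ∩ (fun b => Zc b 0 1) ⁻¹' {0} with hK0
  have cK0 : IsCompact K0 := by
    refine (isCompact_KK M δ).of_isClosed_subset ?_ Set.inter_subset_left
    exact (continuousOn_Zc hδ).preimage_isClosed_of_isClosed (isClosed_KK M δ) isClosed_singleton
  have hex : ∀ b : M2, ∃ χ ∈ F, b ∈ K0 → 0 < χ b := by
    intro b
    by_cases hb : b ∈ K0
    · obtain ⟨x1, x2, h1, h2, hx⟩ := Ze2_of_off (sieg_KK hδ hb.1) hb.2
      obtain ⟨χ, hχ, hpos⟩ := hcov x1 x2 h1 h2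
      exact ⟨χ, hχ, fun _ => by rw [hx]; exact hpos⟩
    · obtain ⟨χ, hχ, _⟩ := hcov Complex.I Complex.I (by simp) (by simp)
      exact ⟨χ, hχ, fun h => absurd h hb⟩
  choose χ hχF hχpos using hex
  have hnhds : ∀ b ∈ K0, {b' : M2 | 0 < χ b b'} ∈ 𝓝 b := by
    intro b hb
    exact (isOpen_lt continuous_const (hF _ (hχF b)).1).mem_nhds (hχpos b hb)
  obtain ⟨t, ht, hcover⟩ := cK0.elim_nhds_subcover _ hnhds
  set T := t.image χ with hT
  have hTF : ∀ φ ∈ T, φ ∈ F := by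
    intro φ hφ
    obtain ⟨b, _, rfl⟩ := Finset.mem_image.1 hφ
    exact hχF b
  set g : M2 → ℝ := fun b => ∑ φ ∈ T, φ b with hg
  have cg : Continuous g := continuous_finsetSum _ fun φ hφ => (hF φ (hTF φ hφ)).1
  have g0 : ∀ b, 0 ≤ g b := fun b => Finset.sum_nonneg fun φ hφ => (hF φ (hTF φ hφ)).2 b
  have gpos : ∀ b ∈ K0, 0 < g b := by
    intro b hb
    have h1 := hcover hb
    simp only [Set.mem_iUnion, Set.mem_ofPred_eq, exists_prop] at h1
    obtain ⟨b', hb', h2⟩ := h1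
    refine lt_of_lt_of_le h2 ?_
    exact Finset.single_le_sum (f := fun φ : M2 → ℝ => φ b)
      (fun φ hφ => (hF φ (hTF φ hφ)).2 b) (Finset.mem_image_of_mem χ hb')
  refine ⟨T, hTF, ?_⟩
  rcases (KK M δ).eq_empty_or_nonempty with hemp | hne
  · refine ⟨1, one_pos, 1, one_pos, fun b hb => ?_⟩
    rw [hemp] at hb
    exact absurd hb (Set.notMem_empty b)
  have cΦ : ContinuousOn (fun b => max (g b) ‖Zc b 0 1‖) (KK M δ) :=
    (cg.continuousOn).sup (continuousOn_Zc hδ).norm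
  obtain ⟨b0, hb0, hmin⟩ := (isCompact_KK M δ).exists_isMinOn hne cΦ
  set m := max (g b0) ‖Zc b0 0 1‖ with hm
  have hmpos : 0 < m := by
    by_cases hb : b0 ∈ K0
    · exact lt_of_lt_of_le (gpos b0 hb) (le_max_left _ _)
    · refine lt_of_lt_of_le ?_ (le_max_right _ _)
      rw [norm_pos_iff]
      intro h0
      exact hb ⟨hb0, h0⟩
  refine ⟨m, hmpos, m / 2, by positivity, fun b hb hθ => ?_⟩
  have h1 : m ≤ max (g b) ‖Zc b 0 1‖ := hmin hb
  rcases le_max_iff.1 h1 with h2 | h2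
  · exact h2
  · linarith

end Crest.Agent.R166.InvP348
end

-- ▼ part R166/InvP5_348
section

/-!
Row 166, section 50 (helper348): existence of a support point of the environment.
-/

set_option autoImplicit false
set_option linter.unusedSectionVars false

namespace Crest.Agent.R166.InvP348

open Matrix Complex Topology MeasureTheory Crest.ProbabilityR.RandomMatrix
open Crest.Agent.R166.Res789 Crest.Agent.R166.InvB348
open Crest.Agent.R166.SwAvg798 (Wp)
open Crest.Agent.R166.Sw798 (VSw)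
open Crest.Agent.R166.Inv988 (M2 blk eAvg2)

section det

variable {n : ℕ}

lemma Wp_symm (p : Fin n × Fin n) : (Wp p)ᵀ = Wp p := by
  ext i j
  simp only [Matrix.transpose_apply, Wp]
  congr 1
  simp only [eq_iff_iff]
  tauto

/-- resolvent identity -/
lemma res_id {V : Type*} [Fintype V] [DecidableEq V] {H K : Matrix V V ℝ} (hH : Hᵀ = H)
    (hK : Kᵀ = K) {z : ℂ} (hz : 0 < z.im) :
    Res789.Res (H + K) z = Res789.Res H z - Res789.Res H z * cx K * Res789.Res (H + K) z := by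
  have hHK : (H + K)ᵀ = H + K := by rw [Matrix.transpose_add, hH, hK]
  have a := Res_mul_sub hH hz
  have b := sub_mul_Res hHK hz
  have c : cx K = (cx (H + K) - z • (1 : Matrix V V ℂ)) - (cx H - z • (1 : Matrix V V ℂ)) := by
    rw [cx_add]; abel
  rw [c, Matrix.mul_sub, Matrix.sub_mul, Matrix.mul_assoc (Res789.Res H z), b, a, Matrix.one_mul,
    Matrix.mul_one]
  abel

lemma mul_Wp_apply {p : Fin n × Fin n} (hp : p.1 ≠ p.2) (A B : Matrix (Fin n) (Fin n) ℂ)
    (i j : Fin n) :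
    (A * cx (Wp p) * B) i j = A i p.1 * B p.2 j + A i p.2 * B p.1 j := by
  have h1 : ∀ b, (A * cx (Wp p)) i b = (if b = p.2 then A i p.1 else 0) +
      (if b = p.1 then A i p.2 else 0) := by
    intro b
    rw [Matrix.mul_apply]
    have h2 : ∀ a, A i a * cx (Wp p) a b = (if a = p.1 then (if b = p.2 then A i a else 0) else 0) +
        (if a = p.2 then (if b = p.1 then A i a else 0) else 0) := by
      intro a
      rw [cx_apply]
      unfold SwAvg798.Wp
      by_cases c1 : a = p.1 <;> by_cases c2 : a = p.2 <;> by_cases c3 : b = p.1 <;>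
        by_cases c4 : b = p.2 <;> simp_all
    rw [Finset.sum_congr rfl fun a _ => h2 a, Finset.sum_add_distrib]
    simp
  rw [Matrix.mul_apply]
  rw [Finset.sum_congr rfl fun b _ => by rw [h1 b]]
  simp [add_mul, Finset.sum_add_distrib]

lemma entry_sq_le {P : Type*} [Fintype P] [DecidableEq P] (Z : Matrix P P ℂ) {i j : P}
    (h : i ≠ j) : ‖Z i j‖ ^ 2 ≤ offsq Z := by
  unfold offsq
  have h1 : ‖Z i j‖ ^ 2 = if i = j then 0 else ‖Z i j‖ ^ 2 := by rw [if_neg h]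
  rw [h1]
  refine (Finset.single_le_sum (f := fun l => if i = l then (0 : ℝ) else ‖Z i l‖ ^ 2)
    (fun l _ => by split_ifs <;> positivity) (Finset.mem_univ j)).trans ?_
  exact Finset.single_le_sum (f := fun k => ∑ l, if k = l then (0 : ℝ) else ‖Z k l‖ ^ 2)
    (fun k _ => Finset.sum_nonneg fun l _ => by split_ifs <;> positivity) (Finset.mem_univ i)

/-- the off-diagonal cavity entry of a block -/
theorem Zc_blk_le {H : Matrix (Fin n) (Fin n) ℝ} (hH : Hᵀ = H) {p q : Fin n × Fin n}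
    (hp : p.1 ≠ p.2) (hq : q.1 ≠ q.2) (E : ℝ) {η : ℝ} (hη : 0 < η) :
    ‖Zc (blk H E η p) 0 1‖ ≤ (1 + 2 / η) * Real.sqrt (offsq
      ((Res789.Res (H - Wp p - Wp q) (ze E η)).submatrix ![p.1, p.2, q.1, q.2]
        ![p.1, p.2, q.1, q.2])) := by
  have hz : 0 < (ze E η).im := by rw [ze_im]; exact hη
  set H0 := H - Wp p - Wp q with hH0
  have sH0 : H0ᵀ = H0 := by
    rw [hH0, Matrix.transpose_sub, Matrix.transpose_sub, Wp_symm, Wp_symm, hH]
  have hinj : Function.Injective (![p.1, p.2] : Fin 2 → Fin n) := by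
    intro i j hij
    fin_cases i <;> fin_cases j
    · rfl
    · exact absurd hij hp
    · exact absurd hij.symm hp
    · rfl
  have e1 : emb (![p.1, p.2] : Fin 2 → Fin n) (-W2) = -Wp p := by
    obtain ⟨x, y⟩ := p
    ext a b
    rw [emb_apply]
    simp only at hp
    simp only [Fin.sum_univ_two, W2, Matrix.neg_apply, Matrix.of_apply, Matrix.cons_val',
      Matrix.cons_val_zero, Matrix.cons_val_one, Matrix.cons_val_fin_one, SwAvg798.Wp]
    have hp' : y ≠ x := fun h => hp h.symm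
    by_cases c1 : x = a
    · subst c1
      by_cases c3 : x = b
      · subst c3; simp [hp, hp']
      · by_cases c4 : y = b
        · subst c4; simp [hp, hp']
        · simp [c3, c4, hp, hp', Ne.symm (a := y) (b := b) c4]
    · by_cases c2 : y = a
      · subst c2
        by_cases c3 : x = b
        · subst c3; simp [hp, hp']
        · simp [c3, hp, hp', Ne.symm (a := x) (b := b) c3]
      · simp [c1, c2, Ne.symm (a := x) (b := a) c1, Ne.symm (a := y) (b := a) c2]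
  have e2 : Zc (blk H E η p) 0 1 = Res789.Res (H0 + Wp q) (ze E η) p.1 p.2 := by
    have h1 := Res_emb_block hH hz hinj (K := -W2) negW2_symm
    rw [e1] at h1
    have h2 : H + -Wp p = H0 + Wp q := by rw [hH0]; abel
    rw [h2] at h1
    have h3 := congrFun (congrFun h1 0) 1
    rw [Matrix.submatrix_apply] at h3
    exact h3.symm
  set O := offsq ((Res789.Res H0 (ze E η)).submatrix ![p.1, p.2, q.1, q.2]
        ![p.1, p.2, q.1, q.2]) with hO
  have hO0 : 0 ≤ O := offsq_nonneg _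
  have b1 : ‖Res789.Res H0 (ze E η) p.1 p.2‖ ≤ Real.sqrt O :=
    Real.le_sqrt_of_sq_le (entry_sq_le ((Res789.Res H0 (ze E η)).submatrix ![p.1, p.2, q.1, q.2]
        ![p.1, p.2, q.1, q.2]) (i := 0) (j := 1) (by decide))
  have b2 : ‖Res789.Res H0 (ze E η) p.1 q.1‖ ≤ Real.sqrt O :=
    Real.le_sqrt_of_sq_le (entry_sq_le ((Res789.Res H0 (ze E η)).submatrix ![p.1, p.2, q.1, q.2]
        ![p.1, p.2, q.1, q.2]) (i := 0) (j := 2) (by decide))
  have b3 : ‖Res789.Res H0 (ze E η) p.1 q.2‖ ≤ Real.sqrt O :=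
    Real.le_sqrt_of_sq_le (entry_sq_le ((Res789.Res H0 (ze E η)).submatrix ![p.1, p.2, q.1, q.2]
        ![p.1, p.2, q.1, q.2]) (i := 0) (j := 3) (by decide))
  have sH1 : (H0 + Wp q)ᵀ = H0 + Wp q := by rw [Matrix.transpose_add, sH0, Wp_symm]
  have c1 : ∀ v v', ‖Res789.Res (H0 + Wp q) (ze E η) v v'‖ ≤ 1 / η := by
    intro v v'
    have := norm_Res_le sH1 hz v v'
    rwa [ze_im] at this
  rw [e2, res_id sH0 (Wp_symm q) hz, Matrix.sub_apply, mul_Wp_apply hq]
  have hs0 := Real.sqrt_nonneg O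
  calc _ ≤ ‖Res789.Res H0 (ze E η) p.1 p.2‖ +
        (‖Res789.Res H0 (ze E η) p.1 q.1‖ * ‖Res789.Res (H0 + Wp q) (ze E η) q.2 p.2‖ +
          ‖Res789.Res H0 (ze E η) p.1 q.2‖ * ‖Res789.Res (H0 + Wp q) (ze E η) q.1 p.2‖) := by
        refine (norm_sub_le _ _).trans (add_le_add le_rfl ?_)
        refine (norm_add_le _ _).trans (le_of_eq ?_)
        rw [norm_mul, norm_mul]
    _ ≤ Real.sqrt O + (Real.sqrt O * (1 / η) + Real.sqrt O * (1 / η)) := by
        refine add_le_add b1 (add_le_add ?_ ?_)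
        · exact mul_le_mul b2 (c1 _ _) (norm_nonneg _) hs0
        · exact mul_le_mul b3 (c1 _ _) (norm_nonneg _) hs0
    _ = _ := by ring

lemma blk_symm {H : Matrix (Fin n) (Fin n) ℝ} (hH : Hᵀ = H) (E : ℝ) {η : ℝ} (hη : 0 < η)
    (p : Fin n × Fin n) : (blk H E η p)ᵀ = blk H E η p := by
  have hz : 0 < (ze E η).im := by rw [ze_im]; exact hη
  have h1 : (Crest.Agent.R166.Res H (ze E η))ᵀ = Crest.Agent.R166.Res H (ze E η) :=
    Res_transpose hH hz
  unfold Inv988.blk Blk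
  rw [Matrix.transpose_submatrix, h1]

lemma blk_bnorm_le {H : Matrix (Fin n) (Fin n) ℝ} (hH : Hᵀ = H) (E : ℝ) {η : ℝ} (hη : 0 < η)
    (p : Fin n × Fin n) : bnorm (blk H E η p) ≤ 1 / η := by
  have hz : 0 < (ze E η).im := by rw [ze_im]; exact hη
  rw [bnorm_le_iff]
  intro i j
  have := norm_Res_le hH hz (![p.1, p.2] i) (![p.1, p.2] j)
  rw [ze_im] at this
  exact this

end det

/-! ### the off-diagonal estimate -/

open Classical in
/-- average over valid pairs of the off-diagonal mass of the four ports -/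
noncomputable def offA {n : ℕ} (G : SimpleGraph (Fin n)) (s : ℝ) (ω : Fin n → ℝ) (E η : ℝ) : ℝ :=
  eAvg2 G fun p q => if VSw G p.1 p.2 q.1 q.2 then
    offsq ((Res789.Res (Hm G s ω - Wp p - Wp q) (ze E η)).submatrix
      ![p.1, p.2, q.1, q.2] ![p.1, p.2, q.1, q.2]) else 0

/-- (S2b) the off-diagonal cavity entries are small at fixed `η` -/
def OffB (d : ℕ) (s E : ℝ) : Prop :=
  ∀ η : ℝ, 0 < η → ∃ C : ℝ, ∀ n : ℕ, 0 < n →
    regularAverage n d (fun G => ∫ ω, offA G s ω E η ∂potentialLaw n) ≤ C / n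

section offA

variable {n : ℕ}

lemma offsq_le {P : Type*} [Fintype P] [DecidableEq P] {Z : Matrix P P ℂ} {c : ℝ} (hc : 0 ≤ c)
    (h : ∀ i j, ‖Z i j‖ ≤ c) : offsq Z ≤ (Fintype.card P : ℝ) ^ 2 * c ^ 2 := by
  unfold offsq
  have h1 : ∀ k l, (if k = l then (0 : ℝ) else ‖Z k l‖ ^ 2) ≤ c ^ 2 := by
    intro k l
    split_ifs
    · positivity
    · exact pow_le_pow_left₀ (norm_nonneg _) (h k l) 2
  refine (Finset.sum_le_sum fun k _ => Finset.sum_le_sum fun l _ => h1 k l).trans (le_of_eq ?_)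
  simp only [Finset.sum_const, Finset.card_univ, nsmul_eq_mul]
  ring

lemma offsq_res_le {H : Matrix (Fin n) (Fin n) ℝ} (hH : Hᵀ = H) (p q : Fin n × Fin n) (E : ℝ)
    {η : ℝ} (hη : 0 < η) :
    offsq ((Res789.Res (H - Wp p - Wp q) (ze E η)).submatrix
      ![p.1, p.2, q.1, q.2] ![p.1, p.2, q.1, q.2]) ≤ 16 * (1 / η) ^ 2 := by
  have hz : 0 < (ze E η).im := by rw [ze_im]; exact hη
  have sH0 : (H - Wp p - Wp q)ᵀ = H - Wp p - Wp q := by
    rw [Matrix.transpose_sub, Matrix.transpose_sub, Wp_symm, Wp_symm, hH]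
  refine (offsq_le (c := 1 / η) (by positivity) fun i j => ?_).trans (le_of_eq ?_)
  · rw [Matrix.submatrix_apply]
    have := norm_Res_le sH0 hz (![p.1, p.2, q.1, q.2] i) (![p.1, p.2, q.1, q.2] j)
    rwa [ze_im] at this
  · norm_num

open MeasMat93 in
lemma measurable_offsq (G : SimpleGraph (Fin n)) (s E η : ℝ) (p q : Fin n × Fin n) :
    Measurable fun ω : Fin n → ℝ => offsq ((Res789.Res (Hm G s ω - Wp p - Wp q)
      (ze E η)).submatrix ![p.1, p.2, q.1, q.2] ![p.1, p.2, q.1, q.2]) := by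
  have h1 : MM (fun ω : Fin n → ℝ => Hm G s ω - Wp p - Wp q) :=
    ((MeasC780.MM_Hm G s).sub (MM.const _)).sub (MM.const _)
  have h2 : MM (fun ω : Fin n → ℝ => Crest.Agent.R166.Res (Hm G s ω - Wp p - Wp q) (ze E η)) :=
    MeasC780.MM_res h1 (z := fun _ => ze E η) measurable_const
  have h3 := MeasC780.MM_submatrix h2 ![p.1, p.2, q.1, q.2] ![p.1, p.2, q.1, q.2]
  unfold offsq
  refine Finset.measurable_sum _ fun k _ => Finset.measurable_sum _ fun l _ => ?_
  split_ifs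
  · exact measurable_const
  · exact (h3 k l).norm.pow_const 2

lemma good_offA (s E : ℝ) {η : ℝ} (hη : 0 < η) :
    MeasC780.Good n (16 * (1 / η) ^ 2) fun G ω => offA G s ω E η := by
  constructor
  · intro G
    unfold offA
    refine MeasC780.measurable_eAvg2 G fun p q => ?_
    split_ifs
    · exact measurable_offsq G s E η p q
    · exact measurable_const
  · intro G ω
    refine MeasC780.abs_eAvg2_le G (by positivity) fun p q => ?_
    split_ifs
    · rw [abs_of_nonneg (offsq_nonneg _)]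
      exact offsq_res_le (Stab269.Hm_symm G s ω) p q E hη
    · simp only [abs_zero]
      positivity

lemma eAvg2_nonneg {G : SimpleGraph (Fin n)} {F : Fin n × Fin n → Fin n × Fin n → ℝ}
    (h : ∀ p q, 0 ≤ F p q) : 0 ≤ eAvg2 G F := by
  unfold Inv988.eAvg2
  exact div_nonneg (Finset.sum_nonneg fun _ _ => Finset.sum_nonneg fun _ _ => h _ _)
    (by positivity)

lemma offA_nonneg (G : SimpleGraph (Fin n)) (s : ℝ) (ω : Fin n → ℝ) (E η : ℝ) :
    0 ≤ offA G s ω E η := by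
  unfold offA
  refine eAvg2_nonneg fun p q => ?_
  split_ifs
  · exact offsq_nonneg _
  · exact le_rfl

/-- Markov's inequality -/
lemma whp_of_EGo {d : ℕ} {B a ε : ℝ} {Φ : SimpleGraph (Fin n) → (Fin n → ℝ) → ℝ}
    (hΦ : MeasC780.Good n B Φ) (h0 : ∀ G ω, 0 ≤ Φ G ω) (ha : 0 < a)
    (hne : (regularGraphs n d).Nonempty) (h : MeasC780.EGo n d Φ ≤ a * ε) :
    Whp n d ε fun G ω => Φ G ω ≤ a := by
  have hP := MeasC780.law_prob hne
  rw [MeasC780.EGo_eq_integral hΦ hne] at h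
  have h1 := mul_meas_ge_le_integral_of_nonneg (μ := law n d)
    (f := fun x : SimpleGraph (Fin n) × (Fin n → ℝ) => Φ x.1 x.2)
    (Filter.Eventually.of_forall fun x => h0 x.1 x.2) (hΦ.integrable_law hne) a
  have h2 : (law n d).real {x | a ≤ Φ x.1 x.2} ≤ ε := by
    have := h1.trans h
    exact le_of_mul_le_mul_left this ha
  unfold Whp
  have h3 : {x : SimpleGraph (Fin n) × (Fin n → ℝ) | ¬ Φ x.1 x.2 ≤ a} ⊆
      {x | a ≤ Φ x.1 x.2} := by
    intro x hx
    exact (not_le.1 hx).le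
  refine (measure_mono h3).trans ?_
  rw [← ENNReal.ofReal_toReal (measure_ne_top (law n d) {x | a ≤ Φ x.1 x.2})]
  exact ENNReal.ofReal_le_ofReal h2

lemma whp_offA {d : ℕ} {s E : ℝ} (hO : OffB d s E) {η : ℝ} (hη : 0 < η) {t ε : ℝ} (ht : 0 < t)
    (hε : 0 < ε) : ∃ N : ℕ, ∀ n : ℕ, N ≤ n → (regularGraphs n d).Nonempty →
      Whp n d ε fun G ω => offA G s ω E η ≤ t := by
  obtain ⟨C, hC⟩ := hO η hη
  obtain ⟨N, hN⟩ := exists_nat_gt (C / (t * ε))
  refine ⟨max N 1, fun n hn hne => ?_⟩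
  have hn1 : 0 < n := by omega
  have hnN : (N : ℝ) ≤ n := by exact_mod_cast (le_max_left N 1).trans hn
  refine whp_of_EGo (good_offA s E hη) (fun G ω => offA_nonneg G s ω E η) ht hne ?_
  refine (hC n hn1).trans ?_
  have hn' : (0 : ℝ) < n := by exact_mod_cast hn1
  rw [div_le_iff₀ hn']
  have h1 : C < (n : ℝ) * (t * ε) := by
    rw [div_lt_iff₀ (by positivity)] at hN
    have : (N : ℝ) * (t * ε) ≤ n * (t * ε) := by gcongr
    linarith
  linarith

end offA

end Crest.Agent.R166.InvP348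
end

-- ▼ part R166/InvP6_348
section

/-!
Row 166, section 50 (helper348): existence of a support point of the environment.
-/

set_option autoImplicit false
set_option linter.unusedSectionVars false

namespace Crest.Agent.R166.InvP348

open Matrix Complex Topology MeasureTheory Crest.ProbabilityR.RandomMatrix
open Crest.Agent.R166.Res789 Crest.Agent.R166.InvB348
open Crest.Agent.R166.SwAvg798 (Wp)
open Crest.Agent.R166.Sw798 (VSw)
open Crest.Agent.R166.Inv988 (M2 blk eAvg2)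

lemma negE_add {d : ℕ} {s E : ℝ} {χ1 χ2 : M2 → ℝ} (h1 : NegE d s E χ1) (h2 : NegE d s E χ2) :
    NegE d s E fun b => χ1 b + χ2 b := by
  intro ε hε
  obtain ⟨η1, hη1, H1⟩ := h1 (ε / 2) (by positivity)
  obtain ⟨η2, hη2, H2⟩ := h2 (ε / 2) (by positivity)
  refine ⟨min η1 η2, by positivity, fun η hη hle => ?_⟩
  obtain ⟨N1, hN1⟩ := H1 η hη (hle.trans (min_le_left _ _))
  obtain ⟨N2, hN2⟩ := H2 η hη (hle.trans (min_le_right _ _))
  refine ⟨max N1 N2, fun n hn hne => ?_⟩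
  have w := whp_and (by positivity) (by positivity) (hN1 n (by omega) hne) (hN2 n (by omega) hne)
  refine whp_mono_eps (whp_mono w fun G ω hG => ?_) (by linarith)
  rw [eAvg_add]
  linarith [hG.1, hG.2]

lemma negE_zero (d : ℕ) (s E : ℝ) : NegE d s E fun _ => 0 := by
  intro ε hε
  refine ⟨1, one_pos, fun η hη _ => ⟨0, fun n _ _ => ?_⟩⟩
  refine whp_true hε.le fun G ω => ?_
  exact (eAvg_const_le le_rfl).trans hε.le

lemma negE_sum {d : ℕ} {s E : ℝ} (T : Finset (M2 → ℝ)) (h : ∀ χ ∈ T, NegE d s E χ) :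
    NegE d s E fun b => ∑ χ ∈ T, χ b := by
  classical
  induction T using Finset.induction_on with
  | empty => simpa using negE_zero d s E
  | insert χ T hχ ih =>
    have h1 := negE_add (h χ (Finset.mem_insert_self _ _))
      (ih fun φ hφ => h φ (Finset.mem_insert_of_mem hφ))
    simpa [Finset.sum_insert hχ] using h1

lemma entry_le_bnorm (B : M2) (i j : Fin 2) : ‖B i j‖ ≤ bnorm B := (bnorm_le_iff B _).1 le_rfl i j

lemma bnorm_add_le (A B : M2) : bnorm (A + B) ≤ bnorm A + bnorm B := by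
  rw [bnorm_le_iff]
  intro i j
  rw [Matrix.add_apply]
  exact (norm_add_le _ _).trans (add_le_add (entry_le_bnorm _ _ _) (entry_le_bnorm _ _ _))

lemma bnorm_sub_comm (A B : M2) : bnorm (A - B) = bnorm (B - A) := by
  apply le_antisymm
  · rw [bnorm_le_iff]
    intro i j
    rw [Matrix.sub_apply, norm_sub_rev, ← Matrix.sub_apply]
    exact entry_le_bnorm _ _ _
  · rw [bnorm_le_iff]
    intro i j
    rw [Matrix.sub_apply, norm_sub_rev, ← Matrix.sub_apply]
    exact entry_le_bnorm _ _ _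

/-- the law charges regular graphs only -/
lemma whp_regular (n d : ℕ) : Whp n d 0 fun G _ => G ∈ regularGraphs n d := by
  unfold Whp law
  have h1 : {x : SimpleGraph (Fin n) × (Fin n → ℝ) | ¬ x.1 ∈ regularGraphs n d} =
      {G | ¬ G ∈ regularGraphs n d} ×ˢ Set.univ := by
    ext x
    simp
  have := MeasC780.gaussM_prob
  rw [h1, Measure.prod_prod]
  have h2 : (gLaw n d) {G | ¬ G ∈ regularGraphs n d} = 0 := by
    unfold gLaw
    rw [Measure.smul_apply, Measure.finsetSum_apply]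
    have h3 : ∑ G ∈ regularGraphs n d, (Measure.dirac G : Measure (SimpleGraph (Fin n)))
        {G | ¬ G ∈ regularGraphs n d} = 0 := by
      refine Finset.sum_eq_zero fun G hG => ?_
      rw [Measure.dirac_apply, Set.indicator_of_notMem]
      simpa using hG
    rw [h3]
    simp
  rw [h2, zero_mul]
  simp

section avg2

variable {n : ℕ} {G : SimpleGraph (Fin n)}

lemma eAvg2_add (F F' : Fin n × Fin n → Fin n × Fin n → ℝ) :
    eAvg2 G (fun p q => F p q + F' p q) = eAvg2 G F + eAvg2 G F' := by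
  unfold Inv988.eAvg2
  simp only [Finset.sum_add_distrib, add_div]

lemma eAvg2_const_mul (c : ℝ) (F : Fin n × Fin n → Fin n × Fin n → ℝ) :
    eAvg2 G (fun p q => c * F p q) = c * eAvg2 G F := by
  unfold Inv988.eAvg2
  simp only [← Finset.mul_sum, mul_div_assoc]

lemma eAvg2_fst (hG : (darts G).Nonempty) (F : Fin n → Fin n → ℝ) :
    eAvg2 G (fun p _ => F p.1 p.2) = eAvg G F := by
  have hc : (0 : ℝ) < (darts G).card := by exact_mod_cast Finset.card_pos.2 hG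
  unfold Inv988.eAvg2 eAvg
  simp only [Finset.sum_const, nsmul_eq_mul, ← Finset.mul_sum]
  field_simp

lemma eAvg2_one (hG : (darts G).Nonempty) : eAvg2 G (fun _ _ => 1) = 1 := by
  have hc : (0 : ℝ) < (darts G).card := by exact_mod_cast Finset.card_pos.2 hG
  unfold Inv988.eAvg2
  simp only [Finset.sum_const, nsmul_eq_mul, mul_one]
  field_simp

open Classical in
lemma eAvg2_invalid {d : ℕ} (hn : 0 < n) (hd : 0 < d) (hG : G ∈ regularGraphs n d) :
    eAvg2 G (fun p q => if VSw G p.1 p.2 q.1 q.2 then 0 else 1) ≤ 2 * (d + 2) / n := by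
  have hn' : (0 : ℝ) < n := by exact_mod_cast hn
  have hd' : (0 : ℝ) < d := by exact_mod_cast hd
  rw [SwAvg798.eAvg2_eq hG]
  have h1 : ∑ e ∈ SwAvg798.dd G, (if VSw G e.1.1 e.1.2 e.2.1 e.2.2 then (0 : ℝ) else 1) =
      ((SwAvg798.dd G).filter fun e => ¬ VSw G e.1.1 e.1.2 e.2.1 e.2.2).card := by
    rw [Finset.card_filter]
    push_cast
    refine Finset.sum_congr rfl fun e _ => ?_
    by_cases h : VSw G e.1.1 e.1.2 e.2.1 e.2.2 <;> simp [h]
  rw [h1]
  have hG' : G ∈ Sw798.Reg (Fin n) d := by rwa [← Sw798.regularGraphs_eq]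
  have h2 := SwAvg798.card_bad hG'
  rw [Fintype.card_fin] at h2
  have h3 : (((SwAvg798.dd G).filter fun e => ¬ VSw G e.1.1 e.1.2 e.2.1 e.2.2).card : ℝ) ≤
      (n * d) * (2 * d * (d + 2)) := by exact_mod_cast h2
  rw [div_le_div_iff₀ (by positivity) hn']
  calc (((SwAvg798.dd G).filter fun e => ¬ VSw G e.1.1 e.1.2 e.2.1 e.2.2).card : ℝ) * n
      ≤ (n * d) * (2 * d * (d + 2)) * n := by gcongr
    _ = 2 * (d + 2) * (n * d) ^ 2 := by ring

end avg2

/-- **support point of the environment** -/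
theorem exists_support {d : ℕ} (hd : 0 < d) {s E : ℝ} (hEnv : EnvDet d s E) (hLoc : LocLim d s E)
    (hND : NonDeg d s E) (hOff : OffB d s E)
    (hne : ∀ N : ℕ, ∃ n : ℕ, N ≤ n ∧ (regularGraphs n d).Nonempty) :
    ∃ x1 x2 : ℂ, 0 < x1.im ∧ 0 < x2.im ∧ ∀ χ : M2 → ℝ, Continuous χ → HasCompactSupport χ →
      (∀ b, 0 ≤ χ b) → 0 < χ (Ze2 x1 x2) → PosE d s E χ := by
  classical
  by_contra hcon
  push Not at hcon
  set F : Set (M2 → ℝ) := {χ | Continuous χ ∧ HasCompactSupport χ ∧ (∀ b, 0 ≤ χ b) ∧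
    ¬ PosE d s E χ} with hF
  obtain ⟨η1, hη1, K1, hK1, hL⟩ := hLoc (1 / 32) (by norm_num)
  obtain ⟨δ, hδ, η2, hη2, hN2⟩ := hND (1 / 8) (by norm_num)
  obtain ⟨T, hTF, κ, hκ, θ, hθ, hcomp⟩ := compact_cover (M := 1 + 1 / η1) hδ F
    (fun χ hχ => ⟨hχ.1, hχ.2.2.1⟩) (by
      intro x1 x2 h1 h2
      obtain ⟨χ, a1, a2, a3, a4, a5⟩ := hcon x1 x2 h1 h2
      exact ⟨χ, ⟨a1, a2, a3, a5⟩, a4⟩)
  have hNeg : NegE d s E fun b => ∑ χ ∈ T, χ b := negE_sum T fun χ hχ =>
    dichotomy hEnv hLoc hne (hTF χ hχ).1 (hTF χ hχ).2.1 (hTF χ hχ).2.2.2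
  obtain ⟨η3, hη3, hN3⟩ := hNeg (min (κ / 8) (1 / 8)) (by positivity)
  set η := min η1 (min η2 η3) with hηdef
  have hη : 0 < η := by positivity
  have hηle1 : η ≤ η1 := min_le_left _ _
  have hηle2 : η ≤ η2 := (min_le_right _ _).trans (min_le_left _ _)
  have hηle3 : η ≤ η3 := (min_le_right _ _).trans (min_le_right _ _)
  set t0 := (θ / (1 + 2 / η)) ^ 2 with ht0
  have ht0p : 0 < t0 := by positivity
  obtain ⟨M1, hM1⟩ := hL η hη hηle1 K1 le_rfl
  obtain ⟨M2', hM2⟩ := hL η1 hη1 le_rfl K1 le_rfl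
  obtain ⟨M3, hM3⟩ := hN2 η hη hηle2
  obtain ⟨M4, hM4⟩ := hN3 η hη hηle3
  obtain ⟨M5, hM5⟩ := whp_offA hOff hη (t := t0 / 8) (ε := 1 / 8) (by positivity) (by norm_num)
  obtain ⟨n, hn, hnne⟩ := hne (max (max (max M1 M2') (max M3 M4)) (max M5 (16 * (d + 2) + 1)))
  have hn0 : 0 < n := by omega
  have w1 := hM1 n (by omega) hnne
  have w2 := hM2 n (by omega) hnne
  have w3 := hM3 n (by omega) hnne
  have w4 := whp_mono_eps (hM4 n (by omega) hnne) (min_le_right _ _)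
  have w5 := hM5 n (by omega) hnne
  have w6 := whp_regular n d
  have w := whp_and (by norm_num) (by norm_num)
    (whp_and (by norm_num) (by norm_num) (whp_and (by norm_num) (by norm_num) w1 w2)
      (whp_and (by norm_num) (by norm_num) w3 w4))
    (whp_and (by norm_num) (by norm_num) w5 w6)
  obtain ⟨G, ω, ⟨⟨g1, g2⟩, g3, g4⟩, g5, g6⟩ := whp_exists hnne w (by norm_num)
  have hn' : (0 : ℝ) < n := by exact_mod_cast hn0
  have hdarts : (darts G).Nonempty := by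
    rw [← Finset.card_pos]
    have := SwAvg798.card_darts_real g6
    have h2 : (0 : ℝ) < (darts G).card := by rw [this]; positivity
    exact_mod_cast h2
  have hinv := eAvg2_invalid hn0 hd g6
  set H := Hm G s ω with hH
  have sH : Hᵀ = H := Stab269.Hm_symm G s ω
  -- the pointwise inequality
  have hpt : ∀ p q : Fin n × Fin n, (1 : ℝ) ≤
      ((min 1 (bnorm (Blk (Res H (zz E K1 n)) p.1 p.2 - Blk (Res H (ze E η)) p.1 p.2)) +
        min 1 (bnorm (Blk (Res H (zz E K1 n)) p.1 p.2 - Blk (Res H (ze E η1)) p.1 p.2))) +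
      ((if ∀ x : Fin 2 → ℝ, δ * (x 0 ^ 2 + x 1 ^ 2) ≤
          ∑ a, ∑ b, x a * (Blk (Res H (ze E η)) p.1 p.2 a b).im * x b then 0 else 1) +
        κ⁻¹ * ∑ χ ∈ T, χ (Blk (Res H (ze E η)) p.1 p.2))) +
      (t0⁻¹ * (if VSw G p.1 p.2 q.1 q.2 then
        offsq ((Res789.Res (H - Wp p - Wp q) (ze E η)).submatrix
          ![p.1, p.2, q.1, q.2] ![p.1, p.2, q.1, q.2]) else 0) +
        (if VSw G p.1 p.2 q.1 q.2 then 0 else 1)) := by
    intro p q
    by_contra hlt
    push Not at hlt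
    have m1 : 0 ≤ min 1 (bnorm (Blk (Res H (zz E K1 n)) p.1 p.2 - Blk (Res H (ze E η)) p.1 p.2)) :=
      le_min zero_le_one (bnorm_nonneg _)
    have m2 : 0 ≤ min 1 (bnorm (Blk (Res H (zz E K1 n)) p.1 p.2 - Blk (Res H (ze E η1)) p.1 p.2)) :=
      le_min zero_le_one (bnorm_nonneg _)
    have m3 : (0 : ℝ) ≤ (if ∀ x : Fin 2 → ℝ, δ * (x 0 ^ 2 + x 1 ^ 2) ≤
          ∑ a, ∑ b, x a * (Blk (Res H (ze E η)) p.1 p.2 a b).im * x b then 0 else 1) := by
      split_ifs <;> norm_num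
    have m4 : 0 ≤ κ⁻¹ * ∑ χ ∈ T, χ (Blk (Res H (ze E η)) p.1 p.2) :=
      mul_nonneg (by positivity) (Finset.sum_nonneg fun χ hχ => (hTF χ hχ).2.2.1 _)
    have m5 : 0 ≤ t0⁻¹ * (if VSw G p.1 p.2 q.1 q.2 then
        offsq ((Res789.Res (H - Wp p - Wp q) (ze E η)).submatrix
          ![p.1, p.2, q.1, q.2] ![p.1, p.2, q.1, q.2]) else 0) := by
      refine mul_nonneg (by positivity) ?_
      split_ifs
      · exact offsq_nonneg _
      · exact le_rfl
    have hv : VSw G p.1 p.2 q.1 q.2 := by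
      by_contra hv
      rw [if_neg hv, if_neg hv] at hlt
      linarith
    rw [if_pos hv, if_pos hv] at hlt
    rw [if_pos hv] at m5
    have hnd : ∀ x : Fin 2 → ℝ, δ * (x 0 ^ 2 + x 1 ^ 2) ≤
          ∑ a, ∑ b, x a * (Blk (Res H (ze E η)) p.1 p.2 a b).im * x b := by
      by_contra hnd
      rw [if_neg hnd] at hlt
      linarith
    rw [if_pos hnd] at hlt
    -- the bound of the block
    have hM : bnorm (Blk (Res H (ze E η)) p.1 p.2) ≤ 1 + 1 / η1 := by
      set Z := Blk (Res H (zz E K1 n)) p.1 p.2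
      set b := Blk (Res H (ze E η)) p.1 p.2
      set b' := Blk (Res H (ze E η1)) p.1 p.2 with hb'
      have a1 : bnorm (Z - b) < 1 := by
        by_contra hc
        push Not at hc
        rw [min_eq_left hc] at hlt
        linarith
      have a2 : bnorm (Z - b') < 1 := by
        by_contra hc
        push Not at hc
        rw [min_eq_left hc] at hlt
        linarith
      rw [min_eq_right a1.le, min_eq_right a2.le] at hlt
      rw [min_eq_right a1.le] at m1
      have a3 : b = (b - Z) + ((Z - b') + b') := by abel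
      have a4 : bnorm b' ≤ 1 / η1 := blk_bnorm_le sH E hη1 p
      have a5 := bnorm_add_le (b - Z) ((Z - b') + b')
      have a6 := bnorm_add_le (Z - b') b'
      rw [← a3, bnorm_sub_comm] at a5
      linarith
    have hK : Blk (Res H (ze E η)) p.1 p.2 ∈ KK (1 + 1 / η1) δ :=
      ⟨blk_symm sH E hη p, hM, hnd⟩
    -- the off-diagonal entry
    have hoff : ‖Zc (Blk (Res H (ze E η)) p.1 p.2) 0 1‖ ≤ θ := by
      have z1 := Zc_blk_le sH hv.xy.ne hv.uw.ne E hη (p := p) (q := q)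
      refine z1.trans ?_
      have z2 : offsq ((Res789.Res (H - Wp p - Wp q) (ze E η)).submatrix
          ![p.1, p.2, q.1, q.2] ![p.1, p.2, q.1, q.2]) ≤ t0 := by
        by_contra hc
        push Not at hc
        have : 1 ≤ t0⁻¹ * offsq ((Res789.Res (H - Wp p - Wp q) (ze E η)).submatrix
          ![p.1, p.2, q.1, q.2] ![p.1, p.2, q.1, q.2]) := by
          rw [inv_mul_eq_div, le_div_iff₀ ht0p]
          linarith
        linarith
      have z3 := Real.sqrt_le_sqrt z2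
      have hpos : 0 < 1 + 2 / η := by positivity
      rw [ht0, Real.sqrt_sq (by positivity)] at z3
      calc (1 + 2 / η) * Real.sqrt _ ≤ (1 + 2 / η) * (θ / (1 + 2 / η)) := by gcongr
        _ = θ := by field_simp
    have hfin := hcomp _ hK hoff
    have : 1 ≤ κ⁻¹ * ∑ χ ∈ T, χ (Blk (Res H (ze E η)) p.1 p.2) := by
      rw [inv_mul_eq_div, le_div_iff₀ hκ]
      linarith
    linarith
  -- average
  have havg := MeasC780.eAvg2_mono G hpt
  rw [eAvg2_one hdarts, eAvg2_add, eAvg2_add (F := fun p q => t0⁻¹ * _), eAvg2_const_mul] at havg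
  rw [eAvg2_fst hdarts (fun u w => (min 1 (bnorm (Blk (Res H (zz E K1 n)) u w -
      Blk (Res H (ze E η)) u w)) +
      min 1 (bnorm (Blk (Res H (zz E K1 n)) u w - Blk (Res H (ze E η1)) u w))) +
      ((if ∀ x : Fin 2 → ℝ, δ * (x 0 ^ 2 + x 1 ^ 2) ≤
          ∑ a, ∑ b, x a * (Blk (Res H (ze E η)) u w a b).im * x b then 0 else 1) +
        κ⁻¹ * ∑ χ ∈ T, χ (Blk (Res H (ze E η)) u w)))] at havg
  rw [eAvg_add, eAvg_add] at havg
  have hsplit := eAvg_add (G := G) (fun u w => (if ∀ x : Fin 2 → ℝ, δ * (x 0 ^ 2 + x 1 ^ 2) ≤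
          ∑ a, ∑ b, x a * (Blk (Res H (ze E η)) u w a b).im * x b then (0 : ℝ) else 1))
        (fun u w => κ⁻¹ * ∑ χ ∈ T, χ (Blk (Res H (ze E η)) u w))
  rw [hsplit, eAvg_const_mul] at havg
  have i3 : 2 * ((d : ℝ) + 2) / n ≤ 1 / 8 := by
    rw [div_le_div_iff₀ hn' (by norm_num)]
    have : (16 * (d + 2) + 1 : ℕ) ≤ n := by omega
    have h2 : ((16 * (d + 2) + 1 : ℕ) : ℝ) ≤ n := by exact_mod_cast this
    push_cast at h2
    linarith
  have i4 : κ⁻¹ * eAvg G (fun u w => ∑ χ ∈ T, χ (Blk (Res H (ze E η)) u w)) ≤ 1 / 8 := by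
    have := g4.trans (min_le_left _ _)
    rw [inv_mul_eq_div, div_le_iff₀ hκ]
    linarith
  have i5 : t0⁻¹ * offA G s ω E η ≤ 1 / 8 := by
    rw [inv_mul_eq_div, div_le_iff₀ ht0p]
    linarith
  unfold offA at i5
  linarith

end Crest.Agent.R166.InvP348
end

-- ▼ part R166/InvDb_348
section

/-!
Row 166, section 50 (helper348): the averaged array under the edge switching.
-/

set_option autoImplicit false
set_option linter.unusedSectionVars false

namespace Crest.Agent.R166.InvD348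

open Matrix Complex Crest.Agent.R166 Crest.Agent.R166.Inv988 Crest.Agent.R166.InvB348
  Crest.Agent.R166.InvC348 Crest.Agent.R166.SwAvg798 Crest.Agent.R166.Sw798
open MeasureTheory Crest.Agent.R166.MeasMat93 Crest.Agent.R166.MeasC780

variable {n m : ℕ}

lemma finite_sing (H : Matrix (Fin n) (Fin n) ℝ) :
    {e : ℝ | ¬ IsUnit (H - e • (1 : Matrix (Fin n) (Fin n) ℝ)).det}.Finite := by
  have h1 : {e : ℝ | ¬ IsUnit (H - e • (1 : Matrix (Fin n) (Fin n) ℝ)).det} ⊆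
      (H.charpoly.roots.toFinset : Set ℝ) := by
    intro e he
    simp only [Set.mem_ofPred_eq, isUnit_iff_ne_zero, not_not] at he
    rw [Finset.mem_coe, Multiset.mem_toFinset, Polynomial.mem_roots (H.charpoly_monic.ne_zero),
      Polynomial.IsRoot.def, Matrix.eval_charpoly]
    have h2 : (Matrix.scalar (Fin n)) e - H = -(H - e • (1 : Matrix (Fin n) (Fin n) ℝ)) := by
      rw [neg_sub, Matrix.scalar_apply, ← Matrix.smul_one_eq_diagonal]
    rw [h2, Matrix.det_neg, he, mul_zero]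
  exact (Finset.finite_toSet _).subset h1

lemma ae_isUnit (hn : 0 < n) (H : Matrix (Fin n) (Fin n) ℝ) (E : ℝ) :
    ∀ᵐ x : ℝ, IsUnit (H - (E + x / n) • (1 : Matrix (Fin n) (Fin n) ℝ)).det := by
  have h1 : {x : ℝ | ¬ IsUnit (H - (E + x / n) • (1 : Matrix (Fin n) (Fin n) ℝ)).det} =
      (fun x : ℝ => E + x / n) ⁻¹'
        {e : ℝ | ¬ IsUnit (H - e • (1 : Matrix (Fin n) (Fin n) ℝ)).det} := rfl
  have h2 : Function.Injective (fun x : ℝ => E + x / n) := by
    intro x y hxy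
    have hn' : (n : ℝ) ≠ 0 := by exact_mod_cast hn.ne'
    simp only [add_right_inj] at hxy
    field_simp at hxy
    exact hxy
  have h3 := (finite_sing H).preimage (f := fun x : ℝ => E + x / n) h2.injOn
  rw [← h1] at h3
  exact h3.measure_zero _

/-- averages over `x ∈ [0,δ]` and a probability space, comparison -/
lemma avg_close {𝓖 : Type*} [MeasurableSpace 𝓖] (ν : Measure 𝓖) [IsProbabilityMeasure ν]
    {δ : ℝ} (hδ : 0 < δ) {F F' : ℝ → 𝓖 → ℝ} {B ε : ℝ} 
    (hF : Measurable fun q : ℝ × 𝓖 => F q.1 q.2) (hF' : Measurable fun q : ℝ × 𝓖 => F' q.1 q.2)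
    (hB : ∀ x g, |F x g| ≤ B) (hB' : ∀ x g, |F' x g| ≤ B)
    (h : ∀ᵐ x : ℝ, ∀ g, |F x g - F' x g| ≤ ε) :
    |δ⁻¹ * (∫ x in (0 : ℝ)..δ, ∫ g, F x g ∂ν) - δ⁻¹ * ∫ x in (0 : ℝ)..δ, ∫ g, F' x g ∂ν| ≤ ε := by
  have hm : ∀ {F : ℝ → 𝓖 → ℝ}, (Measurable fun q : ℝ × 𝓖 => F q.1 q.2) → (∀ x g, |F x g| ≤ B) →
      IntervalIntegrable (fun x => ∫ g, F x g ∂ν) volume 0 δ := by
    intro F hF hB
    have h1 : StronglyMeasurable fun q : ℝ => ∫ g, F q g ∂ν :=
      hF.stronglyMeasurable.integral_prod_right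
    have h2 : ∀ x, ‖∫ g, F x g ∂ν‖ ≤ B := by
      intro x
      have := norm_integral_le_of_norm_le_const (μ := ν) (f := F x) (C := B)
        (Filter.Eventually.of_forall fun g => by simpa [Real.norm_eq_abs] using hB x g)
      simpa using this
    constructor
    · exact Integrable.of_bound (h1.aestronglyMeasurable) B (Filter.Eventually.of_forall h2)
    · exact Integrable.of_bound (h1.aestronglyMeasurable) B (Filter.Eventually.of_forall h2)
  have hi : ∀ {F : ℝ → 𝓖 → ℝ}, (Measurable fun q : ℝ × 𝓖 => F q.1 q.2) → (∀ x g, |F x g| ≤ B) →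
      ∀ x, Integrable (F x) ν := by
    intro F hF hB x
    exact Integrable.of_bound (hF.comp measurable_prodMk_left).aestronglyMeasurable B
      (Filter.Eventually.of_forall fun g => by simpa [Real.norm_eq_abs] using hB x g)
  rw [← mul_sub, ← intervalIntegral.integral_sub (hm hF hB) (hm hF' hB')]
  have h1 : ∀ᵐ x : ℝ, x ∈ Set.uIoc 0 δ → ‖(∫ g, F x g ∂ν) - ∫ g, F' x g ∂ν‖ ≤ ε := by
    filter_upwards [h] with x hx _
    rw [← integral_sub (hi hF hB x) (hi hF' hB' x)]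
    have := norm_integral_le_of_norm_le_const (μ := ν) (f := fun g => F x g - F' x g) (C := ε)
      (Filter.Eventually.of_forall fun g => by simpa [Real.norm_eq_abs] using hx g)
    simpa using this
  have h2 := intervalIntegral.norm_integral_le_of_norm_le_const_ae h1
  rw [sub_zero, abs_of_pos hδ, Real.norm_eq_abs] at h2
  rw [abs_mul, abs_of_pos (inv_pos.2 hδ)]
  calc δ⁻¹ * |∫ x in (0 : ℝ)..δ, ((∫ g, F x g ∂ν) - ∫ g, F' x g ∂ν)| ≤ δ⁻¹ * (ε * δ) := by
        gcongr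
    _ = ε := by field_simp

lemma measurable_f_Uref (H : Matrix (Fin n) (Fin n) ℝ) (E ρ K : ℝ) (Za Zb : M2)
    (Ta Tb : Matrix (Fin 2) (Fin 2) ℝ) (p1 p2 : Fin n × Fin n)
    {f : Matrix (Idx m) (Idx m) ℂ → ℝ} (hf : Continuous f) :
    Measurable fun q : ℝ × (Fin n → Fin m → ℝ) => f (Uref H E ρ K q.1 Za Zb Ta Tb p1 p2 q.2) := by
  refine MM_comp (MM_Uref (A := fun _ : ℝ × (Fin n → Fin m → ℝ) => H)
    (fun i j => measurable_const) E ρ measurable_const measurable_fst Za Zb Ta Tb p1 p2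
    measurable_snd) hf


lemma transpose_mem_unitary {ι : Type*} [Fintype ι] [DecidableEq ι] {κ : Matrix ι ι ℂ}
    (hκ : κ ∈ unitaryGroup ι ℂ) : κᵀ ∈ unitaryGroup ι ℂ := by
  rw [mem_unitaryGroup_iff]
  rw [mem_unitaryGroup_iff'] at hκ
  have h1 := congrArg Matrix.transpose hκ
  rw [transpose_mul, transpose_one] at h1
  have h2 : star κᵀ = (star κ)ᵀ := by
    ext i j
    simp [Matrix.star_apply]
  rw [h2]
  exact h1

lemma Uref_mem_unitary {H : Matrix (Fin n) (Fin n) ℝ} (sH : Hᵀ = H) (E ρ K x : ℝ) {Za Zb : M2}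
    (sa : Zaᵀ = Za) (sb : Zbᵀ = Zb) (Ta Tb : Matrix (Fin 2) (Fin 2) ℝ) (p1 p2 : Fin n × Fin n)
    (g : Fin n → Fin m → ℝ) :
    Uref H E ρ K x Za Zb Ta Tb p1 p2 g ∈ unitaryGroup (Idx m) ℂ := by
  unfold Uref
  refine CayG_mem_unitary (Inv988.conj_symm ?_ _)
  rw [transpose_sub, arr_symm sH, Aref_transpose sa sb]

lemma entry_act_le {ι : Type*} [Fintype ι] [DecidableEq ι] {κ U : Matrix ι ι ℂ}
    (hκ : κ ∈ unitaryGroup ι ℂ) (hU : U ∈ unitaryGroup ι ℂ) (i j : ι) :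
    ‖(κ * U * κᵀ) i j‖ ≤ 1 :=
  entry_norm_bound_of_unitary (mul_mem (mul_mem hκ hU) (transpose_mem_unitary hκ)) i j

open scoped Matrix.Norms.L2Operator in
set_option maxHeartbeats 800000 in
/-- the averaged array under the switching -/
theorem tAvg_sw {x1 x2 : ℂ} {ρ : ℝ} {Ta Tc Td : Matrix (Fin 2) (Fin 2) ℝ}
    (h : Frame x1 x2 x1 x2 ρ Ta Ta) (h' : Frame x1 x1 x2 x2 ρ Tc Td)
    {f : Matrix (Idx m) (Idx m) ℂ → ℝ} (hf : Continuous f) {ε : ℝ} (hε : 0 < ε) :
    ∃ r : ℝ, 0 < r ∧ ∀ (n : ℕ) (G : SimpleGraph (Fin n)) (p1 p2 : Fin n × Fin n)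
      (_ : VSw G p1.1 p1.2 p2.1 p2.2) (s : ℝ) (ω : Fin n → ℝ) (E K δ : ℝ), 0 < δ →
      ‖mn (Hm G s ω) (zz E K n) - mn (Hm (Sw798.sw G p1.1 p1.2 p2.1 p2.2) s ω) (zz E K n)‖ ≤ r →
      |tAvg (Hm (Sw798.sw G p1.1 p1.2 p2.1 p2.2) s ω) E ρ K δ (Ze2 x1 x1) (Ze2 x2 x2) Tc Td f
          (p1.1, p2.1) (p1.2, p2.2) -
        tAvg (Hm G s ω) E ρ K δ (Ze2 x1 x2) (Ze2 x1 x2) Ta Ta
          (fun U => f (kk m x1 x2 ρ Ta Tc Td * U * (kk m x1 x2 ρ Ta Tc Td)ᵀ)) p1 p2| ≤ ε := by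
  obtain ⟨r0, hr0, hr⟩ := Inv988.unif hf hε
  have hρ := h.hρ
  have hpr : 0 < Real.pi * ρ := by positivity
  refine ⟨r0 / 4 * (Real.pi * ρ) / (m + 1), by positivity, ?_⟩
  intro n G p1 p2 hv s ω E K δ hδ hmn
  have hn : 0 < n := lt_of_le_of_lt (Nat.zero_le _) p1.1.isLt
  set H := Hm G s ω with hH
  set H2 := Hm (Sw798.sw G p1.1 p1.2 p2.1 p2.2) s ω with hH2
  set κ := kk m x1 x2 ρ Ta Tc Td with hκ
  have hκm : κ ∈ unitaryGroup (Idx m) ℂ := kk_mem h h'
  have sH : Hᵀ = H := Crest.Agent.R166.Stab269.Hm_symm G s ω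
  have sH2 : H2ᵀ = H2 := Crest.Agent.R166.Stab269.Hm_symm _ s ω
  have sa := (sieg_Ze2 h.h1 h.h2).1
  have sc := (sieg_Ze2 h.h1 h.h1).1
  have sd := (sieg_Ze2 h.h2 h.h2).1
  have hfκ : Continuous fun U : Matrix (Idx m) (Idx m) ℂ => f (κ * U * κᵀ) :=
    hf.comp ((continuous_const.matrix_mul continuous_id).matrix_mul continuous_const)
  -- bounds
  obtain ⟨B, hB0, hB⟩ := exists_boundG hf
  have hbU : ∀ x (g : Fin n → Fin m → ℝ), |f (Uref H2 E ρ K x (Ze2 x1 x1) (Ze2 x2 x2) Tc Td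
      (p1.1, p2.1) (p1.2, p2.2) g)| ≤ B := fun x g =>
    hB _ fun i j => norm_Uref_le sH2 _ _ _ _ sc sd _ _ _ _ _ i j
  have hbU2 : ∀ x (g : Fin n → Fin m → ℝ), |f (κ * Uref H E ρ K x (Ze2 x1 x2) (Ze2 x1 x2) Ta Ta
      p1 p2 g * κᵀ)| ≤ B := by
    intro x g
    exact hB _ fun i j => entry_act_le hκm (Uref_mem_unitary sH _ _ _ _ sa sa _ _ _ _ _) i j
  have m1 := measurable_f_Uref H2 E ρ K (Ze2 x1 x1) (Ze2 x2 x2) Tc Td (p1.1, p2.1) (p1.2, p2.2) hf
  have m2 := measurable_f_Uref H E ρ K (Ze2 x1 x2) (Ze2 x1 x2) Ta Ta p1 p2 hfκ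
  refine avg_close (gaussM n m) hδ m1 m2 hbU hbU2 (ε := ε) ?_
  filter_upwards [ae_isUnit hn (H - Wp p1 - Wp p2) E, ae_isUnit hn H E, ae_isUnit hn H2 E]
    with x u0 u1 u2 g
  have e1 := UC_sw hv s ω h h' (E + x / n) (mn H (zz E K n)).re g u0 u1 u2
  rw [Uref_eq, Uref_eq]
  rw [← hκ] at e1
  rw [← e1]
  have n1 : ∀ a, ‖UC H2 (E + x / n) ρ a (Ze2 x1 x1) (Ze2 x2 x2) Tc Td
      (p1.1, p2.1) (p1.2, p2.2) g‖ ≤ 1 := by
    intro a
    unfold UC
    refine Inv988.norm_CayG_le (Inv988.conj_symm ?_ _)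
    rw [transpose_sub, arr_symm sH2, Aref_transpose sc sd]
  refine hr _ _ (n1 _) (n1 _) ?_
  have hT := isUnit_Tref (m := m) h.hρ h'.ua h'.ub
  refine lt_of_le_of_lt (norm_UC_sub_le sH2 _ hρ _ _ sc sd hT _ _ _) ?_
  have h3 : |(mn H (zz E K n)).re - (mn H2 (zz E K n)).re| ≤ r0 / 4 * (Real.pi * ρ) / (m + 1) := by
    rw [← Complex.sub_re]
    exact (Complex.abs_re_le_norm _).trans hmn
  rw [abs_div, abs_of_pos hpr]
  have hm1 : (0 : ℝ) < (m : ℝ) + 1 := by positivity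
  calc 2 * ((m : ℝ) * (|(mn H (zz E K n)).re - (mn H2 (zz E K n)).re| / (Real.pi * ρ)))
      ≤ 2 * ((m : ℝ) * (r0 / 4 * (Real.pi * ρ) / (m + 1) / (Real.pi * ρ))) := by
        gcongr
    _ = r0 / 2 * (m / (m + 1)) := by field_simp; ring
    _ < r0 := by
        have : (m : ℝ) / (m + 1) ≤ 1 := by rw [div_le_one hm1]; linarith
        nlinarith

end Crest.Agent.R166.InvD348
end

-- ▼ part R166/InvSw_286
section

/-!
# R166, section 50, S2: entries of the resolvent between the ports of two independent edges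
(helper286)
-/

set_option autoImplicit false
set_option linter.unusedSectionVars false

open Finset

namespace Crest.Agent.R166.InvSw286

open Crest.Agent.R166 Crest.Agent.R166.Sw798 Crest.Agent.R166.SwAvg798
open Crest.ProbabilityR.RandomMatrix MeasureTheory
open Classical

section Det

variable {n : ℕ}

/-- Ward identity for the rows -/
lemma row_sq {H : Matrix (Fin n) (Fin n) ℝ} (hH : H.transpose = H) {z : ℂ} (hz : 0 < z.im)
    (u : Fin n) :
    z.im * ∑ v, ‖Res H z u v‖ ^ 2 = (Res H z u u).im := by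
  have h := Res789.ward hH hz
  have h1 := congrArg Complex.re (congrFun (congrFun h u) u)
  simp only [Res789.cx, Res789.imM, Matrix.map_apply, Matrix.smul_apply, Matrix.mul_apply,
    Matrix.conjTranspose_apply, smul_eq_mul, Complex.ofRealHom_eq_coe, Complex.ofReal_re] at h1
  have e1 : (Res H z u u).im = (Res789.Res H z u u).im := rfl
  rw [e1, h1, Complex.re_ofReal_mul, Complex.re_sum]
  congr 1
  refine Finset.sum_congr rfl fun v _ => ?_
  change ‖Res789.Res H z u v‖ ^ 2 = _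
  rw [← Complex.normSq_eq_norm_sq, Complex.normSq_apply]
  simp

lemma norm_diag_le {H : Matrix (Fin n) (Fin n) ℝ} (hH : H.transpose = H) {z : ℂ} (hz : 0 < z.im)
    (u : Fin n) : ‖Res H z u u‖ ≤ 1 / z.im := by
  have h := row_sq hH hz u
  have h1 : ‖Res H z u u‖ ^ 2 ≤ ∑ v, ‖Res H z u v‖ ^ 2 :=
    Finset.single_le_sum (f := fun v => ‖Res H z u v‖ ^ 2) (fun _ _ => by positivity)
      (Finset.mem_univ u)
  have h2 : (Res H z u u).im ≤ ‖Res H z u u‖ := (le_abs_self _).trans (Complex.abs_im_le_norm _)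
  have h3 : z.im * ‖Res H z u u‖ ^ 2 ≤ ‖Res H z u u‖ := by
    calc z.im * ‖Res H z u u‖ ^ 2 ≤ z.im * ∑ v, ‖Res H z u v‖ ^ 2 :=
          mul_le_mul_of_nonneg_left h1 hz.le
      _ ≤ _ := by rw [h]; exact h2
  rcases eq_or_lt_of_le (norm_nonneg (Res H z u u)) with h0 | h0
  · rw [← h0]; positivity
  · rw [le_div_iff₀ hz]
    have : ‖Res H z u u‖ * (‖Res H z u u‖ * z.im) ≤ ‖Res H z u u‖ * 1 := by nlinarith
    exact le_of_mul_le_mul_left this h0

lemma row_sq_le {H : Matrix (Fin n) (Fin n) ℝ} (hH : H.transpose = H) {z : ℂ} (hz : 0 < z.im)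
    (u : Fin n) : ∑ v, ‖Res H z u v‖ ^ 2 ≤ 1 / z.im ^ 2 := by
  have h := row_sq hH hz u
  have h2 : (Res H z u u).im ≤ 1 / z.im :=
    ((le_abs_self _).trans (Complex.abs_im_le_norm _)).trans (norm_diag_le hH hz u)
  rw [← h] at h2
  have h3 : ∑ v, ‖Res H z u v‖ ^ 2 ≤ (1 / z.im) / z.im := by
    rw [le_div_iff₀ hz]; linarith
  calc _ ≤ _ := h3
    _ = _ := by rw [div_div, sq]

lemma norm_apply_le {H : Matrix (Fin n) (Fin n) ℝ} (hH : H.transpose = H) {z : ℂ} (hz : 0 < z.im)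
    (u v : Fin n) : ‖Res H z u v‖ ≤ 1 / z.im := by
  have h1 : ‖Res H z u v‖ ^ 2 ≤ ∑ v, ‖Res H z u v‖ ^ 2 :=
    Finset.single_le_sum (f := fun v => ‖Res H z u v‖ ^ 2) (fun _ _ => by positivity)
      (Finset.mem_univ v)
  have h2 := h1.trans (row_sq_le hH hz u)
  have h3 : (1 / z.im ^ 2) = (1 / z.im) ^ 2 := by rw [div_pow, one_pow]
  rw [h3] at h2
  exact le_of_sq_le_sq h2 (by positivity)

lemma Res_symm {H : Matrix (Fin n) (Fin n) ℝ} (hH : H.transpose = H) {z : ℂ} (hz : 0 < z.im)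
    (u v : Fin n) : Res H z u v = Res H z v u := by
  have := congrFun (congrFun (Res789.Res_transpose hH hz) v) u
  exact this

/-- resolvent identity for two matrices -/
lemma Res_sub_mat {H H' : Matrix (Fin n) (Fin n) ℝ} (hH : H.transpose = H)
    (hH' : H'.transpose = H') {z : ℂ} (hz : 0 < z.im) :
    Res H z - Res H' z = Res H z * Res789.cx (H' - H) * Res H' z := by
  have h1 := Res789.Res_mul_sub hH hz
  have h2 := Res789.sub_mul_Res hH' hz
  have e : Res789.cx (H' - H) = (Res789.cx H' - z • (1 : Matrix (Fin n) (Fin n) ℂ)) -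
      (Res789.cx H - z • 1) := by
    rw [Res789.cx_sub]; abel
  change Res789.Res H z - Res789.Res H' z = Res789.Res H z * Res789.cx (H' - H) * Res789.Res H' z
  rw [e, mul_sub, sub_mul, mul_assoc, h2, mul_one, h1, one_mul]

lemma Wp_symm (c c' : Fin n) : (Wp (c, c')).transpose = Wp (c, c') := by
  ext i j
  simp only [Matrix.transpose_apply, Wp]
  congr 1
  exact propext ⟨fun h => by tauto, fun h => by tauto⟩

lemma mul_Wp_mul {c c' : Fin n} (hc : c ≠ c') (M N : Matrix (Fin n) (Fin n) ℂ) (a b : Fin n) :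
    (M * Res789.cx (Wp (c, c')) * N) a b = M a c * N c' b + M a c' * N c b := by
  have e : ∀ i j, Res789.cx (Wp (c, c')) i j =
      (if i = c then (if j = c' then (1 : ℂ) else 0) else 0) +
      (if i = c' then (if j = c then (1 : ℂ) else 0) else 0) := by
    intro i j
    simp only [Res789.cx, Matrix.map_apply, Wp, Complex.ofRealHom_eq_coe]
    by_cases h1 : i = c
    · subst h1
      by_cases h2 : j = c'
      · simp [h2, hc]
      · simp [h2, hc]
    · by_cases h2 : i = c'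
      · subst h2
        by_cases h3 : j = c
        · simp [h3, h1]
        · simp [h3, h1]
      · simp [h1, h2]
  have e2 : ∀ x, (M * Res789.cx (Wp (c, c'))) a x =
      (if x = c' then M a c else 0) + (if x = c then M a c' else 0) := by
    intro x
    rw [Matrix.mul_apply]
    simp only [e, mul_add, Finset.sum_add_distrib, mul_ite, mul_one, mul_zero]
    congr 1
    · rw [Finset.sum_ite_eq' Finset.univ c (fun j => if x = c' then M a j else 0)]
      simp
    · rw [Finset.sum_ite_eq' Finset.univ c' (fun j => if x = c then M a j else 0)]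
      simp
  rw [Matrix.mul_apply]
  simp only [e2, add_mul, ite_mul, zero_mul, Finset.sum_add_distrib, Finset.sum_ite_eq',
    Finset.mem_univ, if_true]


/-- removing the edge `{c, c'}`: entries of the resolvent -/
lemma Res_sub_apply {H : Matrix (Fin n) (Fin n) ℝ} (hH : H.transpose = H) {z : ℂ} (hz : 0 < z.im)
    {c c' : Fin n} (hc : c ≠ c') (a b : Fin n) :
    Res (H - Wp (c, c')) z a b - Res H z a b =
      Res (H - Wp (c, c')) z a c * Res H z c' b + Res (H - Wp (c, c')) z a c' * Res H z c b := by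
  have hH' : (H - Wp (c, c')).transpose = H - Wp (c, c') := by
    rw [Matrix.transpose_sub, hH, Wp_symm]
  have h := Res_sub_mat hH' hH hz
  have e : Res789.cx (H - (H - Wp (c, c'))) = Res789.cx (Wp (c, c')) := by
    congr 1; abel
  rw [e] at h
  have h1 := congrFun (congrFun h a) b
  rw [mul_Wp_mul hc] at h1
  exact h1

lemma sub_Wp_symm {H : Matrix (Fin n) (Fin n) ℝ} (hH : H.transpose = H) (p : Fin n × Fin n) :
    (H - Wp p).transpose = H - Wp p := by
  rw [Matrix.transpose_sub, hH, Wp_symm]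


/-- one removal: an entry `(a, b)` is controlled by the entries `(a, b)`, `(c, b)`, `(c', b)`
before -/
lemma norm_sub_le {H : Matrix (Fin n) (Fin n) ℝ} (hH : H.transpose = H) {z : ℂ} (hz : 0 < z.im)
    {c c' : Fin n} (hc : c ≠ c') {a b : Fin n} {t : ℝ} (h1 : ‖Res H z a b‖ ≤ t)
    (h2 : ‖Res H z c b‖ ≤ t) (h3 : ‖Res H z c' b‖ ≤ t) :
    ‖Res (H - Wp (c, c')) z a b‖ ≤ (1 + 2 / z.im) * t := by
  have h := Res_sub_apply hH hz hc a b
  have hs := sub_Wp_symm hH (c, c')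
  have e : Res (H - Wp (c, c')) z a b = Res H z a b +
      (Res (H - Wp (c, c')) z a c * Res H z c' b + Res (H - Wp (c, c')) z a c' * Res H z c b) := by
    rw [← h]; ring
  rw [e]
  have k1 : ‖Res (H - Wp (c, c')) z a c * Res H z c' b‖ ≤ 1 / z.im * t := by
    rw [norm_mul]
    exact mul_le_mul (norm_apply_le hs hz a c) h3 (norm_nonneg _) (by positivity)
  have k2 : ‖Res (H - Wp (c, c')) z a c' * Res H z c b‖ ≤ 1 / z.im * t := by
    rw [norm_mul]
    exact mul_le_mul (norm_apply_le hs hz a c') h2 (norm_nonneg _) (by positivity)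
  calc _ ≤ ‖Res H z a b‖ + (‖Res (H - Wp (c, c')) z a c * Res H z c' b‖ +
        ‖Res (H - Wp (c, c')) z a c' * Res H z c b‖) :=
        (norm_add_le _ _).trans (add_le_add_right (norm_add_le _ _) _)
    _ ≤ t + (1 / z.im * t + 1 / z.im * t) := by linarith
    _ = _ := by ring

/-- **cross entries after the removal of two edges** (pointwise bound) -/
theorem cross_le {H : Matrix (Fin n) (Fin n) ℝ} (hH : H.transpose = H) {z : ℂ} (hz : 0 < z.im)
    {p q : Fin n × Fin n} (hp : p.1 ≠ p.2) (hq : q.1 ≠ q.2) {t : ℝ}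
    (h : ∀ a ∈ ({p.1, p.2} : Set (Fin n)), ∀ b ∈ ({q.1, q.2} : Set (Fin n)), ‖Res H z a b‖ ≤ t) :
    ∀ a ∈ ({p.1, p.2} : Set (Fin n)), ∀ b ∈ ({q.1, q.2} : Set (Fin n)),
      ‖Res (H - Wp p - Wp q) z a b‖ ≤ (1 + 2 / z.im) ^ 2 * t := by
  have s1 := sub_Wp_symm hH p
  have s2 := sub_Wp_symm s1 q
  have h1 : ∀ a ∈ ({p.1, p.2} : Set (Fin n)), ∀ b ∈ ({q.1, q.2} : Set (Fin n)),
      ‖Res (H - Wp p) z a b‖ ≤ (1 + 2 / z.im) * t := by
    intro a ha b hb
    exact norm_sub_le (c := p.1) (c' := p.2) hH hz hp (h a ha b hb)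
      (h p.1 (Or.inl rfl) b hb) (h p.2 (Or.inr rfl) b hb)
  intro a ha b hb
  rw [Res_symm s2 hz, sq, mul_assoc]
  refine norm_sub_le (c := q.1) (c' := q.2) s1 hz hq ?_ ?_ ?_
  · rw [Res_symm s1 hz]; exact h1 a ha b hb
  · rw [Res_symm s1 hz]; exact h1 a ha q.1 (Or.inl rfl)
  · rw [Res_symm s1 hz]; exact h1 a ha q.2 (Or.inr rfl)

/-- sum of the squares of the four cross entries -/
noncomputable def crossSq (R : Matrix (Fin n) (Fin n) ℂ) (p q : Fin n × Fin n) : ℝ :=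
  ‖R p.1 q.1‖ ^ 2 + ‖R p.1 q.2‖ ^ 2 + ‖R p.2 q.1‖ ^ 2 + ‖R p.2 q.2‖ ^ 2

lemma crossSq_nonneg (R : Matrix (Fin n) (Fin n) ℂ) (p q : Fin n × Fin n) : 0 ≤ crossSq R p q := by
  unfold crossSq; positivity

/-- square form -/
theorem cross_sq_le {H : Matrix (Fin n) (Fin n) ℝ} (hH : H.transpose = H) {z : ℂ} (hz : 0 < z.im)
    {p q : Fin n × Fin n} (hp : p.1 ≠ p.2) (hq : q.1 ≠ q.2)
    {a b : Fin n} (ha : a ∈ ({p.1, p.2} : Set (Fin n))) (hb : b ∈ ({q.1, q.2} : Set (Fin n))) :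
    ‖Res (H - Wp p - Wp q) z a b‖ ^ 2 ≤ (1 + 2 / z.im) ^ 4 * crossSq (Res H z) p q := by
  have h0 := crossSq_nonneg (Res H z) p q
  have h := cross_le hH hz hp hq (t := Real.sqrt (crossSq (Res H z) p q)) (by
    intro a ha b hb
    apply Real.le_sqrt_of_sq_le
    unfold crossSq
    have g1 : 0 ≤ ‖Res H z p.1 q.1‖ ^ 2 := by positivity
    have g2 : 0 ≤ ‖Res H z p.1 q.2‖ ^ 2 := by positivity
    have g3 : 0 ≤ ‖Res H z p.2 q.1‖ ^ 2 := by positivity
    have g4 : 0 ≤ ‖Res H z p.2 q.2‖ ^ 2 := by positivity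
    rcases ha with rfl | rfl <;> rcases hb with rfl | rfl <;> linarith) a ha b hb
  have h2 := pow_le_pow_left₀ (norm_nonneg _) h 2
  calc _ ≤ _ := h2
    _ = (1 + 2 / z.im) ^ 4 * (Real.sqrt (crossSq (Res H z) p q)) ^ 2 := by ring
    _ = _ := by rw [Real.sq_sqrt h0]

end Det

section Sums

variable {n : ℕ}

lemma sum_darts_fst {d : ℕ} {G : SimpleGraph (Fin n)} (hG : G ∈ Reg (Fin n) d) (g : Fin n → ℝ) :
    ∑ p ∈ Sw798.darts G, g p.1 = d * ∑ v, g v := by
  unfold Sw798.darts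
  rw [Finset.sum_filter, ← Finset.univ_product_univ, Finset.sum_product, Finset.mul_sum]
  refine Finset.sum_congr rfl fun v _ => ?_
  simp only
  rw [← Finset.sum_filter, Finset.sum_const, nsmul_eq_mul]
  congr 1
  exact_mod_cast (mem_Reg.1 hG) v

lemma sum_darts_snd {d : ℕ} {G : SimpleGraph (Fin n)} (hG : G ∈ Reg (Fin n) d) (g : Fin n → ℝ) :
    ∑ p ∈ Sw798.darts G, g p.2 = d * ∑ v, g v := by
  rw [← sum_darts_fst hG g]
  refine Finset.sum_nbij' Prod.swap Prod.swap ?_ ?_ ?_ ?_ ?_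
  · intro p hp; rw [Sw798.mem_darts] at hp ⊢; exact hp.symm
  · intro p hp; rw [Sw798.mem_darts] at hp ⊢; exact hp.symm
  · intro p _; rfl
  · intro p _; rfl
  · intro p _; rfl

lemma sum_dd_crossSq {d : ℕ} {G : SimpleGraph (Fin n)} (hG : G ∈ Reg (Fin n) d)
    (R : Matrix (Fin n) (Fin n) ℂ) :
    ∑ e ∈ dd G, crossSq R e.1 e.2 = 4 * d ^ 2 * ∑ a, ∑ b, ‖R a b‖ ^ 2 := by
  unfold dd crossSq
  rw [Finset.sum_product]
  simp only [Finset.sum_add_distrib]
  have h11 : ∑ p ∈ Sw798.darts G, ∑ q ∈ Sw798.darts G, ‖R p.1 q.1‖ ^ 2 =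
      d ^ 2 * ∑ a, ∑ b, ‖R a b‖ ^ 2 := by
    rw [Finset.sum_congr rfl fun p _ => sum_darts_fst hG fun b => ‖R p.1 b‖ ^ 2,
      ← Finset.mul_sum, sum_darts_fst hG fun a => ∑ b, ‖R a b‖ ^ 2]
    ring
  have h12 : ∑ p ∈ Sw798.darts G, ∑ q ∈ Sw798.darts G, ‖R p.1 q.2‖ ^ 2 =
      d ^ 2 * ∑ a, ∑ b, ‖R a b‖ ^ 2 := by
    rw [Finset.sum_congr rfl fun p _ => sum_darts_snd hG fun b => ‖R p.1 b‖ ^ 2,
      ← Finset.mul_sum, sum_darts_fst hG fun a => ∑ b, ‖R a b‖ ^ 2]
    ring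
  have h21 : ∑ p ∈ Sw798.darts G, ∑ q ∈ Sw798.darts G, ‖R p.2 q.1‖ ^ 2 =
      d ^ 2 * ∑ a, ∑ b, ‖R a b‖ ^ 2 := by
    rw [Finset.sum_congr rfl fun p _ => sum_darts_fst hG fun b => ‖R p.2 b‖ ^ 2,
      ← Finset.mul_sum, sum_darts_snd hG fun a => ∑ b, ‖R a b‖ ^ 2]
    ring
  have h22 : ∑ p ∈ Sw798.darts G, ∑ q ∈ Sw798.darts G, ‖R p.2 q.2‖ ^ 2 =
      d ^ 2 * ∑ a, ∑ b, ‖R a b‖ ^ 2 := by
    rw [Finset.sum_congr rfl fun p _ => sum_darts_snd hG fun b => ‖R p.2 b‖ ^ 2,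
      ← Finset.mul_sum, sum_darts_snd hG fun a => ∑ b, ‖R a b‖ ^ 2]
    ring
  rw [h11, h12, h21, h22]
  ring

/-- the cross entries of the full resolvent, averaged over two darts -/
theorem eAvg2_crossSq_le {d : ℕ} {G : SimpleGraph (Fin n)} (hG : G ∈ regularGraphs n d) (s : ℝ)
    (ω : Fin n → ℝ) {z : ℂ} (hz : 0 < z.im) :
    Inv988.eAvg2 G (fun p q => crossSq (Res (Hm G s ω) z) p q) ≤ 4 / z.im ^ 2 / n := by
  rw [eAvg2_eq hG, sum_dd_crossSq (by rwa [regularGraphs_eq] at hG)]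
  have h1 : ∑ a, ∑ b, ‖Res (Hm G s ω) z a b‖ ^ 2 ≤ n * (1 / z.im ^ 2) := by
    calc _ ≤ ∑ _a : Fin n, 1 / z.im ^ 2 :=
          Finset.sum_le_sum fun a _ => row_sq_le (Stab269.Hm_symm G s ω) hz a
      _ = _ := by simp
  rcases Nat.eq_zero_or_pos n with hn | hn
  · subst hn
    simp
  rcases Nat.eq_zero_or_pos d with hd | hd
  · subst hd
    simp only [Nat.cast_zero, mul_zero]
    norm_num
    positivity
  have hn' : (0 : ℝ) < n := by exact_mod_cast hn
  have hd' : (0 : ℝ) < d := by exact_mod_cast hd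
  calc (4 * (d : ℝ) ^ 2 * ∑ a, ∑ b, ‖Res (Hm G s ω) z a b‖ ^ 2) / ((n : ℝ) * d) ^ 2 ≤
        (4 * (d : ℝ) ^ 2 * (n * (1 / z.im ^ 2))) / ((n : ℝ) * d) ^ 2 := by gcongr
    _ = _ := by field_simp

lemma regAvg_mono {d : ℕ} {F F' : SimpleGraph (Fin n) → ℝ}
    (h : ∀ G ∈ regularGraphs n d, F G ≤ F' G) :
    regularAverage n d F ≤ regularAverage n d F' := by
  unfold regularAverage
  exact div_le_div_of_nonneg_right (Finset.sum_le_sum h) (by positivity)

lemma regAvg_le {d : ℕ} {F : SimpleGraph (Fin n) → ℝ} {c : ℝ} (hc : 0 ≤ c)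
    (h : ∀ G ∈ regularGraphs n d, F G ≤ c) : regularAverage n d F ≤ c := by
  unfold regularAverage
  rcases Nat.eq_zero_or_pos (regularGraphs n d).card with h0 | h0
  · rw [h0]; simpa using hc
  rw [div_le_iff₀ (by exact_mod_cast h0)]
  refine (Finset.sum_le_card_nsmul _ _ c h).trans (le_of_eq ?_)
  rw [nsmul_eq_mul, mul_comm]

lemma regAvg_add {d : ℕ} (F F' : SimpleGraph (Fin n) → ℝ) :
    regularAverage n d (fun G => F G + F' G) = regularAverage n d F + regularAverage n d F' := by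
  unfold regularAverage
  rw [Finset.sum_add_distrib, add_div]

lemma regAvg_mul {d : ℕ} (c : ℝ) (F : SimpleGraph (Fin n) → ℝ) :
    regularAverage n d (fun G => c * F G) = c * regularAverage n d F := by
  unfold regularAverage
  rw [← Finset.mul_sum, mul_div_assoc]

lemma eAvg2_mono {G : SimpleGraph (Fin n)} {F F' : Fin n × Fin n → Fin n × Fin n → ℝ}
    (h : ∀ p q, G.Adj p.1 p.2 → G.Adj q.1 q.2 → F p q ≤ F' p q) :
    Inv988.eAvg2 G F ≤ Inv988.eAvg2 G F' := by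
  unfold Inv988.eAvg2
  refine div_le_div_of_nonneg_right ?_ (by positivity)
  refine Finset.sum_le_sum fun p hp => Finset.sum_le_sum fun q hq => h p q ?_ ?_
  · rw [darts_eq, Sw798.mem_darts] at hp; exact hp
  · rw [darts_eq, Sw798.mem_darts] at hq; exact hq

lemma eAvg2_add (G : SimpleGraph (Fin n)) (F F' : Fin n × Fin n → Fin n × Fin n → ℝ) :
    Inv988.eAvg2 G (fun p q => F p q + F' p q) = Inv988.eAvg2 G F + Inv988.eAvg2 G F' := by
  unfold Inv988.eAvg2
  simp only [Finset.sum_add_distrib, add_div]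

lemma eAvg2_mul (G : SimpleGraph (Fin n)) (c : ℝ) (F : Fin n × Fin n → Fin n × Fin n → ℝ) :
    Inv988.eAvg2 G (fun p q => c * F p q) = c * Inv988.eAvg2 G F := by
  unfold Inv988.eAvg2
  simp only [← Finset.mul_sum, mul_div_assoc]

/-- average over the regular graphs and over the valid pairs of darts -/
noncomputable def vE (n d : ℕ)
    (F : SimpleGraph (Fin n) → Fin n × Fin n → Fin n × Fin n → ℝ) : ℝ :=
  regularAverage n d (fun G => Inv988.eAvg2 G
    (fun p q => if VSw G p.1 p.2 q.1 q.2 then F G p q else 0))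

lemma vE_mono {d : ℕ} {F F' : SimpleGraph (Fin n) → Fin n × Fin n → Fin n × Fin n → ℝ}
    (h : ∀ G p q, VSw G p.1 p.2 q.1 q.2 → F G p q ≤ F' G p q) : vE n d F ≤ vE n d F' := by
  refine regAvg_mono fun G _ => eAvg2_mono fun p q _ _ => ?_
  by_cases hv : VSw G p.1 p.2 q.1 q.2
  · rw [if_pos hv, if_pos hv]; exact h G p q hv
  · rw [if_neg hv, if_neg hv]

lemma vE_congr {d : ℕ} {F F' : SimpleGraph (Fin n) → Fin n × Fin n → Fin n × Fin n → ℝ}
    (h : ∀ G p q, VSw G p.1 p.2 q.1 q.2 → F G p q = F' G p q) : vE n d F = vE n d F' :=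
  le_antisymm (vE_mono fun G p q hv => (h G p q hv).le) (vE_mono fun G p q hv => (h G p q hv).ge)

lemma vE_add {d : ℕ} (F F' : SimpleGraph (Fin n) → Fin n × Fin n → Fin n × Fin n → ℝ) :
    vE n d (fun G p q => F G p q + F' G p q) = vE n d F + vE n d F' := by
  unfold vE
  rw [← regAvg_add]
  congr 1
  ext G
  rw [← eAvg2_add]
  congr 1
  ext p q
  split_ifs <;> simp

lemma vE_mul {d : ℕ} (c : ℝ) (F : SimpleGraph (Fin n) → Fin n × Fin n → Fin n × Fin n → ℝ) :
    vE n d (fun G p q => c * F G p q) = c * vE n d F := by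
  unfold vE
  rw [← regAvg_mul]
  congr 1
  ext G
  rw [← eAvg2_mul]
  congr 1
  ext p q
  split_ifs <;> simp


/-- the exact change of variables -/
lemma vE_switch {d : ℕ} (F : SimpleGraph (Fin n) → Fin n × Fin n → Fin n × Fin n → ℝ) :
    vE n d F = vE n d (fun G p q => F (Sw798.sw G p.1 p.2 q.1 q.2) (p.1, q.1) (p.2, q.2)) :=
  switch_avg_exact F

/-- the resolvent without the two edges -/
noncomputable def R0 (G : SimpleGraph (Fin n)) (s : ℝ) (ω : Fin n → ℝ) (z : ℂ)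
    (p q : Fin n × Fin n) : Matrix (Fin n) (Fin n) ℂ := Res (Hm G s ω - Wp p - Wp q) z

/-- the matrix without the two edges is the same for the switched graph -/
lemma H0_sw {G : SimpleGraph (Fin n)} {p q : Fin n × Fin n} (h : VSw G p.1 p.2 q.1 q.2) (s : ℝ)
    (ω : Fin n → ℝ) :
    Hm (Sw798.sw G p.1 p.2 q.1 q.2) s ω - Wp (p.1, q.1) - Wp (p.2, q.2) =
      Hm G s ω - Wp p - Wp q := by
  rw [Hm_sw_Wp h]
  simp only [Prod.mk.eta]
  abel

lemma R0_sw {G : SimpleGraph (Fin n)} {p q : Fin n × Fin n} (h : VSw G p.1 p.2 q.1 q.2) (s : ℝ)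
    (ω : Fin n → ℝ) (z : ℂ) :
    R0 (Sw798.sw G p.1 p.2 q.1 q.2) s ω z (p.1, q.1) (p.2, q.2) = R0 G s ω z p q := by
  unfold R0
  rw [H0_sw h]

/-- cross entries, any choice of the two ports -/
theorem vE_cross_entry {d : ℕ} (s : ℝ) (ω : Fin n → ℝ) {z : ℂ} (hz : 0 < z.im)
    (fa fb : Fin n × Fin n → Fin n) (ha : ∀ p, fa p = p.1 ∨ fa p = p.2)
    (hb : ∀ p, fb p = p.1 ∨ fb p = p.2) :
    vE n d (fun G p q => ‖R0 G s ω z p q (fa p) (fb q)‖ ^ 2) ≤
      (1 + 2 / z.im) ^ 4 * (4 / z.im ^ 2 / n) := by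
  have h1 : vE n d (fun G p q => ‖R0 G s ω z p q (fa p) (fb q)‖ ^ 2) ≤
      vE n d (fun G p q => (1 + 2 / z.im) ^ 4 * crossSq (Res (Hm G s ω) z) p q) := by
    refine vE_mono fun G p q hv => ?_
    exact cross_sq_le (Stab269.Hm_symm G s ω) hz hv.xy.ne hv.uw.ne (ha p) (hb q)
  refine h1.trans ?_
  rw [vE_mul]
  refine mul_le_mul_of_nonneg_left ?_ (by positivity)
  refine regAvg_le (by positivity) fun G hG => ?_
  refine le_trans (eAvg2_mono fun p q _ _ => ?_) (eAvg2_crossSq_le hG s ω hz)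
  split_ifs
  · exact le_rfl
  · exact crossSq_nonneg _ _ _

/-- the entry inside the first edge -/
theorem vE_same_entry1 {d : ℕ} (s : ℝ) (ω : Fin n → ℝ) {z : ℂ} (hz : 0 < z.im) :
    vE n d (fun G p q => ‖R0 G s ω z p q p.1 p.2‖ ^ 2) ≤
      (1 + 2 / z.im) ^ 4 * (4 / z.im ^ 2 / n) := by
  rw [vE_switch]
  refine le_trans (le_of_eq (vE_congr fun G p q hv => ?_))
    (vE_cross_entry s ω hz Prod.fst Prod.fst (fun _ => Or.inl rfl) (fun _ => Or.inl rfl))
  rw [R0_sw hv]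

/-- the entry inside the second edge -/
theorem vE_same_entry2 {d : ℕ} (s : ℝ) (ω : Fin n → ℝ) {z : ℂ} (hz : 0 < z.im) :
    vE n d (fun G p q => ‖R0 G s ω z p q q.1 q.2‖ ^ 2) ≤
      (1 + 2 / z.im) ^ 4 * (4 / z.im ^ 2 / n) := by
  rw [vE_switch]
  refine le_trans (le_of_eq (vE_congr fun G p q hv => ?_))
    (vE_cross_entry s ω hz Prod.snd Prod.snd (fun _ => Or.inr rfl) (fun _ => Or.inr rfl))
  rw [R0_sw hv]

/-- the four ports -/
def port (p q : Fin n × Fin n) : Fin 4 → Fin n := ![p.1, p.2, q.1, q.2]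

/-- sum of the squares of the off-diagonal entries between the four ports -/
noncomputable def offSq (R : Matrix (Fin n) (Fin n) ℂ) (p q : Fin n × Fin n) : ℝ :=
  ∑ a, ∑ b, if a ≠ b then ‖R (port p q a) (port p q b)‖ ^ 2 else 0

lemma offSq_eq {R : Matrix (Fin n) (Fin n) ℂ} (hR : ∀ i j, R i j = R j i) (p q : Fin n × Fin n) :
    offSq R p q = 2 * (‖R p.1 p.2‖ ^ 2 + ‖R q.1 q.2‖ ^ 2 + crossSq R p q) := by
  unfold offSq crossSq port
  simp only [Fin.sum_univ_four]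
  simp
  rw [hR p.2 p.1, hR q.2 q.1, hR q.1 p.1, hR q.2 p.1, hR q.1 p.2, hR q.2 p.2]
  ring

/-- **(S2)**, for every potential -/
theorem vE_offSq {d : ℕ} (s : ℝ) (ω : Fin n → ℝ) {z : ℂ} (hz : 0 < z.im) :
    vE n d (fun G p q => offSq (R0 G s ω z p q) p q) ≤
      48 * (1 + 2 / z.im) ^ 4 / z.im ^ 2 / n := by
  have hs : ∀ (G : SimpleGraph (Fin n)) p q (i j : Fin n),
      R0 G s ω z p q i j = R0 G s ω z p q j i := by
    intro G p q i j
    exact Res_symm (sub_Wp_symm (sub_Wp_symm (Stab269.Hm_symm G s ω) p) q) hz i j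
  have e : vE n d (fun G p q => offSq (R0 G s ω z p q) p q) =
      2 * (vE n d (fun G p q => ‖R0 G s ω z p q p.1 p.2‖ ^ 2) +
        vE n d (fun G p q => ‖R0 G s ω z p q q.1 q.2‖ ^ 2) +
        (vE n d (fun G p q => ‖R0 G s ω z p q p.1 q.1‖ ^ 2) +
         vE n d (fun G p q => ‖R0 G s ω z p q p.1 q.2‖ ^ 2) +
         vE n d (fun G p q => ‖R0 G s ω z p q p.2 q.1‖ ^ 2) +
         vE n d (fun G p q => ‖R0 G s ω z p q p.2 q.2‖ ^ 2))) := by
    simp only [← vE_add, ← vE_mul]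
    refine vE_congr fun G p q _ => ?_
    rw [offSq_eq (hs G p q)]
    rfl
  rw [e]
  have h1 := vE_same_entry1 (n := n) (d := d) s ω hz
  have h2 := vE_same_entry2 (n := n) (d := d) s ω hz
  have h3 := vE_cross_entry (n := n) (d := d) s ω hz Prod.fst Prod.fst (fun _ => Or.inl rfl)
    (fun _ => Or.inl rfl)
  have h4 := vE_cross_entry (n := n) (d := d) s ω hz Prod.fst Prod.snd (fun _ => Or.inl rfl)
    (fun _ => Or.inr rfl)
  have h5 := vE_cross_entry (n := n) (d := d) s ω hz Prod.snd Prod.fst (fun _ => Or.inr rfl)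
    (fun _ => Or.inl rfl)
  have h6 := vE_cross_entry (n := n) (d := d) s ω hz Prod.snd Prod.snd (fun _ => Or.inr rfl)
    (fun _ => Or.inr rfl)
  have e2 : 48 * (1 + 2 / z.im) ^ 4 / z.im ^ 2 / (n : ℝ) =
      12 * ((1 + 2 / z.im) ^ 4 * (4 / z.im ^ 2 / n)) := by ring
  rw [e2]
  linarith

end Sums

end Crest.Agent.R166.InvSw286
end

-- ▼ part R166/InvSw2_286
section

/-!
# R166, section 50, S2b: the edge blocks of the graph and of the switched graph are functions of the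
same four numbers `R0 a a` (up to `O(off)`), helper286
-/

set_option autoImplicit false
set_option linter.unusedSectionVars false

open Finset

namespace Crest.Agent.R166.InvSw286

open Crest.Agent.R166 Crest.Agent.R166.Sw798 Crest.Agent.R166.SwAvg798
open Crest.Agent.R166.Inv988 Crest.Agent.R166.InvB348
open Crest.ProbabilityR.RandomMatrix MeasureTheory
open Classical

/-- a possible value of a diagonal entry of a resolvent at distance `η` of the real line -/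
structure CavV (η : ℝ) (a : ℂ) : Prop where
  pos : 0 < a.im
  le : η * ‖a‖ ^ 2 ≤ a.im


lemma CavV.ne {η : ℝ} {a : ℂ} (h : CavV η a) : a ≠ 0 := by
  rintro rfl
  have := h.pos
  simp at this










section Blocks

variable {n : ℕ}









lemma offSq_nonneg (R : Matrix (Fin n) (Fin n) ℂ) (p q : Fin n × Fin n) : 0 ≤ offSq R p q :=
  Finset.sum_nonneg fun _ _ => Finset.sum_nonneg fun _ _ => by split_ifs <;> positivity

/-! ### the four blocks -/

section Four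

variable {G : SimpleGraph (Fin n)} {p q : Fin n × Fin n}










end Four

end Blocks

/-! ### transfer of continuous observables of the four blocks -/

section Transfer

variable {n : ℕ}



lemma ze_im' (E η : ℝ) : (ze E η).im = η := by simp [ze]



end Transfer

end Crest.Agent.R166.InvSw286
end

-- ▼ part R166/InvSw3_286
section

/-!
# R166, section 50, S2/S2b in the integrated form (helper286)
-/

set_option autoImplicit false
set_option linter.unusedSectionVars false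

open Finset

namespace Crest.Agent.R166.InvSw286

open Crest.Agent.R166 Crest.Agent.R166.Sw798 Crest.Agent.R166.SwAvg798
open Crest.Agent.R166.Inv988 Crest.Agent.R166.InvB348 Crest.Agent.R166.MeasC780
open Crest.Agent.R166.MeasMat93
open Crest.ProbabilityR.RandomMatrix MeasureTheory
open Classical

section

variable {n d : ℕ}

/-- a bound for the average over the graphs which holds for every potential -/
lemma EGo_le_of_forall {B c : ℝ} {Φ : SimpleGraph (Fin n) → (Fin n → ℝ) → ℝ} (hΦ : Good n B Φ)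
    (h : ∀ ω, regularAverage n d (fun G => Φ G ω) ≤ c) : EGo n d Φ ≤ c := by
  have e : EGo n d Φ = ∫ ω, regularAverage n d (fun G => Φ G ω) ∂potentialLaw n := by
    unfold EGo regularAverage
    rw [← integral_finsetSum _ (fun G _ => hΦ.integrable G), integral_div]
  rw [e]
  have hi : Integrable (fun ω => regularAverage n d (fun G => Φ G ω)) (potentialLaw n) := by
    unfold regularAverage
    exact (integrable_finsetSum _ fun G _ => hΦ.integrable G).div_const _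
  calc ∫ ω, regularAverage n d (fun G => Φ G ω) ∂potentialLaw n
      ≤ ∫ _ω, c ∂potentialLaw n := integral_mono hi (integrable_const _) h
    _ = c := by simp




/-- the `4 × 4` block of the ports without the two edges -/
noncomputable def Z4 (G : SimpleGraph (Fin n)) (s : ℝ) (ω : Fin n → ℝ) (E η : ℝ)
    (p q : Fin n × Fin n) : Matrix (Fin 4) (Fin 4) ℂ :=
  (Res (Hm G s ω - Wp p - Wp q) (ze E η)).submatrix ![p.1, p.2, q.1, q.2] ![p.1, p.2, q.1, q.2]

/-- sum of the squares of its off-diagonal entries -/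
noncomputable def offZ (G : SimpleGraph (Fin n)) (s : ℝ) (ω : Fin n → ℝ) (E η : ℝ)
    (p q : Fin n × Fin n) : ℝ :=
  ∑ i : Fin 4, ∑ j : Fin 4, (if i = j then 0 else ‖Z4 G s ω E η p q i j‖ ^ 2)

lemma offZ_eq (G : SimpleGraph (Fin n)) (s : ℝ) (ω : Fin n → ℝ) (E η : ℝ)
    (p q : Fin n × Fin n) : offZ G s ω E η p q = offSq (R0 G s ω (ze E η) p q) p q := by
  unfold offZ offSq
  refine Finset.sum_congr rfl fun i _ => Finset.sum_congr rfl fun j _ => ?_
  by_cases h : i = j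
  · simp [h]
  · rw [if_neg h, if_pos h]
    rfl

lemma offZ_nonneg (G : SimpleGraph (Fin n)) (s : ℝ) (ω : Fin n → ℝ) (E η : ℝ)
    (p q : Fin n × Fin n) : 0 ≤ offZ G s ω E η p q := by
  rw [offZ_eq]; exact offSq_nonneg _ _ _

lemma measurable_offZ (G : SimpleGraph (Fin n)) (s E η : ℝ) (p q : Fin n × Fin n) :
    Measurable fun ω => offZ G s ω E η p q := by
  unfold offZ
  refine Finset.measurable_sum _ fun i _ => Finset.measurable_sum _ fun j _ => ?_
  by_cases h : i = j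
  · simp [h]
  · simp only [h, if_false]
    have h1 : MM (fun ω : Fin n → ℝ => Res (Hm G s ω - Wp p - Wp q) (ze E η)) :=
      MM_res (((MM_Hm G s).sub (MM.const _)).sub (MM.const _)) (z := fun _ => ze E η)
        measurable_const
    exact ((h1 _ _).norm).pow_const 2

lemma offZ_le (G : SimpleGraph (Fin n)) (s : ℝ) (ω : Fin n → ℝ) (E : ℝ) {η : ℝ} (hη : 0 < η)
    (p q : Fin n × Fin n) : offZ G s ω E η p q ≤ 16 / η ^ 2 := by
  have hz : 0 < (ze E η).im := by rw [ze_im']; exact hη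
  have hH := sub_Wp_symm (sub_Wp_symm (Stab269.Hm_symm G s ω) p) q
  have h1 : ∀ i j : Fin 4, (if i = j then 0 else ‖Z4 G s ω E η p q i j‖ ^ 2) ≤ 1 / η ^ 2 := by
    intro i j
    split_ifs
    · positivity
    · have h2 := norm_apply_le hH hz ((![p.1, p.2, q.1, q.2] : Fin 4 → Fin n) i)
        ((![p.1, p.2, q.1, q.2] : Fin 4 → Fin n) j)
      rw [ze_im'] at h2
      have h3 := pow_le_pow_left₀ (norm_nonneg _) h2 2
      rw [div_pow, one_pow] at h3
      exact h3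
  calc offZ G s ω E η p q ≤ ∑ _i : Fin 4, ∑ _j : Fin 4, 1 / η ^ 2 :=
        Finset.sum_le_sum fun i _ => Finset.sum_le_sum fun j _ => h1 i j
    _ = 16 / η ^ 2 := by simp; ring

/-- **(S2)** off-diagonal entries of the port block are `O(1/n)` on average; the constant does not
depend on `d, s, E, n` -/
theorem offdiag' {η : ℝ} (hη : 0 < η) (n d : ℕ) (s E : ℝ) :
    regularAverage n d (fun G => ∫ ω, Inv988.eAvg2 G (fun p q => if VSw G p.1 p.2 q.1 q.2 then
      offZ G s ω E η p q else 0) ∂potentialLaw n) ≤ 48 * (1 + 2 / η) ^ 4 / η ^ 2 / n := by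
  have hz : 0 < (ze E η).im := by rw [ze_im']; exact hη
  have hG : Good n (16 / η ^ 2) (fun (G : SimpleGraph (Fin n)) ω =>
      Inv988.eAvg2 G (fun p q => if VSw G p.1 p.2 q.1 q.2 then offZ G s ω E η p q else 0)) := by
    refine ⟨fun G => ?_, fun G ω => ?_⟩
    · refine measurable_eAvg2 G (F := fun ω p q => if VSw G p.1 p.2 q.1 q.2 then
        offZ G s ω E η p q else 0) fun p q => ?_
      by_cases hv : VSw G p.1 p.2 q.1 q.2
      · simp only [hv, if_true]
        exact measurable_offZ G s E η p q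
      · simp only [hv, if_false]
        exact measurable_const
    · refine abs_eAvg2_le G (by positivity) fun p q => ?_
      split_ifs
      · rw [abs_of_nonneg (offZ_nonneg _ _ _ _ _ _ _)]
        exact offZ_le G s ω E hη p q
      · rw [abs_zero]; positivity
  refine EGo_le_of_forall hG fun ω => ?_
  have h := vE_offSq (n := n) (d := d) s ω hz
  rw [ze_im'] at h
  refine le_trans (le_of_eq ?_) h
  unfold vE
  simp only [offZ_eq]

/-- the form used by helper348 -/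
theorem offdiag {d : ℕ} (_hd : 0 < d) (s E : ℝ) {η : ℝ} (hη : 0 < η) :
    ∃ C : ℝ, ∀ n, 0 < n → regularAverage n d (fun G => ∫ ω, Inv988.eAvg2 G
      (fun p q => if VSw G p.1 p.2 q.1 q.2 then
        ∑ i : Fin 4, ∑ j : Fin 4, (if i = j then 0 else ‖(Res (Hm G s ω - Wp p - Wp q)
          (ze E η)).submatrix ![p.1, p.2, q.1, q.2] ![p.1, p.2, q.1, q.2] i j‖ ^ 2) else 0)
      ∂potentialLaw n) ≤ C / n :=
  ⟨48 * (1 + 2 / η) ^ 4 / η ^ 2, fun n _ => offdiag' hη n d s E⟩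

end

end Crest.Agent.R166.InvSw286
end

-- ▼ part R166/InvG1_348
section

/-!
Row 166, section 50 (helper348): expectations of the port values under the switching.
-/

set_option autoImplicit false
set_option linter.unusedSectionVars false

namespace Crest.Agent.R166.InvG348

open Matrix Complex Topology MeasureTheory Crest.ProbabilityR.RandomMatrix
open Crest.Agent.R166.InvB348 Crest.Agent.R166.InvC348 Crest.Agent.R166.InvD348
open Crest.Agent.R166.InvP348
open Crest.Agent.R166.SwAvg798 (Wp)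
open Crest.Agent.R166.Sw798 (VSw)
open Crest.Agent.R166.Inv988 (M2 Idx blk eAvg2 tAvg PV cAvg KeyCmp idxEquiv imPart)
open Crest.Agent.R166.MeasC780 (Good EGo)

/-- (S2b) -/
theorem offB {d : ℕ} (hd : 0 < d) (s E : ℝ) : OffB d s E := by
  intro η hη
  obtain ⟨C, hC⟩ := InvSw286.offdiag hd s E hη
  exact ⟨C, hC⟩

variable {n m : ℕ}

/-- (L3) the centring under the switching -/
lemma mn_sw {G : SimpleGraph (Fin n)} {x y u w : Fin n} (h : VSw G x y u w) (s : ℝ)
    (ω : Fin n → ℝ) (E : ℝ) {K : ℝ} (hK : 0 < K) :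
    ‖mn (Hm G s ω) (zz E K n) - mn (Hm (Sw798.sw G x y u w) s ω) (zz E K n)‖ ≤ 4 / K := by
  have hn : 0 < n := lt_of_le_of_lt (Nat.zero_le _) x.isLt
  have hinj : Function.Injective (![x, y, u, w] : Fin 4 → Fin n) := by
    have h1 := h.xy.ne
    have h2 := h.uw.ne
    have h3 := h.xu
    have h4 := h.xw
    have h5 := h.yu
    have h6 := h.yw
    intro i j hij
    fin_cases i <;> fin_cases j <;> simp_all
  rw [norm_sub_rev, SwAvg798.Hm_sw h]
  have := PertMn424.norm_mn_zz_emb_sub_le hn (Stab269.Hm_symm G s ω) E hK hinj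
    SwAvg798.Ksw_symm
  simpa using this

/-- the summand of `PV` -/
noncomputable def pvt (H : Matrix (Fin n) (Fin n) ℝ) (E ρ K δ η : ℝ) (Za Zb : M2)
    (Ta Tb : Matrix (Fin 2) (Fin 2) ℝ) (χ : M2 → M2 → ℝ) (f : Matrix (Idx m) (Idx m) ℂ → ℝ)
    (p q : Fin n × Fin n) : ℝ :=
  χ (blk H E η p) (blk H E η q) * tAvg H E ρ K δ Za Zb Ta Tb f p q


/-- interchange of the average over pairs of edges and the potential -/
lemma integral_eAvg2 {Ω : Type*} [MeasurableSpace Ω] {μ : Measure Ω} (G : SimpleGraph (Fin n))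
    {Φ : Ω → Fin n × Fin n → Fin n × Fin n → ℝ} (h : ∀ p q, Integrable (fun ω => Φ ω p q) μ) :
    ∫ ω, eAvg2 G (Φ ω) ∂μ = eAvg2 G fun p q => ∫ ω, Φ ω p q ∂μ := by
  unfold Inv988.eAvg2
  rw [integral_div]
  congr 1
  rw [integral_finsetSum _ fun p _ => integrable_finsetSum _ fun q _ => h p q]
  refine Finset.sum_congr rfl fun p _ => ?_
  rw [integral_finsetSum _ fun q _ => h p q]

lemma measurable_pvt (G : SimpleGraph (Fin n)) (s E ρ K δ η : ℝ) (Za Zb : M2)
    (Ta Tb : Matrix (Fin 2) (Fin 2) ℝ) {χ : M2 → M2 → ℝ}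
    (hχ : Continuous fun b : M2 × M2 => χ b.1 b.2) {f : Matrix (Idx m) (Idx m) ℂ → ℝ}
    (hf : Continuous f) (p q : Fin n × Fin n) :
    Measurable fun ω : Fin n → ℝ => pvt (Hm G s ω) E ρ K δ η Za Zb Ta Tb χ f p q :=
  (MeasC780.MM_comp2 (MeasC780.MM_blkη (MeasC780.MM_Hm G s) E η p)
    (MeasC780.MM_blkη (MeasC780.MM_Hm G s) E η q) hχ).mul
    (MeasC780.measurable_tAvg (MeasC780.MM_Hm G s) E ρ K δ Za Zb Ta Tb hf p q)

lemma abs_pvt_le {H : Matrix (Fin n) (Fin n) ℝ} (hH : Hᵀ = H) (E ρ K δ η : ℝ) {Za Zb : M2}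
    (hZa : Za.transpose = Za) (hZb : Zb.transpose = Zb)
    (Ta Tb : Matrix (Fin 2) (Fin 2) ℝ) {χ : M2 → M2 → ℝ}
    (hχ1 : ∀ b1 b2, |χ b1 b2| ≤ 1) {f : Matrix (Idx m) (Idx m) ℂ → ℝ}
    {B : ℝ} (hB : 0 ≤ B)
    (hfB : ∀ U : Matrix (Idx m) (Idx m) ℂ, (∀ i j, ‖U i j‖ ≤ 1) → |f U| ≤ B)
    (p q : Fin n × Fin n) :
    |pvt H E ρ K δ η Za Zb Ta Tb χ f p q| ≤ B := by
  unfold pvt
  rw [abs_mul]
  calc |χ (blk H E η p) (blk H E η q)| * |tAvg H E ρ K δ Za Zb Ta Tb f p q| ≤ 1 * B :=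
        mul_le_mul (hχ1 _ _) (MeasC780.abs_tAvg_le hH _ _ _ _ hZa hZb _ _ _ _ hB hfB)
          (abs_nonneg _) zero_le_one
    _ = B := one_mul _

lemma integrable_pvt (G : SimpleGraph (Fin n)) (s E ρ K δ η : ℝ) {Za Zb : M2}
    (hZa : Za.transpose = Za) (hZb : Zb.transpose = Zb)
    (Ta Tb : Matrix (Fin 2) (Fin 2) ℝ) {χ : M2 → M2 → ℝ}
    (hχ : Continuous fun b : M2 × M2 => χ b.1 b.2)
    (hχ1 : ∀ b1 b2, |χ b1 b2| ≤ 1) {f : Matrix (Idx m) (Idx m) ℂ → ℝ} (hf : Continuous f)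
    (p q : Fin n × Fin n) :
    Integrable (fun ω : Fin n → ℝ => pvt (Hm G s ω) E ρ K δ η Za Zb Ta Tb χ f p q)
      (potentialLaw n) := by
  obtain ⟨B, hB, hfB⟩ := MeasC780.exists_boundG hf
  exact Integrable.of_bound (measurable_pvt G s E ρ K δ η Za Zb Ta Tb hχ hf p q).aestronglyMeasurable
    B (Filter.Eventually.of_forall fun ω => by
      rw [Real.norm_eq_abs]
      exact abs_pvt_le (Stab269.Hm_symm G s ω) E ρ K δ η hZa hZb Ta Tb hχ1 hB hfB p q)

/-- expectation of `PV` -/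
lemma EGo_PV {d : ℕ} (s E ρ K δ η : ℝ) {Za Zb : M2}
    (hZa : Za.transpose = Za) (hZb : Zb.transpose = Zb)
    (Ta Tb : Matrix (Fin 2) (Fin 2) ℝ) {χ : M2 → M2 → ℝ}
    (hχ : Continuous fun b : M2 × M2 => χ b.1 b.2)
    (hχ1 : ∀ b1 b2, |χ b1 b2| ≤ 1) {f : Matrix (Idx m) (Idx m) ℂ → ℝ} (hf : Continuous f) :
    EGo n d (fun G ω => PV G (Hm G s ω) E ρ K δ η Za Zb Ta Tb χ f) =
      regularAverage n d fun G => eAvg2 G fun p q =>
        ∫ ω, pvt (Hm G s ω) E ρ K δ η Za Zb Ta Tb χ f p q ∂potentialLaw n := by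
  unfold MeasC780.EGo
  congr 1
  funext G
  exact integral_eAvg2 G fun p q => integrable_pvt G s E ρ K δ η hZa hZb Ta Tb hχ hχ1 hf p q

/-- product cutoff -/
def pc (φ ψ : M2 → ℝ) : M2 → M2 → ℝ := fun b1 b2 => φ b1 * ψ b2

lemma pc_cont {φ ψ : M2 → ℝ} (h1 : Continuous φ) (h2 : Continuous ψ) :
    Continuous fun b : M2 × M2 => pc φ ψ b.1 b.2 :=
  (h1.comp continuous_fst).mul (h2.comp continuous_snd)

lemma pc_abs {φ ψ : M2 → ℝ} (h1 : ∀ b, |φ b| ≤ 1) (h2 : ∀ b, |ψ b| ≤ 1) (b1 b2 : M2) :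
    |pc φ ψ b1 b2| ≤ 1 := by
  unfold pc
  rw [abs_mul]
  exact mul_le_one₀ (h1 _) (abs_nonneg _) (h2 _)

open Classical in
/-- **the port values under the switching, in mean** -/
theorem switch_PV {x1 x2 : ℂ} {ρ : ℝ} {Ta Tc Td : Matrix (Fin 2) (Fin 2) ℝ}
    (h : Frame x1 x2 x1 x2 ρ Ta Ta) (h' : Frame x1 x1 x2 x2 ρ Tc Td)
    {r : ℝ} {φa φc φd : M2 → ℝ} (ha : Cut x1 x2 r φa) (hc : Cut x1 x1 r φc)
    (hd : Cut x2 x2 r φd) {f : Matrix (Idx m) (Idx m) ℂ → ℝ} (hf : Continuous f)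
    {ε : ℝ} (hε : 0 < ε) :
    ∃ K0 : ℝ, 0 < K0 ∧ ∀ K : ℝ, K0 ≤ K → ∀ η : ℝ, 0 < η → ∀ (d : ℕ), 0 < d → ∀ s E δ : ℝ, 0 < δ →
      ∃ N : ℕ, ∀ n : ℕ, N ≤ n →
        |EGo n d (fun G ω => PV G (Hm G s ω) E ρ K δ η (Ze2 x1 x1) (Ze2 x2 x2) Tc Td
            (pc φc φd) f) -
          EGo n d (fun G ω => PV G (Hm G s ω) E ρ K δ η (Ze2 x1 x2) (Ze2 x1 x2) Ta Ta
            (pc φa φa) (fun U => f (kk m x1 x2 ρ Ta Tc Td * U * (kk m x1 x2 ρ Ta Tc Td)ᵀ)))| ≤
        ε := by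
  obtain ⟨B, hB, hfB⟩ := MeasC780.exists_boundG hf
  set κ := kk m x1 x2 ρ Ta Tc Td with hκ
  have hfκ : Continuous fun U : Matrix (Idx m) (Idx m) ℂ => f (κ * U * κᵀ) :=
    hf.comp ((continuous_const.matrix_mul continuous_id).matrix_mul continuous_const)
  obtain ⟨B1, hB1, hfB1⟩ := MeasC780.exists_boundG hfκ
  obtain ⟨r0, hr0, htA⟩ := tAvg_sw h h' hf (ε := ε / 8) (by positivity)
  have sa := (sieg_Ze2 h.h1 h.h2).1
  have sc := (sieg_Ze2 h.h1 h.h1).1
  have sd := (sieg_Ze2 h.h2 h.h2).1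
  have cχ1 := pc_cont ha.cont ha.cont
  have cχ2 := pc_cont hc.cont hd.cont
  have aχ1 : ∀ b1 b2, |pc φa φa b1 b2| ≤ 1 := pc_abs ha.abs_le ha.abs_le
  have aχ2 : ∀ b1 b2, |pc φc φd b1 b2| ≤ 1 := pc_abs hc.abs_le hd.abs_le
  refine ⟨4 / r0, by positivity, ?_⟩
  intro K hK η hη d hd0 s E δ hδ
  have hKp : 0 < K := lt_of_lt_of_le (by positivity) hK
  have hKr : 4 / K ≤ r0 := by
    rw [div_le_iff₀ hKp]
    rw [div_le_iff₀ hr0] at hK
    linarith
  obtain ⟨C, hC0, henv⟩ := env_sw ha hc hd hη (ε := ε / (8 * (B + 1))) (by positivity)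
  obtain ⟨C1, hC1⟩ := offB hd0 s E η hη
  obtain ⟨N, hN⟩ := exists_nat_gt
    ((2 * (d + 2) * B + 2 * (d + 2) * B1 + B * C * |C1|) / (ε / 2))
  refine ⟨max N 1, fun n hn => ?_⟩
  have hn1 : 0 < n := by omega
  have hn' : (0 : ℝ) < n := by exact_mod_cast hn1
  have hnN : (N : ℝ) ≤ n := by exact_mod_cast (le_max_left N 1).trans hn
  rw [EGo_PV s E ρ K δ η sc sd Tc Td cχ2 aχ2 hf, EGo_PV s E ρ K δ η sa sa Ta Ta cχ1 aχ1 hfκ]
  set F2 : SimpleGraph (Fin n) → Fin n × Fin n → Fin n × Fin n → ℝ := fun G p q =>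
    ∫ ω, pvt (Hm G s ω) E ρ K δ η (Ze2 x1 x1) (Ze2 x2 x2) Tc Td (pc φc φd) f p q
      ∂potentialLaw n with hF2
  set F1 : SimpleGraph (Fin n) → Fin n × Fin n → Fin n × Fin n → ℝ := fun G p q =>
    ∫ ω, pvt (Hm G s ω) E ρ K δ η (Ze2 x1 x2) (Ze2 x1 x2) Ta Ta (pc φa φa)
      (fun U => f (κ * U * κᵀ)) p q ∂potentialLaw n with hF1
  have bF2 : ∀ G p q, |F2 G p q| ≤ B := by
    intro G p q
    have := norm_integral_le_of_norm_le_const (μ := potentialLaw n)
      (f := fun ω => pvt (Hm G s ω) E ρ K δ η (Ze2 x1 x1) (Ze2 x2 x2) Tc Td (pc φc φd) f p q)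
      (C := B) (Filter.Eventually.of_forall fun ω => by
        rw [Real.norm_eq_abs]
        exact abs_pvt_le (Stab269.Hm_symm G s ω) E ρ K δ η sc sd Tc Td aχ2 hB hfB p q)
    simpa [Real.norm_eq_abs] using this
  have bF1 : ∀ G p q, |F1 G p q| ≤ B1 := by
    intro G p q
    have := norm_integral_le_of_norm_le_const (μ := potentialLaw n)
      (f := fun ω => pvt (Hm G s ω) E ρ K δ η (Ze2 x1 x2) (Ze2 x1 x2) Ta Ta (pc φa φa)
        (fun U => f (κ * U * κᵀ)) p q)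
      (C := B1) (Filter.Eventually.of_forall fun ω => by
        rw [Real.norm_eq_abs]
        exact abs_pvt_le (Stab269.Hm_symm G s ω) E ρ K δ η sa sa Ta Ta aχ1 hB1 hfB1 p q)
    simpa [Real.norm_eq_abs] using this
  have s1 := SwAvg798.switch_avg_valid (d := d) hn1 hd0 F2 bF2
  have s2 := SwAvg798.avg_valid (d := d) hn1 hd0 F1 hB1 (fun G p q _ => bF1 G p q)
  -- the middle comparison
  have hmid : ∀ (G : SimpleGraph (Fin n)) (p q : Fin n × Fin n), VSw G p.1 p.2 q.1 q.2 →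
      |F2 (Sw798.sw G p.1 p.2 q.1 q.2) (p.1, q.1) (p.2, q.2) - F1 G p q| ≤
      (ε / 4) + B * C * ∫ ω, offsq ((Res789.Res (Hm G s ω - Wp p - Wp q) (ze E η)).submatrix
        ![p.1, p.2, q.1, q.2] ![p.1, p.2, q.1, q.2]) ∂potentialLaw n := by
    intro G p q hv
    have hoi : Integrable (fun ω : Fin n → ℝ => offsq ((Res789.Res (Hm G s ω - Wp p - Wp q)
        (ze E η)).submatrix ![p.1, p.2, q.1, q.2] ![p.1, p.2, q.1, q.2])) (potentialLaw n) :=
      Integrable.of_bound (measurable_offsq G s E η p q).aestronglyMeasurable (16 * (1 / η) ^ 2)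
        (Filter.Eventually.of_forall fun ω => by
          rw [Real.norm_eq_abs, abs_of_nonneg (offsq_nonneg _)]
          exact offsq_res_le (Stab269.Hm_symm G s ω) p q E hη)
    have i2 := integrable_pvt (Sw798.sw G p.1 p.2 q.1 q.2) s E ρ K δ η sc sd Tc Td cχ2 aχ2 hf
      (p.1, q.1) (p.2, q.2)
    have i1 := integrable_pvt G s E ρ K δ η sa sa Ta Ta cχ1 aχ1 hfκ p q
    have hpt : ∀ ω : Fin n → ℝ,
        |pvt (Hm (Sw798.sw G p.1 p.2 q.1 q.2) s ω) E ρ K δ η (Ze2 x1 x1) (Ze2 x2 x2) Tc Td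
            (pc φc φd) f (p.1, q.1) (p.2, q.2) -
          pvt (Hm G s ω) E ρ K δ η (Ze2 x1 x2) (Ze2 x1 x2) Ta Ta (pc φa φa)
            (fun U => f (κ * U * κᵀ)) p q| ≤
        ε / 4 + B * C * offsq ((Res789.Res (Hm G s ω - Wp p - Wp q) (ze E η)).submatrix
          ![p.1, p.2, q.1, q.2] ![p.1, p.2, q.1, q.2]) := by
      intro ω
      have e1 := henv n G p q hv s ω E
      have e2 := htA n G p q hv s ω E K δ hδ ((mn_sw hv s ω E hKp).trans hKr)
      have e3 : |tAvg (Hm (Sw798.sw G p.1 p.2 q.1 q.2) s ω) E ρ K δ (Ze2 x1 x1) (Ze2 x2 x2) Tc Td f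
          (p.1, q.1) (p.2, q.2)| ≤ B :=
        MeasC780.abs_tAvg_le (Stab269.Hm_symm _ s ω) _ _ _ _ sc sd _ _ _ _ hB hfB
      have e4 : |pc φa φa (blk (Hm G s ω) E η p) (blk (Hm G s ω) E η q)| ≤ 1 := aχ1 _ _
      set X2 := φc (blk (Hm (Sw798.sw G p.1 p.2 q.1 q.2) s ω) E η (p.1, q.1)) *
          φd (blk (Hm (Sw798.sw G p.1 p.2 q.1 q.2) s ω) E η (p.2, q.2)) with hX2
      set X1 := φa (blk (Hm G s ω) E η p) * φa (blk (Hm G s ω) E η q) with hX1
      set O := offsq ((Res789.Res (Hm G s ω - Wp p - Wp q) (ze E η)).submatrix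
          ![p.1, p.2, q.1, q.2] ![p.1, p.2, q.1, q.2]) with hO
      have hO0 : 0 ≤ O := offsq_nonneg _
      set t2 := tAvg (Hm (Sw798.sw G p.1 p.2 q.1 q.2) s ω) E ρ K δ (Ze2 x1 x1) (Ze2 x2 x2) Tc Td f
          (p.1, q.1) (p.2, q.2) with ht2
      set t1 := tAvg (Hm G s ω) E ρ K δ (Ze2 x1 x2) (Ze2 x1 x2) Ta Ta
          (fun U => f (κ * U * κᵀ)) p q with ht1
      have e4' : |X1| ≤ 1 := e4
      have hgoal : |X2 * t2 - X1 * t1| ≤ ε / 4 + B * C * O := by
        have e5 : X2 * t2 - X1 * t1 = (X2 - X1) * t2 + X1 * (t2 - t1) := by ring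
        rw [e5]
        refine (abs_add_le _ _).trans ?_
        rw [abs_mul, abs_mul]
        have e6 : |X2 - X1| * |t2| ≤ (ε / (8 * (B + 1)) + C * O) * B :=
          mul_le_mul e1 e3 (abs_nonneg _) (by positivity)
        have e7 : |X1| * |t2 - t1| ≤ 1 * (ε / 8) :=
          mul_le_mul e4' e2 (abs_nonneg _) zero_le_one
        have e8 : ε / (8 * (B + 1)) * B ≤ ε / 8 := by
          rw [div_mul_eq_mul_div, div_le_div_iff₀ (by positivity) (by norm_num)]
          nlinarith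
        have e9 : (ε / (8 * (B + 1)) + C * O) * B = ε / (8 * (B + 1)) * B + B * C * O := by ring
        rw [e9] at e6
        linarith
      exact hgoal
    simp only [hF2, hF1]
    rw [← integral_sub i2 i1]
    refine (abs_integral_le_integral_abs).trans ?_
    refine (integral_mono (i2.sub i1).abs ((integrable_const _).add (hoi.const_mul _)) hpt).trans
      (le_of_eq ?_)
    simp only [Pi.add_apply]
    rw [integral_add (integrable_const _) (hoi.const_mul _), integral_const_mul]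
    simp
  have hmidA : |regularAverage n d (fun G => eAvg2 G (fun p q => if VSw G p.1 p.2 q.1 q.2 then
        F2 (Sw798.sw G p.1 p.2 q.1 q.2) (p.1, q.1) (p.2, q.2) else 0)) -
      regularAverage n d (fun G => eAvg2 G (fun p q => if VSw G p.1 p.2 q.1 q.2 then
        F1 G p q else 0))| ≤ ε / 4 + B * C * (C1 / n) := by
    rw [← MeasC780.regularAverage_sub]
    have hb : ∀ G : SimpleGraph (Fin n),
        |eAvg2 G (fun p q => if VSw G p.1 p.2 q.1 q.2 then
          F2 (Sw798.sw G p.1 p.2 q.1 q.2) (p.1, q.1) (p.2, q.2) else 0) -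
        eAvg2 G (fun p q => if VSw G p.1 p.2 q.1 q.2 then F1 G p q else 0)| ≤
        ε / 4 + B * C * ∫ ω, offA G s ω E η ∂potentialLaw n := by
      intro G
      have hoA : ∫ ω, offA G s ω E η ∂potentialLaw n = eAvg2 G (fun p q =>
          if VSw G p.1 p.2 q.1 q.2 then ∫ ω, offsq ((Res789.Res (Hm G s ω - Wp p - Wp q)
            (ze E η)).submatrix ![p.1, p.2, q.1, q.2] ![p.1, p.2, q.1, q.2]) ∂potentialLaw n
          else 0) := by
        unfold offA
        rw [integral_eAvg2]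
        · congr 1
          funext p q
          split_ifs
          · rfl
          · simp
        · intro p q
          split_ifs
          · exact Integrable.of_bound (measurable_offsq G s E η p q).aestronglyMeasurable
              (16 * (1 / η) ^ 2) (Filter.Eventually.of_forall fun ω => by
                rw [Real.norm_eq_abs, abs_of_nonneg (offsq_nonneg _)]
                exact offsq_res_le (Stab269.Hm_symm G s ω) p q E hη)
          · simp
      rw [hoA]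
      have e0 : eAvg2 G (fun p q => if VSw G p.1 p.2 q.1 q.2 then
          F2 (Sw798.sw G p.1 p.2 q.1 q.2) (p.1, q.1) (p.2, q.2) else 0) -
        eAvg2 G (fun p q => if VSw G p.1 p.2 q.1 q.2 then F1 G p q else 0) =
        eAvg2 G (fun p q => (if VSw G p.1 p.2 q.1 q.2 then
          F2 (Sw798.sw G p.1 p.2 q.1 q.2) (p.1, q.1) (p.2, q.2) else 0) -
          (if VSw G p.1 p.2 q.1 q.2 then F1 G p q else 0)) := by
        unfold Inv988.eAvg2
        simp only [Finset.sum_sub_distrib, sub_div]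
      rw [e0]
      have e1 : |eAvg2 G (fun p q => (if VSw G p.1 p.2 q.1 q.2 then
          F2 (Sw798.sw G p.1 p.2 q.1 q.2) (p.1, q.1) (p.2, q.2) else 0) -
          (if VSw G p.1 p.2 q.1 q.2 then F1 G p q else 0))| ≤
          eAvg2 G (fun p q => |(if VSw G p.1 p.2 q.1 q.2 then
          F2 (Sw798.sw G p.1 p.2 q.1 q.2) (p.1, q.1) (p.2, q.2) else 0) -
          (if VSw G p.1 p.2 q.1 q.2 then F1 G p q else 0)|) := by
        unfold Inv988.eAvg2
        rw [abs_div, abs_of_nonneg (by positivity : (0 : ℝ) ≤ ((darts G).card : ℝ) ^ 2)]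
        refine div_le_div_of_nonneg_right ?_ (by positivity)
        exact (Finset.abs_sum_le_sum_abs _ _).trans
          (Finset.sum_le_sum fun p _ => Finset.abs_sum_le_sum_abs _ _)
      refine e1.trans ?_
      have e2 : eAvg2 G (fun p q => |(if VSw G p.1 p.2 q.1 q.2 then
          F2 (Sw798.sw G p.1 p.2 q.1 q.2) (p.1, q.1) (p.2, q.2) else 0) -
          (if VSw G p.1 p.2 q.1 q.2 then F1 G p q else 0)|) ≤
          eAvg2 G (fun p q => ε / 4 + B * C * (if VSw G p.1 p.2 q.1 q.2 then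
            ∫ ω, offsq ((Res789.Res (Hm G s ω - Wp p - Wp q)
            (ze E η)).submatrix ![p.1, p.2, q.1, q.2] ![p.1, p.2, q.1, q.2]) ∂potentialLaw n
          else 0)) := by
        refine MeasC780.eAvg2_mono G fun p q => ?_
        by_cases hv : VSw G p.1 p.2 q.1 q.2
        · simp only [if_pos hv]
          exact hmid G p q hv
        · simp only [if_neg hv]
          simp only [sub_zero, abs_zero, mul_zero, add_zero]
          positivity
      refine e2.trans ?_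
      rw [eAvg2_add, eAvg2_const_mul]
      have e3 : eAvg2 G (fun _ _ => ε / 4) ≤ ε / 4 :=
        (le_abs_self _).trans (MeasC780.abs_eAvg2_le G (by positivity) fun _ _ => by
          rw [abs_of_nonneg (by positivity)])
      linarith
    have hb2 : |regularAverage n d (fun G => eAvg2 G (fun p q => if VSw G p.1 p.2 q.1 q.2 then
          F2 (Sw798.sw G p.1 p.2 q.1 q.2) (p.1, q.1) (p.2, q.2) else 0) -
        eAvg2 G (fun p q => if VSw G p.1 p.2 q.1 q.2 then F1 G p q else 0))| ≤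
        regularAverage n d fun G => ε / 4 + B * C * ∫ ω, offA G s ω E η ∂potentialLaw n := by
      unfold regularAverage
      rw [abs_div, abs_of_nonneg (Nat.cast_nonneg _ : (0 : ℝ) ≤ ((regularGraphs n d).card : ℝ))]
      refine div_le_div_of_nonneg_right ?_ (Nat.cast_nonneg _)
      exact (Finset.abs_sum_le_sum_abs _ _).trans (Finset.sum_le_sum fun G _ => hb G)
    refine hb2.trans ?_
    rw [MeasC780.regularAverage_add, MeasC780.regularAverage_const_mul]
    have e1 : regularAverage n d (fun _ => ε / 4) ≤ ε / 4 :=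
      (le_abs_self _).trans (MeasC780.abs_regularAverage_le (by positivity) fun _ => by
        rw [abs_of_nonneg (by positivity)])
    have e2 := hC1 n hn1
    have e3 : B * C * regularAverage n d (fun G => ∫ ω, offA G s ω E η ∂potentialLaw n) ≤
        B * C * (C1 / n) := by gcongr
    linarith
  have hfin : 2 * (d + 2) * B / n + 2 * (d + 2) * B1 / n + B * C * (|C1| / n) ≤ ε / 2 := by
    have e1 : 2 * (d + 2) * B / n + 2 * (d + 2) * B1 / n + B * C * (|C1| / n) =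
        (2 * (d + 2) * B + 2 * (d + 2) * B1 + B * C * |C1|) / n := by ring
    rw [e1, div_le_iff₀ hn']
    rw [div_lt_iff₀ (by positivity)] at hN
    have : (N : ℝ) * (ε / 2) ≤ n * (ε / 2) := by gcongr
    linarith
  have hC1le : B * C * (C1 / n) ≤ B * C * (|C1| / n) := by
    gcongr
    exact le_abs_self _
  rw [abs_sub_comm] at s2
  have t1 := abs_sub_le (regularAverage n d fun G => eAvg2 G (F2 G))
    (regularAverage n d (fun G => eAvg2 G (fun p q => if VSw G p.1 p.2 q.1 q.2 then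
        F2 (Sw798.sw G p.1 p.2 q.1 q.2) (p.1, q.1) (p.2, q.2) else 0)))
    (regularAverage n d fun G => eAvg2 G (F1 G))
  have t2 := abs_sub_le
    (regularAverage n d (fun G => eAvg2 G (fun p q => if VSw G p.1 p.2 q.1 q.2 then
        F2 (Sw798.sw G p.1 p.2 q.1 q.2) (p.1, q.1) (p.2, q.2) else 0)))
    (regularAverage n d (fun G => eAvg2 G (fun p q => if VSw G p.1 p.2 q.1 q.2 then
        F1 G p q else 0)))
    (regularAverage n d fun G => eAvg2 G (F1 G))
  have hgoal : |(regularAverage n d fun G => eAvg2 G (F2 G)) -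
      regularAverage n d fun G => eAvg2 G (F1 G)| ≤ ε := by linarith
  exact hgoal

end Crest.Agent.R166.InvG348
end

-- ▼ part R166/InvG2_348

/-!
Row 166, section 50 (helper348): asymptotic invariance under the switching unitary.
-/

set_option autoImplicit false
set_option linter.unusedSectionVars false

namespace Crest.Agent.R166.InvG348

open Matrix Complex Topology MeasureTheory Crest.ProbabilityR.RandomMatrix
open Crest.Agent.R166.InvB348 Crest.Agent.R166.InvC348 Crest.Agent.R166.InvD348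
open Crest.Agent.R166.InvP348
open Crest.Agent.R166.SwAvg798 (Wp)
open Crest.Agent.R166.Sw798 (VSw)
open Crest.Agent.R166.Inv988 (M2 Idx blk eAvg2 tAvg PV cAvg KeyCmp idxEquiv imPart)
open Crest.Agent.R166.MeasC780 (Good EGo)

variable {n : ℕ}

lemma cAvg_pc (G : SimpleGraph (Fin n)) (H : Matrix (Fin n) (Fin n) ℝ) (E η : ℝ) (φ ψ : M2 → ℝ) :
    cAvg G H E η (pc φ ψ) = eAvg G (fun u w => φ (Blk (Res H (ze E η)) u w)) *
      eAvg G (fun u w => ψ (Blk (Res H (ze E η)) u w)) := by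
  unfold Inv988.cAvg Inv988.eAvg2 eAvg pc Inv988.blk
  rw [div_mul_div_comm, Finset.sum_mul_sum, sq]

lemma abs_eAvg_cut (G : SimpleGraph (Fin n)) (H : Matrix (Fin n) (Fin n) ℝ) (E η : ℝ)
    {φ : M2 → ℝ} (h : ∀ b, |φ b| ≤ 1) :
    |eAvg G (fun u w => φ (Blk (Res H (ze E η)) u w))| ≤ 1 :=
  MeasC780.abs_eAvg_le G zero_le_one fun _ _ => h _

/-- concentration of the cutoff averages -/
lemma conc {d : ℕ} {s E : ℝ} (hEnv : EnvDet d s E) {φ ψ : M2 → ℝ} (c1 : Continuous φ)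
    (c2 : Continuous ψ) (s1 : HasCompactSupport φ) (s2 : HasCompactSupport ψ)
    (b1 : ∀ b, |φ b| ≤ 1) (b2 : ∀ b, |ψ b| ≤ 1) {η : ℝ} (hη : 0 < η) {ε : ℝ} (hε : 0 < ε) :
    ∃ N : ℕ, ∀ n : ℕ, N ≤ n → (regularGraphs n d).Nonempty →
      Whp n d ε fun G ω => |cAvg G (Hm G s ω) E η (pc φ ψ) -
        EGo n d (fun G ω => cAvg G (Hm G s ω) E η (pc φ ψ))| ≤ ε := by
  obtain ⟨A, hA⟩ := hEnv φ c1 s1 η hη
  obtain ⟨C, hC⟩ := hEnv ψ c2 s2 η hη
  set c0 := 2 * (1 + |A|) + 2 * (1 + |A * C|) + 2 with hc0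
  have hc0p : 0 < c0 := by positivity
  set ε' := ε / c0 with hε'
  have hε'p : 0 < ε' := by positivity
  have hε'e : c0 * ε' = ε := by rw [hε']; field_simp
  obtain ⟨N1, hN1⟩ := hA ε' hε'p
  obtain ⟨N2, hN2⟩ := hC ε' hε'p
  refine ⟨max N1 N2, fun n hn hne => ?_⟩
  have w1 := hN1 n (by omega) hne
  have w2 := hN2 n (by omega) hne
  have w := whp_and hε'p.le hε'p.le w1 w2
  have w' : Whp n d (ε' + ε') fun G ω =>
      |cAvg G (Hm G s ω) E η (pc φ ψ) - A * C| ≤ (1 + |A|) * ε' := by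
    refine whp_mono w fun G ω hG => ?_
    rw [cAvg_pc]
    set a := eAvg G (fun u w => φ (Blk (Res (Hm G s ω) (ze E η)) u w)) with ha
    set b := eAvg G (fun u w => ψ (Blk (Res (Hm G s ω) (ze E η)) u w)) with hb
    have e : a * b - A * C = (a - A) * b + A * (b - C) := by ring
    rw [e]
    refine (abs_add_le _ _).trans ?_
    rw [abs_mul, abs_mul]
    have hb1 : |b| ≤ 1 := abs_eAvg_cut G _ E η b2
    have h1 : |a - A| * |b| ≤ ε' * 1 := mul_le_mul hG.1 hb1 (abs_nonneg _) hε'p.le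
    have h2 : |A| * |b - C| ≤ |A| * ε' := mul_le_mul_of_nonneg_left hG.2 (abs_nonneg _)
    linarith
  have g1 : Good n 1 fun G ω => cAvg G (Hm G s ω) E η (pc φ ψ) :=
    MeasC780.good_cAvg s E η (pc_cont c1 c2) (pc_abs b1 b2)
  have g2 : Good n |A * C| fun _ _ => A * C := ⟨fun _ => measurable_const, fun _ _ => le_rfl⟩
  have e1 := MeasC780.abs_EGo_sub_le_of_whp (by positivity) (by positivity) g1 g2 hne w'
  rw [MeasC780.EGo_const hne] at e1
  have hεε : ε' + ε' ≤ ε := by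
    have : 0 ≤ |A| := abs_nonneg _
    have : 0 ≤ |A * C| := abs_nonneg _
    nlinarith
  refine whp_mono_eps (whp_mono w' fun G ω hG => ?_) hεε
  have t := abs_sub_le (cAvg G (Hm G s ω) E η (pc φ ψ)) (A * C)
    (EGo n d (fun G ω => cAvg G (Hm G s ω) E η (pc φ ψ)))
  rw [abs_sub_comm (A * C)] at t
  have : (1 + |A|) * ε' + ((1 + |A|) * ε' + (1 + |A * C|) * (ε' + ε')) ≤ ε := by
    rw [← hε'e, hc0]
    nlinarith
  linarith

lemma tAvg_one {m : ℕ} (H : Matrix (Fin n) (Fin n) ℝ) (E ρ K : ℝ) {δ : ℝ} (hδ : 0 < δ)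
    (Za Zb : M2) (Ta Tb : Matrix (Fin 2) (Fin 2) ℝ) (p q : Fin n × Fin n) :
    tAvg (m := m) H E ρ K δ Za Zb Ta Tb (fun _ => 1) p q = 1 := by
  unfold Inv988.tAvg
  simp
  field_simp

lemma PV_one {m : ℕ} (G : SimpleGraph (Fin n)) (H : Matrix (Fin n) (Fin n) ℝ) (E ρ K : ℝ)
    {δ : ℝ} (hδ : 0 < δ) (η : ℝ) (Za Zb : M2) (Ta Tb : Matrix (Fin 2) (Fin 2) ℝ)
    (χ : M2 → M2 → ℝ) :
    PV (m := m) G H E ρ K δ η Za Zb Ta Tb χ (fun _ => 1) = cAvg G H E η χ := by
  unfold Inv988.PV Inv988.cAvg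
  congr 1
  funext p q
  rw [tAvg_one _ _ _ _ hδ, mul_one]

/-- final arithmetic -/
lemma arith {α γ P1 P2 T1 T2 ε1 t B : ℝ} (hα0 : 0 ≤ α) (hε1 : 0 ≤ ε1) (ht : 0 ≤ t)
    (hε11 : ε1 ≤ 1)
    (hT2 : |T2| ≤ B)
    (h1 : |P1 - α * T1| ≤ ε1 * (α + t) + t + t * B + 2 * B * (2 * t))
    (h2 : |P2 - γ * T2| ≤ ε1 * (γ + t) + t + t * B + 2 * B * (2 * t))
    (h3 : |P2 - P1| ≤ t) (h4 : |γ - α| ≤ t) :
    α * |T1 - T2| ≤ 2 * ε1 * α + t * (6 + 11 * B) := by
  have hB : 0 ≤ B := (abs_nonneg _).trans hT2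
  have e : α * (T1 - T2) = -(P1 - α * T1) + (P2 - γ * T2) - (P2 - P1) + (γ - α) * T2 := by ring
  have e2 : α * |T1 - T2| = |α * (T1 - T2)| := by rw [abs_mul, abs_of_nonneg hα0]
  rw [e2, e]
  have h5 : |(γ - α) * T2| ≤ t * B := by
    rw [abs_mul]
    exact mul_le_mul h4 hT2 (abs_nonneg _) ht
  have h6 : γ ≤ α + t := by
    have := (abs_le.1 h4).2
    linarith
  have h7 : ε1 * γ ≤ ε1 * α + ε1 * t := by nlinarith
  have h8 : ε1 * t ≤ t := by nlinarith
  calc |-(P1 - α * T1) + (P2 - γ * T2) - (P2 - P1) + (γ - α) * T2|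
      ≤ |P1 - α * T1| + |P2 - γ * T2| + |P2 - P1| + |(γ - α) * T2| := by
        have a1 := abs_add_le (-(P1 - α * T1) + (P2 - γ * T2) - (P2 - P1)) ((γ - α) * T2)
        have a2 := abs_sub (-(P1 - α * T1) + (P2 - γ * T2)) (P2 - P1)
        have a3 := abs_add_le (-(P1 - α * T1)) (P2 - γ * T2)
        rw [abs_neg] at a3
        linarith
    _ ≤ _ := by nlinarith

lemma sub_cont {k : ℕ} {f : Matrix (Idx k) (Idx k) ℂ → ℝ} (hf : Continuous f) :
    Continuous fun U : Matrix (Fin (4 + k)) (Fin (4 + k)) ℂ =>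
      f (U.submatrix (idxEquiv k) (idxEquiv k)) :=
  hf.comp (continuous_id.matrix_submatrix _ _)

set_option maxHeartbeats 1600000 in
/-- **asymptotic invariance under the switching unitary** -/
theorem kk_inv {d : ℕ} (hd : 0 < d) {s E ρ : ℝ} (hEnv : EnvDet d s E) (hKey : KeyCmp d s E ρ)
    {x1 x2 : ℂ} (hsup : ∀ χ : M2 → ℝ, Continuous χ → HasCompactSupport χ →
      (∀ b, 0 ≤ χ b) → 0 < χ (Ze2 x1 x2) → PosE d s E χ)
    {Ta Tc Td : Matrix (Fin 2) (Fin 2) ℝ}
    (h : Frame x1 x2 x1 x2 ρ Ta Ta) (h' : Frame x1 x1 x2 x2 ρ Tc Td) (k : ℕ)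
    {f : Matrix (Idx k) (Idx k) ℂ → ℝ} (hf : Continuous f) {δ : ℝ} (hδ : 0 < δ) {ε : ℝ}
    (hε : 0 < ε) :
    ∃ K0 : ℝ, 0 < K0 ∧ ∀ K : ℝ, K0 ≤ K → ∃ N : ℕ, ∀ n : ℕ, N ≤ n →
      (regularGraphs n d).Nonempty →
      |EG n d s (fun H => TestVal H E ρ K δ (4 + k) fun U =>
          f (kk k x1 x2 ρ Ta Tc Td * U.submatrix (idxEquiv k) (idxEquiv k) *
            (kk k x1 x2 ρ Ta Tc Td)ᵀ)) -
        EG n d s (fun H => TestVal H E ρ K δ (4 + k) fun U =>
          f (U.submatrix (idxEquiv k) (idxEquiv k)))| ≤ ε := by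
  set κ := kk k x1 x2 ρ Ta Tc Td with hκ
  set f1 : Matrix (Idx k) (Idx k) ℂ → ℝ := fun U => f (κ * U * κᵀ) with hf1def
  have hf1 : Continuous f1 :=
    hf.comp ((continuous_const.matrix_mul continuous_id).matrix_mul continuous_const)
  obtain ⟨B0, hB0, hfB0⟩ := MeasC780.exists_boundG hf
  obtain ⟨B1, hB1, hfB1⟩ := MeasC780.exists_boundG hf1
  set B := max B0 B1 with hBdef
  have hB : 0 ≤ B := hB0.trans (le_max_left _ _)
  have hfB : ∀ U : Matrix (Idx k) (Idx k) ℂ, (∀ i j, ‖U i j‖ ≤ 1) → |f U| ≤ B :=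
    fun U hU => (hfB0 U hU).trans (le_max_left _ _)
  have hf1B : ∀ U : Matrix (Idx k) (Idx k) ℂ, (∀ i j, ‖U i j‖ ≤ 1) → |f1 U| ≤ B :=
    fun U hU => (hfB1 U hU).trans (le_max_right _ _)
  have sa := (sieg_Ze2 h.h1 h.h2).1
  have sc := (sieg_Ze2 h.h1 h.h1).1
  have sd := (sieg_Ze2 h.h2 h.h2).1
  set ε1 := min (ε / 4) 1 with hε1def
  have hε1 : 0 < ε1 := by positivity
  have hε11 : ε1 ≤ 1 := min_le_right _ _
  have hε1ε : ε1 ≤ ε / 4 := min_le_left _ _
  obtain ⟨r1, hr1, hk1⟩ := hKey k (Ze2 x1 x2) (Ze2 x1 x2) Ta Ta sa sa h.hTa h.hTa h.ua h.ua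
    f1 hf1 δ hδ ε1 hε1
  obtain ⟨r2, hr2, hk2⟩ := hKey k (Ze2 x1 x1) (Ze2 x2 x2) Tc Td sc sd h'.hTa h'.hTb h'.ua h'.ub
    f hf δ hδ ε1 hε1
  set R := min r1 r2 with hRdef
  have hR : 0 < R := by positivity
  obtain ⟨ra, hra, hca⟩ := exists_cut h.h1 h.h2 hR
  obtain ⟨rc, hrc, hcc⟩ := exists_cut h.h1 h.h1 hR
  obtain ⟨rd, hrd, hcd⟩ := exists_cut h.h2 h.h2 hR
  set r := min ra (min rc rd) with hrdef
  have hr : 0 < r := by positivity
  obtain ⟨φa, a1, a2, a3, a4, a5⟩ := hca r hr (min_le_left _ _)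
  obtain ⟨φc, c1, c2, c3, c4, c5⟩ := hcc r hr ((min_le_right _ _).trans (min_le_left _ _))
  obtain ⟨φd, d1, d2, d3, d4, d5⟩ := hcd r hr ((min_le_right _ _).trans (min_le_right _ _))
  have Ca : Cut x1 x2 r φa := ⟨a1, a2, fun b => (a3 b).1, fun b => (a3 b).2, a5⟩
  have Cc : Cut x1 x1 r φc := ⟨c1, c2, fun b => (c3 b).1, fun b => (c3 b).2, c5⟩
  have Cd : Cut x2 x2 r φd := ⟨d1, d2, fun b => (d3 b).1, fun b => (d3 b).2, d5⟩
  have cχ1 := pc_cont a1 a1
  have cχ2 := pc_cont c1 d1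
  have aχ1 : ∀ b1 b2, |pc φa φa b1 b2| ≤ 1 := pc_abs Ca.abs_le Ca.abs_le
  have aχ2 : ∀ b1 b2, |pc φc φd b1 b2| ≤ 1 := pc_abs Cc.abs_le Cd.abs_le
  have nχ1 : ∀ b1 b2, 0 ≤ pc φa φa b1 b2 ∧ pc φa φa b1 b2 ≤ 1 := fun b1 b2 =>
    ⟨mul_nonneg (Ca.nn _) (Ca.nn _), (le_abs_self _).trans (aχ1 b1 b2)⟩
  have nχ2 : ∀ b1 b2, 0 ≤ pc φc φd b1 b2 ∧ pc φc φd b1 b2 ≤ 1 := fun b1 b2 =>
    ⟨mul_nonneg (Cc.nn _) (Cd.nn _), (le_abs_self _).trans (aχ2 b1 b2)⟩
  have sχ1 : ∀ b1 b2, pc φa φa b1 b2 ≠ 0 →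
      bnorm (b1 - Ze2 x1 x2) ≤ r1 ∧ bnorm (b2 - Ze2 x1 x2) ≤ r1 := fun b1 b2 hb =>
    ⟨(a4 _ (left_ne_zero_of_mul hb)).trans (min_le_left _ _),
      (a4 _ (right_ne_zero_of_mul hb)).trans (min_le_left _ _)⟩
  have sχ2 : ∀ b1 b2, pc φc φd b1 b2 ≠ 0 →
      bnorm (b1 - Ze2 x1 x1) ≤ r2 ∧ bnorm (b2 - Ze2 x2 x2) ≤ r2 := fun b1 b2 hb =>
    ⟨(c4 _ (left_ne_zero_of_mul hb)).trans (min_le_right _ _),
      (d4 _ (right_ne_zero_of_mul hb)).trans (min_le_right _ _)⟩
  -- positivity of the environment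
  have hpos : 0 < φa (Ze2 x1 x2) := by
    rw [Ca.eval h.h1 h.h2]
    simp [bmp_zero]
  obtain ⟨a0, ha0, ηP, hηP, hPos⟩ := hsup φa a1 a2 (fun b => (a3 b).1) hpos
  set α0 := a0 ^ 2 / 2 with hα0def
  have hα0 : 0 < α0 := by positivity
  set t := min (min (α0 * (ε / 2) / (6 + 11 * B)) (1 / 4)) α0 with htdef
  have ht : 0 < t := by positivity
  have ht1 : t ≤ α0 * (ε / 2) / (6 + 11 * B) := (min_le_left _ _).trans (min_le_left _ _)
  have ht2 : t ≤ 1 / 4 := (min_le_left _ _).trans (min_le_right _ _)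
  have ht3 : t ≤ α0 := min_le_right _ _
  obtain ⟨K1, hK1, hk1⟩ := hk1 (pc φa φa) cχ1 nχ1 sχ1 t ht
  obtain ⟨K2, hK2, hk2⟩ := hk2 (pc φc φd) cχ2 nχ2 sχ2 t ht
  obtain ⟨K3, hK3, hk3⟩ := switch_PV (m := k) h h' Ca Cc Cd hf ht
  obtain ⟨K4, hK4, hk4⟩ := switch_PV (m := k) h h' Ca Cc Cd
    (f := fun _ => (1 : ℝ)) continuous_const ht
  refine ⟨max (max K1 K2) (max K3 K4), by positivity, fun K hK => ?_⟩
  have hKK1 : K1 ≤ K := ((le_max_left _ _).trans (le_max_left _ _)).trans hK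
  have hKK2 : K2 ≤ K := ((le_max_right _ _).trans (le_max_left _ _)).trans hK
  have hKK3 : K3 ≤ K := ((le_max_left _ _).trans (le_max_right _ _)).trans hK
  have hKK4 : K4 ≤ K := ((le_max_right _ _).trans (le_max_right _ _)).trans hK
  obtain ⟨η1, hη1, hk1⟩ := hk1 K hKK1
  obtain ⟨η2, hη2, hk2⟩ := hk2 K hKK2
  set η := min ηP (min η1 η2) with hηdef
  have hη : 0 < η := by positivity
  have hηP' : η ≤ ηP := min_le_left _ _
  have hη1' : η ≤ η1 := (min_le_right _ _).trans (min_le_left _ _)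
  have hη2' : η ≤ η2 := (min_le_right _ _).trans (min_le_right _ _)
  obtain ⟨N1, hN1⟩ := hk1 η hη hη1'
  obtain ⟨N2, hN2⟩ := hk2 η hη hη2'
  obtain ⟨N3, hN3⟩ := hk3 K hKK3 η hη d hd s E δ hδ
  obtain ⟨N4, hN4⟩ := hk4 K hKK4 η hη d hd s E δ hδ
  obtain ⟨N5, hN5⟩ := conc hEnv a1 a1 a2 a2 Ca.abs_le Ca.abs_le hη ht
  obtain ⟨N6, hN6⟩ := conc hEnv c1 d1 c2 d2 Cc.abs_le Cd.abs_le hη ht
  obtain ⟨N7, hN7⟩ := hPos η hη hηP' (1 / 4) (by norm_num)
  refine ⟨max (max (max N1 N2) (max N3 N4)) (max (max N5 N6) N7), fun n hn hne => ?_⟩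
  have w1 := hN1 n (by omega) hne
  have w2 := hN2 n (by omega) hne
  have e3 := hN3 n (by omega)
  have e4 := hN4 n (by omega)
  have w5 := hN5 n (by omega) hne
  have w6 := hN6 n (by omega) hne
  have w7 := hN7 n (by omega) hne
  -- the averages of the cutoffs
  set α := EGo n d (fun G ω => cAvg G (Hm G s ω) E η (pc φa φa)) with hα
  set γ := EGo n d (fun G ω => cAvg G (Hm G s ω) E η (pc φc φd)) with hγ
  have hαb : |α| ≤ 1 := MeasC780.abs_EGo_le zero_le_one fun G ω =>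
    (MeasC780.good_cAvg s E η cχ1 aχ1).bdd G ω
  have hγb : |γ| ≤ 1 := MeasC780.abs_EGo_le zero_le_one fun G ω =>
    (MeasC780.good_cAvg s E η cχ2 aχ2).bdd G ω
  have hαlow : α0 ≤ α := by
    have w := whp_and ht.le (by norm_num) w5 w7
    obtain ⟨G, ω, g5, g7⟩ := whp_exists hne w (by linarith)
    rw [cAvg_pc] at g5
    have h1 : a0 ^ 2 ≤ eAvg G (fun u w => φa (Blk (Res (Hm G s ω) (ze E η)) u w)) *
        eAvg G (fun u w => φa (Blk (Res (Hm G s ω) (ze E η)) u w)) := by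
      rw [sq]
      exact mul_le_mul g7 g7 ha0.le (ha0.le.trans g7)
    have h2 := (abs_le.1 g5).2
    have h3 : a0 ^ 2 = 2 * α0 := by rw [hα0def]; ring
    linarith
  have hα0' : 0 ≤ α := hα0.le.trans hαlow
  have hγα : |γ - α| ≤ t := by
    simp only [PV_one _ _ _ _ _ hδ] at e4
    exact e4
  have hγ0 : 0 ≤ γ := by
    have := (abs_le.1 hγα).1
    linarith
  -- test values
  have gT1 : Good n B fun G ω => TestVal (Hm G s ω) E ρ K δ (4 + k)
      (fun U => f1 (U.submatrix (idxEquiv k) (idxEquiv k))) :=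
    MeasC780.good_TestVal s E ρ K δ (sub_cont hf1) hB fun U hU => hf1B _ fun i j => hU _ _
  have gT2 : Good n B fun G ω => TestVal (Hm G s ω) E ρ K δ (4 + k)
      (fun U => f (U.submatrix (idxEquiv k) (idxEquiv k))) :=
    MeasC780.good_TestVal s E ρ K δ (sub_cont hf) hB fun U hU => hfB _ fun i j => hU _ _
  have gP1 : Good n B fun G ω => PV G (Hm G s ω) E ρ K δ η (Ze2 x1 x2) (Ze2 x1 x2) Ta Ta
      (pc φa φa) f1 := MeasC780.good_PV s E ρ K δ η sa sa Ta Ta cχ1 aχ1 hf1 hB hf1B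
  have gP2 : Good n B fun G ω => PV G (Hm G s ω) E ρ K δ η (Ze2 x1 x1) (Ze2 x2 x2) Tc Td
      (pc φc φd) f := MeasC780.good_PV s E ρ K δ η sc sd Tc Td cχ2 aχ2 hf hB hfB
  have key : ∀ {P T : SimpleGraph (Fin n) → (Fin n → ℝ) → ℝ} {χ : M2 → M2 → ℝ} {c : ℝ},
      Good n B P → Good n B T → |c| ≤ 1 → 0 ≤ c →
      Whp n d t (fun G ω => |P G ω - cAvg G (Hm G s ω) E η χ * T G ω| ≤
        ε1 * cAvg G (Hm G s ω) E η χ + t) →
      Whp n d t (fun G ω => |cAvg G (Hm G s ω) E η χ - c| ≤ t) →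
      |EGo n d P - c * EGo n d T| ≤ ε1 * (c + t) + t + t * B + 2 * B * (2 * t) := by
    intro P T χ c gP gT hc hc0 w w'
    have gcT : Good n B fun G ω => c * T G ω :=
      (gT.const_mul c).mono (by
        calc |c| * B ≤ 1 * B := by gcongr
          _ = B := one_mul _)
    have ww := whp_and ht.le ht.le w w'
    have ww2 : Whp n d (t + t) fun G ω => |P G ω - c * T G ω| ≤ ε1 * (c + t) + t + t * B := by
      refine whp_mono ww fun G ω hG => ?_
      have h1 := hG.1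
      have h2 := hG.2
      have h3 : cAvg G (Hm G s ω) E η χ ≤ c + t := by
        have := (abs_le.1 h2).2
        linarith
      have h4 : |(cAvg G (Hm G s ω) E η χ - c) * T G ω| ≤ t * B := by
        rw [abs_mul]
        exact mul_le_mul h2 (gT.bdd G ω) (abs_nonneg _) ht.le
      have h5 : P G ω - c * T G ω = (P G ω - cAvg G (Hm G s ω) E η χ * T G ω) +
          (cAvg G (Hm G s ω) E η χ - c) * T G ω := by ring
      rw [h5]
      refine (abs_add_le _ _).trans ?_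
      have h6 : ε1 * cAvg G (Hm G s ω) E η χ ≤ ε1 * (c + t) := by gcongr
      linarith
    have h7 := MeasC780.abs_EGo_sub_le_of_whp (by positivity) (by positivity) gP gcT hne ww2
    rw [MeasC780.EGo_const_mul] at h7
    refine h7.trans (le_of_eq ?_)
    ring
  have k1 := key gP1 gT1 hαb hα0' w1 w5
  have k2 := key gP2 gT2 hγb hγ0 w2 w6
  have hT2 : |EGo n d fun G ω => TestVal (Hm G s ω) E ρ K δ (4 + k)
      (fun U => f (U.submatrix (idxEquiv k) (idxEquiv k)))| ≤ B :=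
    MeasC780.abs_EGo_le hB fun G ω => gT2.bdd G ω
  have fin := arith hα0' hε1.le ht.le hε11 hT2 k1 k2 e3 hγα
  set T1 := EGo n d fun G ω => TestVal (Hm G s ω) E ρ K δ (4 + k)
      (fun U => f1 (U.submatrix (idxEquiv k) (idxEquiv k))) with hT1def
  set T2 := EGo n d fun G ω => TestVal (Hm G s ω) E ρ K δ (4 + k)
      (fun U => f (U.submatrix (idxEquiv k) (idxEquiv k))) with hT2def
  have hgoal : |T1 - T2| ≤ ε := by
    have h1 : t * (6 + 11 * B) ≤ α0 * (ε / 2) := by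
      rw [le_div_iff₀ (by positivity)] at ht1
      exact ht1
    have h2 : α0 * (ε / 2) ≤ α * (ε / 2) := by gcongr
    have h3 : 2 * ε1 * α ≤ α * (ε / 2) := by nlinarith
    have h4 : α * |T1 - T2| ≤ α * ε := by linarith
    exact le_of_mul_le_mul_left h4 (lt_of_lt_of_le hα0 hαlow)
  exact hgoal

end Crest.Agent.R166.InvG348
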