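import Crest.Agent.R166.InvE_988
import Crest.Agent.R166.GaussQ_286
import Crest.Agent.R166.SpArr_286

-- ▼ part R166/InvF_988
section

/-!
Row 166, section 50 (helper988): eigen-expansions.
-/

set_option autoImplicit false
set_option linter.unusedSectionVars false
set_option linter.unusedSimpArgs false

namespace Crest.Agent.R166.Inv988

open MeasureTheory ProbabilityTheory Matrix Crest.ProbabilityR.RandomMatrix Crest.Agent.R166

/-- `∑ i, φ i • v i v iᵀ` -/
def SM {J ι : Type*} [Fintype J] (φ : J → ℝ) (v : J → ι → ℝ) : Matrix ι ι ℝ :=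
  Matrix.of fun a b => ∑ i, φ i * v i a * v i b

lemma SM_apply {J ι : Type*} [Fintype J] (φ : J → ℝ) (v : J → ι → ℝ) (a b : ι) :
    SM φ v a b = ∑ i, φ i * v i a * v i b := rfl

lemma SM_symm {J ι : Type*} [Fintype J] (φ : J → ℝ) (v : J → ι → ℝ) : (SM φ v)ᵀ = SM φ v := by
  ext a b
  simp only [Matrix.transpose_apply, SM_apply]
  exact Finset.sum_congr rfl fun i _ => by ring

lemma SM_congr_mul {J ι κ : Type*} [Fintype J] [Fintype ι] (φ : J → ℝ) (v : J → ι → ℝ)
    (X : Matrix κ ι ℝ) : X * SM φ v * Xᵀ = SM φ fun i => X *ᵥ v i := by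
  ext a b
  simp only [Matrix.mul_apply, SM_apply, Matrix.transpose_apply, Matrix.mulVec, dotProduct,
    Finset.sum_mul, Finset.mul_sum]
  calc ∑ x, ∑ i, ∑ j, X a i * (φ j * v j i * v j x) * X b x
      = ∑ x, ∑ j, ∑ i, X a i * (φ j * v j i * v j x) * X b x :=
        Finset.sum_congr rfl fun x _ => Finset.sum_comm
    _ = ∑ j, ∑ x, ∑ i, X a i * (φ j * v j i * v j x) * X b x := Finset.sum_comm
    _ = _ := by
        refine Finset.sum_congr rfl fun j _ => ?_
        refine Finset.sum_congr rfl fun x _ => ?_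
        exact Finset.sum_congr rfl fun i _ => by ring

section spectral

variable {n : ℕ} {H : Matrix (Fin n) (Fin n) ℝ} (hH : H.IsHermitian)

/-- eigenvector matrix -/
noncomputable def eO : Matrix (Fin n) (Fin n) ℝ := (hH.eigenvectorUnitary : Matrix _ _ ℝ)

lemma eO_tmul : (eO hH)ᵀ * eO hH = 1 := by
  have := Matrix.mem_unitaryGroup_iff'.1 hH.eigenvectorUnitary.2
  rwa [Matrix.star_eq_conjTranspose, Matrix.conjTranspose_eq_transpose_of_trivial] at this

lemma eO_mult : eO hH * (eO hH)ᵀ = 1 := by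
  have := Matrix.mem_unitaryGroup_iff.1 hH.eigenvectorUnitary.2
  rwa [Matrix.star_eq_conjTranspose, Matrix.conjTranspose_eq_transpose_of_trivial] at this

lemma eH_eq : H = eO hH * Matrix.diagonal hH.eigenvalues * (eO hH)ᵀ := by
  have h := hH.spectral_theorem
  rw [Unitary.conjStarAlgAut_apply, Matrix.star_eq_conjTranspose,
    Matrix.conjTranspose_eq_transpose_of_trivial] at h
  exact h

lemma eO_orth (i j : Fin n) : ∑ v, eO hH v i * eO hH v j = if i = j then 1 else 0 := by
  have := congrFun (congrFun (eO_tmul hH) i) j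
  simpa [Matrix.mul_apply, Matrix.one_apply] using this

lemma sub_eq (e : ℝ) : H - e • (1 : Matrix (Fin n) (Fin n) ℝ) =
    eO hH * Matrix.diagonal (fun i => hH.eigenvalues i - e) * (eO hH)ᵀ := by
  have h1 : (Matrix.diagonal (fun i => hH.eigenvalues i - e) : Matrix (Fin n) (Fin n) ℝ) =
      Matrix.diagonal hH.eigenvalues - e • 1 := by
    ext i j
    by_cases hij : i = j
    · subst hij; simp
    · simp [hij]
  rw [h1, Matrix.mul_sub, Matrix.sub_mul, ← eH_eq hH, Matrix.mul_smul, Matrix.mul_one,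
    Matrix.smul_mul, eO_mult hH]

lemma inv_eq {e : ℝ} (he : ∀ i, hH.eigenvalues i ≠ e) :
    (H - e • (1 : Matrix (Fin n) (Fin n) ℝ))⁻¹ =
    eO hH * Matrix.diagonal (fun i => (hH.eigenvalues i - e)⁻¹) * (eO hH)ᵀ := by
  apply Matrix.inv_eq_right_inv
  rw [sub_eq hH]
  have h1 : Matrix.diagonal (fun i => hH.eigenvalues i - e) *
      Matrix.diagonal (fun i => (hH.eigenvalues i - e)⁻¹) =
      (1 : Matrix (Fin n) (Fin n) ℝ) := by
    rw [Matrix.diagonal_mul_diagonal, ← Matrix.diagonal_one]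
    congr 1
    ext i
    exact mul_inv_cancel₀ (sub_ne_zero.2 (he i))
  calc _ = eO hH * Matrix.diagonal (fun i => hH.eigenvalues i - e) * ((eO hH)ᵀ * eO hH) *
        Matrix.diagonal (fun i => (hH.eigenvalues i - e)⁻¹) * (eO hH)ᵀ := by
        simp only [Matrix.mul_assoc]
    _ = eO hH * (Matrix.diagonal (fun i => hH.eigenvalues i - e) *
        Matrix.diagonal (fun i => (hH.eigenvalues i - e)⁻¹)) * (eO hH)ᵀ := by
        rw [eO_tmul, Matrix.mul_one]; simp only [Matrix.mul_assoc]
    _ = 1 := by rw [h1, Matrix.mul_one, eO_mult]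

/-- rescaled eigenvalues -/
noncomputable def hl (E : ℝ) (i : Fin n) : ℝ := n * (hH.eigenvalues i - E)

/-- coordinates of the directions in the eigenbasis -/
noncomputable def qv {ι : Type*} (Q : Matrix (Fin n) ι ℝ) (i : Fin n) (a : ι) : ℝ :=
  Real.sqrt n * ∑ v, eO hH v i * Q v a

theorem arr_eq {ι : Type*} [Fintype ι] (hn : 0 < n) {E x : ℝ} (hx : ∀ i, hl hH E i ≠ x)
    (Q : Matrix (Fin n) ι ℝ) :
    arr H (E + x / n) Q = SM (fun i => (hl hH E i - x)⁻¹) (qv hH Q) := by
  have hn' : (0 : ℝ) < n := by exact_mod_cast hn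
  have he : ∀ i, hH.eigenvalues i ≠ E + x / n := by
    intro i h
    apply hx i
    unfold hl
    rw [h]
    field_simp
    ring
  unfold arr
  rw [inv_eq hH he]
  have h1 : Qᵀ * (eO hH * Matrix.diagonal (fun i => (hH.eigenvalues i - (E + x / n))⁻¹) *
      (eO hH)ᵀ) * Q = (Qᵀ * eO hH) * Matrix.diagonal (fun i =>
        (hH.eigenvalues i - (E + x / n))⁻¹) * ((eO hH)ᵀ * Q) := by
    simp only [Matrix.mul_assoc]
  rw [h1]
  ext a b
  rw [Matrix.mul_apply, SM_apply]
  refine Finset.sum_congr rfl fun i _ => ?_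
  rw [Matrix.mul_diagonal]
  have h2 : (Qᵀ * eO hH) a i = ∑ v, eO hH v i * Q v a := by
    rw [Matrix.mul_apply]; exact Finset.sum_congr rfl fun v _ => by
      rw [Matrix.transpose_apply, mul_comm]
  have h3 : ((eO hH)ᵀ * Q) i b = ∑ v, eO hH v i * Q v b := by
    rw [Matrix.mul_apply]; rfl
  rw [h2, h3]
  unfold qv
  have h4 : (hH.eigenvalues i - (E + x / n))⁻¹ = n * (hl hH E i - x)⁻¹ := by
    unfold hl
    have h5 : hH.eigenvalues i - (E + x / n) ≠ 0 := sub_ne_zero.2 (he i)
    have h6 : (n : ℝ) * (hH.eigenvalues i - E) - x ≠ 0 := sub_ne_zero.2 (hx i)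
    have h7 : (n : ℝ) * (hH.eigenvalues i - E) - x = n * (hH.eigenvalues i - (E + x / n)) := by
      field_simp
      ring
    rw [h7, mul_inv, ← mul_assoc, mul_inv_cancel₀ hn'.ne', one_mul]
  rw [h4]
  have h8 : Real.sqrt n * Real.sqrt n = n := Real.mul_self_sqrt hn'.le
  calc _ = (n : ℝ) * ((hl hH E i - x)⁻¹ * (∑ v, eO hH v i * Q v a) * ∑ v, eO hH v i * Q v b) := by
        ring
    _ = Real.sqrt n * Real.sqrt n * ((hl hH E i - x)⁻¹ * (∑ v, eO hH v i * Q v a) *
          ∑ v, eO hH v i * Q v b) := by rw [h8]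
    _ = _ := by ring

/-! ### complex resolvent -/

lemma Res_eq {z : ℂ} (hz : z.im ≠ 0) (u w : Fin n) :
    Res H z u w = ∑ i, (eO hH u i : ℂ) * (eO hH w i : ℂ) * ((hH.eigenvalues i : ℂ) - z)⁻¹ := by
  have hne : ∀ i, (hH.eigenvalues i : ℂ) - z ≠ 0 := by
    intro i h
    apply hz
    have : ((hH.eigenvalues i : ℂ) - z).im = 0 := by rw [h]; simp
    simpa using this
  have h1 : Res H z = cx (eO hH) * Matrix.diagonal (fun i => ((hH.eigenvalues i : ℂ) - z)⁻¹) *
      cx (eO hH)ᵀ := by
    unfold Res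
    apply Matrix.inv_eq_right_inv
    have h2 : (H.map (fun x : ℝ => (x : ℂ)) - z • (1 : Matrix (Fin n) (Fin n) ℂ)) =
        cx (eO hH) * Matrix.diagonal (fun i => (hH.eigenvalues i : ℂ) - z) * cx (eO hH)ᵀ := by
      have h3 : (Matrix.diagonal (fun i => (hH.eigenvalues i : ℂ) - z) :
          Matrix (Fin n) (Fin n) ℂ) = cx (Matrix.diagonal hH.eigenvalues) - z • 1 := by
        ext i j
        by_cases hij : i = j
        · subst hij; simp
        · simp [hij]
      have h4 : cx H = cx (eO hH) * cx (Matrix.diagonal hH.eigenvalues) * cx (eO hH)ᵀ := by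
        rw [← cx_mul, ← cx_mul, ← eH_eq hH]
      rw [h3, Matrix.mul_sub, Matrix.sub_mul, ← h4, Matrix.mul_smul, Matrix.mul_one,
        Matrix.smul_mul, ← cx_mul, eO_mult, cx_one]
      rfl
    have h5 : (Matrix.diagonal (fun i => (hH.eigenvalues i : ℂ) - z) :
        Matrix (Fin n) (Fin n) ℂ) * Matrix.diagonal (fun i => ((hH.eigenvalues i : ℂ) - z)⁻¹) =
        1 := by
      rw [Matrix.diagonal_mul_diagonal, ← Matrix.diagonal_one]
      congr 1
      ext i
      exact mul_inv_cancel₀ (hne i)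
    rw [h2]
    calc _ = cx (eO hH) * Matrix.diagonal (fun i => (hH.eigenvalues i : ℂ) - z) *
          (cx (eO hH)ᵀ * cx (eO hH)) *
          Matrix.diagonal (fun i => ((hH.eigenvalues i : ℂ) - z)⁻¹) * cx (eO hH)ᵀ := by
          simp only [Matrix.mul_assoc]
      _ = cx (eO hH) * (Matrix.diagonal (fun i => (hH.eigenvalues i : ℂ) - z) *
          Matrix.diagonal (fun i => ((hH.eigenvalues i : ℂ) - z)⁻¹)) * cx (eO hH)ᵀ := by
          rw [← cx_mul (eO hH)ᵀ, eO_tmul, cx_one, Matrix.mul_one]; simp only [Matrix.mul_assoc]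
      _ = 1 := by rw [h5, Matrix.mul_one, ← cx_mul, eO_mult, cx_one]
  rw [h1, Matrix.mul_apply]
  refine Finset.sum_congr rfl fun i _ => ?_
  rw [Matrix.mul_diagonal]
  simp only [cx_apply, Matrix.transpose_apply]
  ring

/-- normalised eigenvector values -/
noncomputable def eF (i : Fin n) (v : Fin n) : ℝ := Real.sqrt n * eO hH v i

/-- the coefficient `y / (y² + K²)` -/
noncomputable def cK (K y : ℝ) : ℝ := y / (y ^ 2 + K ^ 2)

lemma inv_sub_zz (hn : 0 < n) {E K : ℝ} (hK : 0 < K) (i : Fin n) :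
    ((hH.eigenvalues i : ℂ) - zz E K n)⁻¹ =
      ((n * cK K (hl hH E i) : ℝ) : ℂ) +
        Complex.I * ((n * (K / (hl hH E i ^ 2 + K ^ 2)) : ℝ) : ℂ) := by
  have hn' : (0 : ℝ) < n := by exact_mod_cast hn
  have hnc : (n : ℂ) ≠ 0 := by exact_mod_cast hn.ne'
  set y := hl hH E i with hy
  have hpos : 0 < y ^ 2 + K ^ 2 := by positivity
  have h1 : (hH.eigenvalues i : ℂ) - zz E K n = ((y : ℂ) - Complex.I * K) / n := by
    unfold zz
    rw [hy]
    unfold hl
    push_cast
    field_simp
    ring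
  have hd : ((y ^ 2 + K ^ 2 : ℝ) : ℂ) ≠ 0 := by exact_mod_cast hpos.ne'
  have h2 : ((y : ℂ) - Complex.I * K) * ((y : ℂ) + Complex.I * K) = ((y ^ 2 + K ^ 2 : ℝ) : ℂ) := by
    push_cast
    ring_nf
    rw [Complex.I_sq]
    ring
  have h3 : ((y : ℂ) - Complex.I * K) ≠ 0 := by
    intro h
    rw [h, zero_mul] at h2
    exact hd h2.symm
  rw [h1, inv_div, div_eq_iff h3]
  unfold cK
  push_cast at h2 hd ⊢
  field_simp
  linear_combination (-1 : ℂ) * h2

lemma re_aux (a b p q : ℝ) :
    ((a : ℂ) * (b : ℂ) * ((p : ℂ) + Complex.I * (q : ℂ))).re = a * b * p := by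
  simp

lemma im_aux (a b p q : ℝ) :
    ((a : ℂ) * (b : ℂ) * ((p : ℂ) + Complex.I * (q : ℂ))).im = a * b * q := by
  simp

theorem Res_zz_re (hn : 0 < n) {E K : ℝ} (hK : 0 < K) (u w : Fin n) :
    (Res H (zz E K n) u w).re = ∑ i, cK K (hl hH E i) * eF hH i u * eF hH i w := by
  have hn' : (0 : ℝ) < n := by exact_mod_cast hn
  have hz : (zz E K n).im ≠ 0 := by
    have : (zz E K n).im = K / n := by simp [zz]
    rw [this]; positivity
  rw [Res_eq hH hz, Complex.re_sum]
  refine Finset.sum_congr rfl fun i _ => ?_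
  rw [inv_sub_zz hH hn hK, re_aux]
  have h8 : Real.sqrt n * Real.sqrt n = n := Real.mul_self_sqrt hn'.le
  unfold eF
  linear_combination (-(cK K (hl hH E i) * eO hH u i * eO hH w i)) * h8

theorem Res_zz_im (hn : 0 < n) {E K : ℝ} (hK : 0 < K) (u w : Fin n) :
    (Res H (zz E K n) u w).im =
      ∑ i, (K / (hl hH E i ^ 2 + K ^ 2)) * eF hH i u * eF hH i w := by
  have hn' : (0 : ℝ) < n := by exact_mod_cast hn
  have hz : (zz E K n).im ≠ 0 := by
    have : (zz E K n).im = K / n := by simp [zz]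
    rw [this]; positivity
  rw [Res_eq hH hz, Complex.im_sum]
  refine Finset.sum_congr rfl fun i _ => ?_
  rw [inv_sub_zz hH hn hK, im_aux]
  have h8 : Real.sqrt n * Real.sqrt n = n := Real.mul_self_sqrt hn'.le
  unfold eF
  linear_combination (-((K / (hl hH E i ^ 2 + K ^ 2)) * eO hH u i * eO hH w i)) * h8

lemma eF_orth (hn : 0 < n) (i j : Fin n) :
    ∑ v, eF hH i v * eF hH j v = if i = j then (n : ℝ) else 0 := by
  have hn' : (0 : ℝ) < n := by exact_mod_cast hn
  have h8 : Real.sqrt n * Real.sqrt n = n := Real.mul_self_sqrt hn'.le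
  have h1 : ∑ v, eF hH i v * eF hH j v = n * ∑ v, eO hH v i * eO hH v j := by
    rw [Finset.mul_sum]
    refine Finset.sum_congr rfl fun v _ => ?_
    unfold eF
    linear_combination (eO hH v i * eO hH v j) * h8
  rw [h1, eO_orth]
  split_ifs <;> simp

lemma sum_diag (hn : 0 < n) (c : Fin n → ℝ) :
    ∑ v, ∑ i, c i * eF hH i v * eF hH i v = n * ∑ i, c i := by
  rw [Finset.sum_comm, Finset.mul_sum]
  refine Finset.sum_congr rfl fun i _ => ?_
  have := eF_orth hH hn i i
  rw [if_pos rfl] at this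
  calc ∑ v, c i * eF hH i v * eF hH i v = c i * ∑ v, eF hH i v * eF hH i v := by
        rw [Finset.mul_sum]; exact Finset.sum_congr rfl fun v _ => by ring
    _ = _ := by rw [this]; ring

theorem mn_zz_re (hn : 0 < n) {E K : ℝ} (hK : 0 < K) :
    (mn H (zz E K n)).re = ∑ i, cK K (hl hH E i) := by
  have hn' : (0 : ℝ) < n := by exact_mod_cast hn
  unfold mn
  rw [Complex.div_natCast_re, Matrix.trace, Complex.re_sum]
  simp only [Matrix.diag_apply, Res_zz_re hH hn hK]
  rw [sum_diag hH hn]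
  field_simp

theorem mn_zz_im (hn : 0 < n) {E K : ℝ} (hK : 0 < K) :
    (mn H (zz E K n)).im = ∑ i, K / (hl hH E i ^ 2 + K ^ 2) := by
  have hn' : (0 : ℝ) < n := by exact_mod_cast hn
  unfold mn
  rw [Complex.div_natCast_im, Matrix.trace, Complex.im_sum]
  simp only [Matrix.diag_apply, Res_zz_im hH hn hK]
  rw [sum_diag hH hn]
  field_simp

lemma mulVec_eF (i : Fin n) : H *ᵥ (eF hH i) = hH.eigenvalues i • eF hH i := by
  have h1 : H * eO hH = eO hH * Matrix.diagonal hH.eigenvalues := by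
    have h0 := eH_eq hH
    calc H * eO hH = (eO hH * Matrix.diagonal hH.eigenvalues * (eO hH)ᵀ) * eO hH :=
          congrArg (· * eO hH) h0
      _ = _ := by rw [Matrix.mul_assoc, eO_tmul, Matrix.mul_one]
  ext v
  have h2 := congrFun (congrFun h1 v) i
  rw [Matrix.mul_diagonal, Matrix.mul_apply] at h2
  simp only [Matrix.mulVec, dotProduct, eF, Pi.smul_apply, smul_eq_mul]
  calc ∑ x, H v x * (Real.sqrt n * eO hH x i) = Real.sqrt n * ∑ x, H v x * eO hH x i := by
        rw [Finset.mul_sum]; exact Finset.sum_congr rfl fun x _ => by ring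
    _ = _ := by rw [h2]; ring

/-- a family of distinct near eigenvectors is a frame -/
theorem isFrame_near (hn : 0 < n) {E K' : ℝ} {k : ℕ} (σ : Fin k → Fin n)
    (hσ : Function.Injective σ) (hK : ∀ j, |hl hH E (σ j)| ≤ K') :
    IsFrame H E K' k (fun j => eF hH (σ j)) := by
  have hn' : (0 : ℝ) < n := by exact_mod_cast hn
  refine ⟨fun i j => ?_, fun j => ?_⟩
  · rw [eF_orth hH hn]
    simp only [hσ.eq_iff]
  · have h1 : ∀ v, ((H *ᵥ eF hH (σ j)) v - E * eF hH (σ j) v) ^ 2 =
        (hH.eigenvalues (σ j) - E) ^ 2 * (eF hH (σ j) v * eF hH (σ j) v) := by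
      intro v
      rw [mulVec_eF]
      simp only [Pi.smul_apply, smul_eq_mul]
      ring
    simp only [h1]
    rw [← Finset.mul_sum, eF_orth hH hn, if_pos rfl]
    have h2 : (hH.eigenvalues (σ j) - E) ^ 2 ≤ (K' / n) ^ 2 := by
      have h3 : hH.eigenvalues (σ j) - E = hl hH E (σ j) / n := by
        unfold hl; field_simp
      rw [h3, div_pow, div_pow]
      have := hK j
      have h4 : hl hH E (σ j) ^ 2 ≤ K' ^ 2 := by
        rw [← sq_abs (hl hH E (σ j))]
        exact pow_le_pow_left₀ (abs_nonneg _) this 2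
      gcongr
    exact mul_le_mul_of_nonneg_right h2 hn'.le

end spectral

end Crest.Agent.R166.Inv988
end

-- ▼ part R166/InvT_988
section

/-!
Row 166, section 50 (helper988): Gaussian moments and changes of variables.
-/

set_option autoImplicit false
set_option linter.unusedSectionVars false
set_option linter.unusedSimpArgs false

namespace Crest.Agent.R166.Inv988

open MeasureTheory ProbabilityTheory Matrix Crest.ProbabilityR.RandomMatrix Crest.Agent.R166
open Crest.Agent.R166.Gauss286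

variable {J κ : Type*} [Fintype J] [Fintype κ]

lemma gm_sum_indep {Y : J → (κ → ℝ) → ℝ} (hY : ∀ i, MemLp (Y i) 2 (gv κ))
    (h0 : ∀ i, ∫ x, Y i x ∂(gv κ) = 0) :
    ∫ g, (∑ i, Y i (g i)) ^ 2 ∂(gm J κ) = ∑ i, ∫ x, Y i x ^ 2 ∂(gv κ) := by
  have h := variance_sum_pi (μ := fun _ : J => gv κ) hY
  have hi : ∀ i, Integrable (fun x : J → κ → ℝ => Y i (x i)) (gm J κ) := fun i =>
    integrable_comp_eval ((hY i).integrable (by norm_num))
  have hm : AEMeasurable (∑ i, fun x : J → κ → ℝ => Y i (x i)) (gm J κ) :=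
    Finset.aemeasurable_sum _ fun i _ => (hi i).aemeasurable
  rw [variance_eq_integral hm] at h
  have e0 : ∫ x, (∑ i, fun x : J → κ → ℝ => Y i (x i)) x ∂(gm J κ) = 0 := by
    simp only [Finset.sum_apply]
    rw [integral_finsetSum _ fun i _ => hi i]
    refine Finset.sum_eq_zero fun i _ => ?_
    rw [integral_comp_eval (hY i).aestronglyMeasurable]
    exact h0 i
  rw [e0] at h
  simp only [Finset.sum_apply, sub_zero] at h
  rw [h]
  refine Finset.sum_congr rfl fun i _ => ?_
  rw [variance_eq_integral (hY i).aemeasurable, h0 i]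
  simp

lemma memLp_coord (k : κ) : MemLp (fun x : κ → ℝ => x k) 2 (gv κ) := by
  have h := (memLp_id_gaussianReal (μ := 0) (v := 1) 2)
  exact h.comp_measurePreserving (measurePreserving_eval (fun _ : κ => gaussianReal 0 1) k)

lemma int_coord (k : κ) : ∫ x, x k ∂(gv κ) = 0 := by
  have h := integral_comp_eval (μ := fun _ : κ => gaussianReal 0 1) (i := k)
    (f := fun t : ℝ => t) (by fun_prop)
  rw [h]; exact Gauss286.int_x

lemma int_coord_sq (k : κ) : ∫ x, x k ^ 2 ∂(gv κ) = 1 := by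
  have h := integral_comp_eval (μ := fun _ : κ => gaussianReal 0 1) (i := k)
    (f := fun t : ℝ => t ^ 2) (by fun_prop)
  rw [h]; exact Gauss286.int_x2

lemma int_coord_four (k : κ) : ∫ x, x k ^ 4 ∂(gv κ) = 3 := by
  have h := integral_comp_eval (μ := fun _ : κ => gaussianReal 0 1) (i := k)
    (f := fun t : ℝ => t ^ 4) (by fun_prop)
  rw [h]; exact Gauss286.int_x4

lemma integrable_coord_sq (k : κ) : Integrable (fun x : κ → ℝ => x k ^ 2) (gv κ) :=
  integrable_comp_eval (μ := fun _ : κ => gaussianReal 0 1) (i := k) (f := fun t : ℝ => t ^ 2)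
    Gauss286.integrable_x2

lemma integrable_coord_four (k : κ) : Integrable (fun x : κ → ℝ => x k ^ 4) (gv κ) :=
  integrable_comp_eval (μ := fun _ : κ => gaussianReal 0 1) (i := k) (f := fun t : ℝ => t ^ 4)
    Gauss286.integrable_x4

variable [DecidableEq κ]

lemma int_prod (k l : κ) : ∫ x, x k * x l ∂(gv κ) = if k = l then 1 else 0 := by
  by_cases h : k = l
  · subst h
    rw [if_pos rfl]
    have := int_coord_sq k
    simpa [sq] using this
  · rw [if_neg h]
    have h1 : ∀ x : κ → ℝ, x k * x l = ∏ j, (if j = k ∨ j = l then x j else 1) := by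
      intro x
      rw [Finset.prod_ite]
      simp only [Finset.prod_const_one, mul_one]
      have : (Finset.univ.filter fun j => j = k ∨ j = l) = {k, l} := by
        ext j; simp
      rw [this, Finset.prod_pair h]
    simp only [h1]
    have h2 := integral_fintype_prod_eq_prod (μ := fun _ : κ => gaussianReal 0 1)
      (f := fun (j : κ) (t : ℝ) => if j = k ∨ j = l then t else 1)
    rw [h2]
    apply Finset.prod_eq_zero (Finset.mem_univ k)
    simp [Gauss286.int_x]

lemma integrable_prod (k l : κ) : Integrable (fun x : κ → ℝ => x k * x l) (gv κ) :=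
  (memLp_coord k).integrable_mul (memLp_coord l)

lemma memLp_prod (k l : κ) :
    MemLp (fun x : κ → ℝ => x k * x l - if k = l then (1 : ℝ) else 0) 2 (gv κ) := by
  rw [memLp_two_iff_integrable_sq (by fun_prop)]
  have h : ∀ x : κ → ℝ, (x k * x l - if k = l then (1 : ℝ) else 0) ^ 2 ≤
      x k ^ 4 + x l ^ 4 + 2 := by
    intro x
    by_cases hkl : k = l
    · rw [if_pos hkl]
      nlinarith [sq_nonneg (x k * x l + 1), sq_nonneg (x k ^ 2 - x l ^ 2), sq_nonneg (x k * x l)]
    · rw [if_neg hkl]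
      nlinarith [sq_nonneg (x k ^ 2 - x l ^ 2)]
  refine Integrable.mono' (((integrable_coord_four k).add (integrable_coord_four l)).add
    (integrable_const 2)) (by fun_prop) (Filter.Eventually.of_forall fun x => ?_)
  rw [Real.norm_eq_abs, abs_of_nonneg (sq_nonneg _)]
  exact h x

lemma int_prod_sub (k l : κ) :
    ∫ x, (x k * x l - if k = l then (1 : ℝ) else 0) ∂(gv κ) = 0 := by
  rw [integral_sub (integrable_prod k l) (integrable_const _), int_prod]
  simp

lemma int_prod_sq_le (k l : κ) :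
    ∫ x, (x k * x l - if k = l then (1 : ℝ) else 0) ^ 2 ∂(gv κ) ≤ 3 := by
  have h : ∀ x : κ → ℝ, (x k * x l - if k = l then (1 : ℝ) else 0) ^ 2 ≤
      (x k ^ 4 + x l ^ 4) / 2 + (if k = l then (1 : ℝ) else 0) -
        2 * (if k = l then (1 : ℝ) else 0) * (x k * x l) := by
    intro x
    by_cases hkl : k = l
    · rw [if_pos hkl]
      nlinarith [sq_nonneg (x k ^ 2 - x l ^ 2)]
    · rw [if_neg hkl]
      nlinarith [sq_nonneg (x k ^ 2 - x l ^ 2)]
  have h4 := integrable_coord_four k
  have h4' := integrable_coord_four l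
  have hp := integrable_prod k l
  have h5 : ∫ x, ((x k ^ 4 + x l ^ 4) / 2 + (if k = l then (1 : ℝ) else 0) -
        2 * (if k = l then (1 : ℝ) else 0) * (x k * x l)) ∂(gv κ) ≤ 3 := by
    have e1 : Integrable (fun x : κ → ℝ => (x k ^ 4 + x l ^ 4) / 2) (gv κ) :=
      (h4.add h4').div_const 2
    have e2 : Integrable (fun x : κ → ℝ => (x k ^ 4 + x l ^ 4) / 2 +
      (if k = l then (1 : ℝ) else 0)) (gv κ) := e1.add (integrable_const _)
    rw [integral_sub e2 (hp.const_mul _), integral_add e1 (integrable_const _), integral_div,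
      integral_add h4 h4', int_coord_four, int_coord_four, integral_const_mul, int_prod]
    simp only [integral_const, probReal_univ, smul_eq_mul]
    split_ifs <;> norm_num
  refine le_trans (integral_mono ((memLp_prod k l).integrable_sq) ?_ h) h5
  exact (((h4.add h4').div_const 2).add (integrable_const _)).sub (hp.const_mul _)

omit [DecidableEq κ] in
lemma gm_lin (a : J → ℝ) (k : κ) : ∫ g, (∑ i, a i * g i k) ^ 2 ∂(gm J κ) = ∑ i, a i ^ 2 := by
  rw [gm_sum_indep (Y := fun i x => a i * x k) (fun i => (memLp_coord k).const_mul _)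
    (fun i => by rw [integral_const_mul, int_coord, mul_zero])]
  refine Finset.sum_congr rfl fun i _ => ?_
  simp only [mul_pow]
  rw [integral_const_mul, int_coord_sq, mul_one]

lemma gm_quad_le (a : J → ℝ) (k l : κ) :
    ∫ g, (∑ i, a i * (g i k * g i l - if k = l then (1 : ℝ) else 0)) ^ 2 ∂(gm J κ) ≤
      3 * ∑ i, a i ^ 2 := by
  rw [gm_sum_indep (Y := fun i x => a i * (x k * x l - if k = l then (1 : ℝ) else 0))
    (fun i => (memLp_prod k l).const_mul _)
    (fun i => by rw [integral_const_mul, int_prod_sub, mul_zero]), Finset.mul_sum]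
  refine Finset.sum_le_sum fun i _ => ?_
  simp only [mul_pow]
  rw [integral_const_mul]
  have := int_prod_sq_le k l
  nlinarith [sq_nonneg (a i)]

/-! ### integrability in `gm` -/

omit [DecidableEq κ] in
lemma gm_memLp {Y : J → (κ → ℝ) → ℝ} (hY : ∀ i, MemLp (Y i) 2 (gv κ)) :
    MemLp (fun g : J → κ → ℝ => ∑ i, Y i (g i)) 2 (gm J κ) :=
  memLp_finsetSum _ fun i _ =>
    (hY i).comp_measurePreserving (measurePreserving_eval (fun _ : J => gv κ) i)

omit [DecidableEq κ] in
lemma gm_lin_int (a : J → ℝ) (k : κ) :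
    Integrable (fun g : J → κ → ℝ => (∑ i, a i * g i k) ^ 2) (gm J κ) :=
  (gm_memLp (Y := fun i x => a i * x k) fun _ => (memLp_coord k).const_mul _).integrable_sq

lemma gm_quad_int (a : J → ℝ) (k l : κ) :
    Integrable (fun g : J → κ → ℝ =>
      (∑ i, a i * (g i k * g i l - if k = l then (1 : ℝ) else 0)) ^ 2) (gm J κ) :=
  (gm_memLp (Y := fun i x => a i * (x k * x l - if k = l then (1 : ℝ) else 0))
    fun _ => (memLp_prod k l).const_mul _).integrable_sq

omit [DecidableEq κ] in
lemma gm_coord_sq (i : J) (k : κ) : ∫ g, (g i k) ^ 2 ∂(gm J κ) = 1 := by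
  have h := integral_comp_eval (μ := fun _ : J => gv κ) (i := i)
    (f := fun x : κ → ℝ => x k ^ 2) (integrable_coord_sq k).aestronglyMeasurable
  rw [h]; exact int_coord_sq k

omit [DecidableEq κ] in
lemma gm_coord_sq_int (i : J) (k : κ) : Integrable (fun g : J → κ → ℝ => (g i k) ^ 2) (gm J κ) :=
  integrable_comp_eval (μ := fun _ : J => gv κ) (i := i) (f := fun x : κ → ℝ => x k ^ 2)
    (integrable_coord_sq k)

/-! ### changes of variables -/

/-- restriction of the rows -/
theorem gm_sel {J' : Type*} [Fintype J'] (σ : J' → J) (hσ : Function.Injective σ) :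
    (gm J κ).map (fun g i' => g (σ i')) = gm J' κ := by
  classical
  have h := gm_map_left (κ := κ) (Matrix.of fun (i' : J') (i : J) => if i = σ i' then (1 : ℝ) else 0)
    (by
      ext a b
      simp only [Matrix.mul_apply, Matrix.of_apply, Matrix.transpose_apply, Matrix.one_apply]
      rw [Finset.sum_eq_single (σ a)]
      · simp [hσ.eq_iff]
      · intro c _ hc; simp [hc]
      · simp)
  have e : (fun (g : J → κ → ℝ) (i' : J') (k : κ) => ∑ i, (Matrix.of fun (i' : J') (i : J) =>
      if i = σ i' then (1 : ℝ) else 0) i' i * g i k) = fun g i' => g (σ i') := by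
    ext g i' k
    rw [Finset.sum_eq_single (σ i')]
    · simp
    · intro c _ hc; simp [hc]
    · simp
  rwa [e] at h

theorem integral_sel {J' : Type*} [Fintype J'] (σ : J' → J) (hσ : Function.Injective σ)
    {F : (J' → κ → ℝ) → ℝ} (hF : Continuous F) :
    ∫ g, F (fun i' => g (σ i')) ∂(gm J κ) = ∫ g, F g ∂(gm J' κ) := by
  rw [← gm_sel (κ := κ) σ hσ, integral_map]
  · exact (measurable_pi_lambda _ fun i' => measurable_pi_apply _).aemeasurable
  · exact hF.aestronglyMeasurable

/-- relabelling of the columns -/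
theorem gm_colsEquiv {κ' : Type*} [Fintype κ'] (e : κ' ≃ κ) :
    (gm J κ).map (fun g i k' => g i (e k')) = gm J κ' := by
  classical
  have h := gm_map_right (ι := J) (κ' := κ')
    (Matrix.of fun (k : κ) (k' : κ') => if k = e k' then (1 : ℝ) else 0)
    (by
      ext a b
      simp only [Matrix.mul_apply, Matrix.of_apply, Matrix.transpose_apply, Matrix.one_apply]
      rw [Finset.sum_eq_single (e a)]
      · simp
      · intro c _ hc; simp [hc]
      · simp)
  have e1 : (fun (g : J → κ → ℝ) (i : J) (k' : κ') => ∑ k, g i k * (Matrix.of fun (k : κ)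
      (k' : κ') => if k = e k' then (1 : ℝ) else 0) k k') = fun g i k' => g i (e k') := by
    ext g i k'
    rw [Finset.sum_eq_single (e k')]
    · simp
    · intro c _ hc; simp [hc]
    · simp
  rwa [e1] at h

theorem integral_cols {κ' : Type*} [Fintype κ'] (e : κ' ≃ κ)
    {F : (J → κ' → ℝ) → ℝ} (hF : Continuous F) :
    ∫ g, F (fun i k' => g i (e k')) ∂(gm J κ) = ∫ g, F g ∂(gm J κ') := by
  rw [← gm_colsEquiv (J := J) e, integral_map]
  · exact (measurable_pi_lambda _ fun i => measurable_pi_lambda _ fun k' =>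
      (measurable_pi_apply (e k')).comp (measurable_pi_apply i)).aemeasurable
  · exact hF.aestronglyMeasurable

omit [DecidableEq κ] in
/-- splitting of the columns -/
theorem gm_sum {κ' : Type*} [Fintype κ'] :
    ((gm J κ).prod (gm J κ')).map (fun p i => Sum.elim (p.1 i) (p.2 i)) = gm J (κ ⊕ κ') := by
  classical
  -- transposed version
  have h1 := measurePreserving_sumPiEquivProdPi_symm (X := fun _ : κ ⊕ κ' => J → ℝ)
    (fun _ => gv J)
  have h1' : ((gm κ J).prod (gm κ' J)).map
      (MeasurableEquiv.sumPiEquivProdPi (fun _ : κ ⊕ κ' => J → ℝ)).symm = gm (κ ⊕ κ') J :=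
    h1.map_eq
  have hκ := gm_map_transpose (ι := J) (κ := κ)
  have hκ' := gm_map_transpose (ι := J) (κ := κ')
  have hs := gm_map_transpose (ι := κ ⊕ κ') (κ := J)
  have m1 : Measurable (fun (g : J → κ → ℝ) (b : κ) (a : J) => g a b) :=
    measurable_pi_lambda _ fun b => measurable_pi_lambda _ fun a =>
      (measurable_pi_apply b).comp (measurable_pi_apply a)
  have m2 : Measurable (fun (g : J → κ' → ℝ) (b : κ') (a : J) => g a b) :=
    measurable_pi_lambda _ fun b => measurable_pi_lambda _ fun a =>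
      (measurable_pi_apply b).comp (measurable_pi_apply a)
  have m3 : Measurable (fun (g : (κ ⊕ κ') → J → ℝ) (b : J) (a : κ ⊕ κ') => g a b) :=
    measurable_pi_lambda _ fun b => measurable_pi_lambda _ fun a =>
      (measurable_pi_apply b).comp (measurable_pi_apply a)
  have h2 : (gm κ J).prod (gm κ' J) = ((gm J κ).prod (gm J κ')).map
      (Prod.map (fun g k i => g i k) (fun g k i => g i k)) := by
    rw [← Measure.map_prod_map _ _ m1 m2, hκ, hκ']
  rw [← hs, ← h1', h2, Measure.map_map (MeasurableEquiv.measurable _) (m1.prodMap m2),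
    Measure.map_map m3 ((MeasurableEquiv.measurable _).comp (m1.prodMap m2))]
  congr 1
  ext p i k
  rcases k with k | k <;> rfl

end Crest.Agent.R166.Inv988
end

-- ▼ part R166/InvX_988

/-!
Row 166, section 50 (helper988): port averages, truncation of the array.
-/

set_option autoImplicit false
set_option linter.unusedSectionVars false
set_option linter.unusedSimpArgs false

namespace Crest.Agent.R166.Inv988

open MeasureTheory ProbabilityTheory Matrix Crest.ProbabilityR.RandomMatrix Crest.Agent.R166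
open Crest.Agent.R166.Gauss286

/-! ### darts -/

section darts

variable {n d : ℕ} {G : SimpleGraph (Fin n)}

lemma deg_eq (hG : G ∈ regularGraphs n d) (v : Fin n) [DecidablePred fun w => G.Adj v w] :
    (Finset.univ.filter fun w => G.Adj v w).card = d := by
  classical
  unfold regularGraphs at hG
  have h := (Finset.mem_filter.1 hG).2 v
  convert h

lemma mem_darts {p : Fin n × Fin n} : p ∈ darts G ↔ G.Adj p.1 p.2 := by
  classical
  unfold darts
  simp

lemma sum_darts (f : Fin n × Fin n → ℝ) [∀ v, DecidablePred fun w => G.Adj v w] :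
    ∑ p ∈ darts G, f p = ∑ v, ∑ w ∈ Finset.univ.filter (fun w => G.Adj v w), f (v, w) := by
  classical
  have h : darts G = Finset.univ.filter fun p : Fin n × Fin n => G.Adj p.1 p.2 := by
    ext p; rw [mem_darts]; simp
  rw [h, Finset.sum_filter, Fintype.sum_prod_type]
  refine Finset.sum_congr rfl fun v _ => ?_
  rw [Finset.sum_filter]

lemma sum_darts_fst (hG : G ∈ regularGraphs n d) (h : Fin n → ℝ) :
    ∑ p ∈ darts G, h p.1 = d * ∑ v, h v := by
  classical
  rw [sum_darts (fun p => h p.1), Finset.mul_sum]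
  refine Finset.sum_congr rfl fun v _ => ?_
  show ∑ w ∈ Finset.univ.filter (fun w => G.Adj v w), h v = d * h v
  rw [Finset.sum_const, deg_eq hG, nsmul_eq_mul]

lemma sum_darts_snd (hG : G ∈ regularGraphs n d) (h : Fin n → ℝ) :
    ∑ p ∈ darts G, h p.2 = d * ∑ v, h v := by
  classical
  have h1 : ∑ p ∈ darts G, h p.2 = ∑ p ∈ darts G, h p.1 := by
    refine Finset.sum_nbij' (fun p => (p.2, p.1)) (fun p => (p.2, p.1)) ?_ ?_ ?_ ?_ ?_
    · intro p hp; rw [mem_darts] at hp ⊢; exact hp.symm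
    · intro p hp; rw [mem_darts] at hp ⊢; exact hp.symm
    · intro p _; rfl
    · intro p _; rfl
    · intro p _; rfl
  rw [h1, sum_darts_fst hG]

lemma sum_darts_port (hG : G ∈ regularGraphs n d) (a : Fin 2) (h : Fin n → ℝ) :
    ∑ p ∈ darts G, h (![p.1, p.2] a) = d * ∑ v, h v := by
  fin_cases a
  · exact sum_darts_fst hG h
  · exact sum_darts_snd hG h

lemma card_darts (hG : G ∈ regularGraphs n d) : ((darts G).card : ℝ) = d * n := by
  have h := sum_darts_fst hG (fun _ => (1 : ℝ))
  simpa using h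

lemma card_darts_pos (hG : G ∈ regularGraphs n d) (hn : 0 < n) (hd : 0 < d) :
    (0 : ℝ) < (darts G).card := by
  rw [card_darts hG]
  positivity

/-- average over a uniform directed edge -/
noncomputable def dAvg {n : ℕ} (G : SimpleGraph (Fin n)) (f : Fin n × Fin n → ℝ) : ℝ :=
  (∑ p ∈ darts G, f p) / (darts G).card

lemma dAvg_port (hG : G ∈ regularGraphs n d) (hn : 0 < n) (hd : 0 < d) (a : Fin 2)
    (h : Fin n → ℝ) : dAvg G (fun p => h (![p.1, p.2] a)) = (∑ v, h v) / n := by
  unfold dAvg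
  rw [sum_darts_port hG, card_darts hG]
  have h1 : (0 : ℝ) < n := by exact_mod_cast hn
  have h2 : (0 : ℝ) < d := by exact_mod_cast hd
  field_simp

lemma eAvg_eq_dAvg (f : Fin n → Fin n → ℝ) : eAvg G f = dAvg G fun p => f p.1 p.2 := rfl

lemma eAvg2_eq (F : Fin n × Fin n → Fin n × Fin n → ℝ) :
    eAvg2 G F = dAvg G fun p1 => dAvg G fun p2 => F p1 p2 := by
  unfold eAvg2 dAvg
  rw [← Finset.sum_div, div_div, sq]


lemma dAvg_const (hpos : (0 : ℝ) < (darts G).card) (c : ℝ) : dAvg G (fun _ => c) = c := by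
  unfold dAvg
  rw [Finset.sum_const, nsmul_eq_mul, mul_comm, mul_div_assoc, div_self hpos.ne', mul_one]

lemma eAvg2_mono {F F' : Fin n × Fin n → Fin n × Fin n → ℝ} (h : ∀ p1 p2, F p1 p2 ≤ F' p1 p2) :
    eAvg2 G F ≤ eAvg2 G F' := by
  unfold eAvg2
  gcongr with p1 _ p2 _
  exact h p1 p2

lemma eAvg2_const (hpos : (0 : ℝ) < (darts G).card) (c : ℝ) : eAvg2 G (fun _ _ => c) = c := by
  rw [eAvg2_eq]; simp only [dAvg_const hpos]

lemma eAvg2_fst (hpos : (0 : ℝ) < (darts G).card) (f : Fin n × Fin n → ℝ) :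
    eAvg2 G (fun p1 _ => f p1) = dAvg G f := by
  rw [eAvg2_eq]; simp only [dAvg_const hpos]

lemma eAvg2_snd (hpos : (0 : ℝ) < (darts G).card) (f : Fin n × Fin n → ℝ) :
    eAvg2 G (fun _ p2 => f p2) = dAvg G f := by
  rw [eAvg2_eq]; simp only [dAvg_const hpos]

lemma eAvg2_add (F F' : Fin n × Fin n → Fin n × Fin n → ℝ) :
    eAvg2 G (fun p1 p2 => F p1 p2 + F' p1 p2) = eAvg2 G F + eAvg2 G F' := by
  unfold eAvg2
  simp only [Finset.sum_add_distrib, add_div]

lemma eAvg2_sub (F F' : Fin n × Fin n → Fin n × Fin n → ℝ) :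
    eAvg2 G (fun p1 p2 => F p1 p2 - F' p1 p2) = eAvg2 G F - eAvg2 G F' := by
  unfold eAvg2
  simp only [Finset.sum_sub_distrib, sub_div]

lemma eAvg2_mul_left (c : ℝ) (F : Fin n × Fin n → Fin n × Fin n → ℝ) :
    eAvg2 G (fun p1 p2 => c * F p1 p2) = c * eAvg2 G F := by
  unfold eAvg2
  simp only [← Finset.mul_sum, mul_div_assoc]

lemma eAvg2_mul_right (c : ℝ) (F : Fin n × Fin n → Fin n × Fin n → ℝ) :
    eAvg2 G (fun p1 p2 => F p1 p2 * c) = eAvg2 G F * c := by
  simp only [mul_comm _ c]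
  exact eAvg2_mul_left c F

lemma eAvg2_sum {α : Type*} (s : Finset α) (F : α → Fin n × Fin n → Fin n × Fin n → ℝ) :
    eAvg2 G (fun p1 p2 => ∑ i ∈ s, F i p1 p2) = ∑ i ∈ s, eAvg2 G (F i) := by
  classical
  induction s using Finset.induction_on with
  | empty => simp [eAvg2]
  | insert a s ha ih =>
    simp only [Finset.sum_insert ha]
    rw [eAvg2_add, ih]

lemma abs_eAvg2_le (F : Fin n × Fin n → Fin n × Fin n → ℝ) :
    |eAvg2 G F| ≤ eAvg2 G fun p1 p2 => |F p1 p2| := by
  unfold eAvg2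
  rw [abs_div, abs_of_nonneg (sq_nonneg ((darts G).card : ℝ))]
  gcongr
  exact (Finset.abs_sum_le_sum_abs _ _).trans
    (Finset.sum_le_sum fun p1 _ => Finset.abs_sum_le_sum_abs _ _)

end darts

/-! ### the rotated coordinates -/

section coords

variable {n m : ℕ} {H : Matrix (Fin n) (Fin n) ℝ} (hH : H.IsHermitian)

/-- coordinates of ports and (rotated) tests in the eigenbasis -/
noncomputable def qq (p1 p2 : Fin n × Fin n) (g : Fin n → Fin m → ℝ) (i : Fin n) : Idx m → ℝ :=
  Sum.elim (Sum.elim (fun a => eF hH i (![p1.1, p1.2] a)) (fun a => eF hH i (![p2.1, p2.2] a)))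
    (g i)

lemma qv_dirs (hn : 0 < n) (p1 p2 : Fin n × Fin n) (g : Fin n → Fin m → ℝ) :
    qv hH (dirs p1 p2 g) = qq hH p1 p2 (fun i k => ∑ j, (eO hH)ᵀ i j * g j k) := by
  have hn' : (0 : ℝ) < n := by exact_mod_cast hn
  ext i a
  unfold qv dirs qq eF
  rcases a with (a | a) | k
  · simp only [Matrix.of_apply, Sum.elim_inl]
    congr 1
    simp
  · simp only [Matrix.of_apply, Sum.elim_inl, Sum.elim_inr]
    congr 1
    simp
  · simp only [Matrix.of_apply, Sum.elim_inr, Matrix.transpose_apply]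
    rw [Finset.mul_sum]
    refine Finset.sum_congr rfl fun v _ => ?_
    have : Real.sqrt n ≠ 0 := (Real.sqrt_pos.2 hn').ne'
    field_simp

theorem integral_Uref (hn : 0 < n) (E ρ K : ℝ) {x : ℝ} (hx : ∀ i, hl hH E i ≠ x) (Za Zb : M2)
    (Ta Tb : Matrix (Fin 2) (Fin 2) ℝ) (p1 p2 : Fin n × Fin n)
    (f : Matrix (Idx m) (Idx m) ℂ → ℝ) :
    ∫ g, f (Uref H E ρ K x Za Zb Ta Tb p1 p2 g) ∂(gaussM n m) =
      ∫ g, f (CayG ((Tref Ta Tb ρ)⁻¹ * (SM (fun i => (hl hH E i - x)⁻¹) (qq hH p1 p2 g) -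
        Aref Za Zb (mn H (zz E K n)).re) * ((Tref Ta Tb ρ)⁻¹).transpose)) ∂(gaussM n m) := by
  unfold Uref
  simp only [arr_eq hH hn hx, qv_dirs hH hn]
  exact SpArr286.integral_left (κ := Fin m) ((eO hH)ᵀ)
    (by rw [Matrix.transpose_transpose]; exact eO_tmul hH)
    (by rw [Matrix.transpose_transpose]; exact eO_mult hH)
    (fun g => f (CayG ((Tref Ta Tb ρ)⁻¹ * (SM (fun i => (hl hH E i - x)⁻¹) (qq hH p1 p2 g) -
        Aref Za Zb (mn H (zz E K n)).re) * ((Tref Ta Tb ρ)⁻¹).transpose)))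

end coords

/-! ### deterministic truncation -/

section trunc

variable {ι : Type*} [Fintype ι] [DecidableEq ι]

lemma min_one_mul_le {c t : ℝ} (hc : 1 ≤ c) : min 1 (c * t) ≤ c * min 1 t := by
  rcases le_total 1 t with h | h
  · rw [min_eq_left h]
    exact (min_le_left _ _).trans (by linarith)
  · rw [min_eq_right h]; exact min_le_right _ _

lemma min_one_sum_le {α : Type*} (s : Finset α) (t : α → ℝ) (ht : ∀ i, 0 ≤ t i) :
    min 1 (∑ i ∈ s, t i) ≤ ∑ i ∈ s, min 1 (t i) := by
  classical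
  induction s using Finset.induction_on with
  | empty => simp
  | insert a s ha ih =>
    rw [Finset.sum_insert ha, Finset.sum_insert ha]
    have h1 : 0 ≤ ∑ i ∈ s, t i := Finset.sum_nonneg fun i _ => ht i
    have h2 : min 1 (t a + ∑ i ∈ s, t i) ≤ min 1 (t a) + min 1 (∑ i ∈ s, t i) := by
      rcases le_total 1 (t a) with h | h
      · rw [min_eq_left h]
        exact (min_le_left _ _).trans (le_add_of_nonneg_right (le_min zero_le_one h1))
      · rcases le_total 1 (∑ i ∈ s, t i) with h' | h'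
        · rw [min_eq_left h']
          exact (min_le_left _ _).trans (le_add_of_nonneg_left (le_min zero_le_one (ht a)))
        · rw [min_eq_right h, min_eq_right h']; exact min_le_right _ _
    linarith

lemma l1_conj_le (T D : Matrix ι ι ℝ) : l1 (T * D * Tᵀ) ≤ l1 T ^ 2 * l1 D := by
  unfold l1
  have h1 : ∀ a b, |(T * D * Tᵀ) a b| ≤ ∑ c, ∑ e, |T a e| * |D e c| * |T b c| := by
    intro a b
    rw [Matrix.mul_apply]
    refine (Finset.abs_sum_le_sum_abs _ _).trans (Finset.sum_le_sum fun c _ => ?_)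
    rw [Matrix.mul_apply, Matrix.transpose_apply, abs_mul, ← Finset.sum_mul]
    gcongr
    refine (Finset.abs_sum_le_sum_abs _ _).trans (Finset.sum_le_sum fun e _ => ?_)
    rw [abs_mul]
  calc ∑ a, ∑ b, |(T * D * Tᵀ) a b| ≤ ∑ a, ∑ b, ∑ c, ∑ e, |T a e| * |D e c| * |T b c| :=
        Finset.sum_le_sum fun a _ => Finset.sum_le_sum fun b _ => h1 a b
    _ = ∑ c, ∑ e, |D e c| * (∑ a, |T a e|) * (∑ b, |T b c|) := by
        simp only [Finset.sum_mul, Finset.mul_sum]
        calc ∑ a, ∑ b, ∑ c, ∑ e, |T a e| * |D e c| * |T b c|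
            = ∑ a, ∑ c, ∑ b, ∑ e, |T a e| * |D e c| * |T b c| :=
              Finset.sum_congr rfl fun a _ => Finset.sum_comm
          _ = ∑ c, ∑ a, ∑ b, ∑ e, |T a e| * |D e c| * |T b c| := Finset.sum_comm
          _ = ∑ c, ∑ a, ∑ e, ∑ b, |T a e| * |D e c| * |T b c| :=
              Finset.sum_congr rfl fun c _ => Finset.sum_congr rfl fun a _ => Finset.sum_comm
          _ = ∑ c, ∑ e, ∑ a, ∑ b, |T a e| * |D e c| * |T b c| :=
              Finset.sum_congr rfl fun c _ => Finset.sum_comm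
          _ = _ := by
              refine Finset.sum_congr rfl fun c _ => Finset.sum_congr rfl fun e _ => ?_
              rw [Finset.sum_comm]
              refine Finset.sum_congr rfl fun b _ => Finset.sum_congr rfl fun a _ => ?_
              ring
    _ ≤ ∑ c, ∑ e, |D e c| * l1 T * l1 T := by
        have h2 : ∀ e, ∑ a, |T a e| ≤ l1 T := by
          intro e
          unfold l1
          refine Finset.sum_le_sum fun a _ => ?_
          exact Finset.single_le_sum (f := fun b => |T a b|) (fun b _ => abs_nonneg _)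
            (Finset.mem_univ e)
        refine Finset.sum_le_sum fun c _ => Finset.sum_le_sum fun e _ => ?_
        have h3 := l1_nonneg T
        have h4 : |D e c| * (∑ a, |T a e|) ≤ |D e c| * l1 T :=
          mul_le_mul_of_nonneg_left (h2 e) (abs_nonneg _)
        exact mul_le_mul h4 (h2 c) (Finset.sum_nonneg fun _ _ => abs_nonneg _)
          (mul_nonneg (abs_nonneg _) h3)
    _ = l1 T ^ 2 * ∑ a, ∑ b, |D a b| := by
        rw [Finset.sum_comm, Finset.mul_sum]
        refine Finset.sum_congr rfl fun e _ => ?_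
        rw [Finset.mul_sum]
        exact Finset.sum_congr rfl fun c _ => by ring

/-- deterministic comparison of two arrays in a fixed frame `T` -/
theorem trunc_det {f : Matrix ι ι ℂ → ℝ} (hf : Continuous f) (T : Matrix ι ι ℝ) {ε : ℝ}
    (hε : 0 < ε) : ∃ L : ℝ, 0 ≤ L ∧ ∀ M M' : Matrix ι ι ℝ, Mᵀ = M → M'ᵀ = M' →
      |f (CayG (T * M * Tᵀ)) - f (CayG (T * M' * Tᵀ))| ≤
        ε + L * ∑ a, ∑ b, min 1 |M a b - M' a b| := by
  obtain ⟨L, hL, h⟩ := almost_lip hf hε
  refine ⟨L * (l1 T ^ 2 + 1), by positivity, fun M M' hM hM' => ?_⟩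
  refine (h _ _ (conj_symm hM T) (conj_symm hM' T)).trans ?_
  have h1 : T * M * Tᵀ - T * M' * Tᵀ = T * (M - M') * Tᵀ := by
    rw [Matrix.mul_sub, Matrix.sub_mul]
  rw [h1]
  have h2 : min 1 (l1 (T * (M - M') * Tᵀ)) ≤ (l1 T ^ 2 + 1) * ∑ a, ∑ b, min 1 |M a b - M' a b| := by
    calc min 1 (l1 (T * (M - M') * Tᵀ)) ≤ min 1 ((l1 T ^ 2 + 1) * l1 (M - M')) := by
          refine min_le_min le_rfl ((l1_conj_le T _).trans ?_)
          have := l1_nonneg (M - M')
          nlinarith
      _ ≤ (l1 T ^ 2 + 1) * min 1 (l1 (M - M')) :=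
          min_one_mul_le (by nlinarith [sq_nonneg (l1 T)])
      _ ≤ (l1 T ^ 2 + 1) * ∑ a, ∑ b, min 1 |M a b - M' a b| := by
          gcongr
          unfold l1
          refine (min_one_sum_le _ _ fun a => Finset.sum_nonneg fun _ _ => abs_nonneg _).trans ?_
          refine Finset.sum_le_sum fun a _ => ?_
          exact min_one_sum_le _ _ fun b => abs_nonneg _
  nlinarith

end trunc

end Crest.Agent.R166.Inv988
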