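import Mathlib
import Crest.Agent.R166.TreeT1_383
import Crest.Agent.R166.TreeT6_350
import Crest.Agent.R166.TreeT5_383
import Crest.Agent.R166.TreeT6N_383
import Crest.Agent.R166.DosM1_356_Mg
import Crest.Agent.R166.StepFin_395
import Crest.Agent.R166.InvG2_348
import Crest.Agent.R166.Gen_85
import Crest.Agent.R166.SpArr_286
import Crest.Agent.R166.SW_341
import Crest.Agent.R166.InvX_988
import Crest.Agent.R166.DosB_420
import Crest.Agent.R166.EnvDet_536

-- ▼ part R166/TreeFin_350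
section
/-!
Row 166, sections 32 (tree half) + 70: final statements of the tree half (helper350; leaves by
helper251, helper355, helper356, helper383, helper390, helper485).
-/
set_option autoImplicit false

namespace Crest.Agent.R166.TreeFin350

open MeasureTheory Crest.ProbabilityR.RandomMatrix Crest.Agent.R166.TreeDet350
  Crest.Agent.R166.TreeDefs350 Crest.Agent.R166.TreeSpec350

variable {b : ℕ}

theorem t5 (hb : 2 ≤ b) : T5 b := TreeT5.t5 hb

theorem t6_nondeg (hb : 2 ≤ b) : T6_nondeg b :=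
  TreeT6N.t6_nondeg hb (fun _ hs => T4_485.t4_wegner b hs) (fun _ hs => T4_485.t4_nondeg hb hs)
    (t5 hb)

theorem t6 (hb : 2 ≤ b) : T6 b := TreeT6350.t6 hb (t5 hb) (t6_nondeg hb)


theorem t8 (hb : 2 ≤ b) : T8 b := T8355.T8_of (by omega) (t6 hb) (t6_nondeg hb)


end Crest.Agent.R166.TreeFin350
end

-- ▼ part R166/StepAll_269
section

/-!
# Row 166 (helper269): `StepIn`, `StepC`, `StepA`, `StepL`, `ThmA` are unconditional for `3 ≤ d`.
-/

set_option autoImplicit false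

namespace Crest.Agent.R166.StepAll

open Crest.Agent.R166

variable {d : ℕ} [NeZero d]

theorem h2All (hd : 3 ≤ d) : StepFin395.H2All d := by
  intro A rs ε C1 C0 CL0 hA hrs hrs1 hε hC1 hC0 hCL0 hSM hS0
  obtain ⟨C, hC, h⟩ := H2.h2P hd hA hrs (by linarith) hε (by norm_num : (0 : ℝ) ≤ 14)
    (H2.goodM hd hA hrs1) hC0 hCL0 hS0 hC1 hSM
  exact ⟨C, hC.le, h⟩

theorem tAll (hd : 3 ≤ d) : StepFin395.TAll d := fun _ hA L => TEst789.tEst hd hA L

theorem stepIn (hd : 3 ≤ d) : StepA395.StepIn d :=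
  StepFin395.stepIn_of hd (tAll hd) (h2All hd)



theorem stepA (hd : 3 ≤ d) : SpecA.StepA d := StepA395.stepA_of hd (stepIn hd)

theorem thmA (hd : 3 ≤ d) : SpecA.ThmA d := ThmA383.thmA_of_step d (stepA hd)

end Crest.Agent.R166.StepAll
end

-- ▼ part R166/InvG3_348
section

/-!
Row 166, section 50 (helper348): the group argument and `InvG`.
-/

set_option autoImplicit false
set_option linter.unusedSectionVars false

namespace Crest.Agent.R166.InvG348

open Matrix Complex Topology MeasureTheory Crest.ProbabilityR.RandomMatrix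
open Crest.Agent.R166.InvB348 Crest.Agent.R166.InvC348 Crest.Agent.R166.InvD348
open Crest.Agent.R166.InvP348
open Crest.Agent.R166.Inv988 (M2 Idx KeyCmp idxEquiv imPart)
open Crest.Agent.R166.Gen85 (toC)

/-- asymptotic invariance of the test array under `V` -/
def AsI (d : ℕ) (s E ρ : ℝ) (m : ℕ) (V : Matrix (Fin m) (Fin m) ℂ) : Prop :=
  ∀ f : Matrix (Fin m) (Fin m) ℂ → ℝ, Continuous f →
    ∀ δ : ℝ, 0 < δ → ∀ ε : ℝ, 0 < ε → ∃ K0 : ℝ, 0 < K0 ∧ ∀ K : ℝ, K0 ≤ K → ∃ N : ℕ,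
    ∀ n : ℕ, N ≤ n → (regularGraphs n d).Nonempty →
      |EG n d s (fun H => TestVal H E ρ K δ m fun U => f (V * U * V.transpose)) -
        EG n d s (fun H => TestVal H E ρ K δ m f)| ≤ ε

section grp

variable {d m : ℕ} {s E ρ : ℝ}

lemma continuous_conj (V : Matrix (Fin m) (Fin m) ℂ) :
    Continuous fun U : Matrix (Fin m) (Fin m) ℂ => V * U * V.transpose :=
  (continuous_const.matrix_mul continuous_id).matrix_mul continuous_const

lemma AsI.mul {V W : Matrix (Fin m) (Fin m) ℂ} (hV : AsI d s E ρ m V) (hW : AsI d s E ρ m W) :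
    AsI d s E ρ m (V * W) := by
  intro f hf δ hδ ε hε
  obtain ⟨K1, hK1, h1⟩ := hV f hf δ hδ (ε / 2) (by positivity)
  obtain ⟨K2, hK2, h2⟩ := hW (fun U => f (V * U * V.transpose)) (hf.comp (continuous_conj V)) δ hδ
    (ε / 2) (by positivity)
  refine ⟨max K1 K2, by positivity, fun K hK => ?_⟩
  obtain ⟨N1, hN1⟩ := h1 K ((le_max_left _ _).trans hK)
  obtain ⟨N2, hN2⟩ := h2 K ((le_max_right _ _).trans hK)
  refine ⟨max N1 N2, fun n hn hne => ?_⟩
  have e1 := hN1 n (by omega) hne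
  have e2 := hN2 n (by omega) hne
  have e3 : ∀ U : Matrix (Fin m) (Fin m) ℂ, V * W * U * (V * W).transpose =
      V * (W * U * W.transpose) * V.transpose := by
    intro U
    rw [Matrix.transpose_mul]
    simp only [Matrix.mul_assoc]
  simp only [e3]
  refine (abs_sub_le _ _ _).trans ((add_le_add e2 e1).trans ?_)
  linarith

lemma AsI.one : AsI d s E ρ m 1 := by
  intro f hf δ hδ ε hε
  refine ⟨1, one_pos, fun K _ => ⟨0, fun n _ _ => ?_⟩⟩
  simp only [Matrix.transpose_one, Matrix.one_mul, Matrix.mul_one, sub_self, abs_zero]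
  exact hε.le

lemma AsI.inv {V W : Matrix (Fin m) (Fin m) ℂ} (hV : AsI d s E ρ m V) (h : W * V = 1) :
    AsI d s E ρ m W := by
  intro f hf δ hδ ε hε
  obtain ⟨K1, hK1, h1⟩ := hV (fun U => f (W * U * W.transpose)) (hf.comp (continuous_conj W)) δ hδ
    ε hε
  refine ⟨K1, hK1, fun K hK => ?_⟩
  obtain ⟨N1, hN1⟩ := h1 K hK
  refine ⟨N1, fun n hn hne => ?_⟩
  have e1 := hN1 n hn hne
  have e3 : ∀ U : Matrix (Fin m) (Fin m) ℂ, W * (V * U * V.transpose) * W.transpose = U := by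
    intro U
    calc W * (V * U * V.transpose) * W.transpose = (W * V) * U * (W * V).transpose := by
          rw [Matrix.transpose_mul]
          simp only [Matrix.mul_assoc]
      _ = U := by rw [h, Matrix.transpose_one, Matrix.one_mul, Matrix.mul_one]
  simp only [e3] at e1
  rw [abs_sub_comm]
  exact e1

/-- the subgroup of asymptotic stabilisers -/
def asGrp (d : ℕ) (s E ρ : ℝ) (m : ℕ) : Subgroup (unitaryGroup (Fin m) ℂ) where
  carrier := {V | AsI d s E ρ m V.1}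
  mul_mem' := fun hV hW => hV.mul hW
  one_mem' := AsI.one
  inv_mem' := by
    intro V hV
    refine AsI.inv (V := V.1) hV ?_
    have := congrArg Subtype.val (inv_mul_cancel V)
    exact this

lemma AsI_orth {O : Matrix (Fin m) (Fin m) ℝ} (hO : O ∈ orthogonalGroup (Fin m) ℝ) :
    AsI d s E ρ m (toC O) := by
  intro f hf δ hδ ε hε
  refine ⟨1, one_pos, fun K _ => ⟨0, fun n _ _ => ?_⟩⟩
  have h1 : ∀ H : Matrix (Fin n) (Fin n) ℝ,
      TestVal H E ρ K δ m (fun U => f (toC O * U * (toC O).transpose)) =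
        TestVal H E ρ K δ m f := fun H => SpArr286.TestVal_orth E ρ K δ hO f
  simp only [h1, sub_self, abs_zero]
  exact hε.le

end grp

/-- factorisation of the imaginary part -/
lemma exists_frame {Z : M2} (hZ : Res789.Sieg Z) :
    ∃ T : Matrix (Fin 2) (Fin 2) ℝ, T * Tᵀ = imPart Z ∧ IsUnit T.det := by
  have hp : (imPart Z).PosDef := hZ.posDef
  obtain ⟨T, hT⟩ := SW341.exists_mul_transpose _ hp.posSemidef
  refine ⟨T, hT, ?_⟩
  have h1 : IsUnit (imPart Z).det := isUnit_iff_ne_zero.2 hp.det_pos.ne'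
  rw [← hT, Matrix.det_mul] at h1
  exact isUnit_of_mul_isUnit_left h1

/-- transport of the switching unitary to `Fin (4 + k)` -/
noncomputable def kf (k : ℕ) (κ : Matrix (Idx k) (Idx k) ℂ) :
    Matrix (Fin (4 + k)) (Fin (4 + k)) ℂ := κ.submatrix (idxEquiv k).symm (idxEquiv k).symm

lemma kf_conj (k : ℕ) (κ : Matrix (Idx k) (Idx k) ℂ) (U : Matrix (Fin (4 + k)) (Fin (4 + k)) ℂ) :
    kf k κ * U * (kf k κ)ᵀ =
      (κ * U.submatrix (idxEquiv k) (idxEquiv k) * κᵀ).submatrix (idxEquiv k).symm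
        (idxEquiv k).symm := by
  unfold kf
  have h1 : U = (U.submatrix (idxEquiv k) (idxEquiv k)).submatrix (idxEquiv k).symm
      (idxEquiv k).symm := by
    ext i j; simp
  conv_lhs => rw [h1]
  rw [Matrix.transpose_submatrix, Matrix.submatrix_mul_equiv, Matrix.submatrix_mul_equiv]

/-- **(C)** asymptotic invariance, graph side -/
theorem invG {d : ℕ} (hd : 0 < d) {s E ρ : ℝ} (hρ : 0 < ρ) (hEnv : EnvDet d s E)
    (hLoc : LocLim d s E) (hND : NonDeg d s E) (hKey : KeyCmp d s E ρ) : InvG d s E ρ := by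
  by_cases hne : ∀ N : ℕ, ∃ n : ℕ, N ≤ n ∧ (regularGraphs n d).Nonempty
  swap
  · push Not at hne
    obtain ⟨N, hN⟩ := hne
    intro m _ V _ _ f _ δ _ ε _
    exact ⟨1, one_pos, fun K _ => ⟨N, fun n hn h => absurd (hN n hn) h.ne_empty⟩⟩
  obtain ⟨x1, x2, h1, h2, hsup⟩ := exists_support hd hEnv hLoc hND (offB hd s E) hne
  obtain ⟨Ta, hTa, ua⟩ := exists_frame (sieg_Ze2 h1 h2)
  obtain ⟨Tc, hTc, uc⟩ := exists_frame (sieg_Ze2 h1 h1)
  obtain ⟨Td, hTd, ud⟩ := exists_frame (sieg_Ze2 h2 h2)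
  have F1 : Frame x1 x2 x1 x2 ρ Ta Ta := ⟨h1, h2, h1, h2, hρ, ua, ua, hTa, hTa⟩
  have F2 : Frame x1 x1 x2 x2 ρ Tc Td := ⟨h1, h1, h2, h2, hρ, uc, ud, hTc, hTd⟩
  intro m hm V hV hdet
  obtain ⟨k, rfl⟩ : ∃ k, m = 4 + k := ⟨m - 4, by omega⟩
  set κ := kk k x1 x2 ρ Ta Tc Td with hκ
  have hκm : κ ∈ unitaryGroup (Idx k) ℂ := kk_mem F1 F2
  have hkf : kf k κ ∈ unitaryGroup (Fin (4 + k)) ℂ := by
    rw [mem_unitaryGroup_iff] at hκm ⊢
    unfold kf
    have e1 : star (κ.submatrix (idxEquiv k).symm (idxEquiv k).symm) =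
        (star κ).submatrix (idxEquiv k).symm (idxEquiv k).symm := by
      rw [star_eq_conjTranspose, star_eq_conjTranspose, conjTranspose_submatrix]
    rw [e1, Matrix.submatrix_mul_equiv, hκm, Matrix.submatrix_one_equiv]
  have hAs : AsI d s E ρ (4 + k) (kf k κ) := by
    intro f hf δ hδ ε hε
    have hf' : Continuous fun X : Matrix (Idx k) (Idx k) ℂ =>
        f (X.submatrix (idxEquiv k).symm (idxEquiv k).symm) :=
      hf.comp (continuous_id.matrix_submatrix _ _)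
    obtain ⟨K0, hK0, hK⟩ := kk_inv hd hEnv hKey hsup F1 F2 k hf' hδ hε
    refine ⟨K0, hK0, fun K hKK => ?_⟩
    obtain ⟨N, hN⟩ := hK K hKK
    refine ⟨N, fun n hn hnn => ?_⟩
    have e := hN n hn hnn
    have e1 : ∀ U : Matrix (Fin (4 + k)) (Fin (4 + k)) ℂ,
        (U.submatrix (idxEquiv k) (idxEquiv k)).submatrix (idxEquiv k).symm
          (idxEquiv k).symm = U := by
      intro U
      ext i j; simp
    simp only [e1, ← hκ, ← kf_conj] at e
    exact e
  have hnot : ¬ ∃ (c : ℂ) (O : Matrix (Fin (4 + k)) (Fin (4 + k)) ℝ),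
      O ∈ orthogonalGroup (Fin (4 + k)) ℝ ∧ kf k κ = c • toC O := by
    rintro ⟨c, O, hO, hc⟩
    apply kk_not_orth (m := k) F1 F2
    refine ⟨c, O.submatrix (idxEquiv k) (idxEquiv k), ?_, ?_⟩
    · rw [mem_orthogonalGroup_iff] at hO ⊢
      rw [Matrix.transpose_submatrix, Matrix.submatrix_mul_equiv, hO, Matrix.submatrix_one_equiv]
    · have e1 : κ = (kf k κ).submatrix (idxEquiv k) (idxEquiv k) := by
        unfold kf
        ext i j; simp
      rw [← hκ, e1, hc]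
      rfl
  obtain ⟨_, hmem⟩ := Gen85.gen (G := asGrp d s E ρ (4 + k))
    (fun O hO => ⟨Gen85.toC_mem hO, AsI_orth hO⟩) (κ := kf k κ) ⟨hkf, hAs⟩ hnot hV hdet
  exact hmem

end Crest.Agent.R166.InvG348
end

-- ▼ part R166/InvY_988
section

/-!
Row 166, section 50 (helper988): expectation estimates for the truncation.
-/

set_option autoImplicit false
set_option linter.unusedSectionVars false
set_option linter.unusedSimpArgs false

namespace Crest.Agent.R166.Inv988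

open MeasureTheory ProbabilityTheory Matrix Crest.ProbabilityR.RandomMatrix Crest.Agent.R166
open Crest.Agent.R166.Gauss286

lemma min_one_abs_le {t θ : ℝ} (hθ : 0 < θ) : min 1 |t| ≤ θ + t ^ 2 / θ := by
  refine (min_le_right _ _).trans ?_
  by_cases h : |t| ≤ θ
  · have : 0 ≤ t ^ 2 / θ := by positivity
    linarith
  · push Not at h
    have h1 : |t| ≤ t ^ 2 / θ := by
      rw [le_div_iff₀ hθ, ← sq_abs t, sq]
      exact mul_le_mul_of_nonneg_left h.le (abs_nonneg _)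
    linarith

lemma min_one_add_le (a b : ℝ) : min 1 |a + b| ≤ |a| + min 1 |b| := by
  have h0 := abs_nonneg a
  rcases le_total 1 |b| with h | h
  · rw [min_eq_left h]
    exact (min_le_left _ _).trans (by linarith)
  · rw [min_eq_right h]
    exact (min_le_right _ _).trans (abs_add_le _ _)

section

variable {n : ℕ} {H : Matrix (Fin n) (Fin n) ℝ} (hH : H.IsHermitian)

lemma parseval (hn : 0 < n) (b : Fin n → ℝ) :
    ∑ w, (∑ i, b i * eF hH i w) ^ 2 = n * ∑ i, b i ^ 2 := by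
  have h1 : ∀ w, (∑ i, b i * eF hH i w) ^ 2 =
      ∑ i, ∑ j, b i * b j * (eF hH i w * eF hH j w) := by
    intro w
    rw [sq, Finset.sum_mul_sum]
    refine Finset.sum_congr rfl fun i _ => Finset.sum_congr rfl fun j _ => by ring
  simp only [h1]
  rw [Finset.sum_comm]
  rw [Finset.mul_sum]
  refine Finset.sum_congr rfl fun i _ => ?_
  rw [Finset.sum_comm]
  simp only [← Finset.mul_sum, eF_orth hH hn]
  simp only [mul_ite, mul_zero, Finset.sum_ite_eq, Finset.mem_univ, if_true]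
  ring

lemma sum_eF_sq (hn : 0 < n) (i : Fin n) : (∑ v, eF hH i v ^ 2) / n = 1 := by
  have hn' : (0 : ℝ) < n := by exact_mod_cast hn
  have := eF_orth hH hn i i
  rw [if_pos rfl] at this
  simp only [sq]
  rw [this, div_self hn'.ne']

variable {m d : ℕ} {G : SimpleGraph (Fin n)}

/-- continuity of the coordinates -/
lemma continuous_qq (p1 p2 : Fin n × Fin n) (i : Fin n) (a : Idx m) :
    Continuous fun g : Fin n → Fin m → ℝ => qq hH p1 p2 g i a := by
  unfold qq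
  rcases a with (a | a) | k
  · exact continuous_const
  · exact continuous_const
  · exact (continuous_apply k).comp (continuous_apply i)

lemma continuous_SM_qq (φ : Fin n → ℝ) (p1 p2 : Fin n × Fin n) (a b : Idx m) :
    Continuous fun g : Fin n → Fin m → ℝ => SM φ (qq hH p1 p2 g) a b := by
  simp only [SM_apply]
  exact continuous_finsetSum _ fun i _ =>
    (continuous_const.mul (continuous_qq hH p1 p2 i a)).mul (continuous_qq hH p1 p2 i b)

lemma integrable_qq_sq (p1 p2 : Fin n × Fin n) (i : Fin n) (a : Idx m) :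
    Integrable (fun g : Fin n → Fin m → ℝ => qq hH p1 p2 g i a ^ 2) (gm (Fin n) (Fin m)) := by
  unfold qq
  rcases a with (a | a) | k
  · simp only [Sum.elim_inl]
    exact integrable_const _
  · simp only [Sum.elim_inl, Sum.elim_inr]
    exact integrable_const _
  · exact gm_coord_sq_int i k

lemma eAvg2_qq_sq (hG : G ∈ regularGraphs n d) (hn : 0 < n) (hd : 0 < d) (i : Fin n)
    (a : Idx m) :
    eAvg2 G (fun p1 p2 => ∫ g, qq hH p1 p2 g i a ^ 2 ∂(gm (Fin n) (Fin m))) = 1 := by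
  have hpos := card_darts_pos hG hn hd
  unfold qq
  rcases a with (a | a) | k
  · simp only [Sum.elim_inl, integral_const, probReal_univ, smul_eq_mul, one_mul]
    rw [eAvg2_fst hpos fun p1 => eF hH i (![p1.1, p1.2] a) ^ 2]
    rw [dAvg_port hG hn hd a fun v => eF hH i v ^ 2, sum_eF_sq hH hn]
  · simp only [Sum.elim_inl, Sum.elim_inr, integral_const, probReal_univ, smul_eq_mul, one_mul]
    rw [eAvg2_snd hpos fun p1 => eF hH i (![p1.1, p1.2] a) ^ 2]
    rw [dAvg_port hG hn hd a fun v => eF hH i v ^ 2, sum_eF_sq hH hn]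
  · simp only [Sum.elim_inr]
    have := gm_coord_sq (κ := Fin m) i k
    simp only [this]
    exact eAvg2_const hpos 1

/-- the far part -/
lemma far_bound (hG : G ∈ regularGraphs n d) (hn : 0 < n) (hd : 0 < d) (φ : Fin n → ℝ)
    (a b : Idx m) :
    eAvg2 G (fun p1 p2 => ∫ g, |SM φ (qq hH p1 p2 g) a b| ∂(gm (Fin n) (Fin m))) ≤
      ∑ i, |φ i| := by
  have h1 : ∀ p1 p2 : Fin n × Fin n, ∫ g, |SM φ (qq hH p1 p2 g) a b| ∂(gm (Fin n) (Fin m)) ≤
      ∑ i, |φ i| * ((∫ g, qq hH p1 p2 g i a ^ 2 ∂(gm (Fin n) (Fin m)) +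
        ∫ g, qq hH p1 p2 g i b ^ 2 ∂(gm (Fin n) (Fin m))) / 2) := by
    intro p1 p2
    have hI : Integrable (fun g : Fin n → Fin m → ℝ => ∑ i, |φ i| *
        ((qq hH p1 p2 g i a ^ 2 + qq hH p1 p2 g i b ^ 2) / 2)) (gm (Fin n) (Fin m)) :=
      integrable_finsetSum _ fun i _ =>
        (((integrable_qq_sq hH p1 p2 i a).add (integrable_qq_sq hH p1 p2 i b)).div_const 2).const_mul
          |φ i|
    have h2 : ∀ g : Fin n → Fin m → ℝ, |SM φ (qq hH p1 p2 g) a b| ≤ ∑ i, |φ i| *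
        ((qq hH p1 p2 g i a ^ 2 + qq hH p1 p2 g i b ^ 2) / 2) := by
      intro g
      rw [SM_apply]
      refine (Finset.abs_sum_le_sum_abs _ _).trans (Finset.sum_le_sum fun i _ => ?_)
      rw [mul_assoc, abs_mul]
      gcongr
      rw [abs_mul]
      nlinarith [sq_nonneg (|qq hH p1 p2 g i a| - |qq hH p1 p2 g i b|),
        sq_abs (qq hH p1 p2 g i a), sq_abs (qq hH p1 p2 g i b)]
    have h3 : Integrable (fun g : Fin n → Fin m → ℝ => |SM φ (qq hH p1 p2 g) a b|)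
        (gm (Fin n) (Fin m)) :=
      hI.mono' (continuous_SM_qq hH φ p1 p2 a b).abs.aestronglyMeasurable
        (Filter.Eventually.of_forall fun g => by
          rw [Real.norm_eq_abs, abs_abs]; exact h2 g)
    refine (integral_mono h3 hI h2).trans (le_of_eq ?_)
    rw [integral_finsetSum]
    · refine Finset.sum_congr rfl fun i _ => ?_
      rw [integral_const_mul, integral_div, integral_add (integrable_qq_sq hH p1 p2 i a)
        (integrable_qq_sq hH p1 p2 i b)]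
    · intro i _
      exact (((integrable_qq_sq hH p1 p2 i a).add
        (integrable_qq_sq hH p1 p2 i b)).div_const 2).const_mul |φ i|
  refine (eAvg2_mono h1).trans (le_of_eq ?_)
  rw [eAvg2_sum]
  refine Finset.sum_congr rfl fun i _ => ?_
  rw [eAvg2_mul_left]
  simp only [add_div]
  rw [eAvg2_add]
  simp only [div_eq_mul_inv]
  rw [eAvg2_mul_right, eAvg2_mul_right, eAvg2_qq_sq hH hG hn hd, eAvg2_qq_sq hH hG hn hd]
  norm_num

/-- second moment of the cross entries -/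
lemma cross_sq (hG : G ∈ regularGraphs n d) (hn : 0 < n) (hd : 0 < d) (c : Fin n → ℝ) :
    (∀ a b : Fin 2, eAvg2 G (fun p1 p2 =>
      (∑ i, c i * eF hH i (![p1.1, p1.2] a) * eF hH i (![p2.1, p2.2] b)) ^ 2) = ∑ i, c i ^ 2) ∧
    (∀ (a : Fin 2) (k : Fin m), dAvg G (fun p =>
      ∫ g, (∑ i, c i * eF hH i (![p.1, p.2] a) * g i k) ^ 2 ∂(gm (Fin n) (Fin m))) =
        ∑ i, c i ^ 2) := by
  have hn' : (0 : ℝ) < n := by exact_mod_cast hn
  have key : (∑ v, ∑ i, (c i * eF hH i v) ^ 2) / n = ∑ i, c i ^ 2 := by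
    rw [Finset.sum_comm, Finset.sum_div]
    refine Finset.sum_congr rfl fun i _ => ?_
    simp only [mul_pow]
    rw [← Finset.mul_sum, mul_div_assoc, sum_eF_sq hH hn, mul_one]
  refine ⟨fun a b => ?_, fun a k => ?_⟩
  · rw [eAvg2_eq]
    have h1 : ∀ p1 : Fin n × Fin n, dAvg G (fun p2 =>
        (∑ i, c i * eF hH i (![p1.1, p1.2] a) * eF hH i (![p2.1, p2.2] b)) ^ 2) =
        ∑ i, (c i * eF hH i (![p1.1, p1.2] a)) ^ 2 := by
      intro p1
      rw [dAvg_port hG hn hd b fun w => (∑ i, c i * eF hH i (![p1.1, p1.2] a) * eF hH i w) ^ 2]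
      rw [parseval hH hn (fun i => c i * eF hH i (![p1.1, p1.2] a))]
      field_simp
    simp only [h1]
    rw [dAvg_port hG hn hd a fun v => ∑ i, (c i * eF hH i v) ^ 2, key]
  · simp only [gm_lin (J := Fin n) (κ := Fin m)]
    rw [dAvg_port hG hn hd a fun v => ∑ i, (c i * eF hH i v) ^ 2, key]

lemma norm_le_bnorm (B : Matrix (Fin 2) (Fin 2) ℂ) (a b : Fin 2) : ‖B a b‖ ≤ bnorm B := by
  unfold bnorm
  fin_cases a <;> fin_cases b
  · exact (le_max_left _ _).trans (le_max_left _ _)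
  · exact (le_max_right _ _).trans (le_max_left _ _)
  · exact (le_max_left _ _).trans (le_max_right _ _)
  · exact (le_max_right _ _).trans (le_max_right _ _)

lemma Blk_apply (R : Matrix (Fin n) (Fin n) ℂ) (u w : Fin n) (a b : Fin 2) :
    Blk R u w a b = R (![u, w] a) (![u, w] b) := rfl

lemma min_one_block {z1 z2 z3 : ℂ} {β r0 w : ℝ} (h1 : ‖z1 - z2‖ ≤ β) (hw0 : 0 ≤ w)
    (hw1 : w ≤ 1) (h2 : w ≠ 0 → ‖z2 - z3‖ ≤ r0) :
    w * min 1 |z1.re - z3.re| ≤ min 1 β + r0 * w := by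
  by_cases hw : w = 0
  · rw [hw]
    have : 0 ≤ β := (norm_nonneg _).trans h1
    have : 0 ≤ min 1 β := le_min zero_le_one this
    linarith
  · have h3 := h2 hw
    have h4 : |z1.re - z3.re| ≤ β + r0 := by
      have e : z1.re - z3.re = ((z1 - z2) + (z2 - z3)).re := by simp
      rw [e]
      exact (Complex.abs_re_le_norm _).trans ((norm_add_le _ _).trans (add_le_add h1 h3))
    have hr0 : 0 ≤ r0 := (norm_nonneg _).trans h3
    have hβ : 0 ≤ β := (norm_nonneg _).trans h1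
    have h5 : min 1 |z1.re - z3.re| ≤ min 1 β + r0 := by
      rcases le_total 1 β with h | h
      · rw [min_eq_left h]; exact (min_le_left _ _).trans (by linarith)
      · rw [min_eq_right h]; exact (min_le_right _ _).trans h4
    have h6 : 0 ≤ min 1 β := le_min zero_le_one hβ
    have h7 : 0 ≤ min 1 |z1.re - z3.re| := le_min zero_le_one (abs_nonneg _)
    calc w * min 1 |z1.re - z3.re| ≤ w * (min 1 β + r0) := mul_le_mul_of_nonneg_left h5 hw0
      _ ≤ min 1 β + r0 * w := by nlinarith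

lemma int_min_le {F : (Fin n → Fin m → ℝ) → ℝ} (hF : Continuous F)
    (hF2 : Integrable (fun g => F g ^ 2) (gm (Fin n) (Fin m))) {θ : ℝ} (hθ : 0 < θ) :
    ∫ g, min 1 |F g| ∂(gm (Fin n) (Fin m)) ≤ θ + (∫ g, F g ^ 2 ∂(gm (Fin n) (Fin m))) / θ := by
  have h1 : Integrable (fun g => θ + F g ^ 2 / θ) (gm (Fin n) (Fin m)) :=
    (integrable_const θ).add (hF2.div_const θ)
  have h2 : Integrable (fun g => min 1 |F g|) (gm (Fin n) (Fin m)) := by
    refine Integrable.of_bound (C := 1) (continuous_const.min hF.abs).aestronglyMeasurable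
      (Filter.Eventually.of_forall fun g => ?_)
    rw [Real.norm_eq_abs, abs_of_nonneg (le_min zero_le_one (abs_nonneg _))]
    exact min_le_left _ _
  refine (integral_mono h2 h1 fun g => min_one_abs_le hθ).trans (le_of_eq ?_)
  rw [integral_add (integrable_const θ) (hF2.div_const θ), integral_div]
  simp

lemma smtp (c : Fin n → ℝ) (p1 p2 : Fin n × Fin n) (g : Fin n → Fin m → ℝ) (k : Fin m)
    (b : Fin 2 ⊕ Fin 2) : SM c (qq hH p1 p2 g) (Sum.inr k) (Sum.inl b) =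
      ∑ i, c i * (Sum.elim (fun a => eF hH i (![p1.1, p1.2] a))
        (fun a => eF hH i (![p2.1, p2.2] a)) b) * g i k := by
  rw [SM_apply]
  refine Finset.sum_congr rfl fun i _ => ?_
  exact mul_right_comm _ _ _

theorem part_bound (hG : G ∈ regularGraphs n d) (hn : 0 < n) (hd : 0 < d) {E K η : ℝ}
    (hK : 0 < K) {Za Zb : M2} {r0 θ : ℝ} (hθ : 0 < θ)
    (w : Fin n × Fin n → Fin n × Fin n → ℝ) (hw0 : ∀ p1 p2, 0 ≤ w p1 p2)
    (hw1 : ∀ p1 p2, w p1 p2 ≤ 1)
    (hw : ∀ p1 p2, w p1 p2 ≠ 0 → bnorm (blk H E η p1 - Za) ≤ r0 ∧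
      bnorm (blk H E η p2 - Zb) ≤ r0) (hr0 : 0 ≤ r0) (a b : Idx m) :
    eAvg2 G (fun p1 p2 => w p1 p2 * ∫ g, min 1 |SM (fun i => cK K (hl hH E i))
      (qq hH p1 p2 g) a b - Aref Za Zb (mn H (zz E K n)).re a b| ∂(gm (Fin n) (Fin m))) ≤
    (θ + 3 * (∑ i, cK K (hl hH E i) ^ 2) / θ) +
    eAvg G (fun u v => min 1 (bnorm (Blk (Res H (zz E K n)) u v -
        Blk (Res H (ze E η)) u v))) + r0 * eAvg2 G w := by
  have hpos := card_darts_pos hG hn hd
  set c : Fin n → ℝ := fun i => cK K (hl hH E i) with hc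
  set S2 := ∑ i, cK K (hl hH E i) ^ 2 with hS2
  have hS0 : 0 ≤ S2 := Finset.sum_nonneg fun _ _ => sq_nonneg _
  set ΔB := eAvg G (fun u v => min 1 (bnorm (Blk (Res H (zz E K n)) u v -
        Blk (Res H (ze E η)) u v))) with hΔB
  have hb0 : ∀ B : Matrix (Fin 2) (Fin 2) ℂ, 0 ≤ bnorm B := fun B =>
    (norm_nonneg _).trans (norm_le_bnorm B 0 0)
  have hΔ0 : 0 ≤ ΔB := by
    rw [hΔB]; unfold eAvg
    exact div_nonneg (Finset.sum_nonneg fun _ _ => le_min zero_le_one (hb0 _)) (Nat.cast_nonneg _)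
  have hw2 : 0 ≤ eAvg2 G w := by
    unfold eAvg2
    exact div_nonneg (Finset.sum_nonneg fun _ _ => Finset.sum_nonneg fun _ _ => hw0 _ _)
      (sq_nonneg _)
  have hθS : 0 ≤ θ + 3 * S2 / θ := by positivity
  have hrw : 0 ≤ r0 * eAvg2 G w := mul_nonneg hr0 hw2
  -- the generic cross estimate
  have cross : ∀ F : Fin n × Fin n → Fin n × Fin n → (Fin n → Fin m → ℝ) → ℝ,
      (∀ p1 p2, Continuous (F p1 p2)) →
      (∀ p1 p2, Integrable (fun g => F p1 p2 g ^ 2) (gm (Fin n) (Fin m))) →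
      eAvg2 G (fun p1 p2 => ∫ g, F p1 p2 g ^ 2 ∂(gm (Fin n) (Fin m))) ≤ 3 * S2 →
      eAvg2 G (fun p1 p2 => w p1 p2 * ∫ g, min 1 |F p1 p2 g| ∂(gm (Fin n) (Fin m))) ≤
        (θ + 3 * S2 / θ) + ΔB + r0 * eAvg2 G w := by
    intro F hF1 hF2 hF3
    have h1 : ∀ p1 p2, w p1 p2 * ∫ g, min 1 |F p1 p2 g| ∂(gm (Fin n) (Fin m)) ≤
        θ + (∫ g, F p1 p2 g ^ 2 ∂(gm (Fin n) (Fin m))) * θ⁻¹ := by
      intro p1 p2
      have h2 := int_min_le (hF1 p1 p2) (hF2 p1 p2) hθ
      have h3 : 0 ≤ ∫ g, min 1 |F p1 p2 g| ∂(gm (Fin n) (Fin m)) :=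
        integral_nonneg fun g => le_min zero_le_one (abs_nonneg _)
      rw [div_eq_mul_inv] at h2
      nlinarith [hw0 p1 p2, hw1 p1 p2]
    refine (eAvg2_mono h1).trans ?_
    rw [eAvg2_add, eAvg2_const hpos, eAvg2_mul_right]
    have h4 : eAvg2 G (fun p1 p2 => ∫ g, F p1 p2 g ^ 2 ∂(gm (Fin n) (Fin m))) * θ⁻¹ ≤
        3 * S2 / θ := by
      rw [div_eq_mul_inv]
      exact mul_le_mul_of_nonneg_right hF3 (inv_nonneg.2 hθ.le)
    linarith
  obtain ⟨hc1, hc2⟩ := cross_sq (m := m) hH hG hn hd c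
  have hc1' : ∀ a b : Fin 2, eAvg2 G (fun p1 p2 =>
      (∑ i, c i * eF hH i (![p2.1, p2.2] a) * eF hH i (![p1.1, p1.2] b)) ^ 2) = S2 := by
    intro a b
    refine Eq.trans ?_ (hc1 b a)
    congr 1
    ext p1 p2
    congr 1
    exact Finset.sum_congr rfl fun i _ => by ring
  rcases a with (a | a) | k <;> rcases b with (b | b) | l
  · -- port 1, port 1
    have h1 : ∀ p1 p2 : Fin n × Fin n, w p1 p2 * ∫ g, min 1 |SM c (qq hH p1 p2 g)
        (Sum.inl (Sum.inl a)) (Sum.inl (Sum.inl b)) - Aref Za Zb (mn H (zz E K n)).re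
        (Sum.inl (Sum.inl a) : Idx m) (Sum.inl (Sum.inl b))| ∂(gm (Fin n) (Fin m)) ≤
        min 1 (bnorm (Blk (Res H (zz E K n)) p1.1 p1.2 - Blk (Res H (ze E η)) p1.1 p1.2)) +
          r0 * w p1 p2 := by
      intro p1 p2
      have e1 : ∀ g : Fin n → Fin m → ℝ, SM c (qq hH p1 p2 g)
          (Sum.inl (Sum.inl a)) (Sum.inl (Sum.inl b)) =
          (Blk (Res H (zz E K n)) p1.1 p1.2 a b).re := by
        intro g
        rw [Blk_apply, Res_zz_re hH hn hK]; rfl
      have e2 : Aref Za Zb (mn H (zz E K n)).re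
        (Sum.inl (Sum.inl a) : Idx m) (Sum.inl (Sum.inl b)) = (Za a b).re := rfl
      simp only [e1, e2, integral_const, probReal_univ, smul_eq_mul, one_mul]
      refine min_one_block (z2 := Blk (Res H (ze E η)) p1.1 p1.2 a b) ?_ (hw0 _ _) (hw1 _ _) ?_
      · exact norm_le_bnorm (Blk (Res H (zz E K n)) p1.1 p1.2 - Blk (Res H (ze E η)) p1.1 p1.2) a b
      · intro hne
        exact (norm_le_bnorm (blk H E η p1 - Za) a b).trans (hw p1 p2 hne).1
    refine (eAvg2_mono h1).trans ?_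
    rw [eAvg2_add, eAvg2_mul_left]
    rw [eAvg2_fst hpos fun p1 => min 1 (bnorm (Blk (Res H (zz E K n)) p1.1 p1.2 -
      Blk (Res H (ze E η)) p1.1 p1.2)), ← eAvg_eq_dAvg (G := G) fun u v =>
      min 1 (bnorm (Blk (Res H (zz E K n)) u v - Blk (Res H (ze E η)) u v))]
    linarith
  · -- port 1, port 2
    refine cross (fun p1 p2 g => SM c (qq hH p1 p2 g) (Sum.inl (Sum.inl a)) (Sum.inl (Sum.inr b)) -
      Aref Za Zb (mn H (zz E K n)).re (Sum.inl (Sum.inl a) : Idx m) (Sum.inl (Sum.inr b)))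
      (fun p1 p2 => (continuous_SM_qq hH c p1 p2 _ _).sub continuous_const) ?_ ?_
    · intro p1 p2
      exact integrable_const (μ := gm (Fin n) (Fin m))
        ((∑ i, c i * eF hH i (![p1.1, p1.2] a) * eF hH i (![p2.1, p2.2] b) - 0) ^ 2)
    · have e1 : ∀ (p1 p2 : Fin n × Fin n) (g : Fin n → Fin m → ℝ), SM c (qq hH p1 p2 g)
          (Sum.inl (Sum.inl a)) (Sum.inl (Sum.inr b)) - Aref Za Zb (mn H (zz E K n)).re
          (Sum.inl (Sum.inl a) : Idx m) (Sum.inl (Sum.inr b)) =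
          ∑ i, c i * eF hH i (![p1.1, p1.2] a) * eF hH i (![p2.1, p2.2] b) := by
        intro p1 p2 g
        exact sub_zero _
      simp only [e1, integral_const, probReal_univ, smul_eq_mul, one_mul]
      rw [hc1 a b]
      linarith
  · -- port 1, test
    refine cross (fun p1 p2 g => SM c (qq hH p1 p2 g) (Sum.inl (Sum.inl a)) (Sum.inr l) -
      Aref Za Zb (mn H (zz E K n)).re (Sum.inl (Sum.inl a) : Idx m) (Sum.inr l))
      (fun p1 p2 => (continuous_SM_qq hH c p1 p2 _ _).sub continuous_const) ?_ ?_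
    · intro p1 p2
      have e1 : ∀ (g : Fin n → Fin m → ℝ), SM c (qq hH p1 p2 g)
          (Sum.inl (Sum.inl a)) (Sum.inr l) - Aref Za Zb (mn H (zz E K n)).re
          (Sum.inl (Sum.inl a) : Idx m) (Sum.inr l) =
          ∑ i, c i * eF hH i (![p1.1, p1.2] a) * g i l := fun g => sub_zero _
      simp only [e1]
      exact gm_lin_int _ l
    · have e1 : ∀ (p1 p2 : Fin n × Fin n) (g : Fin n → Fin m → ℝ), SM c (qq hH p1 p2 g)
          (Sum.inl (Sum.inl a)) (Sum.inr l) - Aref Za Zb (mn H (zz E K n)).re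
          (Sum.inl (Sum.inl a) : Idx m) (Sum.inr l) =
          ∑ i, c i * eF hH i (![p1.1, p1.2] a) * g i l := fun p1 p2 g => sub_zero _
      simp only [e1]
      rw [eAvg2_fst hpos fun p1 => ∫ g, (∑ i, c i * eF hH i (![p1.1, p1.2] a) * g i l) ^ 2
        ∂(gm (Fin n) (Fin m)), hc2 a l]
      linarith
  · -- port 2, port 1
    refine cross (fun p1 p2 g => SM c (qq hH p1 p2 g) (Sum.inl (Sum.inr a)) (Sum.inl (Sum.inl b)) -
      Aref Za Zb (mn H (zz E K n)).re (Sum.inl (Sum.inr a) : Idx m) (Sum.inl (Sum.inl b)))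
      (fun p1 p2 => (continuous_SM_qq hH c p1 p2 _ _).sub continuous_const) ?_ ?_
    · intro p1 p2
      exact integrable_const (μ := gm (Fin n) (Fin m))
        ((∑ i, c i * eF hH i (![p2.1, p2.2] a) * eF hH i (![p1.1, p1.2] b) - 0) ^ 2)
    · have e1 : ∀ (p1 p2 : Fin n × Fin n) (g : Fin n → Fin m → ℝ), SM c (qq hH p1 p2 g)
          (Sum.inl (Sum.inr a)) (Sum.inl (Sum.inl b)) - Aref Za Zb (mn H (zz E K n)).re
          (Sum.inl (Sum.inr a) : Idx m) (Sum.inl (Sum.inl b)) =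
          ∑ i, c i * eF hH i (![p2.1, p2.2] a) * eF hH i (![p1.1, p1.2] b) := by
        intro p1 p2 g
        exact sub_zero _
      simp only [e1, integral_const, probReal_univ, smul_eq_mul, one_mul]
      rw [hc1' a b]
      linarith
  · -- port 2, port 2
    have h1 : ∀ p1 p2 : Fin n × Fin n, w p1 p2 * ∫ g, min 1 |SM c (qq hH p1 p2 g)
        (Sum.inl (Sum.inr a)) (Sum.inl (Sum.inr b)) - Aref Za Zb (mn H (zz E K n)).re
        (Sum.inl (Sum.inr a) : Idx m) (Sum.inl (Sum.inr b))| ∂(gm (Fin n) (Fin m)) ≤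
        min 1 (bnorm (Blk (Res H (zz E K n)) p2.1 p2.2 - Blk (Res H (ze E η)) p2.1 p2.2)) +
          r0 * w p1 p2 := by
      intro p1 p2
      have e1 : ∀ g : Fin n → Fin m → ℝ, SM c (qq hH p1 p2 g)
          (Sum.inl (Sum.inr a)) (Sum.inl (Sum.inr b)) =
          (Blk (Res H (zz E K n)) p2.1 p2.2 a b).re := by
        intro g
        rw [Blk_apply, Res_zz_re hH hn hK]; rfl
      have e2 : Aref Za Zb (mn H (zz E K n)).re
        (Sum.inl (Sum.inr a) : Idx m) (Sum.inl (Sum.inr b)) = (Zb a b).re := rfl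
      simp only [e1, e2, integral_const, probReal_univ, smul_eq_mul, one_mul]
      refine min_one_block (z2 := Blk (Res H (ze E η)) p2.1 p2.2 a b) ?_ (hw0 _ _) (hw1 _ _) ?_
      · exact norm_le_bnorm (Blk (Res H (zz E K n)) p2.1 p2.2 - Blk (Res H (ze E η)) p2.1 p2.2) a b
      · intro hne
        exact (norm_le_bnorm (blk H E η p2 - Zb) a b).trans (hw p1 p2 hne).2
    refine (eAvg2_mono h1).trans ?_
    rw [eAvg2_add, eAvg2_mul_left]
    rw [eAvg2_snd hpos fun p1 => min 1 (bnorm (Blk (Res H (zz E K n)) p1.1 p1.2 -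
      Blk (Res H (ze E η)) p1.1 p1.2)), ← eAvg_eq_dAvg (G := G) fun u v =>
      min 1 (bnorm (Blk (Res H (zz E K n)) u v - Blk (Res H (ze E η)) u v))]
    linarith
  · -- port 2, test
    refine cross (fun p1 p2 g => SM c (qq hH p1 p2 g) (Sum.inl (Sum.inr a)) (Sum.inr l) -
      Aref Za Zb (mn H (zz E K n)).re (Sum.inl (Sum.inr a) : Idx m) (Sum.inr l))
      (fun p1 p2 => (continuous_SM_qq hH c p1 p2 _ _).sub continuous_const) ?_ ?_
    · intro p1 p2
      have e1 : ∀ (g : Fin n → Fin m → ℝ), SM c (qq hH p1 p2 g)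
          (Sum.inl (Sum.inr a)) (Sum.inr l) - Aref Za Zb (mn H (zz E K n)).re
          (Sum.inl (Sum.inr a) : Idx m) (Sum.inr l) =
          ∑ i, c i * eF hH i (![p2.1, p2.2] a) * g i l := fun g => sub_zero _
      simp only [e1]
      exact gm_lin_int _ l
    · have e1 : ∀ (p1 p2 : Fin n × Fin n) (g : Fin n → Fin m → ℝ), SM c (qq hH p1 p2 g)
          (Sum.inl (Sum.inr a)) (Sum.inr l) - Aref Za Zb (mn H (zz E K n)).re
          (Sum.inl (Sum.inr a) : Idx m) (Sum.inr l) =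
          ∑ i, c i * eF hH i (![p2.1, p2.2] a) * g i l := fun p1 p2 g => sub_zero _
      simp only [e1]
      rw [eAvg2_snd hpos fun p1 => ∫ g, (∑ i, c i * eF hH i (![p1.1, p1.2] a) * g i l) ^ 2
        ∂(gm (Fin n) (Fin m)), hc2 a l]
      linarith
  · -- test, port 1
    refine cross (fun p1 p2 g => SM c (qq hH p1 p2 g) (Sum.inr k) (Sum.inl (Sum.inl b)) -
      Aref Za Zb (mn H (zz E K n)).re (Sum.inr k : Idx m) (Sum.inl (Sum.inl b)))
      (fun p1 p2 => (continuous_SM_qq hH c p1 p2 _ _).sub continuous_const) ?_ ?_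
    · intro p1 p2
      have e1 : ∀ (g : Fin n → Fin m → ℝ), SM c (qq hH p1 p2 g)
          (Sum.inr k) (Sum.inl (Sum.inl b)) - Aref Za Zb (mn H (zz E K n)).re
          (Sum.inr k : Idx m) (Sum.inl (Sum.inl b)) =
          ∑ i, c i * eF hH i (![p1.1, p1.2] b) * g i k := fun g =>
        (sub_zero _).trans (smtp hH c p1 p2 g k _)
      simp only [e1]
      exact gm_lin_int _ k
    · have e1 : ∀ (p1 p2 : Fin n × Fin n) (g : Fin n → Fin m → ℝ), SM c (qq hH p1 p2 g)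
          (Sum.inr k) (Sum.inl (Sum.inl b)) - Aref Za Zb (mn H (zz E K n)).re
          (Sum.inr k : Idx m) (Sum.inl (Sum.inl b)) =
          ∑ i, c i * eF hH i (![p1.1, p1.2] b) * g i k := fun p1 p2 g =>
        (sub_zero _).trans (smtp hH c p1 p2 g k _)
      simp only [e1]
      rw [eAvg2_fst hpos fun p1 => ∫ g, (∑ i, c i * eF hH i (![p1.1, p1.2] b) * g i k) ^ 2
        ∂(gm (Fin n) (Fin m)), hc2 b k]
      linarith
  · -- test, port 2
    refine cross (fun p1 p2 g => SM c (qq hH p1 p2 g) (Sum.inr k) (Sum.inl (Sum.inr b)) -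
      Aref Za Zb (mn H (zz E K n)).re (Sum.inr k : Idx m) (Sum.inl (Sum.inr b)))
      (fun p1 p2 => (continuous_SM_qq hH c p1 p2 _ _).sub continuous_const) ?_ ?_
    · intro p1 p2
      have e1 : ∀ (g : Fin n → Fin m → ℝ), SM c (qq hH p1 p2 g)
          (Sum.inr k) (Sum.inl (Sum.inr b)) - Aref Za Zb (mn H (zz E K n)).re
          (Sum.inr k : Idx m) (Sum.inl (Sum.inr b)) =
          ∑ i, c i * eF hH i (![p2.1, p2.2] b) * g i k := fun g =>
        (sub_zero _).trans (smtp hH c p1 p2 g k _)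
      simp only [e1]
      exact gm_lin_int _ k
    · have e1 : ∀ (p1 p2 : Fin n × Fin n) (g : Fin n → Fin m → ℝ), SM c (qq hH p1 p2 g)
          (Sum.inr k) (Sum.inl (Sum.inr b)) - Aref Za Zb (mn H (zz E K n)).re
          (Sum.inr k : Idx m) (Sum.inl (Sum.inr b)) =
          ∑ i, c i * eF hH i (![p2.1, p2.2] b) * g i k := fun p1 p2 g =>
        (sub_zero _).trans (smtp hH c p1 p2 g k _)
      simp only [e1]
      rw [eAvg2_snd hpos fun p1 => ∫ g, (∑ i, c i * eF hH i (![p1.1, p1.2] b) * g i k) ^ 2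
        ∂(gm (Fin n) (Fin m)), hc2 b k]
      linarith
  · -- test, test
    have e1 : ∀ (p1 p2 : Fin n × Fin n) (g : Fin n → Fin m → ℝ), SM c (qq hH p1 p2 g)
        (Sum.inr k) (Sum.inr l) - Aref Za Zb (mn H (zz E K n)).re
        (Sum.inr k : Idx m) (Sum.inr l) =
        ∑ i, c i * (g i k * g i l - if k = l then (1 : ℝ) else 0) := by
      intro p1 p2 g
      have e2 : Aref Za Zb (mn H (zz E K n)).re (Sum.inr k : Idx m) (Sum.inr l) =
          (∑ i, c i) * (if k = l then (1 : ℝ) else 0) := by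
        rw [← mn_zz_re hH hn hK]
        unfold Aref
        simp [Matrix.fromBlocks_apply₂₂, Matrix.smul_apply, Matrix.one_apply]
      have e3 : SM c (qq hH p1 p2 g) (Sum.inr k) (Sum.inr l) = ∑ i, c i * g i k * g i l := rfl
      rw [e2, e3, Finset.sum_mul, ← Finset.sum_sub_distrib]
      exact Finset.sum_congr rfl fun i _ => by ring
    refine cross (fun p1 p2 g => SM c (qq hH p1 p2 g) (Sum.inr k) (Sum.inr l) -
      Aref Za Zb (mn H (zz E K n)).re (Sum.inr k : Idx m) (Sum.inr l))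
      (fun p1 p2 => (continuous_SM_qq hH c p1 p2 _ _).sub continuous_const) ?_ ?_
    · intro p1 p2
      simp only [e1]
      exact gm_quad_int c k l
    · simp only [e1]
      rw [eAvg2_const hpos]
      exact gm_quad_le c k l

end

end Crest.Agent.R166.Inv988
end

-- ▼ part R166/InvZ_988
section

/-!
Row 166, section 50 (helper988): the near truncation of the port array and of the test array.
-/

set_option autoImplicit false
set_option linter.unusedSectionVars false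
set_option linter.unusedSimpArgs false

namespace Crest.Agent.R166.Inv988

open MeasureTheory ProbabilityTheory Matrix Crest.ProbabilityR.RandomMatrix Crest.Agent.R166
open Crest.Agent.R166.Gauss286

lemma SM_add {J ι : Type*} [Fintype J] (φ φ' : J → ℝ) (v : J → ι → ℝ) :
    SM (fun i => φ i + φ' i) v = SM φ v + SM φ' v := by
  ext a b
  simp only [SM_apply, Matrix.add_apply, ← Finset.sum_add_distrib]
  exact Finset.sum_congr rfl fun i _ => by ring

lemma Aref_symm {m : ℕ} {Za Zb : M2} (ha : Zaᵀ = Za) (hb : Zbᵀ = Zb) (t : ℝ) :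
    (Aref (m := m) Za Zb t)ᵀ = Aref Za Zb t := by
  have h1 : (rePart Za)ᵀ = rePart Za := by
    ext i j
    have := congrFun (congrFun ha i) j
    simp only [Matrix.transpose_apply] at this
    simp [rePart, this]
  have h2 : (rePart Zb)ᵀ = rePart Zb := by
    ext i j
    have := congrFun (congrFun hb i) j
    simp only [Matrix.transpose_apply] at this
    simp [rePart, this]
  unfold Aref
  rw [Matrix.fromBlocks_transpose, Matrix.fromBlocks_transpose, h1, h2]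
  simp

/-- continuity of `g ↦ f (CayG (C g))` and integrability -/
lemma cont_f_cay {X ι : Type*} [Fintype ι] [DecidableEq ι] [TopologicalSpace X]
    {f : Matrix ι ι ℂ → ℝ} (hf : Continuous f) {C : X → Matrix ι ι ℝ} (hC : Continuous C)
    (hs : ∀ x, (C x)ᵀ = C x) : Continuous fun x => f (CayG (C x)) :=
  hf.comp (continuous_CayG hC hs)

lemma int_f_cay {J κ ι : Type*} [Fintype J] [Fintype κ] [Fintype ι] [DecidableEq ι]
    {f : Matrix ι ι ℂ → ℝ} (hf : Continuous f) {C : (J → κ → ℝ) → Matrix ι ι ℝ}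
    (hC : Continuous C) (hs : ∀ x, (C x)ᵀ = C x) :
    Integrable (fun g => f (CayG (C g))) (gm J κ) := by
  obtain ⟨B, -, hB⟩ := exists_bound hf
  exact Integrable.of_bound (C := B) (cont_f_cay hf hC hs).aestronglyMeasurable
    (Filter.Eventually.of_forall fun g => hB _ (hs g))

section port

variable {n m d : ℕ} {H : Matrix (Fin n) (Fin n) ℝ} (hH : H.IsHermitian)
  {G : SimpleGraph (Fin n)}

lemma cont_SM_qq (φ : Fin n → ℝ) (p1 p2 : Fin n × Fin n) :
    Continuous fun g : Fin n → Fin m → ℝ => SM φ (qq hH p1 p2 g) :=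
  continuous_matrix fun a b => continuous_SM_qq hH φ p1 p2 a b

lemma cont_conj {X ι : Type*} [Fintype ι] [TopologicalSpace X] {C : X → Matrix ι ι ℝ}
    (hC : Continuous C) (S : Matrix ι ι ℝ) : Continuous fun x => S * C x * Sᵀ :=
  (continuous_const.matrix_mul hC).matrix_mul continuous_const

/-- **near truncation, port side** -/
theorem port_trunc (hG : G ∈ regularGraphs n d) (hn : 0 < n) (hd : 0 < d) {E K η : ℝ}
    (hK : 0 < K) {Za Zb : M2} (ha : Zaᵀ = Za) (hb : Zbᵀ = Zb) {r0 θ : ℝ} (hθ : 0 < θ)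
    (w : Fin n × Fin n → Fin n × Fin n → ℝ) (hw0 : ∀ p1 p2, 0 ≤ w p1 p2)
    (hw1 : ∀ p1 p2, w p1 p2 ≤ 1)
    (hw : ∀ p1 p2, w p1 p2 ≠ 0 → bnorm (blk H E η p1 - Za) ≤ r0 ∧
      bnorm (blk H E η p2 - Zb) ≤ r0) (hr0 : 0 ≤ r0)
    {f : Matrix (Idx m) (Idx m) ℂ → ℝ} (hf : Continuous f) (S : Matrix (Idx m) (Idx m) ℝ)
    {ε L : ℝ} (hL : 0 ≤ L) (hfL : ∀ M M' : Matrix (Idx m) (Idx m) ℝ, Mᵀ = M → M'ᵀ = M' →
      |f (CayG (S * M * Sᵀ)) - f (CayG (S * M' * Sᵀ))| ≤
        ε + L * ∑ a, ∑ b, min 1 |M a b - M' a b|)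
    (ψ φn φf : Fin n → ℝ) (hψ : ∀ i, ψ i = φn i + φf i + cK K (hl hH E i)) :
    |eAvg2 G (fun p1 p2 => w p1 p2 * ∫ g, f (CayG (S * (SM ψ (qq hH p1 p2 g) -
        Aref Za Zb (mn H (zz E K n)).re) * Sᵀ)) ∂(gm (Fin n) (Fin m))) -
      eAvg2 G (fun p1 p2 => w p1 p2 * ∫ g, f (CayG (S * SM φn (qq hH p1 p2 g) * Sᵀ))
        ∂(gm (Fin n) (Fin m)))| ≤
    ε * eAvg2 G w + L * ((Fintype.card (Idx m) : ℝ) ^ 2 * (∑ i, |φf i| +
      ((θ + 3 * (∑ i, cK K (hl hH E i) ^ 2) / θ) +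
      eAvg G (fun u v => min 1 (bnorm (Blk (Res H (zz E K n)) u v -
        Blk (Res H (ze E η)) u v))) + r0 * eAvg2 G w))) := by
  set c : Fin n → ℝ := fun i => cK K (hl hH E i) with hc
  set A := Aref (m := m) Za Zb (mn H (zz E K n)).re with hA
  have hAs : Aᵀ = A := Aref_symm ha hb _
  have hMs : ∀ p1 p2 (g : Fin n → Fin m → ℝ), (SM ψ (qq hH p1 p2 g) - A)ᵀ =
      SM ψ (qq hH p1 p2 g) - A := fun p1 p2 g => by
    rw [Matrix.transpose_sub, SM_symm, hAs]
  have hdec : ∀ p1 p2 (g : Fin n → Fin m → ℝ) a b,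
      (SM ψ (qq hH p1 p2 g) - A) a b - SM φn (qq hH p1 p2 g) a b =
      SM φf (qq hH p1 p2 g) a b + (SM c (qq hH p1 p2 g) a b - A a b) := by
    intro p1 p2 g a b
    have : ψ = fun i => (φn i + φf i) + c i := by ext i; rw [hψ]
    rw [this, SM_add, SM_add]
    simp only [Matrix.sub_apply, Matrix.add_apply]
    ring
  rw [← eAvg2_sub]
  refine (abs_eAvg2_le _).trans ?_
  -- pointwise bound
  have hpt : ∀ p1 p2 : Fin n × Fin n, |w p1 p2 * ∫ g, f (CayG (S * (SM ψ (qq hH p1 p2 g) - A) *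
        Sᵀ)) ∂(gm (Fin n) (Fin m)) - w p1 p2 * ∫ g, f (CayG (S * SM φn (qq hH p1 p2 g) * Sᵀ))
        ∂(gm (Fin n) (Fin m))| ≤
      ε * w p1 p2 + L * (∑ a, ∑ b, ((∫ g, |SM φf (qq hH p1 p2 g) a b| ∂(gm (Fin n) (Fin m))) +
        w p1 p2 * ∫ g, min 1 |SM c (qq hH p1 p2 g) a b - A a b| ∂(gm (Fin n) (Fin m)))) := by
    intro p1 p2
    have i1 : Integrable (fun g : Fin n → Fin m → ℝ => f (CayG (S * (SM ψ (qq hH p1 p2 g) - A) *
        Sᵀ))) (gm (Fin n) (Fin m)) :=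
      int_f_cay hf (cont_conj ((cont_SM_qq hH ψ p1 p2).sub continuous_const) S)
        fun g => conj_symm (hMs p1 p2 g) S
    have i2 : Integrable (fun g : Fin n → Fin m → ℝ => f (CayG (S * SM φn (qq hH p1 p2 g) *
        Sᵀ))) (gm (Fin n) (Fin m)) :=
      int_f_cay hf (cont_conj (cont_SM_qq hH φn p1 p2) S) fun g => conj_symm (SM_symm _ _) S
    have i3 : ∀ a b, Integrable (fun g : Fin n → Fin m → ℝ => |SM φf (qq hH p1 p2 g) a b|)
        (gm (Fin n) (Fin m)) := by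
      intro a b
      simp only [SM_apply]
      refine Integrable.abs (integrable_finsetSum _ fun i _ => ?_)
      have h1 : ∀ a : Idx m, MemLp (fun g : Fin n → Fin m → ℝ => qq hH p1 p2 g i a) 2
          (gm (Fin n) (Fin m)) := fun a => by
        rw [memLp_two_iff_integrable_sq (continuous_qq hH p1 p2 i a).aestronglyMeasurable]
        exact integrable_qq_sq hH p1 p2 i a
      have h2 := ((h1 a).integrable_mul (h1 b)).const_mul (φf i)
      refine h2.congr (Filter.Eventually.of_forall fun g => ?_)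
      simp only [Pi.mul_apply]; ring
    have i4 : ∀ a b, Integrable (fun g : Fin n → Fin m → ℝ =>
        min 1 |SM c (qq hH p1 p2 g) a b - A a b|) (gm (Fin n) (Fin m)) := by
      intro a b
      refine Integrable.of_bound (C := 1) (continuous_const.min
        ((continuous_SM_qq hH c p1 p2 a b).sub continuous_const).abs).aestronglyMeasurable
        (Filter.Eventually.of_forall fun g => ?_)
      rw [Real.norm_eq_abs, abs_of_nonneg (le_min zero_le_one (abs_nonneg _))]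
      exact min_le_left _ _
    rw [← mul_sub, ← integral_sub i1 i2, abs_mul, abs_of_nonneg (hw0 p1 p2)]
    have h1 : |∫ g, (f (CayG (S * (SM ψ (qq hH p1 p2 g) - A) * Sᵀ)) -
        f (CayG (S * SM φn (qq hH p1 p2 g) * Sᵀ))) ∂(gm (Fin n) (Fin m))| ≤
        ∫ g, (ε + L * ∑ a, ∑ b, (|SM φf (qq hH p1 p2 g) a b| +
          min 1 |SM c (qq hH p1 p2 g) a b - A a b|)) ∂(gm (Fin n) (Fin m)) := by
      rw [← Real.norm_eq_abs]
      refine norm_integral_le_of_norm_le ?_ (Filter.Eventually.of_forall fun g => ?_)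
      · refine (integrable_const ε).add (Integrable.const_mul ?_ L)
        exact integrable_finsetSum _ fun a _ => integrable_finsetSum _ fun b _ =>
          (i3 a b).add (i4 a b)
      · rw [Real.norm_eq_abs]
        refine (hfL _ _ (hMs p1 p2 g) (SM_symm _ _)).trans ?_
        gcongr with a _ b _
        rw [hdec]
        exact min_one_add_le _ _
    have h2 : ∫ g, (ε + L * ∑ a, ∑ b, (|SM φf (qq hH p1 p2 g) a b| +
          min 1 |SM c (qq hH p1 p2 g) a b - A a b|)) ∂(gm (Fin n) (Fin m)) =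
        ε + L * ∑ a, ∑ b, ((∫ g, |SM φf (qq hH p1 p2 g) a b| ∂(gm (Fin n) (Fin m))) +
          ∫ g, min 1 |SM c (qq hH p1 p2 g) a b - A a b| ∂(gm (Fin n) (Fin m))) := by
      rw [integral_add (integrable_const ε), integral_const_mul]
      · simp only [integral_const, probReal_univ, smul_eq_mul, one_mul]
        rw [integral_finsetSum]
        · congr 2
          refine Finset.sum_congr rfl fun a _ => ?_
          rw [integral_finsetSum]
          · refine Finset.sum_congr rfl fun b _ => ?_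
            rw [integral_add (i3 a b) (i4 a b)]
          · exact fun b _ => (i3 a b).add (i4 a b)
        · exact fun a _ => integrable_finsetSum _ fun b _ => (i3 a b).add (i4 a b)
      · refine Integrable.const_mul ?_ L
        exact integrable_finsetSum _ fun a _ => integrable_finsetSum _ fun b _ =>
          (i3 a b).add (i4 a b)
    rw [h2] at h1
    have h3 := mul_le_mul_of_nonneg_left h1 (hw0 p1 p2)
    refine h3.trans ?_
    have h4 : w p1 p2 * ∑ a, ∑ b, ((∫ g, |SM φf (qq hH p1 p2 g) a b| ∂(gm (Fin n) (Fin m))) +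
          ∫ g, min 1 |SM c (qq hH p1 p2 g) a b - A a b| ∂(gm (Fin n) (Fin m))) ≤
        ∑ a, ∑ b, ((∫ g, |SM φf (qq hH p1 p2 g) a b| ∂(gm (Fin n) (Fin m))) +
        w p1 p2 * ∫ g, min 1 |SM c (qq hH p1 p2 g) a b - A a b| ∂(gm (Fin n) (Fin m))) := by
      rw [Finset.mul_sum]
      refine Finset.sum_le_sum fun a _ => ?_
      rw [Finset.mul_sum]
      refine Finset.sum_le_sum fun b _ => ?_
      rw [mul_add]
      have h5 : 0 ≤ ∫ g, |SM φf (qq hH p1 p2 g) a b| ∂(gm (Fin n) (Fin m)) :=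
        integral_nonneg fun g => abs_nonneg _
      have := hw1 p1 p2
      nlinarith
    have h6 := mul_le_mul_of_nonneg_left h4 hL
    calc w p1 p2 * (ε + L * ∑ a, ∑ b, ((∫ g, |SM φf (qq hH p1 p2 g) a b| ∂(gm (Fin n) (Fin m))) +
          ∫ g, min 1 |SM c (qq hH p1 p2 g) a b - A a b| ∂(gm (Fin n) (Fin m))))
        = ε * w p1 p2 + L * (w p1 p2 * ∑ a, ∑ b, ((∫ g, |SM φf (qq hH p1 p2 g) a b|
          ∂(gm (Fin n) (Fin m))) +
          ∫ g, min 1 |SM c (qq hH p1 p2 g) a b - A a b| ∂(gm (Fin n) (Fin m)))) := by ring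
      _ ≤ _ := by linarith
  refine (eAvg2_mono hpt).trans ?_
  rw [eAvg2_add, eAvg2_mul_left, eAvg2_mul_left, eAvg2_sum]
  have h7 : ∑ a, eAvg2 G (fun p1 p2 => ∑ b, ((∫ g, |SM φf (qq hH p1 p2 g) a b|
        ∂(gm (Fin n) (Fin m))) +
        w p1 p2 * ∫ g, min 1 |SM c (qq hH p1 p2 g) a b - A a b| ∂(gm (Fin n) (Fin m)))) ≤
      (Fintype.card (Idx m) : ℝ) ^ 2 * (∑ i, |φf i| +
      ((θ + 3 * (∑ i, cK K (hl hH E i) ^ 2) / θ) +
      eAvg G (fun u v => min 1 (bnorm (Blk (Res H (zz E K n)) u v -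
        Blk (Res H (ze E η)) u v))) + r0 * eAvg2 G w)) := by
    have h8 : ∀ a b : Idx m, eAvg2 G (fun p1 p2 => (∫ g, |SM φf (qq hH p1 p2 g) a b|
        ∂(gm (Fin n) (Fin m))) +
        w p1 p2 * ∫ g, min 1 |SM c (qq hH p1 p2 g) a b - A a b| ∂(gm (Fin n) (Fin m))) ≤
        ∑ i, |φf i| + ((θ + 3 * (∑ i, cK K (hl hH E i) ^ 2) / θ) +
      eAvg G (fun u v => min 1 (bnorm (Blk (Res H (zz E K n)) u v -
        Blk (Res H (ze E η)) u v))) + r0 * eAvg2 G w) := by
      intro a b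
      rw [eAvg2_add]
      exact add_le_add (far_bound hH hG hn hd φf a b)
        (part_bound hH hG hn hd hK hθ w hw0 hw1 hw hr0 a b)
    calc _ = ∑ a, ∑ b, eAvg2 G (fun p1 p2 => (∫ g, |SM φf (qq hH p1 p2 g) a b|
        ∂(gm (Fin n) (Fin m))) +
        w p1 p2 * ∫ g, min 1 |SM c (qq hH p1 p2 g) a b - A a b| ∂(gm (Fin n) (Fin m))) := by
          refine Finset.sum_congr rfl fun a _ => ?_
          rw [eAvg2_sum]
      _ ≤ ∑ a : Idx m, ∑ b : Idx m, _ := Finset.sum_le_sum fun a _ =>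
          Finset.sum_le_sum fun b _ => h8 a b
      _ = _ := by
          simp only [Finset.sum_const, Finset.card_univ, nsmul_eq_mul]
          ring
  have h9 := mul_le_mul_of_nonneg_left h7 hL
  linarith

end port

section test

variable {J ι : Type*} [Fintype J] [Fintype ι] [DecidableEq ι]

lemma continuous_SM' (φ : J → ℝ) : Continuous fun g : J → ι → ℝ => SM φ g :=
  continuous_matrix fun a b => by
    simp only [SM_apply]
    exact continuous_finsetSum _ fun i _ => by fun_prop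

lemma int_SM_abs (φ : J → ℝ) (a b : ι) :
    Integrable (fun g : J → ι → ℝ => |SM φ g a b|) (gm J ι) ∧
      ∫ g, |SM φ g a b| ∂(gm J ι) ≤ ∑ i, |φ i| := by
  have hI : Integrable (fun g : J → ι → ℝ => ∑ i, |φ i| *
      ((g i a ^ 2 + g i b ^ 2) / 2)) (gm J ι) :=
    integrable_finsetSum _ fun i _ =>
      (((gm_coord_sq_int i a).add (gm_coord_sq_int i b)).div_const 2).const_mul |φ i|
  have h2 : ∀ g : J → ι → ℝ, |SM φ g a b| ≤ ∑ i, |φ i| * ((g i a ^ 2 + g i b ^ 2) / 2) := by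
    intro g
    rw [SM_apply]
    refine (Finset.abs_sum_le_sum_abs _ _).trans (Finset.sum_le_sum fun i _ => ?_)
    rw [mul_assoc, abs_mul]
    gcongr
    rw [abs_mul]
    nlinarith [sq_nonneg (|g i a| - |g i b|), sq_abs (g i a), sq_abs (g i b)]
  have hc : Continuous fun g : J → ι → ℝ => SM φ g a b := by
    simp only [SM_apply]
    exact continuous_finsetSum _ fun i _ => by fun_prop
  have h3 : Integrable (fun g : J → ι → ℝ => |SM φ g a b|) (gm J ι) :=
    hI.mono' hc.abs.aestronglyMeasurable (Filter.Eventually.of_forall fun g => by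
        rw [Real.norm_eq_abs, abs_abs]; exact h2 g)
  refine ⟨h3, (integral_mono h3 hI h2).trans (le_of_eq ?_)⟩
  rw [integral_finsetSum]
  · refine Finset.sum_congr rfl fun i _ => ?_
    rw [integral_const_mul, integral_div, integral_add (gm_coord_sq_int i a)
      (gm_coord_sq_int i b), gm_coord_sq, gm_coord_sq]
    norm_num
  · intro i _
    exact (((gm_coord_sq_int i a).add (gm_coord_sq_int i b)).div_const 2).const_mul |φ i|

lemma test_part (c : J → ℝ) {θ : ℝ} (hθ : 0 < θ) (a b : ι) :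
    Integrable (fun g : J → ι → ℝ =>
      min 1 |SM c g a b - ((∑ i, c i) • (1 : Matrix ι ι ℝ)) a b|) (gm J ι) ∧
    ∫ g, min 1 |SM c g a b - ((∑ i, c i) • (1 : Matrix ι ι ℝ)) a b| ∂(gm J ι) ≤
      θ + 3 * (∑ i, c i ^ 2) / θ := by
  have e1 : ∀ g : J → ι → ℝ, SM c g a b - ((∑ i, c i) • (1 : Matrix ι ι ℝ)) a b =
      ∑ i, c i * (g i a * g i b - if a = b then (1 : ℝ) else 0) := by
    intro g
    rw [SM_apply, Matrix.smul_apply, Matrix.one_apply, smul_eq_mul, Finset.sum_mul,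
      ← Finset.sum_sub_distrib]
    exact Finset.sum_congr rfl fun i _ => by ring
  simp only [e1]
  have hc : Continuous fun g : J → ι → ℝ =>
      ∑ i, c i * (g i a * g i b - if a = b then (1 : ℝ) else 0) :=
    continuous_finsetSum _ fun i _ => by fun_prop
  have hF2 := gm_quad_int (J := J) c a b
  have h1 : Integrable (fun g : J → ι → ℝ => θ + (∑ i, c i * (g i a * g i b -
      if a = b then (1 : ℝ) else 0)) ^ 2 / θ) (gm J ι) :=
    (integrable_const θ).add (hF2.div_const θ)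
  have h2 : Integrable (fun g : J → ι → ℝ => min 1 |∑ i, c i * (g i a * g i b -
      if a = b then (1 : ℝ) else 0)|) (gm J ι) := by
    refine Integrable.of_bound (C := 1) (continuous_const.min hc.abs).aestronglyMeasurable
      (Filter.Eventually.of_forall fun g => ?_)
    rw [Real.norm_eq_abs, abs_of_nonneg (le_min zero_le_one (abs_nonneg _))]
    exact min_le_left _ _
  refine ⟨h2, (integral_mono h2 h1 fun g => min_one_abs_le hθ).trans ?_⟩
  rw [integral_add (integrable_const θ) (hF2.div_const θ), integral_div]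
  simp only [integral_const, probReal_univ, smul_eq_mul, one_mul]
  have := gm_quad_le (J := J) c a b
  gcongr

/-- **near truncation, test side** -/
theorem test_trunc {f : Matrix ι ι ℂ → ℝ} (hf : Continuous f) (S : Matrix ι ι ℝ)
    {ε L θ : ℝ} (hθ : 0 < θ) (hL : 0 ≤ L) (hfL : ∀ M M' : Matrix ι ι ℝ, Mᵀ = M → M'ᵀ = M' →
      |f (CayG (S * M * Sᵀ)) - f (CayG (S * M' * Sᵀ))| ≤
        ε + L * ∑ a, ∑ b, min 1 |M a b - M' a b|)
    (ψ φn φf c : J → ℝ) (hψ : ∀ i, ψ i = φn i + φf i + c i) :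
    |∫ g, f (CayG (S * (SM ψ g - (∑ i, c i) • (1 : Matrix ι ι ℝ)) * Sᵀ)) ∂(gm J ι) -
      ∫ g, f (CayG (S * SM φn g * Sᵀ)) ∂(gm J ι)| ≤
    ε + L * ((Fintype.card ι : ℝ) ^ 2 * (∑ i, |φf i| + (θ + 3 * (∑ i, c i ^ 2) / θ))) := by
  have hMs : ∀ g : J → ι → ℝ, (SM ψ g - (∑ i, c i) • (1 : Matrix ι ι ℝ))ᵀ =
      SM ψ g - (∑ i, c i) • (1 : Matrix ι ι ℝ) := fun g => by
    rw [Matrix.transpose_sub, SM_symm, Matrix.transpose_smul, Matrix.transpose_one]
  have hdec : ∀ (g : J → ι → ℝ) a b,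
      (SM ψ g - (∑ i, c i) • (1 : Matrix ι ι ℝ)) a b - SM φn g a b =
      SM φf g a b + (SM c g a b - ((∑ i, c i) • (1 : Matrix ι ι ℝ)) a b) := by
    intro g a b
    have : ψ = fun i => (φn i + φf i) + c i := by ext i; rw [hψ]
    rw [this, SM_add, SM_add]
    simp only [Matrix.sub_apply, Matrix.add_apply]
    ring
  have i1 : Integrable (fun g : J → ι → ℝ => f (CayG (S * (SM ψ g -
      (∑ i, c i) • (1 : Matrix ι ι ℝ)) * Sᵀ))) (gm J ι) :=
    int_f_cay hf (cont_conj ((continuous_SM' ψ).sub continuous_const) S)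
      fun g => conj_symm (hMs g) S
  have i2 : Integrable (fun g : J → ι → ℝ => f (CayG (S * SM φn g * Sᵀ))) (gm J ι) :=
    int_f_cay hf (cont_conj (continuous_SM' φn) S) fun g => conj_symm (SM_symm _ _) S
  have i34 : Integrable (fun g : J → ι → ℝ => ∑ a, ∑ b, (|SM φf g a b| +
      min 1 |SM c g a b - ((∑ i, c i) • (1 : Matrix ι ι ℝ)) a b|)) (gm J ι) :=
    integrable_finsetSum _ fun a _ => integrable_finsetSum _ fun b _ =>
      (int_SM_abs φf a b).1.add (test_part c hθ a b).1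
  rw [← integral_sub i1 i2]
  have h1 : |∫ g, (f (CayG (S * (SM ψ g - (∑ i, c i) • (1 : Matrix ι ι ℝ)) * Sᵀ)) -
      f (CayG (S * SM φn g * Sᵀ))) ∂(gm J ι)| ≤
      ∫ g, (ε + L * ∑ a, ∑ b, (|SM φf g a b| +
        min 1 |SM c g a b - ((∑ i, c i) • (1 : Matrix ι ι ℝ)) a b|)) ∂(gm J ι) := by
    rw [← Real.norm_eq_abs]
    refine norm_integral_le_of_norm_le ((integrable_const ε).add (i34.const_mul L))
      (Filter.Eventually.of_forall fun g => ?_)
    rw [Real.norm_eq_abs]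
    refine (hfL _ _ (hMs g) (SM_symm _ _)).trans ?_
    gcongr with a _ b _
    rw [hdec]
    exact min_one_add_le _ _
  refine h1.trans ?_
  rw [integral_add (integrable_const ε) (i34.const_mul L), integral_const_mul]
  simp only [integral_const, probReal_univ, smul_eq_mul, one_mul]
  have h2 : ∫ g, ∑ a, ∑ b, (|SM φf g a b| +
        min 1 |SM c g a b - ((∑ i, c i) • (1 : Matrix ι ι ℝ)) a b|) ∂(gm J ι) ≤
      (Fintype.card ι : ℝ) ^ 2 * (∑ i, |φf i| + (θ + 3 * (∑ i, c i ^ 2) / θ)) := by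
    have i5 : ∀ a b : ι, Integrable (fun g : J → ι → ℝ => |SM φf g a b| +
        min 1 |SM c g a b - ((∑ i, c i) • (1 : Matrix ι ι ℝ)) a b|) (gm J ι) := fun a b =>
      (int_SM_abs φf a b).1.add (test_part c hθ a b).1
    have i6 : ∀ a : ι, Integrable (fun g : J → ι → ℝ => ∑ b, (|SM φf g a b| +
        min 1 |SM c g a b - ((∑ i, c i) • (1 : Matrix ι ι ℝ)) a b|)) (gm J ι) := fun a =>
      integrable_finsetSum _ fun b _ => i5 a b
    rw [integral_finsetSum _ fun a _ => i6 a]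
    have h3 : ∀ a b : ι, ∫ g, (|SM φf g a b| +
        min 1 |SM c g a b - ((∑ i, c i) • (1 : Matrix ι ι ℝ)) a b|) ∂(gm J ι) ≤
        ∑ i, |φf i| + (θ + 3 * (∑ i, c i ^ 2) / θ) := by
      intro a b
      rw [integral_add (int_SM_abs φf a b).1 (test_part c hθ a b).1]
      exact add_le_add (int_SM_abs φf a b).2 (test_part c hθ a b).2
    calc _ = ∑ a, ∑ b, ∫ g, (|SM φf g a b| +
        min 1 |SM c g a b - ((∑ i, c i) • (1 : Matrix ι ι ℝ)) a b|) ∂(gm J ι) := by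
          refine Finset.sum_congr rfl fun a _ => ?_
          rw [integral_finsetSum _ fun b _ => i5 a b]
      _ ≤ ∑ a : ι, ∑ b : ι, _ := Finset.sum_le_sum fun a _ =>
          Finset.sum_le_sum fun b _ => h3 a b
      _ = _ := by
          simp only [Finset.sum_const, Finset.card_univ, nsmul_eq_mul]
          ring
  have h9 := mul_le_mul_of_nonneg_left h2 hL
  linarith

end test

end Crest.Agent.R166.Inv988
end

-- ▼ part R166/InvN_988
section

/-!
Row 166, section 50 (helper988): the near part; from Theorem B to the Gaussian array.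
-/

set_option autoImplicit false
set_option linter.unusedSectionVars false
set_option linter.unusedSimpArgs false

namespace Crest.Agent.R166.Inv988

open MeasureTheory ProbabilityTheory Matrix Crest.ProbabilityR.RandomMatrix Crest.Agent.R166
open Crest.Agent.R166.Gauss286
open Crest.Agent.R166.SW341 (XK gm2 sw2)
open scoped Matrix.Norms.L2Operator

section sqrt

variable {ι : Type*} [Fintype ι] [DecidableEq ι]

lemma entry_le_norm (A : Matrix ι ι ℂ) (i j : ι) : ‖A i j‖ ≤ ‖A‖ := by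
  have h : Matrix.single i i (1 : ℂ) * A * Matrix.single j j (1 : ℂ) =
      Matrix.single i j (A i j) := by
    ext a b
    simp [Matrix.mul_apply, Matrix.single_apply]
    by_cases h1 : i = a
    · by_cases h2 : j = b
      · simp [h1, h2]
      · simp [h1, h2]
    · simp [h1]
  rw [← norm_single i j (A i j), ← h]
  calc _ ≤ ‖Matrix.single i i (1 : ℂ)‖ * ‖A‖ * ‖Matrix.single j j (1 : ℂ)‖ :=
        (norm_mul_le _ _).trans (mul_le_mul_of_nonneg_right (norm_mul_le _ _) (norm_nonneg _))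
    _ = ‖A‖ := by rw [norm_single, norm_single]; simp

lemma l1_le_card (D : Matrix ι ι ℝ) {t : ℝ} (h : ‖cx D‖ ≤ t) :
    l1 D ≤ (Fintype.card ι : ℝ) ^ 2 * t := by
  unfold l1
  have h1 : ∀ a b, |D a b| ≤ t := by
    intro a b
    have := entry_le_norm (cx D) a b
    rw [cx_apply, Complex.norm_real, Real.norm_eq_abs] at this
    exact this.trans h
  calc ∑ a, ∑ b, |D a b| ≤ ∑ a : ι, ∑ b : ι, t :=
        Finset.sum_le_sum fun a _ => Finset.sum_le_sum fun b _ => h1 a b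
    _ = _ := by simp [Finset.sum_const, Finset.card_univ]; ring

lemma norm_orth_le {O : Matrix ι ι ℝ} (hO : Oᵀ * O = 1) : ‖cx O‖ ≤ 1 := by
  have h2 := Matrix.l2_opNorm_conjTranspose_mul_self (cx O)
  rw [← cx_transpose, ← cx_mul, hO, cx_one] at h2
  have h3 := norm_one_le' (ι := ι)
  nlinarith [norm_nonneg (cx O)]

theorem exists_sqrt_near {Q : Matrix ι ι ℝ} (hQ : Q.PosSemidef) :
    ∃ W : Matrix ι ι ℝ, W * Wᵀ = Q ∧ l1 (W - 1) ≤ (Fintype.card ι : ℝ) ^ 2 * l1 (Q - 1) := by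
  obtain ⟨O, h1, h2, h3⟩ := Gauss286.exists_diag hQ.isHermitian
  set q := hQ.isHermitian.eigenvalues with hq
  have hq0 : ∀ i, 0 ≤ q i := hQ.eigenvalues_nonneg
  set D : Matrix ι ι ℝ := Matrix.diagonal fun i => Real.sqrt (q i) with hD
  refine ⟨Oᵀ * D * O, ?_, ?_⟩
  · have h4 : D * D = Matrix.diagonal q := by
      rw [hD, Matrix.diagonal_mul_diagonal]
      congr 1; ext i; exact Real.mul_self_sqrt (hq0 i)
    have h5 : (Oᵀ * D * O)ᵀ = Oᵀ * D * O := by
      simp only [Matrix.transpose_mul, Matrix.transpose_transpose, hD, Matrix.diagonal_transpose,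
        Matrix.mul_assoc]
    rw [h5]
    calc Oᵀ * D * O * (Oᵀ * D * O) = Oᵀ * D * (O * Oᵀ) * D * O := by
          simp only [Matrix.mul_assoc]
      _ = Oᵀ * (D * D) * O := by rw [h1, Matrix.mul_one]; simp only [Matrix.mul_assoc]
      _ = Q := by rw [h4]; exact h3.symm
  · apply l1_le_card
    have h6 : Oᵀ * D * O - 1 = Oᵀ * (D - 1) * O := by
      rw [Matrix.mul_sub, Matrix.sub_mul, Matrix.mul_one, h2]
    have h7 : (Matrix.diagonal q - 1 : Matrix ι ι ℝ) = O * (Q - 1) * Oᵀ := by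
      have : O * (Q - 1) * Oᵀ = (O * Oᵀ) * Matrix.diagonal q * (O * Oᵀ) - O * Oᵀ := by
        conv_lhs => rw [h3]
        rw [Matrix.mul_sub, Matrix.sub_mul, Matrix.mul_one]
        simp only [Matrix.mul_assoc]
      rw [this, h1, Matrix.one_mul, Matrix.mul_one]
    have n1 : ‖cx (Oᵀ * (D - 1) * O)‖ ≤ ‖cx (D - 1)‖ := by
      rw [cx_mul, cx_mul]
      have hO1 : ‖cx O‖ ≤ 1 := norm_orth_le h2
      have hO2 : ‖cx Oᵀ‖ ≤ 1 := norm_orth_le (by rw [Matrix.transpose_transpose]; exact h1)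
      calc _ ≤ ‖cx Oᵀ‖ * ‖cx (D - 1)‖ * ‖cx O‖ :=
            (norm_mul_le _ _).trans (mul_le_mul_of_nonneg_right (norm_mul_le _ _) (norm_nonneg _))
        _ ≤ 1 * ‖cx (D - 1)‖ * 1 := by gcongr
        _ = _ := by ring
    have n2 : ‖cx (Matrix.diagonal q - 1)‖ ≤ ‖cx (Q - 1)‖ := by
      rw [h7, cx_mul, cx_mul]
      have hO1 : ‖cx O‖ ≤ 1 := norm_orth_le h2
      have hO2 : ‖cx Oᵀ‖ ≤ 1 := norm_orth_le (by rw [Matrix.transpose_transpose]; exact h1)
      calc _ ≤ ‖cx O‖ * ‖cx (Q - 1)‖ * ‖cx Oᵀ‖ :=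
            (norm_mul_le _ _).trans (mul_le_mul_of_nonneg_right (norm_mul_le _ _) (norm_nonneg _))
        _ ≤ 1 * ‖cx (Q - 1)‖ * 1 := by gcongr
        _ = _ := by ring
    have n3 : ‖cx (D - 1)‖ ≤ ‖cx (Matrix.diagonal q - 1)‖ := by
      have e1 : cx (D - 1) = Matrix.diagonal fun i => ((Real.sqrt (q i) - 1 : ℝ) : ℂ) := by
        ext i j
        by_cases hij : i = j
        · subst hij; simp [hD]
        · simp [hD, hij]
      have e2 : cx (Matrix.diagonal q - 1) = Matrix.diagonal fun i => ((q i - 1 : ℝ) : ℂ) := by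
        ext i j
        by_cases hij : i = j
        · subst hij; simp
        · simp [hij]
      rw [e1, e2, Matrix.l2_opNorm_diagonal, Matrix.l2_opNorm_diagonal]
      refine (pi_norm_le_iff_of_nonneg (norm_nonneg _)).2 fun i => ?_
      refine le_trans ?_ (norm_le_pi_norm _ i)
      rw [Complex.norm_real, Complex.norm_real, Real.norm_eq_abs, Real.norm_eq_abs]
      have h8 : q i - 1 = (Real.sqrt (q i) - 1) * (Real.sqrt (q i) + 1) := by
        have := Real.mul_self_sqrt (hq0 i)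
        nlinarith
      rw [h8, abs_mul]
      have h9 : 1 ≤ |Real.sqrt (q i) + 1| := by
        rw [abs_of_nonneg (by positivity)]
        linarith [Real.sqrt_nonneg (q i)]
      nlinarith [abs_nonneg (Real.sqrt (q i) - 1)]
    rw [h6]
    exact n1.trans (n3.trans (n2.trans (norm_cx_le _)))

end sqrt

/-! ### block-diagonal frames -/

section frame

variable {m : ℕ}

/-- block diagonal matrix -/
def bd (A B : Matrix (Fin 2) (Fin 2) ℝ) (t : ℝ) : Matrix (Idx m) (Idx m) ℝ :=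
  Matrix.fromBlocks (Matrix.fromBlocks A 0 0 B) 0 0 (t • (1 : Matrix (Fin m) (Fin m) ℝ))

lemma bd_mul (A B A' B' : Matrix (Fin 2) (Fin 2) ℝ) (t t' : ℝ) :
    bd (m := m) A B t * bd A' B' t' = bd (A * A') (B * B') (t * t') := by
  unfold bd
  rw [Matrix.fromBlocks_multiply, Matrix.fromBlocks_multiply]
  simp [smul_smul, mul_comm t t']

lemma bd_one : bd (m := m) 1 1 1 = 1 := by
  unfold bd
  rw [Matrix.fromBlocks_one, one_smul, Matrix.fromBlocks_one]


lemma Tref_inv {Ta Tb : Matrix (Fin 2) (Fin 2) ℝ} (ha : IsUnit Ta.det) (hb : IsUnit Tb.det)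
    {ρ : ℝ} (hρ : 0 < ρ) :
    (Tref (m := m) Ta Tb ρ)⁻¹ = bd Ta⁻¹ Tb⁻¹ (Real.sqrt (Real.pi * ρ))⁻¹ := by
  apply Matrix.inv_eq_right_inv
  have h : Real.sqrt (Real.pi * ρ) ≠ 0 := (Real.sqrt_pos.2 (by positivity)).ne'
  change bd Ta Tb (Real.sqrt (Real.pi * ρ)) * _ = 1
  rw [bd_mul, Matrix.mul_nonsing_inv _ ha, Matrix.mul_nonsing_inv _ hb, mul_inv_cancel₀ h, bd_one]

lemma bd_mulVec (A B : Matrix (Fin 2) (Fin 2) ℝ) (t : ℝ) (x y : Fin 2 → ℝ) (z : Fin m → ℝ) :
    bd A B t *ᵥ (Sum.elim (Sum.elim x y) z) = Sum.elim (Sum.elim (A *ᵥ x) (B *ᵥ y)) (t • z) := by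
  unfold bd
  rw [Matrix.fromBlocks_mulVec]
  congr 1
  · have e1 : (Sum.elim (Sum.elim x y) z : Idx m → ℝ) ∘ Sum.inl = Sum.elim x y := rfl
    rw [e1, Matrix.fromBlocks_mulVec]
    simp
  · simp [Matrix.smul_mulVec]

lemma l1_bd_sub_one (A B : Matrix (Fin 2) (Fin 2) ℝ) :
    l1 (bd (m := m) A B 1 - 1) = l1 (A - 1) + l1 (B - 1) := by
  unfold l1
  have h : bd (m := m) A B 1 - 1 = bd (m := m) (A - 1) (B - 1) 0 := by
    rw [← bd_one (m := m)]
    unfold bd
    ext i j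
    rcases i with (i | i) | i <;> rcases j with (j | j) | j <;> simp [Matrix.one_apply]
  rw [h]
  simp only [Fintype.sum_sum_type]
  simp [bd]

end frame

/-! ### law of linear images -/

theorem integral_mulVec_eq {k : ℕ} {A A' : Matrix (Fin 2) (Fin 2) ℝ} (h : A * Aᵀ = A' * A'ᵀ)
    {F : XK k → ℝ} (hF : Continuous F) :
    ∫ g, F (fun i => A *ᵥ g i) ∂(gm (Fin k) (Fin 2)) =
      ∫ g, F (fun i => A' *ᵥ g i) ∂(gm (Fin k) (Fin 2)) := by
  have h1 : ∀ B : Matrix (Fin 2) (Fin 2) ℝ, (gm (Fin k) (Fin 2)).map (fun g i => B *ᵥ g i) =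
      Measure.pi fun _ => (gv (Fin 2)).map fun x => B *ᵥ x := by
    intro B
    have : ∀ _ : Fin k, SigmaFinite ((gv (Fin 2)).map fun x => B *ᵥ x) := fun _ => by
      have : IsProbabilityMeasure ((gv (Fin 2)).map fun x => B *ᵥ x) :=
        Measure.isProbabilityMeasure_map (measurable_mulVec B).aemeasurable
      infer_instance
    exact Measure.pi_map_pi fun _ => (measurable_mulVec B).aemeasurable
  have h2 := gv_map_eq_of A A' h
  have hm : ∀ B : Matrix (Fin 2) (Fin 2) ℝ, Measurable fun (g : XK k) i => B *ᵥ g i := fun B =>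
    measurable_pi_lambda _ fun i => (measurable_mulVec B).comp (measurable_pi_apply i)
  have h3 : (gm (Fin k) (Fin 2)).map (fun g i => A *ᵥ g i) =
      (gm (Fin k) (Fin 2)).map (fun g i => A' *ᵥ g i) := by
    rw [h1, h1, h2]
  calc ∫ g, F (fun i => A *ᵥ g i) ∂(gm (Fin k) (Fin 2))
      = ∫ y, F y ∂((gm (Fin k) (Fin 2)).map (fun g i => A *ᵥ g i)) :=
        (integral_map (hm A).aemeasurable hF.aestronglyMeasurable).symm
    _ = ∫ y, F y ∂((gm (Fin k) (Fin 2)).map (fun g i => A' *ᵥ g i)) := by rw [h3]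
    _ = _ := integral_map (hm A').aemeasurable hF.aestronglyMeasurable

end Crest.Agent.R166.Inv988
end

-- ▼ part R166/InvM_988
section

/-!
Row 166, section 50 (helper988): the near part; from Theorem B to the Gaussian array, part 2.
-/

set_option autoImplicit false
set_option linter.unusedSectionVars false
set_option linter.unusedSimpArgs false

namespace Crest.Agent.R166.Inv988

open MeasureTheory ProbabilityTheory Matrix Crest.ProbabilityR.RandomMatrix Crest.Agent.R166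
open Crest.Agent.R166.Gauss286
open Crest.Agent.R166.SW341 (XK gm2 sw2)
open scoped Matrix.Norms.L2Operator

variable {m k : ℕ}

/-- port marks and tests put together -/
def mk3 (q1 q2 : XK k) (g : Fin k → Fin m → ℝ) (i : Fin k) : Idx m → ℝ :=
  Sum.elim (Sum.elim (q1 i) (q2 i)) (g i)

/-- the near functional with the tests integrated -/
noncomputable def Fk (f : Matrix (Idx m) (Idx m) ℂ → ℝ) (S : Matrix (Idx m) (Idx m) ℝ)
    (χ : M2 → M2 → ℝ) (Φ : ℝ) (φ : Fin k → Set.Icc (-Φ) Φ) (b : M2 × M2) (q : XK k × XK k) : ℝ :=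
  χ b.1 b.2 * ∫ g, f (CayG (S * SM (fun i => (φ i : ℝ)) (mk3 q.1 q.2 g) * Sᵀ))
    ∂(gm (Fin k) (Fin m))

lemma cont_mk3 {X : Type*} [TopologicalSpace X] {q1 q2 : X → XK k} {g : X → Fin k → Fin m → ℝ}
    (h1 : Continuous q1) (h2 : Continuous q2) (h3 : Continuous g) (i : Fin k) (a : Idx m) :
    Continuous fun x => mk3 (q1 x) (q2 x) (g x) i a := by
  unfold mk3
  rcases a with (a | a) | l
  · exact (continuous_apply a).comp ((continuous_apply i).comp h1)
  · exact (continuous_apply a).comp ((continuous_apply i).comp h2)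
  · exact (continuous_apply l).comp ((continuous_apply i).comp h3)

lemma cont_SM3 {X : Type*} [TopologicalSpace X] {φ : X → Fin k → ℝ} {v : X → Fin k → Idx m → ℝ}
    (h1 : Continuous φ) (h2 : ∀ i a, Continuous fun x => v x i a) :
    Continuous fun x => SM (φ x) (v x) :=
  continuous_matrix fun a b => by
    simp only [SM_apply]
    exact continuous_finsetSum _ fun i _ =>
      (((continuous_apply i).comp h1).mul (h2 i a)).mul (h2 i b)

lemma Fk_bound {f : Matrix (Idx m) (Idx m) ℂ → ℝ} {B : ℝ}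
    (hB : ∀ C : Matrix (Idx m) (Idx m) ℝ, Cᵀ = C → |f (CayG C)| ≤ B)
    (S : Matrix (Idx m) (Idx m) ℝ) (φ : Fin k → ℝ) (q : XK k × XK k) :
    |∫ g, f (CayG (S * SM φ (mk3 q.1 q.2 g) * Sᵀ)) ∂(gm (Fin k) (Fin m))| ≤ B := by
  rw [← Real.norm_eq_abs]
  refine (norm_integral_le_of_norm_le (integrable_const B)
    (Filter.Eventually.of_forall fun g => ?_)).trans (by simp)
  exact hB _ (conj_symm (SM_symm _ _) S)

lemma Fk_inner_cont {f : Matrix (Idx m) (Idx m) ℂ → ℝ} (hf : Continuous f)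
    (S : Matrix (Idx m) (Idx m) ℝ) :
    Continuous fun y : (Fin k → ℝ) × (XK k × XK k) =>
      ∫ g, f (CayG (S * SM y.1 (mk3 y.2.1 y.2.2 g) * Sᵀ)) ∂(gm (Fin k) (Fin m)) := by
  obtain ⟨B, hB0, hB⟩ := exists_bound hf
  refine continuous_of_dominated (bound := fun _ => B) ?_ ?_ (integrable_const B) ?_
  · intro y
    refine (cont_f_cay hf (cont_conj (cont_SM3 continuous_const fun i a =>
      cont_mk3 continuous_const continuous_const continuous_id i a) S)
      fun g => conj_symm (SM_symm _ _) S).aestronglyMeasurable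
  · intro y
    exact Filter.Eventually.of_forall fun g => hB _ (conj_symm (SM_symm _ _) S)
  · refine Filter.Eventually.of_forall fun g => ?_
    exact cont_f_cay hf (cont_conj (cont_SM3 continuous_fst fun i a =>
      cont_mk3 (continuous_fst.comp continuous_snd) (continuous_snd.comp continuous_snd)
        continuous_const i a) S) fun g => conj_symm (SM_symm _ _) S

lemma Fk_cont {f : Matrix (Idx m) (Idx m) ℂ → ℝ} (hf : Continuous f)
    (S : Matrix (Idx m) (Idx m) ℝ) {χ : M2 → M2 → ℝ}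
    (hχ : Continuous fun b : M2 × M2 => χ b.1 b.2) (Φ : ℝ) :
    Continuous fun y : (Fin k → Set.Icc (-Φ) Φ) × (M2 × M2) × (XK k × XK k) =>
      Fk f S χ Φ y.1 y.2.1 y.2.2 := by
  have h1 : Continuous fun y : (Fin k → Set.Icc (-Φ) Φ) × (M2 × M2) × (XK k × XK k) =>
      ((fun i => (y.1 i : ℝ)), y.2.2) := by
    refine Continuous.prodMk (continuous_pi fun i => ?_) (continuous_snd.comp continuous_snd)
    exact continuous_subtype_val.comp ((continuous_apply i).comp continuous_fst)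
  have h2 := (Fk_inner_cont (k := k) hf S).comp h1
  have h3 := (hχ.comp (continuous_fst.comp (continuous_snd (X := (Fin k → Set.Icc (-Φ) Φ))
    (Y := (M2 × M2) × (XK k × XK k)))))
  exact h3.mul h2

/-- integrating the port marks in the Gaussian reference -/
theorem gauss_eq {f : Matrix (Idx m) (Idx m) ℂ → ℝ} (hf : Continuous f)
    (S : Matrix (Idx m) (Idx m) ℝ) (φ : Fin k → ℝ) :
    ∫ p, (∫ g, f (CayG (S * SM φ (mk3 p.1 p.2 g) * Sᵀ)) ∂(gm (Fin k) (Fin m))) ∂(gm2 k) =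
      ∫ g, f (CayG (S * SM φ g * Sᵀ)) ∂(gm (Fin k) (Idx m)) := by
  have h1 := gm_sum (J := Fin k) (κ := Fin 2) (κ' := Fin 2)
  have h2 := gm_sum (J := Fin k) (κ := Fin 2 ⊕ Fin 2) (κ' := Fin m)
  have hc2 : Continuous fun g : Fin k → Idx m → ℝ => f (CayG (S * SM φ g * Sᵀ)) :=
    cont_f_cay hf (cont_conj (continuous_SM' φ) S) fun g => conj_symm (SM_symm _ _) S
  have m2 : Measurable fun (p : (Fin k → (Fin 2 ⊕ Fin 2) → ℝ) × (Fin k → Fin m → ℝ)) (i : Fin k) =>
      Sum.elim (p.1 i) (p.2 i) := by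
    refine measurable_pi_lambda _ fun i => measurable_pi_lambda _ fun a => ?_
    rcases a with a | a
    · exact (measurable_pi_apply a).comp ((measurable_pi_apply i).comp measurable_fst)
    · exact (measurable_pi_apply a).comp ((measurable_pi_apply i).comp measurable_snd)
  have m1 : Measurable fun (p : (Fin k → Fin 2 → ℝ) × (Fin k → Fin 2 → ℝ)) (i : Fin k) =>
      Sum.elim (p.1 i) (p.2 i) := by
    refine measurable_pi_lambda _ fun i => measurable_pi_lambda _ fun a => ?_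
    rcases a with a | a
    · exact (measurable_pi_apply a).comp ((measurable_pi_apply i).comp measurable_fst)
    · exact (measurable_pi_apply a).comp ((measurable_pi_apply i).comp measurable_snd)
  have hI : Integrable (fun p : (Fin k → (Fin 2 ⊕ Fin 2) → ℝ) × (Fin k → Fin m → ℝ) =>
      f (CayG (S * SM φ (fun i => Sum.elim (p.1 i) (p.2 i)) * Sᵀ)))
      ((gm (Fin k) (Fin 2 ⊕ Fin 2)).prod (gm (Fin k) (Fin m))) := by
    obtain ⟨B, hB0, hB⟩ := exists_bound hf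
    refine Integrable.of_bound (C := B) ?_ (Filter.Eventually.of_forall fun p =>
      hB _ (conj_symm (SM_symm _ _) S))
    have := hc2.measurable.comp m2
    exact this.aestronglyMeasurable
  rw [← h2, integral_map m2.aemeasurable hc2.aestronglyMeasurable, integral_prod _ hI, ← h1]
  rw [integral_map m1.aemeasurable]
  · rfl
  · rw [h1]
    exact hI.aestronglyMeasurable.integral_prod_right'

end Crest.Agent.R166.Inv988
end

-- ▼ part R166/InvL_988
section

/-!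
Row 166, section 50 (helper988): the near part; comparison with the Gaussian reference.
-/

set_option autoImplicit false
set_option linter.unusedSectionVars false
set_option linter.unusedSimpArgs false

namespace Crest.Agent.R166.Inv988

open MeasureTheory ProbabilityTheory Matrix Crest.ProbabilityR.RandomMatrix Crest.Agent.R166
open Crest.Agent.R166.Gauss286
open Crest.Agent.R166.SW341 (XK gm2 sw2)
open scoped Matrix.Norms.L2Operator

variable {m k : ℕ}

/-- change of both port factors -/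
theorem gm2_change {A1 A1' A2 A2' : Matrix (Fin 2) (Fin 2) ℝ} (h1 : A1 * A1ᵀ = A1' * A1'ᵀ)
    (h2 : A2 * A2ᵀ = A2' * A2'ᵀ) {F : XK k × XK k → ℝ} (hF : Continuous F) {B : ℝ}
    (hB : ∀ y, |F y| ≤ B) :
    ∫ p, F (fun i => A1 *ᵥ p.1 i, fun i => A2 *ᵥ p.2 i) ∂(gm2 k) =
      ∫ p, F (fun i => A1' *ᵥ p.1 i, fun i => A2' *ᵥ p.2 i) ∂(gm2 k) := by
  have hcm : ∀ A : Matrix (Fin 2) (Fin 2) ℝ, Continuous fun (g : XK k) i => A *ᵥ g i := fun A =>
    continuous_pi fun i => Continuous.matrix_mulVec continuous_const (continuous_apply i)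
  have hI : ∀ A A' : Matrix (Fin 2) (Fin 2) ℝ, Integrable (fun p : XK k × XK k =>
      F (fun i => A *ᵥ p.1 i, fun i => A' *ᵥ p.2 i)) (gm2 k) := by
    intro A A'
    refine Integrable.of_bound (C := B) ?_ (Filter.Eventually.of_forall fun p => hB _)
    exact (hF.comp (((hcm A).comp continuous_fst).prodMk
      ((hcm A').comp continuous_snd))).aestronglyMeasurable
  rw [integral_prod _ (hI A1 A2), integral_prod _ (hI A1' A2')]
  have e1 : ∀ q : XK k, ∫ g, F (q, fun i => A2 *ᵥ g i) ∂(gm (Fin k) (Fin 2)) =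
      ∫ g, F (q, fun i => A2' *ᵥ g i) ∂(gm (Fin k) (Fin 2)) := fun q =>
    integral_mulVec_eq h2 (F := fun g => F (q, g)) (hF.comp (continuous_const.prodMk continuous_id))
  simp only [e1]
  refine integral_mulVec_eq h1 (F := fun q => ∫ g, F (q, fun i => A2' *ᵥ g i)
    ∂(gm (Fin k) (Fin 2))) ?_
  refine continuous_of_dominated (bound := fun _ => B) ?_ ?_ (integrable_const B) ?_
  · intro q
    exact (hF.comp (continuous_const.prodMk (hcm A2'))).aestronglyMeasurable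
  · intro q
    exact Filter.Eventually.of_forall fun g => hB _
  · exact Filter.Eventually.of_forall fun g => hF.comp (continuous_id.prodMk continuous_const)

lemma l1_im_sub_le (b Z : M2) : l1 (imPart b - imPart Z) ≤ 4 * bnorm (b - Z) := by
  unfold l1
  have h : ∀ i j, |(imPart b - imPart Z) i j| ≤ bnorm (b - Z) := by
    intro i j
    have e : (imPart b - imPart Z) i j = ((b - Z) i j).im := by simp [imPart]
    rw [e]
    exact (Complex.abs_im_le_norm _).trans (norm_le_bnorm _ i j)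
  calc ∑ a, ∑ c, |(imPart b - imPart Z) a c| ≤ ∑ _a : Fin 2, ∑ _c : Fin 2, bnorm (b - Z) :=
        Finset.sum_le_sum fun a _ => Finset.sum_le_sum fun c _ => h a c
    _ = _ := by simp; ring

/-- choice of the factor near the reference -/
theorem exists_factor {Z b : M2} {T A : Matrix (Fin 2) (Fin 2) ℝ} {ρ : ℝ} (hρ : 0 < ρ)
    (hT : T * Tᵀ = imPart Z) (hTu : IsUnit T.det)
    (hA : A * Aᵀ = Matrix.of fun a c => (b a c).im / (Real.pi * ρ)) :
    ∃ W : Matrix (Fin 2) (Fin 2) ℝ,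
      A * Aᵀ = ((Real.sqrt (Real.pi * ρ))⁻¹ • (T * W)) *
        ((Real.sqrt (Real.pi * ρ))⁻¹ • (T * W))ᵀ ∧
      l1 (W - 1) ≤ 16 * l1 T⁻¹ ^ 2 * bnorm (b - Z) := by
  have hπ : 0 < Real.pi * ρ := by positivity
  set s := (Real.sqrt (Real.pi * ρ))⁻¹ with hs
  have hss : s * s * (Real.pi * ρ) = 1 := by
    rw [hs, ← mul_inv, Real.mul_self_sqrt hπ.le, inv_mul_cancel₀ hπ.ne']
  have hb : imPart b = (Real.pi * ρ) • (A * Aᵀ) := by
    rw [hA]
    ext i j
    simp only [imPart, Matrix.map_apply, Matrix.smul_apply, Matrix.of_apply, smul_eq_mul]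
    field_simp
  set Q := T⁻¹ * imPart b * (T⁻¹)ᵀ with hQ
  have hQp : Q.PosSemidef := by
    have h1 : Q = (Real.sqrt (Real.pi * ρ) • (T⁻¹ * A)) *
        (Real.sqrt (Real.pi * ρ) • (T⁻¹ * A))ᴴ := by
      rw [hQ, hb, Matrix.conjTranspose_eq_transpose_of_trivial, Matrix.transpose_smul,
        Matrix.transpose_mul]
      simp only [Matrix.smul_mul, Matrix.mul_smul, smul_smul, Real.mul_self_sqrt hπ.le,
        Matrix.mul_assoc]
    rw [h1]
    exact Matrix.posSemidef_self_mul_conjTranspose _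
  obtain ⟨W, hW1, hW2⟩ := exists_sqrt_near hQp
  refine ⟨W, ?_, ?_⟩
  · have h2 : T * Q * Tᵀ = imPart b := by
      rw [hQ]
      have e1 : (T⁻¹)ᵀ * Tᵀ = 1 := by
        rw [← Matrix.transpose_mul, Matrix.mul_nonsing_inv _ hTu, Matrix.transpose_one]
      calc T * (T⁻¹ * imPart b * (T⁻¹)ᵀ) * Tᵀ = (T * T⁻¹) * imPart b * ((T⁻¹)ᵀ * Tᵀ) := by
            simp only [Matrix.mul_assoc]
        _ = _ := by rw [e1, Matrix.mul_nonsing_inv _ hTu, Matrix.one_mul, Matrix.mul_one]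
    rw [Matrix.transpose_smul, Matrix.smul_mul, Matrix.mul_smul, smul_smul, Matrix.transpose_mul]
    have e2 : T * W * (Wᵀ * Tᵀ) = imPart b := by
      rw [← h2, ← hW1]; simp only [Matrix.mul_assoc]
    rw [e2, hb, smul_smul, hss, one_smul]
  · have h3 : Q - 1 = T⁻¹ * (imPart b - imPart Z) * (T⁻¹)ᵀ := by
      have e1 : T⁻¹ * imPart Z * (T⁻¹)ᵀ = 1 := by
        rw [← hT]
        calc T⁻¹ * (T * Tᵀ) * (T⁻¹)ᵀ = (T⁻¹ * T) * (Tᵀ * (T⁻¹)ᵀ) := by
              simp only [Matrix.mul_assoc]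
          _ = 1 := by
              rw [Matrix.nonsing_inv_mul _ hTu, ← Matrix.transpose_mul,
                Matrix.nonsing_inv_mul _ hTu, Matrix.transpose_one, Matrix.one_mul]
      rw [Matrix.mul_sub, Matrix.sub_mul, e1, hQ]
    have h4 : l1 (Q - 1) ≤ l1 T⁻¹ ^ 2 * (4 * bnorm (b - Z)) := by
      rw [h3]
      exact (l1_conj_le _ _).trans (mul_le_mul_of_nonneg_left (l1_im_sub_le b Z) (sq_nonneg _))
    have h5 : (Fintype.card (Fin 2) : ℝ) ^ 2 = 4 := by norm_num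
    rw [h5] at hW2
    calc l1 (W - 1) ≤ 4 * l1 (Q - 1) := hW2
      _ ≤ 4 * (l1 T⁻¹ ^ 2 * (4 * bnorm (b - Z))) := by linarith
      _ = _ := by ring

/-- tests integrated -/
noncomputable def Jin (f : Matrix (Idx m) (Idx m) ℂ → ℝ) (S : Matrix (Idx m) (Idx m) ℝ)
    (φ : Fin k → ℝ) (q : XK k × XK k) : ℝ :=
  ∫ g, f (CayG (S * SM φ (mk3 q.1 q.2 g) * Sᵀ)) ∂(gm (Fin k) (Fin m))

lemma Jin_cont {f : Matrix (Idx m) (Idx m) ℂ → ℝ} (hf : Continuous f)
    (S : Matrix (Idx m) (Idx m) ℝ) (φ : Fin k → ℝ) : Continuous (Jin f S φ) := by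
  have h := (Fk_inner_cont (k := k) hf S).comp
    ((continuous_const (y := φ)).prodMk (continuous_id (X := XK k × XK k)))
  exact h

lemma Jin_bound {f : Matrix (Idx m) (Idx m) ℂ → ℝ} {B : ℝ}
    (hB : ∀ C : Matrix (Idx m) (Idx m) ℝ, Cᵀ = C → |f (CayG C)| ≤ B)
    (S : Matrix (Idx m) (Idx m) ℝ) (φ : Fin k → ℝ) (q : XK k × XK k) : |Jin f S φ q| ≤ B :=
  Fk_bound hB S φ q

lemma Jin_integrand_int {f : Matrix (Idx m) (Idx m) ℂ → ℝ} (hf : Continuous f)
    (S : Matrix (Idx m) (Idx m) ℝ) (φ : Fin k → ℝ) (q : XK k × XK k) :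
    Integrable (fun g : Fin k → Fin m → ℝ => f (CayG (S * SM φ (mk3 q.1 q.2 g) * Sᵀ)))
      (gm (Fin k) (Fin m)) :=
  int_f_cay hf (cont_conj (cont_SM3 continuous_const fun i a =>
      cont_mk3 continuous_const continuous_const continuous_id i a) S)
      fun g => conj_symm (SM_symm _ _) S

/-- pointwise identity of arrays -/
lemma frame_id {Ta Tb W1 W2 : Matrix (Fin 2) (Fin 2) ℝ} (ha : IsUnit Ta.det) (hb : IsUnit Tb.det)
    (s : ℝ) (φ : Fin k → ℝ) (p : XK k × XK k) (g : Fin k → Fin m → ℝ) :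
    bd Ta⁻¹ Tb⁻¹ s * SM φ (mk3 (fun i => (s • (Ta * W1)) *ᵥ p.1 i)
      (fun i => (s • (Tb * W2)) *ᵥ p.2 i) g) * (bd Ta⁻¹ Tb⁻¹ s)ᵀ =
    bd W1 W2 1 * ((s • (1 : Matrix (Idx m) (Idx m) ℝ)) * SM φ (mk3 p.1 p.2 g) *
      (s • (1 : Matrix (Idx m) (Idx m) ℝ))ᵀ) * (bd W1 W2 1)ᵀ := by
  rw [SM_congr_mul, SM_congr_mul, SM_congr_mul]
  congr 1
  funext i
  have e1 : (s • (1 : Matrix (Idx m) (Idx m) ℝ)) *ᵥ mk3 p.1 p.2 g i =
      Sum.elim (Sum.elim (s • p.1 i) (s • p.2 i)) (s • g i) := by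
    rw [Matrix.smul_mulVec, Matrix.one_mulVec]
    ext a
    rcases a with (a | a) | a <;> rfl
  have t1 : ∀ (T W : Matrix (Fin 2) (Fin 2) ℝ) (x : Fin 2 → ℝ), IsUnit T.det →
      T⁻¹ *ᵥ ((s • (T * W)) *ᵥ x) = W *ᵥ (s • x) := by
    intro T W x hT
    rw [Matrix.smul_mulVec, Matrix.mulVec_smul, Matrix.mulVec_mulVec, ← Matrix.mul_assoc,
      Matrix.nonsing_inv_mul _ hT, Matrix.one_mul, Matrix.mulVec_smul]
  rw [e1, bd_mulVec]
  have e2 : mk3 (fun i => (s • (Ta * W1)) *ᵥ p.1 i) (fun i => (s • (Tb * W2)) *ᵥ p.2 i) g i =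
      (Sum.elim (Sum.elim ((s • (Ta * W1)) *ᵥ p.1 i) ((s • (Tb * W2)) *ᵥ p.2 i)) (g i) :
        Idx m → ℝ) := rfl
  rw [e2, bd_mulVec, t1 Ta W1 _ ha, t1 Tb W2 _ hb, one_smul]

/-- comparison of the Gaussian integrals in two frames related by `V` near `1` -/
lemma Jin_close {f : Matrix (Idx m) (Idx m) ℂ → ℝ} (hf : Continuous f)
    {Ta Tb W1 W2 : Matrix (Fin 2) (Fin 2) ℝ} (ha : IsUnit Ta.det) (hb : IsUnit Tb.det)
    {ε r : ℝ} (hr : ∀ C W : Matrix (Idx m) (Idx m) ℝ, Cᵀ = C → ‖cx W - 1‖ ≤ r →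
      |f (CayG (W * C * Wᵀ)) - f (CayG C)| ≤ ε) (s : ℝ) (φ : Fin k → ℝ)
    (hV : ‖cx (bd (m := m) W1 W2 1) - 1‖ ≤ r) (p : XK k × XK k) :
    |Jin f (bd Ta⁻¹ Tb⁻¹ s) φ (fun i => (s • (Ta * W1)) *ᵥ p.1 i,
        fun i => (s • (Tb * W2)) *ᵥ p.2 i) -
      Jin f (s • (1 : Matrix (Idx m) (Idx m) ℝ)) φ p| ≤ ε := by
  unfold Jin
  rw [← integral_sub (Jin_integrand_int hf _ φ _) (Jin_integrand_int hf _ φ _),
    ← Real.norm_eq_abs]
  refine (norm_integral_le_of_norm_le (integrable_const ε)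
    (Filter.Eventually.of_forall fun g => ?_)).trans (by simp)
  rw [Real.norm_eq_abs]
  rw [frame_id ha hb s φ p g]
  exact hr _ _ (conj_symm (SM_symm _ _) _) hV

/-- Gaussian marks with covariance near the reference -/
theorem gauss_compare {f : Matrix (Idx m) (Idx m) ℂ → ℝ} (hf : Continuous f) {ρ : ℝ}
    (hρ : 0 < ρ) {Za Zb b1 b2 : M2} {Ta Tb A1 A2 : Matrix (Fin 2) (Fin 2) ℝ}
    (hTa : Ta * Taᵀ = imPart Za) (hTb : Tb * Tbᵀ = imPart Zb) (ha : IsUnit Ta.det)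
    (hb : IsUnit Tb.det)
    (hA1 : A1 * A1ᵀ = Matrix.of fun a c => (b1 a c).im / (Real.pi * ρ))
    (hA2 : A2 * A2ᵀ = Matrix.of fun a c => (b2 a c).im / (Real.pi * ρ))
    {ε r : ℝ} (hr : ∀ C W : Matrix (Idx m) (Idx m) ℝ, Cᵀ = C → ‖cx W - 1‖ ≤ r →
      |f (CayG (W * C * Wᵀ)) - f (CayG C)| ≤ ε) {r0 : ℝ}
    (h1 : bnorm (b1 - Za) ≤ r0) (h2 : bnorm (b2 - Zb) ≤ r0)
    (hr0 : 16 * (l1 Ta⁻¹ ^ 2 + l1 Tb⁻¹ ^ 2) * r0 ≤ r) (φ : Fin k → ℝ) :
    |∫ p, Jin f ((Tref Ta Tb ρ)⁻¹) φ (fun i => A1 *ᵥ p.1 i, fun i => A2 *ᵥ p.2 i) ∂(gm2 k) -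
      ∫ g, f (CayG (((Real.sqrt (Real.pi * ρ))⁻¹ • (1 : Matrix (Idx m) (Idx m) ℝ)) * SM φ g *
        ((Real.sqrt (Real.pi * ρ))⁻¹ • (1 : Matrix (Idx m) (Idx m) ℝ))ᵀ))
        ∂(gm (Fin k) (Idx m))| ≤ ε := by
  obtain ⟨B, hB0, hB⟩ := exists_bound hf
  obtain ⟨W1, hW1, hW1'⟩ := exists_factor hρ hTa ha hA1
  obtain ⟨W2, hW2, hW2'⟩ := exists_factor hρ hTb hb hA2
  have key := gm2_change (k := k) hW1 hW2 (F := Jin f ((Tref Ta Tb ρ)⁻¹) φ)
    (Jin_cont hf _ φ) (B := B) (Jin_bound hB _ φ)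
  rw [key, Tref_inv ha hb hρ]
  have hg := gauss_eq hf ((Real.sqrt (Real.pi * ρ))⁻¹ • (1 : Matrix (Idx m) (Idx m) ℝ)) φ
  rw [← hg]
  have hV1 : ‖cx (bd (m := m) W1 W2 1) - 1‖ ≤ r := by
    rw [← cx_one, ← cx_sub]
    refine (norm_cx_le _).trans ?_
    rw [l1_bd_sub_one]
    refine le_trans ?_ hr0
    have e1 : l1 (W1 - 1) ≤ 16 * l1 Ta⁻¹ ^ 2 * r0 :=
      hW1'.trans (mul_le_mul_of_nonneg_left h1 (by positivity))
    have e2 : l1 (W2 - 1) ≤ 16 * l1 Tb⁻¹ ^ 2 * r0 :=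
      hW2'.trans (mul_le_mul_of_nonneg_left h2 (by positivity))
    linarith
  have hcm : ∀ A : Matrix (Fin 2) (Fin 2) ℝ, Continuous fun (g : XK k) i => A *ᵥ g i := fun A =>
    continuous_pi fun i => Continuous.matrix_mulVec continuous_const (continuous_apply i)
  have hI2 : ∀ (S' : Matrix (Idx m) (Idx m) ℝ) (A A' : Matrix (Fin 2) (Fin 2) ℝ),
      Integrable (fun p : XK k × XK k => Jin f S' φ (fun i => A *ᵥ p.1 i,
        fun i => A' *ᵥ p.2 i)) (gm2 k) := by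
    intro S' A A'
    refine Integrable.of_bound (C := B) ?_ (Filter.Eventually.of_forall fun p =>
      Jin_bound hB S' φ _)
    exact ((Jin_cont hf S' φ).comp (((hcm A).comp continuous_fst).prodMk
      ((hcm A').comp continuous_snd))).aestronglyMeasurable
  have hI3 : Integrable (fun p : XK k × XK k =>
      Jin f ((Real.sqrt (Real.pi * ρ))⁻¹ • (1 : Matrix (Idx m) (Idx m) ℝ)) φ p) (gm2 k) := by
    refine Integrable.of_bound (C := B) ?_ (Filter.Eventually.of_forall fun p =>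
      Jin_bound hB _ φ p)
    exact (Jin_cont hf _ φ).aestronglyMeasurable
  have hfin : |∫ p, Jin f (bd Ta⁻¹ Tb⁻¹ (Real.sqrt (Real.pi * ρ))⁻¹) φ
      (fun i => ((Real.sqrt (Real.pi * ρ))⁻¹ • (Ta * W1)) *ᵥ p.1 i,
        fun i => ((Real.sqrt (Real.pi * ρ))⁻¹ • (Tb * W2)) *ᵥ p.2 i) ∂(gm2 k) -
      ∫ p, Jin f ((Real.sqrt (Real.pi * ρ))⁻¹ • (1 : Matrix (Idx m) (Idx m) ℝ)) φ p
        ∂(gm2 k)| ≤ ε := by
    rw [← integral_sub (hI2 _ _ _) hI3, ← Real.norm_eq_abs]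
    refine (norm_integral_le_of_norm_le (integrable_const ε)
      (Filter.Eventually.of_forall fun p => ?_)).trans (by simp)
    exact Jin_close hf ha hb hr _ φ hV1 p
  exact hfin

end Crest.Agent.R166.Inv988
end

-- ▼ part R166/InvJ_988
section

/-!
Row 166, section 50 (helper988): the comparison at a fixed good energy shift `x`.
-/

set_option autoImplicit false
set_option linter.unusedSectionVars false
set_option linter.unusedSimpArgs false

namespace Crest.Agent.R166.Inv988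

open MeasureTheory ProbabilityTheory Matrix Crest.ProbabilityR.RandomMatrix Crest.Agent.R166
open Crest.Agent.R166.Gauss286
open Crest.Agent.R166.SW341 (XK gm2 sw2)

lemma SM_restrict {J ι : Type*} [Fintype J] {k : ℕ} (φ : J → ℝ) (v : J → ι → ℝ) (σ : Fin k → J)
    (hσ : Function.Injective σ) (h0 : ∀ i, i ∉ Set.range σ → φ i = 0) :
    SM φ v = SM (fun j => φ (σ j)) (fun j => v (σ j)) := by
  classical
  ext a b
  rw [SM_apply, SM_apply]
  have h1 : ∑ i ∈ Finset.univ.image σ, φ i * v i a * v i b = ∑ i, φ i * v i a * v i b := by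
    apply Finset.sum_subset (Finset.subset_univ _)
    intro i _ hi
    have : i ∉ Set.range σ := by
      rintro ⟨j, rfl⟩
      exact hi (Finset.mem_image_of_mem _ (Finset.mem_univ _))
    rw [h0 i this]; ring
  rw [← h1, Finset.sum_image (fun x _ y _ hxy => hσ hxy)]

section

variable {n m k : ℕ} {H : Matrix (Fin n) (Fin n) ℝ} (hH : H.IsHermitian)

/-- marks of the near eigenvectors at a directed edge -/
noncomputable def qm (σ : Fin k → Fin n) (p : Fin n × Fin n) : XK k :=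
  fun j a => eF hH (σ j) (![p.1, p.2] a)

lemma near_port_eq {f : Matrix (Idx m) (Idx m) ℂ → ℝ} (hf : Continuous f)
    (S : Matrix (Idx m) (Idx m) ℝ) (φ : Fin n → ℝ) (σ : Fin k → Fin n)
    (hσ : Function.Injective σ) (h0 : ∀ i, i ∉ Set.range σ → φ i = 0) (p1 p2 : Fin n × Fin n) :
    ∫ g, f (CayG (S * SM φ (qq hH p1 p2 g) * Sᵀ)) ∂(gm (Fin n) (Fin m)) =
      Jin f S (fun j => φ (σ j)) (qm hH σ p1, qm hH σ p2) := by
  have h1 : ∀ g : Fin n → Fin m → ℝ, SM φ (qq hH p1 p2 g) =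
      SM (fun j => φ (σ j)) (mk3 (qm hH σ p1) (qm hH σ p2) fun j => g (σ j)) := by
    intro g
    rw [SM_restrict φ _ σ hσ h0]
    rfl
  simp only [h1]
  unfold Jin
  exact integral_sel (J := Fin n) (κ := Fin m) σ hσ
    (F := fun g => f (CayG (S * SM (fun j => φ (σ j)) (mk3 (qm hH σ p1) (qm hH σ p2) g) * Sᵀ)))
    (cont_f_cay hf (cont_conj (cont_SM3 continuous_const fun i a =>
      cont_mk3 continuous_const continuous_const continuous_id i a) S)
      fun g => conj_symm (SM_symm _ _) S)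

lemma near_test_eq {ι : Type*} [Fintype ι] [DecidableEq ι] {f : Matrix ι ι ℂ → ℝ}
    (hf : Continuous f) (S : Matrix ι ι ℝ) (φ : Fin n → ℝ) (σ : Fin k → Fin n)
    (hσ : Function.Injective σ) (h0 : ∀ i, i ∉ Set.range σ → φ i = 0) :
    ∫ g, f (CayG (S * SM φ g * Sᵀ)) ∂(gm (Fin n) ι) =
      ∫ g, f (CayG (S * SM (fun j => φ (σ j)) g * Sᵀ)) ∂(gm (Fin k) ι) := by
  have h1 : ∀ g : Fin n → ι → ℝ, SM φ g = SM (fun j => φ (σ j)) (fun j => g (σ j)) := fun g =>
    SM_restrict φ _ σ hσ h0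
  simp only [h1]
  exact integral_sel (J := Fin n) (κ := ι) σ hσ
    (F := fun g => f (CayG (S * SM (fun j => φ (σ j)) g * Sᵀ)))
    (cont_f_cay hf (cont_conj (continuous_SM' _) S) fun g => conj_symm (SM_symm _ _) S)

lemma CayG_submatrix {ι ι' : Type*} [Fintype ι] [DecidableEq ι] [Fintype ι'] [DecidableEq ι']
    (C : Matrix ι ι ℝ) (e : ι' ≃ ι) : (CayG C).submatrix e e = CayG (C.submatrix e e) := by
  unfold CayG
  rw [← Matrix.submatrix_mul_equiv _ _ _ e, ← Matrix.inv_submatrix_equiv]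
  congr 1
  · ext i j
    by_cases h : i = j
    · subst h; simp
    · simp [h]
  · congr 1
    ext i j
    by_cases h : i = j
    · subst h; simp
    · simp [h]

lemma conj_smul_one {ι : Type*} [Fintype ι] [DecidableEq ι] {ρ : ℝ} (hρ : 0 < ρ)
    (M : Matrix ι ι ℝ) :
    ((Real.sqrt (Real.pi * ρ))⁻¹ • (1 : Matrix ι ι ℝ)) * M *
      ((Real.sqrt (Real.pi * ρ))⁻¹ • (1 : Matrix ι ι ℝ))ᵀ = (1 / (Real.pi * ρ)) • M := by
  have hπ : 0 < Real.pi * ρ := by positivity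
  rw [Matrix.transpose_smul, Matrix.transpose_one, Matrix.smul_mul, Matrix.one_mul,
    Matrix.mul_smul, Matrix.mul_one, smul_smul, ← mul_inv, Real.mul_self_sqrt hπ.le, one_div]

/-- spectral form of the test integral with the index type `Idx m` -/
theorem test_conv {f : Matrix (Idx m) (Idx m) ℂ → ℝ} (hf : Continuous f) (hn : 0 < n)
    (E ρ K : ℝ) (hρ : 0 < ρ) {x : ℝ} (hx : ∀ i, hl hH E i ≠ x) :
    ∫ g, f ((uOf H E ρ K x g).submatrix (idxEquiv m) (idxEquiv m)) ∂(gaussM n (4 + m)) =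
      ∫ g, f (CayG (((Real.sqrt (Real.pi * ρ))⁻¹ • (1 : Matrix (Idx m) (Idx m) ℝ)) *
        (SM (fun i => (hl hH E i - x)⁻¹) g - (mn H (zz E K n)).re • (1 : Matrix (Idx m) (Idx m) ℝ)) *
        ((Real.sqrt (Real.pi * ρ))⁻¹ • (1 : Matrix (Idx m) (Idx m) ℝ))ᵀ))
        ∂(gm (Fin n) (Idx m)) := by
  have h1 := SpArr286.integral_uOf (m := 4 + m) hH hn E ρ K (x := x) hx
    (fun U => f (U.submatrix (idxEquiv m) (idxEquiv m)))
  refine h1.trans ?_
  have h2 : ∀ g : Fin n → Fin (4 + m) → ℝ, f ((Cay ((1 / (Real.pi * ρ)) •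
      (SpArr286.spArr (fun i => (SpArr286.hl hH E i - x)⁻¹) g -
        (mn H (zz E K n)).re • (1 : Matrix (Fin (4 + m)) (Fin (4 + m)) ℝ)))).submatrix
        (idxEquiv m) (idxEquiv m)) =
      f (CayG (((Real.sqrt (Real.pi * ρ))⁻¹ • (1 : Matrix (Idx m) (Idx m) ℝ)) *
        (SM (fun i => (hl hH E i - x)⁻¹) (fun i k' => g i (idxEquiv m k')) -
          (mn H (zz E K n)).re • (1 : Matrix (Idx m) (Idx m) ℝ)) *
        ((Real.sqrt (Real.pi * ρ))⁻¹ • (1 : Matrix (Idx m) (Idx m) ℝ))ᵀ)) := by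
    intro g
    rw [Cay_eq, CayG_submatrix, conj_smul_one hρ]
    congr 2
    ext i j
    simp only [Matrix.submatrix_apply, Matrix.smul_apply, Matrix.sub_apply, smul_eq_mul]
    have e1 : (1 : Matrix (Fin (4 + m)) (Fin (4 + m)) ℝ) (idxEquiv m i) (idxEquiv m j) =
        (1 : Matrix (Idx m) (Idx m) ℝ) i j := by
      rw [Matrix.one_apply, Matrix.one_apply]
      simp only [(idxEquiv m).injective.eq_iff]
    rw [e1]
    rfl
  simp only [h2]
  have hs : ∀ g : Fin n → Idx m → ℝ, (SM (fun i => (hl hH E i - x)⁻¹) g -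
      (mn H (zz E K n)).re • (1 : Matrix (Idx m) (Idx m) ℝ))ᵀ =
      SM (fun i => (hl hH E i - x)⁻¹) g -
      (mn H (zz E K n)).re • (1 : Matrix (Idx m) (Idx m) ℝ) := fun g => by
    rw [Matrix.transpose_sub, SM_symm, Matrix.transpose_smul, Matrix.transpose_one]
  exact integral_cols (J := Fin n) (κ := Fin (4 + m)) (idxEquiv m)
    (F := fun g => f (CayG (((Real.sqrt (Real.pi * ρ))⁻¹ • (1 : Matrix (Idx m) (Idx m) ℝ)) *
        (SM (fun i => (hl hH E i - x)⁻¹) g - (mn H (zz E K n)).re • (1 : Matrix (Idx m) (Idx m) ℝ)) *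
        ((Real.sqrt (Real.pi * ρ))⁻¹ • (1 : Matrix (Idx m) (Idx m) ℝ))ᵀ)))
    (cont_f_cay hf (cont_conj ((continuous_SM' _).sub continuous_const) _)
      fun g => conj_symm (hs g) _)

/-! ### the coefficient `φ` -/

/-- the coefficient `1/(y-x) - y/(y²+K²)` -/
noncomputable def phi (K x y : ℝ) : ℝ := (y - x)⁻¹ - cK K y

lemma cK_abs_le {K : ℝ} (hK : 1 ≤ K) (y : ℝ) : |cK K y| ≤ 1 := by
  unfold cK
  rw [abs_div, div_le_one (by positivity), abs_of_pos (by positivity : 0 < y ^ 2 + K ^ 2)]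
  have : |y| ^ 2 = y ^ 2 := sq_abs y
  nlinarith [abs_nonneg y, sq_nonneg (|y| - 1)]

lemma cK_sq_le {K : ℝ} (hK : 0 < K) (y : ℝ) : cK K y ^ 2 ≤ (K / (y ^ 2 + K ^ 2)) / K := by
  unfold cK
  have h : 0 < y ^ 2 + K ^ 2 := by positivity
  rw [div_pow, div_div, div_le_div_iff₀ (by positivity) (by positivity)]
  have : 0 ≤ K ^ 2 * (y ^ 2 + K ^ 2) := by positivity
  nlinarith [mul_pos hK h]

lemma phi_far {K δ x y : ℝ} (hK : 1 ≤ K) (hδ : 0 < δ) (hKδ : 2 * δ ≤ K ^ 2) (hx0 : 0 ≤ x)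
    (hx1 : x ≤ δ) (hy : K ^ 2 < |y|) :
    |phi K x y| ≤ 2 * (1 + δ) / K * (K / (y ^ 2 + K ^ 2)) := by
  have hK0 : 0 < K := by linarith
  have hD : 0 < y ^ 2 + K ^ 2 := by positivity
  have hya : 0 < |y| := lt_of_le_of_lt (by positivity) hy
  have h1 : |y| / 2 ≤ |y - x| := by
    have h2 : |y| ≤ |y - x| + |x| := by
      have := abs_add_le (y - x) x
      simpa using this
    rw [abs_of_nonneg hx0] at h2
    linarith
  have hne : y - x ≠ 0 := by
    intro h
    rw [h, abs_zero] at h1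
    linarith
  have h3 : phi K x y = (K ^ 2 + x * y) / ((y - x) * (y ^ 2 + K ^ 2)) := by
    unfold phi cK
    field_simp
    ring
  rw [h3, abs_div, abs_mul, abs_of_pos hD]
  have h4 : |K ^ 2 + x * y| ≤ (1 + δ) * |y| := by
    calc |K ^ 2 + x * y| ≤ |K ^ 2| + |x * y| := abs_add_le _ _
      _ = K ^ 2 + x * |y| := by rw [abs_of_nonneg (sq_nonneg K), abs_mul, abs_of_nonneg hx0]
      _ ≤ |y| + δ * |y| := by
          have := mul_le_mul_of_nonneg_right hx1 hya.le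
          linarith
      _ = _ := by ring
  have h5 : 2 * (1 + δ) / K * (K / (y ^ 2 + K ^ 2)) = 2 * (1 + δ) / (y ^ 2 + K ^ 2) := by
    field_simp
  rw [h5, div_le_div_iff₀ (mul_pos (by linarith) hD) hD]
  have h6 : |K ^ 2 + x * y| ≤ 2 * (1 + δ) * |y - x| := by
    calc |K ^ 2 + x * y| ≤ (1 + δ) * |y| := h4
      _ ≤ (1 + δ) * (2 * |y - x|) := by
          have : (0 : ℝ) ≤ 1 + δ := by linarith
          exact mul_le_mul_of_nonneg_left (by linarith) this
      _ = _ := by ring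
  calc |K ^ 2 + x * y| * (y ^ 2 + K ^ 2) ≤ 2 * (1 + δ) * |y - x| * (y ^ 2 + K ^ 2) :=
        mul_le_mul_of_nonneg_right h6 hD.le
    _ = _ := by ring

lemma phi_near {K x y τ : ℝ} (hK : 1 ≤ K) (hτ : 0 < τ) (hy : τ ≤ |y - x|) :
    |phi K x y| ≤ 1 / τ + 1 := by
  unfold phi
  calc |(y - x)⁻¹ - cK K y| ≤ |(y - x)⁻¹| + |cK K y| := abs_sub _ _
    _ ≤ 1 / τ + 1 := by
        refine add_le_add ?_ (cK_abs_le hK y)
        rw [abs_inv, ← one_div]
        exact one_div_le_one_div_of_le hτ hy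

/-- number of near eigenvalues -/
lemma near_card (hn : 0 < n) {E K Y : ℝ} (hK : 1 ≤ K) (hY : (mn H (zz E K n)).im ≤ Y) :
    ((Finset.univ.filter fun i => |hl hH E i| ≤ K ^ 2).card : ℝ) ≤ Y * (K ^ 3 + K) := by
  have hK0 : 0 < K := by linarith
  rw [mn_zz_im hH hn hK0] at hY
  have h1 : ∀ i ∈ Finset.univ.filter (fun i => |hl hH E i| ≤ K ^ 2),
      1 / (K ^ 3 + K) ≤ K / (hl hH E i ^ 2 + K ^ 2) := by
    intro i hi
    have h2 := (Finset.mem_filter.1 hi).2
    have h3 : hl hH E i ^ 2 ≤ (K ^ 2) ^ 2 := by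
      rw [← sq_abs]; exact pow_le_pow_left₀ (abs_nonneg _) h2 2
    rw [div_le_div_iff₀ (by positivity) (by positivity)]
    nlinarith
  have h2 : ((Finset.univ.filter fun i => |hl hH E i| ≤ K ^ 2).card : ℝ) * (1 / (K ^ 3 + K)) ≤
      Y := by
    calc _ = ∑ _i ∈ Finset.univ.filter (fun i => |hl hH E i| ≤ K ^ 2), 1 / (K ^ 3 + K) := by
          rw [Finset.sum_const, nsmul_eq_mul]
      _ ≤ ∑ i ∈ Finset.univ.filter (fun i => |hl hH E i| ≤ K ^ 2),
          K / (hl hH E i ^ 2 + K ^ 2) := Finset.sum_le_sum h1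
      _ ≤ ∑ i, K / (hl hH E i ^ 2 + K ^ 2) :=
          Finset.sum_le_sum_of_subset_of_nonneg (Finset.filter_subset _ _)
            fun i _ _ => by positivity
      _ ≤ Y := hY
  have hp : 0 < K ^ 3 + K := by positivity
  rw [mul_one_div, div_le_iff₀ hp] at h2
  exact h2

lemma sum_cK_sq_le (hn : 0 < n) {E K Y : ℝ} (hK : 0 < K) (hY : (mn H (zz E K n)).im ≤ Y) :
    ∑ i, cK K (hl hH E i) ^ 2 ≤ Y / K := by
  rw [mn_zz_im hH hn hK] at hY
  calc ∑ i, cK K (hl hH E i) ^ 2 ≤ ∑ i, (K / (hl hH E i ^ 2 + K ^ 2)) / K :=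
        Finset.sum_le_sum fun i _ => cK_sq_le hK _
    _ = (∑ i, K / (hl hH E i ^ 2 + K ^ 2)) / K := by rw [Finset.sum_div]
    _ ≤ Y / K := by gcongr

lemma sum_far_le (hn : 0 < n) {E K Y δ x : ℝ} (hK : 1 ≤ K) (hδ : 0 < δ)
    (hKδ : 2 * δ ≤ K ^ 2) (hx0 : 0 ≤ x) (hx1 : x ≤ δ) (hY : (mn H (zz E K n)).im ≤ Y) :
    ∑ i, |if |hl hH E i| ≤ K ^ 2 then (0 : ℝ) else phi K x (hl hH E i)| ≤
      2 * (1 + δ) / K * Y := by
  have hK0 : 0 < K := by linarith
  rw [mn_zz_im hH hn hK0] at hY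
  calc _ ≤ ∑ i, 2 * (1 + δ) / K * (K / (hl hH E i ^ 2 + K ^ 2)) := by
        refine Finset.sum_le_sum fun i _ => ?_
        split_ifs with h
        · rw [abs_zero]; positivity
        · push Not at h
          exact phi_far hK hδ hKδ hx0 hx1 h
    _ = 2 * (1 + δ) / K * ∑ i, (K / (hl hH E i ^ 2 + K ^ 2)) := by rw [Finset.mul_sum]
    _ ≤ 2 * (1 + δ) / K * Y := by gcongr

end

end Crest.Agent.R166.Inv988
end

-- ▼ part R166/InvK1_988
section

/-!
Row 166, section 50 (helper988): the comparison at a fixed good energy shift `x`, assembled.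
-/

set_option autoImplicit false
set_option linter.unusedSectionVars false
set_option linter.unusedSimpArgs false

namespace Crest.Agent.R166.Inv988

open MeasureTheory ProbabilityTheory Matrix Crest.ProbabilityR.RandomMatrix Crest.Agent.R166
open Crest.Agent.R166.Gauss286
open Crest.Agent.R166.SW341 (XK gm2 sw2)

variable {n m d : ℕ} {H : Matrix (Fin n) (Fin n) ℝ} (hH : H.IsHermitian)
  {G : SimpleGraph (Fin n)}

/-- the conclusion of `sw2` for the near eigenvectors -/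
def SWprop (E K η Φ ε3 : ℝ) (G : SimpleGraph (Fin n)) (f : Matrix (Idx m) (Idx m) ℂ → ℝ)
    (S : Matrix (Idx m) (Idx m) ℝ) (χ : M2 → M2 → ℝ)
    (A : Fin n × Fin n → Matrix (Fin 2) (Fin 2) ℝ) : Prop :=
  ∀ σ : Fin (Finset.univ.filter fun i => |hl hH E i| ≤ K ^ 2).card → Fin n,
    Function.Injective σ → (∀ j, |hl hH E (σ j)| ≤ K ^ 2) →
    ∀ φ : Fin (Finset.univ.filter fun i => |hl hH E i| ≤ K ^ 2).card → Set.Icc (-Φ) Φ,
      |eAvg2 G (fun p1 p2 => Fk f S χ Φ φ (blk H E η p1, blk H E η p2)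
        (qm hH σ p1, qm hH σ p2) -
        ∫ g, Fk f S χ Φ φ (blk H E η p1, blk H E η p2)
          (fun i => A p1 *ᵥ g.1 i, fun i => A p2 *ᵥ g.2 i) ∂(gm2 _))| ≤ ε3

lemma final_arith {P P1 P2 T J0 c ε1 ε3 L L' N2 F F' S2 S2' θ ΔB r0 : ℝ} (hθ : 0 < θ)
    (hL : 0 ≤ L) (hL' : 0 ≤ L') (hN20 : 0 ≤ N2) (hc0 : 0 ≤ c) (hc1 : c ≤ 1) (hS0 : 0 ≤ S2)
    (hF0 : 0 ≤ F) (hS : S2 ≤ S2') (hF : F ≤ F')
    (h1 : |P - P1| ≤ ε1 * c + L * (N2 * (F + ((θ + 3 * S2 / θ) + ΔB + r0 * c))))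
    (h2 : |P1 - P2| ≤ ε3) (h3 : |P2 - c * J0| ≤ ε1 * c)
    (h4 : |T - J0| ≤ ε1 + L' * (N2 * (F + (θ + 3 * S2 / θ)))) :
    |P - c * T| ≤ (3 * ε1 + L * (N2 * r0)) * c +
      ((L + L') * (N2 * (F' + (θ + 3 * S2' / θ))) + L * (N2 * ΔB) + ε3) := by
  have hq1 : θ + 3 * S2 / θ ≤ θ + 3 * S2' / θ := by gcongr
  have h4' : |T - J0| ≤ ε1 + L' * (N2 * (F' + (θ + 3 * S2' / θ))) := by
    refine h4.trans ?_
    gcongr
  have h1' : |P - P1| ≤ ε1 * c + L * (N2 * (F' + ((θ + 3 * S2' / θ) + ΔB + r0 * c))) := by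
    refine h1.trans ?_
    gcongr
  have h6 : |c * (J0 - T)| ≤ c * (ε1 + L' * (N2 * (F' + (θ + 3 * S2' / θ)))) := by
    rw [abs_mul, abs_of_nonneg hc0, abs_sub_comm]
    exact mul_le_mul_of_nonneg_left h4' hc0
  have h7 : |P - c * T| ≤ |P - P1| + |P1 - P2| + |P2 - c * J0| + |c * (J0 - T)| := by
    have e : P - c * T = (P - P1) + (P1 - P2) + (P2 - c * J0) + c * (J0 - T) := by ring
    rw [e]
    refine (abs_add_le _ _).trans (add_le_add ?_ le_rfl)
    refine (abs_add_le _ _).trans (add_le_add ?_ le_rfl)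
    exact abs_add_le _ _
  set Q := F' + (θ + 3 * S2' / θ) with hQ
  have hQ0 : 0 ≤ Q := by
    have : 0 ≤ S2' := hS0.trans hS
    have : 0 ≤ F' := hF0.trans hF
    rw [hQ]
    positivity
  have h8 : c * (ε1 + L' * (N2 * Q)) ≤ ε1 * c + L' * (N2 * Q) := by
    have : 0 ≤ L' * (N2 * Q) := by positivity
    nlinarith
  have h9 : ε1 * c + L * (N2 * (F' + ((θ + 3 * S2' / θ) + ΔB + r0 * c))) =
      ε1 * c + L * (N2 * Q) + L * (N2 * ΔB) + L * (N2 * r0) * c := by
    rw [hQ]; ring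
  rw [h9] at h1'
  have h10 : (3 * ε1 + L * (N2 * r0)) * c + ((L + L') * (N2 * Q) + L * (N2 * ΔB) + ε3) =
      (ε1 * c + L * (N2 * Q) + L * (N2 * ΔB) + L * (N2 * r0) * c) + ε3 + ε1 * c +
        (ε1 * c + L' * (N2 * Q)) := by ring
  rw [h10]
  linarith

theorem pointwise (hG : G ∈ regularGraphs n d) (hn : 0 < n) (hd : 0 < d)
    {E ρ K η δ x Y θ τ ε1 ε3 L L' r r0 : ℝ} (hρ : 0 < ρ) (hK : 1 ≤ K) (hδ : 0 < δ)
    (hKδ : 2 * δ ≤ K ^ 2) (hx0 : 0 ≤ x) (hx1 : x ≤ δ) (hx : ∀ i, hl hH E i ≠ x)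
    (hτ : 0 < τ) (hxτ : ∀ i, |hl hH E i| ≤ K ^ 2 → τ ≤ |hl hH E i - x|) (hθ : 0 < θ)
    (hY : (mn H (zz E K n)).im ≤ Y)
    {Za Zb : M2} (hZa : Zaᵀ = Za) (hZb : Zbᵀ = Zb) {Ta Tb : Matrix (Fin 2) (Fin 2) ℝ}
    (hTa : Ta * Taᵀ = imPart Za) (hTb : Tb * Tbᵀ = imPart Zb) (ha : IsUnit Ta.det)
    (hb : IsUnit Tb.det) {f : Matrix (Idx m) (Idx m) ℂ → ℝ} (hf : Continuous f)
    (hL : 0 ≤ L) (hfL : ∀ M M' : Matrix (Idx m) (Idx m) ℝ, Mᵀ = M → M'ᵀ = M' →
      |f (CayG ((Tref Ta Tb ρ)⁻¹ * M * ((Tref Ta Tb ρ)⁻¹)ᵀ)) -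
        f (CayG ((Tref Ta Tb ρ)⁻¹ * M' * ((Tref Ta Tb ρ)⁻¹)ᵀ))| ≤
        ε1 + L * ∑ a, ∑ b, min 1 |M a b - M' a b|)
    (hL' : 0 ≤ L') (hfL' : ∀ M M' : Matrix (Idx m) (Idx m) ℝ, Mᵀ = M → M'ᵀ = M' →
      |f (CayG (((Real.sqrt (Real.pi * ρ))⁻¹ • (1 : Matrix (Idx m) (Idx m) ℝ)) * M *
        ((Real.sqrt (Real.pi * ρ))⁻¹ • (1 : Matrix (Idx m) (Idx m) ℝ))ᵀ)) -
        f (CayG (((Real.sqrt (Real.pi * ρ))⁻¹ • (1 : Matrix (Idx m) (Idx m) ℝ)) * M' *
          ((Real.sqrt (Real.pi * ρ))⁻¹ • (1 : Matrix (Idx m) (Idx m) ℝ))ᵀ))| ≤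
        ε1 + L' * ∑ a, ∑ b, min 1 |M a b - M' a b|)
    (hr : ∀ C W : Matrix (Idx m) (Idx m) ℝ, Cᵀ = C →
      (open scoped Matrix.Norms.L2Operator in ‖cx W - 1‖ ≤ r) →
      |f (CayG (W * C * Wᵀ)) - f (CayG C)| ≤ ε1) (hr0 : 0 ≤ r0)
    (hr0r : 16 * (l1 Ta⁻¹ ^ 2 + l1 Tb⁻¹ ^ 2) * r0 ≤ r)
    {χ : M2 → M2 → ℝ} (hχ01 : ∀ b1 b2, 0 ≤ χ b1 b2 ∧ χ b1 b2 ≤ 1)
    (hχs : ∀ b1 b2, χ b1 b2 ≠ 0 → bnorm (b1 - Za) ≤ r0 ∧ bnorm (b2 - Zb) ≤ r0)
    {A : Fin n × Fin n → Matrix (Fin 2) (Fin 2) ℝ}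
    (hA : ∀ p, A p * (A p)ᵀ = Matrix.of fun a c => (blk H E η p a c).im / (Real.pi * ρ))
    (hsw : SWprop hH E K η (1 / τ + 1) ε3 G f ((Tref Ta Tb ρ)⁻¹) χ A) :
    |eAvg2 G (fun p1 p2 => χ (blk H E η p1) (blk H E η p2) *
        ∫ g, f (Uref H E ρ K x Za Zb Ta Tb p1 p2 g) ∂(gaussM n m)) -
      cAvg G H E η χ * ∫ g, f ((uOf H E ρ K x g).submatrix (idxEquiv m) (idxEquiv m))
        ∂(gaussM n (4 + m))| ≤
    (3 * ε1 + L * ((Fintype.card (Idx m) : ℝ) ^ 2 * r0)) * cAvg G H E η χ +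
      ((L + L') * ((Fintype.card (Idx m) : ℝ) ^ 2 *
        (2 * (1 + δ) / K * Y + (θ + 3 * (Y / K) / θ))) +
      L * ((Fintype.card (Idx m) : ℝ) ^ 2 * eAvg G (fun u v => min 1
        (bnorm (Blk (Res H (zz E K n)) u v - Blk (Res H (ze E η)) u v)))) + ε3) := by
  have hK0 : 0 < K := by linarith
  have hpos := card_darts_pos hG hn hd
  set S := (Tref (m := m) Ta Tb ρ)⁻¹ with hS
  set S1 : Matrix (Idx m) (Idx m) ℝ := (Real.sqrt (Real.pi * ρ))⁻¹ • 1 with hS1
  set w : Fin n × Fin n → Fin n × Fin n → ℝ := fun p1 p2 => χ (blk H E η p1) (blk H E η p2)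
    with hw
  set c := cAvg G H E η χ with hc
  have hcw : eAvg2 G w = c := rfl
  have hw0 : ∀ p1 p2, 0 ≤ w p1 p2 := fun p1 p2 => (hχ01 _ _).1
  have hw1 : ∀ p1 p2, w p1 p2 ≤ 1 := fun p1 p2 => (hχ01 _ _).2
  have hc0 : 0 ≤ c := by
    rw [← hcw, ← eAvg2_const (G := G) hpos 0]; exact eAvg2_mono fun p1 p2 => hw0 p1 p2
  have hc1 : c ≤ 1 := by
    rw [← hcw, ← eAvg2_const (G := G) hpos 1]; exact eAvg2_mono fun p1 p2 => hw1 p1 p2
  set ψ : Fin n → ℝ := fun i => (hl hH E i - x)⁻¹ with hψ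
  set φn : Fin n → ℝ := fun i => if |hl hH E i| ≤ K ^ 2 then phi K x (hl hH E i) else 0 with hφn
  set φf : Fin n → ℝ := fun i => if |hl hH E i| ≤ K ^ 2 then 0 else phi K x (hl hH E i) with hφf
  set cc : Fin n → ℝ := fun i => cK K (hl hH E i) with hcc
  have hdec : ∀ i, ψ i = φn i + φf i + cc i := by
    intro i
    simp only [hψ, hφn, hφf, hcc]
    unfold phi
    split_ifs <;> ring
  have hS2 : ∑ i, cK K (hl hH E i) ^ 2 ≤ Y / K := sum_cK_sq_le hH hn hK0 hY
  have hFar : ∑ i, |φf i| ≤ 2 * (1 + δ) / K * Y := sum_far_le hH hn hK hδ hKδ hx0 hx1 hY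
  set ΔB := eAvg G (fun u v => min 1
        (bnorm (Blk (Res H (zz E K n)) u v - Blk (Res H (ze E η)) u v))) with hΔB
  set N2 : ℝ := (Fintype.card (Idx m) : ℝ) ^ 2 with hN2
  have hN20 : 0 ≤ N2 := sq_nonneg _
  -- step 1
  have e1 : eAvg2 G (fun p1 p2 => χ (blk H E η p1) (blk H E η p2) *
        ∫ g, f (Uref H E ρ K x Za Zb Ta Tb p1 p2 g) ∂(gaussM n m)) =
      eAvg2 G (fun p1 p2 => w p1 p2 * ∫ g, f (CayG (S * (SM ψ (qq hH p1 p2 g) -
        Aref Za Zb (mn H (zz E K n)).re) * Sᵀ)) ∂(gm (Fin n) (Fin m))) := by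
    congr 1
    ext p1 p2
    rw [integral_Uref hH hn E ρ K hx Za Zb Ta Tb p1 p2 f]
    rfl
  have h1 := port_trunc (m := m) hH hG hn hd (η := η) hK0 hZa hZb hθ w hw0 hw1
    (fun p1 p2 hne => hχs _ _ hne) hr0 hf S hL hfL ψ φn φf hdec
  rw [hcw, ← hΔB] at h1
  -- the near indices
  set near := Finset.univ.filter fun i => |hl hH E i| ≤ K ^ 2 with hnear
  set σ : Fin near.card → Fin n := fun j => (near.equivFin.symm j : Fin n) with hσ
  have hσi : Function.Injective σ := fun a b hab =>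
    near.equivFin.symm.injective (Subtype.ext hab)
  have hσn : ∀ j, |hl hH E (σ j)| ≤ K ^ 2 := fun j =>
    (Finset.mem_filter.1 (near.equivFin.symm j).2).2
  have hσ0 : ∀ i, i ∉ Set.range σ → φn i = 0 := by
    intro i hi
    simp only [hφn]
    rw [if_neg]
    intro hle
    apply hi
    refine ⟨near.equivFin ⟨i, Finset.mem_filter.2 ⟨Finset.mem_univ _, hle⟩⟩, ?_⟩
    simp [hσ]
  have hφb : ∀ j, φn (σ j) ∈ Set.Icc (-(1 / τ + 1)) (1 / τ + 1) := by
    intro j
    refine Set.mem_Icc.2 (abs_le.1 ?_)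
    simp only [hφn]
    rw [if_pos (hσn j)]
    exact phi_near hK hτ (hxτ _ (hσn j))
  set φ' : Fin near.card → Set.Icc (-(1 / τ + 1)) (1 / τ + 1) := fun j => ⟨φn (σ j), hφb j⟩
    with hφ'
  -- step 2
  have e2 : eAvg2 G (fun p1 p2 => w p1 p2 * ∫ g, f (CayG (S * SM φn (qq hH p1 p2 g) * Sᵀ))
        ∂(gm (Fin n) (Fin m))) =
      eAvg2 G (fun p1 p2 => Fk f S χ (1 / τ + 1) φ' (blk H E η p1, blk H E η p2)
        (qm hH σ p1, qm hH σ p2)) := by
    congr 1
    ext p1 p2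
    rw [near_port_eq hH hf S φn σ hσi hσ0 p1 p2]
    rfl
  have h2 := hsw σ hσi hσn φ'
  rw [eAvg2_sub, ← e2] at h2
  -- step 3
  set J0 := ∫ g, f (CayG (S1 * SM (fun j => φn (σ j)) g * S1ᵀ)) ∂(gm (Fin near.card) (Idx m))
    with hJ0
  have h3 : |eAvg2 G (fun p1 p2 => ∫ g, Fk f S χ (1 / τ + 1) φ' (blk H E η p1, blk H E η p2)
          (fun i => A p1 *ᵥ g.1 i, fun i => A p2 *ᵥ g.2 i) ∂(gm2 near.card)) - c * J0| ≤
      ε1 * c := by
    have e3 : c * J0 = eAvg2 G (fun p1 p2 => w p1 p2 * J0) := by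
      rw [eAvg2_mul_right, hcw]
    rw [e3, ← eAvg2_sub]
    refine (abs_eAvg2_le _).trans ?_
    rw [← hcw, ← eAvg2_mul_left]
    refine eAvg2_mono fun p1 p2 => ?_
    have e4 : ∫ g, Fk f S χ (1 / τ + 1) φ' (blk H E η p1, blk H E η p2)
          (fun i => A p1 *ᵥ g.1 i, fun i => A p2 *ᵥ g.2 i) ∂(gm2 near.card) =
        w p1 p2 * ∫ p, Jin f S (fun j => φn (σ j)) (fun i => A p1 *ᵥ p.1 i,
          fun i => A p2 *ᵥ p.2 i) ∂(gm2 near.card) := by
      rw [← integral_const_mul]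
      rfl
    rw [e4, ← mul_sub, abs_mul, abs_of_nonneg (hw0 p1 p2), mul_comm]
    by_cases hne : w p1 p2 = 0
    · rw [hne]; simp
    · have h5 := hχs _ _ hne
      refine mul_le_mul_of_nonneg_right ?_ (hw0 p1 p2)
      exact gauss_compare hf hρ hTa hTb ha hb (hA p1) (hA p2) hr h5.1 h5.2 hr0r _
  -- step 4
  have e5 := test_conv hH hf hn E ρ K hρ hx
  have h4 := test_trunc (J := Fin n) hf S1 hθ hL' hfL' ψ φn φf cc hdec
  rw [← mn_zz_re hH hn hK0, near_test_eq hf S1 φn σ hσi hσ0, ← e5, ← hJ0] at h4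
  rw [e1]
  set P := eAvg2 G (fun p1 p2 => w p1 p2 * ∫ g, f (CayG (S * (SM ψ (qq hH p1 p2 g) -
        Aref Za Zb (mn H (zz E K n)).re) * Sᵀ)) ∂(gm (Fin n) (Fin m)))
  set P1 := eAvg2 G (fun p1 p2 => w p1 p2 * ∫ g, f (CayG (S * SM φn (qq hH p1 p2 g) * Sᵀ))
        ∂(gm (Fin n) (Fin m)))
  set P2 := eAvg2 G (fun p1 p2 => ∫ g, Fk f S χ (1 / τ + 1) φ' (blk H E η p1, blk H E η p2)
          (fun i => A p1 *ᵥ g.1 i, fun i => A p2 *ᵥ g.2 i) ∂(gm2 near.card))
  set T := ∫ g, f ((uOf H E ρ K x g).submatrix (idxEquiv m) (idxEquiv m)) ∂(gaussM n (4 + m))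
  have hS0 : 0 ≤ ∑ i, cK K (hl hH E i) ^ 2 := Finset.sum_nonneg fun _ _ => sq_nonneg _
  have hF0 : 0 ≤ ∑ i, |φf i| := Finset.sum_nonneg fun _ _ => abs_nonneg _
  exact final_arith hθ hL hL' hN20 hc0 hc1 hS0 hF0 hS2 hFar h1 h2 h3 h4

end Crest.Agent.R166.Inv988
end

-- ▼ part R166/InvK2_988
section

/-!
Row 166, section 50 (helper988): integration over the energy shift.
-/

set_option autoImplicit false
set_option linter.unusedSectionVars false
set_option linter.unusedSimpArgs false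

namespace Crest.Agent.R166.Inv988

open MeasureTheory ProbabilityTheory Matrix Crest.ProbabilityR.RandomMatrix Crest.Agent.R166
open Crest.Agent.R166.Gauss286
open Crest.Agent.R166.SW341 (XK gm2 sw2)

variable {n m d : ℕ} {H : Matrix (Fin n) (Fin n) ℝ} (hH : H.IsHermitian)
  {G : SimpleGraph (Fin n)}

lemma ii_sum {α : Type*} (s : Finset α) {F : α → ℝ → ℝ} {a b : ℝ}
    (h : ∀ i ∈ s, IntervalIntegrable (F i) volume a b) :
    IntervalIntegrable (fun x => ∑ i ∈ s, F i x) volume a b := by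
  have e : (fun x => ∑ i ∈ s, F i x) = ∑ i ∈ s, F i := by
    ext x; rw [Finset.sum_apply]
  rw [e]
  exact IntervalIntegrable.sum s h

lemma ae_good (E : ℝ) : ∀ᵐ x ∂(volume : Measure ℝ), ∀ i, hl hH E i ≠ x := by
  have hfin : (Set.range (hl hH E)).Finite := Set.finite_range _
  have hae : ∀ᵐ x ∂(volume : Measure ℝ), x ∉ Set.range (hl hH E) :=
    measure_eq_zero_iff_ae_notMem.mp (Set.Finite.measure_zero hfin volume)
  filter_upwards [hae] with x hx i h
  exact hx ⟨i, h⟩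

lemma psi_meas (E : ℝ) : Measurable fun x : ℝ => fun i => (hl hH E i - x)⁻¹ :=
  measurable_pi_lambda _ fun _ => (measurable_const.sub measurable_id).inv

/-- bounded a.e. measurable functions are interval integrable -/
lemma ii_of_ae {h h' : ℝ → ℝ} {B : ℝ} (hm : Measurable h') (hB : ∀ x, |h' x| ≤ B)
    (he : h =ᵐ[volume] h') (a b : ℝ) : IntervalIntegrable h volume a b := by
  have h1 : IntervalIntegrable h' volume a b :=
    (intervalIntegrable_const (c := B)).mono_fun' hm.aestronglyMeasurable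
      (Filter.Eventually.of_forall fun x => hB x)
  exact h1.congr_ae (ae_restrict_of_ae he.symm)

include hH in
/-- port side -/
theorem port_ii (hn : 0 < n) (E ρ K : ℝ) {Za Zb : M2} (hZa : Zaᵀ = Za) (hZb : Zbᵀ = Zb)
    (Ta Tb : Matrix (Fin 2) (Fin 2) ℝ) {f : Matrix (Idx m) (Idx m) ℂ → ℝ} (hf : Continuous f)
    {B : ℝ} (hB : ∀ C : Matrix (Idx m) (Idx m) ℝ, Cᵀ = C → |f (CayG C)| ≤ B)
    (p1 p2 : Fin n × Fin n) (a b : ℝ) :
    IntervalIntegrable (fun x => ∫ g, f (Uref H E ρ K x Za Zb Ta Tb p1 p2 g) ∂(gaussM n m))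
      volume a b ∧
    ∀ᵐ x ∂(volume : Measure ℝ),
      |∫ g, f (Uref H E ρ K x Za Zb Ta Tb p1 p2 g) ∂(gaussM n m)| ≤ B := by
  set S := (Tref (m := m) Ta Tb ρ)⁻¹ with hS
  set A := Aref (m := m) Za Zb (mn H (zz E K n)).re with hA
  have hs : ∀ (φ : Fin n → ℝ) (g : Fin n → Fin m → ℝ), (SM φ (qq hH p1 p2 g) - A)ᵀ =
      SM φ (qq hH p1 p2 g) - A := fun φ g => by
    rw [Matrix.transpose_sub, SM_symm, hA, Aref_symm hZa hZb]
  have hb : ∀ φ : Fin n → ℝ, |∫ g, f (CayG (S * (SM φ (qq hH p1 p2 g) - A) * Sᵀ))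
      ∂(gaussM n m)| ≤ B := by
    intro φ
    rw [← Real.norm_eq_abs]
    refine (norm_integral_le_of_norm_le (integrable_const (μ := gm (Fin n) (Fin m)) B)
      (Filter.Eventually.of_forall fun g => ?_)).trans (by simp)
    exact hB _ (conj_symm (hs φ g) S)
  have hc : Continuous fun φ : Fin n → ℝ => ∫ g, f (CayG (S * (SM φ (qq hH p1 p2 g) - A) * Sᵀ))
      ∂(gaussM n m) := by
    refine continuous_of_dominated (bound := fun _ => B) ?_ ?_
      (integrable_const (μ := gm (Fin n) (Fin m)) B) ?_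
    · intro φ
      exact (cont_f_cay hf (cont_conj ((cont_SM_qq hH φ p1 p2).sub continuous_const) S)
        fun g => conj_symm (hs φ g) S).aestronglyMeasurable
    · intro φ
      exact Filter.Eventually.of_forall fun g => hB _ (conj_symm (hs φ g) S)
    · refine Filter.Eventually.of_forall fun g => ?_
      refine cont_f_cay hf (cont_conj (Continuous.sub ?_ continuous_const) S)
        fun φ => conj_symm (hs φ g) S
      refine continuous_matrix fun a b => ?_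
      simp only [SM_apply]
      exact continuous_finsetSum _ fun i _ => by fun_prop
  have he : (fun x => ∫ g, f (Uref H E ρ K x Za Zb Ta Tb p1 p2 g) ∂(gaussM n m)) =ᵐ[volume]
      fun x => ∫ g, f (CayG (S * (SM (fun i => (hl hH E i - x)⁻¹) (qq hH p1 p2 g) - A) * Sᵀ))
        ∂(gaussM n m) := by
    filter_upwards [ae_good hH E] with x hx
    exact integral_Uref hH hn E ρ K hx Za Zb Ta Tb p1 p2 f
  refine ⟨ii_of_ae (hc.measurable.comp (psi_meas hH E)) (fun x => hb _) he a b, ?_⟩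
  filter_upwards [he] with x hx
  rw [hx]
  exact hb _

include hH in
/-- test side -/
theorem test_ii (hn : 0 < n) (E K : ℝ) {ρ : ℝ} (hρ : 0 < ρ)
    {f : Matrix (Idx m) (Idx m) ℂ → ℝ} (hf : Continuous f)
    {B : ℝ} (hB : ∀ C : Matrix (Idx m) (Idx m) ℝ, Cᵀ = C → |f (CayG C)| ≤ B) (a b : ℝ) :
    IntervalIntegrable (fun x => ∫ g, f ((uOf H E ρ K x g).submatrix (idxEquiv m) (idxEquiv m))
        ∂(gaussM n (4 + m))) volume a b ∧
    ∀ᵐ x ∂(volume : Measure ℝ),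
      |∫ g, f ((uOf H E ρ K x g).submatrix (idxEquiv m) (idxEquiv m))
        ∂(gaussM n (4 + m))| ≤ B := by
  set S : Matrix (Idx m) (Idx m) ℝ := (Real.sqrt (Real.pi * ρ))⁻¹ • 1 with hS
  set A : Matrix (Idx m) (Idx m) ℝ := (mn H (zz E K n)).re • 1 with hA
  have hs : ∀ (φ : Fin n → ℝ) (g : Fin n → Idx m → ℝ), (SM φ g - A)ᵀ =
      SM φ g - A := fun φ g => by
    rw [Matrix.transpose_sub, SM_symm, hA, Matrix.transpose_smul, Matrix.transpose_one]
  have hb : ∀ φ : Fin n → ℝ, |∫ g, f (CayG (S * (SM φ g - A) * Sᵀ))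
      ∂(gm (Fin n) (Idx m))| ≤ B := by
    intro φ
    rw [← Real.norm_eq_abs]
    refine (norm_integral_le_of_norm_le (integrable_const (μ := gm (Fin n) (Idx m)) B)
      (Filter.Eventually.of_forall fun g => ?_)).trans (by simp)
    exact hB _ (conj_symm (hs φ g) S)
  have hc : Continuous fun φ : Fin n → ℝ => ∫ g, f (CayG (S * (SM φ g - A) * Sᵀ))
      ∂(gm (Fin n) (Idx m)) := by
    refine continuous_of_dominated (bound := fun _ => B) ?_ ?_
      (integrable_const (μ := gm (Fin n) (Idx m)) B) ?_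
    · intro φ
      exact (cont_f_cay hf (cont_conj ((continuous_SM' φ).sub continuous_const) S)
        fun g => conj_symm (hs φ g) S).aestronglyMeasurable
    · intro φ
      exact Filter.Eventually.of_forall fun g => hB _ (conj_symm (hs φ g) S)
    · refine Filter.Eventually.of_forall fun g => ?_
      refine cont_f_cay hf (cont_conj (Continuous.sub ?_ continuous_const) S)
        fun φ => conj_symm (hs φ g) S
      refine continuous_matrix fun a b => ?_
      simp only [SM_apply]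
      exact continuous_finsetSum _ fun i _ => by fun_prop
  have he : (fun x => ∫ g, f ((uOf H E ρ K x g).submatrix (idxEquiv m) (idxEquiv m))
        ∂(gaussM n (4 + m))) =ᵐ[volume]
      fun x => ∫ g, f (CayG (S * (SM (fun i => (hl hH E i - x)⁻¹) g - A) * Sᵀ))
        ∂(gm (Fin n) (Idx m)) := by
    filter_upwards [ae_good hH E] with x hx
    exact test_conv hH hf hn E ρ K hρ hx
  refine ⟨ii_of_ae (hc.measurable.comp (psi_meas hH E)) (fun x => hb _) he a b, ?_⟩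
  filter_upwards [he] with x hx
  rw [hx]
  exact hb _

lemma eAvg2_integral {F : ℝ → Fin n × Fin n → Fin n × Fin n → ℝ} {a b : ℝ}
    (hF : ∀ p1 p2, IntervalIntegrable (fun x => F x p1 p2) volume a b) :
    ∫ x in a..b, eAvg2 G (F x) = eAvg2 G fun p1 p2 => ∫ x in a..b, F x p1 p2 := by
  unfold eAvg2
  rw [intervalIntegral.integral_div]
  congr 1
  rw [intervalIntegral.integral_finsetSum fun p1 _ => ?_]
  · refine Finset.sum_congr rfl fun p1 _ => ?_
    rw [intervalIntegral.integral_finsetSum fun p2 _ => hF p1 p2]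
  · exact ii_sum (darts G) (F := fun p2 x => F x p1 p2) fun p2 _ => hF p1 p2

include hH in
/-- integration over the energy shift -/
theorem xint (hG : G ∈ regularGraphs n d) (hn : 0 < n) (hd : 0 < d) {E K η : ℝ} {ρ δ : ℝ}
    (hρ : 0 < ρ) (hδ : 0 < δ)
    {Za Zb : M2} (hZa : Zaᵀ = Za) (hZb : Zbᵀ = Zb) (Ta Tb : Matrix (Fin 2) (Fin 2) ℝ)
    {f : Matrix (Idx m) (Idx m) ℂ → ℝ} (hf : Continuous f)
    {B : ℝ} (hB0 : 0 ≤ B) (hB : ∀ C : Matrix (Idx m) (Idx m) ℝ, Cᵀ = C → |f (CayG C)| ≤ B)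
    {χ : M2 → M2 → ℝ} (hχ01 : ∀ b1 b2, 0 ≤ χ b1 b2 ∧ χ b1 b2 ≤ 1) {e τ : ℝ} (he : 0 ≤ e)
    (hτ : 0 < τ) (hpt : ∀ x, 0 ≤ x → x ≤ δ → (∀ i, hl hH E i ≠ x) →
      (∀ i, |hl hH E i| ≤ K ^ 2 → τ ≤ |hl hH E i - x|) →
      |eAvg2 G (fun p1 p2 => χ (blk H E η p1) (blk H E η p2) *
        ∫ g, f (Uref H E ρ K x Za Zb Ta Tb p1 p2 g) ∂(gaussM n m)) -
      cAvg G H E η χ * ∫ g, f ((uOf H E ρ K x g).submatrix (idxEquiv m) (idxEquiv m))
        ∂(gaussM n (4 + m))| ≤ e) :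
    |PV G H E ρ K δ η Za Zb Ta Tb χ f - cAvg G H E η χ * TestVal H E ρ K δ (4 + m)
        (fun U => f (U.submatrix (idxEquiv m) (idxEquiv m)))| ≤
      e + δ⁻¹ * ((Finset.univ.filter fun i => |hl hH E i| ≤ K ^ 2).card * (4 * B * τ)) := by
  have hpos := card_darts_pos hG hn hd
  set c := cAvg G H E η χ with hc
  have hc0 : 0 ≤ c := by
    rw [hc]; unfold cAvg
    rw [← eAvg2_const (G := G) hpos 0]; exact eAvg2_mono fun p1 p2 => (hχ01 _ _).1
  have hc1 : c ≤ 1 := by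
    rw [hc]; unfold cAvg
    rw [← eAvg2_const (G := G) hpos 1]; exact eAvg2_mono fun p1 p2 => (hχ01 _ _).2
  set u : ℝ → Fin n × Fin n → Fin n × Fin n → ℝ := fun x p1 p2 =>
    ∫ g, f (Uref H E ρ K x Za Zb Ta Tb p1 p2 g) ∂(gaussM n m) with hu
  set t : ℝ → ℝ := fun x => ∫ g, f ((uOf H E ρ K x g).submatrix (idxEquiv m) (idxEquiv m))
        ∂(gaussM n (4 + m)) with ht
  have hui : ∀ p1 p2, IntervalIntegrable (fun x => u x p1 p2) volume 0 δ := fun p1 p2 =>
    (port_ii hH hn E ρ K hZa hZb Ta Tb hf hB p1 p2 0 δ).1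
  have hub : ∀ᵐ x ∂(volume : Measure ℝ), ∀ p1 p2, |u x p1 p2| ≤ B := by
    rw [ae_all_iff]; intro p1
    rw [ae_all_iff]; intro p2
    exact (port_ii hH hn E ρ K hZa hZb Ta Tb hf hB p1 p2 0 δ).2
  obtain ⟨hti, htb⟩ := test_ii hH hn E K hρ hf hB 0 δ
  -- rewriting
  have e1 : PV G H E ρ K δ η Za Zb Ta Tb χ f = δ⁻¹ * ∫ x in (0 : ℝ)..δ,
      eAvg2 G (fun p1 p2 => χ (blk H E η p1) (blk H E η p2) * u x p1 p2) := by
    rw [eAvg2_integral (F := fun x p1 p2 => χ (blk H E η p1) (blk H E η p2) * u x p1 p2)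
      fun p1 p2 => (hui p1 p2).const_mul _]
    rw [← eAvg2_mul_left]
    unfold PV tAvg
    congr 1
    ext p1 p2
    rw [intervalIntegral.integral_const_mul]
    simp only [hu]
    ring
  have e2 : c * TestVal H E ρ K δ (4 + m)
        (fun U => f (U.submatrix (idxEquiv m) (idxEquiv m))) =
      δ⁻¹ * ∫ x in (0 : ℝ)..δ, c * t x := by
    rw [intervalIntegral.integral_const_mul]
    unfold TestVal
    simp only [ht]
    ring
  have hPi : IntervalIntegrable (fun x => eAvg2 G (fun p1 p2 => χ (blk H E η p1) (blk H E η p2) *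
      u x p1 p2)) volume 0 δ := by
    unfold eAvg2
    refine IntervalIntegrable.div_const ?_ _
    have h1 : ∀ p1, IntervalIntegrable (fun x => ∑ p2 ∈ darts G,
        χ (blk H E η p1) (blk H E η p2) * u x p1 p2) volume 0 δ := by
      intro p1
      exact ii_sum (darts G) (F := fun p2 x =>
        χ (blk H E η p1) (blk H E η p2) * u x p1 p2) fun p2 _ => (hui p1 p2).const_mul _
    exact ii_sum (darts G) (F := fun p1 x => ∑ p2 ∈ darts G,
        χ (blk H E η p1) (blk H E η p2) * u x p1 p2) fun p1 _ => h1 p1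
  rw [e1, e2, ← mul_sub, ← intervalIntegral.integral_sub hPi (hti.const_mul c), abs_mul,
    abs_of_pos (inv_pos.2 hδ)]
  -- the dominating function
  set near := Finset.univ.filter fun i => |hl hH E i| ≤ K ^ 2 with hnear
  set bd' : ℝ → ℝ := fun x => e + ∑ i ∈ near, (Set.Ioo (hl hH E i - τ) (hl hH E i + τ)).indicator
    (fun _ => 2 * B) x with hbd
  have hind : ∀ i, IntervalIntegrable ((Set.Ioo (hl hH E i - τ) (hl hH E i + τ)).indicator
      (fun _ => 2 * B)) volume 0 δ := by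
    intro i
    refine (intervalIntegrable_const (c := 2 * B)).mono_fun'
      (measurable_const.indicator measurableSet_Ioo).aestronglyMeasurable
      (Filter.Eventually.of_forall fun x => ?_)
    show ‖(Set.Ioo (hl hH E i - τ) (hl hH E i + τ)).indicator (fun _ => 2 * B) x‖ ≤ 2 * B
    rw [Real.norm_eq_abs, abs_of_nonneg (Set.indicator_nonneg (fun _ _ => by positivity) _)]
    exact Set.indicator_le_self' (fun _ _ => by positivity) _
  have hbi : IntervalIntegrable bd' volume 0 δ := by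
    refine intervalIntegrable_const.add ?_
    exact ii_sum near (F := fun i =>
      (Set.Ioo (hl hH E i - τ) (hl hH E i + τ)).indicator (fun _ => 2 * B)) fun i _ => hind i
  have hle : ∀ᵐ x ∂(volume : Measure ℝ), x ∈ Set.Ioc 0 δ →
      ‖eAvg2 G (fun p1 p2 => χ (blk H E η p1) (blk H E η p2) * u x p1 p2) - c * t x‖ ≤ bd' x := by
    filter_upwards [hub, htb, ae_good hH E] with x hx1 hx2 hx3 hxI
    have hnn : ∀ i, 0 ≤ (Set.Ioo (hl hH E i - τ) (hl hH E i + τ)).indicator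
        (fun _ => 2 * B) x := fun i => Set.indicator_nonneg (fun _ _ => by positivity) _
    rw [Real.norm_eq_abs]
    by_cases hgood : ∀ i, |hl hH E i| ≤ K ^ 2 → τ ≤ |hl hH E i - x|
    · refine (hpt x hxI.1.le hxI.2 hx3 hgood).trans ?_
      simp only [hbd]
      have : 0 ≤ ∑ i ∈ near, (Set.Ioo (hl hH E i - τ) (hl hH E i + τ)).indicator
        (fun _ => 2 * B) x := Finset.sum_nonneg fun i _ => hnn i
      linarith
    · push Not at hgood
      obtain ⟨i, hi1, hi2⟩ := hgood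
      have hmem : i ∈ near := Finset.mem_filter.2 ⟨Finset.mem_univ i, hi1⟩
      have h1 : |eAvg2 G (fun p1 p2 => χ (blk H E η p1) (blk H E η p2) * u x p1 p2)| ≤ B := by
        refine (abs_eAvg2_le _).trans ?_
        rw [← eAvg2_const (G := G) hpos B]
        refine eAvg2_mono fun p1 p2 => ?_
        rw [abs_mul, abs_of_nonneg (hχ01 _ _).1]
        have h2 := (hχ01 (blk H E η p1) (blk H E η p2)).2
        have h3 := (hχ01 (blk H E η p1) (blk H E η p2)).1
        nlinarith [hx1 p1 p2, abs_nonneg (u x p1 p2)]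
      have h2 : |c * t x| ≤ B := by
        rw [abs_mul, abs_of_nonneg hc0]
        nlinarith [hx2, abs_nonneg (t x)]
      have h3 : x ∈ Set.Ioo (hl hH E i - τ) (hl hH E i + τ) := by
        rw [abs_lt] at hi2
        constructor <;> linarith [hi2.1, hi2.2]
      have h4 : 2 * B ≤ ∑ i ∈ near, (Set.Ioo (hl hH E i - τ) (hl hH E i + τ)).indicator
        (fun _ => 2 * B) x := by
        have h5 : (Set.Ioo (hl hH E i - τ) (hl hH E i + τ)).indicator (fun _ => 2 * B) x =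
            2 * B := Set.indicator_of_mem h3 _
        refine h5.ge.trans ?_
        exact Finset.single_le_sum (f := fun i => (Set.Ioo (hl hH E i - τ)
          (hl hH E i + τ)).indicator (fun _ => 2 * B) x) (fun i _ => hnn i) hmem
      calc _ ≤ |eAvg2 G (fun p1 p2 => χ (blk H E η p1) (blk H E η p2) * u x p1 p2)| + |c * t x| :=
            abs_sub _ _
        _ ≤ 2 * B := by linarith
        _ ≤ bd' x := by simp only [hbd]; linarith
  have hmain := intervalIntegral.norm_integral_le_of_norm_le hδ.le hle hbi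
  rw [Real.norm_eq_abs] at hmain
  have hint : ∫ x in (0 : ℝ)..δ, bd' x ≤ δ * e + near.card * (4 * B * τ) := by
    simp only [hbd]
    rw [intervalIntegral.integral_add intervalIntegrable_const]
    · rw [intervalIntegral.integral_finsetSum fun i _ => hind i]
      simp only [intervalIntegral.integral_const, sub_zero, smul_eq_mul]
      have h1 : ∀ i, ∫ x in (0 : ℝ)..δ, (Set.Ioo (hl hH E i - τ) (hl hH E i + τ)).indicator
          (fun _ => 2 * B) x ≤ 4 * B * τ := by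
        intro i
        rw [intervalIntegral.integral_of_le hδ.le]
        have h2 : ∫ x in Set.Ioc 0 δ, (Set.Ioo (hl hH E i - τ) (hl hH E i + τ)).indicator
            (fun _ => 2 * B) x ≤ ∫ x, (Set.Ioo (hl hH E i - τ) (hl hH E i + τ)).indicator
            (fun _ => 2 * B) x := by
          apply setIntegral_le_integral
          · refine (integrable_indicator_iff measurableSet_Ioo).2 ?_
            exact integrableOn_const (by simp)
          · exact Filter.Eventually.of_forall fun x =>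
              Set.indicator_nonneg (fun _ _ => by positivity) _
        refine h2.trans (le_of_eq ?_)
        rw [integral_indicator measurableSet_Ioo, setIntegral_const, Real.volume_real_Ioo_of_le
          (by linarith), smul_eq_mul]
        ring
      have h3 : ∑ i ∈ near, ∫ x in (0 : ℝ)..δ, (Set.Ioo (hl hH E i - τ)
          (hl hH E i + τ)).indicator (fun _ => 2 * B) x ≤ near.card * (4 * B * τ) := by
        rw [← nsmul_eq_mul]
        exact Finset.sum_le_card_nsmul _ _ _ fun i _ => h1 i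
      linarith
    · exact ii_sum near (F := fun i =>
        (Set.Ioo (hl hH E i - τ) (hl hH E i + τ)).indicator (fun _ => 2 * B)) fun i _ => hind i
  calc _ ≤ δ⁻¹ * (δ * e + near.card * (4 * B * τ)) :=
        mul_le_mul_of_nonneg_left (hmain.trans hint) (inv_nonneg.2 hδ.le)
    _ = _ := by
        rw [mul_add, ← mul_assoc, inv_mul_cancel₀ hδ.ne', one_mul]

end Crest.Agent.R166.Inv988
end

-- ▼ part R166/InvK3_988
section

/-!
Row 166, section 50 (helper988): ingredients for the final quantifier assembly.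
-/

set_option autoImplicit false
set_option linter.unusedSectionVars false
set_option linter.unusedSimpArgs false

namespace Crest.Agent.R166.Inv988

open MeasureTheory ProbabilityTheory Matrix Crest.ProbabilityR.RandomMatrix Crest.Agent.R166
open Crest.Agent.R166.Gauss286
open Crest.Agent.R166.SW341 (XK gm2 sw2)

variable {n m d : ℕ} {H : Matrix (Fin n) (Fin n) ℝ} (hH : H.IsHermitian)
  {G : SimpleGraph (Fin n)}

include hH in
/-- the imaginary parts of the blocks are of the form `A Aᵀ` -/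
theorem exists_A (hn : 0 < n) {E η ρ : ℝ} (hη : 0 < η) (hρ : 0 < ρ) :
    ∃ A : Fin n × Fin n → Matrix (Fin 2) (Fin 2) ℝ,
      ∀ p, A p * (A p)ᵀ = Matrix.of fun a c => (blk H E η p a c).im / (Real.pi * ρ) := by
  have hn' : (0 : ℝ) < n := by exact_mod_cast hn
  have hπ : 0 < Real.pi * ρ := by positivity
  have hz : ze E η = zz E (n * η) n := by
    unfold ze zz
    congr 3
    field_simp
  have hK : 0 < (n : ℝ) * η := by positivity
  have key : ∀ p : Fin n × Fin n, ∃ A : Matrix (Fin 2) (Fin 2) ℝ,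
      A * Aᵀ = Matrix.of fun a c => (blk H E η p a c).im / (Real.pi * ρ) := by
    intro p
    apply SW341.exists_mul_transpose
    set Q : Matrix (Fin 2) (Fin n) ℝ := Matrix.of fun a i =>
      Real.sqrt ((n * η) / (hl hH E i ^ 2 + (n * η) ^ 2) / (Real.pi * ρ)) *
        eF hH i (![p.1, p.2] a) with hQ
    have h1 : (Matrix.of fun a c => (blk H E η p a c).im / (Real.pi * ρ)) = Q * Qᴴ := by
      ext a c
      rw [Matrix.mul_apply]
      simp only [Matrix.of_apply, hQ, Matrix.conjTranspose_apply, star_trivial]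
      unfold blk Blk
      rw [Matrix.submatrix_apply, hz, Res_zz_im hH hn hK, Finset.sum_div]
      refine Finset.sum_congr rfl fun i _ => ?_
      have h2 : 0 ≤ (n * η) / (hl hH E i ^ 2 + (n * η) ^ 2) / (Real.pi * ρ) := by positivity
      have h3 := Real.mul_self_sqrt h2
      calc _ = ((n * η) / (hl hH E i ^ 2 + (n * η) ^ 2) / (Real.pi * ρ)) *
            (eF hH i (![p.1, p.2] a) * eF hH i (![p.1, p.2] c)) := by ring
        _ = (Real.sqrt ((n * η) / (hl hH E i ^ 2 + (n * η) ^ 2) / (Real.pi * ρ)) *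
              Real.sqrt ((n * η) / (hl hH E i ^ 2 + (n * η) ^ 2) / (Real.pi * ρ))) *
            (eF hH i (![p.1, p.2] a) * eF hH i (![p.1, p.2] c)) := by rw [h3]
        _ = _ := by ring
    rw [h1]
    exact Matrix.posSemidef_self_mul_conjTranspose _
  choose A hA using key
  exact ⟨A, hA⟩

include hH in
/-- second moments of the marks -/
theorem moment (hG : G ∈ regularGraphs n d) (hn : 0 < n) {k : ℕ} (σ : Fin k → Fin n) :
    ∑ p ∈ darts G, ∑ i, ∑ a, (qm hH σ p i a) ^ 2 ≤ (2 * k : ℝ) * ((darts G).card : ℝ) := by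
  have h1 : ∑ p ∈ darts G, ∑ i, ∑ a, (qm hH σ p i a) ^ 2 =
      ∑ i : Fin k, ∑ a : Fin 2, ∑ p ∈ darts G, (eF hH (σ i) (![p.1, p.2] a)) ^ 2 := by
    rw [Finset.sum_comm]
    refine Finset.sum_congr rfl fun i _ => ?_
    rw [Finset.sum_comm]
    rfl
  rw [h1]
  have h2 : ∀ (i : Fin k) (a : Fin 2), ∑ p ∈ darts G, (eF hH (σ i) (![p.1, p.2] a)) ^ 2 =
      d * n := by
    intro i a
    rw [sum_darts_port hG a fun v => (eF hH (σ i) v) ^ 2]
    have h3 := eF_orth hH hn (σ i) (σ i)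
    rw [if_pos rfl] at h3
    rw [← h3]
    congr 1
    exact Finset.sum_congr rfl fun v _ => by ring
  simp only [h2]
  rw [card_darts hG]
  simp only [Finset.sum_const, Finset.card_univ, Fintype.card_fin, nsmul_eq_mul]
  apply le_of_eq
  push_cast
  ring

/-- the compact set of blocks -/
def Kset (Z : M2) (r : ℝ) : Set M2 :=
  Set.pi Set.univ fun i => Set.pi Set.univ fun j => Metric.closedBall (Z i j) r

lemma isCompact_Kset (Z : M2) (r : ℝ) : IsCompact (Kset Z r) :=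
  isCompact_univ_pi fun _ => isCompact_univ_pi fun _ => isCompact_closedBall _ _

lemma mem_Kset {Z b : M2} {r : ℝ} (h : bnorm (b - Z) ≤ r) : b ∈ Kset Z r := by
  intro i _ j _
  rw [Metric.mem_closedBall, dist_eq_norm]
  exact (norm_le_bnorm (b - Z) i j).trans h

/-- the input from theorem B for a fixed number of near eigenvectors -/
structure TB (k : ℕ) where
  N : ℕ
  τ : Fin N → XK k
  χ : Fin N → M2 → ℝ
  ε : ℝ
  hε : 0 < ε
  hχ : ∀ j, Continuous (χ j) ∧ HasCompactSupport (χ j)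

/-- the event of theorem B -/
def TBev {k : ℕ} (T : TB k) (j : Fin T.N) (H : Matrix (Fin n) (Fin n) ℝ) (G : SimpleGraph (Fin n))
    (E K' η ρ ε : ℝ) : Prop :=
  ∀ F : Fin k → Fin n → ℝ, IsFrame H E K' k F →
      ‖(∑ p ∈ darts G, (T.χ j (Blk (Res H (ze E η)) p.1 p.2) : ℂ) *
        (Complex.exp (Complex.I *
            ((∑ i, (T.τ j i 0 * F i p.1 + T.τ j i 1 * F i p.2) : ℝ) : ℂ)) -
          ((Real.exp (-(1 / 2) * ∑ i, ∑ a, ∑ b, T.τ j i a *
            ((Blk (Res H (ze E η)) p.1 p.2 a b).im / (Real.pi * ρ)) * T.τ j i b) : ℝ) : ℂ)))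
        / ((darts G).card : ℂ)‖ ≤ ε

/-- from theorem B to `SWprop`: for every `k` there are finitely many test functions -/
theorem exists_TB {f : Matrix (Idx m) (Idx m) ℂ → ℝ} (hf : Continuous f)
    (S : Matrix (Idx m) (Idx m) ℝ) {χ : M2 → M2 → ℝ}
    (hχc : Continuous fun b : M2 × M2 => χ b.1 b.2) (hχ01 : ∀ b1 b2, 0 ≤ χ b1 b2 ∧ χ b1 b2 ≤ 1)
    {Za Zb : M2} {r0 : ℝ}
    (hχs : ∀ b1 b2, χ b1 b2 ≠ 0 → bnorm (b1 - Za) ≤ r0 ∧ bnorm (b2 - Zb) ≤ r0)
    (ρ Φ : ℝ) {ε3 : ℝ} (hε3 : 0 < ε3) (k : ℕ) :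
    ∃ T : TB k, ∀ {n d : ℕ} {H : Matrix (Fin n) (Fin n) ℝ} (hH : H.IsHermitian)
      {G : SimpleGraph (Fin n)}, G ∈ regularGraphs n d → 0 < n → 0 < d → ∀ (E K η : ℝ)
      (A : Fin n × Fin n → Matrix (Fin 2) (Fin 2) ℝ),
      (∀ p, A p * (A p)ᵀ = Matrix.of fun a c => (blk H E η p a c).im / (Real.pi * ρ)) →
      (∀ j, TBev T j H G E (K ^ 2) η ρ T.ε) → ∀ σ : Fin k → Fin n,
      Function.Injective σ → (∀ j, |hl hH E (σ j)| ≤ K ^ 2) →
      ∀ φ : Fin k → Set.Icc (-Φ) Φ,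
      |eAvg2 G (fun p1 p2 => Fk f S χ Φ φ (blk H E η p1, blk H E η p2)
        (qm hH σ p1, qm hH σ p2) -
        ∫ g, Fk f S χ Φ φ (blk H E η p1, blk H E η p2)
          (fun i => A p1 *ᵥ g.1 i, fun i => A p2 *ᵥ g.2 i) ∂(gm2 _))| ≤ ε3 := by
  obtain ⟨B, hB0, hB⟩ := exists_bound hf
  obtain ⟨N, τ, χ', ε, hε, hχ', hmain⟩ := sw2 (P := Fin k → Set.Icc (-Φ) Φ) (k := k) (ρ := ρ)
    (Fk f S χ Φ) (Fk_cont hf S hχc Φ) (CF := B) (by
      intro φ b x
      unfold Fk
      rw [abs_mul, abs_of_nonneg (hχ01 _ _).1]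
      have h1 := Fk_bound hB S (fun i => (φ i : ℝ)) x
      have h2 := (hχ01 b.1 b.2).2
      have h3 := (hχ01 b.1 b.2).1
      nlinarith [abs_nonneg (∫ g, f (CayG (S * SM (fun i => (φ i : ℝ)) (mk3 x.1 x.2 g) * Sᵀ))
        ∂(gm (Fin k) (Fin m)))])
    (Kb := Kset Za r0 ∪ Kset Zb r0) ((isCompact_Kset _ _).union (isCompact_Kset _ _)) (by
      intro φ b x hne
      have h1 : χ b.1 b.2 ≠ 0 := by
        intro h0
        apply hne
        unfold Fk
        rw [h0, zero_mul]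
      have h2 := hχs _ _ h1
      exact ⟨Or.inl (mem_Kset h2.1), Or.inr (mem_Kset h2.2)⟩) (2 * k : ℝ) hε3
  refine ⟨⟨N, τ, χ', ε, hε, hχ'⟩, ?_⟩
  intro n d H hH G hG hn hd E K η A hA hev σ hσ hσn φ
  have hpos := card_darts_pos hG hn hd
  have hne : (darts G).Nonempty := by
    rw [← Finset.card_pos]
    exact_mod_cast hpos
  have h1 := hmain (darts G) (blk H E η) (qm hH σ) A hne (fun p _ => hA p)
    (moment hH hG hn σ) ?_ φ
  · exact h1
  · intro j
    have h2 := hev j (fun j => eF hH (σ j)) (isFrame_near hH hn σ hσ hσn)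
    exact h2

lemma exists_pos_le {κ : Type*} [Fintype κ] (f : κ → ℝ) (hf : ∀ i, 0 < f i) :
    ∃ c : ℝ, 0 < c ∧ ∀ i, c ≤ f i := by
  have h0 : ∀ i, 0 < (f i)⁻¹ := fun i => inv_pos.2 (hf i)
  have hs : 0 ≤ ∑ i, (f i)⁻¹ := Finset.sum_nonneg fun i _ => (h0 i).le
  refine ⟨(1 + ∑ i, (f i)⁻¹)⁻¹, by positivity, fun i => ?_⟩
  rw [inv_le_comm₀ (by positivity) (hf i)]
  have := Finset.single_le_sum (f := fun i => (f i)⁻¹) (fun i _ => (h0 i).le) (Finset.mem_univ i)
  linarith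

end Crest.Agent.R166.Inv988
end

-- ▼ part R166/InvK_988
section

/-!
Row 166, section 50 (helper988): the key comparison.
-/

set_option autoImplicit false
set_option linter.unusedSectionVars false
set_option linter.unusedSimpArgs false

namespace Crest.Agent.R166.Inv988

open MeasureTheory ProbabilityTheory Matrix Crest.ProbabilityR.RandomMatrix Crest.Agent.R166
open Crest.Agent.R166.Gauss286
open Crest.Agent.R166.SW341 (XK gm2 sw2)
open Crest.Agent.R166.DosB420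

lemma le_of_mul_bound {W x t e : ℝ} (he : 0 < e) (hx : 0 < x)
    (h : W * t / e ≤ x) : W * (t / x) ≤ e := by
  rw [div_le_iff₀ he] at h
  rw [← mul_div_assoc, div_le_iff₀ hx]
  linarith

/-- the deterministic part of the key comparison -/
theorem key_det {n m d : ℕ} {H : Matrix (Fin n) (Fin n) ℝ} (hH : H.IsHermitian)
    {G : SimpleGraph (Fin n)} (hG : G ∈ regularGraphs n d) (hn : 0 < n) (hd : 0 < d)
    {E ρ K η δ Y θ τ ε ε1 ε2 ε3 εL L L' r r0 B : ℝ} (hε : 0 < ε) (hρ : 0 < ρ) (hK : 1 ≤ K)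
    (hδ : 0 < δ)
    (hKδ : 2 * δ ≤ K ^ 2) (hτ : 0 < τ) (hθ : 0 < θ) (_hη : 0 < η) (hY0 : 0 < Y)
    (hY : (mn H (zz E K n)).im ≤ Y)
    {Za Zb : M2} (hZa : Zaᵀ = Za) (hZb : Zbᵀ = Zb) {Ta Tb : Matrix (Fin 2) (Fin 2) ℝ}
    (hTa : Ta * Taᵀ = imPart Za) (hTb : Tb * Tbᵀ = imPart Zb) (ha : IsUnit Ta.det)
    (hb : IsUnit Tb.det) {f : Matrix (Idx m) (Idx m) ℂ → ℝ} (hf : Continuous f)
    (hB0 : 0 ≤ B) (hB : ∀ C : Matrix (Idx m) (Idx m) ℝ, Cᵀ = C → |f (CayG C)| ≤ B)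
    (hL : 0 ≤ L) (hfL : ∀ M M' : Matrix (Idx m) (Idx m) ℝ, Mᵀ = M → M'ᵀ = M' →
      |f (CayG ((Tref Ta Tb ρ)⁻¹ * M * ((Tref Ta Tb ρ)⁻¹)ᵀ)) -
        f (CayG ((Tref Ta Tb ρ)⁻¹ * M' * ((Tref Ta Tb ρ)⁻¹)ᵀ))| ≤
        ε1 + L * ∑ a, ∑ b, min 1 |M a b - M' a b|)
    (hL' : 0 ≤ L') (hfL' : ∀ M M' : Matrix (Idx m) (Idx m) ℝ, Mᵀ = M → M'ᵀ = M' →
      |f (CayG (((Real.sqrt (Real.pi * ρ))⁻¹ • (1 : Matrix (Idx m) (Idx m) ℝ)) * M *
        ((Real.sqrt (Real.pi * ρ))⁻¹ • (1 : Matrix (Idx m) (Idx m) ℝ))ᵀ)) -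
        f (CayG (((Real.sqrt (Real.pi * ρ))⁻¹ • (1 : Matrix (Idx m) (Idx m) ℝ)) * M' *
          ((Real.sqrt (Real.pi * ρ))⁻¹ • (1 : Matrix (Idx m) (Idx m) ℝ))ᵀ))| ≤
        ε1 + L' * ∑ a, ∑ b, min 1 |M a b - M' a b|)
    (hr : ∀ C W : Matrix (Idx m) (Idx m) ℝ, Cᵀ = C →
      (open scoped Matrix.Norms.L2Operator in ‖cx W - 1‖ ≤ r) →
      |f (CayG (W * C * Wᵀ)) - f (CayG C)| ≤ ε1) (hr0 : 0 ≤ r0)
    (hr0r : 16 * (l1 Ta⁻¹ ^ 2 + l1 Tb⁻¹ ^ 2) * r0 ≤ r)
    {χ : M2 → M2 → ℝ} (hχ01 : ∀ b1 b2, 0 ≤ χ b1 b2 ∧ χ b1 b2 ≤ 1)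
    (hχs : ∀ b1 b2, χ b1 b2 ≠ 0 → bnorm (b1 - Za) ≤ r0 ∧ bnorm (b2 - Zb) ≤ r0)
    {A : Fin n × Fin n → Matrix (Fin 2) (Fin 2) ℝ}
    (hA : ∀ p, A p * (A p)ᵀ = Matrix.of fun a c => (blk H E η p a c).im / (Real.pi * ρ))
    (hsw : SWprop hH E K η (1 / τ + 1) ε3 G f ((Tref Ta Tb ρ)⁻¹) χ A)
    (hLL : eAvg G (fun u v => min 1
        (bnorm (Blk (Res H (zz E K n)) u v - Blk (Res H (ze E η)) u v))) ≤ εL)
    (b1 : 3 * ε1 + L * ((Fintype.card (Idx m) : ℝ) ^ 2 * r0) ≤ ε)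
    (b2 : (L + L') * ((Fintype.card (Idx m) : ℝ) ^ 2 *
        (2 * (1 + δ) / K * Y + (θ + 3 * (Y / K) / θ))) ≤ ε2 / 4)
    (b3 : L * ((Fintype.card (Idx m) : ℝ) ^ 2 * εL) ≤ ε2 / 4) (b4 : ε3 ≤ ε2 / 4)
    (b5 : δ⁻¹ * (Y * (K ^ 3 + K) * (4 * B * τ)) ≤ ε2 / 4) :
    |PV G H E ρ K δ η Za Zb Ta Tb χ f - cAvg G H E η χ * TestVal H E ρ K δ (4 + m)
        (fun U => f (U.submatrix (idxEquiv m) (idxEquiv m)))| ≤
      ε * cAvg G H E η χ + ε2 := by
  have hpos := card_darts_pos hG hn hd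
  set c := cAvg G H E η χ with hc
  have hc0 : 0 ≤ c := by
    rw [hc]; unfold cAvg
    rw [← eAvg2_const (G := G) hpos 0]; exact eAvg2_mono fun p1 p2 => (hχ01 _ _).1
  set N2 : ℝ := (Fintype.card (Idx m) : ℝ) ^ 2 with hN2
  have hN20 : 0 ≤ N2 := sq_nonneg _
  set e : ℝ := (3 * ε1 + L * (N2 * r0)) * c +
      ((L + L') * (N2 * (2 * (1 + δ) / K * Y + (θ + 3 * (Y / K) / θ))) +
      L * (N2 * eAvg G (fun u v => min 1
        (bnorm (Blk (Res H (zz E K n)) u v - Blk (Res H (ze E η)) u v)))) + ε3) with he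
  have hpt : ∀ x, 0 ≤ x → x ≤ δ → (∀ i, hl hH E i ≠ x) →
      (∀ i, |hl hH E i| ≤ K ^ 2 → τ ≤ |hl hH E i - x|) →
      |eAvg2 G (fun p1 p2 => χ (blk H E η p1) (blk H E η p2) *
        ∫ g, f (Uref H E ρ K x Za Zb Ta Tb p1 p2 g) ∂(gaussM n m)) -
      c * ∫ g, f ((uOf H E ρ K x g).submatrix (idxEquiv m) (idxEquiv m))
        ∂(gaussM n (4 + m))| ≤ e := fun x hx0 hx1 hx hxτ =>
    pointwise hH hG hn hd hρ hK hδ hKδ hx0 hx1 hx hτ hxτ hθ hY hZa hZb hTa hTb ha hb hf hL hfL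
      hL' hfL' hr hr0 hr0r hχ01 hχs hA hsw
  have hbd : e ≤ ε * c + 3 * (ε2 / 4) := by
    have h1 : (3 * ε1 + L * (N2 * r0)) * c ≤ ε * c := mul_le_mul_of_nonneg_right b1 hc0
    have h2 : L * (N2 * eAvg G (fun u v => min 1
        (bnorm (Blk (Res H (zz E K n)) u v - Blk (Res H (ze E η)) u v)))) ≤ ε2 / 4 := by
      refine le_trans ?_ b3
      gcongr
    rw [he]
    linarith
  have hex : ∃ e' : ℝ, 0 ≤ e' ∧ e ≤ e' ∧ e' ≤ max 0 e := ⟨max 0 e, le_max_left _ _,
    le_max_right _ _, le_rfl⟩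
  have h1 := xint (m := m) hH hG hn hd (E := E) (K := K) (η := η) hρ hδ hZa hZb Ta Tb hf hB0 hB
    hχ01 (e := max 0 e) (τ := τ) (le_max_left _ _) hτ
    (fun x hx0 hx1 hx hxτ => (hpt x hx0 hx1 hx hxτ).trans (le_max_right _ _))
  have hcard := near_card hH hn hK hY
  have h2 : δ⁻¹ * ((Finset.univ.filter fun i => |hl hH E i| ≤ K ^ 2).card * (4 * B * τ)) ≤
      ε2 / 4 := by
    refine le_trans ?_ b5
    gcongr
  have hε2 : 0 ≤ ε2 := by
    have : 0 ≤ δ⁻¹ * (Y * (K ^ 3 + K) * (4 * B * τ)) := by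
      have : 0 < K := by linarith
      positivity
    linarith
  have h3 : max 0 e ≤ ε * c + 3 * (ε2 / 4) := max_le (by positivity) hbd
  linarith

set_option maxHeartbeats 4000000 in
theorem keyCmp {d : ℕ} {s E ρ : ℝ} (hd : 0 < d) (hρ : 0 < ρ) (hTB : ThmB d s E ρ)
    (hIm : ImLim d s E ρ) (hLoc : LocLim d s E) : KeyCmp d s E ρ := by
  classical
  intro m Za Zb Ta Tb hZa hZb hTa hTb ha hb f hf δ hδ ε hε
  obtain ⟨B, hB0, hB⟩ := exists_bound hf
  have hε1 : 0 < ε / 4 := by positivity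
  obtain ⟨L, hL, hfL⟩ := trunc_det hf ((Tref (m := m) Ta Tb ρ)⁻¹) hε1
  obtain ⟨L', hL', hfL'⟩ := trunc_det hf
    ((Real.sqrt (Real.pi * ρ))⁻¹ • (1 : Matrix (Idx m) (Idx m) ℝ)) hε1
  obtain ⟨r, hr, -, hfr⟩ := congr_close hf hε1
  set N2 : ℝ := (Fintype.card (Idx m) : ℝ) ^ 2 with hN2
  have hN20 : 0 ≤ N2 := sq_nonneg _
  -- the radius `r0`
  obtain ⟨r0, hr0, hr01, hr02⟩ : ∃ r0 : ℝ, 0 < r0 ∧ L * (N2 * r0) ≤ ε / 4 ∧
      16 * (l1 Ta⁻¹ ^ 2 + l1 Tb⁻¹ ^ 2) * r0 ≤ r := by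
    set X : ℝ := 16 * (l1 Ta⁻¹ ^ 2 + l1 Tb⁻¹ ^ 2) with hX
    have hX0 : 0 ≤ X := by positivity
    refine ⟨min (ε / (4 * (L * N2 + 1))) (r / (X + 1)), by positivity, ?_, ?_⟩
    · have h1 : min (ε / (4 * (L * N2 + 1))) (r / (X + 1)) ≤ ε / (4 * (L * N2 + 1)) :=
        min_le_left _ _
      have h2 : 0 ≤ L * N2 := by positivity
      calc L * (N2 * min (ε / (4 * (L * N2 + 1))) (r / (X + 1))) =
            (L * N2) * min (ε / (4 * (L * N2 + 1))) (r / (X + 1)) := by ring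
        _ ≤ (L * N2) * (ε / (4 * (L * N2 + 1))) := mul_le_mul_of_nonneg_left h1 h2
        _ ≤ ε / 4 := by
            rw [← mul_div_assoc, div_le_div_iff₀ (by positivity) (by norm_num)]
            nlinarith
    · have h1 : min (ε / (4 * (L * N2 + 1))) (r / (X + 1)) ≤ r / (X + 1) := min_le_right _ _
      calc X * min (ε / (4 * (L * N2 + 1))) (r / (X + 1)) ≤ X * (r / (X + 1)) :=
            mul_le_mul_of_nonneg_left h1 hX0
        _ ≤ r := by
            rw [← mul_div_assoc, div_le_iff₀ (by positivity)]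
            nlinarith
  refine ⟨r0, hr0, ?_⟩
  intro χ hχc hχ01 hχs ε2 hε2
  set Y : ℝ := Real.pi * ρ + 1 with hY
  have hπ : 0 < Real.pi * ρ := by positivity
  have hY0 : 0 < Y := by positivity
  set W : ℝ := (L + L') * N2 with hW
  have hW0 : 0 ≤ W := by positivity
  obtain ⟨θ, hθ, hθ1⟩ : ∃ θ : ℝ, 0 < θ ∧ W * θ ≤ ε2 / 12 := by
    refine ⟨ε2 / (12 * (W + 1)), by positivity, ?_⟩
    rw [← mul_div_assoc, div_le_div_iff₀ (by positivity) (by norm_num)]
    nlinarith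
  obtain ⟨εL, hεL, hεL1, hεL2⟩ : ∃ εL : ℝ, 0 < εL ∧ L * (N2 * εL) ≤ ε2 / 4 ∧ εL ≤ ε2 / 4 := by
    have h2 : 0 ≤ L * N2 := by positivity
    refine ⟨min (ε2 / (4 * (L * N2 + 1))) (ε2 / 4), by positivity, ?_, min_le_right _ _⟩
    have h1 : min (ε2 / (4 * (L * N2 + 1))) (ε2 / 4) ≤ ε2 / (4 * (L * N2 + 1)) := min_le_left _ _
    calc L * (N2 * min (ε2 / (4 * (L * N2 + 1))) (ε2 / 4)) =
          (L * N2) * min (ε2 / (4 * (L * N2 + 1))) (ε2 / 4) := by ring
      _ ≤ (L * N2) * (ε2 / (4 * (L * N2 + 1))) := mul_le_mul_of_nonneg_left h1 h2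
      _ ≤ ε2 / 4 := by
          rw [← mul_div_assoc, div_le_div_iff₀ (by positivity) (by norm_num)]
          nlinarith
  obtain ⟨K1, hK1, hIm'⟩ := hIm (min 1 (ε2 / 4)) (by positivity)
  obtain ⟨η1, hη1, K2, hK2, hLoc'⟩ := hLoc εL hεL
  have hK3 : ∃ K3 : ℝ, ∀ K : ℝ, K3 ≤ K → 1 ≤ K → W * (2 * (1 + δ) / K * Y) ≤ ε2 / 12 ∧
      W * (3 * (Y / K) / θ) ≤ ε2 / 12 := by
    refine ⟨max (W * (2 * (1 + δ) * Y) / (ε2 / 12)) (W * (3 * Y / θ) / (ε2 / 12)),
      fun K hK hK1 => ⟨?_, ?_⟩⟩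
    · have hKp : 0 < K := by linarith
      have h1 := le_of_mul_bound (by positivity : 0 < ε2 / 12) hKp
        ((le_max_left _ _).trans hK)
      have h2 : W * (2 * (1 + δ) / K * Y) = W * (2 * (1 + δ) * Y / K) := by ring
      rw [h2]
      exact h1
    · have hKp : 0 < K := by linarith
      have h1 := le_of_mul_bound (by positivity : 0 < ε2 / 12) hKp
        ((le_max_right _ _).trans hK)
      have h2 : W * (3 * (Y / K) / θ) = W * (3 * Y / θ / K) := by ring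
      rw [h2]
      exact h1
  obtain ⟨K3, hK3⟩ := hK3
  refine ⟨max (max K1 K2) (max (max 1 (2 * δ)) K3), by
    exact lt_of_lt_of_le hK1 ((le_max_left _ _).trans (le_max_left _ _)), ?_⟩
  intro K hK
  have hKK1 : K1 ≤ K := ((le_max_left _ _).trans (le_max_left _ _)).trans hK
  have hKK2 : K2 ≤ K := ((le_max_right _ _).trans (le_max_left _ _)).trans hK
  have hK1' : 1 ≤ K := ((le_max_left _ _).trans ((le_max_left _ _).trans (le_max_right _ _))).trans hK
  have hKδ' : 2 * δ ≤ K :=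
    ((le_max_right _ _).trans ((le_max_left _ _).trans (le_max_right _ _))).trans hK
  have hKK3 : K3 ≤ K := ((le_max_right _ _).trans (le_max_right _ _)).trans hK
  have hKδ : 2 * δ ≤ K ^ 2 := by nlinarith
  obtain ⟨hb21, hb22⟩ := hK3 K hKK3 hK1'
  have hK0 : 0 < K := by linarith
  set κ : ℝ := Y * (K ^ 3 + K) with hκ
  have hκ0 : 0 < κ := by positivity
  set kmax : ℕ := ⌊κ⌋₊ with hkmax
  obtain ⟨τ, hτ, hτ1⟩ : ∃ τ : ℝ, 0 < τ ∧ δ⁻¹ * (κ * (4 * B * τ)) ≤ ε2 / 4 := by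
    refine ⟨ε2 * δ / (16 * (κ + 1) * (B + 1)), by positivity, ?_⟩
    have h1 : δ⁻¹ * (κ * (4 * B * (ε2 * δ / (16 * (κ + 1) * (B + 1))))) =
        (κ * B * ε2) / (4 * (κ + 1) * (B + 1)) := by
      field_simp
      ring
    rw [h1, div_le_div_iff₀ (by positivity) (by norm_num)]
    nlinarith [mul_nonneg hκ0.le hB0, mul_nonneg (mul_nonneg hκ0.le hB0) hε2.le,
      mul_nonneg hκ0.le hε2.le, mul_nonneg hB0 hε2.le]
  set Φ : ℝ := 1 / τ + 1 with hΦ
  have hε3 : 0 < ε2 / 4 := by positivity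
  have hTs := fun k : ℕ => exists_TB hf ((Tref (m := m) Ta Tb ρ)⁻¹) hχc hχ01 hχs ρ Φ hε3 k
  choose T hT using hTs
  -- the finite index set
  set ι := Σ k : Fin (kmax + 1), Fin (T k).N with hι
  obtain ⟨M, hM, hM0⟩ : ∃ M : ℝ, ((Finset.univ : Finset ι).card : ℝ) = M ∧ 0 ≤ M :=
    ⟨_, rfl, Nat.cast_nonneg _⟩
  have hεM : 0 < ε2 / (4 * (M + 1)) := div_pos hε2 (by linarith)
  have hεp : ∀ p : ι, 0 < min (T p.1).ε (ε2 / (4 * (M + 1))) := fun p =>
    lt_min (T p.1).hε hεM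
  have hB1 := fun p : ι => hTB (p.1 : ℕ) (K ^ 2) ((T p.1).τ p.2) ((T p.1).χ p.2)
    ((T p.1).hχ p.2).1 ((T p.1).hχ p.2).2 _ (hεp p)
  choose ηp hηp hB2 using hB1
  obtain ⟨η2, hη2, hη2'⟩ := exists_pos_le ηp hηp
  refine ⟨min η1 η2, by positivity, ?_⟩
  intro η hη hηle
  have hηη1 : η ≤ η1 := hηle.trans (min_le_left _ _)
  have hηη2 : ∀ p, η ≤ ηp p := fun p => (hηle.trans (min_le_right _ _)).trans (hη2' p)
  have hB3 := fun p : ι => hB2 p η hη (hηη2 p)
  choose Np hNp using hB3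
  obtain ⟨N1, hN1⟩ := hIm' K hKK1
  obtain ⟨N3, hN3⟩ := hLoc' η hη hηη1 K hKK2
  refine ⟨max (max N1 N3) (max 1 (Finset.univ.sup Np)), ?_⟩
  intro n hn hne
  have hnN1 : N1 ≤ n := ((le_max_left _ _).trans (le_max_left _ _)).trans hn
  have hnN3 : N3 ≤ n := ((le_max_right _ _).trans (le_max_left _ _)).trans hn
  have hn1 : 1 ≤ n := ((le_max_left _ _).trans (le_max_right _ _)).trans hn
  have hnp : ∀ p, Np p ≤ n := fun p =>
    (Finset.le_sup (f := Np) (Finset.mem_univ p)).trans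
      (((le_max_right _ _).trans (le_max_right _ _)).trans hn)
  have hn0 : 0 < n := hn1
  -- the events
  have hE1 := hN1 n hnN1 hne
  have hE2 := hN3 n hnN3 hne
  have hE3 : Whp n d (ε2 / 4) fun G ω => ∀ p ∈ (Finset.univ : Finset ι),
      TBev (T p.1) p.2 (Hm G s ω) G E (K ^ 2) η ρ (T p.1).ε := by
    have h1 : ∀ p ∈ (Finset.univ : Finset ι), Whp n d (ε2 / (4 * (M + 1))) fun G ω =>
        TBev (T p.1) p.2 (Hm G s ω) G E (K ^ 2) η ρ (T p.1).ε := by
      intro p _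
      refine whp_mono (min_le_right _ _) (hNp p n (hnp p) hne) ?_
      intro G ω h F hF
      exact (h F hF).trans (min_le_left _ _)
    have h2 := whp_finset (Finset.univ : Finset ι) hεM.le h1
    refine whp_mono ?_ h2 fun G ω h => h
    rw [hM, ← mul_div_assoc, div_le_div_iff₀ (by linarith) (by norm_num)]
    nlinarith
  have hE12 := whp_and (by positivity) hεL.le hE1 hE2
  have hE123 := whp_and (by positivity) (by positivity) hE12 hE3
  have hfin := whp_of_base (by positivity) hE123 (Q := fun G ω =>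
    |PV G (Hm G s ω) E ρ K δ η Za Zb Ta Tb χ f -
        cAvg G (Hm G s ω) E η χ * TestVal (Hm G s ω) E ρ K δ (4 + m)
          (fun U => f (U.submatrix (idxEquiv m) (idxEquiv m)))| ≤
        ε * cAvg G (Hm G s ω) E η χ + ε2) ?_
  · refine whp_mono ?_ hfin fun G ω h => h
    have : min 1 (ε2 / 4) ≤ ε2 / 4 := min_le_right _ _
    linarith
  intro G ω hG _ hev
  obtain ⟨⟨h1, h2⟩, h3⟩ := hev
  have hH := Hm_herm G s ω
  have hYim : (mn (Hm G s ω) (zz E K n)).im ≤ Y := by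
    have h4 := (abs_le.1 (h1.trans (min_le_left _ _))).2
    rw [hY]; linarith
  obtain ⟨A, hA⟩ := exists_A hH hn0 (E := E) hη hρ
  have hcard := near_card hH hn0 hK1' hYim
  have hk : (Finset.univ.filter fun i => |hl hH E i| ≤ K ^ 2).card < kmax + 1 := by
    rw [Nat.lt_succ_iff, hkmax]
    exact Nat.le_floor hcard
  have hsw : SWprop hH E K η Φ (ε2 / 4) G f ((Tref Ta Tb ρ)⁻¹) χ A := by
    intro σ hσ hσn φ
    exact hT _ hH hG hn0 hd E K η A hA
      (fun j => h3 ⟨⟨_, hk⟩, j⟩ (Finset.mem_univ _)) σ hσ hσn φ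
  refine key_det hH hG hn0 hd hε hρ hK1' hδ hKδ hτ hθ hη hY0 hYim hZa hZb hTa hTb ha hb hf hB0 hB
    hL hfL hL' hfL' hfr hr0.le hr02 hχ01 hχs hA hsw h2 ?_ ?_ hεL1 le_rfl hτ1
  · linarith
  · have e1 : (L + L') * (N2 * (2 * (1 + δ) / K * Y + (θ + 3 * (Y / K) / θ))) =
        W * (2 * (1 + δ) / K * Y) + W * θ + W * (3 * (Y / K) / θ) := by rw [hW]; ring
    rw [e1]
    linarith

end Crest.Agent.R166.Inv988
end

-- ▼ part R166/InvFin_348

/-!
Row 166, section 50 (helper348): `InvG` from Theorem B and the local law outputs.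
-/

set_option autoImplicit false

namespace Crest.Agent.R166.InvFin348

/-- section 50, final form -/
theorem invG {d : ℕ} (hd : 0 < d) {s E ρ : ℝ} (hρ : 0 < ρ) (hB : ThmB d s E ρ)
    (hIm : ImLim d s E ρ) (hLoc : LocLim d s E) (hND : NonDeg d s E) : InvG d s E ρ :=
  InvG348.invG hd hρ (Env536.envDet d hd s E) hLoc hND (Inv988.keyCmp hd hρ hB hIm hLoc)

end Crest.Agent.R166.InvFin348
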