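import Crest.Agent.R166.InvB_348
import Crest.Agent.R166.SwAvg_798

/-!
Row 166, section 50 (helper348): blocks at fixed `η` versus cavity values.
-/

set_option autoImplicit false
set_option linter.unusedSectionVars false

namespace Crest.Agent.R166.InvP348

open Matrix Complex Crest.Agent.R166.Res789 Crest.Agent.R166.InvB348
  Crest.Agent.R166.Inv988

section general

variable {P : Type*} [Fintype P] [DecidableEq P]

/-- difference of two perturbed blocks -/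
lemma Pm_sub_Pm {Z D : Matrix P P ℂ} (hZ : Sieg Z) (hD : Sieg D) {K : Matrix P P ℝ}
    (hK : Kᵀ = K) :
    Pm Z K - Pm D K = (1 - Pm Z K * cx K) * (Z - D) * (1 - cx K * Pm D K) := by
  have a1 : (1 - Pm Z K * cx K) * Z = Pm Z K := by
    -- b = Z - b W Z
    have h1 : (1 + Z * cx K) * Pm Z K = Z := by
      rw [hZ.Pm_eq' hK, ← mul_assoc, Matrix.mul_nonsing_inv _ (hZ.isUnit_one_add hK), one_mul]
    have h2 : Pm Z K * (1 + cx K * Z) = Z := by
      rw [hZ.Pm_eq hK, mul_assoc, Matrix.nonsing_inv_mul _ (hZ.isUnit_one_add' hK), mul_one]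
    have h3 : Pm Z K + Pm Z K * cx K * Z = Z := by
      rw [mul_add, mul_one, ← mul_assoc] at h2
      exact h2
    rw [sub_mul, one_mul]
    nth_rewrite 1 [← h3]
    abel
  have a2 : D * (1 - cx K * Pm D K) = Pm D K := by
    have h1 : (1 + D * cx K) * Pm D K = D := by
      rw [hD.Pm_eq' hK, ← mul_assoc, Matrix.mul_nonsing_inv _ (hD.isUnit_one_add hK), one_mul]
    have h3 : Pm D K + D * (cx K * Pm D K) = D := by
      rw [add_mul, one_mul, mul_assoc] at h1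
      exact h1
    rw [mul_sub, mul_one]
    nth_rewrite 1 [← h3]
    abel
  have a3 : (1 - Pm Z K * cx K) * (Z - D) = Pm Z K - (1 - Pm Z K * cx K) * D := by
    rw [mul_sub, a1]
  rw [a3, sub_mul, mul_assoc _ D, a2, mul_sub, mul_one, sub_mul, one_mul, mul_assoc]
  abel

end general

section res

variable {V : Type*} [Fintype V] [DecidableEq V]

lemma ward_diag {H : Matrix V V ℝ} (hH : Hᵀ = H) {z : ℂ} (hz : 0 < z.im) (v : V) :
    (Res789.Res H z v v).im = z.im * ∑ w, ‖Res789.Res H z v w‖ ^ 2 := by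
  have h := congrFun (congrFun (ward hH hz) v) v
  rw [cx_apply, imM_apply, Matrix.smul_apply, Matrix.mul_apply] at h
  have h1 : ∑ j, Res789.Res H z v j * (Res789.Res H z)ᴴ j v = ((∑ w, ‖Res789.Res H z v w‖ ^ 2 : ℝ) : ℂ) := by
    push_cast
    refine Finset.sum_congr rfl fun w _ => ?_
    rw [Matrix.conjTranspose_apply]
    have := Complex.mul_conj (Res789.Res H z v w)
    rw [Complex.star_def, this, Complex.normSq_eq_norm_sq]
    push_cast
    ring
  rw [h1, smul_eq_mul] at h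
  exact_mod_cast h

lemma diag_ineq {H : Matrix V V ℝ} (hH : Hᵀ = H) {z : ℂ} (hz : 0 < z.im) (v : V) :
    z.im * ‖Res789.Res H z v v‖ ^ 2 ≤ (Res789.Res H z v v).im := by
  rw [ward_diag hH hz]
  refine mul_le_mul_of_nonneg_left ?_ hz.le
  exact Finset.single_le_sum (f := fun w => ‖Res789.Res H z v w‖ ^ 2) (fun w _ => by positivity)
    (Finset.mem_univ v)

lemma norm_Res_diag_le {H : Matrix V V ℝ} (hH : Hᵀ = H) {z : ℂ} (hz : 0 < z.im) (v : V) :
    ‖Res789.Res H z v v‖ ≤ 1 / z.im := by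
  have h1 := diag_ineq hH hz v
  have h2 := (le_abs_self _).trans (Complex.abs_im_le_norm (Res789.Res H z v v))
  rw [le_div_iff₀ hz]
  by_contra h3
  push Not at h3
  have h4 : 0 < ‖Res789.Res H z v v‖ := by
    by_contra h5
    have : ‖Res789.Res H z v v‖ = 0 := le_antisymm (not_lt.1 h5) (norm_nonneg _)
    rw [this] at h3
    linarith
  nlinarith

lemma norm_Res_le {H : Matrix V V ℝ} (hH : Hᵀ = H) {z : ℂ} (hz : 0 < z.im) (v w : V) :
    ‖Res789.Res H z v w‖ ≤ 1 / z.im := by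
  have h1 := ward_diag hH hz v
  have h2 := (le_abs_self _).trans (Complex.abs_im_le_norm (Res789.Res H z v v))
  have h3 := norm_Res_diag_le hH hz v
  have h4 : z.im * ‖Res789.Res H z v w‖ ^ 2 ≤ 1 / z.im := by
    refine le_trans ?_ (h2.trans h3)
    rw [h1]
    refine mul_le_mul_of_nonneg_left ?_ hz.le
    exact Finset.single_le_sum (f := fun w => ‖Res789.Res H z v w‖ ^ 2) (fun w _ => by positivity)
      (Finset.mem_univ w)
  rw [le_div_iff₀ hz] at h4 ⊢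
  have h5 : (‖Res789.Res H z v w‖ * z.im) ^ 2 ≤ 1 := by nlinarith
  have h6 : 0 ≤ ‖Res789.Res H z v w‖ * z.im := by positivity
  nlinarith

lemma res_im_pos {H : Matrix V V ℝ} (hH : Hᵀ = H) {z : ℂ} (hz : 0 < z.im) (v : V) :
    0 < (Res789.Res H z v v).im := by
  have hs := Res_sieg hH hz
  have h1 := hs.posDef
  have := h1.diag_pos (i := v)
  simpa using this

end res

/-! ### explicit formula for the clean block -/

lemma one_sub_ne {a1 a2 : ℂ} (h1 : 0 < a1.im) (h2 : 0 < a2.im) : 1 - a1 * a2 ≠ 0 := by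
  intro h
  have h3 : a1 * a2 = 1 := by linear_combination -h
  have h4 : a2 ≠ 0 := by
    rintro rfl
    simp at h2
  have h5 : a1 = a2⁻¹ := by field_simp; exact h3
  rw [h5, Complex.inv_im] at h1
  have h6 : 0 < Complex.normSq a2 := Complex.normSq_pos.2 h4
  have : -a2.im / Complex.normSq a2 < 0 := div_neg_of_neg_of_pos (by linarith) h6
  linarith

lemma diag2 (a1 a2 : ℂ) :
    (1 : Matrix (Fin 2) (Fin 2) ℂ) + diagonal ![a1, a2] * cx W2 = !![1, a1; a2, 1] := by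
  ext i j
  fin_cases i <;> fin_cases j <;> simp [W2, Matrix.diagonal_mul]

lemma Ze2_eq {a1 a2 : ℂ} (h1 : 0 < a1.im) (h2 : 0 < a2.im) :
    Ze2 a1 a2 = (1 - a1 * a2)⁻¹ • !![a1, -(a1 * a2); -(a1 * a2), a2] := by
  have hs := sieg_diagonal (vec2_im h1 h2)
  have hne := one_sub_ne h1 h2
  have e1 : (1 + diagonal ![a1, a2] * cx W2) * ((1 - a1 * a2)⁻¹ •
      !![a1, -(a1 * a2); -(a1 * a2), a2]) = diagonal ![a1, a2] := by
    have hne' : 1 - a2 * a1 ≠ 0 := by rwa [mul_comm]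
    rw [diag2, Matrix.mul_smul]
    have e2 : (!![1, a1; a2, 1] : Matrix (Fin 2) (Fin 2) ℂ) *
        !![a1, -(a1 * a2); -(a1 * a2), a2] = (1 - a1 * a2) • diagonal ![a1, a2] := by
      ext i j
      fin_cases i <;> fin_cases j <;> simp [Matrix.mul_apply, Fin.sum_univ_two] <;> ring
    rw [e2, smul_smul, inv_mul_cancel₀ hne, one_smul]
  unfold Ze2
  rw [hs.Pm_eq' W2_symm]
  calc (1 + diagonal ![a1, a2] * cx W2)⁻¹ * diagonal ![a1, a2]
      = (1 + diagonal ![a1, a2] * cx W2)⁻¹ * ((1 + diagonal ![a1, a2] * cx W2) *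
        ((1 - a1 * a2)⁻¹ • !![a1, -(a1 * a2); -(a1 * a2), a2])) := by rw [e1]
    _ = _ := by
      rw [← mul_assoc, Matrix.nonsing_inv_mul _ (hs.isUnit_one_add W2_symm), one_mul]

lemma key_lower {a1 a2 : ℂ} {η : ℝ} (hη : 0 < η) (h1 : 0 < a1.im)
    (e1 : η * ‖a1‖ ^ 2 ≤ a1.im) (e2 : η * ‖a2‖ ^ 2 ≤ a2.im) :
    η * ‖a1‖ * (1 + ‖a2‖ ^ 2) ≤ ‖1 - a1 * a2‖ := by
  have ha : a1 ≠ 0 := by
    rintro rfl
    simp at h1
  have hn : 0 < ‖a1‖ := norm_pos_iff.2 ha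
  have h3 : 1 - a1 * a2 = a1 * (a1⁻¹ - a2) := by field_simp
  rw [h3, norm_mul]
  have h4 : |(a1⁻¹ - a2).im| ≤ ‖a1⁻¹ - a2‖ := Complex.abs_im_le_norm _
  have h5 : (a1⁻¹ - a2).im = -(a1.im / ‖a1‖ ^ 2 + a2.im) := by
    rw [Complex.sub_im, Complex.inv_im, Complex.normSq_eq_norm_sq]
    ring
  have h6 : η + η * ‖a2‖ ^ 2 ≤ a1.im / ‖a1‖ ^ 2 + a2.im := by
    have : η ≤ a1.im / ‖a1‖ ^ 2 := by rw [le_div_iff₀ (by positivity)]; exact e1
    linarith
  have h7 : 0 ≤ a1.im / ‖a1‖ ^ 2 + a2.im := le_trans (by positivity) h6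
  rw [h5, abs_neg, abs_of_nonneg h7] at h4
  calc η * ‖a1‖ * (1 + ‖a2‖ ^ 2) = ‖a1‖ * (η + η * ‖a2‖ ^ 2) := by ring
    _ ≤ ‖a1‖ * ‖a1⁻¹ - a2‖ := by
        apply mul_le_mul_of_nonneg_left _ hn.le
        exact h6.trans h4

/-- the clean block is bounded by `1/η` -/
lemma norm_Ze2_le {a1 a2 : ℂ} {η : ℝ} (hη : 0 < η) (h1 : 0 < a1.im) (h2 : 0 < a2.im)
    (e1 : η * ‖a1‖ ^ 2 ≤ a1.im) (e2 : η * ‖a2‖ ^ 2 ≤ a2.im) (i j : Fin 2) :
    ‖Ze2 a1 a2 i j‖ ≤ 1 / η := by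
  have k1 := key_lower hη h1 e1 e2
  have k2 := key_lower hη h2 e2 e1
  rw [mul_comm a2 a1] at k2
  have hne := one_sub_ne h1 h2
  have hn : 0 < ‖1 - a1 * a2‖ := norm_pos_iff.2 hne
  have p1 := norm_nonneg a1
  have p2 := norm_nonneg a2
  have main : ∀ t : ℂ, η * ‖t‖ ≤ ‖1 - a1 * a2‖ → ‖(1 - a1 * a2)⁻¹ * t‖ ≤ 1 / η := by
    intro t ht
    rw [norm_mul, norm_inv, inv_mul_le_iff₀ hn, mul_one_div, le_div_iff₀ hη]
    linarith
  have q1 : 0 ≤ η * ‖a1‖ * ‖a2‖ ^ 2 := by positivity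
  have q2 : 0 ≤ η * ‖a2‖ * ‖a1‖ ^ 2 := by positivity
  have f1 : ‖(1 - a1 * a2)⁻¹ * a1‖ ≤ 1 / η := main _ (by nlinarith)
  have f2 : ‖(1 - a1 * a2)⁻¹ * a2‖ ≤ 1 / η := main _ (by nlinarith)
  have f3 : ‖(1 - a1 * a2)⁻¹ * -(a1 * a2)‖ ≤ 1 / η := by
    apply main
    rw [norm_neg, norm_mul]
    have : ‖a2‖ ≤ 1 + ‖a2‖ ^ 2 := by nlinarith [sq_nonneg (‖a2‖ - 1)]
    calc η * (‖a1‖ * ‖a2‖) = η * ‖a1‖ * ‖a2‖ := by ring
      _ ≤ η * ‖a1‖ * (1 + ‖a2‖ ^ 2) := by gcongr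
      _ ≤ _ := k1
  rw [Ze2_eq h1 h2]
  fin_cases i <;> fin_cases j
  · simpa using f1
  · simpa using f3
  · simpa using f3
  · simpa using f2

/-! ### four ports -/

/-- two edges -/
def W4 : Matrix (Fin 2 ⊕ Fin 2) (Fin 2 ⊕ Fin 2) ℝ := fromBlocks W2 0 0 W2

lemma W4_symm : W4ᵀ = W4 := by
  unfold W4
  rw [fromBlocks_transpose, W2_symm]
  simp

/-- the partner port -/
def prt : Fin 2 ⊕ Fin 2 → Fin 2 ⊕ Fin 2
  | Sum.inl i => Sum.inl (1 - i)
  | Sum.inr i => Sum.inr (1 - i)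

lemma mul_W4 (M : Matrix (Fin 2 ⊕ Fin 2) (Fin 2 ⊕ Fin 2) ℂ) (i k : Fin 2 ⊕ Fin 2) :
    (M * cx W4) i k = M i (prt k) := by
  rcases k with k | k <;> fin_cases k <;>
    simp [W4, W2, prt, Matrix.mul_apply, Fin.sum_univ_two]

lemma W4_mul (M : Matrix (Fin 2 ⊕ Fin 2) (Fin 2 ⊕ Fin 2) ℂ) (i k : Fin 2 ⊕ Fin 2) :
    (cx W4 * M) i k = M (prt i) k := by
  rcases i with i | i <;> fin_cases i <;>
    simp [W4, W2, prt, Matrix.mul_apply, Fin.sum_univ_two]

/-- off-diagonal mass of a matrix -/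
noncomputable def off {P : Type*} [Fintype P] [DecidableEq P] (Z : Matrix P P ℂ) : ℝ :=
  ∑ k, ∑ l, if k = l then 0 else ‖Z k l‖


lemma entry_one_le {P : Type*} [DecidableEq P] (i j : P) : ‖(1 : Matrix P P ℂ) i j‖ ≤ 1 := by
  rw [Matrix.one_apply]; split_ifs <;> simp

lemma close_aux {Z : Matrix (Fin 2 ⊕ Fin 2) (Fin 2 ⊕ Fin 2) ℂ} (hZ : Sieg Z)
    (hd : ∀ i, 0 < (Z i i).im) {η : ℝ} (hη : 0 < η)
    (hb : ∀ i j, ‖Pm Z W4 i j‖ ≤ 1 / η)
    (hi : ∀ i, η * ‖Z i i‖ ^ 2 ≤ (Z i i).im) (i j : Fin 2 ⊕ Fin 2) :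
    ‖Pm Z W4 i j - (fromBlocks (Ze2 (Z (Sum.inl 0) (Sum.inl 0)) (Z (Sum.inl 1) (Sum.inl 1))) 0 0
      (Ze2 (Z (Sum.inr 0) (Sum.inr 0)) (Z (Sum.inr 1) (Sum.inr 1))) :
        Matrix (Fin 2 ⊕ Fin 2) (Fin 2 ⊕ Fin 2) ℂ) i j‖ ≤ (1 + 1 / η) ^ 2 * off Z := by
  set D : Matrix (Fin 2 ⊕ Fin 2) (Fin 2 ⊕ Fin 2) ℂ := diagonal fun i => Z i i with hD
  have hsD : Sieg D := sieg_diagonal hd
  have e1 : Pm D W4 = fromBlocks (Ze2 (Z (Sum.inl 0) (Sum.inl 0)) (Z (Sum.inl 1) (Sum.inl 1))) 0 0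
      (Ze2 (Z (Sum.inr 0) (Sum.inr 0)) (Z (Sum.inr 1) (Sum.inr 1))) := by
    have e2 : D = fromBlocks (diagonal ![Z (Sum.inl 0) (Sum.inl 0), Z (Sum.inl 1) (Sum.inl 1)]) 0 0
        (diagonal ![Z (Sum.inr 0) (Sum.inr 0), Z (Sum.inr 1) (Sum.inr 1)]) := by
      rw [Matrix.fromBlocks_diagonal, hD]
      congr 1
      funext i
      rcases i with i | i <;> fin_cases i <;> simp
    have s1 := sieg_diagonal (vec2_im (hd (Sum.inl 0)) (hd (Sum.inl 1)))
    have s2 := sieg_diagonal (vec2_im (hd (Sum.inr 0)) (hd (Sum.inr 1)))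
    rw [e2]
    unfold W4
    rw [Pm_fromBlocks s1 s2 W2_symm W2_symm]
    rfl
  rw [← e1, ← Matrix.sub_apply, Pm_sub_Pm hZ hsD W4_symm]
  have hη1 : 0 ≤ 1 / η := by positivity
  have hbD : ∀ i j, ‖Pm D W4 i j‖ ≤ 1 / η := by
    intro i j
    rw [e1]
    rcases i with i | i <;> rcases j with j | j
    · exact norm_Ze2_le hη (hd _) (hd _) (hi _) (hi _) i j
    · simpa using hη.le
    · simpa using hη.le
    · exact norm_Ze2_le hη (hd _) (hd _) (hi _) (hi _) i j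
  have b1 : ∀ i k, ‖(1 - Pm Z W4 * cx W4) i k‖ ≤ 1 + 1 / η := by
    intro i k
    rw [Matrix.sub_apply, mul_W4]
    exact (norm_sub_le _ _).trans (add_le_add (entry_one_le _ _) (hb _ _))
  have b2 : ∀ i k, ‖(1 - cx W4 * Pm D W4) i k‖ ≤ 1 + 1 / η := by
    intro i k
    rw [Matrix.sub_apply, W4_mul]
    exact (norm_sub_le _ _).trans (add_le_add (entry_one_le _ _) (hbD _ _))
  have b3 : ∀ k l, ‖(Z - D) k l‖ = if k = l then 0 else ‖Z k l‖ := by
    intro k l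
    rw [Matrix.sub_apply, hD, Matrix.diagonal_apply]
    split_ifs with h
    · subst h; simp
    · simp
  rw [Matrix.mul_apply]
  have hc : (0 : ℝ) ≤ 1 + 1 / η := by positivity
  calc ‖∑ l, ((1 - Pm Z W4 * cx W4) * (Z - D)) i l * (1 - cx W4 * Pm D W4) l j‖
      ≤ ∑ l, ‖((1 - Pm Z W4 * cx W4) * (Z - D)) i l‖ * ‖(1 - cx W4 * Pm D W4) l j‖ := by
        refine (norm_sum_le _ _).trans (Finset.sum_le_sum fun l _ => ?_)
        exact norm_mul_le _ _
    _ ≤ ∑ l, (∑ k, (1 + 1 / η) * (if k = l then 0 else ‖Z k l‖)) * (1 + 1 / η) := by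
        refine Finset.sum_le_sum fun l _ => ?_
        refine mul_le_mul ?_ (b2 _ _) (norm_nonneg _) ?_
        · rw [Matrix.mul_apply]
          refine (norm_sum_le _ _).trans (Finset.sum_le_sum fun k _ => ?_)
          rw [norm_mul, b3]
          refine mul_le_mul_of_nonneg_right (b1 _ _) ?_
          split_ifs <;> positivity
        · refine Finset.sum_nonneg fun k _ => mul_nonneg hc ?_
          split_ifs <;> positivity
    _ = (1 + 1 / η) ^ 2 * off Z := by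
        unfold off
        rw [Finset.sum_comm]
        simp only [← Finset.mul_sum, ← Finset.sum_mul]
        rw [Finset.sum_comm]
        ring

/-- squared off-diagonal mass -/
noncomputable def offsq {P : Type*} [Fintype P] [DecidableEq P] (Z : Matrix P P ℂ) : ℝ :=
  ∑ k, ∑ l, if k = l then 0 else ‖Z k l‖ ^ 2

lemma offsq_nonneg {P : Type*} [Fintype P] [DecidableEq P] (Z : Matrix P P ℂ) : 0 ≤ offsq Z := by
  unfold offsq
  refine Finset.sum_nonneg fun k _ => Finset.sum_nonneg fun l _ => ?_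
  split_ifs <;> positivity

lemma off_sq_le {P : Type*} [Fintype P] [DecidableEq P] (Z : Matrix P P ℂ) :
    off Z ^ 2 ≤ (Fintype.card P : ℝ) ^ 2 * offsq Z := by
  unfold off offsq
  rw [← Fintype.sum_prod_type', ← Fintype.sum_prod_type']
  refine (sq_sum_le_card_mul_sum_sq).trans (le_of_eq ?_)
  rw [Finset.card_univ, Fintype.card_prod]
  push_cast
  rw [sq]
  congr 1
  refine Finset.sum_congr rfl fun p _ => ?_
  split_ifs <;> simp

/-- the four ports of two pairs -/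
def pf {V : Type*} (p q : V × V) : Fin 2 ⊕ Fin 2 → V := Sum.elim ![p.1, p.2] ![q.1, q.2]

lemma offsq_sub {V : Type*} [Fintype V] [DecidableEq V] (R : Matrix V V ℂ) (x y u w : V) :
    offsq (R.submatrix (pf (x, y) (u, w)) (pf (x, y) (u, w))) =
      offsq (R.submatrix ![x, y, u, w] ![x, y, u, w]) := by
  unfold offsq pf
  simp only [Fintype.sum_sum_type, Fin.sum_univ_two, Fin.sum_univ_four, Matrix.submatrix_apply,
    Sum.elim_inl, Sum.elim_inr, Matrix.cons_val_zero, Matrix.cons_val_one, Matrix.cons_val]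
  simp
  ring

lemma offsq_swap {V : Type*} [Fintype V] [DecidableEq V] (R : Matrix V V ℂ) (x y u w : V) :
    offsq (R.submatrix ![x, u, y, w] ![x, u, y, w]) =
      offsq (R.submatrix ![x, y, u, w] ![x, y, u, w]) := by
  unfold offsq
  simp only [Fin.sum_univ_four, Matrix.submatrix_apply, Matrix.cons_val_zero,
    Matrix.cons_val_one, Matrix.cons_val]
  simp
  ring

lemma pf_injective {V : Type*} {p q : V × V} (h1 : p.1 ≠ p.2) (h2 : q.1 ≠ q.2)
    (h3 : p.1 ≠ q.1) (h4 : p.1 ≠ q.2) (h5 : p.2 ≠ q.1) (h6 : p.2 ≠ q.2) :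
    Function.Injective (pf p q) := by
  intro i j hij
  rcases i with i | i <;> rcases j with j | j <;> fin_cases i <;> fin_cases j <;>
    simp_all [pf, eq_comm]

lemma emb_W4 {n : ℕ} {p q : Fin n × Fin n} (h1 : p.1 ≠ p.2) (h2 : q.1 ≠ q.2) :
    emb (pf p q) W4 = SwAvg798.Wp p + SwAvg798.Wp q := by
  obtain ⟨x, y⟩ := p
  obtain ⟨u, w⟩ := q
  ext a b
  rw [emb_apply, Matrix.add_apply]
  simp only [Fintype.sum_sum_type, Fin.sum_univ_two, W4, W2, fromBlocks_apply₁₁,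
    fromBlocks_apply₁₂, fromBlocks_apply₂₁, fromBlocks_apply₂₂, Matrix.of_apply,
    Matrix.cons_val', Matrix.cons_val_zero, Matrix.cons_val_one, Matrix.cons_val_fin_one,
    Matrix.zero_apply, pf, Sum.elim_inl, Sum.elim_inr, SwAvg798.Wp]
  simp only at h1 h2
  by_cases a1 : a = x <;> by_cases a2 : a = y <;> by_cases a3 : b = x <;> by_cases a4 : b = y <;>
    by_cases b1 : a = u <;> by_cases b2 : a = w <;> by_cases b3 : b = u <;>
    by_cases b4 : b = w <;> simp_all [eq_comm]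

section blk

variable {n : ℕ}

lemma ze_im (E η : ℝ) : (ze E η).im = η := by
  simp [ze]

lemma bnorm_le_iff (B : M2) (c : ℝ) : bnorm B ≤ c ↔ ∀ i j, ‖B i j‖ ≤ c := by
  unfold bnorm
  rw [max_le_iff, max_le_iff, max_le_iff]
  constructor
  · rintro ⟨⟨h1, h2⟩, h3, h4⟩ i j
    fin_cases i <;> fin_cases j <;> assumption
  · intro h
    exact ⟨⟨h _ _, h _ _⟩, h _ _, h _ _⟩

/-- blocks of `H0 + two edges` are close to the clean blocks with the cavity values -/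
theorem blk_close {H0 : Matrix (Fin n) (Fin n) ℝ} (hH0 : H0ᵀ = H0) {f : Fin 2 ⊕ Fin 2 → Fin n}
    (hf : Function.Injective f) (E : ℝ) {η : ℝ} (hη : 0 < η) :
    bnorm (Blk (Crest.Agent.R166.Res (H0 + emb f W4) (ze E η)) (f (Sum.inl 0)) (f (Sum.inl 1)) -
      Ze2 (Res789.Res H0 (ze E η) (f (Sum.inl 0)) (f (Sum.inl 0)))
        (Res789.Res H0 (ze E η) (f (Sum.inl 1)) (f (Sum.inl 1)))) ≤
      (1 + 1 / η) ^ 2 * off ((Res789.Res H0 (ze E η)).submatrix f f) ∧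
    bnorm (Blk (Crest.Agent.R166.Res (H0 + emb f W4) (ze E η)) (f (Sum.inr 0)) (f (Sum.inr 1)) -
      Ze2 (Res789.Res H0 (ze E η) (f (Sum.inr 0)) (f (Sum.inr 0)))
        (Res789.Res H0 (ze E η) (f (Sum.inr 1)) (f (Sum.inr 1)))) ≤
      (1 + 1 / η) ^ 2 * off ((Res789.Res H0 (ze E η)).submatrix f f) := by
  have hz : 0 < (ze E η).im := by rw [ze_im]; exact hη
  have hs := (Res_sieg hH0 hz).submatrix hf
  set Z := (Res789.Res H0 (ze E η)).submatrix f f with hZ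
  have hH : (H0 + emb f W4)ᵀ = H0 + emb f W4 := by
    rw [Matrix.transpose_add, hH0, emb_symm f W4_symm]
  have hblock := Res_emb_block hH0 hz hf W4_symm
  have hb : ∀ i j, ‖Pm Z W4 i j‖ ≤ 1 / η := by
    intro i j
    rw [← hblock, Matrix.submatrix_apply]
    have := norm_Res_le hH hz (f i) (f j)
    rwa [ze_im] at this
  have hi : ∀ i, η * ‖Z i i‖ ^ 2 ≤ (Z i i).im := by
    intro i
    have := diag_ineq hH0 hz (f i)
    rwa [ze_im] at this
  have hd : ∀ i, 0 < (Z i i).im := fun i => res_im_pos hH0 hz (f i)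
  have key := close_aux hs hd hη hb hi
  have hR : ∀ i j, Crest.Agent.R166.Res (H0 + emb f W4) (ze E η) (f i) (f j) = Pm Z W4 i j := by
    intro i j
    rw [← hblock]
    rfl
  constructor
  · rw [bnorm_le_iff]
    intro i j
    have h := key (Sum.inl i) (Sum.inl j)
    rw [fromBlocks_apply₁₁, ← hR] at h
    have h2 : Blk (Crest.Agent.R166.Res (H0 + emb f W4) (ze E η)) (f (Sum.inl 0)) (f (Sum.inl 1)) i j =
        Crest.Agent.R166.Res (H0 + emb f W4) (ze E η) (f (Sum.inl i)) (f (Sum.inl j)) := by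
      unfold Blk
      rw [Matrix.submatrix_apply]
      fin_cases i <;> fin_cases j <;> rfl
    rw [Matrix.sub_apply, h2]
    exact h
  · rw [bnorm_le_iff]
    intro i j
    have h := key (Sum.inr i) (Sum.inr j)
    rw [fromBlocks_apply₂₂, ← hR] at h
    have h2 : Blk (Crest.Agent.R166.Res (H0 + emb f W4) (ze E η)) (f (Sum.inr 0)) (f (Sum.inr 1)) i j =
        Crest.Agent.R166.Res (H0 + emb f W4) (ze E η) (f (Sum.inr i)) (f (Sum.inr j)) := by
      unfold Blk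
      rw [Matrix.submatrix_apply]
      fin_cases i <;> fin_cases j <;> rfl
    rw [Matrix.sub_apply, h2]
    exact h

end blk

end Crest.Agent.R166.InvP348
private theorem rz_11f2fce2fa : type_of% @_root_.Crest.Agent.R166.InvP348.prt.eq_1 := @_root_.Crest.Agent.R166.InvP348.prt.eq_1 -- L224
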