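import Mathlib
import Crest.Agent.R166.NoiseLim5_849
import Crest.Agent.R166.TreeG_879
import Crest.Agent.R166.Spec_B1_955
import Crest.Agent.R166.TreeLike4_942

/-!
Row 166, section 40.2 (helper849): the law `P_η` of `(label, ω, X, Z)`.

* `inv_of_tendsto`: limits of empirical laws are invariant;
* `arr`: the array of 980's `Seq`; `gamG`: the covariance kernel `c Im treeG(E+iη)`;
* `loc_arr`: locality of `g_η(H)`;
* `lawEta`: existence of the limit law with noise, its marginal, invariance and characteristic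
  function; `stmt_Noisy : SpecB1.Stmt_Noisy`.
-/

set_option autoImplicit false
set_option linter.unusedSectionVars false

noncomputable section

namespace Crest.Agent.R166.NoiseLim849

open MeasureTheory ProbabilityTheory Matrix Filter Topology BoundedContinuousFunction
open Crest.Agent.R166.Noise547 Crest.Agent.R166.Gauss286 Crest.Agent.R166.NoiseLLN849
open Crest.Agent.R166.Words955 Crest.Agent.R166.LimLaw980 Crest.Agent.R166.TreeG879

attribute [local instance] opens_S2 borel_S2 polish_S2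

/-! ### Invariance -/

section inv
variable {d : ℕ} [NeZero d] {S : Type*} [MeasurableSpace S] {V : Type*} [Fintype V]
  {E : Type*} [NormedAddCommGroup E] [NormedSpace ℝ E] [CompleteSpace E]
  [MeasurableSingletonClass (Conf d S)]

theorem integral_emp_cross (p : V × Fin d → V × Fin d) (hp : ∀ h, p (p h) = h)
    (c : V × Fin d → S) (f : Conf d S → E) :
    ∫ ζ, f (cross ζ) ∂(emp p c) = ∫ ζ, f ζ ∂(emp p c) := by
  rw [integral_emp, integral_emp]
  congr 1
  simp only [← conf_flip p hp]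
  exact (Function.Involutive.bijective hp).sum_comp fun h => f (conf p c h)

theorem integral_emp_rotn [PortAct d S] (p : V × Fin d → V × Fin d)
    (c : V × Fin d → S) (hc : ∀ v l i, c (v, l + i) = PortAct.rs i (c (v, l))) (i : Fin d)
    (f : Conf d S → E) :
    ∫ ζ, f (rotn i ζ) ∂(emp p c) = ∫ ζ, f ζ ∂(emp p c) := by
  rw [integral_emp, integral_emp]
  congr 1
  simp only [← conf_rot p c hc]
  have h2 : Function.Bijective (fun h : V × Fin d => (h.1, h.2 + i)) := by
    constructor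
    · rintro ⟨a, b⟩ ⟨a', b'⟩ h
      simp only [Prod.mk.injEq, add_left_inj] at h
      rw [h.1, h.2]
    · rintro ⟨a, b⟩
      exact ⟨(a, b - i), by simp⟩
  exact h2.sum_comp fun h => f (conf p c h)

end inv

/-- limits of measures invariant under a continuous map are invariant -/
theorem map_eq_of_tendsto {E : Type*} [TopologicalSpace E] [MeasurableSpace E] [BorelSpace E]
    [PolishSpace E] {B : Type*} {l : Filter B} [l.NeBot] {μ : B → ProbabilityMeasure E}
    {Q : ProbabilityMeasure E} (h : Tendsto μ l (𝓝 Q)) {T : E → E} (hT : Continuous T)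
    (hinv : ∀ b (f : E → ℝ), Continuous f → (∃ C, ∀ x, |f x| ≤ C) →
      ∫ x, f (T x) ∂(μ b : Measure E) = ∫ x, f x ∂(μ b : Measure E)) :
    (Q : Measure E).map T = Q := by
  have : IsProbabilityMeasure ((Q : Measure E).map T) :=
    Measure.isProbabilityMeasure_map hT.measurable.aemeasurable
  refine ext_of_forall_integral_eq_of_IsFiniteMeasure fun f => ?_
  rw [integral_map hT.measurable.aemeasurable f.continuous.aestronglyMeasurable]
  have h1 := (ProbabilityMeasure.tendsto_iff_forall_integral_tendsto.1 h)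
    (f.compContinuous ⟨T, hT⟩)
  have h2 := (ProbabilityMeasure.tendsto_iff_forall_integral_tendsto.1 h) f
  refine tendsto_nhds_unique h1 (h2.congr fun b => ?_)
  exact (hinv b f f.continuous ⟨‖f‖, fun x => f.norm_coe_le_norm x⟩).symm

section arr
variable {A : Type*} {d k : ℕ} [NeZero d]

/-- a limit of the laws `e2` is invariant -/
theorem inv_of_e2 {𝒜 : Arr A d k} {g : ℝ → ℝ} {B : Type*} {l : Filter B} [l.NeBot]
    {a : B → A} {ξ : ∀ b, Fin k → Fin (𝒜.n (a b)) → ℝ}
    {Q : ProbabilityMeasure (Conf d (S2 d k))}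
    (h : Tendsto (fun b => 𝒜.e2 g (a b) (ξ b)) l (𝓝 Q)) :
    Inv (Q : Measure (Conf d (S2 d k))) := by
  have hS : BorelSpace (S2 d k) := inferInstance
  constructor
  · refine map_eq_of_tendsto h continuous_cross fun b f _ _ => ?_
    exact integral_emp_cross _ (𝒜.inv _) _ f
  · intro i
    refine map_eq_of_tendsto h (continuous_rotn (fun j => ?_) i) fun b f _ _ => ?_
    · exact (continuous_of_discreteTopology (f := fun x : Fin d => x + j)).prodMap continuous_id
    · exact integral_emp_rotn _ _ (lab_rot _) i f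

/-- the marginal of a law with the characteristic function of `noise_limit` -/
theorem marg_of_char {Γ : TW d → TW d → Conf d (S1 d k) → ℝ}
    {P : ProbabilityMeasure (Conf d (S1 d k))} {Q : ProbabilityMeasure (Conf d (S2 d k))}
    (h : ∀ (B : Finset (TW d)) (τ : B → Fin k → ℝ) (φ : Conf d (S1 d k) → ℂ), Continuous φ →
      (∀ ζ, ‖φ ζ‖ ≤ 1) →
      ∫ ζ, φ (pr ζ) * Complex.exp (Complex.I * ((zph B τ ζ : ℝ) : ℂ))
          ∂(Q : Measure (Conf d (S2 d k))) =
        ∫ ζ, φ ζ * cch Γ B τ ζ ∂(P : Measure (Conf d (S1 d k)))) :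
    (Q : Measure (Conf d (S2 d k))).map pr = P := by
  have hpr : Measurable (pr : Conf d (S2 d k) → Conf d (S1 d k)) := continuous_pr.measurable
  have : IsProbabilityMeasure ((Q : Measure (Conf d (S2 d k))).map pr) :=
    Measure.isProbabilityMeasure_map hpr.aemeasurable
  refine ext_of_forall_integral_eq_of_IsFiniteMeasure fun f => ?_
  rw [integral_map hpr.aemeasurable f.continuous.aestronglyMeasurable]
  set C : ℝ := ‖f‖ + 1 with hC
  have hC0 : 0 < C := by positivity
  have h1 := h ∅ (fun b => absurd b.2 (Finset.notMem_empty _)) (fun ζ => ((f ζ / C : ℝ) : ℂ))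
    (by fun_prop) (fun ζ => by
      rw [Complex.norm_real, norm_div, Real.norm_of_nonneg hC0.le, div_le_one hC0]
      have := f.norm_coe_le_norm ζ
      linarith)
  have h2 : ∀ ζ : Conf d (S2 d k), zph (∅ : Finset (TW d))
      (fun b => absurd b.2 (Finset.notMem_empty _)) ζ = 0 := by
    intro ζ
    simp [zph]
  have h3 : ∀ ζ : Conf d (S1 d k), cch Γ (∅ : Finset (TW d))
      (fun b => absurd b.2 (Finset.notMem_empty _)) ζ = 1 := by
    intro ζ
    simp [cch, Qf]
  simp only [h2, h3, Complex.ofReal_zero, mul_zero, Complex.exp_zero, mul_one] at h1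
  rw [integral_complex_ofReal, integral_complex_ofReal] at h1
  have h4 := Complex.ofReal_injective h1
  rw [integral_div, integral_div] at h4
  exact (div_left_inj' hC0.ne').1 h4

end arr

/-! ### The array of 980's sequence -/

section seq
variable {d k : ℕ} [NeZero d]

/-- index type of the samples of a sequence -/
abbrev Ix (S : Seq980.Seq d k) : Type := Σ j, {x // x ∈ S.U j}

/-- the filter `j → ∞` -/
def lS (S : Seq980.Seq d k) : Filter (Ix S) := comap Sigma.fst atTop

instance lS_neBot (S : Seq980.Seq d k) : (lS S).NeBot := by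
  rw [lS, comap_neBot_iff]
  intro t ht
  obtain ⟨j, hj⟩ := (inferInstance : (atTop : Filter ℕ).NeBot).nonempty_of_mem ht
  obtain ⟨x, hx⟩ := S.nonempty j
  exact ⟨⟨j, ⟨x, hx⟩⟩, hj⟩

theorem eventually_lS {S : Seq980.Seq d k} {Pr : Ix S → Prop} :
    (∀ᶠ a in lS S, Pr a) ↔ ∀ᶠ j in atTop, ∀ x (hx : x ∈ S.U j), Pr ⟨j, ⟨x, hx⟩⟩ := by
  rw [lS, eventually_comap]
  constructor
  · intro h
    filter_upwards [h] with j hj x hx
    exact hj ⟨j, ⟨x, hx⟩⟩ rfl
  · intro h
    filter_upwards [h] with j hj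
    rintro ⟨j', ⟨x, hx⟩⟩ rfl
    exact hj x hx

/-- the array of samples of a sequence -/
def arr (S : Seq980.Seq d k) (s : ℝ) : Arr (Ix S) d k where
  n a := S.n a.1
  pos a := S.pos a.1
  p a := a.2.1.1
  inv a h := (S.port a.1 a.2.1 a.2.2).inv h
  ω a := a.2.1.2
  F a v i := S.F a.1 a.2.1 i v
  H a := Hm (graphOf a.2.1.1) s a.2.1.2
  hH _ := SpecB1.Hm_isHermitian _ _ _
  ω_le a v := abs_le.2 (S.om a.1 a.2.1 a.2.2 v)
  F_sq a i := (S.frame a.1 a.2.1 a.2.2 i).le

theorem arr_n (S : Seq980.Seq d k) (s : ℝ) : Tendsto (arr S s).n (lS S) atTop :=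
  S.tendsto_n.comp tendsto_comap

/-- the limit law as a probability measure -/
def PS (S : Seq980.Seq d k) : ProbabilityMeasure (Conf d (S1 d k)) := ⟨S.P, S.prob⟩

theorem arr_P (S : Seq980.Seq d k) (s : ℝ) : Tendsto (arr S s).e1 (lS S) (𝓝 (PS S)) := by
  rw [ProbabilityMeasure.tendsto_iff_forall_integral_tendsto]
  intro f
  rw [Metric.tendsto_nhds]
  intro ε hε
  have h1 := S.lim f (ε / 2) (by positivity)
  rw [eventually_lS]
  filter_upwards [h1] with j hj x hx
  have h2 := hj x hx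
  rw [Real.dist_eq]
  refine lt_of_le_of_lt ?_ (half_lt_self hε)
  exact h2

/-- the covariance kernel `c Im treeG(E + iη)` -/
def gamG (k : ℕ) (s E η c : ℝ) (w w' : TW d) (ζ : Conf d (S1 d k)) : ℝ :=
  c * (treeG s (ze E η) (omOf (T := ℝ × (Fin k → ℝ)) Prod.fst ζ) w w').im

theorem ze_im (E η : ℝ) : (ze E η).im = η := by simp [ze]

theorem continuous_gamG (k : ℕ) (s E : ℝ) {η : ℝ} (hη : 0 < η) (c : ℝ) (w w' : TW d) :
    Continuous (gamG (d := d) k s E η c w w') := by
  have h1 : 0 < (ze E η).im := by rw [ze_im]; exact hη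
  have h2 := (continuous_treeG s h1 w w').comp
    (continuous_omOf (d := d) (T := ℝ × (Fin k → ℝ)) Prod.fst continuous_fst)
  exact continuous_const.mul (Complex.continuous_im.comp h2)

theorem gamG_psd (k : ℕ) (s E : ℝ) {η : ℝ} (hη : 0 < η) {c : ℝ} (hc : 0 ≤ c)
    (B : Finset (TW d)) (v : B → ℝ) (ζ : Conf d (S1 d k)) :
    0 ≤ ∑ b, ∑ b', v b * gamG k s E η c b.1 b'.1 ζ * v b' := by
  classical
  have h1 : 0 < (ze E η).im := by rw [ze_im]; exact hη
  set om := omOf (T := ℝ × (Fin k → ℝ)) Prod.fst ζ with hom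
  set a : TW d → ℝ := fun w => if h : w ∈ B then v ⟨w, h⟩ else 0 with ha
  have h2 := treeG_im_nonneg s h1 om B a
  have hav : ∀ b : B, a b.1 = v b := fun b => by simp [ha]
  have h3 : ∑ b : B, ∑ b' : B, v b * gamG k s E η c b.1 b'.1 ζ * v b' =
      c * ∑ x ∈ B, ∑ y ∈ B, a x * a y * (treeG s (ze E η) om x y).im := by
    rw [← Finset.sum_coe_sort B, Finset.mul_sum]
    refine Finset.sum_congr rfl fun b _ => ?_
    rw [← Finset.sum_coe_sort B, Finset.mul_sum]
    refine Finset.sum_congr rfl fun b' _ => ?_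
    rw [hav, hav]
    simp only [gamG, ← hom]
    ring
  rw [h3]
  exact mul_nonneg hc h2

theorem gamG_pos (k : ℕ) (s E : ℝ) {η : ℝ} (hη : 0 < η) {c : ℝ} (hc : 0 < c) (w : TW d)
    (ζ : Conf d (S1 d k)) : 0 < gamG k s E η c w w ζ := by
  have h1 : 0 < (ze E η).im := by rw [ze_im]; exact hη
  exact mul_pos hc (im_treeG_pos s h1 _ w)

/-- locality of `g_η(H)` -/
theorem loc_arr {S : Seq980.Seq d k} {s E K' : ℝ} (hX : SpecB1.Extra S s E K') {η c : ℝ}
    (hη : 0 < η) (hc : 0 < c) : Loc (arr S s) (geta E η c) (gamG k s E η c) (lS S) := by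
  classical
  intro w w' δ hδ
  have h1 : 0 < (ze E η).im := by rw [ze_im]; exact hη
  set ε : ℝ := δ / (2 * c) with hε
  have hε0 : 0 < ε := by positivity
  set R : ℕ := max (w.len + rad d s (ze E η) ε) w'.len with hR
  rw [eventually_lS]
  filter_upwards [hX.tree R δ hδ] with j hj x hx
  have hp := S.port j x hx
  refine ⟨Finset.univ.filter fun h : Fin (S.n j) × Fin d =>
    ¬ TreeLike942.TreeAt Prod.fst x.1 R h.1, ?_, ?_⟩
  · have h2 : (Finset.univ.filter fun h : Fin (S.n j) × Fin d =>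
        ¬ TreeLike942.TreeAt Prod.fst x.1 R h.1).card =
        SpecB1.nonTree R x.1 * d := by
      have h3 : (Finset.univ.filter fun h : Fin (S.n j) × Fin d =>
          ¬ TreeLike942.TreeAt Prod.fst x.1 R h.1) =
          (Finset.univ.filter fun v : Fin (S.n j) => ¬ TreeLike942.TreeAt Prod.fst x.1 R v) ×ˢ
            (Finset.univ : Finset (Fin d)) := by
        ext h
        simp
      rw [h3, Finset.card_product, Finset.card_univ, Fintype.card_fin, SpecB1.nonTree,
        Nat.card_eq_fintype_card, Fintype.card_subtype]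
    have h4 := hj x hx
    show (((Finset.univ.filter fun h : Fin (S.n j) × Fin d =>
        ¬ TreeLike942.TreeAt Prod.fst x.1 R h.1).card : ℕ) : ℝ) ≤
      δ * (Fintype.card (Fin (S.n j) × Fin d) : ℝ)
    rw [h2, Fintype.card_prod, Fintype.card_fin, Fintype.card_fin]
    push_cast
    calc (SpecB1.nonTree R x.1 : ℝ) * d ≤ (δ * S.n j) * d :=
          mul_le_mul_of_nonneg_right h4 (Nat.cast_nonneg _)
      _ = δ * (S.n j * d) := by ring
  · intro h hh
    have ht : TreeLike942.TreeAt Prod.fst x.1 R h.1 := by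
      by_contra hcon
      exact hh (Finset.mem_filter.2 ⟨Finset.mem_univ _, hcon⟩)
    have hinj := TreeLike942.treeAt_injOn ht
    have h5 := treeG_sub_Res hp s x.2 (fun v => abs_le.2 (S.om j x hx v)) h (R := R) hinj h1 hε0
      (x := w) (y := w') (le_max_left _ _) (le_max_right _ _)
    have h6 : fM (SpecB1.Hm_isHermitian (graphOf x.1) s x.2) (geta E η c)
        (walk (⇑x.1) w.1 h).1 (walk (⇑x.1) w'.1 h).1 =
        c * (Res (Hm (graphOf x.1) s x.2) (ze E η) (walk (⇑x.1) w.1 h).1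
          (walk (⇑x.1) w'.1 h).1).im := geta_eq_res _ c hη _ _
    show |fM (SpecB1.Hm_isHermitian (graphOf x.1) s x.2) (geta E η c)
        (walk (⇑x.1) w.1 h).1 (walk (⇑x.1) w'.1 h).1 -
        gamG k s E η c w w' (conf x.1 ((arr S s).c1 ⟨j, ⟨x, hx⟩⟩) h)| ≤ δ
    rw [h6, gamG, ← mul_sub, abs_mul, abs_of_pos hc]
    have h7 : omOf (T := ℝ × (Fin k → ℝ)) Prod.fst
        (conf x.1 ((arr S s).c1 ⟨j, ⟨x, hx⟩⟩) h) = fun u => x.2 (vx x.1 h u) := rfl
    rw [h7, ← Complex.sub_im]
    have h8 : |(Res (Hm (graphOf x.1) s x.2) (ze E η)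
      (walk (⇑x.1) w.1 h).1 (walk (⇑x.1) w'.1 h).1 -
        treeG s (ze E η) (fun u => x.2 (vx x.1 h u)) w w').im| ≤ 2 * ε := by
      refine (Complex.abs_im_le_norm _).trans ?_
      rw [norm_sub_rev]
      exact h5
    calc c * |(Res (Hm (graphOf x.1) s x.2) (ze E η)
      (walk (⇑x.1) w.1 h).1 (walk (⇑x.1) w'.1 h).1 -
        treeG s (ze E η) (fun u => x.2 (vx x.1 h u)) w w').im| ≤ c * (2 * ε) :=
          mul_le_mul_of_nonneg_left h8 hc.le
      _ = δ := by rw [hε]; field_simp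

/-- **the law `P_η`** -/
theorem lawEta (S : Seq980.Seq d k) {s E K' : ℝ} (hX : SpecB1.Extra S s E K') {η c : ℝ}
    (hη : 0 < η) (hc : 0 < c) :
    ∃ Q : Measure (Conf d (S2 d k)), SpecB1.IsNoisyLim S s E η c Q ∧
      Q.map pr = S.P ∧ Inv Q ∧
      ∀ (B : Finset (TW d)) (τ : B → Fin k → ℝ) (φ : Conf d (S1 d k) → ℂ), Continuous φ →
        (∀ ζ, ‖φ ζ‖ ≤ 1) →
        ∫ ζ, φ (pr ζ) * Complex.exp (Complex.I * ((zph B τ ζ : ℝ) : ℂ)) ∂Q =
          ∫ ζ, φ ζ * cch (gamG k s E η c) B τ ζ ∂S.P := by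
  have hM : 0 ≤ c / η := by positivity
  obtain ⟨G, hGm, hGE, hG0, Q, hQ, hchar⟩ := noise_limit (𝒜 := arr S s) (g := geta E η c)
    (Γ := gamG k s E η c) (l := lS S) hM (fun a i => (geta_pos hη hc _).le)
    (fun a i => geta_le hη hc _) (fun w w' => continuous_gamG k s E hη c w w')
    (fun B v ζ => gamG_psd k s E hη hc.le B v ζ) (loc_arr hX hη hc) (arr_n S s)
    (arr_P S s)
  have hne : (comap (Sigma.fst : (Σ a, G a) → Ix S) (lS S)).NeBot := by
    rw [comap_neBot_iff]
    intro t ht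
    have h1 : ∀ᶠ a in lS S, (gm (Fin k) (Fin ((arr S s).n a))) (G a)ᶜ < 1 :=
      hG0.eventually (gt_mem_nhds (by norm_num))
    obtain ⟨a, ha1, ha2⟩ := (h1.and ht).exists
    have h2 : (G a).Nonempty := by
      rw [Set.nonempty_iff_ne_empty]
      intro h3
      rw [h3, Set.compl_empty, measure_univ] at ha1
      exact lt_irrefl _ ha1
    obtain ⟨ξ, hξ⟩ := h2
    exact ⟨⟨a, ⟨ξ, hξ⟩⟩, ha2⟩
  refine ⟨Q, ⟨inferInstance, ?_⟩, marg_of_char hchar, inv_of_e2 hQ, hchar⟩
  intro φ hφ hb ε hε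
  obtain ⟨C, hC⟩ := hb
  let f : Conf d (S2 d k) →ᵇ ℝ := BoundedContinuousFunction.ofNormedAddCommGroup φ hφ C hC
  have h1 := (ProbabilityMeasure.tendsto_iff_forall_integral_tendsto.1 hQ) f
  have h2 := Metric.tendsto_nhds.1 h1 ε hε
  rw [eventually_comap] at h2
  have h3 := (ENNReal.tendsto_nhds_zero.1 hG0) (ENNReal.ofReal ε) (by simpa using hε)
  have h4 := eventually_lS.1 (h2.and h3)
  filter_upwards [h4] with j hj x hx
  obtain ⟨h5, h6⟩ := hj x hx
  refine le_trans (measure_mono ?_) h6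
  intro ξ hξ hG
  simp only [Set.mem_ofPred_eq] at hξ
  have h7 := h5 ⟨⟨j, ⟨x, hx⟩⟩, ⟨ξ, hG⟩⟩ rfl
  rw [Real.dist_eq] at h7
  exact absurd hξ (not_lt.2 h7.le)


end seq

end Crest.Agent.R166.NoiseLim849
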