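import Mathlib

-- ▼ part R166/GDens_793
section

/-!
# Row 166 (helper793): characters determine, Gaussian densities

* `ext_char`   : finite measures on `ι → ℝ` with the same characters `exp (i b·z)` are equal
* `uniq`       : a signed density orthogonal to all characters of `V` is orthogonal to all bounded
                 functions of `V`
* `gd S`       : centred Gaussian density with covariance `S` (positive definite),
  `int_gd` (characteristic function), `int_gd_one`, `integrable_gd`, `integral_comp_mulVec`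
  (linear change of variables), `exists_factor` (`S = A Aᵀ`)
-/

set_option autoImplicit false
set_option linter.unusedSectionVars false
set_option linter.unusedVariables false

noncomputable section

open MeasureTheory ProbabilityTheory Matrix Filter Topology
open scoped ENNReal MatrixOrder Matrix.Norms.L2Operator

namespace Crest.Agent.R166.Lim793

section uniq

variable {Ω : Type*} {m0 : MeasurableSpace Ω} {ι : Type*} [Fintype ι]

/-- finite measures on `ι → ℝ` with the same characteristic function are equal -/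
theorem ext_char {μ₁ μ₂ : Measure (ι → ℝ)} [IsFiniteMeasure μ₁] [IsFiniteMeasure μ₂]
    (h : ∀ b : ι → ℝ, ∫ z, Complex.exp ((b ⬝ᵥ z : ℝ) * Complex.I) ∂μ₁ =
      ∫ z, Complex.exp ((b ⬝ᵥ z : ℝ) * Complex.I) ∂μ₂) : μ₁ = μ₂ := by
  classical
  apply Measure.ext_of_charFunDual
  ext L
  set b : ι → ℝ := fun i => L (Pi.single i 1) with hb
  have hL : ∀ x : ι → ℝ, L x = b ⬝ᵥ x := by
    intro x
    have : x = ∑ i, x i • (Pi.single i (1:ℝ) : ι → ℝ) := by
      ext j
      simp [Finset.sum_apply, Pi.single_apply]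
    conv_lhs => rw [this]
    rw [map_sum]
    simp only [map_smul, smul_eq_mul, dotProduct, hb]
    exact Finset.sum_congr rfl fun i _ => mul_comm _ _
  rw [charFunDual_apply, charFunDual_apply]
  simp only [hL]
  exact h b

lemma integral_withDensity_ofReal (μ : Measure Ω) {w : Ω → ℝ} (hw : Integrable w μ) (hm : Measurable w)
    (g : Ω → ℂ) :
    ∫ a, g a ∂(μ.withDensity fun a => ENNReal.ofReal (w a)) = ∫ a, (max (w a) 0 : ℝ) * g a ∂μ := by
  have h := integral_withDensity_eq_integral_smul (μ := μ) (f := fun a => Real.toNNReal (w a))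
    hm.real_toNNReal g
  have e : (fun a => ENNReal.ofReal (w a)) = fun a => ((Real.toNNReal (w a) : NNReal) : ℝ≥0∞) := rfl
  rw [e, h]
  refine integral_congr_ae (Eventually.of_forall fun a => ?_)
  simp only [NNReal.smul_def, Real.coe_toNNReal', Complex.real_smul]

lemma integral_withDensity_ofReal' (μ : Measure Ω) {w : Ω → ℝ} (hw : Integrable w μ) (hm : Measurable w)
    (g : Ω → ℝ) :
    ∫ a, g a ∂(μ.withDensity fun a => ENNReal.ofReal (w a)) = ∫ a, (max (w a) 0 : ℝ) * g a ∂μ := by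
  have h := integral_withDensity_eq_integral_smul (μ := μ) (f := fun a => Real.toNNReal (w a))
    hm.real_toNNReal g
  have e : (fun a => ENNReal.ofReal (w a)) = fun a => ((Real.toNNReal (w a) : NNReal) : ℝ≥0∞) := rfl
  rw [e, h]
  refine integral_congr_ae (Eventually.of_forall fun a => ?_)
  simp only [NNReal.smul_def, Real.coe_toNNReal', smul_eq_mul]

/-- a finite signed density tested against all characters of `V` and orthogonal to all of them is
orthogonal to every bounded function of `V` -/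
theorem uniq (μ : Measure Ω) [IsFiniteMeasure μ] {V : Ω → ι → ℝ} (hV : Measurable V)
    {w : Ω → ℝ} (hw : Integrable w μ) (hm : Measurable w)
    (h : ∀ b : ι → ℝ, ∫ a, (w a : ℂ) * Complex.exp ((b ⬝ᵥ V a : ℝ) * Complex.I) ∂μ = 0)
    {f : (ι → ℝ) → ℝ} (hf : Measurable f) {C : ℝ} (hC : ∀ y, |f y| ≤ C) :
    ∫ a, w a * f (V a) ∂μ = 0 := by
  classical
  set μ₁ := μ.withDensity (fun a => ENNReal.ofReal (w a)) with hμ₁
  set μ₂ := μ.withDensity (fun a => ENNReal.ofReal (-w a)) with hμ₂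
  have f1 : IsFiniteMeasure μ₁ := isFiniteMeasure_withDensity_ofReal hw.2
  have f2 : IsFiniteMeasure μ₂ := isFiniteMeasure_withDensity_ofReal hw.neg.2
  have key : μ₁.map V = μ₂.map V := by
    apply ext_char
    intro b
    have hcm : Measurable fun a => Complex.exp ((b ⬝ᵥ V a : ℝ) * Complex.I) := by
      have : Measurable fun a => b ⬝ᵥ V a := by
        simp only [dotProduct]
        exact Finset.measurable_sum _ fun i _ => ((measurable_pi_apply i).comp hV).const_mul _
      fun_prop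
    have hbm : Measurable fun z : ι → ℝ => Complex.exp ((b ⬝ᵥ z : ℝ) * Complex.I) := by
      have : Measurable fun z : ι → ℝ => b ⬝ᵥ z := by
        simp only [dotProduct]
        exact Finset.measurable_sum _ fun i _ => (measurable_pi_apply i).const_mul _
      fun_prop
    rw [integral_map hV.aemeasurable hbm.aestronglyMeasurable,
      integral_map hV.aemeasurable hbm.aestronglyMeasurable]
    rw [hμ₁, hμ₂, integral_withDensity_ofReal μ hw hm,
      integral_withDensity_ofReal μ (w := fun a => - w a) hw.neg hm.neg]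
    have hb1 : ∀ a, ‖Complex.exp ((b ⬝ᵥ V a : ℝ) * Complex.I)‖ ≤ 1 := fun a =>
      (Complex.norm_exp_ofReal_mul_I _).le
    have i1 : Integrable (fun a => ((max (w a) 0 : ℝ) : ℂ) *
        Complex.exp ((b ⬝ᵥ V a : ℝ) * Complex.I)) μ := by
      refine Integrable.mul_bdd (c := 1) ?_ hcm.aestronglyMeasurable (Eventually.of_forall hb1)
      exact (hw.pos_part).ofReal
    have i2 : Integrable (fun a => ((max (-w a) 0 : ℝ) : ℂ) *
        Complex.exp ((b ⬝ᵥ V a : ℝ) * Complex.I)) μ := by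
      refine Integrable.mul_bdd (c := 1) ?_ hcm.aestronglyMeasurable (Eventually.of_forall hb1)
      exact (hw.neg.pos_part).ofReal
    rw [← sub_eq_zero, ← integral_sub i1 i2, ← h b]
    refine integral_congr_ae (Eventually.of_forall fun a => ?_)
    simp only
    rw [← sub_mul, ← Complex.ofReal_sub]
    congr 2
    rcases le_total 0 (w a) with h0 | h0
    · rw [max_eq_left h0, max_eq_right (by linarith)]; ring
    · rw [max_eq_right h0, max_eq_left (by linarith)]; ring
  have k2 : ∫ y, f y ∂(μ₁.map V) = ∫ y, f y ∂(μ₂.map V) := by rw [key]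
  rw [integral_map hV.aemeasurable hf.aestronglyMeasurable,
    integral_map hV.aemeasurable hf.aestronglyMeasurable, hμ₁, hμ₂,
    integral_withDensity_ofReal' μ hw hm,
      integral_withDensity_ofReal' μ (w := fun a => - w a) hw.neg hm.neg] at k2
  have i1 : Integrable (fun a => max (w a) 0 * f (V a)) μ :=
    Integrable.mul_bdd (c := C) hw.pos_part (hf.comp hV).aestronglyMeasurable
      (Eventually.of_forall fun a => by simpa using hC (V a))
  have i2 : Integrable (fun a => max (-w a) 0 * f (V a)) μ :=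
    Integrable.mul_bdd (c := C) hw.neg.pos_part (hf.comp hV).aestronglyMeasurable
      (Eventually.of_forall fun a => by simpa using hC (V a))
  rw [← sub_eq_zero, ← integral_sub i1 i2] at k2
  rw [← k2]
  refine integral_congr_ae (Eventually.of_forall fun a => ?_)
  simp only
  rw [← sub_mul]
  congr 1
  rcases le_total 0 (w a) with h0 | h0
  · rw [max_eq_left h0, max_eq_right (by linarith)]; ring
  · rw [max_eq_right h0, max_eq_left (by linarith)]; ring

end uniq

section density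

variable {ι : Type*} [Fintype ι] [DecidableEq ι]

/-- the standard Gaussian density on `ι → ℝ` -/
def sd (y : ι → ℝ) : ℝ := ∏ i, gaussianPDFReal 0 1 (y i)

/-- the centred Gaussian density with covariance `S` -/
def gd (S : Matrix ι ι ℝ) (z : ι → ℝ) : ℝ :=
  (√(2 * Real.pi))⁻¹ ^ (Fintype.card ι) * (√ S.det)⁻¹ * Real.exp (-(z ⬝ᵥ S⁻¹ *ᵥ z) / 2)

lemma sd_eq (y : ι → ℝ) :
    sd y = (√(2 * Real.pi))⁻¹ ^ (Fintype.card ι) * Real.exp (-(y ⬝ᵥ y) / 2) := by
  unfold sd
  simp only [gaussianPDFReal, Finset.prod_mul_distrib, Finset.prod_const, Finset.card_univ,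
    ← Real.exp_sum, NNReal.coe_one, mul_one, sub_zero, dotProduct]
  congr 2
  rw [← Finset.sum_neg_distrib, Finset.sum_div]
  exact Finset.sum_congr rfl fun i _ => by ring

lemma int_sd (c : ι → ℝ) :
    ∫ y : ι → ℝ, (sd y : ℂ) * Complex.exp ((c ⬝ᵥ y : ℝ) * Complex.I) =
      Complex.exp (-((c ⬝ᵥ c : ℝ) : ℂ) / 2) := by
  have h1 : ∀ y : ι → ℝ, (sd y : ℂ) * Complex.exp ((c ⬝ᵥ y : ℝ) * Complex.I) =
      ∏ i, ((gaussianPDFReal 0 1 (y i) : ℂ) * Complex.exp (c i * y i * Complex.I)) := by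
    intro y
    rw [Finset.prod_mul_distrib, ← Complex.exp_sum]
    unfold sd
    push_cast
    congr 2
    simp only [dotProduct]
    push_cast
    rw [Finset.sum_mul]
  simp only [h1]
  rw [integral_fintype_prod_volume_eq_prod
    (fun i (y : ℝ) => (gaussianPDFReal 0 1 y : ℂ) * Complex.exp (c i * y * Complex.I))]
  have h2 : ∀ t : ℝ, ∫ y : ℝ, (gaussianPDFReal 0 1 y : ℂ) * Complex.exp (t * y * Complex.I) =
      Complex.exp (-(t : ℂ) ^ 2 / 2) := by
    intro t
    have h3 := charFun_gaussianReal (μ := 0) (v := 1) t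
    rw [charFun_apply_real, integral_gaussianReal_eq_integral_smul one_ne_zero] at h3
    simp only [Complex.real_smul] at h3
    rw [h3]
    congr 1
    simp
    ring
  simp only [h2]
  rw [← Complex.exp_sum]
  congr 1
  simp only [dotProduct]
  push_cast
  rw [← Finset.sum_neg_distrib, Finset.sum_div]
  exact Finset.sum_congr rfl fun i _ => by ring

/-- linear change of variables -/
lemma integral_comp_mulVec {A : Matrix ι ι ℝ} (hA : A.det ≠ 0) (F : (ι → ℝ) → ℂ) :
    ∫ y, F (A *ᵥ y) = ((|A.det|⁻¹ : ℝ) : ℂ) * ∫ z, F z := by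
  have h := Real.map_matrix_volume_pi_eq_smul_volume_pi hA
  have e : Function.Injective (toLin' A) := by
    rw [toLin'_apply']
    exact Matrix.mulVec_injective_iff_isUnit.2 ((Matrix.isUnit_iff_isUnit_det A).2 hA.isUnit)
  have me : MeasurableEmbedding (toLin' A) :=
    (LinearMap.continuous_of_finiteDimensional (toLin' A)).measurableEmbedding e
  have h2 : ∫ z, F z ∂(Measure.map (toLin' A) volume) = ∫ y, F (toLin' A y) :=
    me.integral_map F
  rw [h, integral_smul_measure] at h2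
  rw [abs_inv, ENNReal.toReal_ofReal (by positivity)] at h2
  simp only [toLin'_apply, Complex.real_smul] at h2
  rw [← h2]

lemma exists_factor {S : Matrix ι ι ℝ} (hS : S.PosDef) :
    ∃ A : Matrix ι ι ℝ, A.det ≠ 0 ∧ S = A * Aᵀ := by
  obtain ⟨B, hB⟩ := CStarAlgebra.nonneg_iff_eq_star_mul_self.mp hS.posSemidef.nonneg
  refine ⟨Bᵀ, ?_, ?_⟩
  · intro h
    have h2 := hS.det_pos
    rw [hB, det_mul, star_eq_conjTranspose, conjTranspose_eq_transpose_of_trivial, h, zero_mul] at h2
    exact lt_irrefl _ h2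
  · rw [transpose_transpose, hB, star_eq_conjTranspose, conjTranspose_eq_transpose_of_trivial]

lemma gd_mulVec {S A : Matrix ι ι ℝ} (hA : A.det ≠ 0) (hS : S = A * Aᵀ) (y : ι → ℝ) :
    gd S (A *ᵥ y) = |A.det|⁻¹ * sd y := by
  have h1 : S.det = A.det ^ 2 := by rw [hS, det_mul, det_transpose, sq]
  have hAu : IsUnit A.det := hA.isUnit
  have h2 : (A *ᵥ y) ⬝ᵥ (S⁻¹ *ᵥ (A *ᵥ y)) = y ⬝ᵥ y := by
    have h3 : S⁻¹ *ᵥ (A *ᵥ y) = (Aᵀ)⁻¹ *ᵥ y := by
      rw [hS, Matrix.mul_inv_rev, Matrix.mulVec_mulVec, Matrix.mul_assoc,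
        Matrix.nonsing_inv_mul A hAu, Matrix.mul_one]
    rw [h3, ← Matrix.vecMul_transpose, ← Matrix.dotProduct_mulVec, Matrix.mulVec_mulVec,
      Matrix.mul_nonsing_inv _ (by rwa [det_transpose]), Matrix.one_mulVec]
  unfold gd
  rw [sd_eq, h1, Real.sqrt_sq_eq_abs, h2]
  ring

theorem int_gd {S : Matrix ι ι ℝ} (hS : S.PosDef) (b : ι → ℝ) :
    ∫ z : ι → ℝ, (gd S z : ℂ) * Complex.exp ((b ⬝ᵥ z : ℝ) * Complex.I) =
      Complex.exp (-((b ⬝ᵥ S *ᵥ b : ℝ) : ℂ) / 2) := by
  obtain ⟨A, hA, hSA⟩ := exists_factor hS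
  have h := integral_comp_mulVec hA
    (fun z => (gd S z : ℂ) * Complex.exp ((b ⬝ᵥ z : ℝ) * Complex.I))
  have hne : ((|A.det|⁻¹ : ℝ) : ℂ) ≠ 0 := by
    rw [Complex.ofReal_ne_zero]; positivity
  have h2 : ∫ y, (gd S (A *ᵥ y) : ℂ) * Complex.exp ((b ⬝ᵥ (A *ᵥ y) : ℝ) * Complex.I) =
      ((|A.det|⁻¹ : ℝ) : ℂ) * Complex.exp (-((b ⬝ᵥ S *ᵥ b : ℝ) : ℂ) / 2) := by
    have h3 : ∀ y : ι → ℝ, (gd S (A *ᵥ y) : ℂ) * Complex.exp ((b ⬝ᵥ (A *ᵥ y) : ℝ) * Complex.I) =
        ((|A.det|⁻¹ : ℝ) : ℂ) *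
          ((sd y : ℂ) * Complex.exp (((Aᵀ *ᵥ b) ⬝ᵥ y : ℝ) * Complex.I)) := by
      intro y
      rw [gd_mulVec hA hSA, Matrix.dotProduct_mulVec, ← Matrix.mulVec_transpose]
      push_cast
      ring
    simp only [h3]
    rw [integral_const_mul, int_sd]
    congr 3
    rw [dotProduct_comm, Matrix.dotProduct_mulVec, ← Matrix.mulVec_transpose,
      transpose_transpose, Matrix.mulVec_mulVec, ← hSA, dotProduct_comm]
  rw [h2] at h
  exact (mul_left_cancel₀ hne h).symm

lemma gd_nonneg (S : Matrix ι ι ℝ) (z : ι → ℝ) : 0 ≤ gd S z := by unfold gd; positivity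


theorem int_gd_one {S : Matrix ι ι ℝ} (hS : S.PosDef) : ∫ z : ι → ℝ, gd S z = 1 := by
  have h := int_gd hS 0
  simp only [zero_dotProduct, Complex.ofReal_zero, zero_mul, Complex.exp_zero, mul_one, neg_zero,
    zero_div] at h
  have h2 : ((∫ z : ι → ℝ, gd S z : ℝ) : ℂ) = ∫ z : ι → ℝ, (gd S z : ℂ) := integral_ofReal.symm
  rw [h] at h2
  exact_mod_cast h2

theorem integrable_gd {S : Matrix ι ι ℝ} (hS : S.PosDef) : Integrable (gd S) := by
  by_contra h
  have := int_gd_one hS
  rw [integral_undef h] at this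
  exact zero_ne_one this

end density
end Crest.Agent.R166.Lim793
end
end

-- ▼ part R166/CITV_793
section

/-!
# Row 166 (helper793), section 40.10, part 1: conditional expectations are continuous in total
variation (ce, TV, ce_close, Prd, prd_close).
-/

set_option autoImplicit false
set_option linter.unusedSectionVars false

noncomputable section

open MeasureTheory ProbabilityTheory Matrix Filter Topology
open scoped ENNReal

namespace Crest.Agent.R166.Lim793

/-! ### 1. elementary facts on conditional expectations of bounded functions -/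

section basic

variable {Ω : Type*} {m m0 : MeasurableSpace Ω} {P : Measure Ω}

lemma int_of_bdd [IsFiniteMeasure P] {f : Ω → ℝ} (hf : AEStronglyMeasurable f P) {C : ℝ}
    (hC : ∀ x, |f x| ≤ C) : Integrable f P :=
  Integrable.of_bound hf C (Eventually.of_forall fun x => by simpa using hC x)

lemma int_mul_condExp [IsProbabilityMeasure P] (hm : m ≤ m0) {s f : Ω → ℝ}
    (hs : StronglyMeasurable[m] s) {C : ℝ} (hsb : ∀ x, |s x| ≤ C) (hf : Integrable f P) :
    ∫ x, s x * (P[f|m]) x ∂P = ∫ x, s x * f x ∂P := by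
  have hsf : Integrable (s * f) P := by
    refine hf.bdd_mul (c := C) (hs.mono hm).aestronglyMeasurable ?_
    exact Eventually.of_forall fun x => by simpa using hsb x
  have h := condExp_mul_of_stronglyMeasurable_left hs hsf hf
  have h2 : ∫ x, (P[s * f|m]) x ∂P = ∫ x, (s * f) x ∂P := integral_condExp hm
  calc ∫ x, s x * (P[f|m]) x ∂P = ∫ x, (P[s * f|m]) x ∂P := by
        refine integral_congr_ae ?_
        filter_upwards [h] with x hx
        rw [hx]; rfl
    _ = ∫ x, s x * f x ∂P := h2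

/-- clipping to `[-1,1]` -/
def cl (x : ℝ) : ℝ := max (-1) (min 1 x)

lemma abs_cl (x : ℝ) : |cl x| ≤ 1 := by
  unfold cl
  rw [abs_le]
  constructor
  · exact le_max_left _ _
  · exact max_le (by norm_num) (min_le_left _ _)

lemma cl_eq {x : ℝ} (h : |x| ≤ 1) : cl x = x := by
  unfold cl
  rw [abs_le] at h
  rw [min_eq_right h.2, max_eq_right h.1]

lemma continuous_cl : Continuous cl := by unfold cl; fun_prop

lemma measurable_cl : Measurable cl := continuous_cl.measurable

lemma abs_condExp_le_one [IsProbabilityMeasure P] {f : Ω → ℝ} (hf : ∀ x, |f x| ≤ 1) :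
    ∀ᵐ x ∂P, |(P[f|m]) x| ≤ 1 := by
  exact ae_bdd_abs_condExp_of_ae_bdd_abs (Eventually.of_forall hf)

/-- the clipped conditional expectation: everywhere bounded by one -/
def ce (P : Measure Ω) (m : MeasurableSpace Ω) (f : Ω → ℝ) : Ω → ℝ := fun x => cl ((P[f|m]) x)

lemma abs_ce (f : Ω → ℝ) (x : Ω) : |ce P m f x| ≤ 1 := abs_cl _

lemma ce_meas (f : Ω → ℝ) : Measurable[m] (ce P m f) :=
  measurable_cl.comp stronglyMeasurable_condExp.measurable

lemma ce_ae [IsProbabilityMeasure P] {f : Ω → ℝ} (hf : ∀ x, |f x| ≤ 1) :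
    ce P m f =ᵐ[P] P[f|m] := by
  filter_upwards [abs_condExp_le_one (P := P) (m := m) hf] with x hx
  exact cl_eq hx

lemma int_mul_ce [IsProbabilityMeasure P] (hm : m ≤ m0) {s f : Ω → ℝ}
    (hs : Measurable[m] s) {C : ℝ} (hsb : ∀ x, |s x| ≤ C) (hf : Measurable f)
    (hfb : ∀ x, |f x| ≤ 1) :
    ∫ x, s x * ce P m f x ∂P = ∫ x, s x * f x ∂P := by
  rw [← int_mul_condExp hm hs.stronglyMeasurable hsb (int_of_bdd hf.aestronglyMeasurable hfb)]
  refine integral_congr_ae ?_
  filter_upwards [ce_ae (P := P) (m := m) hfb] with x hx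
  rw [hx]

end basic

/-! ### 2. conditional expectations are continuous in total variation -/

section tv

variable {Ω : Type*} {m0 : MeasurableSpace Ω}

/-- `TV P Q 𝒟 ε`: total variation distance on the σ-algebra `𝒟` at most `ε` (tested on
functions bounded by one) -/
def TV (P Q : Measure Ω) (𝒟 : MeasurableSpace Ω) (ε : ℝ) : Prop :=
  ∀ H : Ω → ℝ, Measurable[𝒟] H → (∀ x, |H x| ≤ 1) → |∫ x, H x ∂P - ∫ x, H x ∂Q| ≤ ε

lemma ce_close {P Q : Measure Ω} [IsProbabilityMeasure P] [IsProbabilityMeasure Q]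
    {𝒟 𝒞 : MeasurableSpace Ω} (hD : 𝒟 ≤ m0) (hC : 𝒞 ≤ 𝒟) {ε : ℝ} (hTV : TV P Q 𝒟 ε)
    {f g : Ω → ℝ} (hf : Measurable[𝒟] f) (hg : Measurable[𝒟] g) (hfb : ∀ x, |f x| ≤ 1)
    (hgb : ∀ x, |g x| ≤ 1) :
    ∫ x, |ce P 𝒞 f x - ce Q 𝒞 g x| ∂P ≤ 2 * ε + ∫ x, |f x - g x| ∂Q := by
  have hC0 : 𝒞 ≤ m0 := hC.trans hD
  set u := ce P 𝒞 f with hu
  set v := ce Q 𝒞 g with hv
  have um : Measurable[𝒞] u := ce_meas f
  have vm : Measurable[𝒞] v := ce_meas g
  set s : Ω → ℝ := fun x => if v x ≤ u x then 1 else -1 with hs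
  have sm : Measurable[𝒞] s :=
    Measurable.ite (measurableSet_le vm um) measurable_const measurable_const
  have sb : ∀ x, |s x| ≤ 1 := fun x => by
    simp only [hs]; split_ifs <;> simp
  have ub : ∀ x, |u x| ≤ 1 := abs_ce f
  have vb : ∀ x, |v x| ≤ 1 := abs_ce g
  have hmul : ∀ {a b : ℝ}, |a| ≤ 1 → |b| ≤ 1 → |a * b| ≤ 1 := fun ha hb => by
    rw [abs_mul]; exact mul_le_one₀ ha (abs_nonneg _) hb
  have I1 : ∀ {R : @Measure Ω m0} [IsProbabilityMeasure R] {h : Ω → ℝ}, Measurable[m0] h →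
      (∀ x, |h x| ≤ 1) → Integrable h R := fun hh hb =>
    int_of_bdd (hh.aestronglyMeasurable) hb
  have I2 : ∀ {R : @Measure Ω m0} [IsProbabilityMeasure R] {h k : Ω → ℝ}, Measurable[m0] h →
      Measurable[m0] k → (∀ x, |h x| ≤ 1) → (∀ x, |k x| ≤ 1) →
      Integrable (fun x => h x * k x) R := fun hh hk hb kb =>
    I1 (hh.mul hk) fun x => hmul (hb x) (kb x)
  have sm0 := sm.mono hC0 le_rfl
  have um0 := um.mono hC0 le_rfl
  have vm0 := vm.mono hC0 le_rfl
  have fm0 := hf.mono hD le_rfl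
  have gm0 := hg.mono hD le_rfl
  have e0 : ∫ x, |u x - v x| ∂P = ∫ x, s x * u x ∂P - ∫ x, s x * v x ∂P := by
    rw [← integral_sub (I2 sm0 um0 sb ub) (I2 sm0 vm0 sb vb)]
    refine integral_congr_ae (Eventually.of_forall fun x => ?_)
    simp only [hs]
    split_ifs with h
    · rw [abs_of_nonneg (by linarith)]; ring
    · rw [abs_of_nonpos (by push Not at h; linarith)]; ring
  have e1 : ∫ x, s x * u x ∂P = ∫ x, s x * f x ∂P := int_mul_ce hC0 sm sb fm0 hfb
  have e2 : ∫ x, s x * v x ∂Q = ∫ x, s x * g x ∂Q := int_mul_ce hC0 sm sb gm0 hgb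
  have t1 : |∫ x, s x * f x ∂P - ∫ x, s x * f x ∂Q| ≤ ε :=
    hTV _ ((sm.mono hC le_rfl).mul hf) fun x => hmul (sb x) (hfb x)
  have t2 : |∫ x, s x * v x ∂P - ∫ x, s x * v x ∂Q| ≤ ε :=
    hTV _ ((sm.mono hC le_rfl).mul (vm.mono hC le_rfl)) fun x => hmul (sb x) (vb x)
  have t3 : ∫ x, s x * f x ∂Q - ∫ x, s x * g x ∂Q ≤ ∫ x, |f x - g x| ∂Q := by
    rw [← integral_sub (I2 sm0 fm0 sb hfb) (I2 sm0 gm0 sb hgb)]
    refine integral_mono ((I2 sm0 fm0 sb hfb).sub (I2 sm0 gm0 sb hgb))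
      ((I1 fm0 hfb).sub (I1 gm0 hgb)).abs fun x => ?_
    simp only
    calc s x * f x - s x * g x = s x * (f x - g x) := by ring
      _ ≤ |s x * (f x - g x)| := le_abs_self _
      _ = |s x| * |f x - g x| := abs_mul _ _
      _ ≤ 1 * |f x - g x| := mul_le_mul_of_nonneg_right (sb x) (abs_nonneg _)
      _ = |f x - g x| := one_mul _
  rw [e0, e1]
  have := abs_le.1 t1
  have := abs_le.1 t2
  linarith

/-- the defect functional of conditional independence -/
def Prd (P : Measure Ω) (𝒞 : MeasurableSpace Ω) (f g G : Ω → ℝ) : ℝ :=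
  ∫ x, ce P 𝒞 f x * ce P 𝒞 g x * G x ∂P

theorem prd_close {P Q : Measure Ω} [IsProbabilityMeasure P] [IsProbabilityMeasure Q]
    {𝒟 𝒞 : MeasurableSpace Ω} (hD : 𝒟 ≤ m0) (hC : 𝒞 ≤ 𝒟) {ε : ℝ} (hTV : TV P Q 𝒟 ε)
    {f f' g g' G : Ω → ℝ} (hf : Measurable[𝒟] f) (hf' : Measurable[𝒟] f')
    (hg : Measurable[𝒟] g) (hg' : Measurable[𝒟] g') (hG : Measurable[𝒞] G)
    (hfb : ∀ x, |f x| ≤ 1) (hfb' : ∀ x, |f' x| ≤ 1) (hgb : ∀ x, |g x| ≤ 1)
    (hgb' : ∀ x, |g' x| ≤ 1) (hGb : ∀ x, |G x| ≤ 1) :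
    |Prd P 𝒞 f g G - Prd Q 𝒞 f' g' G| ≤
      5 * ε + ∫ x, |f x - f' x| ∂Q + ∫ x, |g x - g' x| ∂Q := by
  have hC0 : 𝒞 ≤ m0 := hC.trans hD
  have hmul : ∀ {a b : ℝ}, |a| ≤ 1 → |b| ≤ 1 → |a * b| ≤ 1 := fun ha hb => by
    rw [abs_mul]; exact mul_le_one₀ ha (abs_nonneg _) hb
  have cm : ∀ (R : @Measure Ω m0) (h : Ω → ℝ), Measurable[m0] (ce R 𝒞 h) := fun R h =>
    (ce_meas (P := R) h).mono hC0 le_rfl
  have I1 : ∀ {h : Ω → ℝ}, Measurable[m0] h → (∀ x, |h x| ≤ 1) → Integrable h P := fun hh hb =>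
    int_of_bdd hh.aestronglyMeasurable hb
  have Gm0 := hG.mono hC0 le_rfl
  have a1 := ce_close hD hC hTV hf hf' hfb hfb'
  have a2 := ce_close hD hC hTV hg hg' hgb hgb'
  have t1 : |∫ x, ce Q 𝒞 f' x * ce Q 𝒞 g' x * G x ∂P -
      ∫ x, ce Q 𝒞 f' x * ce Q 𝒞 g' x * G x ∂Q| ≤ ε := by
    refine hTV _ ?_ fun x => hmul (hmul (abs_ce _ _) (abs_ce _ _)) (hGb x)
    exact (((ce_meas f').mul (ce_meas g')).mul hG).mono hC le_rfl
  have iA : Integrable (fun x => ce P 𝒞 f x * ce P 𝒞 g x * G x) P :=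
    I1 (((cm _ _).mul (cm _ _)).mul Gm0) fun x => hmul (hmul (abs_ce _ _) (abs_ce _ _)) (hGb x)
  have iB : Integrable (fun x => ce Q 𝒞 f' x * ce Q 𝒞 g' x * G x) P :=
    I1 (((cm _ _).mul (cm _ _)).mul Gm0) fun x => hmul (hmul (abs_ce _ _) (abs_ce _ _)) (hGb x)
  have iF : Integrable (fun x => |ce P 𝒞 f x - ce Q 𝒞 f' x|) P :=
    ((I1 (cm _ _) fun x => abs_ce _ _).sub (I1 (cm _ _) fun x => abs_ce _ _)).abs
  have iH : Integrable (fun x => |ce P 𝒞 g x - ce Q 𝒞 g' x|) P :=
    ((I1 (cm _ _) fun x => abs_ce _ _).sub (I1 (cm _ _) fun x => abs_ce _ _)).abs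
  have t2 : |∫ x, ce P 𝒞 f x * ce P 𝒞 g x * G x ∂P -
      ∫ x, ce Q 𝒞 f' x * ce Q 𝒞 g' x * G x ∂P| ≤
      ∫ x, |ce P 𝒞 f x - ce Q 𝒞 f' x| ∂P + ∫ x, |ce P 𝒞 g x - ce Q 𝒞 g' x| ∂P := by
    rw [← integral_sub iA iB, ← integral_add iF iH]
    refine (abs_integral_le_integral_abs).trans (integral_mono (iA.sub iB).abs (iF.add iH) ?_)
    intro x
    simp only
    have e : ce P 𝒞 f x * ce P 𝒞 g x * G x - ce Q 𝒞 f' x * ce Q 𝒞 g' x * G x =
        (ce P 𝒞 f x - ce Q 𝒞 f' x) * (ce P 𝒞 g x * G x) +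
          (ce P 𝒞 g x - ce Q 𝒞 g' x) * (ce Q 𝒞 f' x * G x) := by ring
    rw [e]
    refine (abs_add_le _ _).trans (add_le_add ?_ ?_)
    · rw [abs_mul]
      exact mul_le_of_le_one_right (abs_nonneg _) (hmul (abs_ce _ _) (hGb x))
    · rw [abs_mul]
      exact mul_le_of_le_one_right (abs_nonneg _) (hmul (abs_ce _ _) (hGb x))
  unfold Prd
  have := abs_le.1 t1
  have := abs_le.1 t2
  rw [abs_le]
  constructor <;> linarith

end tv

end Crest.Agent.R166.Lim793
end
end

-- ▼ part R166/LimA_793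

/-!
# Row 166 (helper793), section 40.10, part 2: Gaussian noise given a base variable; joint density,
convergence in total variation, regression.
-/

set_option autoImplicit false
set_option linter.unusedSectionVars false
set_option linter.unusedVariables false

noncomputable section

open MeasureTheory ProbabilityTheory Matrix Filter Topology
open scoped ENNReal

namespace Crest.Agent.R166.Lim793

/-! ### 5. joint law -/

section joint

variable {Ω : Type*} {m0 : MeasurableSpace Ω} {B : Type*} [MeasurableSpace B]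
variable {ι : Type*} [Fintype ι] [DecidableEq ι]

/-- measurability of a matrix valued function, entrywise -/
def MM {κ κ' : Type*} (S : B → Matrix κ κ' ℝ) : Prop := ∀ i j, Measurable fun y => S y i j

lemma MM.det {S : B → Matrix ι ι ℝ} (hS : MM S) : Measurable fun y => (S y).det := by
  simp only [Matrix.det_apply]
  refine Finset.measurable_sum _ fun σ _ => ?_
  refine Measurable.const_smul ?_ _
  exact Finset.measurable_prod _ fun i _ => hS _ _

lemma MM.updateRow {S : B → Matrix ι ι ℝ} (hS : MM S) (i : ι) (v : ι → ℝ) :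
    MM fun y => (S y).updateRow i v := by
  intro k l
  simp only [Matrix.updateRow_apply]
  split_ifs
  · exact measurable_const
  · exact hS _ _

lemma MM.inv {S : B → Matrix ι ι ℝ} (hS : MM S) : MM fun y => (S y)⁻¹ := by
  intro i j
  simp only [Matrix.inv_def, Matrix.smul_apply, Ring.inverse_eq_inv', smul_eq_mul]
  refine hS.det.inv.mul ?_
  simp only [Matrix.adjugate_apply]
  exact (hS.updateRow _ _).det

lemma MM.quad {κ κ' : Type*} [Fintype κ] [Fintype κ'] {S : B → Matrix κ κ' ℝ} (hS : MM S)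
    {a : B → κ → ℝ} {b : B → κ' → ℝ}
    (ha : ∀ i, Measurable fun y => a y i) (hb : ∀ i, Measurable fun y => b y i) :
    Measurable fun y => a y ⬝ᵥ S y *ᵥ b y := by
  simp only [dotProduct, Matrix.mulVec]
  exact Finset.measurable_sum _ fun i _ => (ha i).mul
    (Finset.measurable_sum _ fun j _ => (hS i j).mul (hb j))

lemma MM.mul {κ κ' κ'' : Type*} [Fintype κ'] {S : B → Matrix κ κ' ℝ} {T : B → Matrix κ' κ'' ℝ}
    (hS : MM S) (hT : MM T) : MM fun y => S y * T y := by
  intro i j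
  simp only [Matrix.mul_apply]
  exact Finset.measurable_sum _ fun k _ => (hS i k).mul (hT k j)

lemma measurable_gd {S : B → Matrix ι ι ℝ} (hS : MM S) :
    Measurable fun p : B × (ι → ℝ) => gd (S p.1) p.2 := by
  unfold gd
  have h1 : Measurable fun p : B × (ι → ℝ) => (S p.1).det := hS.det.comp measurable_fst
  have h2 : Measurable fun p : B × (ι → ℝ) => p.2 ⬝ᵥ (S p.1)⁻¹ *ᵥ p.2 := by
    have h3 : MM (fun p : B × (ι → ℝ) => (S p.1)⁻¹) := fun i j => (hS.inv i j).comp measurable_fst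
    exact h3.quad (fun i => (measurable_pi_apply i).comp measurable_snd)
      (fun i => (measurable_pi_apply i).comp measurable_snd)
  exact ((h1.sqrt.inv).const_mul _).mul ((h2.neg.div_const 2).exp)

lemma lint_gd {S : Matrix ι ι ℝ} (hS : S.PosDef) : ∫⁻ z, ENNReal.ofReal (gd S z) = 1 := by
  rw [← ofReal_integral_eq_lintegral_ofReal (integrable_gd hS)
    (Eventually.of_forall (gd_nonneg S)), int_gd_one hS, ENNReal.ofReal_one]

/-- the joint law of base and Gaussian vector -/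
def GM (Q : Measure B) (S : B → Matrix ι ι ℝ) : Measure (B × (ι → ℝ)) :=
  (Q.prod volume).withDensity fun p => ENNReal.ofReal (gd (S p.1) p.2)

variable {Q : Measure B} [IsProbabilityMeasure Q] {S : B → Matrix ι ι ℝ}

lemma integrable_gd_prod (hS : MM S) (hpd : ∀ y, (S y).PosDef) :
    Integrable (fun p : B × (ι → ℝ) => gd (S p.1) p.2) (Q.prod volume) := by
  refine ⟨(measurable_gd hS).aestronglyMeasurable, ?_⟩
  rw [hasFiniteIntegral_iff_ofReal (Eventually.of_forall fun p => gd_nonneg _ _),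
    lintegral_prod _ ((measurable_gd hS).ennreal_ofReal.aemeasurable)]
  simp [lint_gd (hpd _)]

lemma integral_gd_prod (hS : MM S) (hpd : ∀ y, (S y).PosDef) :
    ∫ p : B × (ι → ℝ), gd (S p.1) p.2 ∂(Q.prod volume) = 1 := by
  rw [integral_prod _ (integrable_gd_prod hS hpd)]
  simp [int_gd_one (hpd _)]

lemma GM_prob (hS : MM S) (hpd : ∀ y, (S y).PosDef) : IsProbabilityMeasure (GM Q S) := by
  refine ⟨?_⟩
  rw [GM, withDensity_apply _ MeasurableSet.univ, Measure.restrict_univ,
    lintegral_prod _ ((measurable_gd hS).ennreal_ofReal.aemeasurable)]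
  simp [lint_gd (hpd _)]

lemma int_GM (hS : MM S) (hpd : ∀ y, (S y).PosDef) (h : B × (ι → ℝ) → ℂ) :
    ∫ p, h p ∂(GM Q S) = ∫ p : B × (ι → ℝ), (gd (S p.1) p.2 : ℂ) * h p ∂(Q.prod volume) := by
  rw [GM, integral_withDensity_ofReal _ (integrable_gd_prod hS hpd) (measurable_gd hS)]
  simp only [max_eq_left (gd_nonneg _ _)]

lemma int_GM' (hS : MM S) (hpd : ∀ y, (S y).PosDef) (h : B × (ι → ℝ) → ℝ) :
    ∫ p, h p ∂(GM Q S) = ∫ p : B × (ι → ℝ), gd (S p.1) p.2 * h p ∂(Q.prod volume) := by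
  rw [GM, integral_withDensity_ofReal' _ (integrable_gd_prod hS hpd) (measurable_gd hS)]
  simp only [max_eq_left (gd_nonneg _ _)]

/-- characters of the joint law, with coefficients depending on the base point -/
lemma int_GM_char (hS : MM S) (hpd : ∀ y, (S y).PosDef) {g : B → ℂ} (hg : Measurable g)
    {C : ℝ} (hgb : ∀ y, ‖g y‖ ≤ C) {b : B → ι → ℝ} (hb : ∀ i, Measurable fun y => b y i) :
    ∫ p, g p.1 * Complex.exp ((b p.1 ⬝ᵥ p.2 : ℝ) * Complex.I) ∂(GM Q S) =
      ∫ y, g y * Complex.exp (-((b y ⬝ᵥ S y *ᵥ b y : ℝ) : ℂ) / 2) ∂Q := by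
  rw [int_GM hS hpd]
  have hm : Measurable fun p : B × (ι → ℝ) =>
      g p.1 * Complex.exp ((b p.1 ⬝ᵥ p.2 : ℝ) * Complex.I) := by
    have h1 : Measurable fun p : B × (ι → ℝ) => b p.1 ⬝ᵥ p.2 := by
      simp only [dotProduct]
      exact Finset.measurable_sum _ fun i _ => ((hb i).comp measurable_fst).mul
        ((measurable_pi_apply i).comp measurable_snd)
    have h2 : Measurable fun p : B × (ι → ℝ) => g p.1 := hg.comp measurable_fst
    fun_prop
  have hb1 : ∀ p : B × (ι → ℝ), ‖g p.1 * Complex.exp ((b p.1 ⬝ᵥ p.2 : ℝ) * Complex.I)‖ ≤ C := by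
    intro p
    rw [norm_mul, Complex.norm_exp_ofReal_mul_I, mul_one]
    exact hgb _
  have hi : Integrable (fun p : B × (ι → ℝ) => (gd (S p.1) p.2 : ℂ) *
      (g p.1 * Complex.exp ((b p.1 ⬝ᵥ p.2 : ℝ) * Complex.I))) (Q.prod volume) :=
    Integrable.mul_bdd (c := C) (integrable_gd_prod hS hpd).ofReal hm.aestronglyMeasurable
      (Eventually.of_forall hb1)
  rw [integral_prod _ hi]
  refine integral_congr_ae (Eventually.of_forall fun y => ?_)
  simp only
  rw [← int_gd (hpd y) (b y), ← integral_const_mul]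
  refine integral_congr_ae (Eventually.of_forall fun z => ?_)
  simp only
  ring

/-- `V` is Gaussian with covariance `S (x)` given the base variable `x` (of law `Q`) -/
def GLaw {κ : Type*} [Fintype κ] (P : Measure Ω) (Q : Measure B) (x : Ω → B) (V : Ω → κ → ℝ)
    (S : B → Matrix κ κ ℝ) : Prop :=
  ∀ g : B → ℝ, Measurable g → (∀ y, |g y| ≤ 1) → ∀ b : κ → ℝ,
    ∫ ω, (g (x ω) : ℂ) * Complex.exp ((b ⬝ᵥ V ω : ℝ) * Complex.I) ∂P =
      ∫ y, (g y : ℂ) * Complex.exp (-((b ⬝ᵥ S y *ᵥ b : ℝ) : ℂ) / 2) ∂Q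

variable {P : Measure Ω} [IsProbabilityMeasure P] {x : Ω → B} {V : Ω → ι → ℝ}

theorem law_eq (hx : Measurable x) (hV : Measurable V) (hS : MM S) (hpd : ∀ y, (S y).PosDef)
    (h : GLaw P Q x V S) : P.map (fun ω => (x ω, V ω)) = GM Q S := by
  classical
  have hxV : Measurable fun ω => (x ω, V ω) := hx.prodMk hV
  have hG := GM_prob (Q := Q) hS hpd
  have i1 : IsProbabilityMeasure (P.map (fun ω => (x ω, V ω))) :=
    Measure.isProbabilityMeasure_map hxV.aemeasurable
  apply Measure.ext_prod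
  intro s t hs ht
  have key : (P.restrict (x ⁻¹' s)).map V = ((GM Q S).restrict (Prod.fst ⁻¹' s)).map Prod.snd := by
    apply ext_char
    intro b
    have hbm : Measurable fun z : ι → ℝ => Complex.exp ((b ⬝ᵥ z : ℝ) * Complex.I) := by
      have : Measurable fun z : ι → ℝ => b ⬝ᵥ z := by
        simp only [dotProduct]
        exact Finset.measurable_sum _ fun i _ => (measurable_pi_apply i).const_mul _
      fun_prop
    rw [integral_map hV.aemeasurable hbm.aestronglyMeasurable,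
      integral_map measurable_snd.aemeasurable hbm.aestronglyMeasurable,
      ← integral_indicator (hx hs), ← integral_indicator (measurable_fst hs)]
    set g : B → ℝ := s.indicator 1 with hg
    have hgm : Measurable g := measurable_one.indicator hs
    have hgb : ∀ y, |g y| ≤ 1 := by
      intro y
      simp only [hg, Set.indicator_apply]
      split_ifs <;> simp
    have e1 : ∫ ω, (x ⁻¹' s).indicator (fun ω => Complex.exp ((b ⬝ᵥ V ω : ℝ) * Complex.I)) ω ∂P =
        ∫ ω, (g (x ω) : ℂ) * Complex.exp ((b ⬝ᵥ V ω : ℝ) * Complex.I) ∂P := by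
      refine integral_congr_ae (Eventually.of_forall fun ω => ?_)
      simp only [hg, Set.indicator_apply, Set.mem_preimage]
      split_ifs <;> simp
    have e2 : ∫ p, (Prod.fst ⁻¹' s).indicator (fun p : B × (ι → ℝ) =>
        Complex.exp ((b ⬝ᵥ p.2 : ℝ) * Complex.I)) p ∂(GM Q S) =
        ∫ p, (g p.1 : ℂ) * Complex.exp ((b ⬝ᵥ p.2 : ℝ) * Complex.I) ∂(GM Q S) := by
      refine integral_congr_ae (Eventually.of_forall fun p => ?_)
      simp only [hg, Set.indicator_apply, Set.mem_preimage]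
      split_ifs <;> simp
    rw [e1, e2, h g hgm hgb b]
    symm
    exact int_GM_char (g := fun y => (g y : ℂ)) (b := fun _ => b) hS hpd (by fun_prop)
      (C := 1) (fun y => by simpa using hgb y) (fun i => measurable_const)
  have k2 := congrArg (fun μ : Measure (ι → ℝ) => μ t) key
  simp only [Measure.map_apply hV ht, Measure.map_apply measurable_snd ht,
    Measure.restrict_apply (hV ht), Measure.restrict_apply (measurable_snd ht)] at k2
  rw [Measure.map_apply hxV (hs.prod ht)]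
  have e3 : (fun ω => (x ω, V ω)) ⁻¹' (s ×ˢ t) = V ⁻¹' t ∩ x ⁻¹' s := by
    ext ω; simp [and_comm]
  have e4 : s ×ˢ t = (Prod.snd ⁻¹' t ∩ Prod.fst ⁻¹' s : Set (B × (ι → ℝ))) := by
    ext p; simp [and_comm]
  rw [e3, k2, e4]

/-- integrals of functions of base and Gaussian vector -/
theorem int_law (hx : Measurable x) (hV : Measurable V) (hS : MM S) (hpd : ∀ y, (S y).PosDef)
    (h : GLaw P Q x V S) {f : B × (ι → ℝ) → ℝ} (hf : Measurable f) :
    ∫ ω, f (x ω, V ω) ∂P = ∫ p : B × (ι → ℝ), gd (S p.1) p.2 * f p ∂(Q.prod volume) := by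
  rw [← int_GM' hS hpd, ← law_eq hx hV hS hpd h, integral_map (hx.prodMk hV).aemeasurable
    hf.aestronglyMeasurable]

theorem int_law_char (hx : Measurable x) (hV : Measurable V) (hS : MM S) (hpd : ∀ y, (S y).PosDef)
    (h : GLaw P Q x V S) {g : B → ℂ} (hg : Measurable g) {C : ℝ} (hgb : ∀ y, ‖g y‖ ≤ C)
    {b : B → ι → ℝ} (hb : ∀ i, Measurable fun y => b y i) :
    ∫ ω, g (x ω) * Complex.exp ((b (x ω) ⬝ᵥ V ω : ℝ) * Complex.I) ∂P =
      ∫ y, g y * Complex.exp (-((b y ⬝ᵥ S y *ᵥ b y : ℝ) : ℂ) / 2) ∂Q := by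
  rw [← int_GM_char hS hpd hg hgb hb, ← law_eq hx hV hS hpd h,
    integral_map (hx.prodMk hV).aemeasurable]
  have h1 : Measurable fun p : B × (ι → ℝ) => b p.1 ⬝ᵥ p.2 := by
    simp only [dotProduct]
    exact Finset.measurable_sum _ fun i _ => ((hb i).comp measurable_fst).mul
      ((measurable_pi_apply i).comp measurable_snd)
  have h2 : Measurable fun p : B × (ι → ℝ) => g p.1 := hg.comp measurable_fst
  exact Measurable.aestronglyMeasurable (by fun_prop)

end joint

/-! ### 6. Scheffé and total variation -/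

section tv2

theorem scheffe {α : Type*} {mα : MeasurableSpace α} {μ : Measure α} {F : ℕ → α → ℝ} {G : α → ℝ}
    (hF : ∀ n, Integrable (F n) μ) (hG : Integrable G μ) (h0 : ∀ n a, 0 ≤ F n a)
    (hG0 : ∀ a, 0 ≤ G a) (hI : ∀ n, ∫ a, F n a ∂μ = ∫ a, G a ∂μ)
    (hlim : ∀ᵐ a ∂μ, Tendsto (fun n => F n a) atTop (𝓝 (G a))) :
    Tendsto (fun n => ∫ a, |F n a - G a| ∂μ) atTop (𝓝 0) := by
  have e : ∀ n, ∫ a, |F n a - G a| ∂μ = 2 * ∫ a, max (G a - F n a) 0 ∂μ := by
    intro n
    have i1 : Integrable (fun a => F n a - G a) μ := (hF n).sub hG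
    have i2 : Integrable (fun a => max (G a - F n a) 0) μ := (hG.sub (hF n)).pos_part
    have e1 : ∀ a, |F n a - G a| = (F n a - G a) + 2 * max (G a - F n a) 0 := by
      intro a
      rcases le_total (F n a) (G a) with h | h
      · rw [abs_of_nonpos (by linarith), max_eq_left (by linarith)]; ring
      · rw [abs_of_nonneg (by linarith), max_eq_right (by linarith)]; ring
    simp only [e1]
    rw [integral_add i1 (i2.const_mul 2), integral_sub (hF n) hG, hI n, sub_self, zero_add,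
      integral_const_mul]
  simp only [e]
  have h2 : Tendsto (fun n => ∫ a, max (G a - F n a) 0 ∂μ) atTop (𝓝 (∫ a, (0 : ℝ) ∂μ)) := by
    refine tendsto_integral_of_dominated_convergence G
      (fun n => ((hG.sub (hF n)).pos_part).aestronglyMeasurable) hG (fun n => ?_) ?_
    · refine Eventually.of_forall fun a => ?_
      rw [Real.norm_eq_abs, abs_of_nonneg (le_max_right _ _)]
      exact max_le (by linarith [h0 n a]) (hG0 a)
    · filter_upwards [hlim] with a ha
      have : Tendsto (fun n => max (G a - F n a) 0) atTop (𝓝 (max (G a - G a) 0)) :=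
        (tendsto_const_nhds.sub ha).max tendsto_const_nhds
      simpa using this
  simpa using h2.const_mul 2

variable {Ω : Type*} {m0 : MeasurableSpace Ω} {B : Type*} [mB : MeasurableSpace B]
variable {ι : Type*} [Fintype ι] [DecidableEq ι]

lemma gd_tendsto {Sn : ℕ → Matrix ι ι ℝ} {S : Matrix ι ι ℝ} (hS : S.PosDef)
    (h : ∀ i j, Tendsto (fun n => Sn n i j) atTop (𝓝 (S i j))) (z : ι → ℝ) :
    Tendsto (fun n => gd (Sn n) z) atTop (𝓝 (gd S z)) := by
  have hM : Tendsto Sn atTop (𝓝 S) := by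
    refine tendsto_pi_nhds.2 fun i => ?_
    exact tendsto_pi_nhds.2 (h i)
  have hdet : Tendsto (fun n => (Sn n).det) atTop (𝓝 S.det) :=
    ((continuous_id.matrix_det).tendsto S).comp hM
  have hadj : ∀ i j, Tendsto (fun n => (Sn n).adjugate i j) atTop (𝓝 (S.adjugate i j)) := by
    intro i j
    have : Continuous fun A : Matrix ι ι ℝ => A.adjugate i j :=
      (continuous_id.matrix_adjugate).matrix_elem i j
    exact (this.tendsto S).comp hM
  have hd0 : S.det ≠ 0 := hS.det_pos.ne'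
  have hinv : ∀ i j, Tendsto (fun n => (Sn n)⁻¹ i j) atTop (𝓝 (S⁻¹ i j)) := by
    intro i j
    simp only [Matrix.inv_def, Matrix.smul_apply, Ring.inverse_eq_inv', smul_eq_mul]
    exact (hdet.inv₀ hd0).mul (hadj i j)
  unfold gd
  have hq : Tendsto (fun n => z ⬝ᵥ (Sn n)⁻¹ *ᵥ z) atTop (𝓝 (z ⬝ᵥ S⁻¹ *ᵥ z)) := by
    simp only [dotProduct, Matrix.mulVec]
    exact tendsto_finsetSum _ fun i _ => tendsto_const_nhds.mul
      (tendsto_finsetSum _ fun j _ => (hinv i j).mul tendsto_const_nhds)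
  have hs : √ S.det ≠ 0 := by
    rw [Real.sqrt_ne_zero']; exact hS.det_pos
  refine Tendsto.mul (tendsto_const_nhds.mul ((hdet.sqrt).inv₀ hs)) ?_
  exact (Real.continuous_exp.tendsto _).comp ((hq.neg).div_const 2)

variable {Q : Measure B} [IsProbabilityMeasure Q]

/-- total variation distance of two Gaussian noises on the σ-algebra of base and noise -/
theorem tv_law {P P' : Measure Ω} [IsProbabilityMeasure P] [IsProbabilityMeasure P']
    {x : Ω → B} {V : Ω → ι → ℝ} (hx : Measurable x) (hV : Measurable V)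
    {S S' : B → Matrix ι ι ℝ} (hS : MM S) (hS' : MM S')
    (hpd : ∀ y, (S y).PosDef) (hpd' : ∀ y, (S' y).PosDef)
    (h : GLaw P Q x V S) (h' : GLaw P' Q x V S') :
    TV P P' (MeasurableSpace.comap (fun ω => (x ω, V ω)) inferInstance)
      (∫ p : B × (ι → ℝ), |gd (S p.1) p.2 - gd (S' p.1) p.2| ∂(Q.prod volume)) := by
  intro H hH hb
  obtain ⟨f, hf, rfl⟩ := hH.exists_eq_measurable_comp
  -- make `f` bounded everywhere
  have hcl : ∀ ω, f (x ω, V ω) = cl (f (x ω, V ω)) := fun ω => (cl_eq (hb ω)).symm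
  have e1 : ∀ ν : Measure Ω, ∫ ω, (f ∘ fun ω => (x ω, V ω)) ω ∂ν =
      ∫ ω, (fun p => cl (f p)) (x ω, V ω) ∂ν := by
    intro ν
    refine integral_congr_ae (Eventually.of_forall fun ω => ?_)
    exact hcl ω
  have hm : Measurable fun p => cl (f p) := measurable_cl.comp hf
  rw [e1, e1, int_law hx hV hS hpd h hm, int_law hx hV hS' hpd' h' hm]
  have i1 : Integrable (fun p : B × (ι → ℝ) => gd (S p.1) p.2 * cl (f p)) (Q.prod volume) :=
    Integrable.mul_bdd (c := 1) (integrable_gd_prod hS hpd) hm.aestronglyMeasurable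
      (Eventually.of_forall fun p => by simpa using abs_cl _)
  have i2 : Integrable (fun p : B × (ι → ℝ) => gd (S' p.1) p.2 * cl (f p)) (Q.prod volume) :=
    Integrable.mul_bdd (c := 1) (integrable_gd_prod hS' hpd') hm.aestronglyMeasurable
      (Eventually.of_forall fun p => by simpa using abs_cl _)
  rw [← integral_sub i1 i2]
  refine (abs_integral_le_integral_abs).trans (integral_mono (i1.sub i2).abs
    ((integrable_gd_prod hS hpd).sub (integrable_gd_prod hS' hpd')).abs fun p => ?_)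
  simp only
  rw [← sub_mul, abs_mul]
  exact mul_le_of_le_one_right (abs_nonneg _) (abs_cl _)

theorem tv_tendsto {Sn : ℕ → B → Matrix ι ι ℝ} {S : B → Matrix ι ι ℝ} (hSn : ∀ n, MM (Sn n))
    (hS : MM S) (hpdn : ∀ n y, (Sn n y).PosDef) (hpd : ∀ y, (S y).PosDef)
    (hlim : ∀ᵐ y ∂Q, ∀ i j, Tendsto (fun n => Sn n y i j) atTop (𝓝 (S y i j))) :
    Tendsto (fun n => ∫ p : B × (ι → ℝ), |gd (Sn n p.1) p.2 - gd (S p.1) p.2| ∂(Q.prod volume))
      atTop (𝓝 0) := by
  refine scheffe (fun n => integrable_gd_prod (hSn n) (hpdn n)) (integrable_gd_prod hS hpd)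
    (fun n p => gd_nonneg _ _) (fun p => gd_nonneg _ _) (fun n => ?_) ?_
  · rw [integral_gd_prod (hSn n) (hpdn n), integral_gd_prod hS hpd]
  · have h1 : ∀ᵐ p ∂(Q.prod (volume : Measure (ι → ℝ))),
        ∀ i j, Tendsto (fun n => Sn n p.1 i j) atTop (𝓝 (S p.1 i j)) :=
      Measure.quasiMeasurePreserving_fst.ae hlim
    filter_upwards [h1] with p hp
    exact gd_tendsto (hpd _) hp _

end tv2

end Crest.Agent.R166.Lim793
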