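import Mathlib

/-!
Row 166, section 40.10 (helper47): passage to the limit in approximate conditional independence
along increasing σ-algebras (refinement of the quantisation at fixed `η`).
-/

set_option autoImplicit false

namespace Crest.Agent.R166.Lim47

open MeasureTheory ProbabilityTheory Filter Topology

section Levy

variable {Ω : Type*} {m0 : MeasurableSpace Ω} {P : Measure Ω}

/-- truncation at level one -/
noncomputable def clip (x : ℝ) : ℝ := max (-1) (min 1 x)

theorem abs_clip_le (x : ℝ) : |clip x| ≤ 1 := by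
  unfold clip
  rw [abs_le]
  exact ⟨le_max_left _ _, max_le (by norm_num) (min_le_left _ _)⟩

theorem clip_of_abs_le {x : ℝ} (h : |x| ≤ 1) : clip x = x := by
  unfold clip
  rw [abs_le] at h
  rw [min_eq_right h.2, max_eq_right h.1]

theorem continuous_clip : Continuous clip :=
  continuous_const.max (continuous_const.min continuous_id)

theorem integrable_of_bdd [IsProbabilityMeasure P] {f : Ω → ℝ} (hf : Measurable f)
    (hb : ∀ x, |f x| ≤ 1) : Integrable f P :=
  Integrable.of_bound hf.aestronglyMeasurable 1 (ae_of_all _ fun x => by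
    rw [Real.norm_eq_abs]; exact hb x)

theorem condExp_abs_le_one [IsProbabilityMeasure P] (m : MeasurableSpace Ω) {f : Ω → ℝ}
    (hb : ∀ x, |f x| ≤ 1) : ∀ᵐ x ∂P, |(P[f|m]) x| ≤ 1 := by
  have := ae_bdd_abs_condExp_of_ae_bdd_abs (m := m) (R := (1 : ℝ)) (μ := P) (f := f)
    (ae_of_all _ fun x => hb x)
  simpa using this

/-- The defect of conditional independence. -/
noncomputable def defect (P : Measure Ω) (C : MeasurableSpace Ω) (f g : Ω → ℝ) : ℝ :=
  |∫ x, f x * g x ∂P - ∫ x, (P[f|C]) x * (P[g|C]) x ∂P|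

/-- approximate conditional independence of `A` and `B` given `C` with error `δ` -/
def ApproxCI (P : Measure Ω) (A B C : MeasurableSpace Ω) (δ : ℝ) : Prop :=
  ∀ f g : Ω → ℝ, Measurable[A] f → Measurable[B] g → (∀ x, |f x| ≤ 1) → (∀ x, |g x| ≤ 1) →
    defect P C f g ≤ δ

theorem ApproxCI.mono {A B A' B' C : MeasurableSpace Ω} {δ δ' : ℝ} (h : ApproxCI P A B C δ)
    (hA : A' ≤ A) (hB : B' ≤ B) (hδ : δ ≤ δ') : ApproxCI P A' B' C δ' :=
  fun f g hf hg hfb hgb => (h f g (hf.mono hA le_rfl) (hg.mono hB le_rfl) hfb hgb).trans hδ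

/-- filtration from an increasing sequence of σ-algebras -/
def filt (A : ℕ → MeasurableSpace Ω) (hA : Monotone A) (hA0 : ∀ n, A n ≤ m0) :
    Filtration ℕ m0 where
  seq := A
  mono' := hA
  le' := hA0

/-- **Refinement.** Approximate conditional independence passes to the limit along increasing
sequences of σ-algebras. -/
theorem levy_pass [IsProbabilityMeasure P] (A B C : ℕ → MeasurableSpace Ω)
    (hA : Monotone A) (hB : Monotone B) (hC : Monotone C)
    (hA0 : ∀ n, A n ≤ m0) (hB0 : ∀ n, B n ≤ m0) (hC0 : ∀ n, C n ≤ m0)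
    (del : ℕ → ℝ) (dl : ℝ) (hdl : ∀ e : ℝ, 0 < e → ∃ᶠ n in atTop, del n ≤ dl + e)
    (h : ∀ n, ApproxCI P (A n) (B n) (C n) (del n)) :
    ApproxCI P (⨆ n, A n) (⨆ n, B n) (⨆ n, C n) dl := by
  intro f g hf hg hfb hgb
  have hAs : (⨆ n, A n) ≤ m0 := iSup_le hA0
  have hBs : (⨆ n, B n) ≤ m0 := iSup_le hB0
  have hCs : (⨆ n, C n) ≤ m0 := iSup_le hC0
  have hfm : Measurable f := hf.mono hAs le_rfl
  have hgm : Measurable g := hg.mono hBs le_rfl
  have hfi : Integrable f P := integrable_of_bdd hfm hfb
  have hgi : Integrable g P := integrable_of_bdd hgm hgb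
  -- approximations
  set F : ℕ → Ω → ℝ := fun n x => clip ((P[f|A n]) x) with hF
  set G : ℕ → Ω → ℝ := fun n x => clip ((P[g|B n]) x) with hG
  have hFm : ∀ n, Measurable[A n] (F n) := fun n =>
    (continuous_clip.measurable).comp (stronglyMeasurable_condExp.measurable)
  have hGm : ∀ n, Measurable[B n] (G n) := fun n =>
    (continuous_clip.measurable).comp (stronglyMeasurable_condExp.measurable)
  have hFm0 : ∀ n, Measurable (F n) := fun n => (hFm n).mono (hA0 n) le_rfl
  have hGm0 : ∀ n, Measurable (G n) := fun n => (hGm n).mono (hB0 n) le_rfl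
  have hFb : ∀ n x, |F n x| ≤ 1 := fun n x => abs_clip_le _
  have hGb : ∀ n x, |G n x| ≤ 1 := fun n x => abs_clip_le _
  have hFi : ∀ n, Integrable (F n) P := fun n => integrable_of_bdd (hFm0 n) (hFb n)
  have hGi : ∀ n, Integrable (G n) P := fun n => integrable_of_bdd (hGm0 n) (hGb n)
  have hclip : ∀ x : ℝ, |x| ≤ 1 → clip x = x := fun x hx => clip_of_abs_le hx
  -- a.e. convergence F n → f
  have hFt : ∀ᵐ x ∂P, Tendsto (fun n => F n x) atTop (𝓝 (f x)) := by
    have h1 := Integrable.tendsto_ae_condExp (ℱ := filt A hA hA0) hfi hf.stronglyMeasurable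
    filter_upwards [h1] with x hx
    have := (continuous_clip.tendsto (f x)).comp hx
    rw [hclip _ (hfb x)] at this
    exact this
  have hGt : ∀ᵐ x ∂P, Tendsto (fun n => G n x) atTop (𝓝 (g x)) := by
    have h1 := Integrable.tendsto_ae_condExp (ℱ := filt B hB hB0) hgi hg.stronglyMeasurable
    filter_upwards [h1] with x hx
    have := (continuous_clip.tendsto (g x)).comp hx
    rw [hclip _ (hgb x)] at this
    exact this
  -- conditional expectations of f w.r.t. C n
  have hCf : ∀ᵐ x ∂P, Tendsto (fun n => (P[f|C n]) x) atTop (𝓝 ((P[f|⨆ n, C n]) x)) :=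
    tendsto_ae_condExp (ℱ := filt C hC hC0) f
  have hCg : ∀ᵐ x ∂P, Tendsto (fun n => (P[g|C n]) x) atTop (𝓝 ((P[g|⨆ n, C n]) x)) :=
    tendsto_ae_condExp (ℱ := filt C hC hC0) g
  -- first integrals
  have hI1 : Tendsto (fun n => ∫ x, F n x * G n x ∂P) atTop (𝓝 (∫ x, f x * g x ∂P)) := by
    refine tendsto_integral_of_dominated_convergence (fun _ => (1 : ℝ))
      (fun n => ((hFm0 n).mul (hGm0 n)).aestronglyMeasurable) (integrable_const _) ?_ ?_
    · intro n
      refine ae_of_all _ fun x => ?_
      rw [Real.norm_eq_abs, abs_mul]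
      nlinarith [hFb n x, hGb n x, abs_nonneg (F n x), abs_nonneg (G n x)]
    · filter_upwards [hFt, hGt] with x h1 h2
      exact h1.mul h2
  -- L¹ distance of F n and f
  have hL1F : Tendsto (fun n => ∫ x, |F n x - f x| ∂P) atTop (𝓝 0) := by
    have : Tendsto (fun n => ∫ x, |F n x - f x| ∂P) atTop (𝓝 (∫ x, (0 : ℝ) ∂P)) := by
      refine tendsto_integral_of_dominated_convergence (fun _ => (2 : ℝ))
        (fun n => (((hFm0 n).sub hfm).abs).aestronglyMeasurable) (integrable_const _) ?_ ?_
      · intro n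
        refine ae_of_all _ fun x => ?_
        rw [Real.norm_eq_abs, abs_abs]
        calc |F n x - f x| ≤ |F n x| + |f x| := abs_sub _ _
          _ ≤ 2 := by linarith [hFb n x, hfb x]
      · filter_upwards [hFt] with x h1
        have := (h1.sub_const (f x)).abs
        simpa using this
    simpa using this
  have hL1G : Tendsto (fun n => ∫ x, |G n x - g x| ∂P) atTop (𝓝 0) := by
    have : Tendsto (fun n => ∫ x, |G n x - g x| ∂P) atTop (𝓝 (∫ x, (0 : ℝ) ∂P)) := by
      refine tendsto_integral_of_dominated_convergence (fun _ => (2 : ℝ))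
        (fun n => (((hGm0 n).sub hgm).abs).aestronglyMeasurable) (integrable_const _) ?_ ?_
      · intro n
        refine ae_of_all _ fun x => ?_
        rw [Real.norm_eq_abs, abs_abs]
        calc |G n x - g x| ≤ |G n x| + |g x| := abs_sub _ _
          _ ≤ 2 := by linarith [hGb n x, hgb x]
      · filter_upwards [hGt] with x h1
        have := (h1.sub_const (g x)).abs
        simpa using this
    simpa using this
  -- second integrals with f, g
  have hI2 : Tendsto (fun n => ∫ x, (P[f|C n]) x * (P[g|C n]) x ∂P) atTop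
      (𝓝 (∫ x, (P[f|⨆ n, C n]) x * (P[g|⨆ n, C n]) x ∂P)) := by
    refine tendsto_integral_of_dominated_convergence (fun _ => (1 : ℝ))
      (fun n => (integrable_condExp.aestronglyMeasurable.mul
        integrable_condExp.aestronglyMeasurable)) (integrable_const _) ?_ ?_
    · intro n
      filter_upwards [condExp_abs_le_one (P := P) (C n) hfb, condExp_abs_le_one (P := P) (C n) hgb]
        with x h1 h2
      rw [Real.norm_eq_abs, abs_mul]
      nlinarith [abs_nonneg ((P[f|C n]) x), abs_nonneg ((P[g|C n]) x)]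
    · filter_upwards [hCf, hCg] with x h1 h2
      exact h1.mul h2
  -- difference of the second integrals
  have hdiff : ∀ n, |∫ x, (P[F n|C n]) x * (P[G n|C n]) x ∂P -
      ∫ x, (P[f|C n]) x * (P[g|C n]) x ∂P| ≤ ∫ x, |F n x - f x| ∂P + ∫ x, |G n x - g x| ∂P := by
    intro n
    have i1 : Integrable (fun x => (P[F n|C n]) x * (P[G n|C n]) x) P := by
      refine Integrable.mono' (integrable_const (1 : ℝ))
        (integrable_condExp.aestronglyMeasurable.mul integrable_condExp.aestronglyMeasurable) ?_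
      filter_upwards [condExp_abs_le_one (P := P) (C n) (hFb n),
        condExp_abs_le_one (P := P) (C n) (hGb n)] with x h1 h2
      rw [Real.norm_eq_abs, abs_mul]
      nlinarith [abs_nonneg ((P[F n|C n]) x), abs_nonneg ((P[G n|C n]) x)]
    have i2 : Integrable (fun x => (P[f|C n]) x * (P[g|C n]) x) P := by
      refine Integrable.mono' (integrable_const (1 : ℝ))
        (integrable_condExp.aestronglyMeasurable.mul integrable_condExp.aestronglyMeasurable) ?_
      filter_upwards [condExp_abs_le_one (P := P) (C n) hfb,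
        condExp_abs_le_one (P := P) (C n) hgb] with x h1 h2
      rw [Real.norm_eq_abs, abs_mul]
      nlinarith [abs_nonneg ((P[f|C n]) x), abs_nonneg ((P[g|C n]) x)]
    rw [← integral_sub i1 i2]
    have e1 : P[F n - f|C n] =ᵐ[P] P[F n|C n] - P[f|C n] := condExp_sub (hFi n) hfi _
    have e2 : P[G n - g|C n] =ᵐ[P] P[G n|C n] - P[g|C n] := condExp_sub (hGi n) hgi _
    calc |∫ x, ((P[F n|C n]) x * (P[G n|C n]) x - (P[f|C n]) x * (P[g|C n]) x) ∂P|
        ≤ ∫ x, |(P[F n|C n]) x * (P[G n|C n]) x - (P[f|C n]) x * (P[g|C n]) x| ∂P :=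
          abs_integral_le_integral_abs
      _ ≤ ∫ x, (|(P[F n - f|C n]) x| + |(P[G n - g|C n]) x|) ∂P := by
          refine integral_mono_ae (i1.sub i2).abs
            (integrable_condExp.abs.add integrable_condExp.abs) ?_
          filter_upwards [e1, e2, condExp_abs_le_one (P := P) (C n) (hGb n),
            condExp_abs_le_one (P := P) (C n) hfb] with x h1 h2 h3 h4
          rw [h1, h2]
          simp only [Pi.sub_apply]
          have : (P[F n|C n]) x * (P[G n|C n]) x - (P[f|C n]) x * (P[g|C n]) x =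
              ((P[F n|C n]) x - (P[f|C n]) x) * (P[G n|C n]) x +
              (P[f|C n]) x * ((P[G n|C n]) x - (P[g|C n]) x) := by ring
          rw [this]
          refine (abs_add_le _ _).trans ?_
          rw [abs_mul, abs_mul]
          nlinarith [abs_nonneg ((P[F n|C n]) x - (P[f|C n]) x),
            abs_nonneg ((P[G n|C n]) x - (P[g|C n]) x)]
      _ = ∫ x, |(P[F n - f|C n]) x| ∂P + ∫ x, |(P[G n - g|C n]) x| ∂P :=
          integral_add integrable_condExp.abs integrable_condExp.abs
      _ ≤ _ := by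
          refine add_le_add ?_ ?_
          · exact integral_abs_condExp_le (F n - f)
          · exact integral_abs_condExp_le (G n - g)
  -- conclusion
  refine le_of_forall_pos_le_add fun e he => ?_
  have hlim : Tendsto (fun n => |∫ x, F n x * G n x ∂P - ∫ x, (P[f|C n]) x * (P[g|C n]) x ∂P| -
      (∫ x, |F n x - f x| ∂P + ∫ x, |G n x - g x| ∂P)) atTop
      (𝓝 (defect P (⨆ n, C n) f g - (0 + 0))) :=
    ((hI1.sub hI2).abs).sub (hL1F.add hL1G)
  have hfreq := hdl e he
  rw [add_zero, sub_zero] at hlim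
  refine le_of_tendsto_of_frequently hlim (hfreq.mono fun n hn => ?_)
  have h1 := h n (F n) (G n) (hFm n) (hGm n) (hFb n) (hGb n)
  unfold defect at h1
  have h2 := hdiff n
  have h3 : |∫ x, F n x * G n x ∂P - ∫ x, (P[f|C n]) x * (P[g|C n]) x ∂P| ≤
      |∫ x, F n x * G n x ∂P - ∫ x, (P[F n|C n]) x * (P[G n|C n]) x ∂P| +
      |∫ x, (P[F n|C n]) x * (P[G n|C n]) x ∂P -
      ∫ x, (P[f|C n]) x * (P[g|C n]) x ∂P| := abs_sub_le _ _ _
  linarith

end Levy

section Quant


theorem floor_half (x : ℝ) (m : ℕ) : ⌊x * 2 ^ m⌋ = ⌊x * 2 ^ (m + 1)⌋ / 2 := by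
  have h : x * 2 ^ m = (x * 2 ^ (m + 1)) / ((2 : ℕ) : ℝ) := by
    rw [pow_succ]; push_cast; ring
  rw [h, Int.floor_div_natCast]
  rfl







end Quant

end Crest.Agent.R166.Lim47
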