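import Mathlib
import Crest.Agent.R166.NoiseLLN_849
import Crest.Agent.R166.Words_955
import Crest.Agent.R166.LimLaw_980

-- ▼ part R166/NoiseLim_849
section

/-!
Row 166, section 40.2 (helper849): the noise limit.

* `walk_bijective`, `card_fiber_walk`: every vertex is the end of exactly `d` walks with a given
  word;
* `norm_Ew_le`, `Ew_prob`: window averages of `φ (exp (i τ·Z) - exp (-τ·Γ·τ/2))` are small with
  high probability when `Γ` is close to `g(H)` at most half-edges.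
-/

set_option autoImplicit false
set_option linter.unusedSectionVars false

noncomputable section

namespace Crest.Agent.R166.NoiseLim849

open MeasureTheory ProbabilityTheory Matrix
open Crest.Agent.R166.Noise547 Crest.Agent.R166.Gauss286 Crest.Agent.R166.NoiseLLN849
open Crest.Agent.R166.Words955

/-! ### Walks are bijections -/

section walks
variable {V : Type*} {d : ℕ} [NeZero d]

theorem walk_bijective (p : V × Fin d → V × Fin d) (hp : ∀ h, p (p h) = h) (w : List (Fin d)) :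
    Function.Bijective (walk p w) := by
  induction w with
  | nil => exact Function.bijective_id
  | cons i w ih =>
    have h1 : Function.Bijective (fun h : V × Fin d => p (h.1, h.2 + i)) := by
      have hpb : Function.Bijective p := Function.Involutive.bijective hp
      have h2 : Function.Bijective (fun h : V × Fin d => (h.1, h.2 + i)) := by
        constructor
        · rintro ⟨a, b⟩ ⟨a', b'⟩ h
          simp only [Prod.mk.injEq, add_left_inj] at h
          rw [h.1, h.2]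
        · rintro ⟨a, b⟩
          exact ⟨(a, b - i), by simp⟩
      exact hpb.comp h2
    exact ih.comp h1

/-- every vertex is the end of exactly `d` walks with a given word -/
theorem card_fiber_walk [Fintype V] [DecidableEq V] (p : V × Fin d → V × Fin d)
    (hp : ∀ h, p (p h) = h) (w : List (Fin d)) (v : V) :
    (Finset.univ.filter fun h : V × Fin d => (walk p w h).1 = v).card = d := by
  have hb := walk_bijective p hp w
  have h1 : (Finset.univ.filter fun h : V × Fin d => (walk p w h).1 = v).card =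
      (Finset.univ.filter fun h : V × Fin d => h.1 = v).card := by
    refine Finset.card_bij (fun h _ => walk p w h) ?_ ?_ ?_
    · intro h hh
      simpa using hh
    · intro h _ h' _ e
      exact hb.1 e
    · intro h hh
      obtain ⟨h', rfl⟩ := hb.2 h
      exact ⟨h', by simpa using hh, rfl⟩
  rw [h1]
  have h2 : (Finset.univ.filter fun h : V × Fin d => h.1 = v) =
      ({v} : Finset V) ×ˢ (Finset.univ : Finset (Fin d)) := by
    ext ⟨a, b⟩
    simp [eq_comm]
  rw [h2, Finset.card_product]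
  simp

end walks

/-! ### Replacing the covariance by a local one -/

lemma abs_exp_sub_exp_le {a b : ℝ} (ha : 0 ≤ a) (hb : 0 ≤ b) :
    |Real.exp (-a) - Real.exp (-b)| ≤ |a - b| := by
  wlog h : a ≤ b generalizing a b
  · rw [abs_sub_comm, abs_sub_comm a b]
    exact this hb ha (le_of_not_ge h)
  rw [abs_of_nonneg (by linarith [Real.exp_le_exp.2 (neg_le_neg h)]), abs_sub_comm,
    abs_of_nonneg (by linarith)]
  have h1 : Real.exp (-b) = Real.exp (-a) * Real.exp (-(b - a)) := by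
    rw [← Real.exp_add]; congr 1; ring
  have h2 : 1 - (b - a) ≤ Real.exp (-(b - a)) := by
    have := Real.add_one_le_exp (-(b - a)); linarith
  have h3 : Real.exp (-a) ≤ 1 := by rw [Real.exp_le_one_iff]; linarith
  have h4 : Real.exp (-(b - a)) ≤ 1 := by rw [Real.exp_le_one_iff]; linarith
  rw [h1]
  calc Real.exp (-a) - Real.exp (-a) * Real.exp (-(b - a))
      = Real.exp (-a) * (1 - Real.exp (-(b - a))) := by ring
    _ ≤ 1 * (1 - Real.exp (-(b - a))) := by
        apply mul_le_mul_of_nonneg_right h3; linarith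
    _ ≤ b - a := by linarith

section windows
variable {V J B : Type*} [Fintype V] [DecidableEq V] [Fintype J] [Fintype B]
  {H : Matrix V V ℝ} {I : Type*} [Fintype I]

/-- total size of the test vector -/
def Tt (τ : B → J → ℝ) : ℝ := ∑ j, (∑ b, |τ b j|) ^ 2

lemma Tt_nonneg (τ : B → J → ℝ) : 0 ≤ Tt τ := Finset.sum_nonneg fun _ _ => sq_nonneg _

/-- quadratic form of a kernel -/
def Qf (τ : B → J → ℝ) (Γ : B → B → ℝ) : ℝ := ∑ j, ∑ b, ∑ b', τ b j * Γ b b' * τ b' j

lemma Qf_nonneg (τ : B → J → ℝ) {Γ : B → B → ℝ}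
    (hΓ : ∀ c : B → ℝ, 0 ≤ ∑ b, ∑ b', c b * Γ b b' * c b') : 0 ≤ Qf τ Γ :=
  Finset.sum_nonneg fun j _ => hΓ fun b => τ b j

lemma abs_Qf_sub_le (τ : B → J → ℝ) {Γ Γ' : B → B → ℝ} {δ : ℝ}
    (h : ∀ b b', |Γ b b' - Γ' b b'| ≤ δ) : |Qf τ Γ - Qf τ Γ'| ≤ Tt τ * δ := by
  have h1 : Qf τ Γ - Qf τ Γ' = ∑ j, ∑ b, ∑ b', τ b j * (Γ b b' - Γ' b b') * τ b' j := by
    unfold Qf
    simp only [← Finset.sum_sub_distrib]
    refine Finset.sum_congr rfl fun j _ => Finset.sum_congr rfl fun b _ =>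
      Finset.sum_congr rfl fun b' _ => by ring
  rw [h1]
  calc |∑ j, ∑ b, ∑ b', τ b j * (Γ b b' - Γ' b b') * τ b' j|
      ≤ ∑ j, ∑ b, ∑ b', |τ b j * (Γ b b' - Γ' b b') * τ b' j| := by
        refine (Finset.abs_sum_le_sum_abs _ _).trans (Finset.sum_le_sum fun j _ => ?_)
        refine (Finset.abs_sum_le_sum_abs _ _).trans (Finset.sum_le_sum fun b _ => ?_)
        exact Finset.abs_sum_le_sum_abs _ _
    _ ≤ ∑ j, ∑ b, ∑ b', |τ b j| * δ * |τ b' j| := by
        refine Finset.sum_le_sum fun j _ => Finset.sum_le_sum fun b _ =>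
          Finset.sum_le_sum fun b' _ => ?_
        rw [abs_mul, abs_mul]
        exact mul_le_mul_of_nonneg_right
          (mul_le_mul_of_nonneg_left (h b b') (abs_nonneg _)) (abs_nonneg _)
    _ = Tt τ * δ := by
        unfold Tt
        rw [Finset.sum_mul]
        refine Finset.sum_congr rfl fun j _ => ?_
        rw [sq, Finset.sum_mul, Finset.sum_mul]
        refine Finset.sum_congr rfl fun b _ => ?_
        rw [Finset.mul_sum, Finset.sum_mul]
        refine Finset.sum_congr rfl fun b' _ => by ring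

lemma Qf_fM_nonneg (hH : H.IsHermitian) {g : ℝ → ℝ} (hg : ∀ i, 0 ≤ g (hH.eigenvalues i))
    (x : B → V) (τ : B → J → ℝ) : 0 ≤ Qf τ (fun b b' => fM hH g (x b) (x b')) := by
  have h1 := Gf_nonneg hH hg (aw (I := Unit) (fun b _ => x b) τ ())
  rwa [Gf_aw] at h1

/-- window average of `φ (exp (i τ·Z) - exp (-τ·Γ·τ/2))` -/
def Ew (hH : H.IsHermitian) (g : ℝ → ℝ) (x : B → I → V) (τ : B → J → ℝ) (Γ : I → B → B → ℝ)
    (φ : I → ℂ) (ξ : J → V → ℝ) : ℂ :=
  (∑ h, φ h * (Complex.exp (Complex.I * ((∑ j, ∑ b, τ b j * Zn hH g ξ j (x b h) : ℝ) : ℂ)) -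
    Complex.exp (-((Qf τ (Γ h) : ℝ) : ℂ) / 2))) / (Fintype.card I : ℂ)

/-- the change of the covariance costs at most `(T/2 + 1) δ` -/
theorem norm_Ew_le (hH : H.IsHermitian) {g : ℝ → ℝ} (hg : ∀ i, 0 ≤ g (hH.eigenvalues i))
    (x : B → I → V) (τ : B → J → ℝ) (Γ : I → B → B → ℝ)
    (hΓ : ∀ h (c : B → ℝ), 0 ≤ ∑ b, ∑ b', c b * Γ h b b' * c b')
    (φ : I → ℂ) (hφ : ∀ h, ‖φ h‖ ≤ 1) {δ : ℝ} (hδ : 0 ≤ δ) (S : Finset I)
    (hS : (S.card : ℝ) ≤ δ * Fintype.card I)
    (hloc : ∀ h, h ∉ S → ∀ b b', |fM hH g (x b h) (x b' h) - Γ h b b'| ≤ δ)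
    (ξ : J → V → ℝ) :
    ‖Ew hH g x τ Γ φ ξ‖ ≤ ‖Dw hH g x τ φ ξ‖ + (Tt τ / 2 + 1) * δ := by
  classical
  set Gh : I → B → B → ℝ := fun h b b' => fM hH g (x b h) (x b' h) with hGh
  have hsub : Ew hH g x τ Γ φ ξ = Dw hH g x τ φ ξ +
      (∑ h, φ h * (Complex.exp (-((Qf τ (Gh h) : ℝ) : ℂ) / 2) -
        Complex.exp (-((Qf τ (Γ h) : ℝ) : ℂ) / 2))) / (Fintype.card I : ℂ) := by
    unfold Ew Dw
    rw [← add_div, ← Finset.sum_add_distrib]
    congr 1
    refine Finset.sum_congr rfl fun h _ => ?_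
    simp only [Qf, hGh]
    ring
  have hterm : ∀ h, ‖φ h * (Complex.exp (-((Qf τ (Gh h) : ℝ) : ℂ) / 2) -
        Complex.exp (-((Qf τ (Γ h) : ℝ) : ℂ) / 2))‖ ≤
        Tt τ / 2 * δ + if h ∈ S then 1 else 0 := by
    intro h
    have hre : Complex.exp (-((Qf τ (Gh h) : ℝ) : ℂ) / 2) -
        Complex.exp (-((Qf τ (Γ h) : ℝ) : ℂ) / 2) =
        ((Real.exp (-(Qf τ (Gh h) / 2)) - Real.exp (-(Qf τ (Γ h) / 2)) : ℝ) : ℂ) := by
      push_cast
      congr 2 <;> ring
    have h0 : 0 ≤ Qf τ (Gh h) / 2 := by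
      have := Qf_fM_nonneg hH hg (fun b => x b h) τ
      simp only [hGh]; linarith
    have h0' : 0 ≤ Qf τ (Γ h) / 2 := by
      have := Qf_nonneg τ (hΓ h); linarith
    rw [norm_mul, hre, Complex.norm_real, Real.norm_eq_abs]
    have hle1 : ‖φ h‖ * |Real.exp (-(Qf τ (Gh h) / 2)) - Real.exp (-(Qf τ (Γ h) / 2))| ≤
        |Real.exp (-(Qf τ (Gh h) / 2)) - Real.exp (-(Qf τ (Γ h) / 2))| :=
      mul_le_of_le_one_left (abs_nonneg _) (hφ h)
    refine hle1.trans ?_
    by_cases hS' : h ∈ S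
    · rw [if_pos hS']
      have e1 : Real.exp (-(Qf τ (Gh h) / 2)) ≤ 1 := by rw [Real.exp_le_one_iff]; linarith
      have e2 : Real.exp (-(Qf τ (Γ h) / 2)) ≤ 1 := by rw [Real.exp_le_one_iff]; linarith
      have e3 := Real.exp_pos (-(Qf τ (Gh h) / 2))
      have e4 := Real.exp_pos (-(Qf τ (Γ h) / 2))
      have e5 : 0 ≤ Tt τ / 2 * δ := mul_nonneg (by linarith [Tt_nonneg τ]) hδ
      have : |Real.exp (-(Qf τ (Gh h) / 2)) - Real.exp (-(Qf τ (Γ h) / 2))| ≤ 1 := by
        rw [abs_le]; constructor <;> linarith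
      linarith
    · rw [if_neg hS', add_zero]
      refine (abs_exp_sub_exp_le h0 h0').trans ?_
      have h1 := abs_Qf_sub_le τ (hloc h hS')
      have h2 : |Qf τ (Gh h) / 2 - Qf τ (Γ h) / 2| = |Qf τ (Gh h) - Qf τ (Γ h)| / 2 := by
        rw [← sub_div, abs_div, abs_of_pos (by norm_num : (0:ℝ) < 2)]
      rw [h2]
      have h3 : |Qf τ (Gh h) - Qf τ (Γ h)| ≤ Tt τ * δ := h1
      linarith
  rw [hsub]
  refine (norm_add_le _ _).trans (add_le_add le_rfl ?_)
  rw [norm_div, Complex.norm_natCast]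
  rcases isEmpty_or_nonempty I with hI | hI
  · simp only [Finset.univ_eq_empty, Finset.sum_empty, norm_zero, zero_div]
    have := Tt_nonneg τ
    positivity
  · have hpos : (0:ℝ) < Fintype.card I := by exact_mod_cast Fintype.card_pos
    rw [div_le_iff₀ hpos]
    calc ‖∑ h, φ h * (Complex.exp (-((Qf τ (Gh h) : ℝ) : ℂ) / 2) -
          Complex.exp (-((Qf τ (Γ h) : ℝ) : ℂ) / 2))‖
        ≤ ∑ h, (Tt τ / 2 * δ + if h ∈ S then (1:ℝ) else 0) :=
          (norm_sum_le _ _).trans (Finset.sum_le_sum fun h _ => hterm h)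
      _ = Tt τ / 2 * δ * Fintype.card I + S.card := by
          rw [Finset.sum_add_distrib, Finset.sum_const, Finset.card_univ, nsmul_eq_mul,
            Finset.sum_ite_mem, Finset.univ_inter, Finset.sum_const, nsmul_eq_mul]
          ring
      _ ≤ Tt τ / 2 * δ * Fintype.card I + δ * Fintype.card I := by linarith
      _ = (Tt τ / 2 + 1) * δ * Fintype.card I := by ring

/-- probability form -/
theorem Ew_prob (hH : H.IsHermitian) {g : ℝ → ℝ} {M : ℝ} (hM : 0 ≤ M)
    (hg : ∀ i, 0 ≤ g (hH.eigenvalues i)) (hgM : ∀ i, g (hH.eigenvalues i) ≤ M)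
    (x : B → I → V) (τ : B → J → ℝ) (Γ : I → B → B → ℝ)
    (hΓ : ∀ h (c : B → ℝ), 0 ≤ ∑ b, ∑ b', c b * Γ h b b' * c b')
    (φ : I → ℂ) (hφ : ∀ h, ‖φ h‖ ≤ 1) {m : ℕ}
    (hm : ∀ b v, (Finset.univ.filter fun h => x b h = v).card ≤ m)
    (hcard : Fintype.card I = m * Fintype.card V) {δ : ℝ} (hδ : 0 ≤ δ) (S : Finset I)
    (hS : (S.card : ℝ) ≤ δ * Fintype.card I)
    (hloc : ∀ h, h ∉ S → ∀ b b', |fM hH g (x b h) (x b' h) - Γ h b b'| ≤ δ)
    {r : ℝ} (hr : 0 < r) :
    (gm J V) {ξ | r + (Tt τ / 2 + 1) * δ ≤ ‖Ew hH g x τ Γ φ ξ‖} ≤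
      ENNReal.ofReal (Tt τ * M / Real.sqrt (Fintype.card V) / r ^ 2) := by
  refine le_trans (measure_mono ?_) (lln_prob hH hM hg hgM x τ φ hφ hm hcard hr)
  intro ξ hξ
  simp only [Set.mem_ofPred_eq] at hξ ⊢
  have := norm_Ew_le hH hg x τ Γ hΓ φ hφ hδ S hS hloc ξ
  linarith

end windows

end Crest.Agent.R166.NoiseLim849
end
end

-- ▼ part R166/NoiseLim2_849
section

/-!
Row 166, section 40.2 (helper849): the noise limit, part B, preliminaries.

* `exists_good`: diagonal choice of good noise events along a filter;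
* `empP`, `integral_emp`: empirical laws as probability measures;
* `coordE`: the closed embedding of configurations into `T → ℝ` (for `LimLaw980.exists_limit`).
-/

set_option autoImplicit false
set_option linter.unusedSectionVars false

noncomputable section

namespace Crest.Agent.R166.NoiseLim849

open MeasureTheory ProbabilityTheory Matrix Filter Topology
open Crest.Agent.R166.Noise547 Crest.Agent.R166.Gauss286 Crest.Agent.R166.NoiseLLN849
open Crest.Agent.R166.Words955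

/-! ### Diagonal choice of good events -/

/-- diagonal choice: countably many families of events of vanishing probability can be avoided
simultaneously, more and more of them along the filter -/
theorem exists_good {A : Type*} {l : Filter A} {n : A → ℕ} (hn : Tendsto n l atTop)
    {Ω : A → Type*} [∀ a, MeasurableSpace (Ω a)] (ν : ∀ a, Measure (Ω a))
    (bad : ℕ → ∀ a, Set (Ω a)) (hbad : ∀ i, Tendsto (fun a => ν a (bad i a)) l (𝓝 0)) :
    ∃ m : A → ℕ, Tendsto m l atTop ∧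
      Tendsto (fun a => ν a (⋃ i ∈ Finset.range (m a + 1), bad i a)) l (𝓝 0) := by
  classical
  set P : ℕ → A → Prop := fun M a => ∀ i ≤ M, ν a (bad i a) ≤ (((M : ENNReal) + 1) ^ 2)⁻¹ with hP
  have hPe : ∀ M, ∀ᶠ a in l, P M a := by
    intro M
    have h1 : ∀ i ∈ Finset.range (M + 1), ∀ᶠ a in l,
        ν a (bad i a) ≤ (((M : ENNReal) + 1) ^ 2)⁻¹ := by
      intro i _
      have h2 : 0 < (((M : ENNReal) + 1) ^ 2)⁻¹ := ENNReal.inv_pos.2
        (ENNReal.pow_ne_top (ENNReal.add_ne_top.2 ⟨ENNReal.natCast_ne_top _, by simp⟩))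
      exact ENNReal.tendsto_nhds_zero.1 (hbad i) _ h2
    have h3 := (Filter.eventually_all_finset (Finset.range (M + 1))).2 h1
    filter_upwards [h3] with a ha i hi
    exact ha i (Finset.mem_range.2 (by omega))
  set m : A → ℕ := fun a => Nat.findGreatest (fun M => P M a) (n a) with hm
  have hmt : Tendsto m l atTop := by
    rw [tendsto_atTop]
    intro M
    filter_upwards [hPe M, (tendsto_atTop.1 hn) M] with a ha hna
    exact Nat.le_findGreatest hna ha
  refine ⟨m, hmt, ?_⟩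
  have hle : ∀ᶠ a in l, ν a (⋃ i ∈ Finset.range (m a + 1), bad i a) ≤
      ((m a : ENNReal) + 1)⁻¹ := by
    filter_upwards [(tendsto_atTop.1 hmt) 1] with a ha
    have hPm : P (m a) a := Nat.findGreatest_of_ne_zero (P := fun M => P M a) (n := n a)
      (m := m a) rfl (by omega)
    refine (measure_biUnion_finset_le _ _).trans ?_
    calc ∑ i ∈ Finset.range (m a + 1), ν a (bad i a)
        ≤ ∑ _i ∈ Finset.range (m a + 1), (((m a : ENNReal) + 1) ^ 2)⁻¹ :=
          Finset.sum_le_sum fun i hi => hPm i (by have := Finset.mem_range.1 hi; omega)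
      _ = ((m a : ENNReal) + 1) * (((m a : ENNReal) + 1) ^ 2)⁻¹ := by
          rw [Finset.sum_const, Finset.card_range, nsmul_eq_mul]
          push_cast
          rfl
      _ = ((m a : ENNReal) + 1)⁻¹ := by
          have h0 : ((m a : ENNReal) + 1) ≠ 0 := by simp
          have h1 : ((m a : ENNReal) + 1) ≠ ⊤ :=
            ENNReal.add_ne_top.2 ⟨ENNReal.natCast_ne_top _, by simp⟩
          rw [sq, ENNReal.mul_inv (Or.inl h0) (Or.inl h1), ← mul_assoc,
            ENNReal.mul_inv_cancel h0 h1, one_mul]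
  have hlim : Tendsto (fun a => ((m a : ENNReal) + 1)⁻¹) l (𝓝 0) := by
    have h1 : Tendsto (fun j : ℕ => ((j : ENNReal) + 1)⁻¹) atTop (𝓝 0) := by
      have h2 := ENNReal.tendsto_inv_nat_nhds_zero.comp (tendsto_add_atTop_nat 1)
      refine h2.congr fun j => ?_
      simp [Function.comp]
    exact h1.comp hmt
  exact tendsto_of_tendsto_of_tendsto_of_le_of_le' tendsto_const_nhds hlim
    (Eventually.of_forall fun _ => zero_le) hle

/-! ### Empirical laws -/

section emp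
variable {d : ℕ} [NeZero d] {S : Type*} [MeasurableSpace S] {V : Type*} [Fintype V]

theorem isProb_emp [Nonempty V] (p : V × Fin d → V × Fin d) (c : V × Fin d → S) :
    IsProbabilityMeasure (emp p c) := by
  have : Nonempty (Fin d) := ⟨0⟩
  constructor
  unfold emp
  rw [Measure.smul_apply, Measure.finsetSum_apply, smul_eq_mul]
  simp only [measure_univ, Finset.sum_const, Finset.card_univ, nsmul_eq_mul, mul_one]
  have h0 : (Fintype.card (V × Fin d) : ENNReal) ≠ 0 := by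
    exact_mod_cast Fintype.card_ne_zero
  exact ENNReal.inv_mul_cancel h0 (ENNReal.natCast_ne_top _)

/-- empirical law as a probability measure -/
def empP [Nonempty V] (p : V × Fin d → V × Fin d) (c : V × Fin d → S) :
    ProbabilityMeasure (Conf d S) := ⟨emp p c, isProb_emp p c⟩

theorem integral_emp [MeasurableSingletonClass (Conf d S)] {E : Type*} [NormedAddCommGroup E]
    [NormedSpace ℝ E] [CompleteSpace E] (p : V × Fin d → V × Fin d) (c : V × Fin d → S)
    (f : Conf d S → E) :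
    ∫ ζ, f ζ ∂(emp p c) = (Fintype.card (V × Fin d) : ℝ)⁻¹ • ∑ h, f (conf p c h) := by
  unfold emp
  rw [integral_smul_measure, integral_finsetSum_measure]
  · simp [integral_dirac]
  · intro h _
    exact integrable_dirac (by simp)

theorem emp_apply_le [Nonempty V] (p : V × Fin d → V × Fin d) (c : V × Fin d → S)
    {s : Set (Conf d S)} (hs : MeasurableSet s) {b : ℝ} [DecidablePred (· ∈ s)]
    (h : ((Finset.univ.filter fun h : V × Fin d => conf p c h ∈ s).card : ℝ) ≤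
      b * Fintype.card (V × Fin d)) :
    emp p c s ≤ ENNReal.ofReal b := by
  have : Nonempty (Fin d) := ⟨0⟩
  have h0 : (0 : ℝ) < Fintype.card (V × Fin d) := by exact_mod_cast Fintype.card_pos
  unfold emp
  rw [Measure.smul_apply, Measure.finsetSum_apply, smul_eq_mul]
  have h1 : ∑ h : V × Fin d, (Measure.dirac (conf p c h)) s =
      ((Finset.univ.filter fun h : V × Fin d => conf p c h ∈ s).card : ENNReal) := by
    rw [Finset.card_filter]
    push_cast
    refine Finset.sum_congr rfl fun h _ => ?_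
    rw [Measure.dirac_apply' _ hs, Set.indicator_apply]
    rfl
  have h2 : (((Fintype.card (V × Fin d) : ℕ) : ENNReal))⁻¹ =
      ENNReal.ofReal ((Fintype.card (V × Fin d) : ℝ)⁻¹) := by
    rw [ENNReal.ofReal_inv_of_pos h0, ENNReal.ofReal_natCast]
  have h3 : ((Finset.univ.filter fun h : V × Fin d => conf p c h ∈ s).card : ENNReal) =
      ENNReal.ofReal ((Finset.univ.filter fun h : V × Fin d => conf p c h ∈ s).card : ℝ) := by
    rw [ENNReal.ofReal_natCast]
  rw [h1, h2, h3, ← ENNReal.ofReal_mul (by positivity)]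
  refine ENNReal.ofReal_le_ofReal ?_
  rw [inv_mul_le_iff₀ h0, mul_comm]
  exact h

end emp

/-! ### Coordinates -/

section coords
variable (d : ℕ) [NeZero d] (k : ℕ)

/-- vertex data `(ω, X)` -/
abbrev S1 : Type := Fin d × ℝ × (Fin k → ℝ)

/-- vertex data `(ω, X, Z)` -/
abbrev S2 : Type := Fin d × ℝ × (Fin k → ℝ) × (Fin k → ℝ)

/-- names of the coordinates: label, `ω`, `X i`, `Z i` -/
abbrev A2 : Type := (Unit ⊕ Unit) ⊕ (Fin k ⊕ Fin k)

/-- the coordinates as a homeomorphism -/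
def coordH : (ℝ × ℝ × (Fin k → ℝ) × (Fin k → ℝ)) ≃ₜ (A2 k → ℝ) where
  toFun s := Sum.elim (Sum.elim (fun _ => s.1) (fun _ => s.2.1)) (Sum.elim s.2.2.1 s.2.2.2)
  invFun f := (f (Sum.inl (Sum.inl ())), f (Sum.inl (Sum.inr ())),
    fun i => f (Sum.inr (Sum.inl i)), fun i => f (Sum.inr (Sum.inr i)))
  left_inv s := rfl
  right_inv f := by
    funext x
    rcases x with (x | x) | (x | x) <;> rfl
  continuous_toFun := by
    refine continuous_pi fun x => ?_
    rcases x with (x | x) | (x | x)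
    · exact continuous_fst
    · exact continuous_fst.comp continuous_snd
    · exact (continuous_apply x).comp (continuous_fst.comp (continuous_snd.comp continuous_snd))
    · exact (continuous_apply x).comp (continuous_snd.comp (continuous_snd.comp continuous_snd))
  continuous_invFun := by fun_prop

/-- coordinates of the vertex data -/
def coordS (s : S2 d k) : A2 k → ℝ :=
  coordH k (((s.1 : ℕ) : ℝ), s.2)

theorem isClosedEmbedding_coordS : IsClosedEmbedding (coordS d k) := by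
  have h1 : IsClosedEmbedding (fun i : Fin d => (((i : ℕ) : ℝ))) := by
    refine Continuous.isClosedEmbedding continuous_of_discreteTopology ?_
    intro i j h
    have h' : ((i : ℕ) : ℝ) = ((j : ℕ) : ℝ) := h
    exact Fin.ext (by exact_mod_cast h')
  have h2 : IsClosedEmbedding (Prod.map (fun i : Fin d => (((i : ℕ) : ℝ)))
      (id : ℝ × (Fin k → ℝ) × (Fin k → ℝ) → _)) := h1.prodMap IsClosedEmbedding.id
  exact (coordH k).isClosedEmbedding.comp h2

/-- coordinates of configurations -/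
def coordE (ζ : Conf d (S2 d k)) : TW d × A2 k → ℝ := fun x => coordS d k (ζ x.1) x.2

theorem isClosedEmbedding_coordE : IsClosedEmbedding (coordE d k) := by
  have h1 : IsClosedEmbedding (Pi.map fun _ : TW d => coordS d k) :=
    IsClosedEmbedding.piMap fun _ => isClosedEmbedding_coordS d k
  have h2 : IsClosedEmbedding (fun (f : TW d → A2 k → ℝ) (x : TW d × A2 k) => f x.1 x.2) := by
    let e : (TW d → A2 k → ℝ) ≃ₜ (TW d × A2 k → ℝ) :=
      { toFun := fun f x => f x.1 x.2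
        invFun := fun f w a => f (w, a)
        left_inv := fun f => rfl
        right_inv := fun f => rfl
        continuous_toFun := by fun_prop
        continuous_invFun := by fun_prop }
    exact e.isClosedEmbedding
  exact h2.comp h1

end coords

end Crest.Agent.R166.NoiseLim849
end
end

-- ▼ part R166/NoiseLim3_849
section

/-!
Row 166, section 40.2 (helper849): the noise limit, part B: energy of the noise, tightness.
-/

set_option autoImplicit false
set_option linter.unusedSectionVars false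

noncomputable section

namespace Crest.Agent.R166.NoiseLim849

open MeasureTheory ProbabilityTheory Matrix Filter Topology
open Crest.Agent.R166.Noise547 Crest.Agent.R166.Gauss286 Crest.Agent.R166.NoiseLLN849
open Crest.Agent.R166.Words955

/-! ### Upper tail of the chi-square law -/

/-- variance of the square of a standard Gaussian -/
def v4 : ℝ := Var[fun x : ℝ => x ^ 2; gaussianReal 0 1]


lemma memLp_sq : MemLp (fun x : ℝ => x ^ 2) 2 (gaussianReal 0 1) := by
  have h1 : MemLp (id : ℝ → ℝ) 4 (gaussianReal 0 1) :=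
    memLp_id_gaussianReal' 4 (by simp)
  have h2 := h1.norm_rpow_div 2
  have h3 : (4 : ENNReal) / 2 = 2 := by
    rw [show (4 : ENNReal) = 2 * 2 by norm_num]
    exact ENNReal.mul_div_cancel_right (by simp) (by simp)
  rw [h3] at h2
  refine h2.congr_norm (by fun_prop) (Eventually.of_forall fun x => ?_)
  simp

lemma integral_sq : ∫ x : ℝ, x ^ 2 ∂(gaussianReal 0 1) = 1 := by
  have h1 : Var[fun x : ℝ => x; gaussianReal 0 1] = 1 := by
    rw [variance_fun_id_gaussianReal]; simp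
  have h2 : MemLp (fun x : ℝ => x) 2 (gaussianReal 0 1) := memLp_id_gaussianReal' 2 (by simp)
  rw [variance_eq_sub h2, integral_id_gaussianReal] at h1
  simpa using h1

theorem chi_upper {V : Type*} [Fintype V] [Nonempty V] :
    (gv V) {ξ | 2 * (Fintype.card V : ℝ) ≤ ∑ v, ξ v ^ 2} ≤
      ENNReal.ofReal (v4 / Fintype.card V) := by
  have hc : (0 : ℝ) < Fintype.card V := by exact_mod_cast Fintype.card_pos
  have hX : MemLp (fun ξ : V → ℝ => ∑ v, ξ v ^ 2) 2 (gv V) := by
    refine memLp_finsetSum _ fun v _ => ?_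
    exact memLp_sq.comp_measurePreserving (measurePreserving_eval (fun _ : V => gaussianReal 0 1) v)
  have hvar : Var[fun ξ : V → ℝ => ∑ v, ξ v ^ 2; gv V] = Fintype.card V * v4 := by
    have h1 := variance_sum_pi (μ := fun _ : V => gaussianReal 0 1)
      (X := fun _ x => x ^ 2) (fun _ => memLp_sq)
    have h2 : (∑ v : V, fun ξ : V → ℝ => ξ v ^ 2) = fun ξ : V → ℝ => ∑ v, ξ v ^ 2 := by
      ext ξ; simp
    rw [h2] at h1
    rw [h1, Finset.sum_const, Finset.card_univ, nsmul_eq_mul]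
    rfl
  have hmean : ∫ ξ : V → ℝ, ∑ v, ξ v ^ 2 ∂(gv V) = Fintype.card V := by
    rw [integral_finsetSum]
    · have h1 : ∀ v : V, ∫ ξ : V → ℝ, ξ v ^ 2 ∂(gv V) = 1 := by
        intro v
        have h2 := (measurePreserving_eval (fun _ : V => gaussianReal 0 1) v).map_eq
        have h3 : ∫ x, x ^ 2 ∂((gv V).map (Function.eval v)) =
            ∫ ξ : V → ℝ, (Function.eval v ξ) ^ 2 ∂(gv V) :=
          integral_map (measurable_pi_apply v).aemeasurable (by fun_prop)
        rw [h2, integral_sq] at h3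
        exact h3.symm
      simp [h1]
    · intro v _
      exact (memLp_sq.comp_measurePreserving
        (measurePreserving_eval (fun _ : V => gaussianReal 0 1) v)).integrable one_le_two
  have h1 := meas_ge_le_variance_div_sq hX hc
  rw [hvar, hmean] at h1
  refine (measure_mono ?_).trans (h1.trans (le_of_eq ?_))
  · intro ξ hξ
    simp only [Set.mem_ofPred_eq] at hξ ⊢
    rw [abs_of_nonneg (by linarith)]
    linarith
  · congr 1
    field_simp

/-- marginal of a row -/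
lemma gm_eval {V J : Type*} [Fintype V] [Fintype J] (j : J) :
    MeasurePreserving (fun ξ : J → V → ℝ => ξ j) (gm J V) (gv V) :=
  measurePreserving_eval (fun _ : J => gv V) j

/-- the energy event -/
def En (V J : Type*) [Fintype V] [Fintype J] : Set (J → V → ℝ) :=
  {ξ | ∀ j, ∑ v, ξ j v ^ 2 < 2 * (Fintype.card V : ℝ)}

lemma measurableSet_En (V J : Type*) [Fintype V] [Fintype J] : MeasurableSet (En V J) := by
  have : En V J = ⋂ j, {ξ : J → V → ℝ | ∑ v, ξ j v ^ 2 < 2 * (Fintype.card V : ℝ)} := by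
    ext ξ
    simp [En]
  rw [this]
  refine MeasurableSet.iInter fun j => measurableSet_lt ?_ measurable_const
  exact Finset.measurable_sum _ fun v _ => (measurable_entry j v).pow_const 2

theorem En_compl_le (V J : Type*) [Fintype V] [Nonempty V] [Fintype J] :
    (gm J V) (En V J)ᶜ ≤ Fintype.card J * ENNReal.ofReal (v4 / Fintype.card V) := by
  have h1 : (En V J)ᶜ ⊆ ⋃ j ∈ (Finset.univ : Finset J),
      (fun ξ : J → V → ℝ => ξ j) ⁻¹' {x : V → ℝ | 2 * (Fintype.card V : ℝ) ≤ ∑ v, x v ^ 2} := by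
    intro ξ hξ
    simp only [En, Set.mem_compl_iff, Set.mem_ofPred_eq, not_forall, not_lt] at hξ
    obtain ⟨j, hj⟩ := hξ
    simp only [Finset.mem_univ, Set.iUnion_true, Set.mem_iUnion, Set.mem_preimage,
      Set.mem_ofPred_eq]
    exact ⟨j, hj⟩
  refine (measure_mono h1).trans ((measure_biUnion_finset_le _ _).trans ?_)
  calc ∑ j : J, (gm J V) ((fun ξ : J → V → ℝ => ξ j) ⁻¹'
        {x : V → ℝ | 2 * (Fintype.card V : ℝ) ≤ ∑ v, x v ^ 2})
      ≤ ∑ _j : J, ENNReal.ofReal (v4 / Fintype.card V) := by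
        refine Finset.sum_le_sum fun j _ => ?_
        rw [(gm_eval j).measure_preimage]
        · exact chi_upper
        · refine MeasurableSet.nullMeasurableSet (measurableSet_le measurable_const ?_)
          fun_prop
    _ = _ := by rw [Finset.sum_const, Finset.card_univ, nsmul_eq_mul]

/-! ### Energy of the noise -/

section energy
variable {V J : Type*} [Fintype V] [DecidableEq V] [Fintype J] {H : Matrix V V ℝ}

lemma sum_Zn_sq (hH : H.IsHermitian) {g : ℝ → ℝ} (hg : ∀ i, 0 ≤ g (hH.eigenvalues i))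
    (ξ : J → V → ℝ) (j : J) :
    ∑ v, Zn hH g ξ j v ^ 2 = ∑ x, ∑ y, ξ j x * fM hH g x y * ξ j y := by
  have h1 := Gf_eq (J := Unit) hH hg (fun _ => ξ j)
  simp only [Finset.univ_unique, Finset.sum_singleton, Gf] at h1
  rw [← h1]
  refine Finset.sum_congr rfl fun v _ => ?_
  unfold Zn
  congr 1
  refine Finset.sum_congr rfl fun y _ => ?_
  rw [fM_symm hH _ v y, mul_comm]

theorem sum_Zn_sq_le (hH : H.IsHermitian) {g : ℝ → ℝ} {M : ℝ}
    (hg : ∀ i, 0 ≤ g (hH.eigenvalues i)) (hgM : ∀ i, g (hH.eigenvalues i) ≤ M)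
    (ξ : J → V → ℝ) (j : J) : ∑ v, Zn hH g ξ j v ^ 2 ≤ M * ∑ v, ξ j v ^ 2 := by
  rw [sum_Zn_sq hH hg, fM_quad, parseval hH, Finset.mul_sum]
  exact Finset.sum_le_sum fun i _ => mul_le_mul_of_nonneg_right (hgM i) (sq_nonneg _)

end energy

/-! ### Tails of empirical laws -/

section tails
variable {V : Type*} [Fintype V] {d : ℕ} [NeZero d]

lemma card_tail (p : V × Fin d → V × Fin d) (hp : ∀ h, p (p h) = h) (w : List (Fin d))
    (f : V × Fin d → ℝ) {C R : ℝ} (hR : 0 < R)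
    (hf : ∑ h, f h ^ 2 ≤ C * Fintype.card (V × Fin d))
    [DecidablePred fun h => R < |f (walk p w h)|] :
    ((Finset.univ.filter fun h : V × Fin d => R < |f (walk p w h)|).card : ℝ) ≤
      (C / R ^ 2) * Fintype.card (V × Fin d) := by
  have h1 : ∑ h, f (walk p w h) ^ 2 = ∑ h, f h ^ 2 :=
    (walk_bijective p hp w).sum_comp fun h => f h ^ 2
  have h2 : ((Finset.univ.filter fun h : V × Fin d => R < |f (walk p w h)|).card : ℝ) * R ^ 2 ≤
      ∑ h, f (walk p w h) ^ 2 := by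
    calc ((Finset.univ.filter fun h : V × Fin d => R < |f (walk p w h)|).card : ℝ) * R ^ 2
        = ∑ h ∈ Finset.univ.filter (fun h : V × Fin d => R < |f (walk p w h)|), R ^ 2 := by
          rw [Finset.sum_const, nsmul_eq_mul]
      _ ≤ ∑ h ∈ Finset.univ.filter (fun h : V × Fin d => R < |f (walk p w h)|),
            f (walk p w h) ^ 2 := by
          refine Finset.sum_le_sum fun h hh => ?_
          have h3 := (Finset.mem_filter.1 hh).2
          rw [← sq_abs (f _)]
          exact pow_le_pow_left₀ hR.le h3.le 2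
      _ ≤ ∑ h, f (walk p w h) ^ 2 :=
          Finset.sum_le_sum_of_subset_of_nonneg (Finset.filter_subset _ _)
            fun _ _ _ => sq_nonneg _
  rw [div_mul_eq_mul_div, le_div_iff₀ (by positivity)]
  linarith

end tails

end Crest.Agent.R166.NoiseLim849
end
end

-- ▼ part R166/NoiseLim4_849

/-!
Row 166, section 40.2 (helper849): the noise limit, part B: the main theorem.

`Arr A d k` = array of samples (port graph, `ω`, `F`, operator `H`) indexed by `A`.
`noise_limit`: if the empirical laws `e1` of `(label, ω, F)` converge along a filter `l` to `P` and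
`g(H)` is local with kernel `Γ`, then on good noise events `G a` (of probability `→ 1`) the
empirical laws `e2` of `(label, ω, F, Z)` converge to a law `Q` with
`E_Q φ(pr) exp(i τ·Z) = E_P φ exp(-τ·Γ·τ/2)`.
-/

set_option autoImplicit false
set_option linter.unusedSectionVars false

noncomputable section

namespace Crest.Agent.R166.NoiseLim849

open MeasureTheory ProbabilityTheory Matrix Filter Topology BoundedContinuousFunction
open Crest.Agent.R166.Noise547 Crest.Agent.R166.Gauss286 Crest.Agent.R166.NoiseLLN849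
open Crest.Agent.R166.Words955 Crest.Agent.R166.LimLaw980

/-- array of samples -/
structure Arr (A : Type*) (d k : ℕ) where
  /-- number of vertices -/
  n : A → ℕ
  pos : ∀ a, 0 < n a
  /-- port map -/
  p : ∀ a, Fin (n a) × Fin d → Fin (n a) × Fin d
  inv : ∀ a h, p a (p a h) = h
  /-- potential -/
  ω : ∀ a, Fin (n a) → ℝ
  /-- frame -/
  F : ∀ a, Fin (n a) → Fin k → ℝ
  /-- operator -/
  H : ∀ a, Matrix (Fin (n a)) (Fin (n a)) ℝ
  hH : ∀ a, (H a).IsHermitian
  ω_le : ∀ a v, |ω a v| ≤ 1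
  F_sq : ∀ a i, ∑ v, F a v i ^ 2 ≤ n a

variable {A : Type*} {d k : ℕ} [NeZero d]

namespace Arr

variable (𝒜 : Arr A d k) (g : ℝ → ℝ)

theorem ne (a : A) : Nonempty (Fin (𝒜.n a)) := ⟨⟨0, 𝒜.pos a⟩⟩

/-- colours `(label, ω, F)` -/
def c1 (a : A) : Fin (𝒜.n a) × Fin d → S1 d k := lab fun v => (𝒜.ω a v, 𝒜.F a v)

/-- the noise -/
def zz (a : A) (ξ : Fin k → Fin (𝒜.n a) → ℝ) (v : Fin (𝒜.n a)) (j : Fin k) : ℝ :=
  Zn (𝒜.hH a) g ξ j v

/-- colours `(label, ω, F, Z)` -/
def c2 (a : A) (ξ : Fin k → Fin (𝒜.n a) → ℝ) : Fin (𝒜.n a) × Fin d → S2 d k :=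
  lab fun v => (𝒜.ω a v, 𝒜.F a v, 𝒜.zz g a ξ v)

/-- empirical law of `(label, ω, F)` -/
def e1 (a : A) : ProbabilityMeasure (Conf d (S1 d k)) :=
  haveI := 𝒜.ne a
  empP (𝒜.p a) (𝒜.c1 a)

/-- empirical law of `(label, ω, F, Z)` -/
def e2 (a : A) (ξ : Fin k → Fin (𝒜.n a) → ℝ) : ProbabilityMeasure (Conf d (S2 d k)) :=
  haveI := 𝒜.ne a
  empP (𝒜.p a) (𝒜.c2 g a ξ)

end Arr

/-- forget `Z` -/
def pr (ζ : Conf d (S2 d k)) : Conf d (S1 d k) := fun w => ((ζ w).1, (ζ w).2.1, (ζ w).2.2.1)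

theorem continuous_pr : Continuous (pr : Conf d (S2 d k) → Conf d (S1 d k)) := by
  unfold pr
  fun_prop

/-- the phase `τ·Z` -/
def zph (B : Finset (TW d)) (τ : B → Fin k → ℝ) (ζ : Conf d (S2 d k)) : ℝ :=
  ∑ j, ∑ b, τ b j * (ζ b.1).2.2.2 j

theorem continuous_zph (B : Finset (TW d)) (τ : B → Fin k → ℝ) :
    Continuous (zph B τ : Conf d (S2 d k) → ℝ) := by
  unfold zph
  fun_prop

/-- restriction of the kernel to finitely many words -/
def gam (Γ : TW d → TW d → Conf d (S1 d k) → ℝ) (B : Finset (TW d)) (ζ : Conf d (S1 d k)) :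
    B → B → ℝ := fun b b' => Γ b.1 b'.1 ζ

/-- conditional characteristic function -/
def cch (Γ : TW d → TW d → Conf d (S1 d k) → ℝ) (B : Finset (TW d)) (τ : B → Fin k → ℝ)
    (ζ : Conf d (S1 d k)) : ℂ := Complex.exp (-((Qf τ (gam Γ B ζ) : ℝ) : ℂ) / 2)

theorem continuous_cch {Γ : TW d → TW d → Conf d (S1 d k) → ℝ} (hΓ : ∀ w w', Continuous (Γ w w'))
    (B : Finset (TW d)) (τ : B → Fin k → ℝ) : Continuous (cch Γ B τ) := by
  unfold cch Qf gam
  fun_prop

theorem norm_cch_le {Γ : TW d → TW d → Conf d (S1 d k) → ℝ} {B : Finset (TW d)}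
    {ζ : Conf d (S1 d k)} (h : ∀ c : B → ℝ, 0 ≤ ∑ b, ∑ b', c b * Γ b.1 b'.1 ζ * c b')
    (τ : B → Fin k → ℝ) : ‖cch Γ B τ ζ‖ ≤ 1 := by
  unfold cch
  rw [Complex.norm_exp]
  have h1 := Qf_nonneg τ (Γ := gam Γ B ζ) h
  rw [Real.exp_le_one_iff]
  have : (-((Qf τ (gam Γ B ζ) : ℝ) : ℂ) / 2).re = -(Qf τ (gam Γ B ζ)) / 2 := by
    rw [← Complex.ofReal_neg]
    exact Complex.div_ofNat_re _ 2
  rw [this]
  linarith

/-- the window average attached to `φ`, `B`, `τ` -/
def EwA (𝒜 : Arr A d k) (g : ℝ → ℝ) (Γ : TW d → TW d → Conf d (S1 d k) → ℝ) (a : A)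
    (B : Finset (TW d)) (τ : B → Fin k → ℝ) (φ : Conf d (S1 d k) → ℂ)
    (ξ : Fin k → Fin (𝒜.n a) → ℝ) : ℂ :=
  Ew (𝒜.hH a) g (fun (b : B) (h : Fin (𝒜.n a) × Fin d) => (walk (𝒜.p a) b.1.1 h).1) τ
    (fun h => gam Γ B (conf (𝒜.p a) (𝒜.c1 a) h)) (fun h => φ (conf (𝒜.p a) (𝒜.c1 a) h)) ξ

theorem pr_conf (𝒜 : Arr A d k) (g : ℝ → ℝ) (a : A) (ξ : Fin k → Fin (𝒜.n a) → ℝ)
    (h : Fin (𝒜.n a) × Fin d) :
    pr (conf (𝒜.p a) (𝒜.c2 g a ξ) h) = conf (𝒜.p a) (𝒜.c1 a) h := rfl

/-- the empirical integral of a test function -/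
theorem integral_e2 (𝒜 : Arr A d k) (g : ℝ → ℝ) (Γ : TW d → TW d → Conf d (S1 d k) → ℝ) (a : A)
    (B : Finset (TW d)) (τ : B → Fin k → ℝ) (φ : Conf d (S1 d k) → ℂ)
    (ξ : Fin k → Fin (𝒜.n a) → ℝ) :
    ∫ ζ, φ (pr ζ) * Complex.exp (Complex.I * ((zph B τ ζ : ℝ) : ℂ))
      ∂(𝒜.e2 g a ξ : Measure (Conf d (S2 d k))) =
    EwA 𝒜 g Γ a B τ φ ξ +
      ∫ ζ, φ ζ * cch Γ B τ ζ ∂(𝒜.e1 a : Measure (Conf d (S1 d k))) := by
  have := 𝒜.ne a
  have h1 : ((𝒜.e2 g a ξ : ProbabilityMeasure _) : Measure (Conf d (S2 d k))) =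
      emp (𝒜.p a) (𝒜.c2 g a ξ) := rfl
  have h2 : ((𝒜.e1 a : ProbabilityMeasure _) : Measure (Conf d (S1 d k))) =
      emp (𝒜.p a) (𝒜.c1 a) := rfl
  rw [h1, h2, integral_emp, integral_emp, EwA, Ew, div_eq_inv_mul, Complex.real_smul,
    Complex.real_smul]
  push_cast
  rw [← mul_add, ← Finset.sum_add_distrib]
  congr 1
  refine Finset.sum_congr rfl fun h _ => ?_
  rw [pr_conf, cch]
  have h3 : zph B τ (conf (𝒜.p a) (𝒜.c2 g a ξ) h) =
      ∑ j, ∑ b : B, τ b j * Zn (𝒜.hH a) g ξ j (walk (𝒜.p a) b.1.1 h).1 := rfl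
  rw [h3]
  push_cast
  ring

section lim
variable (𝒜 : Arr A d k) (g : ℝ → ℝ) (Γ : TW d → TW d → Conf d (S1 d k) → ℝ) (l : Filter A)

/-- locality of `g(H)` with kernel `Γ` -/
def Loc : Prop := ∀ (w w' : TW d) (δ : ℝ), 0 < δ → ∀ᶠ a in l, ∃ S : Finset (Fin (𝒜.n a) × Fin d),
  (S.card : ℝ) ≤ δ * Fintype.card (Fin (𝒜.n a) × Fin d) ∧ ∀ h, h ∉ S →
    |fM (𝒜.hH a) g (walk (𝒜.p a) w.1 h).1 (walk (𝒜.p a) w'.1 h).1 -
      Γ w w' (conf (𝒜.p a) (𝒜.c1 a) h)| ≤ δ

variable {𝒜 g Γ l}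

theorem loc_fin (hloc : Loc 𝒜 g Γ l) (B : Finset (TW d)) {δ : ℝ} (hδ : 0 < δ) :
    ∀ᶠ a in l, ∃ S : Finset (Fin (𝒜.n a) × Fin d),
      (S.card : ℝ) ≤ δ * Fintype.card (Fin (𝒜.n a) × Fin d) ∧ ∀ h, h ∉ S → ∀ b b' : B,
        |fM (𝒜.hH a) g (walk (𝒜.p a) b.1.1 h).1 (walk (𝒜.p a) b'.1.1 h).1 -
          gam Γ B (conf (𝒜.p a) (𝒜.c1 a) h) b b'| ≤ δ := by
  classical
  set N : ℝ := ((B ×ˢ B).card : ℝ) with hN
  have hN0 : 0 ≤ N := Nat.cast_nonneg _
  set δ' : ℝ := δ / (N + 1) with hδ'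
  have hδ'0 : 0 < δ' := by positivity
  have hδ'1 : δ' ≤ δ := by
    rw [hδ', div_le_iff₀ (by positivity)]
    nlinarith
  have h1 : ∀ x ∈ B ×ˢ B, ∀ᶠ a in l, ∃ S : Finset (Fin (𝒜.n a) × Fin d),
      (S.card : ℝ) ≤ δ' * Fintype.card (Fin (𝒜.n a) × Fin d) ∧ ∀ h, h ∉ S →
        |fM (𝒜.hH a) g (walk (𝒜.p a) x.1.1 h).1 (walk (𝒜.p a) x.2.1 h).1 -
          Γ x.1 x.2 (conf (𝒜.p a) (𝒜.c1 a) h)| ≤ δ' := fun x _ => hloc x.1 x.2 δ' hδ'0
  have h2 := (Filter.eventually_all_finset (B ×ˢ B)).2 h1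
  filter_upwards [h2] with a ha
  choose! S hS1 hS2 using ha
  refine ⟨(B ×ˢ B).biUnion S, ?_, ?_⟩
  · calc (((B ×ˢ B).biUnion S).card : ℝ) ≤ ∑ x ∈ B ×ˢ B, ((S x).card : ℝ) := by
          exact_mod_cast Finset.card_biUnion_le
      _ ≤ ∑ _x ∈ B ×ˢ B, δ' * Fintype.card (Fin (𝒜.n a) × Fin d) :=
          Finset.sum_le_sum fun x hx => hS1 x hx
      _ = (N * δ') * Fintype.card (Fin (𝒜.n a) × Fin d) := by
          rw [Finset.sum_const, nsmul_eq_mul, mul_assoc]
      _ ≤ δ * Fintype.card (Fin (𝒜.n a) × Fin d) := by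
          refine mul_le_mul_of_nonneg_right ?_ (Nat.cast_nonneg _)
          rw [hδ', ← mul_div_assoc, div_le_iff₀ (by positivity)]
          nlinarith
  · intro h hh b b'
    have hb : (b.1, b'.1) ∈ B ×ˢ B := Finset.mem_product.2 ⟨b.2, b'.2⟩
    have hh' : h ∉ S (b.1, b'.1) := fun hc => hh (Finset.mem_biUnion.2 ⟨_, hb, hc⟩)
    exact (hS2 (b.1, b'.1) hb h hh').trans hδ'1

/-- the window averages vanish in probability -/
theorem EwA_tendsto {M : ℝ} (hM : 0 ≤ M) (hg : ∀ a i, 0 ≤ g ((𝒜.hH a).eigenvalues i))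
    (hgM : ∀ a i, g ((𝒜.hH a).eigenvalues i) ≤ M)
    (hΓ : ∀ (B : Finset (TW d)) (c : B → ℝ) ζ, 0 ≤ ∑ b, ∑ b', c b * Γ b.1 b'.1 ζ * c b')
    (hloc : Loc 𝒜 g Γ l) (hn : Tendsto 𝒜.n l atTop)
    (B : Finset (TW d)) (τ : B → Fin k → ℝ) (φ : Conf d (S1 d k) → ℂ) (hφ : ∀ ζ, ‖φ ζ‖ ≤ 1)
    {r : ℝ} (hr : 0 < r) :
    Tendsto (fun a => (gm (Fin k) (Fin (𝒜.n a))) {ξ | r ≤ ‖EwA 𝒜 g Γ a B τ φ ξ‖}) l (𝓝 0) := by
  classical
  set T := Tt τ with hT
  have hT0 : 0 ≤ T := Tt_nonneg τ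
  set δ : ℝ := r / 2 / (T / 2 + 1) with hδ
  have hδ0 : 0 < δ := by positivity
  have hδr : r / 2 + (T / 2 + 1) * δ = r := by
    rw [hδ]; field_simp; ring
  have hbd : ∀ᶠ a in l, (gm (Fin k) (Fin (𝒜.n a))) {ξ | r ≤ ‖EwA 𝒜 g Γ a B τ φ ξ‖} ≤
      ENNReal.ofReal (T * M / Real.sqrt (𝒜.n a) / (r / 2) ^ 2) := by
    filter_upwards [loc_fin hloc B hδ0] with a ha
    obtain ⟨S, hS1, hS2⟩ := ha
    have h1 := Ew_prob (J := Fin k) (𝒜.hH a) hM (hg a) (hgM a)
      (fun (b : B) (h : Fin (𝒜.n a) × Fin d) => (walk (𝒜.p a) b.1.1 h).1) τ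
      (fun h => gam Γ B (conf (𝒜.p a) (𝒜.c1 a) h))
      (fun h c => hΓ B c _) (fun h => φ (conf (𝒜.p a) (𝒜.c1 a) h)) (fun h => hφ _)
      (m := d) (fun b v => (card_fiber_walk (𝒜.p a) (𝒜.inv a) b.1.1 v).le)
      (by rw [Fintype.card_prod, Fintype.card_fin, Fintype.card_fin, mul_comm])
      hδ0.le S hS1 hS2 (r := r / 2) (by positivity)
    rw [hδr, Fintype.card_fin] at h1
    exact h1
  have hlim : Tendsto (fun a => ENNReal.ofReal (T * M / Real.sqrt (𝒜.n a) / (r / 2) ^ 2)) l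
      (𝓝 0) := by
    have h1 : Tendsto (fun j : ℕ => T * M / Real.sqrt j / (r / 2) ^ 2) atTop (𝓝 0) := by
      have h2 : Tendsto (fun j : ℕ => Real.sqrt (j : ℝ)) atTop atTop :=
        Real.tendsto_sqrt_atTop.comp tendsto_natCast_atTop_atTop
      have h3 := (h2.const_div_atTop (T * M)).div_const ((r / 2) ^ 2)
      rwa [zero_div] at h3
    have h4 := ENNReal.tendsto_ofReal (h1.comp hn)
    rw [ENNReal.ofReal_zero] at h4
    exact h4
  exact tendsto_of_tendsto_of_tendsto_of_le_of_le' tendsto_const_nhds hlim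
    (Eventually.of_forall fun _ => zero_le) hbd

end lim

end Crest.Agent.R166.NoiseLim849
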