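import Mathlib
import Crest.Agent.R166.LimA_793
import Crest.Agent.R166.Lim_47
import Crest.Agent.R166.NoiseLim4_849

-- ▼ part R166/LimB_793
section

/-!
# Row 166 (helper793), section 40.10, part 3: regression on the edge coordinates.
-/

set_option autoImplicit false
set_option linter.unusedSectionVars false
set_option linter.unusedVariables false

noncomputable section

open MeasureTheory ProbabilityTheory Matrix Filter Topology
open scoped ENNReal

namespace Crest.Agent.R166.Lim793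

section reg

variable {Ω : Type*} {m0 : MeasurableSpace Ω} {B : Type*} [mB : MeasurableSpace B]
variable {ι ρ : Type*} [Fintype ι] [DecidableEq ι] [Fintype ρ]

/-- two-variable form of `uniq` -/
theorem uniq₂ (μ : Measure Ω) [IsFiniteMeasure μ] {x : Ω → B} (hx : Measurable x)
    {V : Ω → ι → ℝ} (hV : Measurable V) {w : Ω → ℝ} (hw : Integrable w μ) (hm : Measurable w)
    (h : ∀ g : B → ℝ, Measurable g → (∀ y, |g y| ≤ 1) → ∀ b : ι → ℝ,
      ∫ a, ((g (x a) * w a : ℝ) : ℂ) * Complex.exp ((b ⬝ᵥ V a : ℝ) * Complex.I) ∂μ = 0)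
    {f : B × (ι → ℝ) → ℝ} (hf : Measurable f) {C : ℝ} (hC : ∀ p, |f p| ≤ C) :
    ∫ a, w a * f (x a, V a) ∂μ = 0 := by
  classical
  set μ₁ := μ.withDensity (fun a => ENNReal.ofReal (w a)) with hμ₁
  set μ₂ := μ.withDensity (fun a => ENNReal.ofReal (-w a)) with hμ₂
  have f1 : IsFiniteMeasure μ₁ := isFiniteMeasure_withDensity_ofReal hw.2
  have f2 : IsFiniteMeasure μ₂ := isFiniteMeasure_withDensity_ofReal hw.neg.2
  have hxV : Measurable fun a => (x a, V a) := hx.prodMk hV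
  have pm : ∀ u : ℝ, max u 0 - max (-u) 0 = u := by
    intro u
    rcases le_total 0 u with h0 | h0
    · rw [max_eq_left h0, max_eq_right (by linarith)]; ring
    · rw [max_eq_right h0, max_eq_left (by linarith)]; ring
  have key : μ₁.map (fun a => (x a, V a)) = μ₂.map (fun a => (x a, V a)) := by
    apply Measure.ext_prod
    intro s t hs ht
    set g : B → ℝ := s.indicator 1 with hg
    have hgm : Measurable g := measurable_one.indicator hs
    have hgb : ∀ y, |g y| ≤ 1 := by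
      intro y
      simp only [hg, Set.indicator_apply]
      split_ifs <;> simp
    have hgw : Integrable (fun a => g (x a) * w a) μ :=
      hw.bdd_mul (c := 1) (hgm.comp hx).aestronglyMeasurable
        (Eventually.of_forall fun a => by simpa using hgb (x a))
    have h1 := uniq μ hV hgw ((hgm.comp hx).mul hm) (h g hgm hgb)
      (f := t.indicator 1) (measurable_one.indicator ht) (C := 1)
      (fun y => by simp only [Set.indicator_apply]; split_ifs <;> simp)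
    have hst : MeasurableSet ((fun a => (x a, V a)) ⁻¹' (s ×ˢ t)) := hxV (hs.prod ht)
    rw [Measure.map_apply hxV (hs.prod ht), Measure.map_apply hxV (hs.prod ht)]
    have r1 : (μ₁ ((fun a => (x a, V a)) ⁻¹' (s ×ˢ t))).toReal =
        ∫ a, max (w a) 0 * (((fun a => (x a, V a)) ⁻¹' (s ×ˢ t)).indicator (1 : Ω → ℝ) a) ∂μ := by
      rw [← integral_withDensity_ofReal' μ hw hm, integral_indicator_one hst]
      rfl
    have r2 : (μ₂ ((fun a => (x a, V a)) ⁻¹' (s ×ˢ t))).toReal =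
        ∫ a, max (-w a) 0 * (((fun a => (x a, V a)) ⁻¹' (s ×ˢ t)).indicator (1 : Ω → ℝ) a) ∂μ := by
      rw [← integral_withDensity_ofReal' μ (w := fun a => -w a) hw.neg hm.neg,
        integral_indicator_one hst]
      rfl
    have im : Measurable (((fun a => (x a, V a)) ⁻¹' (s ×ˢ t)).indicator (1 : Ω → ℝ)) :=
      measurable_one.indicator hst
    have ib : ∀ᵐ a ∂μ, ‖((fun a => (x a, V a)) ⁻¹' (s ×ˢ t)).indicator (1 : Ω → ℝ) a‖ ≤ 1 :=
      Eventually.of_forall fun a => by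
        simp only [Set.indicator_apply]; split_ifs <;> simp
    have i1 : Integrable (fun a => max (w a) 0 *
        (((fun a => (x a, V a)) ⁻¹' (s ×ˢ t)).indicator (1 : Ω → ℝ) a)) μ :=
      Integrable.mul_bdd (c := 1) hw.pos_part im.aestronglyMeasurable ib
    have i2 : Integrable (fun a => max (-w a) 0 *
        (((fun a => (x a, V a)) ⁻¹' (s ×ˢ t)).indicator (1 : Ω → ℝ) a)) μ :=
      Integrable.mul_bdd (c := 1) hw.neg.pos_part im.aestronglyMeasurable ib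
    have r3 : (μ₁ ((fun a => (x a, V a)) ⁻¹' (s ×ˢ t))).toReal =
        (μ₂ ((fun a => (x a, V a)) ⁻¹' (s ×ˢ t))).toReal := by
      rw [r1, r2, ← sub_eq_zero, ← integral_sub i1 i2]
      refine Eq.trans (integral_congr_ae (Eventually.of_forall fun a => ?_)) h1
      simp only
      rw [← sub_mul, pm]
      simp only [hg, Set.indicator_apply, Set.mem_preimage, Set.mem_prod, Pi.one_apply]
      by_cases ha : x a ∈ s <;> by_cases hb : V a ∈ t <;> simp [ha, hb]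
    exact (ENNReal.toReal_eq_toReal_iff' (measure_ne_top _ _) (measure_ne_top _ _)).1 r3
  have k2 : ∫ y, f y ∂(μ₁.map (fun a => (x a, V a))) = ∫ y, f y ∂(μ₂.map (fun a => (x a, V a))) := by
    rw [key]
  rw [integral_map hxV.aemeasurable hf.aestronglyMeasurable,
    integral_map hxV.aemeasurable hf.aestronglyMeasurable, hμ₁, hμ₂,
    integral_withDensity_ofReal' μ hw hm,
      integral_withDensity_ofReal' μ (w := fun a => - w a) hw.neg hm.neg] at k2
  have i1 : Integrable (fun a => max (w a) 0 * f (x a, V a)) μ :=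
    Integrable.mul_bdd (c := C) hw.pos_part (hf.comp hxV).aestronglyMeasurable
      (Eventually.of_forall fun a => by simpa using hC (x a, V a))
  have i2 : Integrable (fun a => max (-w a) 0 * f (x a, V a)) μ :=
    Integrable.mul_bdd (c := C) hw.neg.pos_part (hf.comp hxV).aestronglyMeasurable
      (Eventually.of_forall fun a => by simpa using hC (x a, V a))
  rw [← sub_eq_zero, ← integral_sub i1 i2] at k2
  rw [← k2]
  refine integral_congr_ae (Eventually.of_forall fun a => ?_)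
  simp only
  rw [← sub_mul, pm]

/-! ### block algebra -/

/-- the part of the vector indexed by `ι` -/
def vL (z : ι ⊕ ρ → ℝ) : ι → ℝ := fun i => z (Sum.inl i)
/-- the part of the vector indexed by `ρ` -/
def vR (z : ι ⊕ ρ → ℝ) : ρ → ℝ := fun r => z (Sum.inr r)

lemma dot_elim (b : ι → ℝ) (c : ρ → ℝ) (z : ι ⊕ ρ → ℝ) :
    Sum.elim b c ⬝ᵥ z = b ⬝ᵥ vL z + c ⬝ᵥ vR z := by
  simp [dotProduct, Fintype.sum_sum_type, vL, vR]

/-- regression vector `Σ₁₁⁻¹ Σ₁₂ c` -/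
def mcv (S : Matrix (ι ⊕ ρ) (ι ⊕ ρ) ℝ) (c : ρ → ℝ) : ι → ℝ :=
  S.toBlocks₁₁⁻¹ *ᵥ (S.toBlocks₁₂ *ᵥ c)

/-- residual variance -/
def rcv (S : Matrix (ι ⊕ ρ) (ι ⊕ ρ) ℝ) (c : ρ → ℝ) : ℝ :=
  c ⬝ᵥ S.toBlocks₂₂ *ᵥ c - (S.toBlocks₁₂ *ᵥ c) ⬝ᵥ mcv S c

lemma quad_elim (S : Matrix (ι ⊕ ρ) (ι ⊕ ρ) ℝ) (hS : S.IsHermitian)
    (hd : IsUnit S.toBlocks₁₁.det) (b : ι → ℝ) (c : ρ → ℝ) :
    Sum.elim b c ⬝ᵥ S *ᵥ Sum.elim b c =
      (mcv S c + b) ⬝ᵥ S.toBlocks₁₁ *ᵥ (mcv S c + b) + rcv S c := by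
  have h1 : Sum.elim b c ⬝ᵥ S *ᵥ Sum.elim b c =
      b ⬝ᵥ S.toBlocks₁₁ *ᵥ b + b ⬝ᵥ (S.toBlocks₁₂ *ᵥ c) +
        (c ⬝ᵥ (S.toBlocks₂₁ *ᵥ b) + c ⬝ᵥ (S.toBlocks₂₂ *ᵥ c)) := by
    conv_lhs => rw [← fromBlocks_toBlocks S]
    rw [fromBlocks_mulVec, dot_elim]
    congr 1
    · rw [← dotProduct_add]; rfl
    · rw [← dotProduct_add]; rfl
  have hsym : S.toBlocks₂₁ = S.toBlocks₁₂ᵀ := by
    ext i j
    have := hS.apply (Sum.inl j) (Sum.inr i)
    simp only [star_trivial] at this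
    simp [toBlocks₂₁, toBlocks₁₂, this]
  have h11 : S.toBlocks₁₁ᵀ = S.toBlocks₁₁ := by
    ext i j
    have := hS.apply (Sum.inl i) (Sum.inl j)
    simp only [star_trivial] at this
    simp [toBlocks₁₁, this]
  have h2 : c ⬝ᵥ (S.toBlocks₂₁ *ᵥ b) = b ⬝ᵥ (S.toBlocks₁₂ *ᵥ c) := by
    rw [hsym, Matrix.mulVec_transpose, dotProduct_comm, ← Matrix.dotProduct_mulVec]
  have h3 : S.toBlocks₁₁ *ᵥ mcv S c = S.toBlocks₁₂ *ᵥ c := by
    unfold mcv
    rw [Matrix.mulVec_mulVec, Matrix.mul_nonsing_inv _ hd, Matrix.one_mulVec]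
  have h4 : mcv S c ⬝ᵥ S.toBlocks₁₁ *ᵥ b = b ⬝ᵥ (S.toBlocks₁₂ *ᵥ c) := by
    rw [← h3, Matrix.dotProduct_mulVec, ← Matrix.mulVec_transpose, h11, dotProduct_comm]
  rw [h1, h2, Matrix.mulVec_add, dotProduct_add, add_dotProduct, add_dotProduct, h3, h4]
  unfold rcv
  rw [dotProduct_comm (mcv S c) (S.toBlocks₁₂ *ᵥ c)]
  ring

lemma rcv_nonneg (S : Matrix (ι ⊕ ρ) (ι ⊕ ρ) ℝ) (hS : S.PosSemidef)
    (hd : IsUnit S.toBlocks₁₁.det) (c : ρ → ℝ) : 0 ≤ rcv S c := by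
  have h := quad_elim S hS.1 hd (-mcv S c) c
  rw [add_neg_cancel, Matrix.mulVec_zero, dotProduct_zero, zero_add] at h
  rw [← h]
  have := hS.dotProduct_mulVec_nonneg (Sum.elim (-mcv S c) c)
  simpa using this

lemma MM.b11 {S : B → Matrix (ι ⊕ ρ) (ι ⊕ ρ) ℝ} (hS : MM S) : MM fun y => (S y).toBlocks₁₁ :=
  fun i j => hS (Sum.inl i) (Sum.inl j)

lemma MM.b12 {S : B → Matrix (ι ⊕ ρ) (ι ⊕ ρ) ℝ} (hS : MM S) : MM fun y => (S y).toBlocks₁₂ :=
  fun i j => hS (Sum.inl i) (Sum.inr j)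

lemma MM.b22 {S : B → Matrix (ι ⊕ ρ) (ι ⊕ ρ) ℝ} (hS : MM S) : MM fun y => (S y).toBlocks₂₂ :=
  fun i j => hS (Sum.inr i) (Sum.inr j)

lemma MM.mulVec {κ κ' : Type*} [Fintype κ'] {S : B → Matrix κ κ' ℝ} (hS : MM S)
    {b : B → κ' → ℝ} (hb : ∀ i, Measurable fun y => b y i) (i : κ) :
    Measurable fun y => (S y *ᵥ b y) i := by
  simp only [dotProduct, Matrix.mulVec]
  exact Finset.measurable_sum _ fun j _ => (hS i j).mul (hb j)

lemma meas_mcv {S : B → Matrix (ι ⊕ ρ) (ι ⊕ ρ) ℝ} (hS : MM S) (c : ρ → ℝ) (i : ι) :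
    Measurable fun y => mcv (S y) c i := by
  have h1 : ∀ j, Measurable fun y => ((S y).toBlocks₁₂ *ᵥ c) j := fun j =>
    MM.mulVec (b := fun _ => c) hS.b12 (fun _ => measurable_const) j
  have h2 : MM fun y => ((S y).toBlocks₁₁)⁻¹ := hS.b11.inv
  exact MM.mulVec (b := fun y => (S y).toBlocks₁₂ *ᵥ c) h2 h1 i

lemma meas_rcv {S : B → Matrix (ι ⊕ ρ) (ι ⊕ ρ) ℝ} (hS : MM S) (c : ρ → ℝ) :
    Measurable fun y => rcv (S y) c := by
  unfold rcv
  have h1 : Measurable fun y => c ⬝ᵥ (S y).toBlocks₂₂ *ᵥ c :=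
    MM.quad (a := fun _ => c) (b := fun _ => c) hS.b22 (fun _ => measurable_const)
      (fun _ => measurable_const)
  have h2 : ∀ j, Measurable fun y => ((S y).toBlocks₁₂ *ᵥ c) j := fun j =>
    MM.mulVec (b := fun _ => c) hS.b12 (fun _ => measurable_const) j
  have h3 : Measurable fun y => ((S y).toBlocks₁₂ *ᵥ c) ⬝ᵥ mcv (S y) c := by
    have e : (fun y => ((S y).toBlocks₁₂ *ᵥ c) ⬝ᵥ mcv (S y) c) =
        fun y => ∑ j, ((S y).toBlocks₁₂ *ᵥ c) j * mcv (S y) c j := rfl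
    rw [e]
    exact Finset.measurable_sum _ fun j _ => (h2 j).mul (meas_mcv hS c j)
  exact h1.sub h3

end reg

section reg2

variable {Ω : Type*} {m0 : MeasurableSpace Ω} {B : Type*} [mB : MeasurableSpace B]
variable {ι ρ : Type*} [Fintype ι] [DecidableEq ι] [Fintype ρ] [DecidableEq ρ]
variable {Q : Measure B} [IsProbabilityMeasure Q]
variable {P : Measure Ω} [IsProbabilityMeasure P] {x : Ω → B} {z : Ω → ι ⊕ ρ → ℝ}
variable {S : B → Matrix (ι ⊕ ρ) (ι ⊕ ρ) ℝ}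

/-- admissible covariance fields: measurable, positive semidefinite, positive definite on `ι` -/
structure Adm (S : B → Matrix (ι ⊕ ρ) (ι ⊕ ρ) ℝ) : Prop where
  mm : MM S
  psd : ∀ y, (S y).PosSemidef
  pd : ∀ y, (S y).toBlocks₁₁.PosDef

lemma Adm.unit (hS : Adm S) (y : B) : IsUnit (S y).toBlocks₁₁.det :=
  isUnit_iff_ne_zero.2 (hS.pd y).det_pos.ne'

lemma meas_vL (hz : Measurable z) : Measurable fun ω => vL (z ω) :=
  measurable_pi_lambda _ fun i => (measurable_pi_apply (Sum.inl i)).comp hz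

lemma meas_vR (hz : Measurable z) : Measurable fun ω => vR (z ω) :=
  measurable_pi_lambda _ fun i => (measurable_pi_apply (Sum.inr i)).comp hz

lemma quad_elim_zero (S : Matrix (ι ⊕ ρ) (ι ⊕ ρ) ℝ) (b : ι → ℝ) :
    Sum.elim b (0 : ρ → ℝ) ⬝ᵥ S *ᵥ Sum.elim b 0 = b ⬝ᵥ S.toBlocks₁₁ *ᵥ b := by
  conv_lhs => rw [← fromBlocks_toBlocks S]
  rw [fromBlocks_mulVec, dot_elim, zero_dotProduct, add_zero]
  have e1 : ((0 : ρ → ℝ) : ρ → ℝ) = Sum.elim b (0 : ρ → ℝ) ∘ Sum.inr := rfl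
  have : S.toBlocks₁₂ *ᵥ (Sum.elim b (0 : ρ → ℝ) ∘ Sum.inr) = 0 := by
    rw [← e1, Matrix.mulVec_zero]
  simp only [Sum.elim_comp_inl, this, add_zero]
  rfl

lemma GLaw.left (h : GLaw P Q x z S) :
    GLaw P Q x (fun ω => vL (z ω)) (fun y => (S y).toBlocks₁₁) := by
  intro g hg hgb b
  have := h g hg hgb (Sum.elim b 0)
  simp only [quad_elim_zero] at this
  simp only [dot_elim, zero_dotProduct, add_zero] at this
  exact this

lemma mcv_neg (S : Matrix (ι ⊕ ρ) (ι ⊕ ρ) ℝ) (c : ρ → ℝ) : mcv S (-c) = -mcv S c := by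
  unfold mcv; rw [Matrix.mulVec_neg, Matrix.mulVec_neg]

lemma rcv_neg (S : Matrix (ι ⊕ ρ) (ι ⊕ ρ) ℝ) (c : ρ → ℝ) : rcv S (-c) = rcv S c := by
  unfold rcv
  rw [mcv_neg, Matrix.mulVec_neg, Matrix.mulVec_neg, neg_dotProduct_neg, neg_dotProduct_neg]

/-- the difference between the character and its regression -/
def Phi (x : Ω → B) (z : Ω → ι ⊕ ρ → ℝ) (S : B → Matrix (ι ⊕ ρ) (ι ⊕ ρ) ℝ) (c : ρ → ℝ) (ω : Ω) : ℂ :=
  Complex.exp ((c ⬝ᵥ vR (z ω) : ℝ) * Complex.I) -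
    ((Real.exp (-rcv (S (x ω)) c / 2) : ℝ) : ℂ) *
      Complex.exp ((mcv (S (x ω)) c ⬝ᵥ vL (z ω) : ℝ) * Complex.I)

lemma meas_dotL {b : ι → ℝ} (hz : Measurable z) : Measurable fun ω => b ⬝ᵥ vL (z ω) := by
  simp only [dotProduct]
  exact Finset.measurable_sum _ fun i _ =>
    ((measurable_pi_apply i).comp (meas_vL hz)).const_mul _

lemma meas_dotR {c : ρ → ℝ} (hz : Measurable z) : Measurable fun ω => c ⬝ᵥ vR (z ω) := by
  simp only [dotProduct]
  exact Finset.measurable_sum _ fun i _ =>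
    ((measurable_pi_apply i).comp (meas_vR hz)).const_mul _

lemma meas_dotM (hS : MM S) {c : ρ → ℝ} (hx : Measurable x) (hz : Measurable z) :
    Measurable fun ω => mcv (S (x ω)) c ⬝ᵥ vL (z ω) := by
  simp only [dotProduct]
  exact Finset.measurable_sum _ fun i _ => ((meas_mcv hS c i).comp hx).mul
    ((measurable_pi_apply i).comp (meas_vL hz))

theorem reg0 (hx : Measurable x) (hz : Measurable z) (hS : Adm S) (h : GLaw P Q x z S)
    {g : B → ℝ} (hg : Measurable g) (hgb : ∀ y, |g y| ≤ 1) (b : ι → ℝ) (c : ρ → ℝ) :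
    ∫ ω, (g (x ω) : ℂ) * Phi x z S c ω * Complex.exp ((b ⬝ᵥ vL (z ω) : ℝ) * Complex.I) ∂P = 0 := by
  have h1 := h g hg hgb (Sum.elim b c)
  have h2 := int_law_char (g := fun y => (g y : ℂ) * ((Real.exp (-rcv (S y) c / 2) : ℝ) : ℂ))
    (C := 1) (b := fun y => mcv (S y) c + b) hx (meas_vL hz) hS.mm.b11 hS.pd h.left
    (by
      have := meas_rcv hS.mm c
      fun_prop)
    (fun y => by
      rw [norm_mul, Complex.norm_real, Complex.norm_real, Real.norm_eq_abs, Real.norm_eq_abs,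
        Real.abs_exp]
      refine mul_le_one₀ (hgb y) (Real.exp_pos _).le ?_
      rw [Real.exp_le_one_iff]
      have := rcv_nonneg (S y) (hS.psd y) (hS.unit y) c
      linarith)
    (fun i => (meas_mcv hS.mm c i).add measurable_const)
  have h3 : ∫ y, (g y : ℂ) * Complex.exp (-((Sum.elim b c ⬝ᵥ S y *ᵥ Sum.elim b c : ℝ) : ℂ) / 2) ∂Q =
      ∫ y, ((g y : ℂ) * ((Real.exp (-rcv (S y) c / 2) : ℝ) : ℂ)) *
        Complex.exp (-(((mcv (S y) c + b) ⬝ᵥ (S y).toBlocks₁₁ *ᵥ (mcv (S y) c + b) : ℝ) : ℂ) / 2)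
          ∂Q := by
    refine integral_congr_ae (Eventually.of_forall fun y => ?_)
    simp only
    rw [quad_elim (S y) (hS.psd y).1 (hS.unit y), mul_assoc, Complex.ofReal_exp,
      ← Complex.exp_add]
    congr 2
    push_cast
    ring
  rw [h3, ← h2] at h1
  have hgm : Measurable fun ω => g (x ω) := hg.comp hx
  have hr : Measurable fun ω => rcv (S (x ω)) c := (meas_rcv hS.mm c).comp hx
  have i1 : Integrable (fun ω => (g (x ω) : ℂ) *
      Complex.exp ((Sum.elim b c ⬝ᵥ z ω : ℝ) * Complex.I)) P := by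
    have hm : Measurable fun ω => Sum.elim b c ⬝ᵥ z ω := by
      simp only [dotProduct]
      exact Finset.measurable_sum _ fun i _ => ((measurable_pi_apply i).comp hz).const_mul _
    refine Integrable.of_bound (Measurable.aestronglyMeasurable (by fun_prop)) 1
      (Eventually.of_forall fun ω => ?_)
    rw [norm_mul, Complex.norm_exp_ofReal_mul_I, mul_one, Complex.norm_real]
    exact hgb _
  have i2 : Integrable (fun ω => (g (x ω) : ℂ) * ((Real.exp (-rcv (S (x ω)) c / 2) : ℝ) : ℂ) *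
      Complex.exp (((mcv (S (x ω)) c + b) ⬝ᵥ vL (z ω) : ℝ) * Complex.I)) P := by
    have hm : Measurable fun ω => (mcv (S (x ω)) c + b) ⬝ᵥ vL (z ω) := by
      simp only [add_dotProduct]
      exact (meas_dotM hS.mm hx hz).add (meas_dotL hz)
    refine Integrable.of_bound (Measurable.aestronglyMeasurable (by fun_prop)) 1
      (Eventually.of_forall fun ω => ?_)
    rw [norm_mul, Complex.norm_exp_ofReal_mul_I, mul_one, norm_mul, Complex.norm_real,
      Complex.norm_real, Real.norm_eq_abs, Real.norm_eq_abs, Real.abs_exp]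
    refine mul_le_one₀ (hgb _) (Real.exp_pos _).le ?_
    rw [Real.exp_le_one_iff]
    have := rcv_nonneg (S (x ω)) (hS.psd _) (hS.unit _) c
    linarith
  rw [← sub_eq_zero, ← integral_sub i1 i2] at h1
  rw [← h1]
  refine integral_congr_ae (Eventually.of_forall fun ω => ?_)
  simp only [Phi, dot_elim, add_dotProduct]
  push_cast
  rw [add_mul, add_mul, Complex.exp_add, Complex.exp_add]
  ring

lemma norm_Phi_le (hS : Adm S) (c : ρ → ℝ) (ω : Ω) : ‖Phi x z S c ω‖ ≤ 2 := by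
  unfold Phi
  refine (norm_sub_le _ _).trans ?_
  rw [norm_mul, Complex.norm_exp_ofReal_mul_I, Complex.norm_exp_ofReal_mul_I, Complex.norm_real,
    Real.norm_eq_abs, Real.abs_exp, mul_one]
  have : Real.exp (-rcv (S (x ω)) c / 2) ≤ 1 := by
    rw [Real.exp_le_one_iff]
    have := rcv_nonneg (S (x ω)) (hS.psd _) (hS.unit _) c
    linarith
  linarith

/-- defect of `cos (c·U)` -/
def W0 (x : Ω → B) (z : Ω → ι ⊕ ρ → ℝ) (S : B → Matrix (ι ⊕ ρ) (ι ⊕ ρ) ℝ) (c : ρ → ℝ) (ω : Ω) : ℝ :=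
  Real.cos (c ⬝ᵥ vR (z ω)) -
    Real.exp (-rcv (S (x ω)) c / 2) * Real.cos (mcv (S (x ω)) c ⬝ᵥ vL (z ω))

/-- defect of `sin (c·U)` -/
def W1 (x : Ω → B) (z : Ω → ι ⊕ ρ → ℝ) (S : B → Matrix (ι ⊕ ρ) (ι ⊕ ρ) ℝ) (c : ρ → ℝ) (ω : Ω) : ℝ :=
  Real.sin (c ⬝ᵥ vR (z ω)) -
    Real.exp (-rcv (S (x ω)) c / 2) * Real.sin (mcv (S (x ω)) c ⬝ᵥ vL (z ω))

lemma W0_eq (c : ρ → ℝ) (ω : Ω) :
    (W0 x z S c ω : ℂ) = (1 / 2) * (Phi x z S c ω + Phi x z S (-c) ω) := by
  unfold W0 Phi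
  rw [mcv_neg, rcv_neg, neg_dotProduct, neg_dotProduct]
  push_cast
  rw [Complex.cos, Complex.cos]
  ring

lemma W1_eq (c : ρ → ℝ) (ω : Ω) :
    (W1 x z S c ω : ℂ) = (-Complex.I / 2) * (Phi x z S c ω - Phi x z S (-c) ω) := by
  unfold W1 Phi
  rw [mcv_neg, rcv_neg, neg_dotProduct, neg_dotProduct]
  push_cast
  rw [Complex.sin, Complex.sin]
  ring

lemma meas_Phi (hS : MM S) (hx : Measurable x) (hz : Measurable z) (c : ρ → ℝ) :
    Measurable (Phi x z S c) := by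
  unfold Phi
  have h1 := meas_dotM (c := c) hS hx hz
  have h2 := meas_dotR (c := c) hz
  have h3 : Measurable fun ω => rcv (S (x ω)) c := (meas_rcv hS c).comp hx
  fun_prop

lemma meas_W0 (hS : MM S) (hx : Measurable x) (hz : Measurable z) (c : ρ → ℝ) :
    Measurable (W0 x z S c) := by
  unfold W0
  have h1 := meas_dotM (c := c) hS hx hz
  have h2 := meas_dotR (c := c) hz
  have h3 : Measurable fun ω => rcv (S (x ω)) c := (meas_rcv hS c).comp hx
  fun_prop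

lemma meas_W1 (hS : MM S) (hx : Measurable x) (hz : Measurable z) (c : ρ → ℝ) :
    Measurable (W1 x z S c) := by
  unfold W1
  have h1 := meas_dotM (c := c) hS hx hz
  have h2 := meas_dotR (c := c) hz
  have h3 : Measurable fun ω => rcv (S (x ω)) c := (meas_rcv hS c).comp hx
  fun_prop

lemma exp_rcv_le (hS : Adm S) (c : ρ → ℝ) (y : B) : Real.exp (-rcv (S y) c / 2) ≤ 1 := by
  rw [Real.exp_le_one_iff]
  have := rcv_nonneg (S y) (hS.psd _) (hS.unit _) c
  linarith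

lemma abs_W0_le (hS : Adm S) (c : ρ → ℝ) (ω : Ω) : |W0 x z S c ω| ≤ 2 := by
  unfold W0
  refine (abs_sub _ _).trans ?_
  rw [abs_mul, Real.abs_exp]
  have h1 := Real.abs_cos_le_one (c ⬝ᵥ vR (z ω))
  have h2 := mul_le_one₀ (exp_rcv_le hS c (x ω)) (abs_nonneg _)
    (Real.abs_cos_le_one (mcv (S (x ω)) c ⬝ᵥ vL (z ω)))
  linarith

lemma abs_W1_le (hS : Adm S) (c : ρ → ℝ) (ω : Ω) : |W1 x z S c ω| ≤ 2 := by
  unfold W1
  refine (abs_sub _ _).trans ?_
  rw [abs_mul, Real.abs_exp]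
  have h1 := Real.abs_sin_le_one (c ⬝ᵥ vR (z ω))
  have h2 := mul_le_one₀ (exp_rcv_le hS c (x ω)) (abs_nonneg _)
    (Real.abs_sin_le_one (mcv (S (x ω)) c ⬝ᵥ vL (z ω)))
  linarith

lemma int_Phi_mul (hx : Measurable x) (hz : Measurable z) (hS : Adm S) {g : B → ℝ}
    (hg : Measurable g) (hgb : ∀ y, |g y| ≤ 1) (b : ι → ℝ) (c : ρ → ℝ) :
    Integrable (fun ω => (g (x ω) : ℂ) * Phi x z S c ω *
      Complex.exp ((b ⬝ᵥ vL (z ω) : ℝ) * Complex.I)) P := by
  have hgm : Measurable fun ω => g (x ω) := hg.comp hx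
  have h1 := meas_Phi hS.mm hx hz c
  have h2 := meas_dotL (b := b) hz
  refine Integrable.of_bound (Measurable.aestronglyMeasurable (by fun_prop)) (1 * 2)
    (Eventually.of_forall fun ω => ?_)
  rw [norm_mul, Complex.norm_exp_ofReal_mul_I, mul_one, norm_mul, Complex.norm_real]
  exact mul_le_mul (hgb _) (norm_Phi_le hS c ω) (norm_nonneg _) zero_le_one

theorem orth_W0 (hx : Measurable x) (hz : Measurable z) (hS : Adm S) (h : GLaw P Q x z S)
    (c : ρ → ℝ) {f : B × (ι → ℝ) → ℝ} (hf : Measurable f) {C : ℝ} (hC : ∀ p, |f p| ≤ C) :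
    ∫ ω, W0 x z S c ω * f (x ω, vL (z ω)) ∂P = 0 := by
  refine uniq₂ P hx (meas_vL hz) ?_ (meas_W0 hS.mm hx hz c) ?_ hf hC
  · exact int_of_bdd (meas_W0 hS.mm hx hz c).aestronglyMeasurable (abs_W0_le hS c)
  · intro g hg hgb b
    have h1 := reg0 hx hz hS h hg hgb b c
    have h2 := reg0 hx hz hS h hg hgb b (-c)
    have e : ∀ ω, ((g (x ω) * W0 x z S c ω : ℝ) : ℂ) *
        Complex.exp ((b ⬝ᵥ vL (z ω) : ℝ) * Complex.I) =
        (1 / 2) * ((g (x ω) : ℂ) * Phi x z S c ω * Complex.exp ((b ⬝ᵥ vL (z ω) : ℝ) * Complex.I) +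
          (g (x ω) : ℂ) * Phi x z S (-c) ω *
            Complex.exp ((b ⬝ᵥ vL (z ω) : ℝ) * Complex.I)) := by
      intro ω
      rw [Complex.ofReal_mul, W0_eq]
      ring
    simp only [e]
    rw [integral_const_mul, integral_add (int_Phi_mul hx hz hS hg hgb b c)
      (int_Phi_mul hx hz hS hg hgb b (-c)), h1, h2]
    simp

theorem orth_W1 (hx : Measurable x) (hz : Measurable z) (hS : Adm S) (h : GLaw P Q x z S)
    (c : ρ → ℝ) {f : B × (ι → ℝ) → ℝ} (hf : Measurable f) {C : ℝ} (hC : ∀ p, |f p| ≤ C) :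
    ∫ ω, W1 x z S c ω * f (x ω, vL (z ω)) ∂P = 0 := by
  refine uniq₂ P hx (meas_vL hz) ?_ (meas_W1 hS.mm hx hz c) ?_ hf hC
  · exact int_of_bdd (meas_W1 hS.mm hx hz c).aestronglyMeasurable (abs_W1_le hS c)
  · intro g hg hgb b
    have h1 := reg0 hx hz hS h hg hgb b c
    have h2 := reg0 hx hz hS h hg hgb b (-c)
    have e : ∀ ω, ((g (x ω) * W1 x z S c ω : ℝ) : ℂ) *
        Complex.exp ((b ⬝ᵥ vL (z ω) : ℝ) * Complex.I) =
        (-Complex.I / 2) * ((g (x ω) : ℂ) * Phi x z S c ω *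
            Complex.exp ((b ⬝ᵥ vL (z ω) : ℝ) * Complex.I) -
          (g (x ω) : ℂ) * Phi x z S (-c) ω *
            Complex.exp ((b ⬝ᵥ vL (z ω) : ℝ) * Complex.I)) := by
      intro ω
      rw [Complex.ofReal_mul, W1_eq]
      ring
    simp only [e]
    rw [integral_const_mul, integral_sub (int_Phi_mul hx hz hS hg hgb b c)
      (int_Phi_mul hx hz hS hg hgb b (-c)), h1, h2]
    simp

/-- regression of a cosine with phase depending on base and edge noise -/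
theorem reg_cos (hx : Measurable x) (hz : Measurable z) (hS : Adm S) (h : GLaw P Q x z S)
    (c : ρ → ℝ) {φ : B × (ι → ℝ) → ℝ} (hφ : Measurable φ)
    {f : B × (ι → ℝ) → ℝ} (hf : Measurable f) {C : ℝ} (hC : ∀ p, |f p| ≤ C) :
    ∫ ω, Real.cos (φ (x ω, vL (z ω)) + c ⬝ᵥ vR (z ω)) * f (x ω, vL (z ω)) ∂P =
      ∫ ω, (Real.exp (-rcv (S (x ω)) c / 2) *
        Real.cos (φ (x ω, vL (z ω)) + mcv (S (x ω)) c ⬝ᵥ vL (z ω))) * f (x ω, vL (z ω)) ∂P := by
  have hC0 : 0 ≤ C := (abs_nonneg _).trans (hC (x (Classical.choice (by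
    have := (inferInstance : IsProbabilityMeasure P)
    exact nonempty_of_isProbabilityMeasure P)), fun _ => 0))
  have hf1 : Measurable fun p => Real.cos (φ p) * f p := by fun_prop
  have hf2 : Measurable fun p => Real.sin (φ p) * f p := by fun_prop
  have b1 : ∀ p, |Real.cos (φ p) * f p| ≤ C := fun p => by
    rw [abs_mul]
    exact (mul_le_of_le_one_left (abs_nonneg _) (Real.abs_cos_le_one _)).trans (hC p)
  have b2 : ∀ p, |Real.sin (φ p) * f p| ≤ C := fun p => by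
    rw [abs_mul]
    exact (mul_le_of_le_one_left (abs_nonneg _) (Real.abs_sin_le_one _)).trans (hC p)
  have o1 := orth_W0 hx hz hS h c hf1 b1
  have o2 := orth_W1 hx hz hS h c hf2 b2
  have hxz : Measurable fun ω => (x ω, vL (z ω)) := hx.prodMk (meas_vL hz)
  have mR := meas_dotR (c := c) hz
  have mM := meas_dotM (c := c) hS.mm hx hz
  have mr : Measurable fun ω => rcv (S (x ω)) c := (meas_rcv hS.mm c).comp hx
  have mφ : Measurable fun ω => φ (x ω, vL (z ω)) := hφ.comp hxz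
  have mf : Measurable fun ω => f (x ω, vL (z ω)) := hf.comp hxz
  have i1 : Integrable (fun ω => Real.cos (φ (x ω, vL (z ω)) + c ⬝ᵥ vR (z ω)) *
      f (x ω, vL (z ω))) P := by
    refine int_of_bdd (C := C) (Measurable.aestronglyMeasurable (by fun_prop)) fun ω => ?_
    rw [abs_mul]
    exact (mul_le_of_le_one_left (abs_nonneg _) (Real.abs_cos_le_one _)).trans (hC _)
  have i2 : Integrable (fun ω => (Real.exp (-rcv (S (x ω)) c / 2) *
        Real.cos (φ (x ω, vL (z ω)) + mcv (S (x ω)) c ⬝ᵥ vL (z ω))) * f (x ω, vL (z ω))) P := by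
    refine int_of_bdd (C := C) (Measurable.aestronglyMeasurable (by fun_prop)) fun ω => ?_
    rw [abs_mul, abs_mul, Real.abs_exp]
    exact (mul_le_of_le_one_left (abs_nonneg _) (mul_le_one₀ (exp_rcv_le hS c _) (abs_nonneg _)
      (Real.abs_cos_le_one _))).trans (hC _)
  have mW0 := meas_W0 hS.mm hx hz c
  have mW1 := meas_W1 hS.mm hx hz c
  have i3 : Integrable (fun ω => W0 x z S c ω * (Real.cos (φ (x ω, vL (z ω))) *
      f (x ω, vL (z ω)))) P := by
    refine int_of_bdd (C := 2 * C) (Measurable.aestronglyMeasurable (by fun_prop)) fun ω => ?_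
    rw [abs_mul]
    exact mul_le_mul (abs_W0_le hS c ω) (b1 _) (abs_nonneg _) (by norm_num)
  have i4 : Integrable (fun ω => W1 x z S c ω * (Real.sin (φ (x ω, vL (z ω))) *
      f (x ω, vL (z ω)))) P := by
    refine int_of_bdd (C := 2 * C) (Measurable.aestronglyMeasurable (by fun_prop)) fun ω => ?_
    rw [abs_mul]
    exact mul_le_mul (abs_W1_le hS c ω) (b2 _) (abs_nonneg _) (by norm_num)
  rw [← sub_eq_zero, ← integral_sub i1 i2]
  have e : ∀ ω, Real.cos (φ (x ω, vL (z ω)) + c ⬝ᵥ vR (z ω)) * f (x ω, vL (z ω)) -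
      (Real.exp (-rcv (S (x ω)) c / 2) *
        Real.cos (φ (x ω, vL (z ω)) + mcv (S (x ω)) c ⬝ᵥ vL (z ω))) * f (x ω, vL (z ω)) =
      W0 x z S c ω * (Real.cos (φ (x ω, vL (z ω))) * f (x ω, vL (z ω))) -
        W1 x z S c ω * (Real.sin (φ (x ω, vL (z ω))) * f (x ω, vL (z ω))) := by
    intro ω
    unfold W0 W1
    rw [Real.cos_add, Real.cos_add]
    ring
  simp only [e]
  rw [integral_sub i3 i4]
  have o1' : ∫ ω, W0 x z S c ω * (Real.cos (φ (x ω, vL (z ω))) * f (x ω, vL (z ω))) ∂P = 0 := o1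
  have o2' : ∫ ω, W1 x z S c ω * (Real.sin (φ (x ω, vL (z ω))) * f (x ω, vL (z ω))) ∂P = 0 := o2
  rw [o1', o2', sub_zero]

end reg2

end Crest.Agent.R166.Lim793
end
end

-- ▼ part R166/LimC_793
section

/-!
# Row 166 (helper793), section 40.10, part 4: the limit `η → 0` (finite windows, cosines).
-/

set_option autoImplicit false
set_option linter.unusedSectionVars false
set_option linter.unusedVariables false

noncomputable section

open MeasureTheory ProbabilityTheory Matrix Filter Topology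
open scoped ENNReal

namespace Crest.Agent.R166.Lim793

section lim

variable {Ω : Type*} {m0 : MeasurableSpace Ω} {B : Type*} [mB : MeasurableSpace B]
variable {ι ρ : Type*} [Fintype ι] [DecidableEq ι] [Fintype ρ] [DecidableEq ρ]
variable {Q : Measure B} [IsProbabilityMeasure Q]

/-- cosine test function -/
def Fc (x : Ω → B) (z : Ω → ι ⊕ ρ → ℝ) (φ : B × (ι → ℝ) → ℝ) (c : ρ → ℝ) (ω : Ω) : ℝ :=
  Real.cos (φ (x ω, vL (z ω)) + c ⬝ᵥ vR (z ω))

/-- its regression on base and edge -/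
def FR (x : Ω → B) (z : Ω → ι ⊕ ρ → ℝ) (S : B → Matrix (ι ⊕ ρ) (ι ⊕ ρ) ℝ)
    (φ : B × (ι → ℝ) → ℝ) (c : ρ → ℝ) (ω : Ω) : ℝ :=
  Real.exp (-rcv (S (x ω)) c / 2) * Real.cos (φ (x ω, vL (z ω)) + mcv (S (x ω)) c ⬝ᵥ vL (z ω))

/-- σ-algebra of base and edge noise -/
abbrev DD (x : Ω → B) (z : Ω → ι ⊕ ρ → ℝ) : MeasurableSpace Ω :=
  MeasurableSpace.comap (fun ω => (x ω, vL (z ω))) inferInstance

lemma DD_le {x : Ω → B} {z : Ω → ι ⊕ ρ → ℝ} (hx : Measurable x) (hz : Measurable z) :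
    DD x z ≤ m0 := (hx.prodMk (meas_vL hz)).comap_le

lemma meas_pair {x : Ω → B} {z : Ω → ι ⊕ ρ → ℝ} :
    Measurable[DD x z] fun ω => (x ω, vL (z ω)) := comap_measurable _

lemma FR_eq {x : Ω → B} {z : Ω → ι ⊕ ρ → ℝ} {S : B → Matrix (ι ⊕ ρ) (ι ⊕ ρ) ℝ}
    {φ : B × (ι → ℝ) → ℝ} {c : ρ → ℝ} :
    FR x z S φ c = (fun p : B × (ι → ℝ) => Real.exp (-rcv (S p.1) c / 2) *
      Real.cos (φ p + mcv (S p.1) c ⬝ᵥ p.2)) ∘ (fun ω => (x ω, vL (z ω))) := rfl

lemma meas_FR_aux {S : B → Matrix (ι ⊕ ρ) (ι ⊕ ρ) ℝ} (hS : MM S)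
    {φ : B × (ι → ℝ) → ℝ} (hφ : Measurable φ) (c : ρ → ℝ) :
    Measurable (fun p : B × (ι → ℝ) => Real.exp (-rcv (S p.1) c / 2) *
      Real.cos (φ p + mcv (S p.1) c ⬝ᵥ p.2)) := by
  have h1 : Measurable fun p : B × (ι → ℝ) => rcv (S p.1) c := (meas_rcv hS c).comp measurable_fst
  have h2 : Measurable fun p : B × (ι → ℝ) => mcv (S p.1) c ⬝ᵥ p.2 := by
    simp only [dotProduct]
    exact Finset.measurable_sum _ fun i _ => ((meas_mcv hS c i).comp measurable_fst).mul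
      ((measurable_pi_apply i).comp measurable_snd)
  fun_prop

lemma meas_FR {x : Ω → B} {z : Ω → ι ⊕ ρ → ℝ} {S : B → Matrix (ι ⊕ ρ) (ι ⊕ ρ) ℝ} (hS : MM S)
    {φ : B × (ι → ℝ) → ℝ} (hφ : Measurable φ) (c : ρ → ℝ) :
    Measurable[DD x z] (FR x z S φ c) := by
  rw [FR_eq]
  exact (meas_FR_aux hS hφ c).comp meas_pair

lemma meas_Fc {x : Ω → B} {z : Ω → ι ⊕ ρ → ℝ} (hx : Measurable x) (hz : Measurable z)
    {φ : B × (ι → ℝ) → ℝ} (hφ : Measurable φ) (c : ρ → ℝ) : Measurable (Fc x z φ c) := by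
  unfold Fc
  have h1 : Measurable fun ω => φ (x ω, vL (z ω)) := hφ.comp (hx.prodMk (meas_vL hz))
  have h2 := meas_dotR (c := c) hz
  exact Real.measurable_cos.comp (h1.add h2)

lemma abs_Fc_le {x : Ω → B} {z : Ω → ι ⊕ ρ → ℝ} {φ : B × (ι → ℝ) → ℝ} {c : ρ → ℝ} (ω : Ω) :
    |Fc x z φ c ω| ≤ 1 := Real.abs_cos_le_one _

lemma abs_FR_le {x : Ω → B} {z : Ω → ι ⊕ ρ → ℝ} {S : B → Matrix (ι ⊕ ρ) (ι ⊕ ρ) ℝ} (hS : Adm S)
    {φ : B × (ι → ℝ) → ℝ} {c : ρ → ℝ} (ω : Ω) : |FR x z S φ c ω| ≤ 1 := by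
  unfold FR
  rw [abs_mul, Real.abs_exp]
  exact mul_le_one₀ (exp_rcv_le hS c _) (abs_nonneg _) (Real.abs_cos_le_one _)

/-- regression, tested against functions measurable with respect to base and edge -/
lemma int_Fc_mul {P : Measure Ω} [IsProbabilityMeasure P] {x : Ω → B} {z : Ω → ι ⊕ ρ → ℝ}
    (hx : Measurable x) (hz : Measurable z) {S : B → Matrix (ι ⊕ ρ) (ι ⊕ ρ) ℝ} (hS : Adm S)
    (h : GLaw P Q x z S) (c : ρ → ℝ) {φ : B × (ι → ℝ) → ℝ} (hφ : Measurable φ)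
    {G : Ω → ℝ} (hG : Measurable[DD x z] G) (hGb : ∀ ω, |G ω| ≤ 1) :
    ∫ ω, Fc x z φ c ω * G ω ∂P = ∫ ω, FR x z S φ c ω * G ω ∂P := by
  obtain ⟨f, hf, rfl⟩ := hG.exists_eq_measurable_comp
  have hcl : ∀ ω, f (x ω, vL (z ω)) = cl (f (x ω, vL (z ω))) := fun ω => (cl_eq (hGb ω)).symm
  have h1 := reg_cos hx hz hS h c hφ (f := fun p => cl (f p)) (measurable_cl.comp hf) (C := 1)
    (fun p => abs_cl _)
  simp only [← hcl] at h1
  exact h1

lemma condExp_congr_sets {P : Measure Ω} [IsProbabilityMeasure P] {𝒞 : MeasurableSpace Ω}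
    (hC : 𝒞 ≤ m0) {f g : Ω → ℝ} (hf : Integrable f P) (hg : Integrable g P)
    (h : ∀ s, MeasurableSet[𝒞] s → ∫ ω in s, f ω ∂P = ∫ ω in s, g ω ∂P) :
    P[f|𝒞] =ᵐ[P] P[g|𝒞] := by
  symm
  refine ae_eq_condExp_of_forall_setIntegral_eq hC hf
    (fun s hs _ => integrable_condExp.integrableOn) (fun s hs _ => ?_)
    stronglyMeasurable_condExp.aestronglyMeasurable
  rw [setIntegral_condExp hC hg hs, h s hs]

lemma ce_Fc {P : Measure Ω} [IsProbabilityMeasure P] {x : Ω → B} {z : Ω → ι ⊕ ρ → ℝ}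
    (hx : Measurable x) (hz : Measurable z) {S : B → Matrix (ι ⊕ ρ) (ι ⊕ ρ) ℝ} (hS : Adm S)
    (h : GLaw P Q x z S) (c : ρ → ℝ) {φ : B × (ι → ℝ) → ℝ} (hφ : Measurable φ)
    {𝒞 : MeasurableSpace Ω} (hC : 𝒞 ≤ DD x z) :
    ce P 𝒞 (Fc x z φ c) =ᵐ[P] ce P 𝒞 (FR x z S φ c) := by
  classical
  have hD := DD_le hx hz
  have h1 : P[Fc x z φ c|𝒞] =ᵐ[P] P[FR x z S φ c|𝒞] := by
    refine condExp_congr_sets (hC.trans hD)
      (int_of_bdd (meas_Fc hx hz hφ c).aestronglyMeasurable abs_Fc_le)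
      (int_of_bdd ((meas_FR hS.mm hφ c).mono hD le_rfl).aestronglyMeasurable (abs_FR_le hS)) ?_
    intro s hs
    have hs0 : MeasurableSet[m0] s := hD _ (hC _ hs)
    have hG : Measurable[DD x z] (s.indicator (1 : Ω → ℝ)) :=
      (measurable_const : Measurable[DD x z] (fun _ : Ω => (1:ℝ))).indicator (hC _ hs)
    have hGb : ∀ ω, |s.indicator (1 : Ω → ℝ) ω| ≤ 1 := fun ω => by
      simp only [Set.indicator_apply]; split_ifs <;> simp
    have h2 := int_Fc_mul hx hz hS h c hφ hG hGb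
    rw [← integral_indicator hs0, ← integral_indicator hs0]
    have e : ∀ (F : Ω → ℝ), s.indicator F = fun ω => F ω * s.indicator (1 : Ω → ℝ) ω := by
      intro F
      ext ω
      simp only [Set.indicator_apply]; split_ifs <;> simp
    rw [e (Fc x z φ c), e (FR x z S φ c)]
    exact h2
  filter_upwards [h1] with ω hω
  unfold ce
  rw [hω]

lemma Prd_congr {P : Measure Ω} {𝒞 : MeasurableSpace Ω} {f f' g g' G : Ω → ℝ}
    (hf : ce P 𝒞 f =ᵐ[P] ce P 𝒞 f') (hg : ce P 𝒞 g =ᵐ[P] ce P 𝒞 g') :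
    Prd P 𝒞 f g G = Prd P 𝒞 f' g' G := by
  unfold Prd
  refine integral_congr_ae ?_
  filter_upwards [hf, hg] with ω h1 h2
  rw [h1, h2]

/-- the law of the base variable -/
lemma GLaw.map_eq {κ : Type*} [Fintype κ] {P : Measure Ω} [IsProbabilityMeasure P] {x : Ω → B}
    {V : Ω → κ → ℝ} (hx : Measurable x) {S : B → Matrix κ κ ℝ} (h : GLaw P Q x V S) :
    P.map x = Q := by
  classical
  ext s hs
  set g : B → ℝ := s.indicator 1 with hg
  have hgb : ∀ y, |g y| ≤ 1 := fun y => by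
    simp only [hg, Set.indicator_apply]; split_ifs <;> simp
  have h1 := h g (measurable_one.indicator hs) hgb 0
  simp only [zero_dotProduct, Complex.ofReal_zero, zero_mul, Complex.exp_zero, mul_one, neg_zero,
    zero_div] at h1
  have h2 : ∫ ω, g (x ω) ∂P = ∫ y, g y ∂Q := by
    have h3 : ((∫ ω, g (x ω) ∂P : ℝ) : ℂ) = ((∫ y, g y ∂Q : ℝ) : ℂ) := by
      rw [← integral_complex_ofReal, ← integral_complex_ofReal]; exact h1
    exact_mod_cast h3
  have e1 : (fun ω => g (x ω)) = (x ⁻¹' s).indicator 1 := by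
    ext ω; simp [hg, Set.indicator_apply]
  rw [e1, hg, integral_indicator_one (hx hs), integral_indicator_one hs] at h2
  rw [Measure.map_apply hx hs]
  exact (measureReal_eq_measureReal_iff).1 h2

lemma GLaw.ae {κ : Type*} [Fintype κ] {P : Measure Ω} [IsProbabilityMeasure P] {x : Ω → B}
    {V : Ω → κ → ℝ} (hx : Measurable x) {S : B → Matrix κ κ ℝ} (h : GLaw P Q x V S)
    {p : B → Prop} (hp : ∀ᵐ y ∂Q, p y) : ∀ᵐ ω ∂P, p (x ω) := by
  have h1 := h.map_eq hx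
  rw [← h1] at hp
  exact ae_of_ae_map hx.aemeasurable hp

lemma mcv_tendsto {Sn : ℕ → Matrix (ι ⊕ ρ) (ι ⊕ ρ) ℝ} {S : Matrix (ι ⊕ ρ) (ι ⊕ ρ) ℝ}
    (hS : S.toBlocks₁₁.det ≠ 0) (h : ∀ i j, Tendsto (fun n => Sn n i j) atTop (𝓝 (S i j)))
    (c : ρ → ℝ) (i : ι) : Tendsto (fun n => mcv (Sn n) c i) atTop (𝓝 (mcv S c i)) := by
  have hM : Tendsto (fun n => (Sn n).toBlocks₁₁) atTop (𝓝 S.toBlocks₁₁) := by
    refine tendsto_pi_nhds.2 fun i => ?_
    exact tendsto_pi_nhds.2 fun j => h _ _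
  have hdet : Tendsto (fun n => (Sn n).toBlocks₁₁.det) atTop (𝓝 S.toBlocks₁₁.det) :=
    ((continuous_id.matrix_det).tendsto _).comp hM
  have hadj : ∀ i j, Tendsto (fun n => (Sn n).toBlocks₁₁.adjugate i j) atTop
      (𝓝 (S.toBlocks₁₁.adjugate i j)) := by
    intro i j
    have : Continuous fun A : Matrix ι ι ℝ => A.adjugate i j :=
      (continuous_id.matrix_adjugate).matrix_elem i j
    exact (this.tendsto _).comp hM
  have hinv : ∀ i j, Tendsto (fun n => (Sn n).toBlocks₁₁⁻¹ i j) atTop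
      (𝓝 (S.toBlocks₁₁⁻¹ i j)) := by
    intro i j
    simp only [Matrix.inv_def, Matrix.smul_apply, Ring.inverse_eq_inv', smul_eq_mul]
    exact (hdet.inv₀ hS).mul (hadj i j)
  have h12 : ∀ j, Tendsto (fun n => ((Sn n).toBlocks₁₂ *ᵥ c) j) atTop
      (𝓝 ((S.toBlocks₁₂ *ᵥ c) j)) := by
    intro j
    simp only [Matrix.mulVec, dotProduct]
    exact tendsto_finsetSum _ fun k _ => (h _ _).mul tendsto_const_nhds
  have e : ∀ A : Matrix (ι ⊕ ρ) (ι ⊕ ρ) ℝ, mcv A c i =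
      ∑ j, A.toBlocks₁₁⁻¹ i j * (A.toBlocks₁₂ *ᵥ c) j := fun A => rfl
  simp only [e]
  exact tendsto_finsetSum _ fun j _ => (hinv i j).mul (h12 j)

lemma rcv_tendsto {Sn : ℕ → Matrix (ι ⊕ ρ) (ι ⊕ ρ) ℝ} {S : Matrix (ι ⊕ ρ) (ι ⊕ ρ) ℝ}
    (hS : S.toBlocks₁₁.det ≠ 0) (h : ∀ i j, Tendsto (fun n => Sn n i j) atTop (𝓝 (S i j)))
    (c : ρ → ℝ) : Tendsto (fun n => rcv (Sn n) c) atTop (𝓝 (rcv S c)) := by
  have h12 : ∀ j, Tendsto (fun n => ((Sn n).toBlocks₁₂ *ᵥ c) j) atTop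
      (𝓝 ((S.toBlocks₁₂ *ᵥ c) j)) := by
    intro j
    simp only [Matrix.mulVec, dotProduct]
    exact tendsto_finsetSum _ fun k _ => (h _ _).mul tendsto_const_nhds
  have h22 : Tendsto (fun n => c ⬝ᵥ (Sn n).toBlocks₂₂ *ᵥ c) atTop
      (𝓝 (c ⬝ᵥ S.toBlocks₂₂ *ᵥ c)) := by
    simp only [Matrix.mulVec, dotProduct]
    exact tendsto_finsetSum _ fun k _ => tendsto_const_nhds.mul
      (tendsto_finsetSum _ fun l _ => (h _ _).mul tendsto_const_nhds)
  unfold rcv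
  refine h22.sub ?_
  have e : ∀ A : Matrix (ι ⊕ ρ) (ι ⊕ ρ) ℝ, (A.toBlocks₁₂ *ᵥ c) ⬝ᵥ mcv A c =
      ∑ j, (A.toBlocks₁₂ *ᵥ c) j * mcv A c j := fun A => rfl
  simp only [e]
  exact tendsto_finsetSum _ fun j _ => (h12 j).mul (mcv_tendsto hS h c j)

/-- standing assumptions of the limit `η → 0` -/
structure LimSetup (P : ℕ → Measure Ω) (P' : Measure Ω) (Q : Measure B) (x : Ω → B)
    (z : Ω → ι ⊕ ρ → ℝ) (Sn : ℕ → B → Matrix (ι ⊕ ρ) (ι ⊕ ρ) ℝ)
    (S : B → Matrix (ι ⊕ ρ) (ι ⊕ ρ) ℝ) : Prop where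
  hP : ∀ n, IsProbabilityMeasure (P n)
  hP' : IsProbabilityMeasure P'
  hx : Measurable x
  hz : Measurable z
  hSn : ∀ n, Adm (Sn n)
  hS : Adm S
  law : ∀ n, GLaw (P n) Q x z (Sn n)
  law' : GLaw P' Q x z S
  lim : ∀ᵐ y ∂Q, ∀ i j, Tendsto (fun n => Sn n y i j) atTop (𝓝 (S y i j))

variable {P : ℕ → Measure Ω} {P' : Measure Ω} {x : Ω → B}
    {z : Ω → ι ⊕ ρ → ℝ} {Sn : ℕ → B → Matrix (ι ⊕ ρ) (ι ⊕ ρ) ℝ}
    {S : B → Matrix (ι ⊕ ρ) (ι ⊕ ρ) ℝ}

/-- total variation error -/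
def ev (Q : Measure B) (Sn : ℕ → B → Matrix (ι ⊕ ρ) (ι ⊕ ρ) ℝ)
    (S : B → Matrix (ι ⊕ ρ) (ι ⊕ ρ) ℝ) (n : ℕ) : ℝ :=
  ∫ p : B × (ι → ℝ), |gd ((Sn n p.1).toBlocks₁₁) p.2 - gd ((S p.1).toBlocks₁₁) p.2|
    ∂(Q.prod volume)

lemma LimSetup.ev_tendsto (L : LimSetup P P' Q x z Sn S) :
    Tendsto (ev Q Sn S) atTop (𝓝 0) := by
  have h0 : ∀ᵐ y ∂Q, ∀ i j, Tendsto (fun n => (Sn n y).toBlocks₁₁ i j) atTop
      (𝓝 ((S y).toBlocks₁₁ i j)) := by
    filter_upwards [L.lim] with y hy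
    exact fun i j => hy _ _
  have h1 : ∀ n, MM fun y => (Sn n y).toBlocks₁₁ := fun n => (L.hSn n).mm.b11
  have h2 : MM fun y => (S y).toBlocks₁₁ := L.hS.mm.b11
  exact tv_tendsto (Q := Q) (Sn := fun n y => (Sn n y).toBlocks₁₁)
    (S := fun y => (S y).toBlocks₁₁) h1 h2 (fun n => (L.hSn n).pd) L.hS.pd h0

lemma LimSetup.tv (L : LimSetup P P' Q x z Sn S) (n : ℕ) :
    TV (P n) P' (DD x z) (ev Q Sn S n) := by
  have := L.hP n
  have := L.hP'
  have h1 : MM fun y => (Sn n y).toBlocks₁₁ := (L.hSn n).mm.b11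
  have h2 : MM fun y => (S y).toBlocks₁₁ := L.hS.mm.b11
  have h3 : GLaw (P n) Q x (fun ω => vL (z ω)) (fun y => (Sn n y).toBlocks₁₁) := (L.law n).left
  have h4 : GLaw P' Q x (fun ω => vL (z ω)) (fun y => (S y).toBlocks₁₁) := L.law'.left
  exact tv_law (P := P n) (P' := P') (V := fun ω => vL (z ω))
    (S := fun y => (Sn n y).toBlocks₁₁) (S' := fun y => (S y).toBlocks₁₁)
    L.hx (meas_vL L.hz) h1 h2 (L.hSn n).pd L.hS.pd h3 h4

lemma LimSetup.FR_tendsto (L : LimSetup P P' Q x z Sn S) {φ : B × (ι → ℝ) → ℝ}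
    (hφ : Measurable φ) (c : ρ → ℝ) :
    Tendsto (fun n => ∫ ω, |FR x z (Sn n) φ c ω - FR x z S φ c ω| ∂P') atTop (𝓝 0) := by
  have := L.hP'
  have hD := DD_le L.hx L.hz
  have h0 : ∫ ω, (0 : ℝ) ∂P' = 0 := by simp
  rw [← h0]
  refine tendsto_integral_of_dominated_convergence (fun _ => (2 : ℝ)) (fun n => ?_)
    (integrable_const _) (fun n => ?_) ?_
  · exact ((((meas_FR (L.hSn n).mm hφ c).mono hD le_rfl).sub
      ((meas_FR L.hS.mm hφ c).mono hD le_rfl)).abs).aestronglyMeasurable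
  · refine Eventually.of_forall fun ω => ?_
    rw [Real.norm_eq_abs, abs_abs]
    refine (abs_sub _ _).trans ?_
    have h1 := abs_FR_le (L.hSn n) (x := x) (z := z) (φ := φ) (c := c) ω
    have h2 := abs_FR_le L.hS (x := x) (z := z) (φ := φ) (c := c) ω
    linarith
  · filter_upwards [L.law'.ae L.hx L.lim] with ω hω
    have hd : (S (x ω)).toBlocks₁₁.det ≠ 0 := (L.hS.pd _).det_pos.ne'
    have h1 := rcv_tendsto hd hω c
    have h2 : Tendsto (fun n => mcv (Sn n (x ω)) c ⬝ᵥ vL (z ω)) atTop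
        (𝓝 (mcv (S (x ω)) c ⬝ᵥ vL (z ω))) := by
      simp only [dotProduct]
      exact tendsto_finsetSum _ fun i _ => (mcv_tendsto hd hω c i).mul tendsto_const_nhds
    have h3 : Tendsto (fun n => FR x z (Sn n) φ c ω) atTop (𝓝 (FR x z S φ c ω)) := by
      unfold FR
      refine Tendsto.mul ?_ ?_
      · exact (Real.continuous_exp.tendsto _).comp ((h1.neg).div_const 2)
      · exact (Real.continuous_cos.tendsto _).comp (tendsto_const_nhds.add h2)
    have h4 := (h3.sub_const (FR x z S φ c ω)).abs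
    simpa using h4

/-- integrals of a cosine against a function of base and edge converge -/
theorem LimSetup.int_tendsto (L : LimSetup P P' Q x z Sn S) {φ : B × (ι → ℝ) → ℝ}
    (hφ : Measurable φ) (c : ρ → ℝ) {G : Ω → ℝ} (hG : Measurable[DD x z] G)
    (hGb : ∀ ω, |G ω| ≤ 1) :
    Tendsto (fun n => ∫ ω, Fc x z φ c ω * G ω ∂(P n)) atTop
      (𝓝 (∫ ω, Fc x z φ c ω * G ω ∂P')) := by
  have := L.hP
  have := L.hP'
  have hD := DD_le L.hx L.hz
  rw [int_Fc_mul L.hx L.hz L.hS L.law' c hφ hG hGb]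
  have e : ∀ n, ∫ ω, Fc x z φ c ω * G ω ∂(P n) = ∫ ω, FR x z (Sn n) φ c ω * G ω ∂(P n) :=
    fun n => int_Fc_mul L.hx L.hz (L.hSn n) (L.law n) c hφ hG hGb
  simp only [e]
  rw [tendsto_iff_dist_tendsto_zero]
  have hG0 : Measurable G := hG.mono hD le_rfl
  refine squeeze_zero (fun n => dist_nonneg) (fun n => ?_)
    (by simpa using L.ev_tendsto.add (L.FR_tendsto hφ c))
  rw [Real.dist_eq]
  have hmul : ∀ {a b : ℝ}, |a| ≤ 1 → |b| ≤ 1 → |a * b| ≤ 1 := fun ha hb => by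
    rw [abs_mul]; exact mul_le_one₀ ha (abs_nonneg _) hb
  have t1 := L.tv n (fun ω => FR x z (Sn n) φ c ω * G ω) ((meas_FR (L.hSn n).mm hφ c).mul hG)
    (fun ω => hmul (abs_FR_le (L.hSn n) ω) (hGb ω))
  have i1 : Integrable (fun ω => FR x z (Sn n) φ c ω * G ω) P' :=
    int_of_bdd (((meas_FR (L.hSn n).mm hφ c).mono hD le_rfl).mul hG0).aestronglyMeasurable
      (fun ω => hmul (abs_FR_le (L.hSn n) ω) (hGb ω))
  have i2 : Integrable (fun ω => FR x z S φ c ω * G ω) P' :=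
    int_of_bdd (((meas_FR L.hS.mm hφ c).mono hD le_rfl).mul hG0).aestronglyMeasurable
      (fun ω => hmul (abs_FR_le L.hS ω) (hGb ω))
  have i3 : Integrable (fun ω => FR x z (Sn n) φ c ω - FR x z S φ c ω) P' :=
    (int_of_bdd (((meas_FR (L.hSn n).mm hφ c).mono hD le_rfl)).aestronglyMeasurable
      (abs_FR_le (L.hSn n))).sub
    (int_of_bdd (((meas_FR L.hS.mm hφ c).mono hD le_rfl)).aestronglyMeasurable (abs_FR_le L.hS))
  have t2 : |∫ ω, FR x z (Sn n) φ c ω * G ω ∂P' - ∫ ω, FR x z S φ c ω * G ω ∂P'| ≤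
      ∫ ω, |FR x z (Sn n) φ c ω - FR x z S φ c ω| ∂P' := by
    rw [← integral_sub i1 i2]
    refine (abs_integral_le_integral_abs).trans (integral_mono (i1.sub i2).abs i3.abs fun ω => ?_)
    simp only
    rw [← sub_mul, abs_mul]
    exact mul_le_of_le_one_right (abs_nonneg _) (hGb ω)
  calc |∫ ω, FR x z (Sn n) φ c ω * G ω ∂(P n) - ∫ ω, FR x z S φ c ω * G ω ∂P'|
      ≤ |∫ ω, FR x z (Sn n) φ c ω * G ω ∂(P n) - ∫ ω, FR x z (Sn n) φ c ω * G ω ∂P'| +
        |∫ ω, FR x z (Sn n) φ c ω * G ω ∂P' - ∫ ω, FR x z S φ c ω * G ω ∂P'| :=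
        abs_sub_le _ _ _
    _ ≤ ev Q Sn S n + ∫ ω, |FR x z (Sn n) φ c ω - FR x z S φ c ω| ∂P' := add_le_add t1 t2

/-- the product functional converges -/
theorem LimSetup.prd_tendsto (L : LimSetup P P' Q x z Sn S) {φ ψ : B × (ι → ℝ) → ℝ}
    (hφ : Measurable φ) (hψ : Measurable ψ) (a b : ρ → ℝ) {𝒞 : MeasurableSpace Ω}
    (hC : 𝒞 ≤ DD x z) {G : Ω → ℝ} (hG : Measurable[𝒞] G) (hGb : ∀ ω, |G ω| ≤ 1) :
    Tendsto (fun n => Prd (P n) 𝒞 (Fc x z φ a) (Fc x z ψ b) G) atTop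
      (𝓝 (Prd P' 𝒞 (Fc x z φ a) (Fc x z ψ b) G)) := by
  have := L.hP
  have := L.hP'
  have hD := DD_le L.hx L.hz
  rw [Prd_congr (ce_Fc L.hx L.hz L.hS L.law' a hφ hC) (ce_Fc L.hx L.hz L.hS L.law' b hψ hC)]
  have e : ∀ n, Prd (P n) 𝒞 (Fc x z φ a) (Fc x z ψ b) G =
      Prd (P n) 𝒞 (FR x z (Sn n) φ a) (FR x z (Sn n) ψ b) G := fun n =>
    Prd_congr (ce_Fc L.hx L.hz (L.hSn n) (L.law n) a hφ hC)
      (ce_Fc L.hx L.hz (L.hSn n) (L.law n) b hψ hC)
  simp only [e]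
  rw [tendsto_iff_dist_tendsto_zero]
  refine squeeze_zero (fun n => dist_nonneg) (fun n => ?_)
    (by simpa using ((L.ev_tendsto.const_mul 5).add (L.FR_tendsto hφ a)).add (L.FR_tendsto hψ b))
  rw [Real.dist_eq]
  exact prd_close hD hC (L.tv n) (meas_FR (L.hSn n).mm hφ a) (meas_FR L.hS.mm hφ a)
    (meas_FR (L.hSn n).mm hψ b) (meas_FR L.hS.mm hψ b) hG (abs_FR_le (L.hSn n)) (abs_FR_le L.hS)
    (abs_FR_le (L.hSn n)) (abs_FR_le L.hS) hGb

/-- **Window theorem.** Approximate conditional independence with vanishing error becomes exact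
conditional independence in the limit (cosine test functions). -/
theorem LimSetup.exact (L : LimSetup P P' Q x z Sn S) {φ ψ : B × (ι → ℝ) → ℝ}
    (hφ : Measurable φ) (hψ : Measurable ψ) (a b : ρ → ℝ) {𝒞 : MeasurableSpace Ω}
    (hC : 𝒞 ≤ DD x z) {G : Ω → ℝ} (hG : Measurable[𝒞] G) (hGb : ∀ ω, |G ω| ≤ 1)
    {δ : ℕ → ℝ} (hδ : Tendsto δ atTop (𝓝 0))
    (h : ∀ n, |∫ ω, Fc x z φ a ω * Fc x z ψ b ω * G ω ∂(P n) -
      Prd (P n) 𝒞 (Fc x z φ a) (Fc x z ψ b) G| ≤ δ n) :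
    ∫ ω, Fc x z φ a ω * Fc x z ψ b ω * G ω ∂P' = Prd P' 𝒞 (Fc x z φ a) (Fc x z ψ b) G := by
  have := L.hP
  have := L.hP'
  have hD := DD_le L.hx L.hz
  have hG' : Measurable[DD x z] G := hG.mono hC le_rfl
  have hG0 : Measurable[m0] G := hG'.mono hD le_rfl
  have hmul : ∀ {a b : ℝ}, |a| ≤ 1 → |b| ≤ 1 → |a * b| ≤ 1 := fun ha hb => by
    rw [abs_mul]; exact mul_le_one₀ ha (abs_nonneg _) hb
  -- product to sum
  have e : ∀ ν : @Measure Ω m0, IsProbabilityMeasure ν →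
      ∫ ω, Fc x z φ a ω * Fc x z ψ b ω * G ω ∂ν =
      (1 / 2) * (∫ ω, Fc x z (fun p => φ p + ψ p) (a + b) ω * G ω ∂ν +
        ∫ ω, Fc x z (fun p => φ p - ψ p) (a - b) ω * G ω ∂ν) := by
    intro ν hν
    have i1 : Integrable (fun ω => Fc x z (fun p => φ p + ψ p) (a + b) ω * G ω) ν :=
      int_of_bdd ((meas_Fc L.hx L.hz (hφ.add hψ) (a + b)).mul hG0).aestronglyMeasurable
        (fun ω => hmul (abs_Fc_le ω) (hGb ω))
    have i2 : Integrable (fun ω => Fc x z (fun p => φ p - ψ p) (a - b) ω * G ω) ν :=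
      int_of_bdd ((meas_Fc L.hx L.hz (hφ.sub hψ) (a - b)).mul hG0).aestronglyMeasurable
        (fun ω => hmul (abs_Fc_le ω) (hGb ω))
    rw [← integral_add i1 i2, ← integral_const_mul]
    refine integral_congr_ae (Eventually.of_forall fun ω => ?_)
    simp only [Fc, add_dotProduct, sub_dotProduct]
    have h1 : φ (x ω, vL (z ω)) + ψ (x ω, vL (z ω)) + (a ⬝ᵥ vR (z ω) + b ⬝ᵥ vR (z ω)) =
        (φ (x ω, vL (z ω)) + a ⬝ᵥ vR (z ω)) + (ψ (x ω, vL (z ω)) + b ⬝ᵥ vR (z ω)) := by ring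
    have h2 : φ (x ω, vL (z ω)) - ψ (x ω, vL (z ω)) + (a ⬝ᵥ vR (z ω) - b ⬝ᵥ vR (z ω)) =
        (φ (x ω, vL (z ω)) + a ⬝ᵥ vR (z ω)) - (ψ (x ω, vL (z ω)) + b ⬝ᵥ vR (z ω)) := by ring
    have key : ∀ α β γ : ℝ, Real.cos α * Real.cos β * γ =
        1 / 2 * (Real.cos (α + β) * γ + Real.cos (α - β) * γ) := by
      intro α β γ
      rw [Real.cos_add, Real.cos_sub]; ring
    rw [h1, h2]
    exact key _ _ _
  have t1 : Tendsto (fun n => ∫ ω, Fc x z φ a ω * Fc x z ψ b ω * G ω ∂(P n)) atTop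
      (𝓝 (∫ ω, Fc x z φ a ω * Fc x z ψ b ω * G ω ∂P')) := by
    rw [e P' L.hP']
    have e' : ∀ n, ∫ ω, Fc x z φ a ω * Fc x z ψ b ω * G ω ∂(P n) = _ := fun n => e (P n) (L.hP n)
    simp only [e']
    exact ((L.int_tendsto (hφ.add hψ) (a + b) hG' hGb).add
      (L.int_tendsto (hφ.sub hψ) (a - b) hG' hGb)).const_mul _
  have t2 := L.prd_tendsto hφ hψ a b hC hG hGb
  have t3 := (t1.sub t2).abs
  have t4 : |∫ ω, Fc x z φ a ω * Fc x z ψ b ω * G ω ∂P' -
      Prd P' 𝒞 (Fc x z φ a) (Fc x z ψ b) G| ≤ 0 := le_of_tendsto_of_tendsto' t3 hδ h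
  have t5 := abs_nonpos_iff.1 t4
  linarith

end lim

end Crest.Agent.R166.Lim793
end
end

-- ▼ part R166/LimD_793
section

/-!
# Row 166 (helper793), section 40.10, part 5: from cosines to all bounded functions.
-/

set_option autoImplicit false
set_option linter.unusedSectionVars false
set_option linter.unusedVariables false

noncomputable section

open MeasureTheory ProbabilityTheory Matrix Filter Topology
open scoped ENNReal

namespace Crest.Agent.R166.Lim793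

section ext

variable {Ω : Type*} {m0 : MeasurableSpace Ω} {P : Measure Ω} [IsProbabilityMeasure P]

/-- exact conditional independence of two bounded functions, in integral form -/
def CIint (P : Measure Ω) (𝒞 : MeasurableSpace Ω) (f g : Ω → ℝ) : Prop :=
  ∀ G : Ω → ℝ, Measurable[𝒞] G → (∀ ω, |G ω| ≤ 1) →
    ∫ ω, f ω * g ω * G ω ∂P = Prd P 𝒞 f g G

lemma CIint.symm {𝒞 : MeasurableSpace Ω} {f g : Ω → ℝ} (h : CIint P 𝒞 f g) : CIint P 𝒞 g f := by
  intro G hG hb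
  have h1 := h G hG hb
  have e1 : ∀ ω, g ω * f ω * G ω = f ω * g ω * G ω := fun ω => by ring
  have e2 : Prd P 𝒞 g f G = Prd P 𝒞 f g G := by
    unfold Prd
    refine integral_congr_ae (Eventually.of_forall fun ω => ?_)
    simp only
    ring
  simp only [e1]
  rw [h1, e2]

lemma abs_mul_le_one {a b : ℝ} (ha : |a| ≤ 1) (hb : |b| ≤ 1) : |a * b| ≤ 1 := by
  rw [abs_mul]; exact mul_le_one₀ ha (abs_nonneg _) hb

/-- the test weight -/
def wt (P : Measure Ω) (𝒞 : MeasurableSpace Ω) (g G : Ω → ℝ) (ω : Ω) : ℝ :=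
  (g ω - ce P 𝒞 g ω) * G ω

lemma meas_wt {𝒞 : MeasurableSpace Ω} (hC : 𝒞 ≤ m0) {g G : Ω → ℝ} (hg : Measurable[m0] g)
    (hG : Measurable[𝒞] G) : Measurable[m0] (wt P 𝒞 g G) :=
  (hg.sub ((ce_meas (P := P) g).mono hC le_rfl)).mul (hG.mono hC le_rfl)

lemma abs_wt {𝒞 : MeasurableSpace Ω} {g G : Ω → ℝ} (hg : ∀ ω, |g ω| ≤ 1) (hG : ∀ ω, |G ω| ≤ 1)
    (ω : Ω) : |wt P 𝒞 g G ω| ≤ 2 := by
  unfold wt
  rw [abs_mul]
  have h1 := abs_sub (g ω) (ce P 𝒞 g ω)
  have h2 := abs_ce (P := P) (m := 𝒞) g ω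
  have h3 := hg ω
  have h4 : |g ω - ce P 𝒞 g ω| ≤ 2 := by linarith
  exact (mul_le_of_le_one_right (abs_nonneg _) (hG ω)).trans h4

/-- `CIint` is the statement that `f` is orthogonal to the test weights -/
lemma ciint_iff {𝒞 : MeasurableSpace Ω} (hC : 𝒞 ≤ m0) {f g : Ω → ℝ} (hf : Measurable[m0] f)
    (hfb : ∀ ω, |f ω| ≤ 1) (hg : Measurable[m0] g) (hgb : ∀ ω, |g ω| ≤ 1) {G : Ω → ℝ}
    (hG : Measurable[𝒞] G) (hGb : ∀ ω, |G ω| ≤ 1) :
    (∫ ω, f ω * g ω * G ω ∂P = Prd P 𝒞 f g G) ↔ ∫ ω, f ω * wt P 𝒞 g G ω ∂P = 0 := by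
  have hcm : Measurable[m0] (ce P 𝒞 g) := (ce_meas (P := P) g).mono hC le_rfl
  have hG0 : Measurable[m0] G := hG.mono hC le_rfl
  have h1 : Prd P 𝒞 f g G = ∫ ω, f ω * (ce P 𝒞 g ω * G ω) ∂P := by
    have h2 := int_mul_ce (P := P) hC (s := fun ω => ce P 𝒞 g ω * G ω) (f := f)
      ((ce_meas (P := P) g).mul hG) (C := 1)
      (fun ω => abs_mul_le_one (abs_ce g ω) (hGb ω)) hf hfb
    unfold Prd
    calc ∫ ω, ce P 𝒞 f ω * ce P 𝒞 g ω * G ω ∂P = ∫ ω, (ce P 𝒞 g ω * G ω) * ce P 𝒞 f ω ∂P :=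
          integral_congr_ae (Eventually.of_forall fun ω => by simp only; ring)
      _ = ∫ ω, (ce P 𝒞 g ω * G ω) * f ω ∂P := h2
      _ = ∫ ω, f ω * (ce P 𝒞 g ω * G ω) ∂P :=
          integral_congr_ae (Eventually.of_forall fun ω => by simp only; ring)
  rw [h1, ← sub_eq_zero]
  have i1 : Integrable (fun ω => f ω * g ω * G ω) P :=
    int_of_bdd ((hf.mul hg).mul hG0).aestronglyMeasurable
      (fun ω => abs_mul_le_one (abs_mul_le_one (hfb ω) (hgb ω)) (hGb ω))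
  have i2 : Integrable (fun ω => f ω * (ce P 𝒞 g ω * G ω)) P :=
    int_of_bdd (hf.mul (hcm.mul hG0)).aestronglyMeasurable
      (fun ω => abs_mul_le_one (hfb ω) (abs_mul_le_one (abs_ce g ω) (hGb ω)))
  rw [← integral_sub i1 i2]
  have e : ∀ ω, f ω * g ω * G ω - f ω * (ce P 𝒞 g ω * G ω) = f ω * wt P 𝒞 g G ω := by
    intro ω; unfold wt; ring
  simp only [e]

lemma meas_dotU {κ : Type*} [Fintype κ] {U : Ω → κ → ℝ} (hU : Measurable U) (α : κ → ℝ) :
    Measurable fun ω => α ⬝ᵥ U ω := by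
  simp only [dotProduct]
  exact Finset.measurable_sum _ fun i _ => ((measurable_pi_apply i).comp hU).const_mul _

lemma char_zero {κ : Type*} [Fintype κ] {U : Ω → κ → ℝ} (hU : Measurable U) {w : Ω → ℝ}
    (hwi : Integrable w P)
    (hc : ∀ (α : κ → ℝ) (θ : ℝ), ∫ ω, Real.cos (θ + α ⬝ᵥ U ω) * w ω ∂P = 0) (b : κ → ℝ) :
    ∫ ω, (w ω : ℂ) * Complex.exp ((b ⬝ᵥ U ω : ℝ) * Complex.I) ∂P = 0 := by
  have hd := meas_dotU hU b
  have c1 := hc b 0
  have c2 := hc b (-(Real.pi / 2))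
  have e2 : ∀ ω, Real.cos (-(Real.pi / 2) + b ⬝ᵥ U ω) = Real.sin (b ⬝ᵥ U ω) := by
    intro ω
    rw [neg_add_eq_sub, ← Real.cos_pi_div_two_sub, ← Real.cos_neg]
    congr 1; ring
  simp only [e2] at c2
  simp only [zero_add] at c1
  have i1 : Integrable (fun ω => ((Real.cos (b ⬝ᵥ U ω) * w ω : ℝ) : ℂ)) P :=
    (Integrable.bdd_mul (c := 1) hwi (Real.measurable_cos.comp hd).aestronglyMeasurable
      (Eventually.of_forall fun ω => by simpa using Real.abs_cos_le_one _)).ofReal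
  have i2 : Integrable (fun ω => ((Real.sin (b ⬝ᵥ U ω) * w ω : ℝ) : ℂ) * Complex.I) P :=
    ((Integrable.bdd_mul (c := 1) hwi (Real.measurable_sin.comp hd).aestronglyMeasurable
      (Eventually.of_forall fun ω => by simpa using Real.abs_sin_le_one _)).ofReal).mul_const _
  have e : ∀ ω, (w ω : ℂ) * Complex.exp ((b ⬝ᵥ U ω : ℝ) * Complex.I) =
      ((Real.cos (b ⬝ᵥ U ω) * w ω : ℝ) : ℂ) +
        ((Real.sin (b ⬝ᵥ U ω) * w ω : ℝ) : ℂ) * Complex.I := by
    intro ω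
    rw [Complex.exp_mul_I]
    push_cast
    ring
  simp only [e]
  rw [integral_add i1 i2, integral_complex_ofReal, integral_mul_const, integral_complex_ofReal,
    c1, c2]
  simp

lemma meas_fam {I : Type*} {Y : I → Ω → ℝ} (hY : ∀ i, Measurable (Y i)) (t : Finset I) :
    Measurable fun ω (i : t) => Y i.1 ω := measurable_pi_lambda _ fun i => hY i.1

/-- cosines are enough (finite window) -/
theorem ext1 {𝒞 : MeasurableSpace Ω} (hC : 𝒞 ≤ m0) {κ : Type*} [Fintype κ] {U : Ω → κ → ℝ}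
    (hU : Measurable[m0] U) {g : Ω → ℝ} (hg : Measurable[m0] g) (hgb : ∀ ω, |g ω| ≤ 1)
    (h : ∀ (α : κ → ℝ) (θ : ℝ), CIint P 𝒞 (fun ω => Real.cos (θ + α ⬝ᵥ U ω)) g)
    {f : (κ → ℝ) → ℝ} (hf : Measurable f) (hfb : ∀ y, |f y| ≤ 1) :
    CIint P 𝒞 (fun ω => f (U ω)) g := by
  intro G hG hGb
  have hfU : Measurable[m0] fun ω => f (U ω) := hf.comp hU
  rw [ciint_iff hC hfU (fun ω => hfb _) hg hgb hG hGb]
  have hw := meas_wt (P := P) hC hg hG
  have hwi : Integrable (wt P 𝒞 g G) P := int_of_bdd hw.aestronglyMeasurable (abs_wt hgb hGb)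
  have hc : ∀ (α : κ → ℝ) (θ : ℝ), ∫ ω, Real.cos (θ + α ⬝ᵥ U ω) * wt P 𝒞 g G ω ∂P = 0 := by
    intro α θ
    exact (ciint_iff hC (Real.measurable_cos.comp (measurable_const.add (meas_dotU hU α)))
      (fun ω => Real.abs_cos_le_one _) hg hgb hG hGb).1 (h α θ G hG hGb)
  have h1 := uniq P hU hwi hw (char_zero hU hwi hc) hf hfb
  rw [← h1]
  exact integral_congr_ae (Eventually.of_forall fun ω => mul_comm _ _)

/-- from finite windows to the σ-algebra generated by all coordinates -/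
theorem ext2 {𝒞 : MeasurableSpace Ω} (hC : 𝒞 ≤ m0) {I : Type*} {Y : I → Ω → ℝ}
    (hY : ∀ i, Measurable[m0] (Y i)) (IA : Set I) {g : Ω → ℝ} (hg : Measurable[m0] g)
    (hgb : ∀ ω, |g ω| ≤ 1)
    (h : ∀ (t : Finset I), (↑t ⊆ IA) → ∀ (α : t → ℝ) (θ : ℝ),
      CIint P 𝒞 (fun ω => Real.cos (θ + α ⬝ᵥ fun i : t => Y i.1 ω)) g)
    {F : Ω → ℝ} (hF : Measurable[⨆ i ∈ IA, MeasurableSpace.comap (Y i) inferInstance] F)
    (hFb : ∀ ω, |F ω| ≤ 1) : CIint P 𝒞 F g := by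
  classical
  set 𝒜 : MeasurableSpace Ω := ⨆ i ∈ IA, MeasurableSpace.comap (Y i) inferInstance with h𝒜
  have hA : 𝒜 ≤ m0 := iSup₂_le fun i _ => (hY i).comap_le
  intro G hG hGb
  rw [ciint_iff hC (hF.mono hA le_rfl) hFb hg hgb hG hGb]
  have hw := meas_wt (P := P) hC hg hG
  have hwi : Integrable (wt P 𝒞 g G) P := int_of_bdd hw.aestronglyMeasurable (abs_wt hgb hGb)
  have key : ∀ s, MeasurableSet[𝒜] s → ∫ ω in s, wt P 𝒞 g G ω ∂P = 0 := by
    have hgen := generateFrom_piiUnionInter_measurableSet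
      (fun i => MeasurableSpace.comap (Y i) inferInstance) IA
    have hpi : IsPiSystem (piiUnionInter
        (fun i => {s | MeasurableSet[MeasurableSpace.comap (Y i) inferInstance] s}) IA) :=
      isPiSystem_piiUnionInter _ (fun i =>
        @MeasurableSpace.isPiSystem_measurableSet Ω (MeasurableSpace.comap (Y i) inferInstance)) IA
    intro s hs
    have huniv : ∫ ω, wt P 𝒞 g G ω ∂P = 0 := by
      have h1 := h ∅ (by simp) 0 0
      have h2 := (ciint_iff hC (f := fun _ => (1:ℝ)) measurable_const (fun _ => by simp) hg hgb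
        hG hGb).1 (by
          have h3 := h1 G hG hGb
          simpa using h3)
      simpa using h2
    induction s, hs using MeasurableSpace.induction_on_inter hgen.symm hpi with
    | empty => simp
    | basic s hs =>
      obtain ⟨t, htA, f, hf, rfl⟩ := hs
      -- sets `f i = Y i ⁻¹' u i`
      have hu : ∀ i ∈ t, ∃ u : Set ℝ, MeasurableSet u ∧ Y i ⁻¹' u = f i := fun i hi => hf i hi
      choose! u hum hue using hu
      set U : Ω → t → ℝ := fun ω i => Y i.1 ω with hU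
      have hUm : Measurable[m0] U := meas_fam hY t
      set T : Set (t → ℝ) := {y | ∀ i, y i ∈ u i.1} with hT
      have hTm : MeasurableSet T := by
        have : T = ⋂ i : t, (fun y : t → ℝ => y i) ⁻¹' (u i.1) := by ext y; simp [hT]
        rw [this]
        exact MeasurableSet.iInter fun i => (measurable_pi_apply i) (hum i.1 i.2)
      have hTe : (⋂ i ∈ t, f i) = U ⁻¹' T := by
        ext ω
        simp only [Set.mem_iInter, Set.mem_preimage, hT, Set.mem_ofPred_eq, hU]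
        constructor
        · intro h1 i
          have := h1 i.1 i.2
          rw [← hue i.1 i.2] at this
          exact this
        · intro h1 i hi
          rw [← hue i hi]
          exact h1 ⟨i, hi⟩
      have h2' := ext1 hC hUm hg hgb (fun α θ => h t htA α θ)
        (f := T.indicator 1) (measurable_one.indicator hTm)
        (fun y => by simp only [Set.indicator_apply]; split_ifs <;> simp) G hG hGb
      have h2 := (ciint_iff hC (f := fun ω => T.indicator 1 (U ω))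
        ((measurable_one.indicator hTm).comp hUm)
        (fun ω => by simp only [Set.indicator_apply]; split_ifs <;> simp)
        hg hgb hG hGb).1 h2'
      rw [hTe, ← integral_indicator (hUm hTm), ← h2]
      refine integral_congr_ae (Eventually.of_forall fun ω => ?_)
      simp only [Set.indicator_apply, Set.mem_preimage, Pi.one_apply]
      split_ifs <;> simp
    | compl s hs ih =>
      rw [setIntegral_compl (hA _ hs) hwi, ih, huniv, sub_zero]
    | iUnion f hd hm ih =>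
      rw [integral_iUnion (fun i => hA _ (hm i)) hd hwi.integrableOn]
      simp [ih]
  -- conclude
  have h0 : P[wt P 𝒞 g G|𝒜] =ᵐ[P] 0 := by
    symm
    refine ae_eq_condExp_of_forall_setIntegral_eq hA hwi (fun s _ _ => integrableOn_zero)
      (fun s hs _ => ?_) stronglyMeasurable_zero.aestronglyMeasurable
    rw [key s hs]; simp
  have h1 := int_mul_condExp (P := P) hA hF.stronglyMeasurable hFb hwi
  rw [← h1]
  have : ∫ ω, F ω * (P[wt P 𝒞 g G|𝒜]) ω ∂P = ∫ ω, (0 : ℝ) ∂P := by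
    refine integral_congr_ae ?_
    filter_upwards [h0] with ω hω
    rw [hω]; simp
  rw [this, integral_zero]

/-- product formula for conditional expectations -/
theorem condExp_mul_of_ciint {𝒞 : MeasurableSpace Ω} (hC : 𝒞 ≤ m0) {f g : Ω → ℝ}
    (hf : Measurable[m0] f) (hfb : ∀ ω, |f ω| ≤ 1) (hg : Measurable[m0] g)
    (hgb : ∀ ω, |g ω| ≤ 1) (h : CIint P 𝒞 f g) :
    P[fun ω => f ω * g ω|𝒞] =ᵐ[P] fun ω => (P[f|𝒞]) ω * (P[g|𝒞]) ω := by
  classical
  have hfg : Integrable (fun ω => f ω * g ω) P :=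
    int_of_bdd (hf.mul hg).aestronglyMeasurable (fun ω => abs_mul_le_one (hfb ω) (hgb ω))
  have hce : (fun ω => ce P 𝒞 f ω * ce P 𝒞 g ω) =ᵐ[P] fun ω => (P[f|𝒞]) ω * (P[g|𝒞]) ω := by
    filter_upwards [ce_ae (P := P) (m := 𝒞) hfb, ce_ae (P := P) (m := 𝒞) hgb] with ω h1 h2
    rw [h1, h2]
  refine Filter.EventuallyEq.trans ?_ hce
  symm
  have hm : Measurable[𝒞] fun ω => ce P 𝒞 f ω * ce P 𝒞 g ω :=
    (ce_meas (P := P) f).mul (ce_meas (P := P) g)
  have hmi : Integrable (fun ω => ce P 𝒞 f ω * ce P 𝒞 g ω) P :=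
    int_of_bdd (hm.mono hC le_rfl).aestronglyMeasurable
      (fun ω => abs_mul_le_one (abs_ce f ω) (abs_ce g ω))
  refine ae_eq_condExp_of_forall_setIntegral_eq hC hfg (fun s _ _ => hmi.integrableOn)
      (fun s hs _ => ?_) hm.stronglyMeasurable.aestronglyMeasurable
  have hG : Measurable[𝒞] (s.indicator (1 : Ω → ℝ)) :=
    (measurable_const : Measurable[𝒞] (fun _ : Ω => (1:ℝ))).indicator hs
  have h1 := h _ hG (fun ω => by simp only [Set.indicator_apply]; split_ifs <;> simp)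
  unfold Prd at h1
  rw [← integral_indicator (hC _ hs), ← integral_indicator (hC _ hs)]
  have e : ∀ (F : Ω → ℝ), s.indicator F = fun ω => F ω * s.indicator (1 : Ω → ℝ) ω := by
    intro F
    ext ω
    simp only [Set.indicator_apply]; split_ifs <;> simp
  rw [e fun ω => ce P 𝒞 f ω * ce P 𝒞 g ω, e fun ω => f ω * g ω]
  exact h1.symm

/-- product formula, arbitrary bounds -/
theorem condExp_mul_of_ciint' {𝒞 : MeasurableSpace Ω} (hC : 𝒞 ≤ m0) {f g : Ω → ℝ}
    (hf : Measurable[m0] f) (hg : Measurable[m0] g) {C D : ℝ} (hC0 : 0 < C) (hD0 : 0 < D)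
    (hfb : ∀ ω, |f ω| ≤ C) (hgb : ∀ ω, |g ω| ≤ D)
    (h : CIint P 𝒞 (fun ω => C⁻¹ * f ω) (fun ω => D⁻¹ * g ω)) :
    P[fun ω => f ω * g ω|𝒞] =ᵐ[P] fun ω => (P[f|𝒞]) ω * (P[g|𝒞]) ω := by
  have hfb' : ∀ ω, |C⁻¹ * f ω| ≤ 1 := fun ω => by
    rw [abs_mul, abs_inv, abs_of_pos hC0, inv_mul_le_one₀ hC0]; exact hfb ω
  have hgb' : ∀ ω, |D⁻¹ * g ω| ≤ 1 := fun ω => by
    rw [abs_mul, abs_inv, abs_of_pos hD0, inv_mul_le_one₀ hD0]; exact hgb ω
  have h1 := condExp_mul_of_ciint hC (hf.const_mul C⁻¹) hfb' (hg.const_mul D⁻¹) hgb' h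
  have e1 : P[fun ω => C⁻¹ * f ω|𝒞] =ᵐ[P] fun ω => C⁻¹ * (P[f|𝒞]) ω :=
    condExp_smul (μ := P) C⁻¹ f 𝒞
  have e2 : P[fun ω => D⁻¹ * g ω|𝒞] =ᵐ[P] fun ω => D⁻¹ * (P[g|𝒞]) ω :=
    condExp_smul (μ := P) D⁻¹ g 𝒞
  have e3 : P[fun ω => C⁻¹ * f ω * (D⁻¹ * g ω)|𝒞] =ᵐ[P]
      fun ω => (C⁻¹ * D⁻¹) * (P[fun ω => f ω * g ω|𝒞]) ω := by
    have : (fun ω => C⁻¹ * f ω * (D⁻¹ * g ω)) = (C⁻¹ * D⁻¹) • fun ω => f ω * g ω := by
      ext ω; simp only [Pi.smul_apply, smul_eq_mul]; ring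
    rw [this]
    exact condExp_smul (μ := P) (C⁻¹ * D⁻¹) _ 𝒞
  filter_upwards [h1, e1, e2, e3] with ω a1 a2 a3 a4
  rw [a4, a2, a3] at a1
  have hCi : C⁻¹ * D⁻¹ ≠ 0 := by positivity
  have : (C⁻¹ * D⁻¹) * (P[fun ω => f ω * g ω|𝒞]) ω =
      (C⁻¹ * D⁻¹) * ((P[f|𝒞]) ω * (P[g|𝒞]) ω) := by rw [a1]; ring
  exact mul_left_cancel₀ hCi this

end ext

end Crest.Agent.R166.Lim793
end
end

-- ▼ part R166/LimE_793
section

/-!
# Row 166 (helper793), section 40.10, part 6: the edge Markov property in the limit `η → 0`.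

`markov_limit`: abstract final theorem. Gaussian noises `zz i` (`i` in any index type) with
covariance kernels `K n (x)` given the base variable `x` (carrying environment and `X`), values
`Y i = xx i (x) + c0 * zz i`. If under `P n` the two sides are approximately conditionally
independent given `𝒞` (error tending to zero for every finite window), then under the limit law `P'`
they are conditionally independent. Only nondegeneracy on the edge is used.
-/

set_option autoImplicit false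
set_option linter.unusedSectionVars false
set_option linter.unusedVariables false
set_option linter.unusedSimpArgs false

noncomputable section

open MeasureTheory ProbabilityTheory Matrix Filter Topology
open scoped ENNReal

namespace Crest.Agent.R166.Lim793

open Lim47 (ApproxCI defect)

section fin

variable {Ω : Type*} {m0 : MeasurableSpace Ω} {B : Type*} [mB : MeasurableSpace B] {I : Type}

/-- covariance matrix of a finite family -/
def Kmat (K : B → I → I → ℝ) {κ : Type} (j : κ → I) (y : B) : Matrix κ κ ℝ :=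
  Matrix.of fun k l => K y (j k) (j l)


/-- changing the covariance on a null set -/
lemma GLaw.congr {κ : Type*} [Fintype κ] {P : Measure Ω} {Q : Measure B} {x : Ω → B}
    {V : Ω → κ → ℝ} {S S' : B → Matrix κ κ ℝ} (h : GLaw P Q x V S) (hS : ∀ᵐ y ∂Q, S y = S' y) :
    GLaw P Q x V S' := by
  intro g hg hgb b
  rw [h g hg hgb b]
  refine integral_congr_ae ?_
  filter_upwards [hS] with y hy
  rw [hy]

/-- approximate conditional independence with an additional weight -/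
lemma approx_weight {P : Measure Ω} [IsProbabilityMeasure P] {𝒜 ℬ 𝒞 : MeasurableSpace Ω}
    (hA : 𝒜 ≤ m0) (hB : ℬ ≤ m0) (hCA : 𝒞 ≤ 𝒜) {δ : ℝ} (h : ApproxCI P 𝒜 ℬ 𝒞 δ)
    {f g G : Ω → ℝ} (hf : Measurable[𝒜] f) (hg : Measurable[ℬ] g) (hG : Measurable[𝒞] G)
    (hfb : ∀ ω, |f ω| ≤ 1) (hgb : ∀ ω, |g ω| ≤ 1) (hGb : ∀ ω, |G ω| ≤ 1) :
    |∫ ω, f ω * g ω * G ω ∂P - Prd P 𝒞 f g G| ≤ δ := by
  have hC : 𝒞 ≤ m0 := hCA.trans hA
  have h1 := h (fun ω => f ω * G ω) g (hf.mul (hG.mono hCA le_rfl)) hg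
    (fun ω => abs_mul_le_one (hfb ω) (hGb ω)) hgb
  unfold defect at h1
  have hf0 : Measurable[m0] f := hf.mono hA le_rfl
  have hfi : Integrable f P := int_of_bdd hf0.aestronglyMeasurable hfb
  have hfG : Integrable (f * G) P :=
    int_of_bdd (hf0.mul (hG.mono hC le_rfl)).aestronglyMeasurable
      (fun ω => abs_mul_le_one (hfb ω) (hGb ω))
  have e1 := condExp_mul_of_stronglyMeasurable_right (μ := P) (m := 𝒞) (f := f) (g := G)
    hG.stronglyMeasurable hfG hfi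
  have e2 : ∫ ω, (P[fun ω => f ω * G ω|𝒞]) ω * (P[g|𝒞]) ω ∂P = Prd P 𝒞 f g G := by
    unfold Prd
    refine integral_congr_ae ?_
    filter_upwards [e1, ce_ae (P := P) (m := 𝒞) hfb, ce_ae (P := P) (m := 𝒞) hgb] with ω a1 a2 a3
    have a4 : (P[fun ω => f ω * G ω|𝒞]) ω = (P[f|𝒞]) ω * G ω := a1
    rw [a4, a2, a3]; ring
  have e3 : ∀ ω, (fun ω => f ω * G ω) ω * g ω = f ω * g ω * G ω := fun ω => by simp only; ring
  simp only [e3] at h1
  rw [e2] at h1
  exact h1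

/-- data of the limit `η → 0` -/
structure Setup (P : ℕ → Measure Ω) (P' : Measure Ω) (Q : Measure B) (x : Ω → B)
    (zz : I → Ω → ℝ) (K : ℕ → B → I → I → ℝ) (K' : B → I → I → ℝ)
    {ι : Type} (e : ι → I) : Prop where
  hP : ∀ n, IsProbabilityMeasure (P n)
  hP' : IsProbabilityMeasure P'
  hQ : IsProbabilityMeasure Q
  hx : Measurable x
  hz : ∀ i, Measurable (zz i)
  hK : ∀ n i j, Measurable fun y => K n y i j
  hK' : ∀ i j, Measurable fun y => K' y i j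
  law : ∀ n (κ : Type) [Fintype κ] (j : κ → I),
    GLaw (P n) Q x (fun ω k => zz (j k) ω) (Kmat (K n) j)
  law' : ∀ (κ : Type) [Fintype κ] (j : κ → I),
    GLaw P' Q x (fun ω k => zz (j k) ω) (Kmat K' j)
  psd : ∀ n (κ : Type) [Fintype κ] (j : κ → I), ∀ᵐ y ∂Q, (Kmat (K n) j y).PosSemidef
  psd' : ∀ (κ : Type) [Fintype κ] (j : κ → I), ∀ᵐ y ∂Q, (Kmat K' j y).PosSemidef
  pd : ∀ n, ∀ᵐ y ∂Q, (Kmat (K n) e y).PosDef
  pd' : ∀ᵐ y ∂Q, (Kmat K' e y).PosDef
  lim : ∀ᵐ y ∂Q, ∀ i j, Tendsto (fun n => K n y i j) atTop (𝓝 (K' y i j))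

variable {P : ℕ → Measure Ω} {P' : Measure Ω} {Q : Measure B} {x : Ω → B}
    {zz : I → Ω → ℝ} {K : ℕ → B → I → I → ℝ} {K' : B → I → I → ℝ}
    {ι : Type} {e : ι → I}

/-- modified covariance -/
def Smod {κ : Type} [DecidableEq κ] (N : Set B) [DecidablePred (· ∈ N)] (K : B → I → I → ℝ)
    (j : κ → I) (y : B) : Matrix κ κ ℝ := if y ∈ N then 1 else Kmat K j y

lemma adm_Smod {ρ : Type} [Fintype ι] [Fintype ρ] [DecidableEq ι] [DecidableEq ρ] {N : Set B}
    [DecidablePred (· ∈ N)] (hN : MeasurableSet N) {K : B → I → I → ℝ}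
    (hK : ∀ i j, Measurable fun y => K y i j) (j : ι ⊕ ρ → I)
    (h1 : ∀ y, y ∉ N → (Kmat K j y).PosSemidef)
    (h2 : ∀ y, y ∉ N → (Kmat K (j ∘ Sum.inl) y).PosDef) : Adm (Smod N K j) := by
  refine ⟨?_, ?_, ?_⟩
  · intro k l
    have : (fun y => Smod N K j y k l) =
        fun y => if y ∈ N then (1 : Matrix (ι ⊕ ρ) (ι ⊕ ρ) ℝ) k l else K y (j k) (j l) := by
      ext y
      unfold Smod
      split_ifs <;> rfl
    rw [this]
    exact Measurable.ite hN measurable_const (hK _ _)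
  · intro y
    unfold Smod
    split_ifs with h
    · exact Matrix.PosSemidef.one
    · exact h1 y h
  · intro y
    unfold Smod
    split_ifs with h
    · have : (1 : Matrix (ι ⊕ ρ) (ι ⊕ ρ) ℝ).toBlocks₁₁ = 1 := by
        ext a b
        simp [toBlocks₁₁, Matrix.one_apply]
      rw [this]
      exact Matrix.PosDef.one
    · exact h2 y h

/-- values -/
def Yv (x : Ω → B) (zz : I → Ω → ℝ) (xx : I → B → ℝ) (c0 : ℝ) (i : I) (ω : Ω) : ℝ :=
  xx i (x ω) + c0 * zz i ω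

variable [Fintype ι] [DecidableEq ι]

/-- exact conditional independence for cosines of finite windows -/
theorem Setup.window (L : Setup P P' Q x zz K K' e) {xx : I → B → ℝ}
    (hxx : ∀ i, Measurable (xx i)) (c0 : ℝ) {𝒞 : MeasurableSpace Ω}
    (hC : 𝒞 ≤ MeasurableSpace.comap (fun ω => (x ω, fun i => zz (e i) ω)) inferInstance)
    (tA tB : Finset I) {δ : ℕ → ℝ} (hδ : Tendsto δ atTop (𝓝 0))
    (hCI : ∀ n, ApproxCI (P n)
      (𝒞 ⊔ ⨆ i ∈ (tA : Set I), MeasurableSpace.comap (Yv x zz xx c0 i) inferInstance)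
      (𝒞 ⊔ ⨆ i ∈ (tB : Set I), MeasurableSpace.comap (Yv x zz xx c0 i) inferInstance) 𝒞 (δ n))
    (α : tA → ℝ) (θ : ℝ) (β : tB → ℝ) (θ' : ℝ) :
    CIint P' 𝒞 (fun ω => Real.cos (θ + α ⬝ᵥ fun i : tA => Yv x zz xx c0 i.1 ω))
      (fun ω => Real.cos (θ' + β ⬝ᵥ fun i : tB => Yv x zz xx c0 i.1 ω)) := by
  classical
  have := L.hQ
  set j : ι ⊕ (tA ⊕ tB) → I := Sum.elim e (Sum.elim Subtype.val Subtype.val) with hj
  set z : Ω → ι ⊕ (tA ⊕ tB) → ℝ := fun ω k => zz (j k) ω with hz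
  have hzm : Measurable[m0] z := @measurable_pi_lambda Ω (ι ⊕ (tA ⊕ tB)) (fun _ => ℝ) m0 _ _
    (fun k => L.hz (j k))
  -- good set
  have hgood : ∀ᵐ y ∂Q, (∀ n, (Kmat (K n) j y).PosSemidef ∧ (Kmat (K n) e y).PosDef) ∧
      (Kmat K' j y).PosSemidef ∧ (Kmat K' e y).PosDef := by
    filter_upwards [ae_all_iff.2 fun n => L.psd n _ j, ae_all_iff.2 fun n => L.pd n,
      L.psd' _ j, L.pd'] with y a1 a2 a3 a4
    exact ⟨fun n => ⟨a1 n, a2 n⟩, a3, a4⟩
  obtain ⟨N, hNs, hNm, hN0⟩ := exists_measurable_superset_of_null (ae_iff.1 hgood)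
  have hout : ∀ y, y ∉ N → (∀ n, (Kmat (K n) j y).PosSemidef ∧ (Kmat (K n) e y).PosDef) ∧
      (Kmat K' j y).PosSemidef ∧ (Kmat K' e y).PosDef := by
    intro y hy
    by_contra hc
    exact hy (hNs hc)
  have hNae : ∀ᵐ y ∂Q, y ∉ N := measure_eq_zero_iff_ae_notMem.1 hN0
  have hje : j ∘ Sum.inl = e := rfl
  have LS : LimSetup P P' Q x z (fun n => Smod N (K n) j) (Smod N K' j) := by
    refine ⟨L.hP, L.hP', L.hx, hzm, fun n => ?_, ?_, fun n => ?_, ?_, ?_⟩
    · exact adm_Smod hNm (L.hK n) j (fun y hy => ((hout y hy).1 n).1)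
        (fun y hy => by rw [hje]; exact ((hout y hy).1 n).2)
    · exact adm_Smod hNm L.hK' j (fun y hy => (hout y hy).2.1)
        (fun y hy => by rw [hje]; exact (hout y hy).2.2)
    · refine (L.law n _ j).congr ?_
      filter_upwards [hNae] with y hy
      simp [Smod, hy]
    · refine (L.law' _ j).congr ?_
      filter_upwards [hNae] with y hy
      simp [Smod, hy]
    · filter_upwards [hNae, L.lim] with y hy hl
      intro a b
      simp only [Smod, hy, if_false]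
      exact hl _ _
  -- test functions
  set a : tA ⊕ tB → ℝ := Sum.elim (c0 • α) 0 with ha
  set b : tA ⊕ tB → ℝ := Sum.elim 0 (c0 • β) with hb
  set φ : B × (ι → ℝ) → ℝ := fun p => θ + α ⬝ᵥ fun i : tA => xx i.1 p.1 with hφ
  set ψ : B × (ι → ℝ) → ℝ := fun p => θ' + β ⬝ᵥ fun i : tB => xx i.1 p.1 with hψ
  have hφm : Measurable φ := by
    refine measurable_const.add ?_
    simp only [dotProduct]
    exact Finset.measurable_sum _ fun i _ => ((hxx i.1).comp measurable_fst).const_mul _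
  have hψm : Measurable ψ := by
    refine measurable_const.add ?_
    simp only [dotProduct]
    exact Finset.measurable_sum _ fun i _ => ((hxx i.1).comp measurable_fst).const_mul _
  have eA : (fun ω => Real.cos (θ + α ⬝ᵥ fun i : tA => Yv x zz xx c0 i.1 ω)) = Fc x z φ a := by
    ext ω
    unfold Fc
    congr 1
    simp only [hφ, ha, dot_elim, zero_dotProduct, add_zero, smul_dotProduct, smul_eq_mul]
    rw [add_assoc]
    congr 1
    simp only [hz, hj, Yv, vR, vL, dotProduct, Sum.elim_inl, Sum.elim_inr, Finset.mul_sum]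
    rw [← Finset.sum_add_distrib]
    exact Finset.sum_congr rfl fun i _ => by ring
  have eB : (fun ω => Real.cos (θ' + β ⬝ᵥ fun i : tB => Yv x zz xx c0 i.1 ω)) = Fc x z ψ b := by
    ext ω
    unfold Fc
    congr 1
    simp only [hψ, hb, dot_elim, zero_dotProduct, zero_add, smul_dotProduct, smul_eq_mul]
    rw [add_assoc]
    congr 1
    simp only [hz, hj, Yv, vR, vL, dotProduct, Sum.elim_inl, Sum.elim_inr, Finset.mul_sum]
    rw [← Finset.sum_add_distrib]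
    exact Finset.sum_congr rfl fun i _ => by ring
  rw [eA, eB]
  intro G hG hGb
  have hD : 𝒞 ≤ DD x z := hC
  have hDm := DD_le L.hx hzm
  have hYm : ∀ i, Measurable[m0] (Yv x zz xx c0 i) := fun i =>
    ((hxx i).comp L.hx).add ((L.hz i).const_mul c0)
  have hAle : ∀ t : Finset I, (𝒞 ⊔ ⨆ i ∈ (t : Set I),
      MeasurableSpace.comap (Yv x zz xx c0 i) inferInstance) ≤ m0 := fun t =>
    sup_le (hD.trans hDm) (iSup₂_le fun i _ => (hYm i).comap_le)
  refine LS.exact hφm hψm a b hD hG hGb hδ (fun n => ?_)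
  have := L.hP n
  have mA : ∀ (t : Finset I) (γ : t → ℝ) (τ : ℝ), Measurable[𝒞 ⊔ ⨆ i ∈ (t : Set I),
      MeasurableSpace.comap (Yv x zz xx c0 i) inferInstance]
      (fun ω => Real.cos (τ + γ ⬝ᵥ fun i : t => Yv x zz xx c0 i.1 ω)) := by
    intro t γ τ
    have h1 : ∀ i : t, Measurable[𝒞 ⊔ ⨆ i ∈ (t : Set I),
      MeasurableSpace.comap (Yv x zz xx c0 i) inferInstance] (Yv x zz xx c0 i.1) := by
      intro i
      have h2 : MeasurableSpace.comap (Yv x zz xx c0 i.1) inferInstance ≤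
          ⨆ i ∈ (t : Set I), MeasurableSpace.comap (Yv x zz xx c0 i) inferInstance :=
        le_iSup₂_of_le i.1 i.2 le_rfl
      exact (comap_measurable _).mono (h2.trans le_sup_right) le_rfl
    refine Real.measurable_cos.comp (measurable_const.add ?_)
    simp only [dotProduct]
    exact Finset.measurable_sum _ fun i _ => (h1 i).const_mul _
  refine approx_weight (hAle tA) (hAle tB) le_sup_left (hCI n) ?_ ?_ hG abs_Fc_le abs_Fc_le hGb
  · rw [← eA]; exact mA tA α θ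
  · rw [← eB]; exact mA tB β θ'

/-- **Edge Markov property in the limit.** -/
theorem markov_limit (L : Setup P P' Q x zz K K' e) {xx : I → B → ℝ}
    (hxx : ∀ i, Measurable (xx i)) (c0 : ℝ) {𝒞 : MeasurableSpace Ω}
    (hC : 𝒞 ≤ MeasurableSpace.comap (fun ω => (x ω, fun i => zz (e i) ω)) inferInstance)
    (IA IB : Set I)
    (hCI : ∀ (tA tB : Finset I), (tA : Set I) ⊆ IA → (tB : Set I) ⊆ IB →
      ∃ δ : ℕ → ℝ, Tendsto δ atTop (𝓝 0) ∧ ∀ n, ApproxCI (P n)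
      (𝒞 ⊔ ⨆ i ∈ (tA : Set I), MeasurableSpace.comap (Yv x zz xx c0 i) inferInstance)
      (𝒞 ⊔ ⨆ i ∈ (tB : Set I), MeasurableSpace.comap (Yv x zz xx c0 i) inferInstance) 𝒞 (δ n))
    {F G : Ω → ℝ}
    (hF : Measurable[⨆ i ∈ IA, MeasurableSpace.comap (Yv x zz xx c0 i) inferInstance] F)
    (hG : Measurable[⨆ i ∈ IB, MeasurableSpace.comap (Yv x zz xx c0 i) inferInstance] G)
    (hFb : ∃ C, ∀ ω, |F ω| ≤ C) (hGb : ∃ C, ∀ ω, |G ω| ≤ C) :
    P'[fun ω => F ω * G ω|𝒞] =ᵐ[P'] fun ω => (P'[F|𝒞]) ω * (P'[G|𝒞]) ω := by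
  classical
  have := L.hP'
  have hzm : Measurable[m0] fun ω => (fun i => zz (e i) ω : ι → ℝ) :=
    @measurable_pi_lambda Ω ι (fun _ => ℝ) m0 _ _ (fun k => L.hz (e k))
  have hC0 : 𝒞 ≤ m0 := hC.trans (L.hx.prodMk hzm).comap_le
  have hYm : ∀ i, Measurable[m0] (Yv x zz xx c0 i) := fun i =>
    ((hxx i).comp L.hx).add ((L.hz i).const_mul c0)
  have hAle : ∀ J : Set I, (⨆ i ∈ J,
      MeasurableSpace.comap (Yv x zz xx c0 i) inferInstance) ≤ m0 := fun t =>
    iSup₂_le fun i _ => (hYm i).comap_le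
  -- product property for functions bounded by one
  have key : ∀ F G : Ω → ℝ,
      Measurable[⨆ i ∈ IA, MeasurableSpace.comap (Yv x zz xx c0 i) inferInstance] F →
      Measurable[⨆ i ∈ IB, MeasurableSpace.comap (Yv x zz xx c0 i) inferInstance] G →
      (∀ ω, |F ω| ≤ 1) → (∀ ω, |G ω| ≤ 1) → CIint P' 𝒞 F G := by
    intro F G hF hG hFb hGb
    have hG0 : Measurable[m0] G := hG.mono (hAle IB) le_rfl
    refine ext2 hC0 hYm IA hG0 hGb ?_ hF hFb
    intro tA htA α θ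
    -- now exchange the roles
    have hcA : Measurable[m0] (fun ω => Real.cos (θ + α ⬝ᵥ fun i : tA => Yv x zz xx c0 i.1 ω)) :=
      Real.measurable_cos.comp (measurable_const.add (meas_dotU (meas_fam hYm tA) α))
    refine CIint.symm ?_
    refine ext2 hC0 hYm IB hcA (fun ω => Real.abs_cos_le_one _) ?_ hG hGb
    intro tB htB β θ'
    refine CIint.symm ?_
    obtain ⟨δ, hδ, h⟩ := hCI tA tB htA htB
    exact L.window hxx c0 hC tA tB hδ h α θ β θ'
  obtain ⟨C, hCb⟩ := hFb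
  obtain ⟨D, hDb⟩ := hGb
  have hC1 : 0 < max C 1 := lt_max_of_lt_right one_pos
  have hD1 : 0 < max D 1 := lt_max_of_lt_right one_pos
  refine condExp_mul_of_ciint' hC0 (hF.mono (hAle IA) le_rfl) (hG.mono (hAle IB) le_rfl) hC1 hD1
    (fun ω => (hCb ω).trans (le_max_left _ _)) (fun ω => (hDb ω).trans (le_max_left _ _)) ?_
  refine key _ _ (hF.const_mul _) (hG.const_mul _) (fun ω => ?_) (fun ω => ?_)
  · rw [abs_mul, abs_inv, abs_of_pos hC1, inv_mul_le_one₀ hC1]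
    exact (hCb ω).trans (le_max_left _ _)
  · rw [abs_mul, abs_inv, abs_of_pos hD1, inv_mul_le_one₀ hD1]
    exact (hDb ω).trans (le_max_left _ _)

end fin

end Crest.Agent.R166.Lim793
end
end

-- ▼ part R166/LimF_793

/-!
# Row 166 (helper793), section 40.10, part 7: `markov_limit` on the configuration space.

Base space `Conf d (S1 d k)` (label, `ω`, `X`), process space `Conf d (S2 d k)`, noise coordinates
indexed by `TW d × Fin k`, covariance `Γ w w' ⊗ 1`.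
-/

set_option autoImplicit false
set_option linter.unusedSectionVars false
set_option linter.unusedVariables false
set_option linter.unusedSimpArgs false

noncomputable section

open MeasureTheory ProbabilityTheory Matrix Filter Topology
open scoped ENNReal

namespace Crest.Agent.R166.Lim793

open Lim47 (ApproxCI defect)
open Words955 NoiseLim849

section conf

variable {d k : ℕ} [NeZero d]

/-- noise coordinates -/
def zc (i : TW d × Fin k) (ζ : Conf d (S2 d k)) : ℝ := (ζ i.1).2.2.2 i.2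

/-- `X` coordinates on the base -/
def xc (i : TW d × Fin k) (y : Conf d (S1 d k)) : ℝ := (y i.1).2.2 i.2

/-- covariance `Γ ⊗ 1` -/
def KG (Γ : TW d → TW d → Conf d (S1 d k) → ℝ) (y : Conf d (S1 d k)) (i j : TW d × Fin k) : ℝ :=
  if i.2 = j.2 then Γ i.1 j.1 y else 0

/-- character identity (955's `NLaw.char`, real test functions) -/
def CharForm (P : Measure (Conf d (S1 d k))) (Γ : TW d → TW d → Conf d (S1 d k) → ℝ)
    (Q : Measure (Conf d (S2 d k))) : Prop :=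
  ∀ (B : Finset (TW d)) (τ : B → Fin k → ℝ) (φ : Conf d (S1 d k) → ℝ), Measurable φ →
    (∀ y, |φ y| ≤ 1) →
    ∫ ζ, (φ (pr ζ) : ℂ) * Complex.exp (Complex.I * ((zph B τ ζ : ℝ) : ℂ)) ∂Q =
      ∫ y, (φ y : ℂ) * cch Γ B τ y ∂P

/-- collected coefficients -/
def tauOf {κ : Type} [Fintype κ] (j : κ → TW d × Fin k) (b : κ → ℝ) (w : TW d) (l : Fin k) : ℝ :=
  ∑ m, if j m = (w, l) then b m else 0

/-- words occurring in a family -/
def wordsOf {κ : Type} [Fintype κ] (j : κ → TW d × Fin k) : Finset (TW d) :=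
  Finset.univ.image fun m => (j m).1

lemma sum_tauOf {κ : Type} [Fintype κ] (j : κ → TW d × Fin k) (b : κ → ℝ)
    (f : TW d → Fin k → ℝ) :
    ∑ l, ∑ w : wordsOf j, tauOf j b w.1 l * f w.1 l = ∑ m, b m * f (j m).1 (j m).2 := by
  classical
  have h1 : ∀ l, ∑ w : wordsOf j, tauOf j b w.1 l * f w.1 l =
      ∑ w ∈ wordsOf j, tauOf j b w l * f w l := fun l =>
    Finset.sum_coe_sort (wordsOf j) fun w => tauOf j b w l * f w l
  simp only [h1]
  rw [Finset.sum_comm]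
  simp only [tauOf, Finset.sum_mul]
  rw [Finset.sum_congr rfl fun w _ => Finset.sum_comm, Finset.sum_comm]
  refine Finset.sum_congr rfl fun m _ => ?_
  rw [Finset.sum_eq_single (j m).1]
  · rw [Finset.sum_eq_single (j m).2]
    · simp
    · intro l _ hl
      rw [if_neg, zero_mul]
      intro h
      exact hl (by rw [h])
    · simp
  · intro w _ hw
    refine Finset.sum_eq_zero fun l _ => ?_
    rw [if_neg, zero_mul]
    intro h
    exact hw (by rw [h])
  · intro h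
    exact absurd (Finset.mem_image_of_mem _ (Finset.mem_univ m)) h

lemma zph_tauOf {κ : Type} [Fintype κ] (j : κ → TW d × Fin k) (b : κ → ℝ)
    (ζ : Conf d (S2 d k)) :
    zph (wordsOf j) (fun w l => tauOf j b w.1 l) ζ = b ⬝ᵥ fun m => zc (j m) ζ := by
  unfold zph
  rw [sum_tauOf j b fun w l => (ζ w).2.2.2 l]
  rfl

lemma Qf_tauOf {κ : Type} [Fintype κ] (j : κ → TW d × Fin k) (b : κ → ℝ)
    (Γ : TW d → TW d → Conf d (S1 d k) → ℝ) (y : Conf d (S1 d k)) :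
    Qf (fun (w : wordsOf j) l => tauOf j b w.1 l) (gam Γ (wordsOf j) y) =
      b ⬝ᵥ Kmat (KG Γ) j y *ᵥ b := by
  classical
  unfold Qf gam
  have h1 : ∀ l, ∑ w : wordsOf j, ∑ w' : wordsOf j,
      tauOf j b w.1 l * Γ w.1 w'.1 y * tauOf j b w'.1 l =
      ∑ w : wordsOf j, tauOf j b w.1 l *
        (fun (w : TW d) (l : Fin k) => ∑ w' : wordsOf j, Γ w w'.1 y * tauOf j b w'.1 l) w.1 l := by
    intro l
    refine Finset.sum_congr rfl fun w _ => ?_
    simp only [Finset.mul_sum]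
    exact Finset.sum_congr rfl fun w' _ => by ring
  simp only [h1]
  rw [sum_tauOf j b (fun (w : TW d) (l : Fin k) => ∑ w' : wordsOf j, Γ w w'.1 y * tauOf j b w'.1 l)]
  simp only [dotProduct, Matrix.mulVec, Kmat, Matrix.of_apply]
  refine Finset.sum_congr rfl fun m _ => ?_
  congr 1
  have h2 : ∑ w' : wordsOf j, Γ (j m).1 w'.1 y * tauOf j b w'.1 (j m).2 =
      ∑ l, ∑ w' : wordsOf j, tauOf j b w'.1 l *
        (fun (w' : TW d) (l : Fin k) => if (j m).2 = l then Γ (j m).1 w' y else 0) w'.1 l := by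
    rw [Finset.sum_eq_single (j m).2]
    · refine Finset.sum_congr rfl fun w' _ => ?_
      simp [mul_comm]
    · intro l _ hl
      refine Finset.sum_eq_zero fun w' _ => ?_
      simp only
      rw [if_neg (Ne.symm hl), mul_zero]
    · simp
  rw [h2, sum_tauOf j b (fun (w' : TW d) (l : Fin k) => if (j m).2 = l then Γ (j m).1 w' y else 0)]
  refine Finset.sum_congr rfl fun m' _ => ?_
  unfold KG
  rw [mul_comm]

theorem CharForm.glaw {P : Measure (Conf d (S1 d k))} {Γ : TW d → TW d → Conf d (S1 d k) → ℝ}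
    {Q : Measure (Conf d (S2 d k))} (h : CharForm P Γ Q) {κ : Type} [Fintype κ]
    (j : κ → TW d × Fin k) : GLaw Q P pr (fun ζ m => zc (j m) ζ) (Kmat (KG Γ) j) := by
  intro g hg hgb b
  have h1 := h (wordsOf j) (fun w l => tauOf j b w.1 l) g hg hgb
  simp only [zph_tauOf, cch, Qf_tauOf] at h1
  rw [← h1]
  refine integral_congr_ae (Eventually.of_forall fun ζ => ?_)
  simp only
  rw [mul_comm Complex.I]

/-- symmetric and positive semidefinite kernel -/
def SPSD (G : TW d → TW d → ℝ) : Prop :=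
  (∀ w w', G w w' = G w' w) ∧
    ∀ (B : Finset (TW d)) (c : B → ℝ), 0 ≤ ∑ b, ∑ b', c b * G b.1 b'.1 * c b'

lemma psd_Kmat {Γ : TW d → TW d → Conf d (S1 d k) → ℝ} {y : Conf d (S1 d k)}
    (h : SPSD fun w w' => Γ w w' y) {κ : Type} [Fintype κ] (j : κ → TW d × Fin k) :
    (Kmat (KG Γ) j y).PosSemidef := by
  refine Matrix.PosSemidef.of_dotProduct_mulVec_nonneg ?_ fun b => ?_
  · ext a c
    simp only [Matrix.conjTranspose_apply, Kmat, Matrix.of_apply, star_trivial, KG]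
    have hs : Γ (j c).1 (j a).1 y = Γ (j a).1 (j c).1 y := h.1 (j c).1 (j a).1
    by_cases hl : (j a).2 = (j c).2
    · rw [if_pos hl, if_pos hl.symm, hs]
    · rw [if_neg hl, if_neg (Ne.symm hl)]
  · rw [star_trivial, ← Qf_tauOf]
    exact Qf_nonneg _ (h.2 _)

/-- the edge family -/
def eI {α : Type} (e0 : α → TW d) (p : α × Fin k) : TW d × Fin k := (e0 p.1, p.2)

lemma pd_Kmat {α : Type} [Fintype α] {Γ : TW d → TW d → Conf d (S1 d k) → ℝ}
    {y : Conf d (S1 d k)} (hs : ∀ w w', Γ w w' y = Γ w' w y) {e0 : α → TW d}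
    (h : (Matrix.of fun a a' => Γ (e0 a) (e0 a') y : Matrix α α ℝ).PosDef) :
    (Kmat (KG Γ) (eI (k := k) e0) y).PosDef := by
  classical
  refine Matrix.PosDef.of_dotProduct_mulVec_pos ?_ fun b hb => ?_
  · ext a c
    have hss : Γ (e0 c.1) (e0 a.1) y = Γ (e0 a.1) (e0 c.1) y := hs (e0 c.1) (e0 a.1)
    simp only [Matrix.conjTranspose_apply, Kmat, Matrix.of_apply, star_trivial]
    unfold KG
    by_cases hl : a.2 = c.2
    · rw [if_pos (show (eI (k := k) e0 a).2 = (eI (k := k) e0 c).2 from hl),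
        if_pos (show (eI (k := k) e0 c).2 = (eI (k := k) e0 a).2 from hl.symm)]
      exact hss
    · rw [if_neg (show ¬ (eI (k := k) e0 a).2 = (eI (k := k) e0 c).2 from hl),
        if_neg (show ¬ (eI (k := k) e0 c).2 = (eI (k := k) e0 a).2 from fun h => hl h.symm)]
  · rw [star_trivial]
    have e : b ⬝ᵥ Kmat (KG Γ) (eI (k := k) e0) y *ᵥ b =
        ∑ l, (fun a => b (a, l)) ⬝ᵥ (Matrix.of fun a a' => Γ (e0 a) (e0 a') y : Matrix α α ℝ) *ᵥ
          (fun a => b (a, l)) := by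
      simp only [dotProduct, Matrix.mulVec, Kmat, Matrix.of_apply, KG, eI, Fintype.sum_prod_type]
      rw [Finset.sum_comm]
      refine Finset.sum_congr rfl fun l _ => Finset.sum_congr rfl fun a _ => ?_
      congr 1
      refine Finset.sum_congr rfl fun a' _ => ?_
      rw [Finset.sum_eq_single l]
      · simp
      · intro l' _ hl
        simp [Ne.symm hl]
      · simp
    rw [e]
    have hnn : ∀ l, 0 ≤ (fun a => b (a, l)) ⬝ᵥ
        (Matrix.of fun a a' => Γ (e0 a) (e0 a') y : Matrix α α ℝ) *ᵥ (fun a => b (a, l)) := by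
      intro l
      have := h.posSemidef.dotProduct_mulVec_nonneg (fun a => b (a, l))
      simpa using this
    obtain ⟨⟨a0, l0⟩, h0⟩ := Function.ne_iff.1 hb
    have hl0 : (fun a => b (a, l0)) ≠ 0 := by
      intro hc
      exact h0 (congrFun hc a0)
    have hpos : 0 < (fun a => b (a, l0)) ⬝ᵥ
        (Matrix.of fun a a' => Γ (e0 a) (e0 a') y : Matrix α α ℝ) *ᵥ (fun a => b (a, l0)) := by
      have := h.dotProduct_mulVec_pos hl0
      simpa using this
    exact Finset.sum_pos' (fun l _ => hnn l) ⟨l0, Finset.mem_univ _, hpos⟩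

/-- `Y = X + √t Z` at the word `w` -/
def Yw (t : ℝ) (w : TW d) (ζ : Conf d (S2 d k)) : Fin k → ℝ :=
  fun l => (ζ w).2.2.1 l + Real.sqrt t * (ζ w).2.2.2 l

lemma comap_Yw (t : ℝ) (w : TW d) :
    MeasurableSpace.comap (Yw t w : Conf d (S2 d k) → Fin k → ℝ) inferInstance =
      ⨆ l, MeasurableSpace.comap (Yv pr zc xc (Real.sqrt t) (w, l)) inferInstance := by
  have h1 : (inferInstance : MeasurableSpace (Fin k → ℝ)) =
      ⨆ l, MeasurableSpace.comap (fun v : Fin k → ℝ => v l) inferInstance := rfl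
  rw [h1, MeasurableSpace.comap_iSup]
  refine iSup_congr fun l => ?_
  rw [MeasurableSpace.comap_comp]
  rfl

lemma iSup_Yw (t : ℝ) (A : Set (TW d)) :
    (⨆ w ∈ A, MeasurableSpace.comap (Yw t w : Conf d (S2 d k) → Fin k → ℝ) inferInstance) =
      ⨆ i ∈ (A ×ˢ (Set.univ : Set (Fin k))),
        MeasurableSpace.comap (Yv pr zc xc (Real.sqrt t) i) inferInstance := by
  simp only [comap_Yw]
  apply le_antisymm
  · refine iSup₂_le fun w hw => iSup_le fun l => ?_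
    exact le_iSup₂_of_le (w, l) ⟨hw, Set.mem_univ _⟩ le_rfl
  · refine iSup₂_le fun i hi => ?_
    exact le_iSup₂_of_le i.1 hi.1 (le_iSup_of_le i.2 le_rfl)

theorem measurable_pr' : Measurable (pr : Conf d (S2 d k) → Conf d (S1 d k)) := by
  refine measurable_pi_lambda _ fun w => ?_
  have h := measurable_pi_apply (X := fun _ : TW d => S2 d k) w
  exact (h.fst).prodMk ((h.snd.fst).prodMk h.snd.snd.fst)

theorem measurable_zc (i : TW d × Fin k) : Measurable (zc i : Conf d (S2 d k) → ℝ) := by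
  have h := measurable_pi_apply (X := fun _ : TW d => S2 d k) i.1
  exact (measurable_pi_apply i.2).comp h.snd.snd.snd

theorem measurable_xc (i : TW d × Fin k) : Measurable (xc i : Conf d (S1 d k) → ℝ) := by
  have h := measurable_pi_apply (X := fun _ : TW d => S1 d k) i.1
  exact (measurable_pi_apply i.2).comp h.snd.snd

/-- data on the configuration space -/
structure ConfSetup (P : Measure (Conf d (S1 d k))) (Qn : ℕ → Measure (Conf d (S2 d k)))
    (Q0 : Measure (Conf d (S2 d k))) (Γn : ℕ → TW d → TW d → Conf d (S1 d k) → ℝ)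
    (Γ0 : TW d → TW d → Conf d (S1 d k) → ℝ) {α : Type} (e0 : α → TW d) : Prop where
  hP : IsProbabilityMeasure P
  hQn : ∀ n, IsProbabilityMeasure (Qn n)
  hQ0 : IsProbabilityMeasure Q0
  mn : ∀ n w w', Measurable (Γn n w w')
  m0 : ∀ w w', Measurable (Γ0 w w')
  charn : ∀ n, CharForm P (Γn n) (Qn n)
  char0 : CharForm P Γ0 Q0
  psdn : ∀ n, ∀ᵐ y ∂P, SPSD fun w w' => Γn n w w' y
  psd0 : ∀ᵐ y ∂P, SPSD fun w w' => Γ0 w w' y
  pdn : ∀ n, ∀ᵐ y ∂P, (Matrix.of fun a a' => Γn n (e0 a) (e0 a') y : Matrix α α ℝ).PosDef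
  pd0 : ∀ᵐ y ∂P, (Matrix.of fun a a' => Γ0 (e0 a) (e0 a') y : Matrix α α ℝ).PosDef
  lim : ∀ᵐ y ∂P, ∀ w w', Tendsto (fun n => Γn n w w' y) atTop (𝓝 (Γ0 w w' y))

theorem ConfSetup.setup {P : Measure (Conf d (S1 d k))} {Qn : ℕ → Measure (Conf d (S2 d k))}
    {Q0 : Measure (Conf d (S2 d k))} {Γn : ℕ → TW d → TW d → Conf d (S1 d k) → ℝ}
    {Γ0 : TW d → TW d → Conf d (S1 d k) → ℝ} {α : Type} [Fintype α] {e0 : α → TW d}
    (L : ConfSetup P Qn Q0 Γn Γ0 e0) :
    Setup Qn Q0 P pr zc (fun n => KG (Γn n)) (KG Γ0) (eI (k := k) e0) where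
  hP := L.hQn
  hP' := L.hQ0
  hQ := L.hP
  hx := measurable_pr'
  hz := measurable_zc
  hK := fun n i j => by
    unfold KG
    split_ifs
    · exact L.mn n _ _
    · exact measurable_const
  hK' := fun i j => by
    unfold KG
    split_ifs
    · exact L.m0 _ _
    · exact measurable_const
  law := fun n κ _ j => (L.charn n).glaw j
  law' := fun κ _ j => L.char0.glaw j
  psd := fun n κ _ j => by
    filter_upwards [L.psdn n] with y hy
    exact psd_Kmat hy j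
  psd' := fun κ _ j => by
    filter_upwards [L.psd0] with y hy
    exact psd_Kmat hy j
  pd := fun n => by
    filter_upwards [L.psdn n, L.pdn n] with y hy h2
    exact pd_Kmat hy.1 h2
  pd' := by
    filter_upwards [L.psd0, L.pd0] with y hy h2
    exact pd_Kmat hy.1 h2
  lim := by
    filter_upwards [L.lim] with y hy
    intro i j
    unfold KG
    split_ifs
    · exact hy _ _
    · exact tendsto_const_nhds

/-- **Edge Markov property of the limit process on the configuration space.** -/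
theorem ConfSetup.markov {P : Measure (Conf d (S1 d k))} {Qn : ℕ → Measure (Conf d (S2 d k))}
    {Q0 : Measure (Conf d (S2 d k))} {Γn : ℕ → TW d → TW d → Conf d (S1 d k) → ℝ}
    {Γ0 : TW d → TW d → Conf d (S1 d k) → ℝ} {α : Type} [Fintype α] [DecidableEq α]
    {e0 : α → TW d} (L : ConfSetup P Qn Q0 Γn Γ0 e0) (t : ℝ)
    {Env 𝒞 : MeasurableSpace (Conf d (S2 d k))}
    (hEnv : Env ≤ MeasurableSpace.comap (pr : Conf d (S2 d k) → Conf d (S1 d k)) inferInstance)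
    (hC : 𝒞 = Env ⊔ ⨆ a, MeasurableSpace.comap
      (Yw t (e0 a) : Conf d (S2 d k) → Fin k → ℝ) inferInstance)
    (A B : Set (TW d))
    (hCI : ∀ A' B' : Finset (TW d), (A' : Set (TW d)) ⊆ A → (B' : Set (TW d)) ⊆ B →
      ∃ δ : ℕ → ℝ, Tendsto δ atTop (𝓝 0) ∧ ∀ n, ApproxCI (Qn n)
      (𝒞 ⊔ ⨆ w ∈ (A' : Set (TW d)), MeasurableSpace.comap
        (Yw t w : Conf d (S2 d k) → Fin k → ℝ) inferInstance)
      (𝒞 ⊔ ⨆ w ∈ (B' : Set (TW d)), MeasurableSpace.comap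
        (Yw t w : Conf d (S2 d k) → Fin k → ℝ) inferInstance) 𝒞 (δ n))
    {F G : Conf d (S2 d k) → ℝ}
    (hF : Measurable[⨆ w ∈ A, MeasurableSpace.comap
        (Yw t w : Conf d (S2 d k) → Fin k → ℝ) inferInstance] F)
    (hG : Measurable[⨆ w ∈ B, MeasurableSpace.comap
        (Yw t w : Conf d (S2 d k) → Fin k → ℝ) inferInstance] G)
    (hFb : ∃ C, ∀ ω, |F ω| ≤ C) (hGb : ∃ C, ∀ ω, |G ω| ≤ C) :
    Q0[fun ω => F ω * G ω|𝒞] =ᵐ[Q0] fun ω => (Q0[F|𝒞]) ω * (Q0[G|𝒞]) ω := by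
  classical
  have hpe : 𝒞 ≤ MeasurableSpace.comap
      (fun ω => (pr ω, fun i => zc (eI (k := k) e0 i) ω)) inferInstance := by
    have hm : Measurable[MeasurableSpace.comap
      (fun ω => (pr ω, fun i => zc (eI (k := k) e0 i) ω)) inferInstance]
      (fun ω => (pr ω, fun i => zc (eI (k := k) e0 i) ω)) := comap_measurable _
    rw [hC]
    refine sup_le (hEnv.trans ?_) (iSup_le fun a => ?_)
    · exact (measurable_fst.comp hm).comap_le
    · rw [comap_Yw]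
      refine iSup_le fun l => ?_
      have h1 : Measurable fun p : Conf d (S1 d k) × (α × Fin k → ℝ) =>
          xc (e0 a, l) p.1 + Real.sqrt t * p.2 (a, l) :=
        ((measurable_xc _).comp measurable_fst).add
          (((measurable_pi_apply (a, l)).comp measurable_snd).const_mul _)
      exact (h1.comp hm).comap_le
  refine markov_limit L.setup measurable_xc (Real.sqrt t) hpe (A ×ˢ Set.univ) (B ×ˢ Set.univ)
    ?_ (by rw [← iSup_Yw]; exact hF) (by rw [← iSup_Yw]; exact hG) hFb hGb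
  intro tA tB hA hB
  obtain ⟨δ, hδ, h⟩ := hCI (tA.image Prod.fst) (tB.image Prod.fst)
    (by
      intro w hw
      obtain ⟨i, hi, rfl⟩ := Finset.mem_image.1 hw
      exact (hA hi).1)
    (by
      intro w hw
      obtain ⟨i, hi, rfl⟩ := Finset.mem_image.1 hw
      exact (hB hi).1)
  refine ⟨δ, hδ, fun n => (h n).mono ?_ ?_ le_rfl⟩
  · refine sup_le_sup_left ?_ _
    rw [iSup_Yw]
    refine iSup₂_le fun i hi => ?_
    refine le_iSup₂_of_le i ⟨?_, Set.mem_univ _⟩ le_rfl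
    exact Finset.mem_coe.2 (Finset.mem_image_of_mem _ hi)
  · refine sup_le_sup_left ?_ _
    rw [iSup_Yw]
    refine iSup₂_le fun i hi => ?_
    refine le_iSup₂_of_le i ⟨?_, Set.mem_univ _⟩ le_rfl
    exact Finset.mem_coe.2 (Finset.mem_image_of_mem _ hi)

end conf

end Crest.Agent.R166.Lim793
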