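import Mathlib
import Crest.Agent.R166.ScaleD_355
import Crest.Agent.R166.Seq_980
import Crest.Agent.R166.Emp_974
import Crest.Agent.R166.LimEnv_289

-- ▼ part R166/WeakUI_974
section

/-!
Row 166 (helper974): convergence of integrals of unbounded continuous functions under weak
convergence + uniform integrability along an arbitrary filter.
-/

set_option autoImplicit false

namespace Crest.Agent.R166.WeakUI974

open MeasureTheory Filter Topology BoundedContinuousFunction

variable {E : Type*} [TopologicalSpace E] [MeasurableSpace E] [OpensMeasurableSpace E]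

/-- truncation -/
noncomputable def tr (M x : ℝ) : ℝ := max (-M) (min M x)

lemma tr_abs_le {M : ℝ} (hM : 0 ≤ M) (x : ℝ) : |tr M x| ≤ M := by
  unfold tr
  rw [abs_le]
  constructor
  · exact le_max_left _ _
  · exact max_le (by linarith) (min_le_left _ _)

lemma tr_of_abs_le {M x : ℝ} (h : |x| ≤ M) : tr M x = x := by
  unfold tr
  rw [min_eq_right (abs_le.1 h).2, max_eq_right (abs_le.1 h).1]

lemma abs_sub_tr_le {M : ℝ} (hM : 0 ≤ M) (x : ℝ) :
    |x - tr M x| ≤ if M < |x| then |x| else 0 := by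
  split_ifs with h
  · unfold tr
    rcases le_total 0 x with hx | hx
    · rw [abs_of_nonneg hx] at h ⊢
      rw [min_eq_left h.le, max_eq_right (by linarith)]
      rw [abs_of_nonneg (by linarith)]
      linarith
    · rw [abs_of_nonpos hx] at h ⊢
      rw [min_eq_right (by linarith), max_eq_left (by linarith)]
      rw [abs_of_nonpos (by linarith)]
      linarith
  · rw [tr_of_abs_le (not_lt.1 h), sub_self, abs_zero]

lemma continuous_tr (M : ℝ) : Continuous (tr M) := by
  unfold tr
  fun_prop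

/-- truncated function as a bounded continuous function -/
noncomputable def trB (M : ℝ) (hM : 0 ≤ M) (f : E → ℝ) (hf : Continuous f) : E →ᵇ ℝ :=
  BoundedContinuousFunction.ofNormedAddCommGroup (fun x => tr M (f x))
    ((continuous_tr M).comp hf) M (fun x => by
      rw [Real.norm_eq_abs]
      exact tr_abs_le hM _)

@[simp] lemma trB_apply (M : ℝ) (hM : 0 ≤ M) (f : E → ℝ) (hf : Continuous f) (x : E) :
    trB M hM f hf x = tr M (f x) := rfl

/-- uniform integrability along a filter -/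
def UI {A : Type*} (l : Filter A) (μ : A → ProbabilityMeasure E) (f : E → ℝ) : Prop :=
  (∀ᶠ a in l, Integrable f (μ a : Measure E)) ∧ ∀ ε : ℝ, 0 < ε → ∃ M : ℝ, 0 ≤ M ∧ ∀ᶠ a in l,
    ∫ x, (if M < |f x| then |f x| else 0) ∂(μ a : Measure E) ≤ ε

lemma UI.mono {A : Type*} {l : Filter A} {μ : A → ProbabilityMeasure E} {f g : E → ℝ}
    (hg : UI l μ g) (hf : Continuous f) (hgm : Measurable g) (h : ∀ x, |f x| ≤ |g x|) :
    UI l μ f := by
  refine ⟨?_, fun ε hε => ?_⟩
  · filter_upwards [hg.1] with a ha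
    exact ha.mono hf.measurable.aestronglyMeasurable (Eventually.of_forall fun x => by
      simpa [Real.norm_eq_abs] using h x)
  · obtain ⟨M, hM, h1⟩ := hg.2 ε hε
    refine ⟨M, hM, ?_⟩
    filter_upwards [h1, hg.1] with a ha hi
    refine le_trans (integral_mono_of_nonneg ?_ ?_ ?_) ha
    · exact Eventually.of_forall fun x => by
        simp only [Pi.zero_apply]
        split_ifs <;> positivity
    · have : Integrable (fun x => if M < |g x| then |g x| else 0) (μ a : Measure E) := by
        have hs : MeasurableSet {x | M < |g x|} := measurableSet_lt measurable_const hgm.abs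
        have := (hi.abs).indicator hs
        refine this.congr (Eventually.of_forall fun x => ?_)
        simp only [Set.indicator, Set.mem_setOf_eq]
      exact this
    · refine Eventually.of_forall fun x => ?_
      simp only
      split_ifs with h2 h3 h3
      · exact h x
      · exact absurd (lt_of_lt_of_le h2 (h x)) h3
      · positivity
      · exact le_rfl

lemma UI.const_mul {A : Type*} {l : Filter A} {μ : A → ProbabilityMeasure E} {f : E → ℝ}
    (hf : UI l μ f) {c : ℝ} (hc : 0 < c) : UI l μ (fun x => c * f x) := by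
  refine ⟨hf.1.mono fun a ha => ha.const_mul c, fun ε hε => ?_⟩
  obtain ⟨M, hM, h1⟩ := hf.2 (ε / c) (by positivity)
  refine ⟨c * M, by positivity, ?_⟩
  filter_upwards [h1] with a ha
  have h2 : ∀ x, (if c * M < |c * f x| then |c * f x| else 0)
      = c * (if M < |f x| then |f x| else 0) := by
    intro x
    rw [abs_mul, abs_of_pos hc]
    by_cases h3 : M < |f x|
    · rw [if_pos h3, if_pos (by gcongr)]
    · rw [if_neg h3, if_neg (by
        rw [not_lt] at h3 ⊢
        gcongr), mul_zero]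
  simp only [h2]
  rw [integral_const_mul]
  calc c * ∫ x, (if M < |f x| then |f x| else 0) ∂(μ a : Measure E) ≤ c * (ε / c) := by gcongr
    _ = ε := by field_simp

variable {A : Type*} {l : Filter A} [l.NeBot] {μ : A → ProbabilityMeasure E}
  {P : ProbabilityMeasure E}

lemma tendsto_bcf (h : Tendsto μ l (𝓝 P)) (g : E →ᵇ ℝ) :
    Tendsto (fun a => ∫ x, g x ∂(μ a : Measure E)) l (𝓝 (∫ x, g x ∂(P : Measure E))) :=
  (ProbabilityMeasure.tendsto_iff_forall_integral_tendsto.1 h) g

/-- the tail under the limit law -/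
lemma tail_limit (h : Tendsto μ l (𝓝 P)) {f : E → ℝ} (hf : Continuous f) {M M' ε : ℝ}
    (hM : 0 ≤ M) (hMM : M ≤ M')
    (hint : ∀ᶠ a in l, Integrable f (μ a : Measure E))
    (ht : ∀ᶠ a in l, ∫ x, (if M < |f x| then |f x| else 0) ∂(μ a : Measure E) ≤ ε) :
    ∫ x, (tr M' |f x| - tr M |f x|) ∂(P : Measure E) ≤ ε := by
  have hM' : 0 ≤ M' := hM.trans hMM
  have hfa : Continuous fun x => |f x| := hf.abs
  have h1 := tendsto_bcf h (trB M' hM' _ hfa - trB M hM _ hfa)
  refine le_of_tendsto h1 ?_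
  filter_upwards [ht, hint] with a ha hi
  refine le_trans ?_ ha
  refine integral_mono_of_nonneg ?_ ?_ ?_
  · refine Eventually.of_forall fun x => ?_
    simp only [Pi.zero_apply, BoundedContinuousFunction.coe_sub, Pi.sub_apply, trB_apply, sub_nonneg]
    unfold tr
    have h3 : 0 ≤ |f x| := abs_nonneg _
    have : min M |f x| ≤ min M' |f x| := min_le_min hMM le_rfl
    have h4 : 0 ≤ min M |f x| := le_min hM h3
    rw [max_eq_right (by linarith), max_eq_right (by linarith)]
    exact this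
  · have hs : MeasurableSet {x | M < |f x|} :=
      measurableSet_lt measurable_const hf.measurable.abs
    have := (hi.abs).indicator hs
    refine this.congr (Eventually.of_forall fun x => ?_)
    simp only [Set.indicator, Set.mem_setOf_eq]
  · refine Eventually.of_forall fun x => ?_
    simp only [BoundedContinuousFunction.coe_sub, Pi.sub_apply, trB_apply]
    have h3 : 0 ≤ |f x| := abs_nonneg _
    split_ifs with h2
    · have h4 : tr M' |f x| ≤ |f x| := by
        unfold tr
        exact max_le (by linarith) (min_le_right _ _)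
      have h5 : 0 ≤ tr M |f x| := by
        unfold tr
        exact le_max_of_le_right (le_min hM h3)
      linarith
    · rw [not_lt] at h2
      have h5 : |(|f x|)| ≤ M := by rwa [abs_abs]
      rw [tr_of_abs_le h5, tr_of_abs_le (h5.trans hMM), sub_self]

/-- integrability of the limit -/
theorem integrable_limit (h : Tendsto μ l (𝓝 P)) {f : E → ℝ} (hf : Continuous f)
    (hui : UI l μ f) : Integrable f (P : Measure E) := by
  obtain ⟨M, hM, ht⟩ := hui.2 1 one_pos
  have hfa : Continuous fun x => |f x| := hf.abs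
  have hb : ∀ N : ℕ, ∫ x, tr (M + N) |f x| ∂(P : Measure E) ≤ M + 1 := by
    intro N
    have h1 := tail_limit h hf hM (le_add_of_nonneg_right (Nat.cast_nonneg N) : M ≤ M + N)
      hui.1 ht
    have hi1 : Integrable (fun x => tr (M + N) |f x|) (P : Measure E) :=
      (trB (M + N) (by positivity) _ hfa).integrable _
    have hi2 : Integrable (fun x => tr M |f x|) (P : Measure E) := (trB M hM _ hfa).integrable _
    rw [integral_sub hi1 hi2] at h1
    have h2 : ∫ x, tr M |f x| ∂(P : Measure E) ≤ M := by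
      calc ∫ x, tr M |f x| ∂(P : Measure E) ≤ ∫ _x, M ∂(P : Measure E) :=
            integral_mono hi2 (integrable_const _) fun x => (le_abs_self _).trans (tr_abs_le hM _)
        _ = M := by simp
    linarith
  refine ⟨hf.measurable.aestronglyMeasurable, ?_⟩
  rw [hasFiniteIntegral_iff_norm]
  have hmono : ∫⁻ x, ENNReal.ofReal ‖f x‖ ∂(P : Measure E)
      ≤ ENNReal.ofReal (M + 1) := by
    have h3 : ∀ x, ENNReal.ofReal ‖f x‖ = ⨆ N : ℕ, ENNReal.ofReal (tr (M + N) |f x|) := by
      intro x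
      apply le_antisymm
      · obtain ⟨N, hN⟩ := exists_nat_ge |f x|
        refine le_iSup_of_le N ?_
        rw [Real.norm_eq_abs]
        have : |(|f x|)| ≤ M + N := by rw [abs_abs]; linarith
        rw [tr_of_abs_le this]
      · refine iSup_le fun N => ?_
        rw [Real.norm_eq_abs]
        apply ENNReal.ofReal_le_ofReal
        unfold tr
        have h3 : 0 ≤ |f x| := abs_nonneg _
        exact max_le (by have : (0 : ℝ) ≤ N := Nat.cast_nonneg N
                         linarith) (min_le_right _ _)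
    simp only [h3]
    rw [lintegral_iSup]
    · refine iSup_le fun N => ?_
      rw [← ofReal_integral_eq_lintegral_ofReal]
      · exact ENNReal.ofReal_le_ofReal (hb N)
      · exact (trB (M + N) (by positivity) _ hfa).integrable _
      · refine Eventually.of_forall fun x => ?_
        unfold tr
        exact le_max_of_le_right (le_min (by positivity) (abs_nonneg _))
    · intro N
      exact (((continuous_tr (M + N)).comp hfa).measurable).ennreal_ofReal
    · intro N N' hNN x
      simp only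
      apply ENNReal.ofReal_le_ofReal
      unfold tr
      have h5 : (N : ℝ) ≤ N' := by exact_mod_cast hNN
      have h3 : 0 ≤ |f x| := abs_nonneg _
      have hN0 : (0 : ℝ) ≤ N := Nat.cast_nonneg N
      rw [max_eq_right (by
        have : 0 ≤ min (M + N) |f x| := le_min (by positivity) h3
        linarith), max_eq_right (by
        have : 0 ≤ min (M + N') |f x| := le_min (by linarith) h3
        linarith)]
      exact min_le_min (by linarith) le_rfl
  exact lt_of_le_of_lt hmono ENNReal.ofReal_lt_top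

lemma tail_integral (h : Tendsto μ l (𝓝 P)) {f : E → ℝ} (hf : Continuous f)
    (hui : UI l μ f) {M ε : ℝ} (hM : 0 ≤ M)
    (ht : ∀ᶠ a in l, ∫ x, (if M < |f x| then |f x| else 0) ∂(μ a : Measure E) ≤ ε) :
    ∫ x, |f x - tr M (f x)| ∂(P : Measure E) ≤ ε := by
  have hfi := integrable_limit h hf hui
  have hfa : Continuous fun x => |f x| := hf.abs
  -- `|f - tr M f| = |f| - tr M |f|`
  have e1 : ∀ x, |f x - tr M (f x)| = |f x| - tr M |f x| := by
    intro x
    unfold tr
    rcases le_total 0 (f x) with hx | hx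
    · rw [abs_of_nonneg hx]
      have : 0 ≤ min M (f x) := le_min hM hx
      rw [max_eq_right (by linarith), abs_of_nonneg]
      linarith [min_le_right M (f x)]
    · rw [abs_of_nonpos hx]
      have h1 : 0 ≤ min M (-f x) := le_min hM (by linarith)
      rw [max_eq_right (by linarith : -M ≤ min M (-f x)), min_eq_right (by linarith : f x ≤ M)]
      rcases le_total M (-f x) with h2 | h2
      · rw [min_eq_left h2, max_eq_left (by linarith), abs_of_nonpos (by linarith)]
        ring
      · rw [min_eq_right h2, max_eq_right (by linarith), sub_self, abs_zero]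
        ring
  simp only [e1]
  -- monotone limit of `tr M' |f| - tr M |f|`
  have h2 : Tendsto (fun N : ℕ => ∫ x, (tr (M + N) |f x| - tr M |f x|) ∂(P : Measure E)) atTop
      (𝓝 (∫ x, (|f x| - tr M |f x|) ∂(P : Measure E))) := by
    refine tendsto_integral_of_dominated_convergence (fun x => |f x|) ?_ hfi.abs ?_ ?_
    · intro N
      exact (((continuous_tr _).comp hfa).sub ((continuous_tr _).comp hfa)).aestronglyMeasurable
    · intro N
      refine Eventually.of_forall fun x => ?_
      rw [Real.norm_eq_abs]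
      have h3 : 0 ≤ |f x| := abs_nonneg _
      have hN0 : (0 : ℝ) ≤ N := Nat.cast_nonneg N
      have a1 : 0 ≤ min (M + N) |f x| := le_min (by positivity) h3
      have a2 : 0 ≤ min M |f x| := le_min hM h3
      unfold tr
      rw [max_eq_right (by linarith), max_eq_right (by linarith), abs_le]
      constructor
      · linarith [min_le_min (le_add_of_nonneg_right hN0 : M ≤ M + N) (le_refl |f x|)]
      · linarith [min_le_right (M + N) |f x|]
    · refine Eventually.of_forall fun x => ?_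
      refine Tendsto.sub_const ?_ _
      refine tendsto_const_nhds.congr' ?_
      obtain ⟨N, hN⟩ := exists_nat_ge |f x|
      filter_upwards [eventually_ge_atTop N] with N' hN'
      have h5 : (N : ℝ) ≤ N' := by exact_mod_cast hN'
      rw [tr_of_abs_le (by rw [abs_abs]; linarith)]
  refine le_of_tendsto h2 (Eventually.of_forall fun N => ?_)
  exact tail_limit h hf hM (le_add_of_nonneg_right (Nat.cast_nonneg N) : M ≤ M + N) hui.1 ht

/-- **convergence of the integrals of uniformly integrable continuous functions** -/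
theorem tendsto_integral_of_UI (h : Tendsto μ l (𝓝 P)) {f : E → ℝ} (hf : Continuous f)
    (hui : UI l μ f) :
    Tendsto (fun a => ∫ x, f x ∂(μ a : Measure E)) l (𝓝 (∫ x, f x ∂(P : Measure E))) := by
  have hfi := integrable_limit h hf hui
  rw [Metric.tendsto_nhds]
  intro ε hε
  obtain ⟨M, hM, ht⟩ := hui.2 (ε / 4) (by positivity)
  have h1 := tendsto_bcf h (trB M hM f hf)
  rw [Metric.tendsto_nhds] at h1
  filter_upwards [h1 (ε / 4) (by positivity), ht, hui.1] with a ha hta hia
  rw [Real.dist_eq] at ha ⊢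
  have hiP : Integrable (fun x => tr M (f x)) (P : Measure E) := (trB M hM f hf).integrable _
  have hia2 : Integrable (fun x => tr M (f x)) (μ a : Measure E) := (trB M hM f hf).integrable _
  have e1 : |∫ x, f x ∂(μ a : Measure E) - ∫ x, tr M (f x) ∂(μ a : Measure E)| ≤ ε / 4 := by
    rw [← integral_sub hia hia2]
    refine (abs_integral_le_integral_abs).trans (le_trans ?_ hta)
    refine integral_mono_of_nonneg (Eventually.of_forall fun x => abs_nonneg _) ?_
      (Eventually.of_forall fun x => abs_sub_tr_le hM _)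
    have hs : MeasurableSet {x | M < |f x|} :=
      measurableSet_lt measurable_const hf.measurable.abs
    have := (hia.abs).indicator hs
    refine this.congr (Eventually.of_forall fun x => ?_)
    simp only [Set.indicator, Set.mem_setOf_eq]
  have e2 : |∫ x, f x ∂(P : Measure E) - ∫ x, tr M (f x) ∂(P : Measure E)| ≤ ε / 4 := by
    rw [← integral_sub hfi hiP]
    exact (abs_integral_le_integral_abs).trans (tail_integral h hf hui hM ht)
  have e3 : |∫ x, tr M (f x) ∂(μ a : Measure E) - ∫ x, tr M (f x) ∂(P : Measure E)| < ε / 4 := ha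
  rw [abs_lt] at e3
  rw [abs_le] at e1 e2
  rw [abs_lt]
  constructor <;> linarith [e1.1, e1.2, e2.1, e2.2, e3.1, e3.2]

end Crest.Agent.R166.WeakUI974
end

-- ▼ part R166/FrameB_974
section

/-!
Row 166 (helper974), deterministic facts on the resolvent and approximate eigenvectors.

* `frame_sq_le` : `|F v|² ≤ ((K²+K'²)/K) Im R_vv(E+iK/n)` for near-window vectors.
* `pv H ξ E η v := -iη (R(E+iη) ξ)_v` : `sum_normSq_pv` (`‖p‖² = ∑ ξ Re p`),
  `abs_inner_le` (`|<F,ξ>| ≤ ‖p‖‖F‖ + (1/η)‖ξ‖‖(H-E)F‖`).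
-/

set_option autoImplicit false
set_option linter.unusedSectionVars false

open Matrix Complex

namespace Crest.Agent.R166.FrameB974

open Crest.Agent.R166.Res789 Crest.Agent.R166.ScaleD355

variable {V : Type*} [Fintype V] [DecidableEq V]

/-- `R (H - z) F = F` entrywise -/
lemma apply_eq_sum {H : Matrix V V ℝ} (hH : Hᵀ = H) {z : ℂ} (hz : 0 < z.im) (F : V → ℝ) (v : V) :
    (F v : ℂ) = ∑ y, Res789.Res H z v y * (((H *ᵥ F) y : ℂ) - z * (F y : ℂ)) := by
  have h1 := Res_mul_sub hH hz
  have h2 : (Res789.Res H z * (cx H - z • (1 : Matrix V V ℂ))) *ᵥ (fun y => (F y : ℂ))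
      = fun y => (F y : ℂ) := by rw [h1, Matrix.one_mulVec]
  have h3 := congrFun h2 v
  rw [← h3, ← Matrix.mulVec_mulVec]
  simp only [Matrix.mulVec, dotProduct]
  refine Finset.sum_congr rfl fun y _ => ?_
  congr 1
  simp only [Matrix.sub_apply, sub_mul, Finset.sum_sub_distrib, cx_apply, Matrix.smul_apply,
    Matrix.one_apply, smul_eq_mul]
  push_cast
  congr 1
  simp [Finset.sum_ite_eq]

/-- norm of `(H - z) F` for real `F` -/
lemma normSq_sub (H : Matrix V V ℝ) (E η : ℝ) (F : V → ℝ) (y : V) :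
    ‖((H *ᵥ F) y : ℂ) - (ze E η) * (F y : ℂ)‖ ^ 2
      = ((H *ᵥ F) y - E * F y) ^ 2 + η ^ 2 * (F y) ^ 2 := by
  rw [← Complex.normSq_eq_norm_sq, Complex.normSq_apply]
  simp [ze]
  ring

theorem sq_le_of_near {H : Matrix V V ℝ} (hH : Hᵀ = H) {E η a b : ℝ} (hη : 0 < η) (F : V → ℝ)
    (ha : ∑ y, ((H *ᵥ F) y - E * F y) ^ 2 ≤ a) (hb : ∑ y, (F y) ^ 2 ≤ b) (v : V) :
    (F v) ^ 2 ≤ ((Res H (ze E η)) v v).im / η * (a + η ^ 2 * b) := by
  have hz : 0 < (ze E η).im := by simpa [ze] using hη
  have h1 := apply_eq_sum hH hz F v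
  have h2 : (F v) ^ 2 = ‖(F v : ℂ)‖ ^ 2 := by
    rw [Complex.norm_real, Real.norm_eq_abs, sq_abs]
  have h3 : ‖(F v : ℂ)‖ ≤ Real.sqrt (∑ k, ‖Res789.Res H (ze E η) v k‖ ^ 2) *
      Real.sqrt (∑ y, ‖((H *ᵥ F) y : ℂ) - (ze E η) * (F y : ℂ)‖ ^ 2) := by
    rw [h1]
    refine (norm_sum_le _ _).trans ?_
    simp only [norm_mul]
    exact Real.sum_mul_le_sqrt_mul_sqrt _ _ _
  have hA : 0 ≤ ∑ k, ‖Res789.Res H (ze E η) v k‖ ^ 2 := Finset.sum_nonneg fun _ _ => by positivity
  have hB : 0 ≤ ∑ y, ‖((H *ᵥ F) y : ℂ) - (ze E η) * (F y : ℂ)‖ ^ 2 :=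
    Finset.sum_nonneg fun _ _ => by positivity
  have h4 : ‖(F v : ℂ)‖ ^ 2 ≤ (∑ k, ‖Res789.Res H (ze E η) v k‖ ^ 2) *
      (∑ y, ‖((H *ᵥ F) y : ℂ) - (ze E η) * (F y : ℂ)‖ ^ 2) := by
    calc ‖(F v : ℂ)‖ ^ 2 ≤ (Real.sqrt (∑ k, ‖Res789.Res H (ze E η) v k‖ ^ 2) *
      Real.sqrt (∑ y, ‖((H *ᵥ F) y : ℂ) - (ze E η) * (F y : ℂ)‖ ^ 2)) ^ 2 := by
          gcongr
      _ = _ := by rw [mul_pow, Real.sq_sqrt hA, Real.sq_sqrt hB]
  rw [h2]
  refine h4.trans ?_
  have hzim : (ze E η).im = η := by simp [ze]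
  have h5 := sum_row_sq hH hz v
  rw [hzim] at h5
  rw [h5]
  have h6 : ∑ y, ‖((H *ᵥ F) y : ℂ) - (ze E η) * (F y : ℂ)‖ ^ 2 ≤ a + η ^ 2 * b := by
    simp only [normSq_sub, Finset.sum_add_distrib, ← Finset.mul_sum]
    gcongr
  have h7 : 0 ≤ (Res789.Res H (ze E η) v v).im / η :=
    div_nonneg (im_diag_nonneg hH hz v) hη.le
  exact mul_le_mul_of_nonneg_left h6 h7

/-- pointwise bound of near-window frames -/
theorem frame_sq_le {n k : ℕ} {H : Matrix (Fin n) (Fin n) ℝ} (hH : Hᵀ = H) {E K K' : ℝ}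
    (hK : 0 < K) (hn : 0 < n) {F : Fin k → Fin n → ℝ} (hF : IsFrame H E K' k F) (i : Fin k)
    (v : Fin n) :
    (F i v) ^ 2 ≤ (K ^ 2 + K' ^ 2) / K * ((Res H (zz E K n)) v v).im := by
  have hn' : (0 : ℝ) < n := by exact_mod_cast hn
  have h1 : zz E K n = ze E (K / n) := rfl
  rw [h1]
  have h2 := sq_le_of_near hH (η := K / n) (by positivity) (F i) (hF.2 i)
    (b := n) (by
      have := hF.1 i i
      simp only [if_true] at this
      rw [← this]
      exact le_of_eq (Finset.sum_congr rfl fun v _ => by ring)) v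
  refine h2.trans (le_of_eq ?_)
  field_simp
  ring

/-- `p_v = -iη (R(E+iη) ξ)_v` -/
noncomputable def pv (H : Matrix V V ℝ) (ξ : V → ℝ) (E η : ℝ) (v : V) : ℂ :=
  -(Complex.I * η) * ∑ y, Res H (ze E η) v y * (ξ y : ℂ)

lemma pv_re (H : Matrix V V ℝ) (ξ : V → ℝ) (E η : ℝ) (v : V) :
    (pv H ξ E η v).re = η * ∑ y, (Res H (ze E η) v y).im * ξ y := by
  unfold pv
  rw [neg_mul, Complex.neg_re, mul_assoc, Complex.I_mul_re, Complex.im_ofReal_mul, Complex.im_sum,
    neg_neg]
  congr 1
  refine Finset.sum_congr rfl fun y _ => ?_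
  rw [Complex.im_mul_ofReal]


/-- `‖p‖² = ∑ ξ Re p` -/
theorem sum_normSq_pv {H : Matrix V V ℝ} (hH : Hᵀ = H) {E η : ℝ} (hη : 0 < η) (ξ : V → ℝ) :
    ∑ v, ‖pv H ξ E η v‖ ^ 2 = ∑ v, ξ v * (pv H ξ E η v).re := by
  have hz : 0 < (ze E η).im := by simpa [ze] using hη
  have hzim : (ze E η).im = η := by simp [ze]
  have hw := ward hH hz
  rw [hzim] at hw
  set R := Res789.Res H (ze E η) with hR
  have hRs : ∀ a b, R a b = R b a := fun a b => Res_symm_apply hH hz a b
  -- entrywise Ward identity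
  have hw2 : ∀ a b, ((R a b).im : ℂ) = (η : ℂ) * ∑ v, R v a * star (R v b) := by
    intro a b
    have := congrFun (congrFun hw a) b
    simp only [cx_apply, imM_apply, Matrix.smul_apply, Matrix.mul_apply, smul_eq_mul,
      Matrix.conjTranspose_apply] at this
    rw [this]
    congr 1
    refine Finset.sum_congr rfl fun v _ => ?_
    rw [hRs a v, hRs b v]
  have key : ((∑ v, ‖pv H ξ E η v‖ ^ 2 : ℝ) : ℂ) = ((∑ v, ξ v * (pv H ξ E η v).re : ℝ) : ℂ) := by
    push_cast
    have e1 : ∀ v, ((‖pv H ξ E η v‖ : ℂ)) ^ 2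
        = (η : ℂ) ^ 2 * ∑ a, ∑ b, (ξ a : ℂ) * (ξ b : ℂ) * (R v a * star (R v b)) := by
      intro v
      have : ((‖pv H ξ E η v‖ : ℂ)) ^ 2 = pv H ξ E η v * star (pv H ξ E η v) := by
        rw [Complex.star_def, Complex.mul_conj, Complex.normSq_eq_norm_sq]
        push_cast
        rfl
      rw [this]
      unfold pv
      change (-(I * (η : ℂ)) * ∑ y, R v y * (ξ y : ℂ)) * star (-(I * (η : ℂ)) * ∑ y, R v y * (ξ y : ℂ)) = _
      rw [star_mul', star_sum]
      simp only [star_neg, star_mul', Complex.star_def, Complex.conj_I, Complex.conj_ofReal]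
      have e2 : (-(I * (η : ℂ)) * ∑ y, R v y * (ξ y : ℂ)) * (-(-I * (η : ℂ)) * ∑ y, (starRingEnd ℂ) (R v y) * (ξ y : ℂ))
          = (η : ℂ) ^ 2 * ((∑ y, R v y * (ξ y : ℂ)) * ∑ y, (starRingEnd ℂ) (R v y) * (ξ y : ℂ)) := by
        have hI : I * I = -1 := Complex.I_mul_I
        linear_combination (-(η : ℂ) ^ 2 * (∑ y, R v y * (ξ y : ℂ)) * ∑ y, (starRingEnd ℂ) (R v y) * (ξ y : ℂ)) * hI
      rw [e2, Finset.sum_mul_sum]
      congr 1
      refine Finset.sum_congr rfl fun a _ => Finset.sum_congr rfl fun b _ => ?_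
      ring
    have e3 : ∀ v, ((pv H ξ E η v).re : ℂ) = (η : ℂ) * ∑ y, ((R v y).im : ℂ) * (ξ y : ℂ) := by
      intro v
      rw [pv_re]
      push_cast
      rfl
    simp only [e1, e3]
    rw [← Finset.mul_sum]
    have e4 : ∑ v, ∑ a, ∑ b, (ξ a : ℂ) * (ξ b : ℂ) * (R v a * star (R v b))
        = ∑ a, ∑ b, (ξ a : ℂ) * (ξ b : ℂ) * ∑ v, (R v a * star (R v b)) := by
      rw [Finset.sum_comm]
      refine Finset.sum_congr rfl fun a _ => ?_
      rw [Finset.sum_comm]
      refine Finset.sum_congr rfl fun b _ => ?_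
      rw [Finset.mul_sum]
    rw [e4]
    simp only [Finset.mul_sum]
    refine Finset.sum_congr rfl fun a _ => ?_
    refine Finset.sum_congr rfl fun b _ => ?_
    have := hw2 a b
    rw [this]
    simp only [Finset.mul_sum, Finset.sum_mul]
    refine Finset.sum_congr rfl fun v _ => ?_
    ring
  exact_mod_cast key

/-- testing a near-window vector against `ξ` -/
theorem abs_inner_le {H : Matrix V V ℝ} (hH : Hᵀ = H) {E η a b c : ℝ} (hη : 0 < η)
    (F ξ : V → ℝ) (ha : ∑ y, ((H *ᵥ F) y - E * F y) ^ 2 ≤ a) (hb : ∑ y, (F y) ^ 2 ≤ b)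
    (hc : ∑ y, (ξ y) ^ 2 ≤ c) :
    |∑ v, F v * ξ v| ≤ Real.sqrt (∑ v, ‖pv H ξ E η v‖ ^ 2) * Real.sqrt b +
      (1 / η) * Real.sqrt c * Real.sqrt a := by
  have hz : 0 < (ze E η).im := by simpa [ze] using hη
  have hzim : (ze E η).im = η := by simp [ze]
  set R := Res789.Res H (ze E η) with hR
  have hRs : ∀ a b, R a b = R b a := fun a b => Res_symm_apply hH hz a b
  -- identity
  have e1 : ((∑ v, F v * ξ v : ℝ) : ℂ) = (∑ y, pv H ξ E η y * (F y : ℂ)) +
      ∑ y, (∑ v, R y v * (ξ v : ℂ)) * (((H *ᵥ F) y - E * F y : ℝ) : ℂ) := by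
    push_cast
    have : ∀ v, (F v : ℂ) * (ξ v : ℂ) = ∑ y, R v y * (((H *ᵥ F) y : ℂ) - (ze E η) * (F y : ℂ)) * (ξ v : ℂ) := by
      intro v
      rw [apply_eq_sum hH hz F v, Finset.sum_mul]
    simp only [this]
    rw [Finset.sum_comm, ← Finset.sum_add_distrib]
    refine Finset.sum_congr rfl fun y _ => ?_
    unfold pv
    change _ = -(I * (η : ℂ)) * (∑ v, R y v * (ξ v : ℂ)) * (F y : ℂ) + _
    have e2 : ∑ v, R v y * (((H *ᵥ F) y : ℂ) - (ze E η) * (F y : ℂ)) * (ξ v : ℂ)
        = (∑ v, R y v * (ξ v : ℂ)) * (((H *ᵥ F) y : ℂ) - (ze E η) * (F y : ℂ)) := by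
      rw [Finset.sum_mul]
      refine Finset.sum_congr rfl fun v _ => ?_
      rw [hRs v y]
      ring
    rw [e2]
    unfold ze
    ring
  have h0 : |∑ v, F v * ξ v| = ‖((∑ v, F v * ξ v : ℝ) : ℂ)‖ := by
    rw [Complex.norm_real, Real.norm_eq_abs]
  rw [h0, e1]
  refine (norm_add_le _ _).trans (add_le_add ?_ ?_)
  · refine (norm_sum_le _ _).trans ?_
    simp only [norm_mul]
    refine (Real.sum_mul_le_sqrt_mul_sqrt _ _ _).trans ?_
    refine mul_le_mul_of_nonneg_left (Real.sqrt_le_sqrt ?_) (Real.sqrt_nonneg _)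
    refine le_trans (le_of_eq ?_) hb
    refine Finset.sum_congr rfl fun y _ => ?_
    rw [Complex.norm_real, Real.norm_eq_abs, sq_abs]
  · refine (norm_sum_le _ _).trans ?_
    simp only [norm_mul]
    refine (Real.sum_mul_le_sqrt_mul_sqrt _ _ _).trans ?_
    -- ‖Rξ‖ ≤ ‖ξ‖/η
    have hp : ∀ y, ‖∑ v, R y v * (ξ v : ℂ)‖ ^ 2 = (1 / η ^ 2) * ‖pv H ξ E η y‖ ^ 2 := by
      intro y
      have : pv H ξ E η y = -(I * (η : ℂ)) * (∑ v, R y v * (ξ v : ℂ)) := rfl
      rw [this, norm_mul, norm_neg, norm_mul, Complex.norm_I, Complex.norm_real,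
        Real.norm_eq_abs, abs_of_pos hη]
      field_simp
    have hps : ∑ y, ‖pv H ξ E η y‖ ^ 2 ≤ c := by
      have h1 := sum_normSq_pv hH hη ξ (E := E)
      set S := ∑ y, ‖pv H ξ E η y‖ ^ 2 with hS
      have hS0 : 0 ≤ S := Finset.sum_nonneg fun _ _ => by positivity
      have h2 : ∑ v, ξ v * (pv H ξ E η v).re ≤ ∑ v, ((ξ v) ^ 2 / 2 + ‖pv H ξ E η v‖ ^ 2 / 2) := by
        refine Finset.sum_le_sum fun v _ => ?_
        have h3 : ((pv H ξ E η v).re) ^ 2 ≤ ‖pv H ξ E η v‖ ^ 2 := by
          rw [← sq_abs]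
          exact pow_le_pow_left₀ (abs_nonneg _) (Complex.abs_re_le_norm _) 2
        nlinarith [sq_nonneg (ξ v - (pv H ξ E η v).re)]
      rw [Finset.sum_add_distrib, ← Finset.sum_div, ← Finset.sum_div, ← h1, ← hS] at h2
      linarith
    have hps2 : ∑ y, ‖∑ v, R y v * (ξ v : ℂ)‖ ^ 2 ≤ (1 / η) ^ 2 * c := by
      simp only [hp]
      rw [← Finset.mul_sum]
      have : (1 / η) ^ 2 = 1 / η ^ 2 := by ring
      rw [this]
      gcongr
    have h4 : Real.sqrt (∑ y, ‖∑ v, R y v * (ξ v : ℂ)‖ ^ 2) ≤ (1 / η) * Real.sqrt c := by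
      refine (Real.sqrt_le_sqrt hps2).trans (le_of_eq ?_)
      rw [Real.sqrt_mul (by positivity), Real.sqrt_sq (by positivity)]
    refine mul_le_mul h4 (Real.sqrt_le_sqrt ?_) (Real.sqrt_nonneg _) (by positivity)
    refine le_trans (le_of_eq ?_) ha
    refine Finset.sum_congr rfl fun y _ => ?_
    rw [Complex.norm_real, Real.norm_eq_abs, sq_abs]

/-- `‖p‖² ≤ ‖ξ‖²` -/
theorem sum_normSq_pv_le {H : Matrix V V ℝ} (hH : Hᵀ = H) {E η : ℝ} (hη : 0 < η) (ξ : V → ℝ) :
    ∑ v, ‖pv H ξ E η v‖ ^ 2 ≤ ∑ v, (ξ v) ^ 2 := by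
  have h1 := sum_normSq_pv hH hη ξ (E := E)
  have h2 : ∑ v, ξ v * (pv H ξ E η v).re ≤ ∑ v, ((ξ v) ^ 2 / 2 + ‖pv H ξ E η v‖ ^ 2 / 2) := by
    refine Finset.sum_le_sum fun v _ => ?_
    have h3 : ((pv H ξ E η v).re) ^ 2 ≤ ‖pv H ξ E η v‖ ^ 2 := by
      rw [← sq_abs]
      exact pow_le_pow_left₀ (abs_nonneg _) (Complex.abs_re_le_norm _) 2
    nlinarith [sq_nonneg (ξ v - (pv H ξ E η v).re)]
  rw [Finset.sum_add_distrib, ← Finset.sum_div, ← Finset.sum_div, ← h1] at h2
  linarith

end Crest.Agent.R166.FrameB974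
end

-- ▼ part R166/LimProps_974
section

/-!
Row 166 (helper974), module F3: properties of the limit law `P` of an extracted sequence `S : Seq`.
-/

set_option autoImplicit false

namespace Crest.Agent.R166.LimProps974

open MeasureTheory Filter Topology BoundedContinuousFunction ProbabilityTheory
open Crest.ProbabilityR.RandomMatrix
open Crest.Agent.R166 Crest.Agent.R166.Words955 Crest.Agent.R166.Seq980 Crest.Agent.R166.Emp974
open Crest.Agent.R166.WeakUI974

variable {d k : ℕ} [NeZero d]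

/-! ### The `ProbabilityMeasure` form of `Seq.lim` -/

/-- index type: all samples of all events -/
def SA (S : Seq d k) : Type := {a : Σ j, PS d (S.n j) // a.2 ∈ S.U a.1}

/-- the filter `j → ∞` -/
def Sl (S : Seq d k) : Filter (SA S) := comap (fun a : SA S => a.1.1) atTop

instance Sl_neBot (S : Seq d k) : (Sl S).NeBot := by
  unfold Sl
  apply Filter.comap_neBot
  intro t ht
  obtain ⟨j, hj⟩ := (Filter.mem_atTop_sets.1 ht)
  obtain ⟨x, hx⟩ := S.nonempty j
  exact ⟨⟨⟨j, x⟩, hx⟩, hj j le_rfl⟩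

theorem eventually_Sl (S : Seq d k) {Q : ∀ j, PS d (S.n j) → Prop}
    (h : ∀ᶠ j in atTop, ∀ x ∈ S.U j, Q j x) : ∀ᶠ a : SA S in Sl S, Q a.1.1 a.1.2 := by
  have h2 : ∀ᶠ a : SA S in Sl S, ∀ x ∈ S.U a.1.1, Q a.1.1 x :=
    (tendsto_comap (f := fun a : SA S => a.1.1) (x := atTop)).eventually h
  filter_upwards [h2] with a ha
  exact ha a.1.2 a.2


/-- the empirical laws -/
noncomputable def Smu (S : Seq d k) (a : SA S) : ProbabilityMeasure (Conf d (S1 d k)) :=
  haveI : NeZero (S.n a.1.1) := ⟨(S.pos _).ne'⟩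
  ⟨emp a.1.2.1 (col a.1.2.2 (S.F a.1.1 a.1.2)), emp_prob _ _⟩

theorem coe_Smu (S : Seq d k) (a : SA S) :
    ((Smu S a : ProbabilityMeasure (Conf d (S1 d k))) : Measure (Conf d (S1 d k)))
      = emp a.1.2.1 (col a.1.2.2 (S.F a.1.1 a.1.2)) := rfl

/-- the limit law as a `ProbabilityMeasure` -/
noncomputable def SP (S : Seq d k) : ProbabilityMeasure (Conf d (S1 d k)) := ⟨S.P, S.prob⟩

@[simp] theorem coe_SP (S : Seq d k) :
    ((SP S : ProbabilityMeasure (Conf d (S1 d k))) : Measure (Conf d (S1 d k))) = S.P := rfl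

theorem Smu_tendsto (S : Seq d k) : Tendsto (Smu S) (Sl S) (𝓝 (SP S)) := by
  rw [ProbabilityMeasure.tendsto_iff_forall_integral_tendsto]
  intro f
  rw [Metric.tendsto_nhds]
  intro ε hε
  have h := eventually_Sl S (S.lim f (ε / 2) (by positivity))
  filter_upwards [h] with a ha
  rw [Real.dist_eq]
  simp only [coe_Smu, coe_SP]
  linarith

/-! ### Invariance and support -/

theorem continuous_rs {T : Type*} [TopologicalSpace T] (i : Fin d) :
    Continuous (PortAct.rs i : Fin d × T → Fin d × T) := by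
  have h : (PortAct.rs i : Fin d × T → Fin d × T) = fun x => (x.1 + i, x.2) := rfl
  rw [h]
  have h1 : Continuous fun l : Fin d => l + i := continuous_of_discreteTopology
  exact (h1.comp continuous_fst).prodMk continuous_snd

/-- **invariance** of the limit law -/
theorem inv_P (S : Seq d k) : Inv S.P := by
  have h := inv_of_tendsto (S := S1 d k) continuous_rs (Smu_tendsto S)
    (Eventually.of_forall fun a => by
      rw [coe_Smu]
      refine inv_emp (fun i => (continuous_rs i).measurable) _ (S.port _ _ a.2).inv _ ?_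
      intro v l i
      rfl)
  exact h

/-- potentials of the limit are in `[-1,1]` at every word -/
theorem om_P (S : Seq d k) : ∀ᵐ ξ ∂S.P, ∀ w : TW d, (ξ w).2.1 ∈ Set.Icc (-1 : ℝ) 1 := by
  have hpr := S.prob
  rw [ae_all_iff]
  intro w
  have hcl : IsClosed {ξ : Conf d (S1 d k) | (ξ w).2.1 ∈ Set.Icc (-1 : ℝ) 1} :=
    isClosed_Icc.preimage ((continuous_fst.comp continuous_snd).comp (continuous_apply w))
  have h1 := ProbabilityMeasure.limsup_measure_closed_le_of_tendsto (Smu_tendsto S) hcl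
  have h2 : ∀ a, (Smu S a : Measure (Conf d (S1 d k)))
      {ξ : Conf d (S1 d k) | (ξ w).2.1 ∈ Set.Icc (-1 : ℝ) 1} = 1 := by
    intro a
    rw [← prob_compl_eq_zero_iff hcl.measurableSet, coe_Smu, Words955.emp, Measure.smul_apply,
      Measure.finsetSum_apply, Finset.sum_eq_zero]
    · simp
    · intro h _
      rw [Measure.dirac_apply' _ hcl.measurableSet.compl]
      apply Set.indicator_of_notMem
      simp only [Set.mem_compl_iff, not_not]
      exact S.om _ _ a.2 _
  simp only [h2, limsup_const] at h1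
  have h3 : S.P {ξ : Conf d (S1 d k) | (ξ w).2.1 ∈ Set.Icc (-1 : ℝ) 1} = 1 :=
    le_antisymm prob_le_one h1
  exact (prob_compl_eq_zero_iff hcl.measurableSet).2 h3

/-! ### Integrals of site functions -/

theorem integral_Smu {G : Type*} [NormedAddCommGroup G] [NormedSpace ℝ G] [CompleteSpace G]
    (S : Seq d k) (a : SA S) (f : Conf d (S1 d k) → G) :
    ∫ ξ, f ξ ∂(Smu S a : Measure (Conf d (S1 d k))) = (((S.n a.1.1 : ℝ) * d)⁻¹) •
      ∑ h : HE (S.n a.1.1) d, f (conf a.1.2.1 (col a.1.2.2 (S.F a.1.1 a.1.2)) h) := by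
  rw [coe_Smu, Emp974.integral_emp]
  congr 1
  simp

theorem integrable_Smu {G : Type*} [NormedAddCommGroup G]
    (S : Seq d k) (a : SA S) (f : Conf d (S1 d k) → G) :
    Integrable f (Smu S a : Measure (Conf d (S1 d k))) := integrable_emp _ _ _

/-- integral of a function of the frame at the root -/
theorem integral_Smu_frame (S : Seq d k) (a : SA S) (g : (Fin k → ℝ) → ℝ) :
    ∫ ξ, g (ξ TW.nil).2.2 ∂(Smu S a : Measure (Conf d (S1 d k)))
      = (∑ v, g (fun i => S.F a.1.1 a.1.2 i v)) / (S.n a.1.1) := by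
  have hd : (d : ℝ) ≠ 0 := by exact_mod_cast NeZero.ne d
  rw [integral_Smu]
  have h1 : ∀ h : HE (S.n a.1.1) d,
      g (conf a.1.2.1 (col a.1.2.2 (S.F a.1.1 a.1.2)) h TW.nil).2.2
        = g (fun i => S.F a.1.1 a.1.2 i h.1) := fun h => rfl
  simp only [h1]
  rw [Fintype.sum_prod_type]
  simp only [Finset.sum_const, Finset.card_univ, Fintype.card_fin, nsmul_eq_mul, smul_eq_mul]
  rw [← Finset.mul_sum]
  have hn : (S.n a.1.1 : ℝ) ≠ 0 := by exact_mod_cast (S.pos a.1.1).ne'
  field_simp

/-! ### The eigenvalue equation -/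

theorem Hm_mulVec_port {n : ℕ} {p : Equiv.Perm (HE n d)} (hp : IsPort p) (s : ℝ)
    (ω f : Fin n → ℝ) (v : Fin n) :
    ((Hm (graphOf p) s ω).mulVec f) v = (∑ j : Fin d, f (p (v, j)).1) + s * ω v * f v := by
  classical
  unfold Hm
  rw [Matrix.add_mulVec, Pi.add_apply, SimpleGraph.adjMatrix_mulVec_apply, Matrix.smul_mulVec,
    Pi.smul_apply, Matrix.mulVec_diagonal, smul_eq_mul]
  congr 1
  · have h1 : (graphOf p).neighborFinset v
        = (Finset.univ : Finset (Fin d)).image (fun i => (p (v, i)).1) := by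
      ext w
      simp [hp.adj_iff]
    rw [h1, Finset.sum_image]
    intro i _ j _ hij
    exact hp.simple v i j hij
  · ring

/-- residual of the eigenvalue equation at the root -/
noncomputable def resid (s E : ℝ) (l : Fin k) (ξ : Conf d (S1 d k)) : ℝ :=
  (∑ i : Fin d, (ξ (TW.single i)).2.2 l) + s * (ξ TW.nil).2.1 * (ξ TW.nil).2.2 l
    - E * (ξ TW.nil).2.2 l

theorem continuous_site_X (w : TW d) (l : Fin k) :
    Continuous fun ξ : Conf d (S1 d k) => (ξ w).2.2 l :=
  (continuous_apply l).comp ((continuous_snd.comp continuous_snd).comp (continuous_apply w))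

theorem continuous_site_om (w : TW d) :
    Continuous fun ξ : Conf d (S1 d k) => (ξ w).2.1 :=
  (continuous_fst.comp continuous_snd).comp (continuous_apply w)

theorem continuous_resid (s E : ℝ) (l : Fin k) : Continuous (resid (d := d) s E l) := by
  unfold resid
  refine ((continuous_finset_sum _ fun i _ => continuous_site_X _ l).add
    ((continuous_const.mul (continuous_site_om _)).mul (continuous_site_X _ l))).sub
    (continuous_const.mul (continuous_site_X _ l))

theorem resid_conf {n : ℕ} {p : Equiv.Perm (HE n d)} (hp : IsPort p) (s E : ℝ) (ω : Fin n → ℝ)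
    (F : Fin k → Fin n → ℝ) (l : Fin k) (h : HE n d) :
    resid s E l (conf p (col ω F) h)
      = ((Hm (graphOf p) s ω).mulVec (F l)) h.1 - E * F l h.1 := by
  rw [Hm_mulVec_port hp]
  unfold resid
  have h1 : ∀ i : Fin d, (conf p (col ω F) h (TW.single i)).2.2 l = F l (p (h.1, h.2 + i)).1 :=
    fun i => rfl
  have h2 : (conf p (col ω F) h TW.nil).2.2 l = F l h.1 := rfl
  have h3 : (conf p (col ω F) h TW.nil).2.1 = ω h.1 := rfl
  simp only [h1, h2, h3]
  have h4 : ∑ i : Fin d, F l (p (h.1, h.2 + i)).1 = ∑ j : Fin d, F l (p (h.1, j)).1 :=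
    Fintype.sum_equiv (Equiv.addLeft h.2) _ _ (fun _ => rfl)
  rw [h4]

/-- **eigenvalue equation** in the limit -/
theorem X_eq (S : Seq d k) (s E : ℝ)
    (hnear : ∀ δ : ℝ, 0 < δ → ∀ᶠ j in atTop, ∀ x ∈ S.U j, ∀ l,
      ∑ v, (((Hm (graphOf x.1) s x.2).mulVec (S.F j x l)) v - E * S.F j x l v) ^ 2
        ≤ δ * S.n j) :
    ∀ᵐ ξ ∂S.P, ∀ l, resid s E l ξ = 0 := by
  have hpr := S.prob
  rw [ae_all_iff]
  intro l
  -- bounded test function
  let φ : Conf d (S1 d k) →ᵇ ℝ := BoundedContinuousFunction.ofNormedAddCommGroup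
    (fun ξ => min 1 ((resid s E l ξ) ^ 2)) (continuous_const.min ((continuous_resid s E l).pow 2)) 1
    (fun ξ => by
      rw [Real.norm_eq_abs, abs_of_nonneg (le_min zero_le_one (sq_nonneg _))]
      exact min_le_left _ _)
  have hφ : ∀ ξ, φ ξ = min 1 ((resid s E l ξ) ^ 2) := fun _ => rfl
  have hlim := (ProbabilityMeasure.tendsto_iff_forall_integral_tendsto.1 (Smu_tendsto S)) φ
  have hle : ∫ ξ, φ ξ ∂S.P ≤ 0 := by
    refine le_of_forall_pos_le_add fun δ hδ => ?_
    rw [zero_add]
    refine le_of_tendsto hlim ?_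
    have h1 := eventually_Sl S (hnear δ hδ)
    filter_upwards [h1] with a ha
    rw [integral_Smu]
    have hn : (0 : ℝ) < S.n a.1.1 := by exact_mod_cast S.pos a.1.1
    have hd : (0 : ℝ) < d := by exact_mod_cast NeZero.pos d
    have h2 : ∑ h : HE (S.n a.1.1) d, φ (conf a.1.2.1 (col a.1.2.2 (S.F a.1.1 a.1.2)) h)
        ≤ d * (δ * S.n a.1.1) := by
      calc ∑ h : HE (S.n a.1.1) d, φ (conf a.1.2.1 (col a.1.2.2 (S.F a.1.1 a.1.2)) h)
          ≤ ∑ h : HE (S.n a.1.1) d, (((Hm (graphOf a.1.2.1) s a.1.2.2).mulVec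
              (S.F a.1.1 a.1.2 l)) h.1 - E * S.F a.1.1 a.1.2 l h.1) ^ 2 := by
            refine Finset.sum_le_sum fun h _ => ?_
            rw [hφ, resid_conf (S.port _ _ a.2)]
            exact min_le_right _ _
        _ = d * ∑ v, (((Hm (graphOf a.1.2.1) s a.1.2.2).mulVec
              (S.F a.1.1 a.1.2 l)) v - E * S.F a.1.1 a.1.2 l v) ^ 2 := by
            rw [Fintype.sum_prod_type]
            simp only [Finset.sum_const, Finset.card_univ, Fintype.card_fin, nsmul_eq_mul]
            rw [← Finset.mul_sum]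
        _ ≤ d * (δ * S.n a.1.1) := by
            gcongr
            exact ha l
    rw [smul_eq_mul]
    calc ((S.n a.1.1 : ℝ) * d)⁻¹ * ∑ h : HE (S.n a.1.1) d,
          φ (conf a.1.2.1 (col a.1.2.2 (S.F a.1.1 a.1.2)) h)
        ≤ ((S.n a.1.1 : ℝ) * d)⁻¹ * (d * (δ * S.n a.1.1)) := by gcongr
      _ = δ := by field_simp
  have hnn : 0 ≤ᵐ[S.P] fun ξ => φ ξ := Eventually.of_forall fun ξ =>
    (le_min zero_le_one (sq_nonneg _) : (0 : ℝ) ≤ min 1 ((resid s E l ξ) ^ 2))
  have h0 : ∫ ξ, φ ξ ∂S.P = 0 := le_antisymm hle (integral_nonneg_of_ae hnn)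
  have h1 := (integral_eq_zero_iff_of_nonneg_ae hnn (φ.integrable _)).1 h0
  filter_upwards [h1] with ξ hξ
  rw [Pi.zero_apply, hφ] at hξ
  by_contra hne
  have h2 : 0 < (resid s E l ξ) ^ 2 := by positivity
  have h3 : 0 < min 1 ((resid s E l ξ) ^ 2) := lt_min one_pos h2
  linarith

/-! ### Second moments -/

/-- sum of the squares of the frame at the root -/
noncomputable def NX (ξ : Conf d (S1 d k)) : ℝ := ∑ l, ((ξ TW.nil).2.2 l) ^ 2

theorem continuous_NX : Continuous (NX : Conf d (S1 d k) → ℝ) :=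
  continuous_finset_sum _ fun l _ => (continuous_site_X _ l).pow 2

theorem NX_nonneg (ξ : Conf d (S1 d k)) : 0 ≤ NX ξ := Finset.sum_nonneg fun _ _ => sq_nonneg _

theorem sq_le_NX (ξ : Conf d (S1 d k)) (l : Fin k) : ((ξ TW.nil).2.2 l) ^ 2 ≤ NX ξ :=
  Finset.single_le_sum (f := fun l => ((ξ TW.nil).2.2 l) ^ 2) (fun _ _ => sq_nonneg _)
    (Finset.mem_univ l)

/-- uniform integrability of the frames along the sequence -/
def UIF (S : Seq d k) : Prop :=
  ∀ ε : ℝ, 0 < ε → ∃ M : ℝ, 0 ≤ M ∧ ∀ᶠ j in atTop, ∀ x ∈ S.U j,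
    ∑ v, (if M < ∑ l, (S.F j x l v) ^ 2 then ∑ l, (S.F j x l v) ^ 2 else 0) ≤ ε * S.n j

theorem UI_NX (S : Seq d k) (hui : UIF S) : UI (Sl S) (Smu S) (fun ξ => 1 + NX ξ) := by
  refine ⟨Eventually.of_forall fun a => integrable_Smu S a _, fun ε hε => ?_⟩
  obtain ⟨M, hM, h1⟩ := hui (ε / 2) (by positivity)
  refine ⟨max M 1 + 1, by positivity, ?_⟩
  filter_upwards [eventually_Sl S h1] with a ha
  have hn : (0 : ℝ) < S.n a.1.1 := by exact_mod_cast S.pos a.1.1
  have h2 : ∀ ξ : Conf d (S1 d k), (if max M 1 + 1 < |1 + NX ξ| then |1 + NX ξ| else 0)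
      ≤ 2 * (if M < NX ξ then NX ξ else 0) := by
    intro ξ
    have h3 := NX_nonneg ξ
    rw [abs_of_nonneg (by linarith)]
    split_ifs with h4 h5 h5
    · have : 1 < NX ξ := by
        have := le_max_right M 1
        linarith
      linarith
    · exfalso
      have := le_max_left M 1
      linarith
    · positivity
    · simp
  calc ∫ ξ : Conf d (S1 d k), (if max M 1 + 1 < |1 + NX ξ| then |1 + NX ξ| else 0)
          ∂(Smu S a : Measure (Conf d (S1 d k)))
      ≤ ∫ ξ : Conf d (S1 d k), 2 * (if M < NX ξ then NX ξ else 0)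
          ∂(Smu S a : Measure (Conf d (S1 d k))) :=
        integral_mono (integrable_Smu S a _) (integrable_Smu S a _) h2
    _ = 2 * ∫ ξ : Conf d (S1 d k), (if M < NX ξ then NX ξ else 0)
          ∂(Smu S a : Measure (Conf d (S1 d k))) := integral_const_mul _ _
    _ ≤ 2 * (ε / 2) := by
        gcongr
        have h5 := integral_Smu_frame S a (fun y => if M < ∑ l, (y l) ^ 2 then ∑ l, (y l) ^ 2 else 0)
        have h6 : ∫ ξ : Conf d (S1 d k), (if M < NX ξ then NX ξ else 0)
              ∂(Smu S a : Measure (Conf d (S1 d k)))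
            = (∑ v, (if M < ∑ l, (S.F a.1.1 a.1.2 l v) ^ 2 then
              ∑ l, (S.F a.1.1 a.1.2 l v) ^ 2 else 0)) / (S.n a.1.1) := h5
        rw [h6, div_le_iff₀ hn]
        exact ha
    _ = ε := by ring

theorem UI_of_le (S : Seq d k) (hui : UIF S) {f : Conf d (S1 d k) → ℝ} (hf : Continuous f)
    (h : ∀ ξ, |f ξ| ≤ 1 + NX ξ) : UI (Sl S) (Smu S) f := by
  refine UI.mono (UI_NX S hui) hf ?_ ?_
  · exact (continuous_const.add continuous_NX).measurable
  · intro ξ
    refine (h ξ).trans (le_abs_self _)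

theorem integrable_NX (S : Seq d k) (hui : UIF S) : Integrable NX S.P := by
  have h := integrable_limit (Smu_tendsto S) continuous_NX
    (UI_of_le S hui continuous_NX fun ξ => by
      rw [abs_of_nonneg (NX_nonneg ξ)]
      linarith)
  exact h

/-- **second moments** -/
theorem X_L2 (S : Seq d k) (hui : UIF S) (l : Fin k) :
    MemLp (fun ξ : Conf d (S1 d k) => (ξ TW.nil).2.2 l) 2 S.P := by
  have hc := continuous_site_X (d := d) (TW.nil : TW d) l
  rw [memLp_two_iff_integrable_sq hc.measurable.aestronglyMeasurable]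
  refine (integrable_NX S hui).mono' (hc.pow 2).measurable.aestronglyMeasurable ?_
  refine Eventually.of_forall fun ξ => ?_
  rw [Real.norm_eq_abs, abs_of_nonneg (sq_nonneg _)]
  exact sq_le_NX ξ l

theorem abs_mul_le_NX (ξ : Conf d (S1 d k)) (l l' : Fin k) :
    |(ξ TW.nil).2.2 l * (ξ TW.nil).2.2 l'| ≤ 1 + NX ξ := by
  have h1 := sq_le_NX ξ l
  have h2 := sq_le_NX ξ l'
  rw [abs_mul]
  nlinarith [sq_nonneg (|(ξ TW.nil).2.2 l| - |(ξ TW.nil).2.2 l'|), sq_abs ((ξ TW.nil).2.2 l),
    sq_abs ((ξ TW.nil).2.2 l')]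

/-- **covariance** of the limit -/
theorem X_cov (S : Seq d k) (hui : UIF S)
    (horth : ∀ᶠ j in atTop, ∀ x ∈ S.U j, ∀ l l', ∑ v, S.F j x l v * S.F j x l' v
      = if l = l' then (S.n j : ℝ) else 0) (l l' : Fin k) :
    ∫ ξ, (ξ TW.nil).2.2 l * (ξ TW.nil).2.2 l' ∂S.P = if l = l' then 1 else 0 := by
  have hc := (continuous_site_X (d := d) (TW.nil : TW d) l).mul (continuous_site_X TW.nil l')
  have h1 := tendsto_integral_of_UI (Smu_tendsto S) hc
    (UI_of_le S hui hc fun ξ => abs_mul_le_NX ξ l l')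
  have h2 : (fun a => ∫ ξ, (ξ TW.nil).2.2 l * (ξ TW.nil).2.2 l'
      ∂(Smu S a : Measure (Conf d (S1 d k)))) =ᶠ[Sl S] fun _ => if l = l' then (1 : ℝ) else 0 := by
    filter_upwards [eventually_Sl S horth] with a ha
    have hn : (S.n a.1.1 : ℝ) ≠ 0 := by exact_mod_cast (S.pos a.1.1).ne'
    rw [integral_Smu_frame S a (fun y => y l * y l'), ha l l']
    split_ifs
    · exact div_self hn
    · exact zero_div _
  exact tendsto_nhds_unique (h1.congr' h2) tendsto_const_nhds |>.symm ▸ rfl

end Crest.Agent.R166.LimProps974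
end

-- ▼ part R166/LimMean_974

/-!
Row 166 (helper974), module F3: `E[X_l | Env] = 0` for the limit law of an extracted sequence.
-/

set_option autoImplicit false

namespace Crest.Agent.R166.LimProps974

open MeasureTheory Filter Topology BoundedContinuousFunction ProbabilityTheory
open Crest.ProbabilityR.RandomMatrix
open Crest.Agent.R166 Crest.Agent.R166.Words955 Crest.Agent.R166.Seq980 Crest.Agent.R166.Emp974
open Crest.Agent.R166.WeakUI974 Crest.Agent.R166.LimLaw980
open Crest.Agent.R166.LimEnv289 (embE continuous_embE injective_embE gq continuous_gq abs_gq_le)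

variable {d k : ℕ} [NeZero d]

/-- environments: labels and potentials -/
abbrev SE (d : ℕ) : Type := Fin d × ℝ

/-- real coordinates of environments -/
abbrev TE (d : ℕ) [NeZero d] : Type := TW d × Bool

/-- the environment of a configuration -/
def envM (ξ : Conf d (S1 d k)) : Conf d (SE d) := fun w => ((ξ w).1, (ξ w).2.1)

theorem continuous_envM : Continuous (envM : Conf d (S1 d k) → Conf d (SE d)) :=
  continuous_pi fun w => (continuous_fst.comp (continuous_apply w)).prodMk
    (continuous_fst.comp (continuous_snd.comp (continuous_apply w)))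

/-- the σ-algebra of the environment (labels and potentials) -/
def EnvS (d k : ℕ) [NeZero d] : MeasurableSpace (Conf d (S1 d k)) :=
  MeasurableSpace.comap (envM : Conf d (S1 d k) → Conf d (SE d)) inferInstance

theorem EnvS_le : EnvS d k ≤ (inferInstance : MeasurableSpace (Conf d (S1 d k))) :=
  continuous_envM.measurable.comap_le

/-- finite level: the frames are asymptotically orthogonal to all characters of the environment -/
def MeanOrth (S : Seq d k) : Prop :=
  ∀ (q : TE d →₀ ℚ) (b : Bool) (l : Fin k) (δ : ℝ), 0 < δ → ∀ᶠ j in atTop, ∀ x ∈ S.U j,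
    |∑ h : HE (S.n j) d, S.F j x l h.1 * gq d q b (conf x.1 (lab x.2) h)| ≤ δ * S.n j


theorem abs_X_le_NX (ξ : Conf d (S1 d k)) (l : Fin k) : |(ξ TW.nil).2.2 l| ≤ 1 + NX ξ := by
  have h1 := sq_le_NX ξ l
  nlinarith [sq_nonneg (|(ξ TW.nil).2.2 l| - 1), sq_abs ((ξ TW.nil).2.2 l),
    abs_nonneg ((ξ TW.nil).2.2 l)]

/-- integrals of `X_l` against real and imaginary parts of characters vanish -/
theorem integral_X_gq (S : Seq d k) (hui : UIF S) (hm : MeanOrth S) (l : Fin k)
    (q : TE d →₀ ℚ) (b : Bool) :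
    ∫ ξ : Conf d (S1 d k), (ξ TW.nil).2.2 l * gq d q b (envM ξ) ∂S.P = 0 := by
  have hpr := S.prob
  have hcX := continuous_site_X (d := d) (TW.nil : TW d) l
  have hc : Continuous fun ξ : Conf d (S1 d k) => (ξ TW.nil).2.2 l * gq d q b (envM ξ) :=
    hcX.mul ((continuous_gq d q b).comp continuous_envM)
  have hb : ∀ ξ : Conf d (S1 d k), |(ξ TW.nil).2.2 l * gq d q b (envM ξ)| ≤ 1 + NX ξ := by
    intro ξ
    rw [abs_mul]
    have h1 := abs_X_le_NX ξ l
    have h2 := abs_gq_le d q b (envM ξ)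
    calc |(ξ TW.nil).2.2 l| * |gq d q b (envM ξ)| ≤ |(ξ TW.nil).2.2 l| * 1 := by gcongr
      _ ≤ _ := by rw [mul_one]; exact h1
  have h1 := tendsto_integral_of_UI (Smu_tendsto S) hc (UI_of_le S hui hc hb)
  have h2 : Tendsto (fun a => ∫ ξ : Conf d (S1 d k), (ξ TW.nil).2.2 l * gq d q b (envM ξ)
      ∂(Smu S a : Measure (Conf d (S1 d k)))) (Sl S) (𝓝 0) := by
    rw [Metric.tendsto_nhds]
    intro ε hε
    filter_upwards [eventually_Sl S (hm q b l (ε / 2) (by positivity))] with a ha
    rw [dist_zero_right, integral_Smu, Real.norm_eq_abs, smul_eq_mul]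
    have hn : (0 : ℝ) < S.n a.1.1 := by exact_mod_cast S.pos a.1.1
    have hd : (1 : ℝ) ≤ d := by exact_mod_cast NeZero.pos d
    have e1 : ∑ h : HE (S.n a.1.1) d,
        ((conf a.1.2.1 (col a.1.2.2 (S.F a.1.1 a.1.2)) h TW.nil).2.2 l *
          gq d q b (envM (conf a.1.2.1 (col a.1.2.2 (S.F a.1.1 a.1.2)) h)))
        = ∑ h : HE (S.n a.1.1) d, S.F a.1.1 a.1.2 l h.1 *
          gq d q b (conf a.1.2.1 (lab a.1.2.2) h) := rfl
    rw [e1, abs_mul, abs_of_pos (by positivity)]
    calc ((S.n a.1.1 : ℝ) * d)⁻¹ * |∑ h : HE (S.n a.1.1) d, S.F a.1.1 a.1.2 l h.1 *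
          gq d q b (conf a.1.2.1 (lab a.1.2.2) h)|
        ≤ ((S.n a.1.1 : ℝ) * d)⁻¹ * (ε / 2 * S.n a.1.1) := by gcongr
      _ = ε / 2 / d := by field_simp
      _ ≤ ε / 2 := div_le_self (by positivity) hd
      _ < ε := by linarith
  exact tendsto_nhds_unique h1 h2

/-- integrals of `X_l` against characters vanish -/
theorem integral_X_ech (S : Seq d k) (hui : UIF S) (hm : MeanOrth S) (l : Fin k)
    (q : TE d →₀ ℚ) :
    ∫ ξ : Conf d (S1 d k), (((ξ TW.nil).2.2 l : ℝ) : ℂ) *
      ech (embE d) (continuous_embE d) q (envM ξ) ∂S.P = 0 := by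
  have hpr := S.prob
  have hcX := continuous_site_X (d := d) (TW.nil : TW d) l
  have hint : ∀ b, Integrable (fun ξ : Conf d (S1 d k) => (ξ TW.nil).2.2 l *
      gq d q b (envM ξ)) S.P := by
    intro b
    refine ((integrable_const (1 : ℝ)).add (integrable_NX S hui)).mono'
      (hcX.mul ((continuous_gq d q b).comp continuous_envM)).aestronglyMeasurable ?_
    refine Eventually.of_forall fun ξ => ?_
    rw [norm_mul, Real.norm_eq_abs, Real.norm_eq_abs]
    calc |(ξ TW.nil).2.2 l| * |gq d q b (envM ξ)| ≤ |(ξ TW.nil).2.2 l| * 1 := by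
          gcongr
          exact abs_gq_le d q b _
      _ ≤ _ := by rw [mul_one]; exact abs_X_le_NX ξ l
  have e1 : ∀ ξ : Conf d (S1 d k), (((ξ TW.nil).2.2 l : ℝ) : ℂ) *
      ech (embE d) (continuous_embE d) q (envM ξ)
      = ((((ξ TW.nil).2.2 l * gq d q true (envM ξ) : ℝ)) : ℂ)
        + ((((ξ TW.nil).2.2 l * gq d q false (envM ξ) : ℝ)) : ℂ) * Complex.I := by
    intro ξ
    rw [ech_apply, mul_comm Complex.I, Complex.exp_mul_I, ← Complex.ofReal_cos,
      ← Complex.ofReal_sin]
    simp only [gq, if_true, Bool.false_eq_true, if_false]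
    push_cast
    ring
  simp only [e1]
  rw [integral_add (hint true).ofReal ((hint false).ofReal.mul_const _), integral_mul_const,
    integral_complex_ofReal, integral_complex_ofReal, integral_X_gq S hui hm l q true,
    integral_X_gq S hui hm l q false]
  simp

/-- a real function orthogonal to all characters of a Polish-valued map has vanishing
conditional expectation -/
theorem condExp_zero_of_ech {Ω : Type*} {mΩ : MeasurableSpace Ω} {P : Measure Ω}
    [IsFiniteMeasure P] {T E : Type*} [TopologicalSpace E] [MeasurableSpace E] [BorelSpace E]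
    [PolishSpace E] (Φ : E → T → ℝ) (hΦ : Continuous Φ) (hinj : Function.Injective Φ)
    (g : Ω → E) (hg : Measurable g) (X : Ω → ℝ) (hX : Integrable X P)
    (h : ∀ q : T →₀ ℚ, ∫ x, (X x : ℂ) * ech Φ hΦ q (g x) ∂P = 0) :
    P[X | MeasurableSpace.comap g inferInstance] =ᵐ[P] 0 := by
  -- positive and negative parts as densities
  set ν : (Ω → ℝ) → Measure E := fun f => (P.withDensity fun x => ENNReal.ofReal (f x)).map g
    with hν
  have hfin : ∀ f : Ω → ℝ, Integrable f P → IsFiniteMeasure (ν f) := by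
    intro f hf
    have h1 : IsFiniteMeasure (P.withDensity fun x => ENNReal.ofReal (f x)) :=
      isFiniteMeasure_withDensity_ofReal hf.2
    rw [hν]
    infer_instance
  have hXp : Integrable (fun x => max (X x) 0) P := hX.pos_part
  have hXn : Integrable (fun x => max (-X x) 0) P := hX.neg_part
  have hcech : ∀ q : T →₀ ℚ, Continuous fun y => ech Φ hΦ q y := fun q => (ech Φ hΦ q).continuous
  have hint : ∀ (f : Ω → ℝ), Integrable f P → (∀ x, 0 ≤ f x) → ∀ q : T →₀ ℚ,
      ∫ y, ech Φ hΦ q y ∂(ν f) = ∫ x, (f x : ℂ) * ech Φ hΦ q (g x) ∂P := by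
    intro f hf hf0 q
    rw [hν]
    simp only
    rw [integral_map hg.aemeasurable (hcech q).aestronglyMeasurable,
      integral_withDensity_eq_integral_toReal_smul₀ (hf.1.aemeasurable.ennreal_ofReal)
        (Eventually.of_forall fun x => ENNReal.ofReal_lt_top)]
    refine integral_congr_ae (Eventually.of_forall fun x => ?_)
    simp only
    rw [ENNReal.toReal_ofReal (hf0 x), Complex.real_smul]
  have hb : ∀ (f : Ω → ℝ), Integrable f P → ∀ q : T →₀ ℚ,
      Integrable (fun x => (f x : ℂ) * ech Φ hΦ q (g x)) P := by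
    intro f hf q
    refine hf.norm.mono' ((hf.1.aemeasurable.complex_ofReal.aestronglyMeasurable).mul
      (((hcech q).measurable.comp hg).aestronglyMeasurable)) ?_
    refine Eventually.of_forall fun x => ?_
    rw [norm_mul, Complex.norm_real, ech_apply, mul_comm Complex.I, Complex.norm_exp_ofReal_mul_I,
      mul_one]
  have hf1 := hfin _ hXp
  have hf2 := hfin _ hXn
  have heq : ν (fun x => max (X x) 0) = ν (fun x => max (-X x) 0) := by
    refine ext_of_ech Φ hΦ hinj fun q => ?_
    rw [hint _ hXp (fun x => le_max_right _ _) q, hint _ hXn (fun x => le_max_right _ _) q,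
      ← sub_eq_zero, ← integral_sub (hb _ hXp q) (hb _ hXn q), ← h q]
    refine integral_congr_ae (Eventually.of_forall fun x => ?_)
    simp only
    rw [← sub_mul, ← Complex.ofReal_sub]
    congr 2
    rcases le_total 0 (X x) with hx | hx
    · rw [max_eq_left hx, max_eq_right (by linarith), sub_zero]
    · rw [max_eq_right hx, max_eq_left (by linarith)]
      ring
  -- set integrals
  have hset : ∀ B : Set E, MeasurableSet B → ∫ x in g ⁻¹' B, X x ∂P = 0 := by
    intro B hB
    have h1 : ∀ f : Ω → ℝ, Integrable f P → (∀ x, 0 ≤ f x) →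
        (ν f).real B = ∫ x in g ⁻¹' B, f x ∂P := by
      intro f hf hf0
      rw [hν]
      simp only
      rw [measureReal_def, Measure.map_apply hg hB, withDensity_apply _ (hg hB),
        integral_eq_lintegral_of_nonneg_ae (Eventually.of_forall hf0) hf.1.restrict]
    have h2 := h1 _ hXp (fun x => le_max_right _ _)
    have h3 := h1 _ hXn (fun x => le_max_right _ _)
    rw [heq, h3] at h2
    have h4 : ∫ x in g ⁻¹' B, X x ∂P = ∫ x in g ⁻¹' B, max (X x) 0 ∂P
        - ∫ x in g ⁻¹' B, max (-X x) 0 ∂P := by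
      rw [← integral_sub hXp.integrableOn hXn.integrableOn]
      refine integral_congr_ae (Eventually.of_forall fun x => ?_)
      simp only
      rcases le_total 0 (X x) with hx | hx
      · rw [max_eq_left hx, max_eq_right (by linarith), sub_zero]
      · rw [max_eq_right hx, max_eq_left (by linarith)]
        ring
    rw [h4, h2, sub_self]
  have hm : MeasurableSpace.comap g inferInstance ≤ mΩ := hg.comap_le
  symm
  refine ae_eq_condExp_of_forall_setIntegral_eq hm hX ?_ ?_ ?_
  · intro s _ _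
    exact integrableOn_zero
  · rintro s ⟨B, hB, rfl⟩ _
    rw [hset B hB]
    simp
  · exact stronglyMeasurable_zero.aestronglyMeasurable

/-- **`E[X_l | Env] = 0`** for the limit law -/
theorem X_mean (S : Seq d k) (hui : UIF S) (hm : MeanOrth S) (l : Fin k) :
    S.P[fun ξ : Conf d (S1 d k) => (ξ TW.nil).2.2 l | EnvS d k] =ᵐ[S.P] 0 := by
  have hpr := S.prob
  refine condExp_zero_of_ech (embE d) (continuous_embE d) (injective_embE d)
    (envM : Conf d (S1 d k) → Conf d (SE d)) continuous_envM.measurable _ ?_ ?_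
  · exact (X_L2 S hui l).integrable (by norm_num)
  · intro q
    exact integral_X_ech S hui hm l q

end Crest.Agent.R166.LimProps974
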