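import Crest.Agent.R166.MartB_663
import Mathlib
import Crest.Agent.R166.Spec_B2_385
import Crest.Agent.R166.MartSpec_663

-- ▼ part R166/MartC_663
section

/-!
# Row 166, section 42: conditional independence (helper663)

If `E[F G | B] = E[F | B] E[G | B]` for bounded `F` (`S1`-measurable) and `G` (`S2`-measurable),
then `E[f | B ⊔ S2] = E[f | B]` for every integrable `B ⊔ S1`-measurable `f`.
-/

set_option autoImplicit false

noncomputable section

open MeasureTheory ProbabilityTheory Filter
open scoped ENNReal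

namespace Crest.Agent.R166.Mart663

variable {Ω : Type*} {S1 S2 B m0 : MeasurableSpace Ω} {P : Measure Ω}

/-- the π-system of a supremum of two σ-algebras. -/
lemma sup_eq_generateFrom (B S : MeasurableSpace Ω) :
    B ⊔ S = MeasurableSpace.generateFrom
      {t | ∃ b s, MeasurableSet[B] b ∧ MeasurableSet[S] s ∧ t = b ∩ s} := by
  apply le_antisymm
  · refine sup_le ?_ ?_
    · intro b hb
      exact MeasurableSpace.measurableSet_generateFrom
        ⟨b, Set.univ, hb, MeasurableSet.univ, (Set.inter_univ b).symm⟩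
    · intro s hs
      exact MeasurableSpace.measurableSet_generateFrom
        ⟨Set.univ, s, MeasurableSet.univ, hs, (Set.univ_inter s).symm⟩
  · refine MeasurableSpace.generateFrom_le ?_
    rintro t ⟨b, s, hb, hs, rfl⟩
    have h1 : MeasurableSet[B ⊔ S] b := (le_sup_left : B ≤ B ⊔ S) b hb
    have h2 : MeasurableSet[B ⊔ S] s := (le_sup_right : S ≤ B ⊔ S) s hs
    exact @MeasurableSet.inter Ω (B ⊔ S) b s h1 h2

lemma isPiSystem_inter (B S : MeasurableSpace Ω) :
    IsPiSystem {t | ∃ b s, MeasurableSet[B] b ∧ MeasurableSet[S] s ∧ t = b ∩ s} := by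
  rintro t ⟨b, s, hb, hs, rfl⟩ t' ⟨b', s', hb', hs', rfl⟩ _
  refine ⟨b ∩ b', s ∩ s', @MeasurableSet.inter Ω B b b' hb hb',
    @MeasurableSet.inter Ω S s s' hs hs', ?_⟩
  rw [Set.inter_inter_inter_comm]

/-- characterisation of the conditional expectation given a supremum. -/
lemma condExp_sup_eq [IsFiniteMeasure P] (hB : B ≤ m0) (hS : S2 ≤ m0) {f g : Ω → ℝ}
    (hf : Integrable f P) (hg : Integrable g P) (hgm : StronglyMeasurable[B ⊔ S2] g)
    (h : ∀ b s, MeasurableSet[B] b → MeasurableSet[S2] s →
      ∫ x in b ∩ s, g x ∂P = ∫ x in b ∩ s, f x ∂P) :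
    P[f | B ⊔ S2] =ᵐ[P] g := by
  have hle : B ⊔ S2 ≤ m0 := sup_le hB hS
  symm
  have key : ∀ t, MeasurableSet[B ⊔ S2] t → ∫ x in t, g x ∂P = ∫ x in t, f x ∂P := by
    have htot : ∫ x, g x ∂P = ∫ x, f x ∂P := by
      have := h Set.univ Set.univ MeasurableSet.univ MeasurableSet.univ
      simpa using this
    refine MeasurableSpace.induction_on_inter (m := B ⊔ S2)
      (C := fun t _ => ∫ x in t, g x ∂P = ∫ x in t, f x ∂P) (sup_eq_generateFrom B S2)
      (isPiSystem_inter B S2) ?_ ?_ ?_ ?_
    · simp
    · rintro t ⟨b, s, hb, hs, rfl⟩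
      exact h b s hb hs
    · intro t ht ih
      have e1 := integral_add_compl (hle t ht) hg
      have e2 := integral_add_compl (hle t ht) hf
      rw [htot] at e1
      linarith
    · intro F hd hm ih
      rw [integral_iUnion (fun i => hle _ (hm i)) hd hg.integrableOn,
        integral_iUnion (fun i => hle _ (hm i)) hd hf.integrableOn]
      exact tsum_congr ih
  refine ae_eq_condExp_of_forall_setIntegral_eq hle hf (fun _ _ _ => hg.integrableOn)
    (fun t ht _ => key t ht) hgm.aestronglyMeasurable

lemma integrable_ind [IsFiniteMeasure P] {s : Set Ω} (hs : MeasurableSet s) :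
    Integrable (s.indicator fun _ => (1 : ℝ)) P :=
  (integrable_const (1 : ℝ)).indicator hs

lemma ind_bound {s : Set Ω} (x : Ω) : ‖s.indicator (fun _ => (1 : ℝ)) x‖ ≤ 1 := by
  by_cases hx : x ∈ s <;> simp [hx]

lemma condExp_ind_bound [IsFiniteMeasure P] (hB : B ≤ m0) {s : Set Ω} (hs : MeasurableSet s) :
    ∀ᵐ x ∂P, ‖(P[s.indicator fun _ => (1 : ℝ) | B]) x‖ ≤ 1 := by
  have h0 : 0 ≤ᵐ[P] P[s.indicator fun _ => (1 : ℝ) | B] :=
    condExp_nonneg (Eventually.of_forall fun x => by
      by_cases hx : x ∈ s <;> simp [hx])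
  have h1 : P[s.indicator fun _ => (1 : ℝ) | B] ≤ᵐ[P] P[fun _ => (1 : ℝ) | B] :=
    condExp_mono (integrable_ind hs) (integrable_const 1) (Eventually.of_forall fun x => by
      by_cases hx : x ∈ s <;> simp [hx])
  rw [condExp_const hB] at h1
  filter_upwards [h0, h1] with x h0 h1
  rw [Real.norm_eq_abs, abs_of_nonneg h0]
  exact h1

/-- conditional independence, one indicator. -/
lemma condExp_ind_sup [IsFiniteMeasure P] (hB : B ≤ m0) (hS1 : S1 ≤ m0) (hS2 : S2 ≤ m0)
    (hprod : ∀ s1 s2, MeasurableSet[S1] s1 → MeasurableSet[S2] s2 →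
      P[(s1 ∩ s2).indicator fun _ => (1 : ℝ) | B] =ᵐ[P]
        P[s1.indicator fun _ => (1 : ℝ) | B] * P[s2.indicator fun _ => (1 : ℝ) | B])
    {s2 : Set Ω} (hs2 : MeasurableSet[S2] s2) :
    P[s2.indicator fun _ => (1 : ℝ) | B ⊔ S1] =ᵐ[P] P[s2.indicator fun _ => (1 : ℝ) | B] := by
  have hs2' := hS2 s2 hs2
  refine condExp_sup_eq hB hS1 (integrable_ind hs2') integrable_condExp
    (stronglyMeasurable_condExp.mono le_sup_left) ?_
  intro b s1 hb hs1
  have hb' := hB b hb
  have hs1' := hS1 s1 hs1
  have e0 : ∫ x in b ∩ s1, (P[s2.indicator fun _ => (1 : ℝ) | B]) x ∂P =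
      ∫ x in b, (s1.indicator fun _ => (1 : ℝ)) x * (P[s2.indicator fun _ => (1 : ℝ) | B]) x ∂P := by
    rw [← setIntegral_indicator hs1']
    refine setIntegral_congr_fun hb' fun x _ => ?_
    by_cases hx : x ∈ s1 <;> simp [hx]
  have hint : Integrable (fun x => (s1.indicator fun _ => (1 : ℝ)) x *
      (P[s2.indicator fun _ => (1 : ℝ) | B]) x) P :=
    integrable_condExp.bdd_mul (c := 1) (integrable_ind hs1').aestronglyMeasurable
      (Eventually.of_forall fun x => ind_bound x)
  have e1 : P[fun x => (s1.indicator fun _ => (1 : ℝ)) x *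
      (P[s2.indicator fun _ => (1 : ℝ) | B]) x | B] =ᵐ[P]
      P[s1.indicator fun _ => (1 : ℝ) | B] * P[s2.indicator fun _ => (1 : ℝ) | B] :=
    condExp_mul_of_stronglyMeasurable_right stronglyMeasurable_condExp hint (integrable_ind hs1')
  rw [e0, ← setIntegral_condExp hB hint hb]
  have e2 := e1.trans (hprod s1 s2 hs1 hs2).symm
  rw [setIntegral_congr_ae hb' (e2.mono fun x hx _ => hx),
    setIntegral_condExp hB (integrable_ind (hs1'.inter hs2')) hb, ← setIntegral_indicator hs1']
  refine setIntegral_congr_fun hb' fun x _ => ?_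
  by_cases hx : x ∈ s1 <;> by_cases hx2 : x ∈ s2 <;> simp [hx, hx2]

/-- **conditional independence**: the other side gives no information. -/
theorem condExp_sup_of_condIndep [IsFiniteMeasure P] (hB : B ≤ m0) (hS1 : S1 ≤ m0)
    (hS2 : S2 ≤ m0)
    (hprod : ∀ s1 s2, MeasurableSet[S1] s1 → MeasurableSet[S2] s2 →
      P[(s1 ∩ s2).indicator fun _ => (1 : ℝ) | B] =ᵐ[P]
        P[s1.indicator fun _ => (1 : ℝ) | B] * P[s2.indicator fun _ => (1 : ℝ) | B])
    {f : Ω → ℝ} (hf : Integrable f P) (hfm : StronglyMeasurable[B ⊔ S1] f) :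
    P[f | B ⊔ S2] =ᵐ[P] P[f | B] := by
  refine condExp_sup_eq hB hS2 hf integrable_condExp
    (stronglyMeasurable_condExp.mono le_sup_left) ?_
  intro b s2 hb hs2
  have hb' := hB b hb
  have hs2' := hS2 s2 hs2
  have hBS : B ⊔ S1 ≤ m0 := sup_le hB hS1
  have hbS : MeasurableSet[B ⊔ S1] b := (le_sup_left : B ≤ B ⊔ S1) b hb
  -- left hand side
  have e0 : ∫ x in b ∩ s2, (P[f | B]) x ∂P =
      ∫ x in b, (s2.indicator fun _ => (1 : ℝ)) x * (P[f | B]) x ∂P := by
    rw [← setIntegral_indicator hs2']
    refine setIntegral_congr_fun hb' fun x _ => ?_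
    by_cases hx : x ∈ s2 <;> simp [hx]
  have hint : Integrable (fun x => (s2.indicator fun _ => (1 : ℝ)) x * (P[f | B]) x) P :=
    integrable_condExp.bdd_mul (c := 1) (integrable_ind hs2').aestronglyMeasurable
      (Eventually.of_forall fun x => ind_bound x)
  have e1 : P[fun x => (s2.indicator fun _ => (1 : ℝ)) x * (P[f | B]) x | B] =ᵐ[P]
      P[s2.indicator fun _ => (1 : ℝ) | B] * P[f | B] :=
    condExp_mul_of_stronglyMeasurable_right stronglyMeasurable_condExp hint (integrable_ind hs2')
  -- right hand side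
  have hint2 : Integrable (fun x => f x * (s2.indicator fun _ => (1 : ℝ)) x) P :=
    hf.mul_bdd (c := 1) (integrable_ind hs2').aestronglyMeasurable
      (Eventually.of_forall fun x => ind_bound x)
  have e3 : ∫ x in b ∩ s2, f x ∂P = ∫ x in b, f x * (s2.indicator fun _ => (1 : ℝ)) x ∂P := by
    rw [← setIntegral_indicator hs2']
    refine setIntegral_congr_fun hb' fun x _ => ?_
    by_cases hx : x ∈ s2 <;> simp [hx]
  have e4 : P[fun x => f x * (s2.indicator fun _ => (1 : ℝ)) x | B ⊔ S1] =ᵐ[P]
      f * P[s2.indicator fun _ => (1 : ℝ) | B ⊔ S1] :=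
    condExp_mul_of_stronglyMeasurable_left hfm hint2 (integrable_ind hs2')
  have e5 : f * P[s2.indicator fun _ => (1 : ℝ) | B ⊔ S1] =ᵐ[P]
      fun x => f x * (P[s2.indicator fun _ => (1 : ℝ) | B]) x := by
    filter_upwards [condExp_ind_sup hB hS1 hS2 hprod hs2] with x hx
    rw [Pi.mul_apply, hx]
  have hint3 : Integrable (fun x => f x * (P[s2.indicator fun _ => (1 : ℝ) | B]) x) P :=
    hf.mul_bdd (c := 1) integrable_condExp.aestronglyMeasurable (condExp_ind_bound hB hs2')
  have e6 : P[fun x => f x * (P[s2.indicator fun _ => (1 : ℝ) | B]) x | B] =ᵐ[P]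
      P[f | B] * P[s2.indicator fun _ => (1 : ℝ) | B] :=
    condExp_mul_of_stronglyMeasurable_right stronglyMeasurable_condExp hint3 hf
  rw [e0, e3, ← setIntegral_condExp hB hint hb, ← setIntegral_condExp hBS hint2 hbS,
    setIntegral_congr_ae hb' ((e4.trans e5).mono fun x hx _ => hx),
    ← setIntegral_condExp hB hint3 hb]
  refine setIntegral_congr_ae hb' ?_
  filter_upwards [e1, e6] with x h1 h6 _
  rw [h1, h6, Pi.mul_apply, Pi.mul_apply, mul_comm]

end Crest.Agent.R166.Mart663
end
end

-- ▼ part R166/MartG_663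
section

/-!
# Row 166, section 42: Gaussian regression given an environment (helper663)

`V` is a finite family which is, given `FX`, centred Gaussian with covariance `K`
(characteristic function form). If `K o j = ∑ ℓ i K i j` for `j ≠ o`, then
`E[V o | C] = ∑ ℓ i E[V i | C]` for every `C ≤ FX ⊔ σ(V j, j ≠ o)` containing the environment.
-/

set_option autoImplicit false

noncomputable section

open MeasureTheory ProbabilityTheory Filter
open scoped ENNReal

namespace Crest.Agent.R166.Mart663

variable {Ω : Type*} {C Env FX m0 : MeasurableSpace Ω} {P : Measure Ω}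

/-! ### Fourier uniqueness with signed weights -/

lemma integral_density_map [IsFiniteMeasure P] {T : Type*} [Fintype T] {V : Ω → T → ℝ}
    (hV : Measurable V) {R : Ω → ℝ} (hR : Integrable R P) (x : EuclideanSpace ℝ T) :
    charFun ((P.withDensity fun ω => ENNReal.ofReal (R ω)).map
      (fun ω => (WithLp.toLp 2 (V ω) : EuclideanSpace ℝ T))) x =
      ∫ ω, ((max (R ω) 0 : ℝ) : ℂ) * Complex.exp (Complex.I * ((∑ t, x t * V ω t : ℝ) : ℂ)) ∂P := by
  have hV' : Measurable (fun ω => (WithLp.toLp 2 (V ω) : EuclideanSpace ℝ T)) :=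
    (WithLp.measurable_toLp 2 (T → ℝ)).comp hV
  rw [charFun_apply, integral_map hV'.aemeasurable (by
    refine Continuous.aestronglyMeasurable ?_
    fun_prop)]
  rw [integral_withDensity_eq_integral_toReal_smul₀ hR.aestronglyMeasurable.aemeasurable.ennreal_ofReal
    (Eventually.of_forall fun ω => ENNReal.ofReal_lt_top)]
  refine integral_congr_ae (Eventually.of_forall fun ω => ?_)
  simp only [ENNReal.toReal_ofReal', Complex.real_smul]
  congr 2
  rw [mul_comm Complex.I]
  congr 2

lemma integral_zero_of_fourier [IsFiniteMeasure P] {T : Type*} [Fintype T] {V : Ω → T → ℝ}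
    (hV : Measurable V) {R : Ω → ℝ} (hR : Integrable R P)
    (hc : ∀ x : T → ℝ, ∫ ω, R ω * Real.cos (∑ t, x t * V ω t) ∂P = 0)
    (hs : ∀ x : T → ℝ, ∫ ω, R ω * Real.sin (∑ t, x t * V ω t) ∂P = 0)
    {S : Set (T → ℝ)} (hS : MeasurableSet S) : ∫ ω in V ⁻¹' S, R ω ∂P = 0 := by
  have hV' : Measurable (fun ω => (WithLp.toLp 2 (V ω) : EuclideanSpace ℝ T)) :=
    (WithLp.measurable_toLp 2 (T → ℝ)).comp hV
  set μp : Measure (EuclideanSpace ℝ T) := (P.withDensity fun ω => ENNReal.ofReal (R ω)).map
      (fun ω => (WithLp.toLp 2 (V ω) : EuclideanSpace ℝ T)) with hμp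
  set μn : Measure (EuclideanSpace ℝ T) := (P.withDensity fun ω => ENNReal.ofReal (-R ω)).map
      (fun ω => (WithLp.toLp 2 (V ω) : EuclideanSpace ℝ T)) with hμn
  have : IsFiniteMeasure (P.withDensity fun ω => ENNReal.ofReal (R ω)) :=
    isFiniteMeasure_withDensity_ofReal hR.2
  have : IsFiniteMeasure (P.withDensity fun ω => ENNReal.ofReal (-R ω)) :=
    isFiniteMeasure_withDensity_ofReal hR.neg.2
  have : IsFiniteMeasure μp := by rw [hμp]; infer_instance
  have : IsFiniteMeasure μn := by rw [hμn]; infer_instance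
  have hexp : ∀ x : T → ℝ, ∀ ω, ‖Complex.exp (Complex.I * ((∑ t, x t * V ω t : ℝ) : ℂ))‖ ≤ 1 := by
    intro x ω
    rw [mul_comm, Complex.norm_exp_ofReal_mul_I]
  have hmeas : ∀ x : T → ℝ, Measurable fun ω => Complex.exp (Complex.I *
      ((∑ t, x t * V ω t : ℝ) : ℂ)) := by
    intro x
    have h1 : Measurable fun ω => ∑ t, x t * V ω t :=
      Finset.measurable_sum _ fun t _ => ((measurable_pi_apply t).comp hV).const_mul _
    exact Complex.measurable_exp.comp ((Complex.measurable_ofReal.comp h1).const_mul _)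
  have hposI : Integrable (fun ω => max (R ω) 0) P := hR.pos_part
  have hnegI : Integrable (fun ω => max (-R ω) 0) P := hR.neg.pos_part
  have heq : μp = μn := by
    refine Measure.ext_of_charFun (funext fun x => ?_)
    have hRn : Integrable (fun ω => -R ω) P := hR.neg
    rw [hμp, hμn, integral_density_map hV hR x, integral_density_map hV hRn x]
    have hi1 : Integrable (fun ω => ((max (R ω) 0 : ℝ) : ℂ) *
        Complex.exp (Complex.I * ((∑ t, x t * V ω t : ℝ) : ℂ))) P :=
      hposI.ofReal.mul_bdd (c := 1) (hmeas _).aestronglyMeasurable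
        (Eventually.of_forall fun ω => hexp _ ω)
    have hi2 : Integrable (fun ω => ((max (-R ω) 0 : ℝ) : ℂ) *
        Complex.exp (Complex.I * ((∑ t, x t * V ω t : ℝ) : ℂ))) P :=
      hnegI.ofReal.mul_bdd (c := 1) (hmeas _).aestronglyMeasurable
        (Eventually.of_forall fun ω => hexp _ ω)
    rw [← sub_eq_zero, ← integral_sub hi1 hi2]
    have e : ∀ ω, ((max (R ω) 0 : ℝ) : ℂ) *
        Complex.exp (Complex.I * ((∑ t, x t * V ω t : ℝ) : ℂ)) - ((max (-R ω) 0 : ℝ) : ℂ) *
        Complex.exp (Complex.I * ((∑ t, x t * V ω t : ℝ) : ℂ)) =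
        ((R ω * Real.cos (∑ t, x t * V ω t) : ℝ) : ℂ) +
          ((R ω * Real.sin (∑ t, x t * V ω t) : ℝ) : ℂ) * Complex.I := by
      intro ω
      have h1 : ((max (R ω) 0 : ℝ) : ℂ) - ((max (-R ω) 0 : ℝ) : ℂ) = ((R ω : ℝ) : ℂ) := by
        rw [← Complex.ofReal_sub]
        congr 1
        rcases le_total 0 (R ω) with h | h
        · rw [max_eq_left h, max_eq_right (neg_nonpos.mpr h), sub_zero]
        · rw [max_eq_right h, max_eq_left (neg_nonneg.mpr h)]; ring
      rw [← sub_mul, h1, mul_comm Complex.I, Complex.exp_mul_I, ← Complex.ofReal_cos,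
        ← Complex.ofReal_sin]
      push_cast
      ring
    have hm1 : Measurable fun ω => ∑ t, x t * V ω t :=
      Finset.measurable_sum _ fun t _ => ((measurable_pi_apply t).comp hV).const_mul _
    have hi3 : Integrable (fun ω => ((R ω * Real.cos (∑ t, x t * V ω t) : ℝ) : ℂ)) P :=
      (hR.mul_bdd (c := 1) (Real.measurable_cos.comp hm1).aestronglyMeasurable
        (Eventually.of_forall fun ω => Real.abs_cos_le_one _)).ofReal
    have hi4 : Integrable (fun ω => ((R ω * Real.sin (∑ t, x t * V ω t) : ℝ) : ℂ) *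
        Complex.I) P :=
      ((hR.mul_bdd (c := 1) (Real.measurable_sin.comp hm1).aestronglyMeasurable
        (Eventually.of_forall fun ω => Real.abs_sin_le_one _)).ofReal).mul_const _
    have hcx : ∫ ω, ((R ω * Real.cos (∑ t, x t * V ω t) : ℝ) : ℂ) ∂P = 0 := by
      have h := integral_ofReal (μ := P) (𝕜 := ℂ) (f := fun ω => R ω * Real.cos (∑ t, x t * V ω t))
      rw [hc] at h
      simpa using h
    have hsx : ∫ ω, ((R ω * Real.sin (∑ t, x t * V ω t) : ℝ) : ℂ) ∂P = 0 := by
      have h := integral_ofReal (μ := P) (𝕜 := ℂ) (f := fun ω => R ω * Real.sin (∑ t, x t * V ω t))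
      rw [hs] at h
      simpa using h
    rw [integral_congr_ae (Eventually.of_forall e), integral_add hi3 hi4, integral_mul_const,
      hcx, hsx]
    simp
  -- evaluate on the set
  set S' : Set (EuclideanSpace ℝ T) := (WithLp.ofLp) ⁻¹' S with hS'
  have hS'm : MeasurableSet S' := (WithLp.measurable_ofLp 2 (T → ℝ)) hS
  have h1 := congrArg (fun μ : Measure (EuclideanSpace ℝ T) => μ S') heq
  simp only [hμp, hμn] at h1
  have hpre : (fun ω => (WithLp.toLp 2 (V ω) : EuclideanSpace ℝ T)) ⁻¹' S' = V ⁻¹' S := rfl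
  have hVS : MeasurableSet (V ⁻¹' S) := hV hS
  rw [Measure.map_apply hV' hS'm, Measure.map_apply hV' hS'm, hpre, withDensity_apply _ hVS,
    withDensity_apply _ hVS] at h1
  rw [integral_eq_lintegral_pos_part_sub_lintegral_neg_part hR.integrableOn, h1, sub_self]

/-! ### Differentiation of the characteristic function -/

section deriv

variable {ι : Type*} [Fintype ι] [DecidableEq ι]

lemma sum_update (y v : ι → ℝ) (j : ι) (s : ℝ) :
    ∑ i, (y i + if i = j then s else 0) * v i = ∑ i, y i * v i + s * v j := by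
  simp [add_mul, Finset.sum_add_distrib]

lemma quad_update (y : ι → ℝ) (K : ι → ι → ℝ) (hK : ∀ i j, K i j = K j i) (j : ι) (s : ℝ) :
    ∑ i, ∑ i', (y i + if i = j then s else 0) * (y i' + if i' = j then s else 0) * K i i' =
      ∑ i, ∑ i', y i * y i' * K i i' + 2 * s * ∑ i, y i * K j i + s ^ 2 * K j j := by
  have e : ∀ i i', (y i + if i = j then s else 0) * (y i' + if i' = j then s else 0) * K i i' =
      y i * y i' * K i i' + y i * (if i' = j then s else 0) * K i i' +
      (if i = j then s else 0) * y i' * K i i' +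
      (if i = j then s else 0) * (if i' = j then s else 0) * K i i' := by
    intro i i'; ring
  simp only [e, Finset.sum_add_distrib]
  have h1 : ∑ i, ∑ i', y i * (if i' = j then s else 0) * K i i' = s * ∑ i, y i * K j i := by
    rw [Finset.mul_sum]
    refine Finset.sum_congr rfl fun i _ => ?_
    rw [Finset.sum_eq_single j]
    · simp only [if_true]; rw [hK i j]; ring
    · intro b _ hb; simp [hb]
    · intro h; exact absurd (Finset.mem_univ j) h
  have h2 : ∑ i, ∑ i', (if i = j then s else 0) * y i' * K i i' = s * ∑ i, y i * K j i := by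
    rw [Finset.sum_eq_single j, Finset.mul_sum]
    · refine Finset.sum_congr rfl fun i _ => ?_
      simp only [if_true]; ring
    · intro b _ hb; simp [hb]
    · intro h; exact absurd (Finset.mem_univ j) h
  have h3 : ∑ i, ∑ i', (if i = j then s else 0) * (if i' = j then s else 0) * K i i' =
      s ^ 2 * K j j := by
    rw [Finset.sum_eq_single j, Finset.sum_eq_single j]
    · simp only [if_true]; ring
    · intro b _ hb; simp [hb]
    · intro h; exact absurd (Finset.mem_univ j) h
    · intro b _ hb; simp [hb]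
    · intro h; exact absurd (Finset.mem_univ j) h
  rw [h1, h2, h3]; ring

variable {V : Ω → ι → ℝ} {K : Ω → ι → ι → ℝ}

/-- first derivatives of the characteristic function in integrated form on a set `D` on which the
covariance is bounded. -/
lemma deriv_charFun [IsFiniteMeasure P] (hV : Measurable V)
    (hVi : ∀ i, Integrable (fun ω => V ω i) P)
    (hKm : ∀ i j, Measurable fun ω => K ω i j) (hKs : ∀ ω i j, K ω i j = K ω j i)
    {D : Set Ω} (hD : MeasurableSet D) {N : ℝ} (hN : ∀ ω ∈ D, ∀ i j, |K ω i j| ≤ N)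
    (h1 : ∀ y : ι → ℝ, ∫ ω in D, Real.cos (∑ i, y i * V ω i) ∂P =
      ∫ ω in D, Real.exp (-(1 / 2) * ∑ i, ∑ j, y i * y j * K ω i j) ∂P)
    (h2 : ∀ y : ι → ℝ, ∫ ω in D, Real.sin (∑ i, y i * V ω i) ∂P = 0) (j : ι) (y : ι → ℝ) :
    ∫ ω in D, V ω j * Real.sin (∑ i, y i * V ω i) ∂P =
      ∫ ω in D, (∑ i, y i * K ω j i) *
        Real.exp (-(1 / 2) * ∑ i, ∑ j, y i * y j * K ω i j) ∂P ∧
    ∫ ω in D, V ω j * Real.cos (∑ i, y i * V ω i) ∂P = 0 := by
  set Q : Measure Ω := P.restrict D with hQ
  set A : Ω → ℝ := fun ω => ∑ i, y i * V ω i with hA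
  set B : Ω → ℝ := fun ω => ∑ i, ∑ j, y i * y j * K ω i j with hB
  set L : Ω → ℝ := fun ω => ∑ i, y i * K ω j i with hL
  have hAm : Measurable A :=
    Finset.measurable_sum _ fun t _ => ((measurable_pi_apply t).comp hV).const_mul _
  have hBm : Measurable B :=
    Finset.measurable_sum _ fun i _ => Finset.measurable_sum _ fun j _ => (hKm i j).const_mul _
  have hLm : Measurable L := Finset.measurable_sum _ fun i _ => (hKm j i).const_mul _
  have hVj : Measurable fun ω => V ω j := (measurable_pi_apply j).comp hV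
  have hVjQ : Integrable (fun ω => V ω j) Q := (hVi j).mono_measure Measure.restrict_le_self
  -- derivative of the trigonometric sides
  have hdc : HasDerivAt (fun s => ∫ ω, Real.cos (A ω + s * V ω j) ∂Q)
      (∫ ω, -(V ω j * Real.sin (A ω)) ∂Q) 0 := by
    have h := hasDerivAt_integral_of_dominated_loc_of_deriv_le (μ := Q) (x₀ := (0 : ℝ))
      (s := Set.univ) (F := fun s ω => Real.cos (A ω + s * V ω j))
      (F' := fun s ω => -(V ω j * Real.sin (A ω + s * V ω j))) (bound := fun ω => |V ω j|)
      Filter.univ_mem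
      (Eventually.of_forall fun s => (Real.measurable_cos.comp
        (hAm.add (hVj.const_mul s))).aestronglyMeasurable)
      (by
        refine Integrable.of_bound (C := 1) (Real.measurable_cos.comp
          (hAm.add (hVj.const_mul 0))).aestronglyMeasurable (Eventually.of_forall fun ω => ?_)
        exact Real.abs_cos_le_one _)
      ((hVj.mul (Real.measurable_sin.comp (hAm.add (hVj.const_mul 0)))).neg.aestronglyMeasurable)
      (Eventually.of_forall fun ω s _ => by
        rw [norm_neg, norm_mul, Real.norm_eq_abs, Real.norm_eq_abs]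
        exact mul_le_of_le_one_right (abs_nonneg _) (Real.abs_sin_le_one _))
      hVjQ.abs
      (Eventually.of_forall fun ω s _ => by
        have e : HasDerivAt (fun x => Real.cos (A ω + x * V ω j))
            (-Real.sin (A ω + s * V ω j) * (1 * V ω j)) s :=
          (((hasDerivAt_id s).mul_const (V ω j)).const_add (A ω)).cos
        have e' : -(V ω j * Real.sin (A ω + s * V ω j)) =
            -Real.sin (A ω + s * V ω j) * (1 * V ω j) := by ring
        rw [e']
        exact e)
    have h' := h.2
    simpa using h'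
  have hds : HasDerivAt (fun s => ∫ ω, Real.sin (A ω + s * V ω j) ∂Q)
      (∫ ω, (V ω j * Real.cos (A ω)) ∂Q) 0 := by
    have h := hasDerivAt_integral_of_dominated_loc_of_deriv_le (μ := Q) (x₀ := (0 : ℝ))
      (s := Set.univ) (F := fun s ω => Real.sin (A ω + s * V ω j))
      (F' := fun s ω => (V ω j * Real.cos (A ω + s * V ω j))) (bound := fun ω => |V ω j|)
      Filter.univ_mem
      (Eventually.of_forall fun s => (Real.measurable_sin.comp
        (hAm.add (hVj.const_mul s))).aestronglyMeasurable)
      (by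
        refine Integrable.of_bound (C := 1) (Real.measurable_sin.comp
          (hAm.add (hVj.const_mul 0))).aestronglyMeasurable (Eventually.of_forall fun ω => ?_)
        exact Real.abs_sin_le_one _)
      ((hVj.mul (Real.measurable_cos.comp (hAm.add (hVj.const_mul 0)))).aestronglyMeasurable)
      (Eventually.of_forall fun ω s _ => by
        rw [norm_mul, Real.norm_eq_abs, Real.norm_eq_abs]
        exact mul_le_of_le_one_right (abs_nonneg _) (Real.abs_cos_le_one _))
      hVjQ.abs
      (Eventually.of_forall fun ω s _ => by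
        have e : HasDerivAt (fun x => Real.sin (A ω + x * V ω j))
            (Real.cos (A ω + s * V ω j) * (1 * V ω j)) s :=
          (((hasDerivAt_id s).mul_const (V ω j)).const_add (A ω)).sin
        have e' : V ω j * Real.cos (A ω + s * V ω j) =
            Real.cos (A ω + s * V ω j) * (1 * V ω j) := by ring
        rw [e']
        exact e)
    have h' := h.2
    simpa using h'
  -- derivative of the Gaussian side
  have hN0 : ∀ᵐ ω ∂Q, |B ω| ≤ (∑ i, ∑ j, |y i * y j|) * N ∧ |L ω| ≤ (∑ i, |y i|) * N ∧
      |K ω j j| ≤ N := by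
    filter_upwards [ae_restrict_mem hD] with ω hω
    refine ⟨?_, ?_, hN ω hω j j⟩
    · rw [hB, Finset.sum_mul]
      refine (Finset.abs_sum_le_sum_abs _ _).trans (Finset.sum_le_sum fun i _ => ?_)
      rw [Finset.sum_mul]
      refine (Finset.abs_sum_le_sum_abs _ _).trans (Finset.sum_le_sum fun j _ => ?_)
      rw [abs_mul]
      exact mul_le_mul_of_nonneg_left (hN ω hω i j) (abs_nonneg _)
    · rw [hL, Finset.sum_mul]
      refine (Finset.abs_sum_le_sum_abs _ _).trans (Finset.sum_le_sum fun i _ => ?_)
      rw [abs_mul]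
      exact mul_le_mul_of_nonneg_left (hN ω hω j i) (abs_nonneg _)
  set b1 : ℝ := (∑ i, ∑ j, |y i * y j|) * N with hb1
  set b2 : ℝ := (∑ i, |y i|) * N with hb2
  have hdg : HasDerivAt (fun s => ∫ ω, Real.exp (-(1 / 2) * (B ω + 2 * s * L ω + s ^ 2 * K ω j j))
      ∂Q) (∫ ω, -(L ω * Real.exp (-(1 / 2) * B ω)) ∂Q) 0 := by
    have hm : ∀ s, Measurable fun ω => -(1 / 2) * (B ω + 2 * s * L ω + s ^ 2 * K ω j j) :=
      fun s => ((hBm.add (hLm.const_mul _)).add ((hKm j j).const_mul _)).const_mul _
    have h := hasDerivAt_integral_of_dominated_loc_of_deriv_le (μ := Q) (x₀ := (0 : ℝ))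
      (s := Metric.ball 0 1)
      (F := fun s ω => Real.exp (-(1 / 2) * (B ω + 2 * s * L ω + s ^ 2 * K ω j j)))
      (F' := fun s ω => -((L ω + s * K ω j j) *
        Real.exp (-(1 / 2) * (B ω + 2 * s * L ω + s ^ 2 * K ω j j))))
      (bound := fun _ => (b2 + N) * Real.exp (b1 + 2 * b2 + N))
      (Metric.ball_mem_nhds _ one_pos)
      (Eventually.of_forall fun s => (Real.measurable_exp.comp (hm s)).aestronglyMeasurable)
      (by
        refine Integrable.of_bound (C := Real.exp (b1 + 2 * b2 + N))
          (Real.measurable_exp.comp (hm 0)).aestronglyMeasurable ?_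
        filter_upwards [hN0] with ω hω
        obtain ⟨q1, q2, q3⟩ := hω
        rw [Real.norm_eq_abs, abs_of_pos (Real.exp_pos _)]
        refine Real.exp_le_exp.mpr ?_
        have a1 := abs_le.mp q1
        have a2 := (abs_nonneg _).trans q2
        have a3 := (abs_nonneg _).trans q3
        have a4 := (abs_nonneg _).trans q1
        nlinarith)
      (((hLm.add ((hKm j j).const_mul 0)).mul (Real.measurable_exp.comp (hm 0))).neg
        |>.aestronglyMeasurable)
      (by
        filter_upwards [hN0] with ω hω s hs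
        obtain ⟨q1, q2, q3⟩ := hω
        rw [Metric.mem_ball, dist_zero_right, Real.norm_eq_abs] at hs
        rw [norm_neg, norm_mul, Real.norm_eq_abs, Real.norm_eq_abs, abs_of_pos (Real.exp_pos _)]
        have c1 : |L ω + s * K ω j j| ≤ b2 + N := by
          refine (abs_add_le _ _).trans (add_le_add q2 ?_)
          rw [abs_mul]
          have := mul_le_mul hs.le q3 (abs_nonneg _) zero_le_one
          linarith
        have c2 : -(1 / 2) * (B ω + 2 * s * L ω + s ^ 2 * K ω j j) ≤ b1 + 2 * b2 + N := by
          have a1 := abs_le.mp q1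
          have a0 : 0 ≤ b1 := (abs_nonneg _).trans q1
          have a2 : |s * L ω| ≤ b2 := by
            rw [abs_mul]
            have := mul_le_mul hs.le q2 (abs_nonneg _) zero_le_one
            linarith
          have a3 : |s ^ 2 * K ω j j| ≤ N := by
            rw [abs_mul, abs_pow]
            have h5 : |s| ^ 2 ≤ 1 := pow_le_one₀ (abs_nonneg _) hs.le
            have := mul_le_mul h5 q3 (abs_nonneg _) zero_le_one
            linarith
          have a2' := abs_le.mp a2
          have a3' := abs_le.mp a3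
          have a20 : 0 ≤ b2 := (abs_nonneg _).trans a2
          have a30 : 0 ≤ N := (abs_nonneg _).trans a3
          linarith
        exact mul_le_mul c1 (Real.exp_le_exp.mpr c2) (Real.exp_pos _).le
          ((abs_nonneg _).trans c1))
      (integrable_const _)
      (Eventually.of_forall fun ω s _ => by
        have e1 : HasDerivAt (fun s : ℝ => -(1 / 2) * (B ω + 2 * s * L ω + s ^ 2 * K ω j j))
            (-(L ω + s * K ω j j)) s := by
          have d1 : HasDerivAt (fun s : ℝ => 2 * s * L ω) (2 * L ω) s := by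
            simpa using (((hasDerivAt_id s).const_mul 2).mul_const (L ω))
          have d2 : HasDerivAt (fun s : ℝ => s ^ 2 * K ω j j) (2 * s * K ω j j) s := by
            simpa using ((hasDerivAt_pow 2 s).mul_const (K ω j j))
          have d3 : HasDerivAt (fun s : ℝ => -(1 / 2) * (B ω + 2 * s * L ω + s ^ 2 * K ω j j))
              (-(1 / 2) * (2 * L ω + 2 * s * K ω j j)) s :=
            ((d1.const_add (B ω)).add d2).const_mul (-(1 / 2 : ℝ))
          have e' : -(L ω + s * K ω j j) = -(1 / 2) * (2 * L ω + 2 * s * K ω j j) := by ring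
          rw [e']
          exact d3
        have e2 : HasDerivAt (fun s : ℝ => Real.exp (-(1 / 2) * (B ω + 2 * s * L ω +
            s ^ 2 * K ω j j))) (Real.exp (-(1 / 2) * (B ω + 2 * s * L ω + s ^ 2 * K ω j j)) *
            -(L ω + s * K ω j j)) s := e1.exp
        have e3 : -((L ω + s * K ω j j) * Real.exp (-(1 / 2) * (B ω + 2 * s * L ω +
            s ^ 2 * K ω j j))) = Real.exp (-(1 / 2) * (B ω + 2 * s * L ω + s ^ 2 * K ω j j)) *
            -(L ω + s * K ω j j) := by ring
        rw [e3]
        exact e2)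
    have h' := h.2
    simpa using h'
  -- comparison
  have hc' : (fun s => ∫ ω, Real.cos (A ω + s * V ω j) ∂Q) =
      fun s => ∫ ω, Real.exp (-(1 / 2) * (B ω + 2 * s * L ω + s ^ 2 * K ω j j)) ∂Q := by
    funext s
    have h := h1 (fun i => y i + if i = j then s else 0)
    have e1 : ∀ ω, ∑ i, (y i + if i = j then s else 0) * V ω i = A ω + s * V ω j :=
      fun ω => sum_update y (V ω) j s
    have e2 : ∀ ω, ∑ i, ∑ i', (y i + if i = j then s else 0) *
        (y i' + if i' = j then s else 0) * K ω i i' = B ω + 2 * s * L ω + s ^ 2 * K ω j j :=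
      fun ω => quad_update y (K ω) (hKs ω) j s
    simp only [e1, e2] at h
    exact h
  have hs' : (fun s => ∫ ω, Real.sin (A ω + s * V ω j) ∂Q) = fun _ => 0 := by
    funext s
    have h := h2 (fun i => y i + if i = j then s else 0)
    have e1 : ∀ ω, ∑ i, (y i + if i = j then s else 0) * V ω i = A ω + s * V ω j :=
      fun ω => sum_update y (V ω) j s
    simp only [e1] at h
    exact h
  constructor
  · rw [hc'] at hdc
    have h := hdc.unique hdg
    rw [integral_neg, integral_neg] at h
    linarith
  · rw [hs'] at hds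
    exact hds.unique (hasDerivAt_const _ _)

end deriv

end Crest.Agent.R166.Mart663
end
end

-- ▼ part R166/MartH_663
section

/-!
# Row 166, section 42: Gaussian regression given an environment, main theorem (helper663)
-/

set_option autoImplicit false

noncomputable section

open MeasureTheory ProbabilityTheory Filter
open scoped ENNReal

namespace Crest.Agent.R166.Mart663

variable {Ω : Type*} {C Env FX m0 : MeasurableSpace Ω} {P : Measure Ω}

/-- equality of integrals over all sets of `FX` may be multiplied by bounded weights. -/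
lemma setIntegral_mul_of_forall [IsFiniteMeasure P] (hFX : FX ≤ m0) {a b : Ω → ℝ}
    (ha : Integrable a P) (hb : Integrable b P) (hbm : StronglyMeasurable[FX] b)
    (h : ∀ D, MeasurableSet[FX] D → ∫ ω in D, a ω ∂P = ∫ ω in D, b ω ∂P)
    {ℓ : Ω → ℝ} (hℓ : StronglyMeasurable[FX] ℓ) {c : ℝ} (hc : ∀ ω, |ℓ ω| ≤ c)
    {D : Set Ω} (hD : MeasurableSet[FX] D) :
    ∫ ω in D, ℓ ω * a ω ∂P = ∫ ω in D, ℓ ω * b ω ∂P := by
  have h1 : b =ᵐ[P] P[a | FX] :=
    ae_eq_condExp_of_forall_setIntegral_eq hFX ha (fun _ _ _ => hb.integrableOn)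
      (fun D hD _ => (h D hD).symm) hbm.aestronglyMeasurable
  have hint : Integrable (fun ω => ℓ ω * a ω) P :=
    ha.bdd_mul (c := c) (hℓ.mono hFX).aestronglyMeasurable
      (Eventually.of_forall fun ω => hc ω)
  have h2 : P[fun ω => ℓ ω * a ω | FX] =ᵐ[P] ℓ * P[a | FX] :=
    condExp_mul_of_stronglyMeasurable_left hℓ hint ha
  rw [← setIntegral_condExp hFX hint hD]
  refine setIntegral_congr_ae (hFX D hD) ?_
  filter_upwards [h1, h2] with ω e1 e2 _
  rw [e2, Pi.mul_apply, ← e1]

variable {ι : Type*} [Fintype ι] [DecidableEq ι]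

/-- real form of the characteristic function hypothesis. -/
lemma real_of_complex [IsFiniteMeasure P] (hFX : FX ≤ m0) {V : Ω → ι → ℝ}
    {K : Ω → ι → ι → ℝ} (hV : Measurable V)
    (hch : ∀ y : ι → ℝ, P[fun ω => Complex.exp (Complex.I * ((∑ i, y i * V ω i : ℝ) : ℂ)) | FX]
      =ᵐ[P] fun ω => Complex.exp (((-(1 / 2) * ∑ i, ∑ j, y i * y j * K ω i j : ℝ)) : ℂ))
    {D : Set Ω} (hD : MeasurableSet[FX] D) (y : ι → ℝ) :
    ∫ ω in D, Real.cos (∑ i, y i * V ω i) ∂P =
      ∫ ω in D, Real.exp (-(1 / 2) * ∑ i, ∑ j, y i * y j * K ω i j) ∂P ∧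
    ∫ ω in D, Real.sin (∑ i, y i * V ω i) ∂P = 0 := by
  have hm : Measurable fun ω => ∑ i, y i * V ω i :=
    Finset.measurable_sum _ fun t _ => ((measurable_pi_apply t).comp hV).const_mul _
  have hint : Integrable (fun ω => Complex.exp (Complex.I * ((∑ i, y i * V ω i : ℝ) : ℂ))) P := by
    refine Integrable.of_bound (C := 1) ?_ (Eventually.of_forall fun ω => ?_)
    · exact (Complex.measurable_exp.comp
        ((Complex.measurable_ofReal.comp hm).const_mul _)).aestronglyMeasurable
    · rw [mul_comm, Complex.norm_exp_ofReal_mul_I]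
  have h1 : ∫ ω in D, Complex.exp (Complex.I * ((∑ i, y i * V ω i : ℝ) : ℂ)) ∂P =
      ∫ ω in D, Complex.exp (((-(1 / 2) * ∑ i, ∑ j, y i * y j * K ω i j : ℝ)) : ℂ) ∂P := by
    rw [← setIntegral_condExp hFX hint hD]
    exact setIntegral_congr_ae (hFX D hD) ((hch y).mono fun ω h _ => h)
  have h2 : ∫ ω in D, Complex.exp (((-(1 / 2) * ∑ i, ∑ j, y i * y j * K ω i j : ℝ)) : ℂ) ∂P =
      ((∫ ω in D, Real.exp (-(1 / 2) * ∑ i, ∑ j, y i * y j * K ω i j) ∂P : ℝ) : ℂ) := by
    rw [← integral_complex_ofReal]
    refine integral_congr_ae (Eventually.of_forall fun ω => ?_)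
    simp only [Complex.ofReal_exp]
  have hintc : Integrable (fun ω => Real.cos (∑ i, y i * V ω i)) (P.restrict D) :=
    Integrable.of_bound (C := 1) (Real.measurable_cos.comp hm).aestronglyMeasurable
      (Eventually.of_forall fun ω => Real.abs_cos_le_one _)
  have hints : Integrable (fun ω => Real.sin (∑ i, y i * V ω i)) (P.restrict D) :=
    Integrable.of_bound (C := 1) (Real.measurable_sin.comp hm).aestronglyMeasurable
      (Eventually.of_forall fun ω => Real.abs_sin_le_one _)
  have h3 : ∫ ω in D, Complex.exp (Complex.I * ((∑ i, y i * V ω i : ℝ) : ℂ)) ∂P =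
      ((∫ ω in D, Real.cos (∑ i, y i * V ω i) ∂P : ℝ) : ℂ) +
        ((∫ ω in D, Real.sin (∑ i, y i * V ω i) ∂P : ℝ) : ℂ) * Complex.I := by
    rw [← integral_complex_ofReal, ← integral_complex_ofReal, ← integral_mul_const,
      ← integral_add hintc.ofReal (hints.ofReal.mul_const _)]
    refine integral_congr_ae (Eventually.of_forall fun ω => ?_)
    simp only []
    rw [mul_comm, Complex.exp_mul_I, ← Complex.ofReal_cos, ← Complex.ofReal_sin]
  rw [h3, h2] at h1
  have hre := congrArg Complex.re h1
  have him := congrArg Complex.im h1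
  simp only [Complex.add_re, Complex.ofReal_re, Complex.mul_re, Complex.I_re, mul_zero,
    Complex.ofReal_im, Complex.I_im, mul_one, sub_self, add_zero] at hre
  simp only [Complex.add_im, Complex.ofReal_im, Complex.mul_im, Complex.ofReal_re, Complex.I_im,
    mul_one, Complex.I_re, mul_zero, add_zero, zero_add] at him
  exact ⟨hre, him⟩

/-- `V` with the coordinate `o` erased. -/
def erase (V : Ω → ι → ℝ) (o : ι) (ω : Ω) (i : ι) : ℝ := if i = o then 0 else V ω i

/-- **Gaussian regression given the environment.** -/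
theorem gauss_regression [IsProbabilityMeasure P] (hFX : FX ≤ m0) (hEF : Env ≤ FX)
    {V : Ω → ι → ℝ} {K : Ω → ι → ι → ℝ} (hV : Measurable V)
    (hVi : ∀ i, Integrable (fun ω => V ω i) P)
    (hKm : ∀ i j, Measurable[Env] fun ω => K ω i j) (hKs : ∀ ω i j, K ω i j = K ω j i)
    (hch : ∀ y : ι → ℝ, P[fun ω => Complex.exp (Complex.I * ((∑ i, y i * V ω i : ℝ) : ℂ)) | FX]
      =ᵐ[P] fun ω => Complex.exp (((-(1 / 2) * ∑ i, ∑ j, y i * y j * K ω i j : ℝ)) : ℂ))
    (o : ι) {ℓ : Ω → ι → ℝ} (hℓm : ∀ i, Measurable[Env] fun ω => ℓ ω i)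
    (hreg : ∀ᵐ ω ∂P, ∀ j, j ≠ o → K ω o j = ∑ i, ℓ ω i * K ω i j)
    (hEC : Env ≤ C) (hC : C ≤ FX ⊔ MeasurableSpace.comap (erase V o) inferInstance) :
    P[fun ω => V ω o | C] =ᵐ[P] fun ω => ∑ i, ℓ ω i * (P[fun ω => V ω i | C]) ω := by
  have hEm : Env ≤ m0 := hEF.trans hFX
  have hKm0 : ∀ i j, Measurable fun ω => K ω i j := fun i j => (hKm i j).mono hEm le_rfl
  have hℓm0 : ∀ i, Measurable fun ω => ℓ ω i := fun i => (hℓm i).mono hEm le_rfl
  have hVe : Measurable (erase V o) := by
    refine measurable_pi_lambda _ fun i => ?_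
    unfold erase
    by_cases h : i = o
    · simp only [h, if_true]; exact measurable_const
    · simp only [h, if_false]; exact (measurable_pi_apply i).comp hV
  have hCm : C ≤ m0 := hC.trans (sup_le hFX hVe.comap_le)
  -- the truncation sets
  let EN : ℕ → Set Ω := fun N => {ω | (∀ i j, |K ω i j| ≤ N) ∧ ∀ i, |ℓ ω i| ≤ N}
  have hEN : ∀ N, MeasurableSet[Env] (EN N) := by
    intro N
    have h1 : MeasurableSet[Env] {ω | ∀ i j, |K ω i j| ≤ N} := by
      have : {ω | ∀ i j, |K ω i j| ≤ (N : ℝ)} = ⋂ i, ⋂ j, {ω | |K ω i j| ≤ (N : ℝ)} := by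
        ext ω; simp
      rw [this]
      refine MeasurableSet.iInter fun i => MeasurableSet.iInter fun j => ?_
      exact hKm i j (isClosed_le continuous_abs continuous_const).measurableSet
    have h2 : MeasurableSet[Env] {ω | ∀ i, |ℓ ω i| ≤ N} := by
      have : {ω | ∀ i, |ℓ ω i| ≤ (N : ℝ)} = ⋂ i, {ω | |ℓ ω i| ≤ (N : ℝ)} := by
        ext ω; simp
      rw [this]
      refine MeasurableSet.iInter fun i => ?_
      exact hℓm i (isClosed_le continuous_abs continuous_const).measurableSet
    exact @MeasurableSet.inter Ω Env _ _ h1 h2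
  have hcov : ∀ ω, ∃ N : ℕ, ω ∈ EN N := by
    intro ω
    obtain ⟨N, hN⟩ := exists_nat_ge ((∑ i, ∑ j, |K ω i j|) + ∑ i, |ℓ ω i|)
    have p1 : 0 ≤ ∑ i, ∑ j, |K ω i j| :=
      Finset.sum_nonneg fun i _ => Finset.sum_nonneg fun j _ => abs_nonneg _
    have p2 : 0 ≤ ∑ i, |ℓ ω i| := Finset.sum_nonneg fun i _ => abs_nonneg _
    refine ⟨N, fun i j => ?_, fun i => ?_⟩
    · have h1 : |K ω i j| ≤ ∑ j, |K ω i j| :=
        Finset.single_le_sum (f := fun j => |K ω i j|) (fun j _ => abs_nonneg _)
          (Finset.mem_univ j)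
      have h2 : ∑ j, |K ω i j| ≤ ∑ i, ∑ j, |K ω i j| :=
        Finset.single_le_sum (f := fun i => ∑ j, |K ω i j|)
          (fun i _ => Finset.sum_nonneg fun j _ => abs_nonneg _) (Finset.mem_univ i)
      linarith
    · have h1 : |ℓ ω i| ≤ ∑ i, |ℓ ω i| :=
        Finset.single_le_sum (f := fun i => |ℓ ω i|) (fun j _ => abs_nonneg _)
          (Finset.mem_univ i)
      linarith
  -- main step on one truncation set
  have main : ∀ N : ℕ, ∀ᵐ ω ∂P, ω ∈ EN N →
      (P[fun ω => V ω o | C]) ω = ∑ i, ℓ ω i * (P[fun ω => V ω i | C]) ω := by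
    intro N
    set E := EN N with hE
    have hEFX : MeasurableSet[FX] E := hEF _ (hEN N)
    have hE0 : MeasurableSet E := hFX _ hEFX
    have hEC' : MeasurableSet[C] E := hEC _ (hEN N)
    -- truncated weights
    set ℓ' : ι → Ω → ℝ := fun i => E.indicator fun ω => ℓ ω i with hℓ'
    have hℓ'm : ∀ i, Measurable[Env] (ℓ' i) := by
      intro i
      show Measurable[Env] (E.indicator fun ω => ℓ ω i)
      exact (hℓm i).indicator (hEN N)
    have hℓ'b : ∀ i ω, |ℓ' i ω| ≤ N := by
      intro i ω
      by_cases h : ω ∈ E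
      · simp only [hℓ', Set.indicator_of_mem h]; exact h.2 i
      · simp only [hℓ', Set.indicator_of_notMem h, abs_zero]; exact Nat.cast_nonneg N
    set A : (ι → ℝ) → Ω → ℝ := fun y ω => ∑ i, y i * V ω i with hA
    have hAm : ∀ y, Measurable (A y) := fun y =>
      Finset.measurable_sum _ fun t _ => ((measurable_pi_apply t).comp hV).const_mul _
    set G : (ι → ℝ) → Ω → ℝ := fun y ω =>
      Real.exp (-(1 / 2) * ∑ i, ∑ j, y i * y j * K ω i j) with hG
    set L : (ι → ℝ) → ι → Ω → ℝ := fun y j ω => ∑ i, y i * K ω j i with hL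
    have hGm : ∀ y, Measurable[Env] (G y) := fun y =>
      Real.measurable_exp.comp (Measurable.const_mul
        (Finset.measurable_sum _ fun i _ => Finset.measurable_sum _ fun j _ =>
          (hKm i j).const_mul _) _)
    have hLm : ∀ y j, Measurable[Env] (L y j) := fun y j =>
      Finset.measurable_sum _ fun i _ => (hKm j i).const_mul _
    -- derivatives on `D ∩ E`
    have hder : ∀ D, MeasurableSet[FX] D → ∀ (y : ι → ℝ) (j : ι),
        ∫ ω in D, E.indicator (fun ω => V ω j * Real.sin (A y ω)) ω ∂P =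
          ∫ ω in D, E.indicator (fun ω => L y j ω * G y ω) ω ∂P ∧
        ∫ ω in D, E.indicator (fun ω => V ω j * Real.cos (A y ω)) ω ∂P = 
          ∫ ω in D, (fun _ => (0 : ℝ)) ω ∂P := by
      intro D hD y j
      have hDE : MeasurableSet[FX] (D ∩ E) := @MeasurableSet.inter Ω FX _ _ hD hEFX
      have h := deriv_charFun (P := P) hV hVi hKm0 hKs (hFX _ hDE) (N := N)
        (fun ω hω i j => hω.2.1 i j)
        (fun y => (real_of_complex hFX hV hch hDE y).1)
        (fun y => (real_of_complex hFX hV hch hDE y).2) j y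
      rw [setIntegral_indicator hE0, setIntegral_indicator hE0, setIntegral_indicator hE0]
      refine ⟨h.1, ?_⟩
      rw [h.2]; simp
    have hVsI : ∀ y j, Integrable (E.indicator fun ω => V ω j * Real.sin (A y ω)) P := fun y j =>
      ((hVi j).mul_bdd (c := 1) (Real.measurable_sin.comp (hAm y)).aestronglyMeasurable
        (Eventually.of_forall fun ω => Real.abs_sin_le_one _)).indicator hE0
    have hVcI : ∀ y j, Integrable (E.indicator fun ω => V ω j * Real.cos (A y ω)) P := fun y j =>
      ((hVi j).mul_bdd (c := 1) (Real.measurable_cos.comp (hAm y)).aestronglyMeasurable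
        (Eventually.of_forall fun ω => Real.abs_cos_le_one _)).indicator hE0
    have hLG : ∀ y j ω, |E.indicator (fun ω => L y j ω * G y ω) ω| ≤
        ((∑ i, |y i|) * N) * Real.exp ((∑ i, ∑ j, |y i * y j|) * N) := by
      intro y j ω
      have hs0 : 0 ≤ (∑ i, |y i|) * (N : ℝ) :=
        mul_nonneg (Finset.sum_nonneg fun i _ => abs_nonneg _) (Nat.cast_nonneg N)
      by_cases h : ω ∈ E
      · rw [Set.indicator_of_mem h, abs_mul]
        have b1 : |L y j ω| ≤ (∑ i, |y i|) * N := by
          simp only [hL]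
          rw [Finset.sum_mul]
          refine (Finset.abs_sum_le_sum_abs _ _).trans (Finset.sum_le_sum fun i _ => ?_)
          rw [abs_mul]
          exact mul_le_mul_of_nonneg_left (h.1 j i) (abs_nonneg _)
        have b2 : |∑ i, ∑ j, y i * y j * K ω i j| ≤ (∑ i, ∑ j, |y i * y j|) * N := by
          rw [Finset.sum_mul]
          refine (Finset.abs_sum_le_sum_abs _ _).trans (Finset.sum_le_sum fun i _ => ?_)
          rw [Finset.sum_mul]
          refine (Finset.abs_sum_le_sum_abs _ _).trans (Finset.sum_le_sum fun j _ => ?_)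
          rw [abs_mul]
          exact mul_le_mul_of_nonneg_left (h.1 i j) (abs_nonneg _)
        have b3 : |G y ω| ≤ Real.exp ((∑ i, ∑ j, |y i * y j|) * N) := by
          simp only [hG]
          rw [abs_of_pos (Real.exp_pos _)]
          refine Real.exp_le_exp.mpr ?_
          have := abs_le.mp b2
          have b0 := (abs_nonneg _).trans b2
          linarith
        exact mul_le_mul b1 b3 (abs_nonneg _) hs0
      · rw [Set.indicator_of_notMem h, abs_zero]
        exact mul_nonneg hs0 (Real.exp_pos _).le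
    have hLGm : ∀ y j, Measurable[Env] (E.indicator fun ω => L y j ω * G y ω) := by
      intro y j
      exact ((hLm y j).mul (hGm y)).indicator (hEN N)
    have hLGI : ∀ y j, Integrable (E.indicator fun ω => L y j ω * G y ω) P := fun y j =>
      Integrable.of_bound ((hLGm y j).mono hEm le_rfl).aestronglyMeasurable
        ((∑ i, |y i|) * N * Real.exp ((∑ i, ∑ j, |y i * y j|) * N))
        (Eventually.of_forall fun ω => hLG y j ω)
    -- the residual
    set R : Ω → ℝ := E.indicator fun ω => V ω o - ∑ i, ℓ ω i * V ω i with hR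
    have hRe : ∀ ω, R ω = E.indicator (fun ω => V ω o) ω - ∑ i, ℓ' i ω * V ω i := by
      intro ω
      by_cases h : ω ∈ E
      · simp only [hR, hℓ', Set.indicator_of_mem h]
      · simp only [hR, hℓ', Set.indicator_of_notMem h, zero_mul, Finset.sum_const_zero, sub_zero]
    have hℓVI : ∀ i, Integrable (fun ω => ℓ' i ω * V ω i) P := fun i =>
      (hVi i).bdd_mul (c := N) ((hℓ'm i).mono hEm le_rfl).aestronglyMeasurable
        (Eventually.of_forall fun ω => hℓ'b i ω)
    have hRI : Integrable R P := by
      have h1 : Integrable (fun ω => E.indicator (fun ω => V ω o) ω - ∑ i, ℓ' i ω * V ω i) P :=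
        ((hVi o).indicator hE0).sub (integrable_finsetSum _ fun i _ => hℓVI i)
      exact h1.congr (Eventually.of_forall fun ω => (hRe ω).symm)
    -- weighted integrals
    have hsinD : ∀ D, MeasurableSet[FX] D → ∀ y : ι → ℝ, y o = 0 →
        ∫ ω in D, R ω * Real.sin (A y ω) ∂P = 0 := by
      intro D hD y hy
      have e1 : ∀ ω, R ω * Real.sin (A y ω) =
          E.indicator (fun ω => V ω o * Real.sin (A y ω)) ω -
            ∑ i, ℓ' i ω * E.indicator (fun ω => V ω i * Real.sin (A y ω)) ω := by
        intro ω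
        by_cases h : ω ∈ E
        · simp only [hR, hℓ', Set.indicator_of_mem h, sub_mul, Finset.sum_mul, mul_assoc]
        · simp only [hR, hℓ', Set.indicator_of_notMem h, zero_mul, Finset.sum_const_zero,
            sub_zero]
      have hwI : ∀ i, Integrable (fun ω => ℓ' i ω *
          E.indicator (fun ω => V ω i * Real.sin (A y ω)) ω) P := fun i =>
        (hVsI y i).bdd_mul (c := N) ((hℓ'm i).mono hEm le_rfl).aestronglyMeasurable
          (Eventually.of_forall fun ω => hℓ'b i ω)
      have hwI2 : ∀ i, Integrable (fun ω => ℓ' i ω *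
          E.indicator (fun ω => L y i ω * G y ω) ω) P := fun i =>
        (hLGI y i).bdd_mul (c := N) ((hℓ'm i).mono hEm le_rfl).aestronglyMeasurable
          (Eventually.of_forall fun ω => hℓ'b i ω)
      have hw : ∀ i, ∫ ω in D, ℓ' i ω * E.indicator (fun ω => V ω i * Real.sin (A y ω)) ω ∂P =
          ∫ ω in D, ℓ' i ω * E.indicator (fun ω => L y i ω * G y ω) ω ∂P := fun i =>
        setIntegral_mul_of_forall hFX (hVsI y i) (hLGI y i)
          ((hLGm y i).mono hEF le_rfl).stronglyMeasurable (fun D hD => (hder D hD y i).1)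
          ((hℓ'm i).mono hEF le_rfl).stronglyMeasurable (hℓ'b i) hD
      rw [setIntegral_congr_fun (hFX D hD) fun ω _ => e1 ω, integral_sub
        (hVsI y o).integrableOn (integrable_finsetSum _ fun i _ => (hwI i).integrableOn),
        integral_finsetSum _ fun i _ => (hwI i).integrableOn, (hder D hD y o).1,
        Finset.sum_congr rfl fun i _ => hw i, ← integral_finsetSum _ fun i _ =>
          (hwI2 i).integrableOn, ← integral_sub (hLGI y o).integrableOn
          (integrable_finsetSum _ fun i _ => (hwI2 i).integrableOn)]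
      refine (setIntegral_congr_ae (g := fun _ => (0 : ℝ)) (hFX D hD) ?_).trans (by simp)
      filter_upwards [hreg] with ω hω _
      by_cases h : ω ∈ E
      · simp only [hℓ', Set.indicator_of_mem h]
        have e2 : L y o ω = ∑ i, ℓ ω i * L y i ω := by
          simp only [hL, Finset.mul_sum]
          rw [Finset.sum_comm]
          refine Finset.sum_congr rfl fun j _ => ?_
          by_cases hj : j = o
          · subst hj; simp [hy]
          · rw [hω j hj, Finset.mul_sum]
            exact Finset.sum_congr rfl fun i _ => by ring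
        rw [e2, Finset.sum_mul, ← Finset.sum_sub_distrib]
        exact Finset.sum_eq_zero fun i _ => by ring
      · simp only [Set.indicator_of_notMem h, mul_zero, Finset.sum_const_zero, sub_zero]
    have hcosD : ∀ D, MeasurableSet[FX] D → ∀ y : ι → ℝ,
        ∫ ω in D, R ω * Real.cos (A y ω) ∂P = 0 := by
      intro D hD y
      have e1 : ∀ ω, R ω * Real.cos (A y ω) =
          E.indicator (fun ω => V ω o * Real.cos (A y ω)) ω -
            ∑ i, ℓ' i ω * E.indicator (fun ω => V ω i * Real.cos (A y ω)) ω := by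
        intro ω
        by_cases h : ω ∈ E
        · simp only [hR, hℓ', Set.indicator_of_mem h, sub_mul, Finset.sum_mul, mul_assoc]
        · simp only [hR, hℓ', Set.indicator_of_notMem h, zero_mul, Finset.sum_const_zero,
            sub_zero]
      have hwI : ∀ i, Integrable (fun ω => ℓ' i ω *
          E.indicator (fun ω => V ω i * Real.cos (A y ω)) ω) P := fun i =>
        (hVcI y i).bdd_mul (c := N) ((hℓ'm i).mono hEm le_rfl).aestronglyMeasurable
          (Eventually.of_forall fun ω => hℓ'b i ω)
      have hw : ∀ i, ∫ ω in D, ℓ' i ω * E.indicator (fun ω => V ω i * Real.cos (A y ω)) ω ∂P =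
          ∫ ω in D, ℓ' i ω * (fun _ => (0 : ℝ)) ω ∂P := fun i =>
        setIntegral_mul_of_forall hFX (hVcI y i) (integrable_const 0)
          stronglyMeasurable_const (fun D hD => (hder D hD y i).2)
          ((hℓ'm i).mono hEF le_rfl).stronglyMeasurable (hℓ'b i) hD
      rw [setIntegral_congr_fun (hFX D hD) fun ω _ => e1 ω, integral_sub
        (hVcI y o).integrableOn (integrable_finsetSum _ fun i _ => (hwI i).integrableOn),
        integral_finsetSum _ fun i _ => (hwI i).integrableOn, (hder D hD y o).2,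
        Finset.sum_congr rfl fun i _ => hw i]
      simp
    -- conditional expectation given `FX ⊔ σ(erase V o)`
    have hAe : ∀ x : ι → ℝ, ∀ ω, ∑ i, x i * erase V o ω i =
        A (fun i => if i = o then 0 else x i) ω := by
      intro x ω
      simp only [hA, erase]
      refine Finset.sum_congr rfl fun i _ => ?_
      by_cases h : i = o <;> simp [h]
    have hcond : P[R | FX ⊔ MeasurableSpace.comap (erase V o) inferInstance] =ᵐ[P]
        fun _ => (0 : ℝ) := by
      refine condExp_sup_eq hFX hVe.comap_le hRI (integrable_const 0) stronglyMeasurable_const ?_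
      rintro D S hD ⟨S', hS', rfl⟩
      have hDm := hFX D hD
      have h := integral_zero_of_fourier (P := P) hVe (R := D.indicator R) (hRI.indicator hDm)
        (fun x => by
          have h1 := hcosD D hD (fun i => if i = o then 0 else x i)
          rw [← h1, ← integral_indicator hDm]
          refine integral_congr_ae (Eventually.of_forall fun ω => ?_)
          simp only [hAe x ω]
          by_cases h : ω ∈ D <;> simp [h])
        (fun x => by
          have h1 := hsinD D hD (fun i => if i = o then 0 else x i) (by simp)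
          rw [← h1, ← integral_indicator hDm]
          refine integral_congr_ae (Eventually.of_forall fun ω => ?_)
          simp only [hAe x ω]
          by_cases h : ω ∈ D <;> simp [h]) hS'
      rw [setIntegral_indicator hDm] at h
      rw [Set.inter_comm D, h]
      simp
    have hcondC : P[R | C] =ᵐ[P] fun _ => (0 : ℝ) := by
      have h1 : P[P[R | FX ⊔ MeasurableSpace.comap (erase V o) inferInstance] | C] =ᵐ[P]
          P[R | C] := condExp_condExp_of_le hC (sup_le hFX hVe.comap_le)
      have h2 : P[P[R | FX ⊔ MeasurableSpace.comap (erase V o) inferInstance] | C] =ᵐ[P]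
          P[fun _ => (0 : ℝ) | C] := condExp_congr_ae hcond
      rw [condExp_const hCm] at h2
      exact h1.symm.trans h2
    -- pull out the weights
    have h1 : P[R | C] =ᵐ[P] P[E.indicator (fun ω => V ω o) | C] -
        P[fun ω => ∑ i, ℓ' i ω * V ω i | C] := by
      have e : R = E.indicator (fun ω => V ω o) - fun ω => ∑ i, ℓ' i ω * V ω i :=
        funext fun ω => hRe ω
      rw [e]
      exact condExp_sub ((hVi o).indicator hE0) (integrable_finsetSum _ fun i _ => hℓVI i) C
    have h2 : P[E.indicator (fun ω => V ω o) | C] =ᵐ[P]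
        E.indicator (P[fun ω => V ω o | C]) := condExp_indicator (hVi o) hEC'
    have h3 : P[fun ω => ∑ i, ℓ' i ω * V ω i | C] =ᵐ[P]
        ∑ i, P[fun ω => ℓ' i ω * V ω i | C] := by
      have e : (fun ω => ∑ i, ℓ' i ω * V ω i) = ∑ i, fun ω => ℓ' i ω * V ω i := by
        funext ω; simp
      rw [e]
      exact condExp_finsetSum (fun i _ => hℓVI i) C
    have h4 : ∀ i, P[fun ω => ℓ' i ω * V ω i | C] =ᵐ[P] ℓ' i * P[fun ω => V ω i | C] := fun i =>
      condExp_mul_of_stronglyMeasurable_left ((hℓ'm i).mono hEC le_rfl).stronglyMeasurable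
        (hℓVI i) (hVi i)
    have h4' : ∀ᵐ ω ∂P, ∀ i, (P[fun ω => ℓ' i ω * V ω i | C]) ω =
        ℓ' i ω * (P[fun ω => V ω i | C]) ω := by
      rw [ae_all_iff]
      intro i
      filter_upwards [h4 i] with ω h
      rw [h]; rfl
    filter_upwards [hcondC, h1, h2, h3, h4'] with ω q0 q1 q2 q3 q4 hω
    rw [q1, Pi.sub_apply, q2, q3, Finset.sum_apply, Set.indicator_of_mem hω] at q0
    rw [sub_eq_zero] at q0
    rw [q0]
    refine Finset.sum_congr rfl fun i _ => ?_
    rw [q4 i]
    simp only [hℓ', Set.indicator_of_mem hω]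
  have hall := ae_all_iff.mpr main
  filter_upwards [hall] with ω hω
  obtain ⟨N, hN⟩ := hcov ω
  exact hω N hN

end Crest.Agent.R166.Mart663
end
end

-- ▼ part R166/L2_942
section

/-!
Row 166, section 42.3 (helper942): divergence lemma (Lemma D) and tree algebra of one side of an
edge, at a real energy.

Words `w : List K`, children of `w` are `k :: w`; `V : List K → ℝ` potential;
`Cav z V c`: the cavity numbers `c w` (resolvent of the subtree above `w` at `w`).
-/

set_option autoImplicit false

namespace Crest.Agent.R166.L2_942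

open Finset Filter Topology

noncomputable section

variable {K : Type*} [Fintype K]

/-- cavity recursion -/
def Cav (z : ℂ) (V : List K → ℝ) (c : List K → ℂ) : Prop :=
  ∀ w, 0 < (c w).im ∧ c w * (z - (V w : ℂ) + ∑ k, c (k :: w)) = -1

/-- sum over the words of length `n` -/
def lev {M : Type*} [AddCommMonoid M] : ℕ → (List K → M) → M
  | 0, f => f []
  | n + 1, f => lev n (fun w => ∑ k, f (k :: w))

section lev
variable {M : Type*} [AddCommMonoid M]

theorem lev_add (n : ℕ) (f g : List K → M) : lev n (fun w => f w + g w) = lev n f + lev n g := by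
  induction n generalizing f g with
  | zero => rfl
  | succ n ih => simp only [lev, sum_add_distrib, ih]

theorem lev_congr (n : ℕ) {f g : List K → M} (h : ∀ w, w.length = n → f w = g w) :
    lev n f = lev n g := by
  induction n generalizing f g with
  | zero => exact h [] rfl
  | succ n ih =>
    simp only [lev]
    exact ih fun w hw => sum_congr rfl fun k _ => h _ (by simp [hw])

theorem lev_mul_left {R : Type*} [NonUnitalNonAssocSemiring R] (n : ℕ) (a : R) (f : List K → R) :
    lev n (fun w => a * f w) = a * lev n f := by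
  induction n generalizing f with
  | zero => rfl
  | succ n ih => simp only [lev, ← mul_sum, ih]

theorem lev_le {n : ℕ} {f g : List K → ℝ} (h : ∀ w, f w ≤ g w) : lev n f ≤ lev n g := by
  induction n generalizing f g with
  | zero => exact h []
  | succ n ih => exact ih fun w => sum_le_sum fun k _ => h _

theorem lev_nonneg {n : ℕ} {f : List K → ℝ} (h : ∀ w, 0 ≤ f w) : 0 ≤ lev n f := by
  induction n generalizing f with
  | zero => exact h []
  | succ n ih => exact ih fun w => sum_nonneg fun k _ => h _

theorem norm_lev_le (n : ℕ) (f : List K → ℂ) : ‖lev n f‖ ≤ lev n (fun w => ‖f w‖) := by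
  induction n generalizing f with
  | zero => exact le_rfl
  | succ n ih =>
    simp only [lev]
    exact (ih _).trans (lev_le fun w => norm_sum_le _ _)

open Classical in
/-- the finset of the words of length `n` -/
def wds : ℕ → Finset (List K)
  | 0 => {[]}
  | n + 1 => (wds n).biUnion fun w => univ.image fun k : K => k :: w

theorem mem_wds {n : ℕ} {w : List K} : w ∈ wds n ↔ w.length = n := by
  classical
  induction n generalizing w with
  | zero => simp [wds]
  | succ n ih =>
    simp only [wds, mem_biUnion, mem_image, mem_univ, true_and]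
    constructor
    · rintro ⟨a, ha, k, rfl⟩
      simp [ih.1 ha]
    · intro h
      cases w with
      | nil => simp at h
      | cons k w => exact ⟨w, ih.2 (by simpa using h), k, rfl⟩

theorem lev_eq_sum (n : ℕ) (f : List K → M) : lev n f = ∑ w ∈ wds n, f w := by
  classical
  induction n generalizing f with
  | zero => simp [lev, wds]
  | succ n ih =>
    simp only [lev, ih, wds]
    rw [sum_biUnion]
    · refine sum_congr rfl fun w _ => ?_
      rw [sum_image]
      intro a _ b _ h
      exact (List.cons.inj h).1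
    · intro a _ b _ hab
      rw [Function.onFun, disjoint_left]
      intro x hx hy
      simp only [mem_image, mem_univ, true_and] at hx hy
      obtain ⟨k, rfl⟩ := hx
      obtain ⟨k', h⟩ := hy
      exact hab (List.cons.inj h).2.symm

end lev

/-- summability over all words gives summability of the level sums -/
theorem summable_lev {f : List K → ℝ} (hf : ∀ w, 0 ≤ f w) (hs : Summable f) :
    Summable (fun n => lev n f) := by
  classical
  refine summable_of_sum_range_le (c := ∑' w, f w) (fun n => lev_nonneg hf) ?_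
  intro n
  simp only [lev_eq_sum]
  rw [← sum_biUnion]
  · exact hs.sum_le_tsum _ fun w _ => hf w
  · intro a _ b _ hab
    rw [Function.onFun, disjoint_left]
    intro x hx hy
    rw [mem_wds] at hx hy
    exact hab (hx.symm.trans hy)

theorem sum_lev_le_tsum {f : List K → ℝ} (hf : ∀ w, 0 ≤ f w) (hs : Summable f) (n : ℕ) :
    ∑ m ∈ range n, lev m f ≤ ∑' w, f w := by
  classical
  simp only [lev_eq_sum]
  rw [← sum_biUnion]
  · exact hs.sum_le_tsum _ fun w _ => hf w
  · intro a _ b _ hab
    rw [Function.onFun, disjoint_left]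
    intro x hx hy
    rw [mem_wds] at hx hy
    exact hab (hx.symm.trans hy)

/-- the column of the resolvent of the subtree at the root -/
def gcol (c : List K → ℂ) : List K → ℂ
  | [] => c []
  | k :: w => - c (k :: w) * gcol c w

section one
variable {z : ℂ} {V : List K → ℝ} {c : List K → ℂ}

theorem Cav.ne_zero (h : Cav z V c) (w : List K) : c w ≠ 0 := by
  intro h0
  have := (h w).1
  rw [h0] at this
  simp at this

theorem Cav.im_eq (h : Cav z V c) (w : List K) :
    (c w).im = Complex.normSq (c w) * (z.im + ∑ k, (c (k :: w)).im) := by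
  have h1 := (h w).2
  have h0 := h.ne_zero w
  -- z - V + Σ c = - conj(c) / |c|²
  have h2 : z - (V w : ℂ) + ∑ k, c (k :: w) = - (starRingEnd ℂ (c w)) / (Complex.normSq (c w) : ℂ) := by
    have hn : (Complex.normSq (c w) : ℂ) ≠ 0 := by
      exact_mod_cast (Complex.normSq_pos.2 h0).ne'
    rw [eq_div_iff hn, Complex.normSq_eq_conj_mul_self]
    calc (z - (V w : ℂ) + ∑ k, c (k :: w)) * ((starRingEnd ℂ) (c w) * c w)
        = (starRingEnd ℂ) (c w) * (c w * (z - (V w : ℂ) + ∑ k, c (k :: w))) := by ring
      _ = _ := by rw [h1]; ring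
  have h3 := congrArg Complex.im h2
  have hn : Complex.normSq (c w) ≠ 0 := (Complex.normSq_pos.2 h0).ne'
  simp only [Complex.add_im, Complex.sub_im, Complex.ofReal_im, sub_zero, Complex.im_sum] at h3
  rw [h3, Complex.div_ofReal_im]
  simp only [Complex.neg_im, Complex.conj_im, neg_neg]
  field_simp

/-- truncated Ward identity -/
theorem ward (h : Cav z V c) (n : ℕ) :
    (c []).im = z.im * ∑ m ∈ range (n + 1), lev m (fun w => Complex.normSq (gcol c w)) +
      lev n (fun w => Complex.normSq (gcol c w) * ∑ k, (c (k :: w)).im) := by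
  induction n with
  | zero =>
    simp only [zero_add, range_one, sum_singleton, lev, gcol]
    rw [h.im_eq []]; ring
  | succ n ih =>
    rw [sum_range_succ, mul_add, ih, add_assoc]
    congr 1
    have h1 : lev n (fun w => Complex.normSq (gcol c w) * ∑ k, (c (k :: w)).im) =
        lev (n+1) (fun w => z.im * Complex.normSq (gcol c w) +
          Complex.normSq (gcol c w) * ∑ k, (c (k :: w)).im) := by
      simp only [lev]
      congr 1
      funext w
      rw [mul_sum]
      refine sum_congr rfl fun k _ => ?_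
      rw [h.im_eq (k :: w), gcol, Complex.normSq_mul, Complex.normSq_neg]
      ring
    rw [h1, lev_add, lev_mul_left]

theorem ward_le (h : Cav z V c) (hz : 0 < z.im) (n : ℕ) :
    ∑ m ∈ range n, lev m (fun w => Complex.normSq (gcol c w)) ≤ (c []).im / z.im := by
  rw [le_div_iff₀ hz]
  have h1 := ward h n
  have h2 : 0 ≤ lev n (fun w => Complex.normSq (gcol c w) * ∑ k, (c (k :: w)).im) :=
    lev_nonneg fun w => mul_nonneg (Complex.normSq_nonneg _) (sum_nonneg fun k _ => (h _).1.le)
  have h3 : ∑ m ∈ range n, lev m (fun w => Complex.normSq (gcol c w)) ≤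
      ∑ m ∈ range (n+1), lev m (fun w => Complex.normSq (gcol c w)) := by
    rw [sum_range_succ]
    linarith [lev_nonneg (n := n) (f := fun w => Complex.normSq (gcol c w))
      fun w => Complex.normSq_nonneg _]
  nlinarith

/-- `(H - z) g = 0` away from the root -/
theorem gcol_eq (h : Cav z V c) (k0 : K) (w : List K) :
    ∑ k, gcol c (k :: k0 :: w) + gcol c w = (z - (V (k0 :: w) : ℂ)) * gcol c (k0 :: w) := by
  have h1 := (h (k0 :: w)).2
  have h0 := h.ne_zero (k0 :: w)
  have h2 : gcol c (k0 :: w) = - c (k0 :: w) * gcol c w := rfl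
  have h3 : ∑ k, gcol c (k :: k0 :: w) = -(∑ k, c (k :: k0 :: w)) * gcol c (k0 :: w) := by
    rw [← sum_neg_distrib, sum_mul]
    rfl
  rw [h3, h2]
  linear_combination (gcol c w) * h1

theorem gcol_root (h : Cav z V c) :
    ∑ k, gcol c [k] = 1 + (z - (V [] : ℂ)) * gcol c [] := by
  have h1 := (h []).2
  have h3 : ∑ k, gcol c [k] = -(∑ k, c [k]) * gcol c [] := by
    rw [← sum_neg_distrib, sum_mul]
    rfl
  have h2 : gcol c [] = c [] := rfl
  rw [h3, h2]
  linear_combination -h1

end one

/-- a real solution of `(H - E) ψ = 0` on the side, `pv` = value at the neighbour of the root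
outside of the side -/
def Sol (E : ℝ) (V : List K → ℝ) (psi : List K → ℝ) (pv : ℝ) : Prop :=
  (∑ k, psi [k] + pv = (E - V []) * psi []) ∧
  ∀ k0 w, ∑ k, psi (k :: k0 :: w) + psi w = (E - V (k0 :: w)) * psi (k0 :: w)

/-- boundary term -/
def bdry (c : List K → ℂ) (psi : List K → ℝ) (n : ℕ) : ℂ :=
  lev n (fun w => (psi w : ℂ) * (∑ k, gcol c (k :: w)) - gcol c w * (∑ k, (psi (k :: w) : ℂ)))


/-- truncated Green identity -/
theorem green {E eta : ℝ} {V : List K → ℝ} {c : List K → ℂ} {psi : List K → ℝ} {pv : ℝ}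
    (h : Cav ((E : ℂ) + Complex.I * (eta : ℂ)) V c) (hs : Sol E V psi pv) (n : ℕ) :
    (psi [] : ℂ) + c [] * (pv : ℂ) + Complex.I * (eta : ℂ) *
      ∑ m ∈ range (n + 1), lev m (fun w => gcol c w * (psi w : ℂ)) = bdry c psi n := by
  induction n with
  | zero =>
    simp only [zero_add, range_one, sum_singleton, lev, bdry]
    rw [gcol_root h]
    have h1 : ∑ k, (psi [k] : ℂ) = ((E : ℂ) - (V [] : ℂ)) * (psi [] : ℂ) - (pv : ℂ) := by
      have := congrArg (fun x : ℝ => (x : ℂ)) hs.1
      push_cast at this
      linear_combination this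
    rw [h1]
    have h2 : gcol c [] = c [] := rfl
    rw [h2]
    ring
  | succ n ih =>
    rw [sum_range_succ, mul_add, ← add_assoc, ih]
    have h1 : bdry c psi n = lev (n+1) (fun w => match w with
        | [] => 0
        | k0 :: w => (psi w : ℂ) * gcol c (k0 :: w) - gcol c w * (psi (k0 :: w) : ℂ)) := by
      simp only [lev, bdry, sum_sub_distrib, mul_sum]
    rw [h1, ← lev_mul_left, ← lev_add, bdry]
    apply lev_congr
    intro w hw
    cases w with
    | nil => simp at hw
    | cons k0 w =>
      simp only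
      have e1 := gcol_eq h k0 w
      have e2 : ∑ k, (psi (k :: k0 :: w) : ℂ) + (psi w : ℂ) =
          ((E : ℂ) - (V (k0 :: w) : ℂ)) * (psi (k0 :: w) : ℂ) := by
        have := congrArg (fun x : ℝ => (x : ℂ)) (hs.2 k0 w)
        push_cast at this
        exact this
      linear_combination (-(psi (k0 :: w)) : ℂ) * e1 + (gcol c (k0 :: w)) * e2

theorem summable_normSq_lev {z : ℂ} {V : List K → ℝ} {c : List K → ℂ} (h : Cav z V c)
    (hz : 0 < z.im) : Summable (fun n => lev n (fun w => Complex.normSq (gcol c w))) :=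
  summable_of_sum_range_le (fun _ => lev_nonneg fun _ => Complex.normSq_nonneg _)
    (fun n => ward_le h hz n)

theorem bdry_tendsto {E eta : ℝ} {V : List K → ℝ} {c : List K → ℂ} {psi : List K → ℝ}
    (h : Cav ((E : ℂ) + Complex.I * (eta : ℂ)) V c) (heta : 0 < eta)
    (hsum : Summable (fun w => psi w ^ 2)) :
    Tendsto (bdry c psi) atTop (𝓝 0) := by
  have hz : 0 < ((E : ℂ) + Complex.I * (eta : ℂ)).im := by simpa using heta
  have h1 := (summable_normSq_lev h hz).tendsto_atTop_zero
  have h2 := (summable_lev (fun w => sq_nonneg (psi w)) hsum).tendsto_atTop_zero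
  set b : ℝ := (Fintype.card K : ℝ) with hb
  have hbound : ∀ n, ‖bdry c psi n‖ ≤
      (b * lev n (fun w => psi w ^ 2) + lev (n+1) (fun w => Complex.normSq (gcol c w))) +
      (b * lev n (fun w => Complex.normSq (gcol c w)) + lev (n+1) (fun w => psi w ^ 2)) := by
    intro n
    refine (norm_lev_le _ _).trans ?_
    simp only [lev]
    rw [← lev_mul_left, ← lev_mul_left, ← lev_add, ← lev_add, ← lev_add]
    apply lev_le
    intro w
    refine (norm_sub_le _ _).trans ?_
    apply add_le_add
    · rw [norm_mul, Complex.norm_real]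
      have e1 : ‖∑ k, gcol c (k :: w)‖ ≤ ∑ k, ‖gcol c (k :: w)‖ := norm_sum_le _ _
      calc ‖psi w‖ * ‖∑ k, gcol c (k :: w)‖ ≤ ‖psi w‖ * ∑ k, ‖gcol c (k :: w)‖ :=
            mul_le_mul_of_nonneg_left e1 (norm_nonneg _)
        _ = ∑ k, ‖psi w‖ * ‖gcol c (k :: w)‖ := by rw [mul_sum]
        _ ≤ ∑ k : K, (psi w ^ 2 + Complex.normSq (gcol c (k :: w))) := by
            apply sum_le_sum
            intro k _
            rw [Complex.normSq_eq_norm_sq]
            have : psi w ^ 2 = ‖psi w‖ ^ 2 := by rw [Real.norm_eq_abs, sq_abs]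
            rw [this]
            nlinarith [sq_nonneg (‖psi w‖ - ‖gcol c (k :: w)‖), sq_nonneg (‖psi w‖),
              sq_nonneg (‖gcol c (k :: w)‖)]
        _ = b * psi w ^ 2 + ∑ k, Complex.normSq (gcol c (k :: w)) := by
            rw [sum_add_distrib, sum_const, card_univ, nsmul_eq_mul]
    · rw [norm_mul]
      have e1 : ‖∑ k, (psi (k :: w) : ℂ)‖ ≤ ∑ k, ‖psi (k :: w)‖ := by
        refine (norm_sum_le _ _).trans (le_of_eq ?_)
        simp only [Complex.norm_real]
      calc ‖gcol c w‖ * ‖∑ k, (psi (k :: w) : ℂ)‖ ≤ ‖gcol c w‖ * ∑ k, ‖psi (k :: w)‖ :=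
            mul_le_mul_of_nonneg_left e1 (norm_nonneg _)
        _ = ∑ k, ‖gcol c w‖ * ‖psi (k :: w)‖ := by rw [mul_sum]
        _ ≤ ∑ k : K, (Complex.normSq (gcol c w) + psi (k :: w) ^ 2) := by
            apply sum_le_sum
            intro k _
            rw [Complex.normSq_eq_norm_sq]
            have : psi (k :: w) ^ 2 = ‖psi (k :: w)‖ ^ 2 := by rw [Real.norm_eq_abs, sq_abs]
            rw [this]
            nlinarith [sq_nonneg (‖psi (k :: w)‖ - ‖gcol c w‖), sq_nonneg (‖psi (k :: w)‖),
              sq_nonneg (‖gcol c w‖)]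
        _ = b * Complex.normSq (gcol c w) + ∑ k, psi (k :: w) ^ 2 := by
            rw [sum_add_distrib, sum_const, card_univ, nsmul_eq_mul]
  rw [tendsto_zero_iff_norm_tendsto_zero]
  refine squeeze_zero (fun n => norm_nonneg _) hbound ?_
  have h1' := h1.comp (tendsto_add_atTop_nat 1)
  have h2' := h2.comp (tendsto_add_atTop_nat 1)
  have := (((h2.const_mul b).add h1')).add ((h1.const_mul b).add h2')
  simpa using this

/-- main estimate at `eta > 0` -/
theorem green_bound {E eta : ℝ} {V : List K → ℝ} {c : List K → ℂ} {psi : List K → ℝ} {pv : ℝ}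
    (h : Cav ((E : ℂ) + Complex.I * (eta : ℂ)) V c) (heta : 0 < eta) (hs : Sol E V psi pv)
    (hsum : Summable (fun w => psi w ^ 2)) :
    ‖(psi [] : ℂ) + c [] * (pv : ℂ)‖ ≤
      Real.sqrt (eta * (c []).im) * Real.sqrt (∑' w, psi w ^ 2) := by
  have hz : 0 < ((E : ℂ) + Complex.I * (eta : ℂ)).im := by simpa using heta
  have hzim : ((E : ℂ) + Complex.I * (eta : ℂ)).im = eta := by simp
  have hb := bdry_tendsto h heta hsum
  -- for each n the difference is bounded
  have key : ∀ n, ‖(psi [] : ℂ) + c [] * (pv : ℂ) - bdry c psi n‖ ≤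
      Real.sqrt (eta * (c []).im) * Real.sqrt (∑' w, psi w ^ 2) := by
    intro n
    have e1 : (psi [] : ℂ) + c [] * (pv : ℂ) - bdry c psi n = - (Complex.I * (eta : ℂ) *
        ∑ m ∈ range (n + 1), lev m (fun w => gcol c w * (psi w : ℂ))) := by
      rw [← green h hs n]; ring
    rw [e1, norm_neg, norm_mul, norm_mul, Complex.norm_I, one_mul, Complex.norm_real,
      Real.norm_of_nonneg heta.le]
    have e2 : ‖∑ m ∈ range (n + 1), lev m (fun w => gcol c w * (psi w : ℂ))‖ ≤
        Real.sqrt (∑ m ∈ range (n+1), lev m (fun w => Complex.normSq (gcol c w))) *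
        Real.sqrt (∑ m ∈ range (n+1), lev m (fun w => psi w ^ 2)) := by
      simp only [lev_eq_sum]
      rw [sum_sigma', sum_sigma', sum_sigma']
      refine (norm_sum_le _ _).trans ?_
      refine le_trans (sum_le_sum (g := fun x => ‖gcol c x.2‖ * |psi x.2|) fun x _ => ?_) ?_
      · rw [norm_mul, Complex.norm_real, Real.norm_eq_abs]
      · refine (Real.sum_mul_le_sqrt_mul_sqrt _ _ _).trans (le_of_eq ?_)
        congr 2
        · refine sum_congr rfl fun x _ => ?_
          rw [Complex.normSq_eq_norm_sq]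
        · refine sum_congr rfl fun x _ => ?_
          rw [sq_abs]
    have e3 := ward_le h hz (n+1)
    rw [hzim] at e3
    have e4 := sum_lev_le_tsum (fun w => sq_nonneg (psi w)) hsum (n+1)
    have e5 : eta * (Real.sqrt ((c []).im / eta) * Real.sqrt (∑' w, psi w ^ 2)) =
        Real.sqrt (eta * (c []).im) * Real.sqrt (∑' w, psi w ^ 2) := by
      rw [← mul_assoc]
      congr 1
      have : eta * (c []).im = eta ^ 2 * ((c []).im / eta) := by field_simp
      rw [this, Real.sqrt_mul (sq_nonneg _), Real.sqrt_sq heta.le]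
    rw [← e5]
    apply mul_le_mul_of_nonneg_left _ heta.le
    exact e2.trans (mul_le_mul (Real.sqrt_le_sqrt e3) (Real.sqrt_le_sqrt e4) (Real.sqrt_nonneg _)
      (Real.sqrt_nonneg _))
  have hlim : Tendsto (fun n => ‖(psi [] : ℂ) + c [] * (pv : ℂ) - bdry c psi n‖) atTop
      (𝓝 ‖(psi [] : ℂ) + c [] * (pv : ℂ)‖) := by
    have := (tendsto_const_nhds (x := (psi [] : ℂ) + c [] * (pv : ℂ))).sub hb
    rw [sub_zero] at this
    exact this.norm
  exact le_of_tendsto hlim (Eventually.of_forall key)

/-- LEMMA D: a real `l²` solution on one side vanishes at the edge. -/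
theorem lemmaD {E : ℝ} {V : List K → ℝ} {eta : ℕ → ℝ} {c : ℕ → List K → ℂ} {C0 : ℂ}
    (heta : ∀ j, 0 < eta j) (heta0 : Tendsto eta atTop (𝓝 0))
    (hc : ∀ j, Cav ((E : ℂ) + Complex.I * (eta j : ℂ)) V (c j))
    (hlim : Tendsto (fun j => c j []) atTop (𝓝 C0)) (hC0 : 0 < C0.im)
    {psi : List K → ℝ} {pv : ℝ} (hs : Sol E V psi pv)
    (hsum : Summable (fun w => psi w ^ 2)) : psi [] = 0 ∧ pv = 0 := by
  have h1 : Tendsto (fun j => ‖(psi [] : ℂ) + c j [] * (pv : ℂ)‖) atTop
      (𝓝 ‖(psi [] : ℂ) + C0 * (pv : ℂ)‖) :=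
    ((tendsto_const_nhds).add (hlim.mul_const _)).norm
  have h2 : Tendsto (fun j => Real.sqrt (eta j * (c j []).im) * Real.sqrt (∑' w, psi w ^ 2)) atTop
      (𝓝 (Real.sqrt (0 * C0.im) * Real.sqrt (∑' w, psi w ^ 2))) := by
    have h3 : Tendsto (fun j => (c j []).im) atTop (𝓝 C0.im) :=
      (Complex.continuous_im.tendsto _).comp hlim
    exact ((Real.continuous_sqrt.tendsto _).comp (heta0.mul h3)).mul_const _
  rw [zero_mul, Real.sqrt_zero, zero_mul] at h2
  have h3 := le_of_tendsto_of_tendsto' h1 h2 (fun j => green_bound (hc j) (heta j) hs hsum)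
  have h4 : (psi [] : ℂ) + C0 * (pv : ℂ) = 0 := norm_le_zero_iff.1 h3
  have h5 := congrArg Complex.im h4
  simp only [Complex.add_im, Complex.ofReal_im, Complex.mul_im, Complex.ofReal_re, mul_zero,
    zero_add, Complex.zero_im] at h5
  have hpv : pv = 0 := by
    rcases mul_eq_zero.1 h5 with h | h
    · exact absurd h hC0.ne'
    · exact h
  subst hpv
  have h6 := congrArg Complex.re h4
  simpa using h6

/-! ### Tree algebra at the real energy -/

/-- the limit cavity numbers at the real energy -/
def CavR (E : ℝ) (V : List K → ℝ) (c : List K → ℂ) : Prop :=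
  ∀ w, 0 < (c w).im ∧ c w * ((E : ℂ) - (V w : ℂ) + ∑ k, c (k :: w)) = -1

theorem cavR_of_tendsto {E : ℝ} {V : List K → ℝ} {eta : ℕ → ℝ} {c : ℕ → List K → ℂ}
    {c0 : List K → ℂ} (heta0 : Tendsto eta atTop (𝓝 0))
    (hc : ∀ j, Cav ((E : ℂ) + Complex.I * (eta j : ℂ)) V (c j))
    (hlim : ∀ w, Tendsto (fun j => c j w) atTop (𝓝 (c0 w))) (hpos : ∀ w, 0 < (c0 w).im) :
    CavR E V c0 := by
  intro w
  refine ⟨hpos w, ?_⟩
  have h1 : Tendsto (fun j => c j w * ((E : ℂ) + Complex.I * (eta j : ℂ) - (V w : ℂ) +
      ∑ k, c j (k :: w))) atTop (𝓝 (c0 w * ((E : ℂ) + Complex.I * ((0 : ℝ) : ℂ) - (V w : ℂ) +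
      ∑ k, c0 (k :: w)))) := by
    refine (hlim w).mul ?_
    refine Tendsto.add ?_ (tendsto_finsetSum _ fun k _ => hlim _)
    refine Tendsto.sub ?_ tendsto_const_nhds
    refine tendsto_const_nhds.add ?_
    refine tendsto_const_nhds.mul ?_
    exact (Complex.continuous_ofReal.tendsto _).comp heta0
  have h2 : (fun j => c j w * ((E : ℂ) + Complex.I * (eta j : ℂ) - (V w : ℂ) +
      ∑ k, c j (k :: w))) = fun _ => (-1 : ℂ) := by
    funext j
    exact (hc j w).2
  rw [h2] at h1
  have h3 := tendsto_nhds_unique tendsto_const_nhds h1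
  rw [Complex.ofReal_zero, mul_zero, add_zero] at h3
  exact h3.symm

/-- the ratio `G(o_w, ·) / G(u, ·)` -/
def rat (c : List K → ℂ) : List K → ℂ
  | [] => 1
  | k :: w => - c (k :: w) * rat c w

/-- the coefficients: `rat c w = l1 + l2 * (-1 / c [])` with `l1, l2` real -/
def l2c (c : List K → ℂ) (w : List K) : ℝ := (rat c w).im / (-1 / c []).im
/-- first coefficient -/
def l1c (c : List K → ℂ) (w : List K) : ℝ := (rat c w).re - l2c c w * (-1 / c []).re

section alg
variable {E : ℝ} {V : List K → ℝ} {c : List K → ℂ}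

theorem neg_inv_im_pos {x : ℂ} (hx : 0 < x.im) : 0 < (-1 / x).im := by
  have h0 : x ≠ 0 := by rintro rfl; simp at hx
  rw [neg_div, one_div, Complex.neg_im, Complex.inv_im]
  have := Complex.normSq_pos.2 h0
  rw [neg_div, neg_neg]
  positivity

omit [Fintype K] in
theorem rat_eq (h : 0 < (c []).im) (w : List K) :
    rat c w = (l1c c w : ℂ) + (l2c c w : ℂ) * (-1 / c []) := by
  have h1 := neg_inv_im_pos h
  apply Complex.ext
  · simp only [Complex.add_re, Complex.ofReal_re, Complex.mul_re, Complex.ofReal_im, zero_mul,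
      sub_zero, l1c]
    ring
  · simp only [Complex.add_im, Complex.ofReal_im, Complex.mul_im, Complex.ofReal_re, zero_mul,
      add_zero, zero_add, l2c]
    rw [div_mul_cancel₀ _ h1.ne']

omit [Fintype K] in
theorem l1c_nil : l1c c [] = 1 := by simp [l1c, l2c, rat]
omit [Fintype K] in
theorem l2c_nil : l2c c [] = 0 := by simp [l2c, rat]

theorem CavR.ne_zero (h : CavR E V c) (w : List K) : c w ≠ 0 := by
  intro h0
  have := (h w).1
  rw [h0] at this
  simp at this

theorem rat_eqn (h : CavR E V c) (k0 : K) (w : List K) :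
    ∑ k, rat c (k :: k0 :: w) + rat c w = ((E : ℂ) - (V (k0 :: w) : ℂ)) * rat c (k0 :: w) := by
  have h1 := (h (k0 :: w)).2
  have h2 : rat c (k0 :: w) = - c (k0 :: w) * rat c w := rfl
  have h3 : ∑ k, rat c (k :: k0 :: w) = -(∑ k, c (k :: k0 :: w)) * rat c (k0 :: w) := by
    rw [← sum_neg_distrib, sum_mul]
    rfl
  rw [h3, h2]
  linear_combination (rat c w) * h1

theorem rat_eqn_root (h : CavR E V c) :
    ∑ k, rat c [k] + (-1 / c []) = ((E : ℂ) - (V [] : ℂ)) * rat c [] := by
  have h1 := (h []).2
  have h0 := h.ne_zero []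
  have h3 : ∑ k, rat c [k] = -(∑ k, c [k]) := by
    rw [← sum_neg_distrib]
    refine sum_congr rfl fun k _ => ?_
    simp [rat]
  rw [h3]
  have h4 : (-1 / c []) = (E : ℂ) - (V [] : ℂ) + ∑ k, c [k] := by
    rw [div_eq_iff h0, ← h1]; ring
  rw [h4]
  simp only [rat]
  ring

/-- a real-linear functional `x + y*t ↦ a x + b y` -/
theorem sol_of (h : CavR E V c) (a b : ℝ) :
    Sol E V (fun w => l1c c w * a + l2c c w * b) b := by
  have hp := (h []).1
  have hq := neg_inv_im_pos hp
  -- the functional
  set t : ℂ := -1 / c [] with ht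
  have key : ∀ x : ℂ, ∃! p : ℝ × ℝ, x = (p.1 : ℂ) + (p.2 : ℂ) * t := by
    intro x
    refine ⟨(x.re - x.im / t.im * t.re, x.im / t.im), ?_, ?_⟩
    · apply Complex.ext
      · simp
      · simp only [Complex.add_im, Complex.ofReal_im, Complex.mul_im, Complex.ofReal_re,
          zero_mul, add_zero, zero_add]
        rw [div_mul_cancel₀ _ hq.ne']
    · rintro ⟨p, q⟩ hx
      simp only at hx
      have h1 : q = x.im / t.im := by
        rw [hx]
        simp only [Complex.add_im, Complex.ofReal_im, Complex.mul_im, Complex.ofReal_re,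
          zero_mul, add_zero, zero_add]
        rw [mul_div_assoc, div_self hq.ne', mul_one]
      have h2 : p = x.re - q * t.re := by
        rw [hx]; simp
      rw [Prod.mk.injEq]
      exact ⟨by rw [h2, h1], h1⟩
  have uniq : ∀ p q p' q' : ℝ, (p : ℂ) + (q : ℂ) * t = (p' : ℂ) + (q' : ℂ) * t →
      p = p' ∧ q = q' := by
    intro p q p' q' hpq
    obtain ⟨r, hr, hu⟩ := key ((p : ℂ) + (q : ℂ) * t)
    have e1 := hu (p, q) rfl
    have e2 := hu (p', q') hpq
    rw [← e2] at e1
    exact Prod.mk.inj e1
  constructor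
  · have h1 := rat_eqn_root h
    rw [← ht] at h1
    simp only [rat_eq hp, ← ht] at h1
    have h2 : (((∑ k, l1c c [k] : ℝ) : ℂ)) + ((∑ k, l2c c [k] + 1 : ℝ) : ℂ) * t =
        (((E - V []) * l1c c [] : ℝ) : ℂ) + (((E - V []) * l2c c [] : ℝ) : ℂ) * t := by
      push_cast
      rw [sum_add_distrib, ← sum_mul] at h1
      linear_combination h1
    obtain ⟨e1, e2⟩ := uniq _ _ _ _ h2
    rw [sum_add_distrib, ← sum_mul, ← sum_mul, e1]
    have e3 : ∑ k, l2c c [k] = (E - V []) * l2c c [] - 1 := by linarith
    rw [e3]; ring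
  · intro k0 w
    have h1 := rat_eqn h k0 w
    simp only [rat_eq hp, ← ht] at h1
    have h2 : (((∑ k, l1c c (k :: k0 :: w) + l1c c w : ℝ) : ℂ)) +
        ((∑ k, l2c c (k :: k0 :: w) + l2c c w : ℝ) : ℂ) * t =
        (((E - V (k0 :: w)) * l1c c (k0 :: w) : ℝ) : ℂ) +
          (((E - V (k0 :: w)) * l2c c (k0 :: w) : ℝ) : ℂ) * t := by
      push_cast
      rw [sum_add_distrib, ← sum_mul] at h1
      linear_combination h1
    obtain ⟨e1, e2⟩ := uniq _ _ _ _ h2
    rw [sum_add_distrib, ← sum_mul, ← sum_mul]
    linear_combination a * e1 + b * e2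

end alg

/-- (hD) of the abstract graphing theorem (helper663) -/
theorem hD {E : ℝ} {V : List K → ℝ} {eta : ℕ → ℝ} {c : ℕ → List K → ℂ}
    {c0 : List K → ℂ} (heta : ∀ j, 0 < eta j) (heta0 : Tendsto eta atTop (𝓝 0))
    (hc : ∀ j, Cav ((E : ℂ) + Complex.I * (eta j : ℂ)) V (c j))
    (hlim : ∀ w, Tendsto (fun j => c j w) atTop (𝓝 (c0 w))) (hpos : ∀ w, 0 < (c0 w).im)
    (a b : ℝ) (hsum : Summable (fun w => (l1c c0 w * a + l2c c0 w * b) ^ 2)) :
    a = 0 ∧ b = 0 := by
  have hR := cavR_of_tendsto heta0 hc hlim hpos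
  have h1 := lemmaD heta heta0 hc (hlim []) (hpos []) (sol_of hR a b) hsum
  refine ⟨?_, h1.2⟩
  have h2 := h1.1
  rw [l1c_nil, l2c_nil] at h2
  linarith

omit [Fintype K] in
/-- covariance identity for `x` on the far side -/
theorem phi_far {c : List K → ℂ} (h : 0 < (c []).im) (w : List K) (Gux Gvx : ℂ)
    (hx : Gvx = (-1 / c []) * Gux) :
    rat c w * Gux = (l1c c w : ℂ) * Gux + (l2c c w : ℂ) * Gvx := by
  rw [rat_eq h w, hx]; ring

omit [Fintype K] in
theorem phi_far_im {c : List K → ℂ} (h : 0 < (c []).im) (w : List K) (Gux Gvx : ℂ)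
    (hx : Gvx = (-1 / c []) * Gux) :
    (rat c w * Gux).im = l1c c w * Gux.im + l2c c w * Gvx.im := by
  rw [phi_far h w Gux Gvx hx]
  simp

omit [Fintype K] in
/-- covariance identity at `x = u` -/
theorem phi_root_im {c : List K → ℂ} (h : 0 < (c []).im) (w : List K) (Guu Gvu : ℂ)
    (hx : Guu / c [] + Gvu = 1) :
    (rat c w * Guu).im = l1c c w * Guu.im + l2c c w * Gvu.im := by
  have h1 : rat c w * Guu = (l1c c w : ℂ) * Guu + (l2c c w : ℂ) * Gvu - ((l2c c w : ℝ) : ℂ) := by
    rw [rat_eq h w]
    linear_combination (-(l2c c w) : ℂ) * hx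
  rw [h1]
  simp

end

end Crest.Agent.R166.L2_942
private theorem rz_b99594eede : type_of% @_root_.Crest.Agent.R166.L2_942.gcol.eq_def := @_root_.Crest.Agent.R166.L2_942.gcol.eq_def -- L138
private theorem rz_9c156e1658 : type_of% @_root_.Crest.Agent.R166.L2_942.gcol.eq_1 := @_root_.Crest.Agent.R166.L2_942.gcol.eq_1 -- L138
private theorem rz_90ceddd3ba : type_of% @_root_.Crest.Agent.R166.L2_942.lev.eq_def := @_root_.Crest.Agent.R166.L2_942.lev.eq_def -- L26
private theorem rz_3ebdfd05a0 : type_of% @_root_.Crest.Agent.R166.L2_942.lev.eq_1 := @_root_.Crest.Agent.R166.L2_942.lev.eq_1 -- L26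
private theorem rz_160906fe3a : type_of% @_root_.Crest.Agent.R166.L2_942.rat.eq_def := @_root_.Crest.Agent.R166.L2_942.rat.eq_def -- L460
private theorem rz_c675e74750 : type_of% @_root_.Crest.Agent.R166.L2_942.rat.eq_1 := @_root_.Crest.Agent.R166.L2_942.rat.eq_1 -- L460
private theorem rz_1a1e57ddfb : type_of% @_root_.Crest.Agent.R166.L2_942.wds.eq_def := @_root_.Crest.Agent.R166.L2_942.wds.eq_def -- L71
private theorem rz_bf7493018f : type_of% @_root_.Crest.Agent.R166.L2_942.wds.eq_1 := @_root_.Crest.Agent.R166.L2_942.wds.eq_1 -- L71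
end

-- ▼ part R166/L2B_942
section

/-!
Row 166, section 42.3 (helper942): bridges of the divergence lemma and of the tree algebra
(`L2_942`) to the abstract graphing form (`MartB_663`) and to the limit process (`Spec_B2_385`).
-/

set_option autoImplicit false

noncomputable section

open MeasureTheory ProbabilityTheory Filter Topology

namespace Crest.Agent.R166.L2_942

open Crest.Agent.R166.Mart663

/-! ### (B1) graphing form -/

section graphing
variable {Ω : Type*} {m0 : MeasurableSpace Ω} {P : Measure Ω} {A : Type*} [AddGroup A]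

/-- nonzero letters -/
abbrev KK (A : Type*) [AddGroup A] := {a : A // a ≠ 0}

/-- words with nonzero letters as lists over the subtype -/
def toK (w : NW A) : List (KK A) := w.1.pmap (fun a h => ⟨a, h⟩) w.2






/-- cavity numbers of the side of the base edge containing the base vertex of `x` -/
def cx (g : Graphing P A) (cav : Ω → ℂ) (x : Ω) : List (KK A) → ℂ :=
  fun w => cav (g.inv (w.map Subtype.val) x)

/-- first coefficient -/
def L1 (g : Graphing P A) (cav : Ω → ℂ) (w : NW A) (x : Ω) : ℝ := l1c (cx g cav x) (toK w)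






end graphing

/-! ### (B2) limit process form -/

section lim
open Crest.Agent.R166.B2

variable {Ω : Type*} {pp rr : Ω → Ω} {cav : Ω → ℂ}

/-- cavity numbers along words of naturals, newest letter first -/
def cN (pp rr : Ω → Ω) (cav : Ω → ℂ) (x : Ω) : List ℕ → ℂ := fun w => cav (wd pp rr w.reverse x)

theorem wd_append (u v : List ℕ) (x : Ω) : wd pp rr (u ++ v) x = wd pp rr v (wd pp rr u x) := by
  induction u generalizing x with
  | nil => rfl
  | cons j u ih => simp only [List.cons_append, wd, ih]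

theorem tr_append_singleton (u : List ℕ) (k : ℕ) (x : Ω) :
    tr pp rr cav (u ++ [k]) x = (-cav (mv pp rr k (wd pp rr u x))) * tr pp rr cav u x := by
  induction u generalizing x with
  | nil => simp [tr, wd]
  | cons j u ih =>
    simp only [List.cons_append, tr, wd, ih]
    ring

theorem tr_reverse (w : List ℕ) (x : Ω) :
    tr pp rr cav w.reverse x = rat (cN pp rr cav x) w := by
  induction w with
  | nil => rfl
  | cons k w ih =>
    rw [List.reverse_cons, tr_append_singleton, ih]
    simp only [rat, cN, List.reverse_cons, wd_append]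
    rfl

/-- `rat` only depends on the letters through a map -/
theorem rat_map {K K' : Type*} (φ : K → K') (c : List K' → ℂ) (w : List K) :
    rat (fun w => c (w.map φ)) w = rat c (w.map φ) := by
  induction w with
  | nil => rfl
  | cons k w ih => simp only [rat, List.map_cons, ih]

theorem l1c_map {K K' : Type*} (φ : K → K') (c : List K' → ℂ) (w : List K) :
    l1c (fun w => c (w.map φ)) w = l1c c (w.map φ) := by
  simp only [l1c, l2c, rat_map, List.map_nil]

theorem l2c_map {K K' : Type*} (φ : K → K') (c : List K' → ℂ) (w : List K) :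
    l2c (fun w => c (w.map φ)) w = l2c c (w.map φ) := by
  simp only [l2c, rat_map, List.map_nil]

variable {d : ℕ} {s E : ℝ} {om : Ω → ℝ}

/-- the Green function at a vertex in terms of the two cavity numbers of an edge -/
theorem Gd_eq (hd : 1 ≤ d) {h : Ω} (him : 0 < (cav h).im) (him' : 0 < (cav (pp h)).im)
    (hrec : cav h * ((E : ℂ) - s * om h +
      ∑ j ∈ Finset.range (d - 1), cav (mv pp rr (j + 1) h)) = -1) :
    1 - cav h * cav (pp h) ≠ 0 ∧
      Gd pp rr d s E om cav h = cav h / (1 - cav h * cav (pp h)) := by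
  have h0 : cav h ≠ 0 := by intro h0; rw [h0] at him; simp at him
  have h1 : 0 < (-1 / cav h).im := neg_inv_im_pos him
  have h2 : -1 / cav h + cav (pp h) ≠ 0 := by
    intro h3
    have := congrArg Complex.im h3
    simp only [Complex.add_im, Complex.zero_im] at this
    linarith
  have h3 : (-1 / cav h + cav (pp h)) * cav h = -(1 - cav h * cav (pp h)) := by
    field_simp; ring
  have h4 : 1 - cav h * cav (pp h) ≠ 0 := by
    intro h5
    rw [h5, neg_zero] at h3
    rcases mul_eq_zero.1 h3 with h | h
    · exact h2 h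
    · exact h0 h
  refine ⟨h4, ?_⟩
  have h5 : (E : ℂ) - s * om h + ∑ i ∈ Finset.range d, cav (mv pp rr i h) =
      -1 / cav h + cav (pp h) := by
    obtain ⟨e, rfl⟩ : ∃ e, d = e + 1 := ⟨d - 1, by omega⟩
    rw [Finset.sum_range_succ']
    have h6 : mv pp rr 0 h = pp h := rfl
    rw [h6]
    simp only [Nat.add_sub_cancel] at hrec
    have h7 : -1 / cav h = (E : ℂ) - s * om h +
        ∑ j ∈ Finset.range e, cav (mv pp rr (j + 1) h) := by
      rw [div_eq_iff h0, ← hrec]; ring
    rw [h7]; ring
  rw [Gd, h5, div_eq_div_iff h2 h4]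
  linear_combination -h3

/-- the covariance identity behind the regression `(hL)` -/
theorem Go_im_eq (hd : 1 ≤ d) {h : Ω} (hpp : pp (pp h) = h) (him : 0 < (cav h).im)
    (him' : 0 < (cav (pp h)).im)
    (hrec : cav h * ((E : ℂ) - s * om h +
      ∑ j ∈ Finset.range (d - 1), cav (mv pp rr (j + 1) h)) = -1)
    (hrec' : cav (pp h) * ((E : ℂ) - s * om (pp h) +
      ∑ j ∈ Finset.range (d - 1), cav (mv pp rr (j + 1) (pp h))) = -1)
    (w : List ℕ) (i0 : Fin d) (hi0 : (i0 : ℕ) = 0) (a : St d) :
    (Go pp rr d s E om cav w.reverse h a).im =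
      l1c (cN pp rr cav (pp h)) w * (Gs pp rr d s E om cav h (some i0) a).im +
      l2c (cN pp rr cav (pp h)) w * (Gs pp rr d s E om cav h none a).im := by
  have hc0 : cN pp rr cav (pp h) [] = cav (pp h) := rfl
  have hmv0 : mv pp rr (i0 : ℕ) h = pp h := by rw [hi0]; rfl
  have h0 : cav (pp h) ≠ 0 := by intro h0; rw [h0] at him'; simp at him'
  obtain ⟨e1, e2⟩ := Gd_eq (s := s) (E := E) (om := om) hd him him' hrec
  obtain ⟨e3, e4⟩ := Gd_eq (s := s) (E := E) (om := om) (h := pp h) hd him'
    (by rw [hpp]; exact him) hrec'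
  rw [hpp] at e3 e4
  match a with
  | none =>
    simp only [Go, tr_reverse, Gs, hmv0]
    apply phi_far_im him'
    rw [hc0]
    field_simp
  | some i =>
    by_cases hi : (i : ℕ) = 0
    · have hii : i0 = i := Fin.ext (by rw [hi0, hi])
      have hmvi : mv pp rr (i : ℕ) h = pp h := by rw [hi]; rfl
      simp only [Go, tr_reverse, Gs, hi, if_true, hii]
      have h5 : Gd pp rr d s E om cav (pp h) =
          Gd pp rr d s E om cav h * cav (pp h) * cav (pp h) + cav (pp h) := by
        rw [e2, e4]
        have e5 : 1 - cav (pp h) * cav h = 1 - cav h * cav (pp h) := by ring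
        rw [e5]
        field_simp
        ring
      rw [h5]
      have h6 := phi_root_im him' w (Gd pp rr d s E om cav h * cav (pp h) * cav (pp h) + cav (pp h))
        (Gd pp rr d s E om cav h * -cav (pp h)) (c := cN pp rr cav (pp h)) (by
          rw [hc0]; field_simp; ring)
      have h7 : mv pp rr 0 h = pp h := rfl
      rw [h7]
      exact h6
    · have hii : i0 ≠ i := fun h => hi (by rw [← h, hi0])
      simp only [Go, tr_reverse, Gs, hi, if_false, hii, hmv0, add_zero]
      have h6 := phi_far_im him' w (Gd pp rr d s E om cav h * cav (pp h) * cav (mv pp rr (i : ℕ) h))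
        (Gd pp rr d s E om cav h * -cav (mv pp rr (i : ℕ) h)) (c := cN pp rr cav (pp h)) (by
          rw [hc0]; field_simp)
      rw [← h6]
      congr 1
      ring

end lim

end Crest.Agent.R166.L2_942
end
end

-- ▼ part R166/Cav_942
section

/-!
Row 166, sections 42.1-42.3 (helper942): the bridge from the limit process (`Spec_B2_385`) to the
words of `L2_942`, in the form asked for by helper663.
-/

set_option autoImplicit false

noncomputable section

open MeasureTheory ProbabilityTheory Filter Topology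

namespace Crest.Agent.R166.Cav942

open Crest.Agent.R166.B2 Crest.Agent.R166.L2_942

variable {Ω : Type*} {d : ℕ}

/-- nonzero letters -/
abbrev KK (d : ℕ) := {k : ZMod d // k ≠ 0}

/-- the half-edge at the end of the word `w` (newest letter first) -/
def pos (pp rr : Ω → Ω) : List (KK d) → Ω → Ω
  | [], h => h
  | k :: w, h => mv pp rr k.1.val (pos pp rr w h)

/-- cavity numbers along the words -/
def cw (pp rr : Ω → Ω) (cav : Ω → ℂ) (h : Ω) : List (KK d) → ℂ := fun w => cav (pos pp rr w h)

/-- the word in the form of `Spec_B2_385` -/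
def word (w : List (KK d)) : List ℕ := (w.map (fun k => k.1.val)).reverse

/-- (C3) -/
theorem pos_eq_wd (pp rr : Ω → Ω) (w : List (KK d)) (h : Ω) :
    pos pp rr w h = wd pp rr (word w) h := by
  induction w with
  | nil => rfl
  | cons k w ih =>
    have h1 : word (k :: w) = word w ++ [k.1.val] := by simp [word]
    rw [pos, ih, h1, wd_append]
    rfl

/-- (C3) -/
theorem outW_word [NeZero d] (w : List (KK d)) : OutW d (word w) := by
  intro j hj
  rw [word, List.mem_reverse, List.mem_map] at hj
  obtain ⟨k, _, rfl⟩ := hj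
  refine ⟨?_, ZMod.val_lt _⟩
  rw [Nat.one_le_iff_ne_zero, Ne, ZMod.val_eq_zero]
  exact k.2

theorem sum_KK [NeZero d] {M : Type*} [AddCommMonoid M] (f : ℕ → M) :
    ∑ k : KK d, f k.1.val = ∑ j ∈ Finset.range (d - 1), f (j + 1) := by
  classical
  refine Finset.sum_bij' (fun k _ => k.1.val - 1)
    (fun j hj => (⟨((j + 1 : ℕ) : ZMod d), ?_⟩ : KK d)) ?_ ?_ ?_ ?_ ?_
  · rw [Finset.mem_range] at hj
    intro h0
    rw [ZMod.natCast_eq_zero_iff] at h0
    have := Nat.le_of_dvd (by omega) h0
    omega
  · intro k _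
    have h1 : k.1.val < d := ZMod.val_lt _
    have h2 : k.1.val ≠ 0 := fun h => k.2 ((ZMod.val_eq_zero _).1 h)
    rw [Finset.mem_range]; omega
  · intro j _; exact Finset.mem_univ _
  · intro k _
    have h2 : k.1.val ≠ 0 := fun h => k.2 ((ZMod.val_eq_zero _).1 h)
    apply Subtype.ext
    simp only
    have h3 : k.1.val - 1 + 1 = k.1.val := by omega
    rw [h3, ZMod.natCast_zmod_val]
  · intro j hj
    rw [Finset.mem_range] at hj
    simp only
    rw [ZMod.val_natCast_of_lt (by omega)]
    omega
  · intro k _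
    have h2 : k.1.val ≠ 0 := fun h => k.2 ((ZMod.val_eq_zero _).1 h)
    congr 1
    omega

theorem cw_eq (pp rr : Ω → Ω) (cav : Ω → ℂ) (h : Ω) :
    (cw pp rr cav h : List (KK d) → ℂ) =
      fun w => cN pp rr cav h (w.map (fun k => k.1.val)) := by
  funext w
  rw [cw, cN, pos_eq_wd]
  rfl

theorem l1c_cw (pp rr : Ω → Ω) (cav : Ω → ℂ) (h : Ω) (w : List (KK d)) :
    l1c (cw pp rr cav h) w = l1c (cN pp rr cav h) (w.map (fun k => k.1.val)) := by
  rw [cw_eq]
  exact l1c_map _ _ _

theorem l2c_cw (pp rr : Ω → Ω) (cav : Ω → ℂ) (h : Ω) (w : List (KK d)) :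
    l2c (cw pp rr cav h) w = l2c (cN pp rr cav h) (w.map (fun k => k.1.val)) := by
  rw [cw_eq]
  exact l2c_map _ _ _

section lim

variable {Env FX : MeasurableSpace Ω} [mΩ : MeasurableSpace Ω]
    {k : ℕ} {s E t ρ : ℝ} {P : Measure Ω} {pp rr : Ω → Ω} {om : Ω → ℝ} {cav : Ω → ℂ}
    {X Z : Ω → Fin k → ℝ}

theorem mp_mv (L : LimProc Env FX d k s E t ρ P pp rr om cav X Z) (j : ℕ) :
    MeasurePreserving (mv pp rr j) P P :=
  L.pp_mp.comp (L.rr_mp.iterate j)

theorem mp_pos (L : LimProc Env FX d k s E t ρ P pp rr om cav X Z) (w : List (KK d)) :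
    MeasurePreserving (pos pp rr w) P P := by
  induction w with
  | nil => exact MeasurePreserving.id P
  | cons k w ih => exact (mp_mv L _).comp ih


theorem ae_pos [NeZero d] (L : LimProc Env FX d k s E t ρ P pp rr om cav X Z) {p : Ω → Prop}
    (hp : ∀ᵐ h ∂P, p h) : ∀ᵐ h ∂P, ∀ w : List (KK d), p (pos pp rr w h) := by
  rw [ae_all_iff]
  intro w
  exact (mp_pos L w).quasiMeasurePreserving.ae hp

theorem ae_pp (L : LimProc Env FX d k s E t ρ P pp rr om cav X Z) {p : Ω → Prop}
    (hp : ∀ᵐ h ∂P, p h) : ∀ᵐ h ∂P, p (pp h) :=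
  L.pp_mp.quasiMeasurePreserving.ae hp

theorem ae_mv (L : LimProc Env FX d k s E t ρ P pp rr om cav X Z) {p : Ω → Prop}
    (hp : ∀ᵐ h ∂P, p h) : ∀ᵐ h ∂P, ∀ j : ℕ, p (mv pp rr j h) := by
  rw [ae_all_iff]
  intro j
  exact (mp_mv L j).quasiMeasurePreserving.ae hp


/-- (C1) -/
theorem C1 [NeZero d] (L : LimProc Env FX d k s E t ρ P pp rr om cav X Z) :
    ∀ᵐ h ∂P, ∀ a b : ℝ, (Summable fun w : List (KK d) =>
      (l1c (cw pp rr cav h) w * a + l2c (cw pp rr cav h) w * b) ^ 2) → a = 0 ∧ b = 0 := by
  obtain ⟨η, c, hη, hη0, hcm, hc, hlim⟩ := L.cav_lim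
  filter_upwards [ae_pos L (ae_all_iff.2 hc), ae_pos L hlim, ae_pos L L.cav_im] with h h1 h2 h3
  intro a b hs
  refine hD (E := E) (V := fun w => s * om (pos pp rr w h)) (eta := η)
    (c := fun i => cw pp rr (c i) h) (c0 := cw pp rr cav h) hη hη0 ?_ (fun w => h2 w)
    (fun w => h3 w) a b hs
  intro i w
  refine ⟨(h1 w i).1, ?_⟩
  have h4 := (h1 w i).2.2
  have h5 : ∑ k : KK d, cw pp rr (c i) h (k :: w) =
      ∑ j ∈ Finset.range (d - 1), c i (mv pp rr (j + 1) (pos pp rr w h)) :=
    sum_KK (fun j => c i (mv pp rr j (pos pp rr w h)))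
  rw [h5]
  simp only [cw]
  push_cast
  exact h4

/-- (C2) -/
theorem C2 [NeZero d] (L : LimProc Env FX d k s E t ρ P pp rr om cav X Z) :
    ∀ᵐ h ∂P, ∀ (w : List (KK d)) (a : St d),
      (Go pp rr d s E om cav (word w) h a).im =
        l1c (cw pp rr cav (pp h)) w *
          (Gs pp rr d s E om cav h (some ⟨0, NeZero.pos d⟩) a).im +
        l2c (cw pp rr cav (pp h)) w * (Gs pp rr d s E om cav h none a).im := by
  filter_upwards [L.cav_im, ae_pp L L.cav_im, L.cav_rec, ae_pp L L.cav_rec] with h h1 h2 h3 h4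
  intro w a
  rw [l1c_cw, l2c_cw, word]
  exact Go_im_eq (NeZero.one_le) (L.pp_pp h) h1 h2 h3 h4 _ _ rfl a

omit mΩ in
/-- (C4) symmetry -/
theorem Gs_symm (h : Ω) (a b : St d) :
    Gs pp rr d s E om cav h a b = Gs pp rr d s E om cav h b a := by
  match a, b with
  | none, none => rfl
  | none, some i => rfl
  | some i, none => rfl
  | some i, some j =>
    simp only [Gs]
    by_cases hij : i = j
    · subst hij; simp
    · rw [if_neg hij, if_neg (Ne.symm hij)]
      ring

theorem meas_mv (L : LimProc Env FX d k s E t ρ P pp rr om cav X Z) (j : ℕ) :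
    Measurable[Env, Env] (mv pp rr j) := by
  have h1 : Measurable[Env, Env] (rr^[j]) := L.rr_Env.iterate j
  exact L.pp_Env.comp h1

theorem meas_pos (L : LimProc Env FX d k s E t ρ P pp rr om cav X Z) (w : List (KK d)) :
    Measurable[Env, Env] (pos pp rr w) := by
  induction w with
  | nil => exact measurable_id
  | cons k w ih => exact (meas_mv L _).comp ih

/-- (C4) -/
theorem meas_Gd (L : LimProc Env FX d k s E t ρ P pp rr om cav X Z) :
    Measurable[Env] (Gd pp rr d s E om cav) := by
  have h1 : Measurable[Env] (fun h => (E : ℂ) - s * om h +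
      ∑ i ∈ Finset.range d, cav (mv pp rr i h)) := by
    refine Measurable.add ?_ ?_
    · refine measurable_const.sub (measurable_const.mul ?_)
      exact Complex.measurable_ofReal.comp L.om_meas
    · exact Finset.measurable_fun_sum _ fun i _ => L.cav_meas.comp (meas_mv L i)
  exact h1.const_div (-1)

/-- (C4) -/
theorem meas_Gs (L : LimProc Env FX d k s E t ρ P pp rr om cav X Z) (a b : St d) :
    Measurable[Env] (fun h => Gs pp rr d s E om cav h a b) := by
  have hG := meas_Gd L
  have hm : ∀ i : ℕ, Measurable[Env] (fun h => cav (mv pp rr i h)) :=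
    fun i => L.cav_meas.comp (meas_mv L i)
  match a, b with
  | none, none => exact hG
  | none, some i => exact hG.mul (hm i).neg
  | some i, none => exact hG.mul (hm i).neg
  | some i, some j =>
    refine ((hG.mul (hm i)).mul (hm j)).add ?_
    by_cases hij : i = j
    · simp only [hij, if_true]; exact hm j
    · simp only [hij, if_false]; exact measurable_const

theorem meas_tr (L : LimProc Env FX d k s E t ρ P pp rr om cav X Z) (w : List ℕ) :
    Measurable[Env] (tr pp rr cav w) := by
  induction w with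
  | nil => exact measurable_const
  | cons j w ih =>
    show Measurable[Env] (fun h => (-cav (mv pp rr j h)) * tr pp rr cav w (mv pp rr j h))
    exact (L.cav_meas.comp (meas_mv L j)).neg.mul (ih.comp (meas_mv L j))

/-- (C4) -/
theorem meas_Go (L : LimProc Env FX d k s E t ρ P pp rr om cav X Z) (w : List ℕ) (a : St d) :
    Measurable[Env] (fun h => Go pp rr d s E om cav w h a) := by
  have hG := meas_Gd L
  have hm : ∀ i : ℕ, Measurable[Env] (fun h => cav (mv pp rr i h)) :=
    fun i => L.cav_meas.comp (meas_mv L i)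
  have hp : Measurable[Env] (fun h => cav (pp h)) := L.cav_meas.comp L.pp_Env
  have ht : Measurable[Env] (fun h => tr pp rr cav w (pp h)) := (meas_tr L w).comp L.pp_Env
  match a with
  | none => exact ht.mul (hG.mul hp.neg)
  | some i =>
    simp only [Go]
    refine ht.mul ?_
    by_cases hi : (i : ℕ) = 0
    · simp only [hi, if_true]; exact hG.comp L.pp_Env
    · simp only [hi, if_false]; exact (hG.mul hp.neg).mul (hm i).neg

theorem meas_rat (L : LimProc Env FX d k s E t ρ P pp rr om cav X Z) (w : List (KK d)) :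
    Measurable[Env] (fun h => rat (cw pp rr cav h) w) := by
  induction w with
  | nil => exact measurable_const
  | cons j w ih =>
    show Measurable[Env] (fun h => -cw pp rr cav h (j :: w) * rat (cw pp rr cav h) w)
    exact (L.cav_meas.comp (meas_pos L (j :: w))).neg.mul ih

/-- (C4) -/
theorem meas_l2c (L : LimProc Env FX d k s E t ρ P pp rr om cav X Z) (w : List (KK d)) :
    Measurable[Env] (fun h => l2c (cw pp rr cav h) w) := by
  have h2 : Measurable[Env] (fun h => (-1 / cw (d := d) pp rr cav h [])) :=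
    L.cav_meas.const_div (-1)
  exact (Complex.measurable_im.comp (meas_rat L w)).div (Complex.measurable_im.comp h2)

/-- (C4) -/
theorem meas_l1c (L : LimProc Env FX d k s E t ρ P pp rr om cav X Z) (w : List (KK d)) :
    Measurable[Env] (fun h => l1c (cw pp rr cav h) w) := by
  have h2 : Measurable[Env] (fun h => (-1 / cw (d := d) pp rr cav h [])) :=
    L.cav_meas.const_div (-1)
  exact (Complex.measurable_re.comp (meas_rat L w)).sub
    ((meas_l2c L w).mul (Complex.measurable_re.comp h2))



/-- (C5) -/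
theorem C5_im (L : LimProc Env FX d k s E t ρ P pp rr om cav X Z) :
    ∀ᵐ h ∂P, 0 < (Gd pp rr d s E om cav h).im := by
  filter_upwards [ae_mv L L.cav_im] with h h1
  rw [Gd]
  apply neg_inv_im_pos
  have hd : 0 < d := by have := L.hd; omega
  have h2 : ((E : ℂ) - s * om h + ∑ i ∈ Finset.range d, cav (mv pp rr i h)).im =
      ∑ i ∈ Finset.range d, (cav (mv pp rr i h)).im := by
    simp
  rw [h2]
  exact Finset.sum_pos (fun i _ => h1 i) ⟨0, Finset.mem_range.2 hd⟩



end lim

end Crest.Agent.R166.Cav942
end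
private theorem rz_9b4bf94189 : type_of% @_root_.Crest.Agent.R166.Cav942.pos.eq_def := @_root_.Crest.Agent.R166.Cav942.pos.eq_def -- L24
private theorem rz_a78451aeb8 : type_of% @_root_.Crest.Agent.R166.Cav942.pos.eq_1 := @_root_.Crest.Agent.R166.Cav942.pos.eq_1 -- L24
end

-- ▼ part R166/MartE_663
section

/-!
# Row 166, sections 42.1-42.3: assembly for the limit process (helper663)

`tauZero : LimProc → TauZero`.
-/

set_option autoImplicit false

noncomputable section

open MeasureTheory ProbabilityTheory Filter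
open scoped ENNReal

namespace Crest.Agent.R166.Mart663

/-! ### square integrability from the characteristic function -/

lemma memLp_two_of_cos {Ω : Type*} {m0 : MeasurableSpace Ω} {P : Measure Ω}
    [IsProbabilityMeasure P] {Z v : Ω → ℝ} (hZ : Measurable Z) (hv : Integrable v P)
    (hch : ∀ s : ℝ, ∫ ω, Real.cos (s * Z ω) ∂P = ∫ ω, Real.exp (-(1 / 2) * (s ^ 2 * v ω)) ∂P)
    (hexpi : ∀ s : ℝ, Integrable (fun ω => Real.exp (-(1 / 2) * (s ^ 2 * v ω))) P) :
    MemLp Z 2 P := by
  have hπ := Real.pi_pos
  set f : ℕ → Ω → ℝ := fun n ω =>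
    2 * ((n : ℝ) + 1) ^ 2 * (1 - Real.cos ((1 / ((n : ℝ) + 1)) * Z ω)) with hf
  have hf0 : ∀ n ω, 0 ≤ f n ω := fun n ω =>
    mul_nonneg (by positivity) (by linarith [Real.cos_le_one ((1 / ((n : ℝ) + 1)) * Z ω)])
  have hfm : ∀ n, Measurable (f n) := fun n =>
    (measurable_const.sub (Real.measurable_cos.comp (hZ.const_mul _))).const_mul _
  have hcosi : ∀ s : ℝ, Integrable (fun ω => Real.cos (s * Z ω)) P := fun s =>
    Integrable.of_bound (C := 1) (Real.measurable_cos.comp (hZ.const_mul s)).aestronglyMeasurable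
      (Eventually.of_forall fun ω => Real.abs_cos_le_one _)
  have hfi : ∀ n, Integrable (f n) P := fun n =>
    ((integrable_const 1).sub (hcosi _)).const_mul _
  have hint : ∀ n, ∫ ω, f n ω ∂P ≤ ∫ ω, v ω ∂P := by
    intro n
    have hn : (0 : ℝ) < (n : ℝ) + 1 := by positivity
    simp only [hf]
    rw [integral_const_mul, integral_sub (integrable_const 1) (hcosi _), hch,
      ← integral_sub (integrable_const 1) (hexpi _), ← integral_const_mul]
    refine integral_mono (((integrable_const 1).sub (hexpi _)).const_mul _) hv fun ω => ?_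
    have h1 : 1 - Real.exp (-(1 / 2) * ((1 / ((n : ℝ) + 1)) ^ 2 * v ω)) ≤
        (1 / 2) * ((1 / ((n : ℝ) + 1)) ^ 2 * v ω) := by
      have := Real.add_one_le_exp (-(1 / 2) * ((1 / ((n : ℝ) + 1)) ^ 2 * v ω))
      linarith
    calc 2 * ((n : ℝ) + 1) ^ 2 * (1 - Real.exp (-(1 / 2) * ((1 / ((n : ℝ) + 1)) ^ 2 * v ω)))
        ≤ 2 * ((n : ℝ) + 1) ^ 2 * ((1 / 2) * ((1 / ((n : ℝ) + 1)) ^ 2 * v ω)) :=
          mul_le_mul_of_nonneg_left h1 (by positivity)
      _ = v ω := by field_simp
  have hle : ∫⁻ ω, ENNReal.ofReal (4 / Real.pi ^ 2 * Z ω ^ 2) ∂P ≤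
      ENNReal.ofReal (∫ ω, v ω ∂P) := by
    calc ∫⁻ ω, ENNReal.ofReal (4 / Real.pi ^ 2 * Z ω ^ 2) ∂P
        ≤ ∫⁻ ω, liminf (fun n => ENNReal.ofReal (f n ω)) atTop ∂P := by
          refine lintegral_mono fun ω => ?_
          refine le_liminf_of_le (by isBoundedDefault) ?_
          obtain ⟨N, hN⟩ := exists_nat_ge (|Z ω| / Real.pi)
          filter_upwards [eventually_ge_atTop N] with n hn
          refine ENNReal.ofReal_le_ofReal ?_
          have hn1 : (0 : ℝ) < (n : ℝ) + 1 := by positivity
          have hx : |(1 / ((n : ℝ) + 1)) * Z ω| ≤ Real.pi := by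
            rw [abs_mul, abs_of_pos (by positivity : (0 : ℝ) < 1 / ((n : ℝ) + 1)), one_div,
              inv_mul_le_iff₀ hn1]
            have h1 : |Z ω| ≤ N * Real.pi := by
              rw [div_le_iff₀ hπ] at hN; exact hN
            have h2 : (N : ℝ) ≤ n := by exact_mod_cast hn
            nlinarith
          have h3 := Real.cos_le_one_sub_mul_cos_sq hx
          simp only [hf]
          have h4 : 2 / Real.pi ^ 2 * ((1 / ((n : ℝ) + 1)) * Z ω) ^ 2 ≤
              1 - Real.cos ((1 / ((n : ℝ) + 1)) * Z ω) := by linarith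
          calc 4 / Real.pi ^ 2 * Z ω ^ 2 = 2 * ((n : ℝ) + 1) ^ 2 *
                (2 / Real.pi ^ 2 * ((1 / ((n : ℝ) + 1)) * Z ω) ^ 2) := by
                field_simp
                ring
            _ ≤ _ := mul_le_mul_of_nonneg_left h4 (by positivity)
      _ ≤ liminf (fun n => ∫⁻ ω, ENNReal.ofReal (f n ω) ∂P) atTop :=
          lintegral_liminf_le fun n => (hfm n).ennreal_ofReal
      _ ≤ ENNReal.ofReal (∫ ω, v ω ∂P) := by
          refine liminf_le_of_le (by isBoundedDefault) fun b hb => ?_
          obtain ⟨n, hn⟩ := hb.exists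
          refine hn.trans ?_
          rw [← ofReal_integral_eq_lintegral_ofReal (hfi n) (Eventually.of_forall (hf0 n))]
          exact ENNReal.ofReal_le_ofReal (hint n)
  have hsq : Integrable (fun ω => Z ω ^ 2) P := by
    have h1 : Integrable (fun ω => 4 / Real.pi ^ 2 * Z ω ^ 2) P := by
      refine ⟨((hZ.pow_const 2).const_mul _).aestronglyMeasurable, ?_⟩
      rw [hasFiniteIntegral_iff_ofReal (Eventually.of_forall fun ω => by positivity)]
      exact lt_of_le_of_lt hle ENNReal.ofReal_lt_top
    have h2 := h1.const_mul (Real.pi ^ 2 / 4)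
    refine h2.congr (Eventually.of_forall fun ω => ?_)
    field_simp
  exact (memLp_two_iff_integrable_sq hZ.aestronglyMeasurable).mpr hsq

/-! ### The graphing of the limit process -/

open Crest.Agent.R166.B2 Crest.Agent.R166.Cav942 Crest.Agent.R166.L2_942

section lim

variable {Ω : Type*} {Env FX : MeasurableSpace Ω} [mΩ : MeasurableSpace Ω]
    {d k : ℕ} {s E t ρ : ℝ} {P : Measure Ω} {pp rr : Ω → Ω} {om : Ω → ℝ} {cav : Ω → ℂ}
    {X Z : Ω → Fin k → ℝ}

omit mΩ in
lemma iter_mod (hrr : ∀ h, rr^[d] h = h) (n : ℕ) (h : Ω) : rr^[n % d] h = rr^[n] h := by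
  have h1 : ∀ (q : ℕ) (h : Ω), (rr^[d])^[q] h = h := by
    intro q
    induction q with
    | zero => intro h; rfl
    | succ q ih =>
      intro h
      rw [Function.iterate_succ_apply, hrr, ih]
  conv_rhs => rw [← Nat.mod_add_div n d, Function.iterate_add_apply, Function.iterate_mul, h1]

/-- the graphing of the limit process -/
def gr [NeZero d] (L : LimProc Env FX d k s E t ρ P pp rr om cav X Z) : Graphing P (ZMod d) where
  pp := pp
  rot a := rr^[a.val]
  mp_pp := L.pp_mp
  mp_rot a := L.rr_mp.iterate _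
  pp_pp := L.pp_pp
  rot_zero x := by rw [ZMod.val_zero]; rfl
  rot_add a b x := by
    rw [ZMod.val_add, iter_mod L.rr_d, Function.iterate_add_apply]

/-- the letters of `Cav_942` as words of the graphing -/
def ofW [NeZero d] (w : List (KK d)) : NW (ZMod d) := ⟨w.map fun k => -k.1, by
  intro a ha
  obtain ⟨k, _, rfl⟩ := List.mem_map.1 ha
  exact neg_ne_zero.mpr k.2⟩

lemma ofW_bijective [NeZero d] : Function.Bijective (ofW (d := d)) := by
  constructor
  · intro w w' h
    have h1 := congrArg Subtype.val h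
    simp only [ofW] at h1
    refine List.map_injective_iff.2 ?_ h1
    intro a b hab
    exact Subtype.ext (neg_injective hab)
  · rintro ⟨w, hw⟩
    induction w with
    | nil => exact ⟨[], rfl⟩
    | cons a w ih =>
      obtain ⟨w', hw'⟩ := ih fun b hb => hw b (List.mem_cons_of_mem _ hb)
      have h1 := congrArg Subtype.val hw'
      simp only [ofW] at h1
      refine ⟨⟨-a, neg_ne_zero.mpr (hw a List.mem_cons_self)⟩ :: w', Subtype.ext ?_⟩
      simp only [ofW, List.map_cons, neg_neg, h1]

/-- the equivalence of words -/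
def eW [NeZero d] : List (KK d) ≃ NW (ZMod d) := Equiv.ofBijective ofW ofW_bijective

lemma inv_ofW [NeZero d] (L : LimProc Env FX d k s E t ρ P pp rr om cav X Z) (w : List (KK d))
    (h : Ω) : (gr L).inv (ofW w).1 h = pos pp rr w h := by
  induction w with
  | nil => rfl
  | cons a w ih =>
    show (gr L).inv ((-a.1) :: (ofW w).1) h = mv pp rr a.1.val (pos pp rr w h)
    simp only [Graphing.inv]
    rw [ih]
    simp only [gr, neg_neg, mv]

lemma inv_eq [NeZero d] (L : LimProc Env FX d k s E t ρ P pp rr om cav X Z) (w : NW (ZMod d))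
    (h : Ω) : (gr L).inv w.1 h = pos pp rr (eW.symm w) h := by
  rw [← inv_ofW L]
  congr 2
  exact (eW.apply_symm_apply w).symm

/-! ### invariance of the environment -/

lemma comap_pp (L : LimProc Env FX d k s E t ρ P pp rr om cav X Z) : Env.comap pp = Env := by
  apply le_antisymm
  · exact L.pp_Env.comap_le
  · have h1 : (Env.comap pp).comap pp = Env := by
      rw [MeasurableSpace.comap_comp]
      have : pp ∘ pp = id := funext L.pp_pp
      rw [this, MeasurableSpace.comap_id]
    calc Env = (Env.comap pp).comap pp := h1.symm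
      _ ≤ Env.comap pp := MeasurableSpace.comap_mono L.pp_Env.comap_le

lemma comap_rot_le [NeZero d] (L : LimProc Env FX d k s E t ρ P pp rr om cav X Z) (a : ZMod d) :
    Env.comap ((gr L).rot a) ≤ Env :=
  (L.rr_Env.iterate a.val).comap_le

lemma comap_rot [NeZero d] (L : LimProc Env FX d k s E t ρ P pp rr om cav X Z) (a : ZMod d) :
    Env.comap ((gr L).rot a) = Env := by
  apply le_antisymm (comap_rot_le L a)
  have h1 : (Env.comap ((gr L).rot (-a))).comap ((gr L).rot a) = Env := by
    rw [MeasurableSpace.comap_comp]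
    have : (gr L).rot (-a) ∘ (gr L).rot a = id := funext fun x => (gr L).rot_neg' a x
    rw [this, MeasurableSpace.comap_id]
  calc Env = (Env.comap ((gr L).rot (-a))).comap ((gr L).rot a) := h1.symm
    _ ≤ Env.comap ((gr L).rot a) := MeasurableSpace.comap_mono (comap_rot_le L (-a))

lemma measurable_YY (L : LimProc Env FX d k s E t ρ P pp rr om cav X Z) :
    Measurable (YY t X Z) := by
  have hX : Measurable X := L.X_meas.mono L.FX_le le_rfl
  refine measurable_pi_lambda _ fun l => ?_
  exact ((measurable_pi_apply l).comp hX).add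
    (((measurable_pi_apply l).comp L.Z_meas).const_mul _)

lemma YY_rr (L : LimProc Env FX d k s E t ρ P pp rr om cav X Z) (h : Ω) :
    YY t X Z (rr h) = YY t X Z h := by
  funext l
  simp only [YY, L.X_rr h, L.Z_rr h]

lemma YY_iter (L : LimProc Env FX d k s E t ρ P pp rr om cav X Z) (n : ℕ) (h : Ω) :
    YY t X Z (rr^[n] h) = YY t X Z h := by
  induction n generalizing h with
  | zero => rfl
  | succ n ih => rw [Function.iterate_succ_apply, ih, YY_rr L]


/-! ### square integrability of `Z` -/

lemma memLp_Z (L : LimProc Env FX d k s E t ρ P pp rr om cav X Z) (l : Fin k) :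
    MemLp (fun h => Z h l) 2 P := by
  classical
  have := L.prob
  have hZl : Measurable fun h => Z h l := (measurable_pi_apply l).comp L.Z_meas
  have hv : Integrable (fun h => (Gd pp rr d s E om cav h).im / (Real.pi * ρ)) P :=
    L.G_int.div_const _
  -- the characteristic function
  have hch : ∀ r : ℝ, P[fun h => Complex.exp (Complex.I * ((r * Z h l : ℝ) : ℂ)) | FX] =ᵐ[P]
      fun h => Complex.exp (((-(1 / 2) * (r ^ 2 * ((Gd pp rr d s E om cav h).im /
        (Real.pi * ρ))) : ℝ)) : ℂ) := by
    intro r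
    have h := L.Z_gauss [] (by intro j hj; simp at hj) 0
      (fun a l' => if a = none ∧ l' = l then r else 0)
    have e1 : ∀ h : Ω, (∑ l', ((0 : Fin k → ℝ) l' * Z (wd pp rr [] (pp h)) l' +
        ∑ a : St d, (if a = none ∧ l' = l then r else 0) * Z (sv pp rr d h a) l')) =
        r * Z h l := by
      intro h
      simp only [Pi.zero_apply, zero_mul, zero_add]
      rw [Finset.sum_eq_single l, Fintype.sum_option]
      · simp [sv]
      · intro b _ hb; simp [hb]
      · intro h; exact absurd (Finset.mem_univ l) h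
    have e2 : ∀ h : Ω, (∑ l', ((0 : Fin k → ℝ) l' ^ 2 *
          (Gd pp rr d s E om cav (wd pp rr [] (pp h))).im
          + 2 * ∑ a : St d, (0 : Fin k → ℝ) l' * (if a = none ∧ l' = l then r else 0) *
            (Go pp rr d s E om cav [] h a).im
          + ∑ a : St d, ∑ b : St d, (if a = none ∧ l' = l then r else 0) *
            (if b = none ∧ l' = l then r else 0) * (Gs pp rr d s E om cav h a b).im) /
              (Real.pi * ρ)) =
        r ^ 2 * ((Gd pp rr d s E om cav h).im / (Real.pi * ρ)) := by
      intro h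
      simp only [Pi.zero_apply, ne_eq, OfNat.ofNat_ne_zero, not_false_eq_true, zero_pow, zero_mul,
        zero_add, Finset.sum_const_zero, mul_zero]
      rw [Finset.sum_eq_single l, Fintype.sum_option]
      · rw [Fintype.sum_option]
        simp only [true_and, if_true, reduceCtorEq, false_and, if_false, zero_mul, mul_zero,
          Finset.sum_const_zero, add_zero, Gs]
        ring
      · intro b _ hb; simp [hb]
      · intro h; exact absurd (Finset.mem_univ l) h
    simp only [e1, e2] at h
    exact h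
  have hcm : ∀ r : ℝ, Measurable fun h => Real.exp (-(1 / 2) * (r ^ 2 *
      ((Gd pp rr d s E om cav h).im / (Real.pi * ρ)))) := by
    intro r
    have hG : Measurable (Gd pp rr d s E om cav) :=
      (meas_Gd L).mono (L.Env_le.trans L.FX_le) le_rfl
    exact Real.measurable_exp.comp
      ((((Complex.measurable_im.comp hG).div_const _).const_mul _).const_mul _)
  have hexpi : ∀ r : ℝ, Integrable (fun h => Real.exp (-(1 / 2) * (r ^ 2 *
      ((Gd pp rr d s E om cav h).im / (Real.pi * ρ))))) P := by
    intro r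
    refine Integrable.of_bound (C := 1) (hcm r).aestronglyMeasurable ?_
    filter_upwards [C5_im L] with h hh
    rw [Real.norm_eq_abs, abs_of_pos (Real.exp_pos _), Real.exp_le_one_iff]
    have h1 : 0 ≤ r ^ 2 * ((Gd pp rr d s E om cav h).im / (Real.pi * ρ)) :=
      mul_nonneg (sq_nonneg _) (div_nonneg hh.le (mul_pos Real.pi_pos L.hρ).le)
    linarith
  refine memLp_two_of_cos hZl hv (fun r => ?_) hexpi
  have hint : Integrable (fun h => Complex.exp (Complex.I * ((r * Z h l : ℝ) : ℂ))) P := by
    refine Integrable.of_bound (C := 1) ?_ (Eventually.of_forall fun ω => ?_)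
    · exact (Complex.measurable_exp.comp
        ((Complex.measurable_ofReal.comp (hZl.const_mul r)).const_mul _)).aestronglyMeasurable
    · rw [mul_comm, Complex.norm_exp_ofReal_mul_I]
  have h1 : ∫ h, Complex.exp (Complex.I * ((r * Z h l : ℝ) : ℂ)) ∂P =
      ((∫ h, Real.exp (-(1 / 2) * (r ^ 2 * ((Gd pp rr d s E om cav h).im /
        (Real.pi * ρ)))) ∂P : ℝ) : ℂ) := by
    rw [← integral_condExp L.FX_le, integral_congr_ae (hch r), ← integral_complex_ofReal]
    refine integral_congr_ae (Eventually.of_forall fun ω => ?_)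
    simp only [Complex.ofReal_exp]
  have h2 := congrArg Complex.re h1
  rw [Complex.ofReal_re] at h2
  rw [← h2, ← RCLike.re_eq_complex_re, ← integral_re hint]
  refine integral_congr_ae (Eventually.of_forall fun ω => ?_)
  simp only [RCLike.re_eq_complex_re]
  rw [mul_comm Complex.I, Complex.exp_ofReal_mul_I_re]

end lim

end Crest.Agent.R166.Mart663
end
end

-- ▼ part R166/MartF_663
section

/-!
# Row 166, sections 42.1-42.3: regression and final assembly (helper663)
-/

set_option autoImplicit false

noncomputable section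

open MeasureTheory ProbabilityTheory Filter
open scoped ENNReal

namespace Crest.Agent.R166.Mart663

open Crest.Agent.R166.B2 Crest.Agent.R166.Cav942 Crest.Agent.R166.L2_942

variable {Ω : Type*} {C Env FX : MeasurableSpace Ω} [mΩ : MeasurableSpace Ω]
    {d k : ℕ} {s E t ρ : ℝ} {P : Measure Ω} {pp rr : Ω → Ω} {om : Ω → ℝ} {cav : Ω → ℂ}
    {X Z : Ω → Fin k → ℝ}

/-- index set of the regression: `none` = the far vertex, `some (a, l)` = star vertices -/
abbrev RI (d k : ℕ) : Type := Option (St d × Fin k)

/-- the Gaussian family -/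
def Vv (pp rr : Ω → Ω) (Z : Ω → Fin k → ℝ) (w : List (KK d)) (l : Fin k) (h : Ω) : RI d k → ℝ
  | none => Z (pos pp rr w (pp h)) l
  | some (a, l') => Z (sv pp rr d h a) l'

/-- its covariance -/
def Kk (pp rr : Ω → Ω) (s E ρ : ℝ) (om : Ω → ℝ) (cav : Ω → ℂ) (w : List (KK d)) (l : Fin k)
    (h : Ω) : RI d k → RI d k → ℝ
  | none, none => (Gd pp rr d s E om cav (pos pp rr w (pp h))).im / (Real.pi * ρ)
  | none, some (a, l') =>
      if l' = l then (Go pp rr d s E om cav (word w) h a).im / (Real.pi * ρ) else 0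
  | some (a, l'), none =>
      if l' = l then (Go pp rr d s E om cav (word w) h a).im / (Real.pi * ρ) else 0
  | some (a, l'), some (b, l'') =>
      if l' = l'' then (Gs pp rr d s E om cav h a b).im / (Real.pi * ρ) else 0

lemma sum_lin {k : ℕ} {A : Type*} [Fintype A] (y : Option (A × Fin k) → ℝ) (l : Fin k)
    (zf : Fin k → ℝ) (zs : A → Fin k → ℝ) :
    ∑ l', ((if l' = l then y none else 0) * zf l' + ∑ a, y (some (a, l')) * zs a l') =
      y none * zf l + ∑ p : A × Fin k, y (some p) * zs p.1 p.2 := by
  classical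
  rw [Finset.sum_add_distrib]
  congr 1
  · rw [Finset.sum_eq_single l]
    · simp
    · intro b _ hb; simp [hb]
    · intro h; exact absurd (Finset.mem_univ l) h
  · rw [Fintype.sum_prod_type, Finset.sum_comm]

lemma sum_quad {k : ℕ} {A : Type*} [Fintype A] (y : Option (A × Fin k) → ℝ) (l : Fin k)
    (gd : ℝ) (go : A → ℝ) (gs : A → A → ℝ) (c : ℝ) :
    ∑ l', ((if l' = l then y none else 0) ^ 2 * gd +
        2 * ∑ a, (if l' = l then y none else 0) * y (some (a, l')) * go a +
        ∑ a, ∑ b, y (some (a, l')) * y (some (b, l')) * gs a b) / c =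
      y none * y none * (gd / c) +
      (∑ p : A × Fin k, y none * y (some p) * (if p.2 = l then go p.1 / c else 0)) +
      ((∑ p : A × Fin k, y (some p) * y none * (if p.2 = l then go p.1 / c else 0)) +
      ∑ p : A × Fin k, ∑ q : A × Fin k, y (some p) * y (some q) *
        (if p.2 = q.2 then gs p.1 q.1 / c else 0)) := by
  classical
  have h1 : ∑ p : A × Fin k, y none * y (some p) * (if p.2 = l then go p.1 / c else 0) =
      (∑ a, y none * y (some (a, l)) * go a) / c := by
    rw [Fintype.sum_prod_type, Finset.sum_div]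
    refine Finset.sum_congr rfl fun a _ => ?_
    rw [Finset.sum_eq_single l]
    · simp only [if_true]; ring
    · intro b _ hb; simp [hb]
    · intro h; exact absurd (Finset.mem_univ l) h
  have h2 : ∑ p : A × Fin k, y (some p) * y none * (if p.2 = l then go p.1 / c else 0) =
      (∑ a, y none * y (some (a, l)) * go a) / c := by
    rw [← h1]
    exact Finset.sum_congr rfl fun p _ => by ring
  have h3 : ∑ p : A × Fin k, ∑ q : A × Fin k, y (some p) * y (some q) *
        (if p.2 = q.2 then gs p.1 q.1 / c else 0) =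
      ∑ l', (∑ a, ∑ b, y (some (a, l')) * y (some (b, l')) * gs a b) / c := by
    rw [Fintype.sum_prod_type, Finset.sum_comm]
    refine Finset.sum_congr rfl fun l' _ => ?_
    rw [Finset.sum_div]
    refine Finset.sum_congr rfl fun a _ => ?_
    rw [Fintype.sum_prod_type, Finset.sum_div]
    refine Finset.sum_congr rfl fun b _ => ?_
    rw [Finset.sum_eq_single l']
    · simp only [if_true]; ring
    · intro q _ hq; simp [Ne.symm hq]
    · intro h; exact absurd (Finset.mem_univ l') h
  rw [h1, h2, h3]
  have h4 : ∀ l', ((if l' = l then y none else 0) ^ 2 * gd +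
        2 * ∑ a, (if l' = l then y none else 0) * y (some (a, l')) * go a +
        ∑ a, ∑ b, y (some (a, l')) * y (some (b, l')) * gs a b) / c =
      (if l' = l then (y none * y none * (gd / c) +
        2 * ((∑ a, y none * y (some (a, l)) * go a) / c)) else 0) +
        (∑ a, ∑ b, y (some (a, l')) * y (some (b, l')) * gs a b) / c := by
    intro l'
    by_cases h : l' = l
    · subst h
      simp only [if_true]
      ring
    · simp only [h, if_false]
      simp
  simp only [h4]
  rw [Finset.sum_add_distrib, Finset.sum_ite_eq' Finset.univ l]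
  simp only [Finset.mem_univ, if_true]
  ring

/-- characteristic function of the family -/
lemma hch_V [NeZero d] (L : LimProc Env FX d k s E t ρ P pp rr om cav X Z) (w : List (KK d))
    (l : Fin k) (y : RI d k → ℝ) :
    P[fun h => Complex.exp (Complex.I * ((∑ i, y i * Vv pp rr Z w l h i : ℝ) : ℂ)) | FX]
      =ᵐ[P] fun h => Complex.exp (((-(1 / 2) *
        ∑ i, ∑ j, y i * y j * Kk pp rr s E ρ om cav w l h i j : ℝ)) : ℂ) := by
  have h := L.Z_gauss (word w) (outW_word w) (fun l' => if l' = l then y none else 0)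
    (fun a l' => y (some (a, l')))
  have e1 : ∀ h : Ω, (∑ l', ((if l' = l then y none else 0) * Z (wd pp rr (word w) (pp h)) l' +
        ∑ a : St d, y (some (a, l')) * Z (sv pp rr d h a) l')) =
        ∑ i, y i * Vv pp rr Z w l h i := by
    intro h
    rw [sum_lin y l (fun l' => Z (wd pp rr (word w) (pp h)) l') fun a l' => Z (sv pp rr d h a) l',
      Fintype.sum_option, ← pos_eq_wd]
    rfl
  have e2 : ∀ h : Ω, (∑ l', ((if l' = l then y none else 0) ^ 2 *
          (Gd pp rr d s E om cav (wd pp rr (word w) (pp h))).im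
          + 2 * ∑ a : St d, (if l' = l then y none else 0) * y (some (a, l')) *
            (Go pp rr d s E om cav (word w) h a).im
          + ∑ a : St d, ∑ b : St d, y (some (a, l')) *
            y (some (b, l')) * (Gs pp rr d s E om cav h a b).im) / (Real.pi * ρ)) =
        ∑ i, ∑ j, y i * y j * Kk pp rr s E ρ om cav w l h i j := by
    intro h
    rw [sum_quad y l _ (fun a => (Go pp rr d s E om cav (word w) h a).im)
      (fun a b => (Gs pp rr d s E om cav h a b).im), ← pos_eq_wd, Fintype.sum_option,
      Fintype.sum_option]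
    simp only [Fintype.sum_option, Finset.sum_add_distrib]
    rfl
  simp only [e1, e2] at h
  exact h

lemma measurable_pos [NeZero d] (L : LimProc Env FX d k s E t ρ P pp rr om cav X Z)
    (w : List (KK d)) : Measurable (pos pp rr w) := (mp_pos L w).measurable

lemma measurable_sv (L : LimProc Env FX d k s E t ρ P pp rr om cav X Z) (a : St d) :
    Measurable fun h => sv pp rr d h a := by
  match a with
  | none => exact measurable_id
  | some i => exact (mp_mv L i).measurable

lemma mp_sv (L : LimProc Env FX d k s E t ρ P pp rr om cav X Z) (a : St d) :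
    MeasurePreserving (fun h => sv pp rr d h a) P P := by
  match a with
  | none => exact MeasurePreserving.id P
  | some i => exact mp_mv L i

lemma measurable_sv_FX (L : LimProc Env FX d k s E t ρ P pp rr om cav X Z) (a : St d) :
    Measurable[FX, FX] fun h => sv pp rr d h a := by
  match a with
  | none => exact measurable_id
  | some i =>
    have h1 : Measurable[FX, FX] (rr^[(i : ℕ)]) := L.rr_FX.iterate i
    exact L.pp_FX.comp h1

/-- coefficients of the regression -/
def lw [NeZero d] (pp rr : Ω → Ω) (cav : Ω → ℂ) (w : List (KK d)) (l : Fin k) (h : Ω) :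
    RI d k → ℝ := by
  classical exact fun i =>
    if i = some (some ⟨0, NeZero.pos d⟩, l) then l1c (cw pp rr cav (pp h)) w
    else if i = some (none, l) then l2c (cw pp rr cav (pp h)) w else 0

omit mΩ in
lemma sum_lw [NeZero d] (w : List (KK d)) (l : Fin k) (h : Ω) (f : RI d k → ℝ) :
    ∑ i, lw pp rr cav w l h i * f i =
      l1c (cw pp rr cav (pp h)) w * f (some (some ⟨0, NeZero.pos d⟩, l)) +
        l2c (cw pp rr cav (pp h)) w * f (some (none, l)) := by
  classical
  rw [Finset.sum_eq_add (some (some ⟨0, NeZero.pos d⟩, l)) (some (none, l))]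
  · simp [lw]
  · simp
  · intro i _ hi
    simp only [lw, hi.1, hi.2, if_false, zero_mul]
  · intro h; exact absurd (Finset.mem_univ _) h
  · intro h; exact absurd (Finset.mem_univ _) h

/-- **regression of the far vertex on the edge**, given any information between the environment
and the star. -/
theorem reg [NeZero d] (L : LimProc Env FX d k s E t ρ P pp rr om cav X Z)
    (w : List (KK d)) (l : Fin k) (hEC : Env ≤ C)
    (hC : C ≤ starAlg Env d t pp rr X Z) :
    P[fun h => Z (pos pp rr w (pp h)) l | C] =ᵐ[P] fun h =>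
      l1c (cw pp rr cav (pp h)) w * (P[fun h => Z (pp h) l | C]) h +
      l2c (cw pp rr cav (pp h)) w * (P[fun h => Z h l | C]) h := by
  classical
  have := L.prob
  have hZ := fun l => (memLp_Z L l).integrable (by norm_num)
  have hVm : Measurable (Vv (d := d) pp rr Z w l) := by
    refine measurable_pi_lambda _ fun i => ?_
    match i with
    | none =>
      exact ((measurable_pi_apply l).comp L.Z_meas).comp
        ((measurable_pos L w).comp L.pp_mp.measurable)
    | some (a, l') =>
      exact ((measurable_pi_apply l').comp L.Z_meas).comp (measurable_sv L a)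
  have hVi : ∀ i, Integrable (fun h => Vv (d := d) pp rr Z w l h i) P := by
    intro i
    match i with
    | none =>
      exact ((mp_pos L w).comp L.pp_mp).integrable_comp_of_integrable (hZ l)
    | some (a, l') =>
      exact (mp_sv L a).integrable_comp_of_integrable (hZ l')
  have hKm : ∀ i j, Measurable[Env] fun h => Kk (d := d) pp rr s E ρ om cav w l h i j := by
    intro i j
    match i, j with
    | none, none =>
      exact (Complex.measurable_im.comp ((meas_Gd L).comp ((meas_pos L w).comp
        L.pp_Env))).div_const _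
    | none, some (a, l') =>
      simp only [Kk]
      by_cases h : l' = l
      · simp only [h, if_true]
        exact (Complex.measurable_im.comp (meas_Go L (word w) a)).div_const _
      · simp only [h, if_false]
        exact measurable_const
    | some (a, l'), none =>
      simp only [Kk]
      by_cases h : l' = l
      · simp only [h, if_true]
        exact (Complex.measurable_im.comp (meas_Go L (word w) a)).div_const _
      · simp only [h, if_false]
        exact measurable_const
    | some (a, l'), some (b, l'') =>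
      simp only [Kk]
      by_cases h : l' = l''
      · simp only [h, if_true]
        exact (Complex.measurable_im.comp (meas_Gs L a b)).div_const _
      · simp only [h, if_false]
        exact measurable_const
  have hKs : ∀ h i j, Kk (d := d) pp rr s E ρ om cav w l h i j =
      Kk (d := d) pp rr s E ρ om cav w l h j i := by
    intro h i j
    match i, j with
    | none, none => rfl
    | none, some (a, l') => rfl
    | some (a, l'), none => rfl
    | some (a, l'), some (b, l'') =>
      simp only [Kk]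
      rw [Gs_symm]
      simp only [eq_comm]
  have hlm : ∀ i, Measurable[Env] fun h => lw (d := d) (k := k) pp rr cav w l h i := by
    intro i
    simp only [lw]
    by_cases h1 : i = some (some ⟨0, NeZero.pos d⟩, l)
    · simp only [h1, if_true]
      exact (meas_l1c L w).comp L.pp_Env
    · simp only [h1, if_false]
      by_cases h2 : i = some (none, l)
      · simp only [h2, if_true]
        exact (meas_l2c L w).comp L.pp_Env
      · simp only [h2, if_false]
        exact measurable_const
  have hreg : ∀ᵐ h ∂P, ∀ j, j ≠ none → Kk (d := d) pp rr s E ρ om cav w l h none j =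
      ∑ i, lw (d := d) (k := k) pp rr cav w l h i * Kk (d := d) pp rr s E ρ om cav w l h i j := by
    filter_upwards [C2 L] with h hh j hj
    match j with
    | none => exact absurd rfl hj
    | some (a, l') =>
      rw [sum_lw w l h fun i => Kk (d := d) pp rr s E ρ om cav w l h i (some (a, l'))]
      simp only [Kk]
      by_cases h1 : l' = l
      · subst h1
        simp only [if_true]
        rw [hh w a]
        ring
      · simp only [h1, Ne.symm h1, if_false, mul_zero, add_zero]
  have hC' : C ≤ FX ⊔ MeasurableSpace.comap (erase (Vv (d := d) pp rr Z w l) none)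
      inferInstance := by
    refine hC.trans (sup_le (L.Env_le.trans le_sup_left) ?_)
    refine Measurable.comap_le ?_
    refine @measurable_pi_lambda Ω (St d) (fun _ => Fin k → ℝ)
      (FX ⊔ MeasurableSpace.comap (erase (Vv (d := d) pp rr Z w l) none) inferInstance) _ _
      fun a => ?_
    refine @measurable_pi_lambda Ω (Fin k) (fun _ => ℝ)
      (FX ⊔ MeasurableSpace.comap (erase (Vv (d := d) pp rr Z w l) none) inferInstance) _ _
      fun l' => ?_
    have h1 : Measurable[FX ⊔ MeasurableSpace.comap (erase (Vv (d := d) pp rr Z w l) none)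
        inferInstance] fun h => X (sv pp rr d h a) l' :=
      (((measurable_pi_apply l').comp L.X_meas).comp (measurable_sv_FX L a)).mono le_sup_left
        le_rfl
    have h2 : Measurable[FX ⊔ MeasurableSpace.comap (erase (Vv (d := d) pp rr Z w l) none)
        inferInstance] fun h => erase (Vv (d := d) pp rr Z w l) none h (some (a, l')) := by
      have h3 : Measurable[MeasurableSpace.comap (erase (Vv (d := d) pp rr Z w l) none)
        inferInstance] (erase (Vv (d := d) pp rr Z w l) none) := comap_measurable _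
      exact ((measurable_pi_apply (some (a, l'))).comp h3).mono le_sup_right le_rfl
    have h4 : (fun h => YY t X Z (sv pp rr d h a) l') = fun h => X (sv pp rr d h a) l' +
        Real.sqrt t * erase (Vv (d := d) pp rr Z w l) none h (some (a, l')) := by
      funext h
      simp [YY, erase, Vv]
    rw [h4]
    exact h1.add (h2.const_mul _)
  have main := gauss_regression (P := P) L.FX_le L.Env_le hVm hVi hKm hKs (hch_V L w l) none hlm
    hreg hEC hC'
  refine main.trans (Eventually.of_forall fun h => ?_)
  simp only []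
  rw [sum_lw w l h fun i => (P[fun ω => Vv (d := d) pp rr Z w l ω i | C]) h]
  rfl

end Crest.Agent.R166.Mart663
end
private theorem rz_6864bb8177 : type_of% @_root_.Crest.Agent.R166.Mart663.Kk.eq_1 := @_root_.Crest.Agent.R166.Mart663.Kk.eq_1 -- L31
private theorem rz_f796b759fe : type_of% @_root_.Crest.Agent.R166.Mart663.Vv.eq_1 := @_root_.Crest.Agent.R166.Mart663.Vv.eq_1 -- L26
end

-- ▼ part R166/MartTau_663

/-!
# Row 166, sections 42.1-42.3: vanishing increments for the limit process (helper663)
-/

set_option autoImplicit false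

noncomputable section

open MeasureTheory ProbabilityTheory Filter
open scoped ENNReal

namespace Crest.Agent.R166.Mart663

open Crest.Agent.R166.B2 Crest.Agent.R166.Cav942 Crest.Agent.R166.L2_942

variable {Ω : Type*} {C Env FX : MeasurableSpace Ω} [mΩ : MeasurableSpace Ω]
    {d k : ℕ} {s E t ρ : ℝ} {P : Measure Ω} {pp rr : Ω → Ω} {om : Ω → ℝ} {cav : Ω → ℂ}
    {X Z : Ω → Fin k → ℝ}

omit mΩ in
lemma mv_zero (h : Ω) : mv pp rr 0 h = pp h := rfl

omit mΩ in
/-- the star algebra as a supremum -/
lemma starAlg_eq (Env : MeasurableSpace Ω) (d : ℕ) (t : ℝ) (pp rr : Ω → Ω)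
    (X Z : Ω → Fin k → ℝ) :
    starAlg Env d t pp rr X Z = Env ⊔ ⨆ a : St d,
      (inferInstance : MeasurableSpace (Fin k → ℝ)).comap (fun h => YY t X Z (sv pp rr d h a)) := by
  unfold starAlg
  congr 1
  have h1 : (inferInstance : MeasurableSpace (St d → Fin k → ℝ)) =
      ⨆ a : St d, (inferInstance : MeasurableSpace (Fin k → ℝ)).comap (fun f => f a) := rfl
  rw [h1, MeasurableSpace.comap_iSup]
  refine iSup_congr fun a => ?_
  rw [MeasurableSpace.comap_comp]
  rfl

omit mΩ in
lemma edgeAlg_eq (Env : MeasurableSpace Ω) (t : ℝ) (pp : Ω → Ω) (X Z : Ω → Fin k → ℝ) :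
    edgeAlg Env t pp X Z = Env ⊔ ((inferInstance : MeasurableSpace (Fin k → ℝ)).comap
      (YY t X Z) ⊔ (inferInstance : MeasurableSpace (Fin k → ℝ)).comap
        (fun h => YY t X Z (pp h))) := by
  unfold edgeAlg
  congr 1
  exact MeasurableSpace.comap_prodMk (YY t X Z) fun h => YY t X Z (pp h)

lemma comap_sB [NeZero d] (L : LimProc Env FX d k s E t ρ P pp rr om cav X Z) :
    ((gr L).sB (YY t X Z) Env).comap pp = edgeAlg Env t pp X Z := by
  rw [edgeAlg_eq]
  unfold Graphing.sB
  simp only [MeasurableSpace.comap_sup, MeasurableSpace.comap_comp, comap_pp L]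
  have e1 : (fun x => YY t X Z ((gr L).pp x)) ∘ pp = YY t X Z := by
    funext x
    show YY t X Z (pp (pp x)) = _
    rw [L.pp_pp]
  have e2 : YY t X Z ∘ pp = fun h => YY t X Z (pp h) := rfl
  rw [e1, e2, sup_assoc, sup_comm (MeasurableSpace.comap (fun h => YY t X Z (pp h)) _)]

lemma sB_eq [NeZero d] (L : LimProc Env FX d k s E t ρ P pp rr om cav X Z) :
    (gr L).sB (YY t X Z) Env = edgeAlg Env t pp X Z := by
  rw [edgeAlg_eq]
  unfold Graphing.sB
  rw [sup_assoc]
  rfl

lemma comap_sA [NeZero d] (L : LimProc Env FX d k s E t ρ P pp rr om cav X Z) :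
    ((gr L).sA (YY t X Z) Env).comap pp = starAlg Env d t pp rr X Z := by
  unfold Graphing.sA
  rw [MeasurableSpace.comap_sup, comap_sB L, starAlg_eq, edgeAlg_eq]
  simp only [MeasurableSpace.comap_iSup, MeasurableSpace.comap_comp]
  have e : ∀ a : ZMod d, (fun x => YY t X Z ((gr L).pp ((gr L).rot a ((gr L).pp x)))) ∘ pp =
      fun h => YY t X Z (mv pp rr a.val h) := by
    intro a
    funext x
    show YY t X Z (pp (rr^[a.val] (pp (pp x)))) = _
    rw [L.pp_pp]
    rfl
  simp only [e]
  apply le_antisymm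
  · refine sup_le (sup_le le_sup_left (sup_le ?_ ?_)) (iSup₂_le fun a ha => ?_)
    · exact le_trans (le_iSup (fun a : St d =>
        (inferInstance : MeasurableSpace (Fin k → ℝ)).comap (fun h => YY t X Z (sv pp rr d h a)))
        none) le_sup_right
    · exact le_trans (le_iSup (fun a : St d =>
        (inferInstance : MeasurableSpace (Fin k → ℝ)).comap (fun h => YY t X Z (sv pp rr d h a)))
        (some ⟨0, NeZero.pos d⟩)) le_sup_right
    · exact le_trans (le_iSup (fun a : St d =>
        (inferInstance : MeasurableSpace (Fin k → ℝ)).comap (fun h => YY t X Z (sv pp rr d h a)))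
        (some ⟨a.val, ZMod.val_lt a⟩)) le_sup_right
  · refine sup_le (le_sup_left.trans le_sup_left) (iSup_le fun a => ?_)
    match a with
    | none => exact le_sup_left.trans (le_sup_right.trans le_sup_left)
    | some i =>
      by_cases hi : (i : ℕ) = 0
      · have e2 : (fun h => YY t X Z (sv pp rr d h (some i))) = fun h => YY t X Z (pp h) := by
          funext h
          simp only [sv, hi, mv_zero]
        rw [e2]
        exact le_sup_right.trans (le_sup_right.trans le_sup_left)
      · have hval : ((i : ℕ) : ZMod d).val = i := ZMod.val_cast_of_lt i.2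
        have hne : ((i : ℕ) : ZMod d) ≠ 0 := by
          intro h0
          rw [h0, ZMod.val_zero] at hval
          exact hi hval.symm
        have e2 : (fun h => YY t X Z (sv pp rr d h (some i))) =
            fun h => YY t X Z (mv pp rr ((i : ℕ) : ZMod d).val h) := by
          funext h
          simp only [sv, hval]
        rw [e2]
        exact le_trans (le_iSup₂ (f := fun (a : ZMod d) (_ : a ≠ 0) =>
          (inferInstance : MeasurableSpace (Fin k → ℝ)).comap
            (fun h => YY t X Z (mv pp rr a.val h))) ((i : ℕ) : ZMod d) hne) le_sup_right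

/-- the values behind the base vertex of `pp h` -/
@[reducible] def farAlg (d : ℕ) (t : ℝ) (pp rr : Ω → Ω) (X Z : Ω → Fin k → ℝ) :
    MeasurableSpace Ω :=
  ⨆ w : {w : List ℕ // OutW d w},
    MeasurableSpace.comap (fun h => YY t X Z (wd pp rr w.1 (pp h))) inferInstance

/-- the values behind the base vertex of `h` -/
@[reducible] def nearAlg (d : ℕ) (t : ℝ) (pp rr : Ω → Ω) (X Z : Ω → Fin k → ℝ) :
    MeasurableSpace Ω :=
  ⨆ w : {w : List ℕ // OutW d w},
    MeasurableSpace.comap (fun h => YY t X Z (wd pp rr w.1 h)) inferInstance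

/-- the Markov hypothesis of the abstract theorem -/
lemma hM_of [NeZero d] (L : LimProc Env FX d k s E t ρ P pp rr om cav X Z) (f : Ω → ℝ)
    (hf : Integrable f P) (hfm : StronglyMeasurable[(gr L).sA (YY t X Z) Env] f) :
    P[f | (gr L).sG (YY t X Z) Env] =ᵐ[P] P[f | (gr L).sB (YY t X Z) Env] := by
  classical
  have := L.prob
  have hYm := measurable_YY L
  have hEm : Env ≤ mΩ := L.Env_le.trans L.FX_le
  have hwd : ∀ w : List ℕ, Measurable (wd pp rr w) := by
    intro w
    induction w with
    | nil => exact measurable_id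
    | cons j w ih => exact ih.comp (mp_mv L j).measurable
  have hS1 : (farAlg d t pp rr X Z) ≤ mΩ := iSup_le fun w =>
    (hYm.comp ((hwd w.1).comp L.pp_mp.measurable)).comap_le
  have hS2 : (nearAlg d t pp rr X Z) ≤ mΩ := iSup_le fun w => (hYm.comp (hwd w.1)).comap_le
  have hBm : edgeAlg Env t pp X Z ≤ mΩ := by
    rw [← sB_eq L]
    exact (gr L).sB_le hEm hYm
  have hprod : ∀ s1 s2, MeasurableSet[(farAlg d t pp rr X Z)] s1 → MeasurableSet[(nearAlg d t pp rr X Z)] s2 →
      P[(s1 ∩ s2).indicator fun _ => (1 : ℝ) | edgeAlg Env t pp X Z] =ᵐ[P]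
        P[s1.indicator fun _ => (1 : ℝ) | edgeAlg Env t pp X Z] *
          P[s2.indicator fun _ => (1 : ℝ) | edgeAlg Env t pp X Z] := by
    intro s1 s2 h1 h2
    have h := L.markov (s2.indicator fun _ => (1 : ℝ)) (s1.indicator fun _ => (1 : ℝ))
      ⟨1, fun x => ind_bound x⟩ ⟨1, fun x => ind_bound x⟩
      ((@measurable_const ℝ Ω _ (nearAlg d t pp rr X Z) 1).indicator h2)
      ((@measurable_const ℝ Ω _ (farAlg d t pp rr X Z) 1).indicator h1)
    have e : (fun h => s2.indicator (fun _ => (1 : ℝ)) h * s1.indicator (fun _ => (1 : ℝ)) h) =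
        (s1 ∩ s2).indicator fun _ => (1 : ℝ) := by
      funext x
      by_cases hx : x ∈ s1 <;> by_cases hx2 : x ∈ s2 <;> simp [hx, hx2]
    rw [e] at h
    refine h.trans (Eventually.of_forall fun x => ?_)
    simp only [Pi.mul_apply]
    rw [mul_comm]
  have hA_le : (gr L).sA (YY t X Z) Env ≤ edgeAlg Env t pp X Z ⊔ (farAlg d t pp rr X Z) := by
    refine sup_le ((sB_eq L).le.trans le_sup_left) (iSup₂_le fun a ha => ?_)
    have hout : OutW d [a.val] := by
      intro j hj
      rw [List.mem_singleton] at hj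
      subst hj
      refine ⟨?_, ZMod.val_lt a⟩
      rw [Nat.one_le_iff_ne_zero, Ne, ZMod.val_eq_zero]
      exact ha
    exact le_trans (le_iSup (fun w : {w : List ℕ // OutW d w} =>
      MeasurableSpace.comap (fun h => YY t X Z (wd pp rr w.1 (pp h))) inferInstance)
      ⟨[a.val], hout⟩) le_sup_right
  have hG_le : (gr L).sG (YY t X Z) Env ≤ edgeAlg Env t pp X Z ⊔ (nearAlg d t pp rr X Z) := by
    refine sup_le ((sB_eq L).le.trans le_sup_left) (iSup_le fun w => ?_)
    have e : (fun x => YY t X Z ((gr L).inv w.1 x)) =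
        fun x => YY t X Z (wd pp rr (word (eW.symm w)) x) := by
      funext x
      rw [inv_eq L, pos_eq_wd]
    rw [e]
    exact le_trans (le_iSup (fun w : {w : List ℕ // OutW d w} =>
      MeasurableSpace.comap (fun h => YY t X Z (wd pp rr w.1 h)) inferInstance)
      ⟨word (eW.symm w), outW_word _⟩) le_sup_right
  have key := condExp_sup_of_condIndep (P := P) hBm hS1 hS2 hprod hf (hfm.mono hA_le)
  have hGS : edgeAlg Env t pp X Z ⊔ (nearAlg d t pp rr X Z) ≤ mΩ := sup_le hBm hS2
  have h1 : P[P[f | edgeAlg Env t pp X Z ⊔ (nearAlg d t pp rr X Z)] | (gr L).sG (YY t X Z) Env] =ᵐ[P]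
      P[f | (gr L).sG (YY t X Z) Env] := condExp_condExp_of_le hG_le hGS
  have h2 : P[P[f | edgeAlg Env t pp X Z ⊔ (nearAlg d t pp rr X Z)] | (gr L).sG (YY t X Z) Env] =ᵐ[P]
      P[P[f | edgeAlg Env t pp X Z] | (gr L).sG (YY t X Z) Env] := condExp_congr_ae key
  have h3 : P[P[f | edgeAlg Env t pp X Z] | (gr L).sG (YY t X Z) Env] =
      P[f | edgeAlg Env t pp X Z] := by
    refine condExp_of_stronglyMeasurable ((gr L).sG_le hEm hYm) ?_ integrable_condExp
    refine stronglyMeasurable_condExp.mono ?_
    rw [← sB_eq L]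
    exact (gr L).sB_le_sG (YY t X Z) Env
  rw [h3] at h2
  rw [sB_eq L]
  exact h1.symm.trans h2

/-- regression in the orientation of the abstract theorem -/
lemma reg' [NeZero d] (L : LimProc Env FX d k s E t ρ P pp rr om cav X Z)
    (w : List (KK d)) (l : Fin k) (hEC : Env ≤ C)
    (hC : C.comap pp ≤ starAlg Env d t pp rr X Z) (hCm : C ≤ mΩ) :
    P[fun h => Z (pos pp rr w h) l | C] =ᵐ[P] fun h =>
      l1c (cw pp rr cav h) w * (P[fun h => Z h l | C]) h +
      l2c (cw pp rr cav h) w * (P[fun h => Z (pp h) l | C]) h := by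
  have := L.prob
  have hZ := (memLp_Z L l).integrable (by norm_num)
  have hZp : Integrable (fun h => Z (pp h) l) P := L.pp_mp.integrable_comp_of_integrable hZ
  have hZw : Integrable (fun h => Z (pos pp rr w h) l) P :=
    (mp_pos L w).integrable_comp_of_integrable hZ
  have hEC' : Env ≤ C.comap pp := by
    calc Env = Env.comap pp := (comap_pp L).symm
      _ ≤ C.comap pp := MeasurableSpace.comap_mono hEC
  have h := reg L w l hEC' hC
  -- compose with `pp`
  have hcomp := L.pp_mp.quasiMeasurePreserving.ae_eq_comp h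
  have hCC : (C.comap pp).comap pp = C := by
    rw [MeasurableSpace.comap_comp]
    have : pp ∘ pp = id := funext L.pp_pp
    rw [this, MeasurableSpace.comap_id]
  have a1 := condExp_comp_mp L.pp_mp hCm hZw
  have a2 := condExp_comp_mp L.pp_mp hCm hZ
  have a3 := condExp_comp_mp L.pp_mp hCm hZp
  have e3 : (fun h => Z (pp h) l) ∘ pp = fun h => Z h l := by
    funext h
    simp only [Function.comp, L.pp_pp]
  rw [e3] at a3
  have e2 : (fun h => Z h l) ∘ pp = fun h => Z (pp h) l := rfl
  rw [e2] at a2
  have e1 : (fun h => Z (pos pp rr w h) l) ∘ pp = fun h => Z (pos pp rr w (pp h)) l := rfl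
  rw [e1] at a1
  have b1 := L.pp_mp.quasiMeasurePreserving.ae_eq_comp a1
  have b2 := L.pp_mp.quasiMeasurePreserving.ae_eq_comp a2
  have b3 := L.pp_mp.quasiMeasurePreserving.ae_eq_comp a3
  filter_upwards [hcomp, b1, b2, b3] with x hx x1 x2 x3
  simp only [Function.comp, L.pp_pp] at hx x1 x2 x3
  rw [x1, x2, x3] at hx
  exact hx

/-- **vanishing increments** (42.1-42.3). -/
theorem tauZero (L : LimProc Env FX d k s E t ρ P pp rr om cav X Z) :
    TauZero Env d k t P pp rr X Z := by
  intro l
  have := L.prob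
  have hd0 : d ≠ 0 := by have := L.hd; omega
  have : NeZero d := ⟨hd0⟩
  have hEm : Env ≤ mΩ := L.Env_le.trans L.FX_le
  have hYm := measurable_YY L
  have hsA := (gr L).sA_le hEm hYm
  have hsB := (gr L).sB_le hEm hYm
  have hEA : Env ≤ (gr L).sA (YY t X Z) Env :=
    le_trans (le_trans le_sup_left le_sup_left) ((gr L).sB_le_sA (YY t X Z) Env)
  have hEB : Env ≤ (gr L).sB (YY t X Z) Env := le_trans le_sup_left le_sup_left
  have hZ := memLp_Z L l
  have hZi := hZ.integrable (by norm_num)
  have hZp : Integrable (fun h => Z (pp h) l) P := L.pp_mp.integrable_comp_of_integrable hZi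
  have hAle : ((gr L).sA (YY t X Z) Env).comap pp ≤ starAlg Env d t pp rr X Z :=
    (comap_sA L).le
  have hBle : ((gr L).sB (YY t X Z) Env).comap pp ≤ starAlg Env d t pp rr X Z := by
    rw [← comap_sA L]
    exact MeasurableSpace.comap_mono ((gr L).sB_le_sA (YY t X Z) Env)
  have main := (gr L).increments_vanish (Y := YY t X Z) hEm (comap_pp L) (comap_rot L) hYm
    (fun a x => YY_iter L a.val x) hZ (hM_of L)
    (fun w h => l1c (cw pp rr cav h) (eW.symm w)) (fun w h => l2c (cw pp rr cav h) (eW.symm w))
    (by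
      intro w
      have e : (fun x => Z ((gr L).inv w.1 x) l) = fun x => Z (pos pp rr (eW.symm w) x) l := by
        funext x
        rw [inv_eq L]
      rw [e]
      filter_upwards [reg' L (eW.symm w) l hEA hAle hsA, reg' L (eW.symm w) l hEB hBle hsB]
        with x h1 h2
      rw [Pi.sub_apply, h1, h2]
      simp only [gr]
      ring)
    (by
      filter_upwards [C1 L] with x hx a b hs
      refine hx a b ?_
      have h1 := (Equiv.summable_iff (eW (d := d))).mpr hs
      refine h1.congr fun w => ?_
      simp only [Function.comp, Equiv.symm_apply_apply])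
  obtain ⟨m1, m2⟩ := main
  have a1 := condExp_comp_mp L.pp_mp hsA hZi
  have a2 := condExp_comp_mp L.pp_mp hsB hZi
  have a3 := condExp_comp_mp L.pp_mp hsA hZp
  have a4 := condExp_comp_mp L.pp_mp hsB hZp
  have e3 : (fun h => Z (pp h) l) ∘ pp = fun h => Z h l := by
    funext h
    simp only [Function.comp, L.pp_pp]
  have e2 : (fun h => Z h l) ∘ pp = fun h => Z (pp h) l := rfl
  rw [comap_sA L, e2] at a1
  rw [comap_sB L, e2] at a2
  rw [comap_sA L, e3] at a3
  rw [comap_sB L, e3] at a4
  have c1 := L.pp_mp.quasiMeasurePreserving.ae_eq_comp m1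
  have c2 := L.pp_mp.quasiMeasurePreserving.ae_eq_comp m2
  exact ⟨a3.trans (c2.trans a4.symm), a1.trans (c1.trans a2.symm)⟩

/-- **Stmt_tau**. -/
theorem stmt_tau : Stmt_tau := by
  intro Ω Env FX _ d k s E t ρ P pp rr om cav X Z L
  exact tauZero L

end Crest.Agent.R166.Mart663
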