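import Crest.Agent.R166.Meas_423
import Crest.Agent.R166.GaussQ_286
import Crest.Agent.R166.CayDet_93
import Crest.Agent.R166.GoeLL_583
import Crest.Agent.R166.Cl_85
import Crest.Agent.R166.SpArr_286
import Crest.Agent.R166.SimpleP_356
import Crest.Agent.R166.Rec5_255

-- ▼ part R166/Asm_423
section

/-!
Row 166, section 81: assembly (helper423).

`asm2`: `ImLim`, `ImLimO`, `TightRe`, `CompareGO`, `LapFunExists`, `ReconStatement2` ⇒ `FinalGO`.
-/

set_option autoImplicit false

namespace Crest.Agent.R166.Asm423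

open MeasureTheory ProbabilityTheory Crest.ProbabilityR.RandomMatrix Crest.Agent.R166
open Crest.Agent.R166.Meas423

/-- 255's order of quantifiers (two scales `L1 ≪ L`). -/
def ReconStatement2 : Prop :=
  ∀ (h : ℝ → ℝ), Continuous h → HasCompactSupport h → (∀ t, 0 ≤ h t) →
    ∀ (ρ : ℝ), 0 < ρ → ∀ (Y L1 : ℝ), 0 < L1 → ∀ ε : ℝ, 0 < ε →
    ∃ δ0 : ℝ, 0 < δ0 ∧ ∀ δ : ℝ, 0 < δ → δ ≤ δ0 →
    ∃ L0 : ℝ, 0 < L0 ∧ ∀ L : ℝ, L0 ≤ L → ∀ T : ℝ,
    ∃ m0 : ℕ, ∀ m : ℕ, m0 ≤ m → ∀ f : Matrix (Fin m) (Fin m) ℂ → ℝ, IsLapFun h m f →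
      ∀ (E K : ℝ), 0 < K → ∀ (n : ℕ), 0 < n →
        ∀ (H : Matrix (Fin n) (Fin n) ℝ) (hH : H.IsHermitian),
        (mn H (zz E L1 n)).im ≤ Y → (mn H (zz E L n)).im ≤ Y →
        |(mn H (zz E K n)).re - (mn H (zz E L n)).re| ≤ T →
        |laplaceWeight H hH (unfoldAt h (n * ρ) E) - TestVal H E ρ K δ m f| ≤ ε

/-- comparison of expectations off a (possibly non-measurable) bad set -/
theorem abs_integral_sub_le {Ω : Type*} [MeasurableSpace Ω] {μ : Measure Ω}
    [IsProbabilityMeasure μ] {A B : Ω → ℝ} (hA : Measurable A) (hB : Measurable B)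
    (hA0 : ∀ x, 0 ≤ A x) (hA1 : ∀ x, A x ≤ 1) (hB0 : ∀ x, 0 ≤ B x) (hB1 : ∀ x, B x ≤ 1)
    {ε p : ℝ} (hε : 0 ≤ ε) (hp : 0 ≤ p) {S : Set Ω} (hS : μ S ≤ ENNReal.ofReal p)
    (h : ∀ x, x ∉ S → |A x - B x| ≤ ε) : |∫ x, A x ∂μ - ∫ x, B x ∂μ| ≤ ε + p := by
  have iA : Integrable A μ := Integrable.of_bound hA.aestronglyMeasurable 1
    (Filter.Eventually.of_forall fun x => by
      rw [Real.norm_eq_abs, abs_of_nonneg (hA0 x)]; exact hA1 x)
  have iB : Integrable B μ := Integrable.of_bound hB.aestronglyMeasurable 1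
    (Filter.Eventually.of_forall fun x => by
      rw [Real.norm_eq_abs, abs_of_nonneg (hB0 x)]; exact hB1 x)
  set T := toMeasurable μ S with hT
  have mT : MeasurableSet T := measurableSet_toMeasurable μ S
  have hST : S ⊆ T := subset_toMeasurable μ S
  have hTS : μ.real T ≤ p := by
    rw [Measure.real, hT, measure_toMeasurable]
    exact ENNReal.toReal_le_of_le_ofReal hp hS
  have hpt : ∀ x, |A x - B x| ≤ ε + T.indicator (fun _ => (1 : ℝ)) x := by
    intro x
    by_cases hx : x ∈ T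
    · rw [Set.indicator_of_mem hx]
      have : |A x - B x| ≤ 1 := abs_le.2 ⟨by linarith [hA0 x, hB1 x], by linarith [hA1 x, hB0 x]⟩
      linarith
    · rw [Set.indicator_of_notMem hx, add_zero]
      exact h x fun hxS => hx (hST hxS)
  rw [← integral_sub iA iB]
  calc |∫ x, (A x - B x) ∂μ| ≤ ∫ x, |A x - B x| ∂μ := abs_integral_le_integral_abs
    _ ≤ ∫ x, (ε + T.indicator (fun _ => (1 : ℝ)) x) ∂μ := by
        refine integral_mono (iA.sub iB).abs ?_ hpt
        exact (integrable_const ε).add ((integrable_const (1 : ℝ)).indicator mT)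
    _ = ε + μ.real T := by
        rw [integral_add (integrable_const ε) ((integrable_const (1 : ℝ)).indicator mT),
          integral_indicator mT]
        simp
    _ ≤ ε + p := by linarith

/-! ### the functional of the test array is in `[0,1]` -/

theorem testArr_symm {n m : ℕ} {H : Matrix (Fin n) (Fin n) ℝ} (hH : H.IsHermitian) (e : ℝ)
    (g : Fin n → Fin m → ℝ) : (testArr H e g).transpose = testArr H e g := by
  have h1 : H.transpose = H := by
    have := hH
    rwa [Matrix.IsHermitian, Matrix.conjTranspose_eq_transpose_of_trivial] at this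
  unfold testArr
  rw [Matrix.transpose_smul, Matrix.transpose_mul, Matrix.transpose_mul,
    Matrix.transpose_transpose, Matrix.transpose_nonsing_inv, Matrix.transpose_sub,
    Matrix.transpose_smul, Matrix.transpose_one, h1, Matrix.mul_assoc]

theorem isHermitian_of_transpose {m : ℕ} {C : Matrix (Fin m) (Fin m) ℝ}
    (h : C.transpose = C) : C.IsHermitian := by
  rw [Matrix.IsHermitian, Matrix.conjTranspose_eq_transpose_of_trivial, h]

/-- the centred, normalised array inside `uOf` -/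
noncomputable def cArr {n m : ℕ} (H : Matrix (Fin n) (Fin n) ℝ) (E ρ K x : ℝ)
    (g : Fin n → Fin m → ℝ) : Matrix (Fin m) (Fin m) ℝ :=
  (1 / (Real.pi * ρ)) • (testArr H (E + x / n) g -
    (mn H (zz E K n)).re • (1 : Matrix (Fin m) (Fin m) ℝ))

theorem uOf_eq {n m : ℕ} (H : Matrix (Fin n) (Fin n) ℝ) (E ρ K x : ℝ) (g : Fin n → Fin m → ℝ) :
    uOf H E ρ K x g = Cay (cArr H E ρ K x g) := rfl

theorem cArr_hermitian {n m : ℕ} {H : Matrix (Fin n) (Fin n) ℝ} (hH : H.IsHermitian)
    (E ρ K x : ℝ) (g : Fin n → Fin m → ℝ) : (cArr H E ρ K x g).IsHermitian := by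
  apply isHermitian_of_transpose
  unfold cArr
  rw [Matrix.transpose_smul, Matrix.transpose_sub, Matrix.transpose_smul, Matrix.transpose_one,
    testArr_symm hH]

theorem lap_nonneg {h : ℝ → ℝ} {m : ℕ} {f : Matrix (Fin m) (Fin m) ℂ → ℝ} (hf : IsLapFun h m f)
    {n : ℕ} {H : Matrix (Fin n) (Fin n) ℝ} (hH : H.IsHermitian) (E ρ K x : ℝ)
    (g : Fin n → Fin m → ℝ) : 0 ≤ f (uOf H E ρ K x g) := by
  rw [uOf_eq, hf _ (cArr_hermitian hH E ρ K x g)]
  exact (Real.exp_pos _).le

theorem lap_le_one {h : ℝ → ℝ} (h0 : ∀ t, 0 ≤ h t) {m : ℕ} {f : Matrix (Fin m) (Fin m) ℂ → ℝ}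
    (hf : IsLapFun h m f) {n : ℕ} {H : Matrix (Fin n) (Fin n) ℝ} (hH : H.IsHermitian)
    (E ρ K x : ℝ) (g : Fin n → Fin m → ℝ) : f (uOf H E ρ K x g) ≤ 1 := by
  rw [uOf_eq, hf _ (cArr_hermitian hH E ρ K x g), Real.exp_le_one_iff, neg_nonpos]
  refine Finset.sum_nonneg fun i _ => ?_
  split_ifs
  · exact le_rfl
  · exact h0 _

theorem unfoldAt_continuous {h : ℝ → ℝ} (hc : Continuous h) (s E : ℝ) :
    Continuous (unfoldAt h s E) := by
  unfold unfoldAt
  exact hc.comp (continuous_const.mul (continuous_id.sub continuous_const))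

/-- abstract core: reconstruction in expectation -/
theorem core {Ω : Type*} [MeasurableSpace Ω] {μ : Measure Ω} [IsProbabilityMeasure μ] {n : ℕ}
    {M : Ω → Matrix (Fin n) (Fin n) ℝ} (hM : EM M) (hH : ∀ x, (M x).IsHermitian)
    {h : ℝ → ℝ} (hc : Continuous h) (h0 : ∀ t, 0 ≤ h t) {E ρ K δ : ℝ} (hδ : 0 < δ) {m : ℕ}
    {f : Matrix (Fin m) (Fin m) ℂ → ℝ} (hf : Continuous f) (hL : IsLapFun h m f)
    {ε p : ℝ} (hε : 0 ≤ ε) (hp : 0 ≤ p) {S : Set Ω} (hS : μ S ≤ ENNReal.ofReal p)
    (hrec : ∀ x, x ∉ S → |laplaceWeight (M x) (hH x) (unfoldAt h (n * ρ) E) -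
      TestVal (M x) E ρ K δ m f| ≤ ε) :
    |∫ x, laplaceWeight (M x) (hH x) (unfoldAt h (n * ρ) E) ∂μ -
      ∫ x, TestVal (M x) E ρ K δ m f ∂μ| ≤ ε + p :=
  abs_integral_sub_le (measurable_laplaceWeight hM hH (unfoldAt_continuous hc _ _))
    (measurable_TestVal hM E ρ K hδ.le hf) (fun _ => laplaceWeight_nonneg _ _)
    (fun _ => laplaceWeight_le_one _ fun _ => h0 _)
    (fun x => TestVal_nonneg hδ.le fun y g => lap_nonneg hL (hH x) E ρ K y g)
    (fun x => TestVal_le_one hδ hf (fun y g => lap_nonneg hL (hH x) E ρ K y g)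
      fun y g => lap_le_one h0 hL (hH x) E ρ K y g) hε hp hS hrec

theorem measure_union3 {Ω : Type*} [MeasurableSpace Ω] {μ : Measure Ω} {A B C : Set Ω}
    {a b c : ℝ} (ha : 0 ≤ a) (hb : 0 ≤ b) (hc : 0 ≤ c) (hA : μ A ≤ ENNReal.ofReal a)
    (hB : μ B ≤ ENNReal.ofReal b) (hC : μ C ≤ ENNReal.ofReal c) :
    μ (A ∪ B ∪ C) ≤ ENNReal.ofReal (a + b + c) := by
  rw [ENNReal.ofReal_add (by positivity) hc, ENNReal.ofReal_add ha hb]
  exact (measure_union_le _ _).trans (add_le_add ((measure_union_le _ _).trans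
    (add_le_add hA hB)) hC)

/-- (81) assembly, part 2 -/
theorem asm2 {d : ℕ} {s E ρ : ℝ} (hρ : 0 < ρ) (hIm : ImLim d s E ρ) (hImO : ImLimO)
    (hT : TightRe d s E) (hC : CompareGO d s E ρ) (hLF : LapFunExists) (hR : ReconStatement2)
    (h : ℝ → ℝ) (hc : Continuous h) (hs : HasCompactSupport h) (h0 : ∀ t, 0 ≤ h t) :
    FinalGO d s E ρ h := by
  intro ε hε
  -- small parameter
  set e : ℝ := min (ε / 16) 1 with he
  have hepos : 0 < e := lt_min (by positivity) one_pos
  have he1 : e ≤ 1 := min_le_right _ _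
  have heε : e ≤ ε / 16 := min_le_left _ _
  obtain ⟨Ka, hKa, hIa⟩ := hIm e hepos
  obtain ⟨Kb, hKb, hIb⟩ := hImO e hepos
  obtain ⟨L1t, hLt⟩ := hT e hepos
  set L1 : ℝ := max Ka Kb with hL1
  have hL1pos : 0 < L1 := lt_of_lt_of_le hKa (le_max_left _ _)
  set Y : ℝ := max (Real.pi * ρ + 1) 2 with hY
  obtain ⟨δa, hδa, hRa⟩ := hR h hc hs h0 ρ hρ Y L1 hL1pos e hepos
  obtain ⟨δb, hδb, hRb⟩ := hR h hc hs h0 (1 / Real.pi) (by positivity) Y L1 hL1pos e hepos
  set δ : ℝ := min δa δb with hδdef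
  have hδ : 0 < δ := lt_min hδa hδb
  obtain ⟨La, hLa, hRa⟩ := hRa δ hδ (min_le_left _ _)
  obtain ⟨Lb, hLb, hRb⟩ := hRb δ hδ (min_le_right _ _)
  set L : ℝ := max (max La Lb) (max L1t L1) with hLdef
  have hLLa : La ≤ L := (le_max_left _ _).trans (le_max_left _ _)
  have hLLb : Lb ≤ L := (le_max_right _ _).trans (le_max_left _ _)
  have hLL1t : L1t ≤ L := (le_max_left _ _).trans (le_max_right _ _)
  have hLL1 : L1 ≤ L := (le_max_right _ _).trans (le_max_right _ _)
  obtain ⟨T1, K1, hTK⟩ := hLt L hLL1t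
  set T : ℝ := max T1 2 with hTdef
  obtain ⟨ma, hRa⟩ := hRa L hLLa T
  obtain ⟨mb, hRb⟩ := hRb L hLLb T
  set m : ℕ := max (max ma mb) 4 with hm
  have hma : ma ≤ m := (le_max_left _ _).trans (le_max_left _ _)
  have hmb : mb ≤ m := (le_max_right _ _).trans (le_max_left _ _)
  have hm4 : 4 ≤ m := le_max_right _ _
  obtain ⟨f, hf, hfL⟩ := hLF h hc hs h0 m
  have hRa := hRa m hma f hfL
  have hRb := hRb m hmb f hfL
  obtain ⟨Kc, hKc, hCo⟩ := hC m hm4 f hf δ hδ e hepos
  set K : ℝ := max (max K1 Kc) L1 with hKdef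
  have hKK1 : K1 ≤ K := (le_max_left _ _).trans (le_max_left _ _)
  have hKKc : Kc ≤ K := (le_max_right _ _).trans (le_max_left _ _)
  have hKL1 : L1 ≤ K := le_max_right _ _
  have hKpos : 0 < K := lt_of_lt_of_le hL1pos hKL1
  have hKaL1 : Ka ≤ L1 := le_max_left _ _
  have hKbL1 : Kb ≤ L1 := le_max_right _ _
  obtain ⟨N1, hN1⟩ := hIa L1 hKaL1
  obtain ⟨N2, hN2⟩ := hIa L (hKaL1.trans hLL1)
  obtain ⟨N3, hN3⟩ := hTK K hKK1
  obtain ⟨N4, hN4⟩ := hCo K hKKc
  obtain ⟨N5, hN5⟩ := hIb L1 hKbL1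
  obtain ⟨N6, hN6⟩ := hIb L (hKbL1.trans hLL1)
  obtain ⟨N7, hN7⟩ := hIb K (hKbL1.trans hKL1)
  refine ⟨max (max (max N1 N2) (max N3 N4)) (max (max N5 N6) (max N7 1)), fun n hn hne => ?_⟩
  have hn1 : N1 ≤ n := by omega
  have hn2 : N2 ≤ n := by omega
  have hn3 : N3 ≤ n := by omega
  have hn4 : N4 ≤ n := by omega
  have hn5 : N5 ≤ n := by omega
  have hn6 : N6 ≤ n := by omega
  have hn7 : N7 ≤ n := by omega
  have hnpos : 0 < n := by omega
  have hprob := law_prob hne
  -- graph side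
  have hG : |∫ x, laplaceWeight (Hm x.1 s x.2) (Hm_isHermitian x.1 s x.2)
        (unfoldAt h (n * ρ) E) ∂(law n d) -
      ∫ x, TestVal (Hm x.1 s x.2) E ρ K δ m f ∂(law n d)| ≤ e + (e + e + e) := by
    refine core (EM_Hm s) (fun x => Hm_isHermitian x.1 s x.2) hc h0 hδ hf hfL hepos.le
      (by positivity) (measure_union3 hepos.le hepos.le hepos.le (hN1 n hn1 hne) (hN2 n hn2 hne)
        (hN3 n hn3 hne)) ?_
    intro x hx
    simp only [Set.mem_union, Set.mem_ofPred_eq, not_or, not_not] at hx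
    obtain ⟨⟨hx1, hx2⟩, hx3⟩ := hx
    refine hRa E K hKpos n hnpos (Hm x.1 s x.2) (Hm_isHermitian x.1 s x.2) ?_ ?_ ?_
    · have := (abs_le.1 hx1).2
      exact le_trans (by linarith) (le_max_left _ _)
    · have := (abs_le.1 hx2).2
      exact le_trans (by linarith) (le_max_left _ _)
    · exact hx3.trans (le_max_left _ _)
  -- GOE side
  have hO : |∫ g, laplaceWeight (goeMatrix g) (goe_isHermitian g)
        (unfoldAt h (n * (1 / Real.pi)) 0) ∂(goeDisorderLaw n) -
      ∫ g, TestVal (goeMatrix g) 0 (1 / Real.pi) K δ m f ∂(goeDisorderLaw n)| ≤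
        e + (e + e + e) := by
    refine core (EM_goe n) (fun g => goe_isHermitian g) hc h0 hδ hf hfL hepos.le
      (by positivity) (measure_union3 hepos.le hepos.le hepos.le (hN5 n hn5) (hN6 n hn6)
        (hN7 n hn7)) ?_
    intro g hx
    simp only [Set.mem_union, Set.mem_ofPred_eq, not_or, not_lt] at hx
    obtain ⟨⟨hx1, hx2⟩, hx3⟩ := hx
    have him (z : ℂ) (hz : ‖z - Complex.I‖ ≤ e) : z.im ≤ Y := by
      have h1 := (Complex.abs_im_le_norm (z - Complex.I)).trans hz
      rw [Complex.sub_im, Complex.I_im] at h1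
      have h2 := (abs_le.1 h1).2
      exact le_trans (by linarith) (le_max_right _ _)
    have hre (z : ℂ) (hz : ‖z - Complex.I‖ ≤ e) : |z.re| ≤ 1 := by
      have h1 := (Complex.abs_re_le_norm (z - Complex.I)).trans hz
      rw [Complex.sub_re, Complex.I_re, sub_zero] at h1
      exact h1.trans he1
    refine hRb 0 K hKpos n hnpos (goeMatrix g) (goe_isHermitian g) (him _ hx1) (him _ hx2) ?_
    have h3 := abs_le.1 (hre _ hx3)
    have h2 := abs_le.1 (hre _ hx2)
    refine le_trans (abs_le.2 ⟨?_, ?_⟩) (le_max_right T1 2) <;> linarith [h3.1, h3.2, h2.1, h2.2]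
  -- comparison
  have hcomp := hN4 n hn4 hne
  have hbound (x : SimpleGraph (Fin n) × (Fin n → ℝ)) :
      |TestVal (Hm x.1 s x.2) E ρ K δ m f| ≤ 1 := by
    rw [abs_of_nonneg (TestVal_nonneg hδ.le fun y g =>
      lap_nonneg hfL (Hm_isHermitian x.1 s x.2) E ρ K y g)]
    exact TestVal_le_one hδ hf (fun y g => lap_nonneg hfL (Hm_isHermitian x.1 s x.2) E ρ K y g)
      fun y g => lap_le_one h0 hfL (Hm_isHermitian x.1 s x.2) E ρ K y g
  rw [EG_eq hne (Φ := fun H => TestVal H E ρ K δ m f)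
    (measurable_TestVal (EM_Hm s) E ρ K hδ.le hf) hbound] at hcomp
  have hgraph : regularAverage n d (fun G => ∫ ω, disorderedLaplaceWeight G s ω
        (unfoldAt h (n * ρ) E) ∂potentialLaw n) =
      ∫ x, laplaceWeight (Hm x.1 s x.2) (Hm_isHermitian x.1 s x.2)
        (unfoldAt h (n * ρ) E) ∂(law n d) := by
    refine avg_eq_integral_law hne (F := fun x => laplaceWeight (Hm x.1 s x.2)
      (Hm_isHermitian x.1 s x.2) (unfoldAt h (n * ρ) E)) ?_
    refine Integrable.of_bound (measurable_laplaceWeight (EM_Hm s)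
      (fun x => Hm_isHermitian x.1 s x.2) (unfoldAt_continuous hc _ _)).aestronglyMeasurable 1 ?_
    refine Filter.Eventually.of_forall fun x => ?_
    rw [Real.norm_eq_abs, abs_of_nonneg (laplaceWeight_nonneg _ _)]
    exact laplaceWeight_le_one _ fun t => h0 _
  have hgoe : ∫ g, goeLaplaceWeight g (unfoldAt h (n / Real.pi) 0) ∂goeDisorderLaw n =
      ∫ g, laplaceWeight (goeMatrix g) (goe_isHermitian g)
        (unfoldAt h (n * (1 / Real.pi)) 0) ∂(goeDisorderLaw n) := by
    rw [mul_one_div]; rfl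
  rw [hgraph, hgoe]
  unfold EO at hcomp
  have e1 := abs_le.1 hG
  have e2 := abs_le.1 hO
  have e3 := abs_le.1 hcomp
  refine lt_of_le_of_lt (abs_le.2 ⟨?_, ?_⟩ : _ ≤ 9 * e) (by linarith) <;>
    linarith [e1.1, e1.2, e2.1, e2.2, e3.1, e3.2]

end Crest.Agent.R166.Asm423
end

-- ▼ part R166/Asm1_423
section

/-!
Row 166, section 81: assembly, part 1 (helper423): tightness of the centring.
-/

set_option autoImplicit false

namespace Crest.Agent.R166.Asm423

open MeasureTheory ProbabilityTheory Crest.ProbabilityR.RandomMatrix Crest.Agent.R166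
open Crest.Agent.R166.Meas423 Crest.Agent.R166.Gauss286

/-! ### The functional -/

/-- continuous functional detecting large entries of `C` through `U = Cay C` -/
noncomputable def clampT (T : ℝ) (U : Matrix (Fin 4) (Fin 4) ℂ) : ℝ :=
  max 0 (min 1 (2 - ‖(1 - U).det‖ * T / 16))

theorem clampT_continuous (T : ℝ) : Continuous (clampT T) := by
  unfold clampT
  have h1 : Continuous fun U : Matrix (Fin 4) (Fin 4) ℂ => (1 - U).det :=
    (continuous_const.sub continuous_id).matrix_det
  exact continuous_const.max (continuous_const.min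
    (continuous_const.sub ((h1.norm.mul continuous_const).div_const _)))

theorem clampT_nonneg (T : ℝ) (U : Matrix (Fin 4) (Fin 4) ℂ) : 0 ≤ clampT T U := le_max_left _ _

theorem clampT_le_one (T : ℝ) (U : Matrix (Fin 4) (Fin 4) ℂ) : clampT T U ≤ 1 :=
  max_le zero_le_one (min_le_left _ _)

/-- `C + i` -/
noncomputable abbrev cpI (C : Matrix (Fin 4) (Fin 4) ℝ) : Matrix (Fin 4) (Fin 4) ℂ :=
  C.map (fun x : ℝ => (x : ℂ)) + Complex.I • (1 : Matrix (Fin 4) (Fin 4) ℂ)

theorem det_one_sub_Cay {C : Matrix (Fin 4) (Fin 4) ℝ} (hC : C.transpose = C) :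
    (1 - Cay C).det = 16 / (cpI C).det := by
  have hu := CayDet93.isUnit_add_I C hC
  have hdet : (cpI C).det ≠ 0 := by
    have := (Matrix.isUnit_iff_isUnit_det _).1 hu
    exact this.ne_zero
  have h1 : 1 - Cay C = (2 * Complex.I) • (cpI C)⁻¹ := by
    have h2 : (cpI C) * (cpI C)⁻¹ = 1 := Matrix.mul_nonsing_inv _ (isUnit_iff_ne_zero.2 hdet)
    unfold Cay
    calc 1 - (C.map (fun x : ℝ => (x : ℂ)) - Complex.I • (1 : Matrix (Fin 4) (Fin 4) ℂ)) *
          (cpI C)⁻¹
        = (cpI C) * (cpI C)⁻¹ - (C.map (fun x : ℝ => (x : ℂ)) -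
          Complex.I • (1 : Matrix (Fin 4) (Fin 4) ℂ)) * (cpI C)⁻¹ := by rw [h2]
      _ = ((2 * Complex.I) • (1 : Matrix (Fin 4) (Fin 4) ℂ)) * (cpI C)⁻¹ := by
          rw [← Matrix.sub_mul]
          congr 1
          rw [cpI, mul_smul, two_smul]
          abel
      _ = _ := by rw [Matrix.smul_mul, Matrix.one_mul]
  rw [h1, Matrix.det_smul, Matrix.det_nonsing_inv, Ring.inverse_eq_inv', Fintype.card_fin]
  have h3 : (2 * Complex.I) ^ 4 = 16 := by
    rw [mul_pow, Complex.I_pow_four]; norm_num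
  rw [h3, div_eq_mul_inv]

theorem norm_det_ge {C : Matrix (Fin 4) (Fin 4) ℝ} (hC : C.IsHermitian) (k : Fin 4) :
    |C k k| ≤ ‖(cpI C).det‖ := by
  obtain ⟨O, h1, h2, h3⟩ := exists_diag hC
  set a := hC.eigenvalues with ha
  -- the determinant
  have hdet : (cpI C).det = ∏ i, ((a i : ℂ) + Complex.I) := by
    set Q : Matrix (Fin 4) (Fin 4) ℂ := O.map (fun x : ℝ => (x : ℂ)) with hQ
    have hQ2 : Q.transpose * Q = 1 := by
      have h4 : CayDet93.cx (O.transpose * O) = CayDet93.cx 1 := by rw [h2]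
      rw [CayDet93.cx_mul, CayDet93.cx_one, CayDet93.cx_transpose] at h4
      exact h4
    have hD : (Matrix.diagonal a).map (fun x : ℝ => (x : ℂ)) =
        Matrix.diagonal (fun i => (a i : ℂ)) := by
      rw [Matrix.diagonal_map (by simp)]
    have e1 : cpI C = Q.transpose * (Matrix.diagonal (fun i => (a i : ℂ) + Complex.I)) * Q := by
      have e2 : Matrix.diagonal (fun i => (a i : ℂ) + Complex.I) =
          Matrix.diagonal (fun i => (a i : ℂ)) + Complex.I • (1 : Matrix (Fin 4) (Fin 4) ℂ) := by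
        rw [← Matrix.diagonal_one, ← Matrix.diagonal_smul, Matrix.diagonal_add]
        congr 1
        ext i
        simp
      rw [e2, Matrix.mul_add, Matrix.add_mul, Matrix.mul_smul, Matrix.smul_mul, Matrix.mul_one,
        hQ2, cpI]
      congr 1
      have h5 : CayDet93.cx C = CayDet93.cx (O.transpose * Matrix.diagonal a * O) :=
        congrArg CayDet93.cx h3
      rw [CayDet93.cx_mul, CayDet93.cx_mul, CayDet93.cx_transpose] at h5
      rw [← hD]
      exact h5
    have hdQ : Q.transpose.det * Q.det = 1 := by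
      rw [← Matrix.det_mul, hQ2, Matrix.det_one]
    rw [e1, Matrix.det_mul, Matrix.det_mul, Matrix.det_diagonal]
    calc Q.transpose.det * (∏ i, ((a i : ℂ) + Complex.I)) * Q.det
        = (Q.transpose.det * Q.det) * ∏ i, ((a i : ℂ) + Complex.I) := by ring
      _ = _ := by rw [hdQ, one_mul]
  have hge1 : ∀ i, 1 ≤ ‖(a i : ℂ) + Complex.I‖ := by
    intro i
    have := Complex.abs_im_le_norm ((a i : ℂ) + Complex.I)
    simpa using this
  have hgea : ∀ i, |a i| ≤ ‖(a i : ℂ) + Complex.I‖ := by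
    intro i
    have := Complex.abs_re_le_norm ((a i : ℂ) + Complex.I)
    simpa using this
  have hle : ∀ j, |a j| ≤ ‖(cpI C).det‖ := by
    intro j
    rw [hdet, norm_prod, ← Finset.mul_prod_erase _ _ (Finset.mem_univ j)]
    refine (hgea j).trans (le_mul_of_one_le_right (norm_nonneg _) ?_)
    calc (1 : ℝ) = ∏ i ∈ Finset.univ.erase j, (1 : ℝ) := by simp
      _ ≤ _ := Finset.prod_le_prod (fun _ _ => zero_le_one) fun i _ => hge1 i
  -- the diagonal entry
  have hent : C k k = ∑ i, a i * (O i k) ^ 2 := by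
    have := congrFun (congrFun h3 k) k
    rw [this, Matrix.mul_apply]
    simp only [Matrix.transpose_apply, Matrix.mul_diagonal]
    exact Finset.sum_congr rfl fun i _ => by ring
  have hone : ∑ i, (O i k) ^ 2 = 1 := by
    have := congrFun (congrFun h2 k) k
    simp only [Matrix.mul_apply, Matrix.transpose_apply, Matrix.one_apply_eq] at this
    rw [← this]
    exact Finset.sum_congr rfl fun i _ => by ring
  rw [hent]
  calc |∑ i, a i * (O i k) ^ 2| ≤ ∑ i, |a i * (O i k) ^ 2| := Finset.abs_sum_le_sum_abs _ _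
    _ ≤ ∑ i, ‖(cpI C).det‖ * (O i k) ^ 2 := by
        refine Finset.sum_le_sum fun i _ => ?_
        rw [abs_mul, abs_of_nonneg (sq_nonneg (O i k))]
        exact mul_le_mul_of_nonneg_right (hle i) (sq_nonneg _)
    _ = ‖(cpI C).det‖ := by rw [← Finset.mul_sum, hone, mul_one]

theorem norm_det_le {C : Matrix (Fin 4) (Fin 4) ℝ} {B : ℝ} (h : ∀ k l, |C k l| ≤ B) :
    ‖(cpI C).det‖ ≤ 24 * (B + 1) ^ 4 := by
  have hent : ∀ k l, ‖cpI C k l‖ ≤ B + 1 := by
    intro k l
    rw [cpI, Matrix.add_apply, Matrix.map_apply, Matrix.smul_apply, smul_eq_mul]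
    refine (norm_add_le _ _).trans (add_le_add ?_ ?_)
    · rw [Complex.norm_real]; exact h k l
    · rw [norm_mul, Complex.norm_I, one_mul, Matrix.one_apply]
      split_ifs <;> simp
  rw [Matrix.det_apply]
  refine (norm_sum_le _ _).trans ?_
  have h1 : ∀ σ : Equiv.Perm (Fin 4), ‖Equiv.Perm.sign σ • ∏ i, cpI C (σ i) i‖ ≤ (B + 1) ^ 4 := by
    intro σ
    have h2 : ‖Equiv.Perm.sign σ • ∏ i, cpI C (σ i) i‖ = ‖∏ i, cpI C (σ i) i‖ := by
      rcases Int.units_eq_one_or (Equiv.Perm.sign σ) with h | h <;> rw [h] <;> simp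
    rw [h2, norm_prod]
    calc ∏ i, ‖cpI C (σ i) i‖ ≤ ∏ _i : Fin 4, (B + 1) :=
          Finset.prod_le_prod (fun i _ => norm_nonneg _) fun i _ => hent _ _
      _ = (B + 1) ^ 4 := by simp
  refine (Finset.sum_le_sum fun σ _ => h1 σ).trans ?_
  rw [Finset.sum_const, nsmul_eq_mul, Finset.card_univ, Fintype.card_perm, Fintype.card_fin]
  norm_num [Nat.factorial]

theorem clampT_eq {C : Matrix (Fin 4) (Fin 4) ℝ} (hC : C.transpose = C) (T : ℝ) :
    clampT T (Cay C) = max 0 (min 1 (2 - T / ‖(cpI C).det‖)) := by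
  unfold clampT
  rw [det_one_sub_Cay hC, norm_div]
  have : ‖(16 : ℂ)‖ = 16 := by simp
  rw [this]
  congr 3
  ring

/-- a large diagonal entry saturates the functional -/
theorem clampT_eq_one {C : Matrix (Fin 4) (Fin 4) ℝ} (hC : C.transpose = C) {T : ℝ} (hT : 0 < T)
    (k : Fin 4) (h : T ≤ |C k k|) : clampT T (Cay C) = 1 := by
  rw [clampT_eq hC]
  have h1 : T ≤ ‖(cpI C).det‖ := h.trans (norm_det_ge (isHermitian_of_transpose hC) k)
  have h2 : T / ‖(cpI C).det‖ ≤ 1 := (div_le_one (lt_of_lt_of_le hT h1)).2 h1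
  rw [min_eq_left (by linarith), max_eq_right zero_le_one]

/-- bounded entries: the functional vanishes -/
theorem clampT_eq_zero {C : Matrix (Fin 4) (Fin 4) ℝ} (hC : C.transpose = C) {T B : ℝ}
    (hB : 48 * (B + 1) ^ 4 ≤ T) (h : ∀ k l, |C k l| ≤ B) :
    clampT T (Cay C) = 0 := by
  rw [clampT_eq hC]
  have h1 := norm_det_le h
  have hpos : 0 < ‖(cpI C).det‖ := by
    rw [norm_pos_iff]
    exact ((Matrix.isUnit_iff_isUnit_det _).1 (CayDet93.isUnit_add_I C hC)).ne_zero
  have h2 : 2 ≤ T / ‖(cpI C).det‖ := by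
    rw [le_div_iff₀ hpos]
    linarith
  rw [min_eq_right (by linarith), max_eq_left (by linarith)]

/-! ### Polarisation: entries of the `4 × 4` array through one-dimensional arrays -/

/-- unit vectors: `e_k` and `(e_k + e_l)/√2` -/
noncomputable def uv (k l : Fin 4) : Fin 4 → ℝ := fun j =>
  if k = l then (if j = k then 1 else 0)
  else ((if j = k then 1 else 0) + (if j = l then 1 else 0)) / Real.sqrt 2

theorem uv_sq (k l : Fin 4) : ∑ j, uv k l j ^ 2 = 1 := by
  unfold uv
  by_cases h : k = l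
  · simp [h]
  · simp only [h, if_false, div_pow, Real.sq_sqrt (by norm_num : (0 : ℝ) ≤ 2)]
    rw [← Finset.sum_div]
    have : ∀ j : Fin 4, ((if j = k then (1 : ℝ) else 0) + (if j = l then (1 : ℝ) else 0)) ^ 2 =
        (if j = k then (1 : ℝ) else 0) + (if j = l then (1 : ℝ) else 0) := by
      intro j
      by_cases h1 : j = k
      · have h2 : ¬ j = l := fun h3 => h (h1.symm.trans h3)
        simp [h1, h]
      · by_cases h2 : j = l <;> simp [h1, h2]
        simp [Ne.symm h]
    simp only [this, Finset.sum_add_distrib, Finset.sum_ite_eq', Finset.mem_univ, if_true]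
    norm_num

/-- quadratic form of a symmetric matrix along `uv k l` -/
noncomputable def qv (C : Matrix (Fin 4) (Fin 4) ℝ) (k l : Fin 4) : ℝ :=
  ∑ i, ∑ j, uv k l i * C i j * uv k l j

theorem qv_self (C : Matrix (Fin 4) (Fin 4) ℝ) (k : Fin 4) : qv C k k = C k k := by
  unfold qv uv
  simp

theorem qv_ne {C : Matrix (Fin 4) (Fin 4) ℝ} (hC : C.transpose = C) {k l : Fin 4} (h : k ≠ l) :
    qv C k l = (C k k + C l l) / 2 + C k l := by
  have hs : C l k = C k l := congrFun (congrFun hC k) l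
  have h2 : Real.sqrt 2 * Real.sqrt 2 = 2 := Real.mul_self_sqrt (by norm_num)
  have h3 : ∀ i j, uv k l i * C i j * uv k l j = (((if i = k then 1 else 0) +
      (if i = l then 1 else 0)) * C i j * ((if j = k then 1 else 0) +
      (if j = l then 1 else 0))) / 2 := by
    intro i j
    unfold uv
    simp only [h, if_false]
    rw [div_mul_eq_mul_div, div_mul_div_comm, h2]
  unfold qv
  simp only [h3, ← Finset.sum_div, add_mul, mul_add, ite_mul, mul_ite, one_mul, mul_one, zero_mul,
    mul_zero, Finset.sum_add_distrib, Finset.sum_ite_eq', Finset.mem_univ, if_true]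
  rw [hs]
  ring

theorem entry_le {C : Matrix (Fin 4) (Fin 4) ℝ} (hC : C.transpose = C) {B : ℝ}
    (h : ∀ k l, |qv C k l| ≤ B / 2) (k l : Fin 4) : |C k l| ≤ B := by
  have hB : 0 ≤ B := by linarith [(abs_nonneg _).trans (h k l)]
  by_cases hkl : k = l
  · subst hkl
    have := h k k
    rw [qv_self] at this
    linarith
  · have e1 := abs_le.1 (h k k)
    have e2 := abs_le.1 (h l l)
    have e3 := abs_le.1 (h k l)
    rw [qv_self] at e1 e2
    rw [qv_ne hC hkl] at e3
    refine abs_le.2 ⟨?_, ?_⟩ <;> linarith [e1.1, e1.2, e2.1, e2.2, e3.1, e3.2]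

/-- the one-dimensional test vector `g · uv k l` -/
noncomputable def gw {n : ℕ} (k l : Fin 4) (g : Fin n → Fin 4 → ℝ) : Fin n → Fin 1 → ℝ :=
  fun i _ => ∑ j, g i j * uv k l j

theorem measurable_gw {n : ℕ} (k l : Fin 4) : Measurable (gw (n := n) k l) := by
  unfold gw
  exact measurable_pi_lambda _ fun i => measurable_pi_lambda _ fun _ =>
    Finset.measurable_sum _ fun j _ =>
      ((measurable_pi_apply j).comp (measurable_pi_apply i)).mul_const _

theorem gaussM_map_gw {n : ℕ} (k l : Fin 4) : (gaussM n 4).map (gw k l) = gaussM n 1 := by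
  have h := gm_map_right (ι := Fin n) (κ := Fin 4) (κ' := Fin 1)
    (Matrix.of fun j _ => uv k l j) (by
      ext a b
      simp only [Matrix.mul_apply, Matrix.transpose_apply, Matrix.of_apply]
      rw [Subsingleton.elim a b, Matrix.one_apply_eq, ← uv_sq k l]
      exact Finset.sum_congr rfl fun j _ => by ring)
  exact h

theorem testArr_gw {n : ℕ} (H : Matrix (Fin n) (Fin n) ℝ) (e : ℝ) (g : Fin n → Fin 4 → ℝ)
    (k l : Fin 4) : testArr H e (gw k l g) 0 0 = qv (testArr H e g) k l := by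
  unfold testArr qv
  have h : Matrix.of (gw k l g) = Matrix.of g * (Matrix.of fun j (_ : Fin 1) => uv k l j) := by
    ext i a
    simp only [gw, Matrix.of_apply, Matrix.mul_apply]
  set R := (H - e • (1 : Matrix (Fin n) (Fin n) ℝ))⁻¹
  set W : Matrix (Fin 4) (Fin 1) ℝ := Matrix.of fun j (_ : Fin 1) => uv k l j with hW
  have h2 : (Matrix.of (gw k l g)).transpose * R * Matrix.of (gw k l g) =
      W.transpose * ((Matrix.of g).transpose * R * Matrix.of g) * W := by
    rw [h, Matrix.transpose_mul]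
    simp only [Matrix.mul_assoc]
  rw [h2]
  set A := (Matrix.of g).transpose * R * Matrix.of g
  simp only [Matrix.smul_apply, smul_eq_mul]
  rw [Matrix.mul_apply, Finset.mul_sum, Finset.sum_comm]
  refine Finset.sum_congr rfl fun j _ => ?_
  rw [Matrix.mul_apply, Finset.sum_mul, Finset.mul_sum]
  refine Finset.sum_congr rfl fun i _ => ?_
  simp only [hW, Matrix.transpose_apply, Matrix.of_apply]
  ring

theorem qv_sub_smul (C : Matrix (Fin 4) (Fin 4) ℝ) (a : ℝ) (k l : Fin 4) :
    qv (C - a • (1 : Matrix (Fin 4) (Fin 4) ℝ)) k l = qv C k l - a := by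
  unfold qv
  have h1 : ∀ i j, uv k l i * (C - a • (1 : Matrix (Fin 4) (Fin 4) ℝ)) i j * uv k l j =
      uv k l i * C i j * uv k l j - (if i = j then a * uv k l j ^ 2 else 0) := by
    intro i j
    simp only [Matrix.sub_apply, Matrix.smul_apply, Matrix.one_apply, smul_eq_mul]
    by_cases h : i = j
    · subst h; simp; ring
    · simp [h]
  simp only [h1, Finset.sum_sub_distrib]
  congr 1
  simp only [Finset.sum_ite_eq, Finset.mem_univ, if_true, ← Finset.mul_sum, uv_sq, mul_one]

theorem qv_smul (C : Matrix (Fin 4) (Fin 4) ℝ) (a : ℝ) (k l : Fin 4) :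
    qv (a • C) k l = a * qv C k l := by
  unfold qv
  simp only [Matrix.smul_apply, smul_eq_mul, Finset.mul_sum]
  exact Finset.sum_congr rfl fun i _ => Finset.sum_congr rfl fun j _ => by ring

/-! ### One-dimensional tails -/

section Tail

variable {n : ℕ}

/-- the bad set of the one-dimensional array -/
def tset (H : Matrix (Fin n) (Fin n) ℝ) (E a T x : ℝ) : Set (Fin n → Fin 1 → ℝ) :=
  {g | T < |testArr H (E + x / n) g 0 0 - a|}

theorem measurable_testArr1 (H : Matrix (Fin n) (Fin n) ℝ) (E : ℝ) :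
    Measurable fun q : ℝ × (Fin n → Fin 1 → ℝ) => testArr H (E + q.1 / n) q.2 0 0 := by
  refine EM_testArr (EM.const H) (measurable_const.add (measurable_fst.div_const _))
    (fun i k => ?_) 0 0
  exact (measurable_pi_apply k).comp ((measurable_pi_apply i).comp measurable_snd)

theorem measurableSet_tset_prod (H : Matrix (Fin n) (Fin n) ℝ) (E a T : ℝ) :
    MeasurableSet {q : ℝ × (Fin n → Fin 1 → ℝ) | q.2 ∈ tset H E a T q.1} := by
  have h1 : Measurable fun q : ℝ × (Fin n → Fin 1 → ℝ) =>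
      |testArr H (E + q.1 / n) q.2 0 0 - a| := by
    have := (measurable_testArr1 H E).sub_const a
    exact measurable_norm.comp this
  exact measurableSet_lt measurable_const h1

theorem measurableSet_tset (H : Matrix (Fin n) (Fin n) ℝ) (E a T x : ℝ) :
    MeasurableSet (tset H E a T x) :=
  measurable_prodMk_left (x := x) (measurableSet_tset_prod H E a T)

theorem measurable_tail (H : Matrix (Fin n) (Fin n) ℝ) (E a T : ℝ) :
    Measurable fun x : ℝ => ((gaussM n 1) (tset H E a T x)).toReal :=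
  (measurable_measure_prodMk_left (measurableSet_tset_prod H E a T)).ennreal_toReal

theorem intervalIntegrable_tail (H : Matrix (Fin n) (Fin n) ℝ) (E a T u v : ℝ) :
    IntervalIntegrable (fun x : ℝ => ((gaussM n 1) (tset H E a T x)).toReal) volume u v := by
  rw [intervalIntegrable_iff]
  refine Measure.integrableOn_of_bounded (M := 1) (by simp)
    (measurable_tail H E a T).aestronglyMeasurable ?_
  refine Filter.Eventually.of_forall fun x => ?_
  rw [Real.norm_eq_abs, abs_of_nonneg ENNReal.toReal_nonneg]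
  exact measureReal_le_one

theorem real_gw (H : Matrix (Fin n) (Fin n) ℝ) (E a T x : ℝ) (k l : Fin 4) :
    (gaussM n 4).real (gw k l ⁻¹' tset H E a T x) = ((gaussM n 1) (tset H E a T x)).toReal := by
  rw [Measure.real, ← gaussM_map_gw k l, Measure.map_apply (measurable_gw k l)
    (measurableSet_tset H E a T x)]

/-- upper bound of the test value of `clampT` -/
theorem testVal_upper {H : Matrix (Fin n) (Fin n) ℝ} (hH : H.IsHermitian) {E ρ K δ T TO a B : ℝ}
    (hρ : 0 < ρ) (hδ : 0 < δ) (ha : |(mn H (zz E K n)).re - a| ≤ 2)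
    (hB : TO + 2 ≤ Real.pi * ρ * (B / 2)) (hT : 48 * (B + 1) ^ 4 ≤ T) :
    TestVal H E ρ K δ 4 (clampT T) ≤
      16 * (δ⁻¹ * ∫ x in (0 : ℝ)..δ, ((gaussM n 1) (tset H E a TO x)).toReal) := by
  have hpr : 0 < Real.pi * ρ := mul_pos Real.pi_pos hρ
  have hpt : ∀ (x : ℝ) (g : Fin n → Fin 4 → ℝ), clampT T (uOf H E ρ K x g) ≤
      ∑ k, ∑ l, (gw k l ⁻¹' tset H E a TO x).indicator (fun _ => (1 : ℝ)) g := by
    intro x g
    have hnn : ∀ k l, 0 ≤ (gw k l ⁻¹' tset H E a TO x).indicator (fun _ => (1 : ℝ)) g :=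
      fun k l => Set.indicator_nonneg (fun _ _ => zero_le_one) _
    by_cases hall : ∀ k l, g ∉ gw k l ⁻¹' tset H E a TO x
    · rw [uOf_eq, clampT_eq_zero (B := B) ?_ hT ?_]
      · exact Finset.sum_nonneg fun k _ => Finset.sum_nonneg fun l _ => hnn k l
      · have := cArr_hermitian hH E ρ K x g
        rwa [Matrix.IsHermitian, Matrix.conjTranspose_eq_transpose_of_trivial] at this
      · have hsym : (cArr H E ρ K x g).transpose = cArr H E ρ K x g := by
          have := cArr_hermitian hH E ρ K x g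
          rwa [Matrix.IsHermitian, Matrix.conjTranspose_eq_transpose_of_trivial] at this
        refine entry_le hsym fun k l => ?_
        have h1 := hall k l
        simp only [Set.mem_preimage, tset, Set.mem_ofPred_eq, not_lt, testArr_gw] at h1
        rw [cArr, qv_smul, qv_sub_smul, abs_mul, abs_of_pos (one_div_pos.2 hpr)]
        have h2 : |qv (testArr H (E + x / n) g) k l - (mn H (zz E K n)).re| ≤ TO + 2 := by
          have e1 := abs_le.1 h1
          have e2 := abs_le.1 ha
          refine abs_le.2 ⟨?_, ?_⟩ <;> linarith [e1.1, e1.2, e2.1, e2.2]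
        rw [one_div, inv_mul_le_iff₀ hpr]
        exact h2.trans hB
    · push Not at hall
      obtain ⟨k, l, hkl⟩ := hall
      refine (clampT_le_one _ _).trans ?_
      have h1 : (1 : ℝ) = (gw k l ⁻¹' tset H E a TO x).indicator (fun _ => (1 : ℝ)) g := by
        rw [Set.indicator_of_mem hkl]
      refine h1.le.trans ?_
      refine (Finset.single_le_sum (fun l _ => hnn k l) (Finset.mem_univ l)).trans ?_
      exact Finset.single_le_sum (f := fun k => ∑ l, (gw k l ⁻¹' tset H E a TO x).indicator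
        (fun _ => (1 : ℝ)) g) (fun k _ => Finset.sum_nonneg fun l _ => hnn k l)
        (Finset.mem_univ k)
  have hint : ∀ (k l : Fin 4) (x : ℝ), Integrable
      ((gw k l ⁻¹' tset H E a TO x).indicator (fun _ => (1 : ℝ))) (gaussM n 4) := fun k l x =>
    (integrable_const (1 : ℝ)).indicator ((measurable_gw k l) (measurableSet_tset H E a TO x))
  have hin : ∀ x : ℝ, ∫ g, clampT T (uOf H E ρ K x g) ∂gaussM n 4 ≤
      16 * ((gaussM n 1) (tset H E a TO x)).toReal := by
    intro x
    calc ∫ g, clampT T (uOf H E ρ K x g) ∂gaussM n 4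
        ≤ ∫ g, (∑ k, ∑ l, (gw k l ⁻¹' tset H E a TO x).indicator (fun _ => (1 : ℝ)) g)
            ∂gaussM n 4 := by
          refine integral_mono (integrable_g H E ρ K x (clampT_continuous T) (B := 1) fun g => ?_)
            (integrable_finsetSum _ fun k _ => integrable_finsetSum _ fun l _ => hint k l x)
            (hpt x)
          rw [abs_of_nonneg (clampT_nonneg _ _)]
          exact clampT_le_one _ _
      _ = ∑ k : Fin 4, ∑ l : Fin 4, ((gaussM n 1) (tset H E a TO x)).toReal := by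
          rw [integral_finsetSum _ fun k _ => integrable_finsetSum _ fun l _ => hint k l x]
          refine Finset.sum_congr rfl fun k _ => ?_
          rw [integral_finsetSum _ fun l _ => hint k l x]
          refine Finset.sum_congr rfl fun l _ => ?_
          rw [integral_indicator ((measurable_gw k l) (measurableSet_tset H E a TO x)),
            ← real_gw H E a TO x k l]
          simp
      _ = _ := by
          simp only [Finset.sum_const, Finset.card_univ, Fintype.card_fin, nsmul_eq_mul]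
          push_cast
          ring
  unfold TestVal
  have h3 : ∫ x in (0 : ℝ)..δ, ∫ g, clampT T (uOf H E ρ K x g) ∂gaussM n 4 ≤
      ∫ x in (0 : ℝ)..δ, 16 * ((gaussM n 1) (tset H E a TO x)).toReal :=
    intervalIntegral.integral_mono_on hδ.le
      (intervalIntegrable_inner (clampT_continuous T) (fun _ _ => clampT_nonneg _ _)
        (fun _ _ => clampT_le_one _ _) 0 δ)
      ((intervalIntegrable_tail H E a TO 0 δ).const_mul 16) fun x _ => hin x
  rw [intervalIntegral.integral_const_mul] at h3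
  calc δ⁻¹ * _ ≤ δ⁻¹ * (16 * _) := mul_le_mul_of_nonneg_left h3 (inv_nonneg.2 hδ.le)
    _ = _ := by ring

/-- lower bound of the test value of `clampT` when the centrings differ much -/
theorem testVal_lower {H : Matrix (Fin n) (Fin n) ℝ} (hH : H.IsHermitian) {E ρ K δ T T1 a : ℝ}
    (hρ : 0 < ρ) (hδ : 0 < δ) (hT : 0 < T)
    (hgap : T1 + Real.pi * ρ * T < |(mn H (zz E K n)).re - a|) :
    1 - δ⁻¹ * ∫ x in (0 : ℝ)..δ, ((gaussM n 1) (tset H E a T1 x)).toReal ≤
      TestVal H E ρ K δ 4 (clampT T) := by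
  have hpr : 0 < Real.pi * ρ := mul_pos Real.pi_pos hρ
  have hpt : ∀ (x : ℝ) (g : Fin n → Fin 4 → ℝ), 1 ≤ clampT T (uOf H E ρ K x g) +
      (gw 0 0 ⁻¹' tset H E a T1 x).indicator (fun _ => (1 : ℝ)) g := by
    intro x g
    by_cases hg : g ∈ gw 0 0 ⁻¹' tset H E a T1 x
    · rw [Set.indicator_of_mem hg]
      linarith [clampT_nonneg T (uOf H E ρ K x g)]
    · rw [Set.indicator_of_notMem hg, add_zero, uOf_eq, clampT_eq_one _ hT 0]
      · simp only [Set.mem_preimage, tset, Set.mem_ofPred_eq, not_lt, testArr_gw, qv_self] at hg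
        have h1 : cArr H E ρ K x g 0 0 = (1 / (Real.pi * ρ)) *
            (testArr H (E + x / n) g 0 0 - (mn H (zz E K n)).re) := by
          simp [cArr]
        rw [h1, abs_mul, abs_of_pos (one_div_pos.2 hpr), one_div, le_inv_mul_iff₀ hpr]
        have h2 : |(mn H (zz E K n)).re - a| ≤
            |testArr H (E + x / n) g 0 0 - (mn H (zz E K n)).re| +
              |testArr H (E + x / n) g 0 0 - a| := by
          have := abs_sub_le (mn H (zz E K n)).re (testArr H (E + x / n) g 0 0) a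
          rwa [abs_sub_comm (mn H (zz E K n)).re (testArr H (E + x / n) g 0 0)] at this
        linarith
      · have := cArr_hermitian hH E ρ K x g
        rwa [Matrix.IsHermitian, Matrix.conjTranspose_eq_transpose_of_trivial] at this
  have hint : ∀ x : ℝ, Integrable
      ((gw 0 0 ⁻¹' tset H E a T1 x).indicator (fun _ => (1 : ℝ))) (gaussM n 4) := fun x =>
    (integrable_const (1 : ℝ)).indicator ((measurable_gw 0 0) (measurableSet_tset H E a T1 x))
  have hig : ∀ x : ℝ, Integrable (fun g => clampT T (uOf H E ρ K x g)) (gaussM n 4) := fun x =>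
    integrable_g H E ρ K x (clampT_continuous T) (B := 1) fun g => by
      rw [abs_of_nonneg (clampT_nonneg _ _)]
      exact clampT_le_one _ _
  have hin : ∀ x : ℝ, 1 ≤ ∫ g, clampT T (uOf H E ρ K x g) ∂gaussM n 4 +
      ((gaussM n 1) (tset H E a T1 x)).toReal := by
    intro x
    have h1 : ∫ g, (1 : ℝ) ∂gaussM n 4 ≤ ∫ g, (clampT T (uOf H E ρ K x g) +
        (gw 0 0 ⁻¹' tset H E a T1 x).indicator (fun _ => (1 : ℝ)) g) ∂gaussM n 4 :=
      integral_mono (integrable_const _) ((hig x).add (hint x)) (hpt x)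
    rw [integral_add (hig x) (hint x),
      integral_indicator ((measurable_gw 0 0) (measurableSet_tset H E a T1 x))] at h1
    rw [← real_gw H E a T1 x 0 0]
    simpa using h1
  have hI1 : IntervalIntegrable (fun x => ∫ g, clampT T (uOf H E ρ K x g) ∂gaussM n 4)
      volume 0 δ := intervalIntegrable_inner (clampT_continuous T) (fun _ _ => clampT_nonneg _ _)
        (fun _ _ => clampT_le_one _ _) 0 δ
  have h3 : ∫ x in (0 : ℝ)..δ, (1 : ℝ) ≤
      ∫ x in (0 : ℝ)..δ, (∫ g, clampT T (uOf H E ρ K x g) ∂gaussM n 4 +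
        ((gaussM n 1) (tset H E a T1 x)).toReal) :=
    intervalIntegral.integral_mono_on hδ.le (by simp)
      (hI1.add (intervalIntegrable_tail H E a T1 0 δ)) fun x _ => hin x
  rw [intervalIntegral.integral_add hI1 (intervalIntegrable_tail H E a T1 0 δ),
    intervalIntegral.integral_const, sub_zero, smul_eq_mul, mul_one] at h3
  have h4 := mul_le_mul_of_nonneg_left h3 (inv_nonneg.2 hδ.le)
  rw [inv_mul_cancel₀ hδ.ne', mul_add] at h4
  unfold TestVal
  linarith

end Tail

/-! ### Tightness of the difference of the centrings -/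

/-- (81) assembly, part 1 -/
theorem asm1 {d : ℕ} {s E ρ : ℝ} (hρ : 0 < ρ) (hIm : ImLim d s E ρ) (hImO : ImLimO)
    (hTT : TightTest) (hC : CompareGO d s E ρ) : TightRe d s E := by
  intro ε hε
  set e : ℝ := min (ε / 64) (1 / 4) with he
  have hepos : 0 < e := lt_min (by positivity) (by norm_num)
  have he4 : e ≤ 1 / 4 := min_le_right _ _
  have heε : e ≤ ε / 64 := min_le_left _ _
  obtain ⟨Ka, hKa, hIa⟩ := hIm e hepos
  obtain ⟨Kb, hKb, hIb⟩ := hImO e hepos
  -- GOE side
  obtain ⟨TO, hTO⟩ := hTT 2 Kb 1 e hKb one_pos hepos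
  set B : ℝ := 2 * (|TO| + 2) with hBdef
  have hB0 : 0 ≤ B := by positivity
  set T : ℝ := 48 * (B + 1) ^ 4 with hTdef
  have hTpos : 0 < T := by positivity
  obtain ⟨Kc, hKc, hCo⟩ := hC 4 le_rfl (clampT T) (clampT_continuous T) 1 one_pos e hepos
  refine ⟨Ka, fun L hL => ?_⟩
  have hLpos : 0 < L := lt_of_lt_of_le hKa hL
  obtain ⟨T1, hT1⟩ := hTT (Real.pi * ρ + 1) L 1 e hLpos one_pos hepos
  refine ⟨T1 + Real.pi * ρ * T, max Kc Kb, fun K hK => ?_⟩
  have hKKc : Kc ≤ K := (le_max_left _ _).trans hK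
  have hKKb : Kb ≤ K := (le_max_right _ _).trans hK
  obtain ⟨N1, hN1⟩ := hIa L hL
  obtain ⟨N2, hN2⟩ := hCo K hKKc
  obtain ⟨N3, hN3⟩ := hIb Kb le_rfl
  obtain ⟨N4, hN4⟩ := hIb K hKKb
  refine ⟨max (max N1 N2) (max (max N3 N4) 1), fun n hn hne => ?_⟩
  have hn1 : N1 ≤ n := by omega
  have hn2 : N2 ≤ n := by omega
  have hn3 : N3 ≤ n := by omega
  have hn4 : N4 ≤ n := by omega
  have hnpos : 0 < n := by omega
  have hprob := law_prob hne
  have h01 : ∀ (H : Matrix (Fin n) (Fin n) ℝ) (E ρ K : ℝ),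
      0 ≤ TestVal H E ρ K 1 4 (clampT T) ∧ TestVal H E ρ K 1 4 (clampT T) ≤ 1 := fun H E ρ K =>
    ⟨TestVal_nonneg zero_le_one fun _ _ => clampT_nonneg _ _,
      TestVal_le_one one_pos (clampT_continuous T) (fun _ _ => clampT_nonneg _ _)
        fun _ _ => clampT_le_one _ _⟩
  -- GOE expectation is small
  have hO : EO n (fun H => TestVal H 0 (1 / Real.pi) K 1 4 (clampT T)) ≤ 16 * e + (e + e) := by
    have hbad : (goeDisorderLaw n) ({g | e < ‖mn (goeMatrix g) (zz 0 Kb n) - Complex.I‖} ∪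
        {g | e < ‖mn (goeMatrix g) (zz 0 K n) - Complex.I‖}) ≤ ENNReal.ofReal (e + e) := by
      rw [ENNReal.ofReal_add hepos.le hepos.le]
      exact (measure_union_le _ _).trans (add_le_add (hN3 n hn3) (hN4 n hn4))
    have hcmp := abs_integral_sub_le (μ := goeDisorderLaw n)
      (A := fun g => max (TestVal (goeMatrix g) 0 (1 / Real.pi) K 1 4 (clampT T)) 0)
      (B := fun _ => (0 : ℝ)) (ε := 16 * e) (p := e + e) ?_ measurable_const
      (fun g => le_max_right _ _) (fun g => max_le (h01 _ _ _ _).2 zero_le_one)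
      (fun _ => le_rfl) (fun _ => zero_le_one) (by positivity) (by positivity) hbad ?_
    · have h1 : ∀ g : GOEDisorder n,
          max (TestVal (goeMatrix g) 0 (1 / Real.pi) K 1 4 (clampT T)) 0 =
            TestVal (goeMatrix g) 0 (1 / Real.pi) K 1 4 (clampT T) := fun g =>
        max_eq_left (h01 _ _ _ _).1
      simp only [h1, integral_zero, sub_zero] at hcmp
      exact (abs_le.1 hcmp).2
    · exact (measurable_TestVal (EM_goe n) 0 (1 / Real.pi) K zero_le_one
        (clampT_continuous T)).max measurable_const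
    · intro g hg
      simp only [Set.mem_union, Set.mem_ofPred_eq, not_or, not_lt] at hg
      obtain ⟨hg1, hg2⟩ := hg
      rw [sub_zero, abs_of_nonneg (le_max_right _ _), max_eq_left (h01 _ _ _ _).1]
      have hre (z : ℂ) (hz : ‖z - Complex.I‖ ≤ e) : |z.re| ≤ 1 := by
        have h1 := (Complex.abs_re_le_norm (z - Complex.I)).trans hz
        rw [Complex.sub_re, Complex.I_re, sub_zero] at h1
        linarith
      have him : (mn (goeMatrix g) (zz 0 Kb n)).im ≤ 2 := by
        have h1 := (Complex.abs_im_le_norm (mn (goeMatrix g) (zz 0 Kb n) - Complex.I)).trans hg1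
        rw [Complex.sub_im, Complex.I_im] at h1
        have h2 := (abs_le.1 h1).2
        linarith
      have ha : |(mn (goeMatrix g) (zz 0 K n)).re - (mn (goeMatrix g) (zz 0 Kb n)).re| ≤ 2 := by
        have e1 := abs_le.1 (hre _ hg1)
        have e2 := abs_le.1 (hre _ hg2)
        refine abs_le.2 ⟨?_, ?_⟩ <;> linarith [e1.1, e1.2, e2.1, e2.2]
      have hpi : Real.pi * (1 / Real.pi) = 1 := by
        rw [mul_one_div, div_self Real.pi_pos.ne']
      refine (testVal_upper (goe_isHermitian g) (by positivity) one_pos ha (TO := TO) (B := B)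
        ?_ le_rfl).trans ?_
      · rw [hpi, hBdef]
        linarith [le_abs_self TO]
      · exact mul_le_mul_of_nonneg_left
          (hTO 0 n hnpos (goeMatrix g) (goe_isHermitian g) him) (by norm_num)
  -- graph expectation is small
  have hcomp := hN2 n hn2 hne
  have hG : ∫ x, TestVal (Hm x.1 s x.2) E ρ K 1 4 (clampT T) ∂(law n d) ≤ 19 * e := by
    have hb : ∀ x : SimpleGraph (Fin n) × (Fin n → ℝ),
        |TestVal (Hm x.1 s x.2) E ρ K 1 4 (clampT T)| ≤ 1 := fun x => by
      rw [abs_of_nonneg (h01 _ _ _ _).1]; exact (h01 _ _ _ _).2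
    rw [EG_eq hne (Φ := fun H => TestVal H E ρ K 1 4 (clampT T))
      (measurable_TestVal (EM_Hm s) E ρ K zero_le_one (clampT_continuous T)) hb] at hcomp
    have := (abs_le.1 hcomp).2
    linarith
  -- Markov
  have hmeas : Measurable fun x : SimpleGraph (Fin n) × (Fin n → ℝ) =>
      TestVal (Hm x.1 s x.2) E ρ K 1 4 (clampT T) :=
    measurable_TestVal (EM_Hm s) E ρ K zero_le_one (clampT_continuous T)
  have hint : Integrable (fun x : SimpleGraph (Fin n) × (Fin n → ℝ) =>
      TestVal (Hm x.1 s x.2) E ρ K 1 4 (clampT T)) (law n d) :=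
    Integrable.of_bound hmeas.aestronglyMeasurable 1
      (Filter.Eventually.of_forall fun x => by
        rw [Real.norm_eq_abs, abs_of_nonneg (h01 _ _ _ _).1]; exact (h01 _ _ _ _).2)
  have hmk := mul_meas_ge_le_integral_of_nonneg (μ := law n d)
    (Filter.Eventually.of_forall fun x => (h01 (Hm x.1 s x.2) E ρ K).1) hint (1 / 2)
  have hmk2 : (law n d) {x | 1 / 2 ≤ TestVal (Hm x.1 s x.2) E ρ K 1 4 (clampT T)} ≤
      ENNReal.ofReal (38 * e) := by
    rw [← ENNReal.ofReal_toReal (measure_ne_top (law n d) _)]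
    refine ENNReal.ofReal_le_ofReal ?_
    change (law n d).real _ ≤ _
    linarith
  unfold Whp
  calc (law n d) {x | ¬ |(mn (Hm x.1 s x.2) (zz E K n)).re -
        (mn (Hm x.1 s x.2) (zz E L n)).re| ≤ T1 + Real.pi * ρ * T}
      ≤ (law n d) ({x | ¬ |(mn (Hm x.1 s x.2) (zz E L n)).im - Real.pi * ρ| ≤ e} ∪
        {x | 1 / 2 ≤ TestVal (Hm x.1 s x.2) E ρ K 1 4 (clampT T)}) := by
        refine measure_mono fun x hx => ?_
        simp only [Set.mem_ofPred_eq, not_le] at hx
        by_cases hx2 : |(mn (Hm x.1 s x.2) (zz E L n)).im - Real.pi * ρ| ≤ e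
        · refine Or.inr ?_
          simp only [Set.mem_ofPred_eq]
          have him : (mn (Hm x.1 s x.2) (zz E L n)).im ≤ Real.pi * ρ + 1 := by
            have := (abs_le.1 hx2).2
            linarith
          have h1 := testVal_lower (Hm_isHermitian x.1 s x.2) hρ one_pos hTpos hx
          have h2 := hT1 E n hnpos (Hm x.1 s x.2) (Hm_isHermitian x.1 s x.2) him
          have h3 : (1 : ℝ)⁻¹ * ∫ y in (0 : ℝ)..1, ((gaussM n 1) (tset (Hm x.1 s x.2) E
            (mn (Hm x.1 s x.2) (zz E L n)).re T1 y)).toReal ≤ e := h2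
          linarith
        · exact Or.inl hx2
    _ ≤ ENNReal.ofReal e + ENNReal.ofReal (38 * e) :=
        (measure_union_le _ _).trans (add_le_add (hN1 n hn1 hne) hmk2)
    _ = ENNReal.ofReal (39 * e) := by
        rw [← ENNReal.ofReal_add hepos.le (by positivity)]
        congr 1; ring
    _ ≤ ENNReal.ofReal ε := ENNReal.ofReal_le_ofReal (by linarith)

end Crest.Agent.R166.Asm423
end

-- ▼ part R166/GoeLLb_583
section

/-!
Row 166 (helper583), section 60.1, part 2: Gaussian integration by parts for the resolvent of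
the GOE, `ImLimO`.
-/

set_option autoImplicit false

open MeasureTheory ProbabilityTheory Matrix
open Crest.ProbabilityR.RandomMatrix

namespace Crest.Agent.R166.Goe583

open Res789 (cx imM)

/-! ### bounded continuous functions -/

section nice

variable {X : Type*} [TopologicalSpace X]

/-- bounded and continuous -/
def Nice (f : X → ℂ) : Prop := Continuous f ∧ ∃ C : ℝ, ∀ x, ‖f x‖ ≤ C

lemma Nice.const (c : ℂ) : Nice (fun _ : X => c) := ⟨continuous_const, ‖c‖, fun _ => le_rfl⟩

lemma Nice.add {f g : X → ℂ} (hf : Nice f) (hg : Nice g) : Nice (fun x => f x + g x) := by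
  obtain ⟨h1, C, h2⟩ := hf
  obtain ⟨h3, D, h4⟩ := hg
  exact ⟨h1.add h3, C + D, fun x => (norm_add_le _ _).trans (add_le_add (h2 x) (h4 x))⟩

lemma Nice.mul {f g : X → ℂ} (hf : Nice f) (hg : Nice g) : Nice (fun x => f x * g x) := by
  obtain ⟨h1, C, h2⟩ := hf
  obtain ⟨h3, D, h4⟩ := hg
  refine ⟨h1.mul h3, |C| * |D|, fun x => ?_⟩
  rw [norm_mul]
  exact mul_le_mul ((h2 x).trans (le_abs_self _)) ((h4 x).trans (le_abs_self _)) (norm_nonneg _)
    (abs_nonneg _)

lemma Nice.neg {f : X → ℂ} (hf : Nice f) : Nice (fun x => - f x) := by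
  obtain ⟨h1, C, h2⟩ := hf
  exact ⟨h1.neg, C, fun x => by rw [norm_neg]; exact h2 x⟩

lemma Nice.star {f : X → ℂ} (hf : Nice f) : Nice (fun x => star (f x)) := by
  obtain ⟨h1, C, h2⟩ := hf
  exact ⟨h1.star, C, fun x => by rw [norm_star]; exact h2 x⟩

lemma Nice.sum {ι : Type*} (s : Finset ι) {f : ι → X → ℂ} (hf : ∀ i ∈ s, Nice (f i)) :
    Nice (fun x => ∑ i ∈ s, f i x) := by
  classical
  induction s using Finset.induction_on with
  | empty => simpa using Nice.const 0
  | insert a s ha ih =>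
    have h1 := (hf a (Finset.mem_insert_self a s)).add
      (ih fun i hi => hf i (Finset.mem_insert_of_mem hi))
    refine (?_ : (fun x => f a x + ∑ i ∈ s, f i x) = fun x => ∑ i ∈ insert a s, f i x) ▸ h1
    ext x
    rw [Finset.sum_insert ha]

lemma Nice.integrable [MeasurableSpace X] [OpensMeasurableSpace X] {f : X → ℂ} (hf : Nice f)
    (μ : Measure X) [IsFiniteMeasure μ] : Integrable f μ := by
  obtain ⟨h1, C, h2⟩ := hf
  refine Integrable.of_bound ?_ C (Filter.Eventually.of_forall h2)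
  exact h1.measurable.aestronglyMeasurable

/-- matrices with bounded continuous entries -/
def NiceM {V : Type*} (M : X → Matrix V V ℂ) : Prop := ∀ i j, Nice fun x => M x i j

variable {V : Type*} [Fintype V] [DecidableEq V]

lemma NiceM.const (M : Matrix V V ℂ) : NiceM (fun _ : X => M) := fun _ _ => Nice.const _

lemma NiceM.mul {M N : X → Matrix V V ℂ} (hM : NiceM M) (hN : NiceM N) :
    NiceM fun x => M x * N x := fun i j => by
  simp only [Matrix.mul_apply]
  exact Nice.sum _ fun k _ => (hM i k).mul (hN k j)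

lemma NiceM.conjTranspose {M : X → Matrix V V ℂ} (hM : NiceM M) :
    NiceM fun x => (M x)ᴴ := fun i j => by
  simp only [Matrix.conjTranspose_apply]
  exact (hM j i).star

lemma NiceM.trace {M : X → Matrix V V ℂ} (hM : NiceM M) : Nice fun x => (M x).trace := by
  simp only [Matrix.trace, Matrix.diag]
  exact Nice.sum _ fun i _ => hM i i

end nice

section goe

variable {n : ℕ}

/-- resolvent of the GOE matrix as a function of the disorder -/
noncomputable def Rx (z : ℂ) (x : Fin n × Fin n → ℝ) : Matrix (Fin n) (Fin n) ℂ :=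
  Res789.Res (Hx x) z

lemma Rx_transpose {z : ℂ} (hz : 0 < z.im) (x : Fin n × Fin n → ℝ) : (Rx z x)ᵀ = Rx z x :=
  Res789.Res_transpose (Hx_symm x) hz

lemma Rx_conj_transpose {z : ℂ} (hz : 0 < z.im) (x : Fin n × Fin n → ℝ) :
    ((Rx z x)ᴴ)ᵀ = (Rx z x)ᴴ := by
  ext i j
  have h := congrFun (congrFun (Rx_transpose hz x) i) j
  rw [Matrix.transpose_apply] at h
  rw [Matrix.transpose_apply, Matrix.conjTranspose_apply, Matrix.conjTranspose_apply, h]

lemma continuous_Hx : Continuous fun x : Fin n × Fin n → ℝ => Hx x := by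
  refine continuous_matrix fun i j => ?_
  simp only [Hx_apply]
  exact continuous_const.mul (continuous_apply _)

lemma continuous_Rx {z : ℂ} (hz : 0 < z.im) : Continuous fun x : Fin n × Fin n → ℝ => Rx z x := by
  have h1 : Continuous fun x : Fin n × Fin n → ℝ => cx (Hx x) - z • (1 : Matrix (Fin n) (Fin n) ℂ) := by
    refine Continuous.sub ?_ continuous_const
    exact continuous_matrix fun i j => by
      simp only [Res789.cx_apply]
      exact Complex.continuous_ofReal.comp (continuous_Hx.matrix_elem i j)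
  have h2 : (fun x : Fin n × Fin n → ℝ => Rx z x) = fun x =>
      ((cx (Hx x) - z • (1 : Matrix (Fin n) (Fin n) ℂ)).det)⁻¹ •
        (cx (Hx x) - z • (1 : Matrix (Fin n) (Fin n) ℂ)).adjugate := by
    ext1 x
    unfold Rx Res789.Res
    rw [Matrix.inv_def, Ring.inverse_eq_inv']
  rw [h2]
  have h3 : Continuous fun x : Fin n × Fin n → ℝ =>
      ((cx (Hx x) - z • (1 : Matrix (Fin n) (Fin n) ℂ)).det)⁻¹ :=
    h1.matrix_det.inv₀ fun x => (Res789.isUnit_det_sub (Hx_symm x) hz).ne_zero
  exact h3.smul h1.matrix_adjugate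

lemma niceM_Rx {z : ℂ} (hz : 0 < z.im) : NiceM fun x : Fin n × Fin n → ℝ => Rx z x := fun i j =>
  ⟨(continuous_Rx hz).matrix_elem i j, 1 / z.im, fun x => norm_res_le (Hx_symm x) hz i j⟩

lemma hasDerivAt_Rx {z : ℂ} (hz : 0 < z.im) (x : Fin n × Fin n → ℝ) (p : Fin n × Fin n)
    (i j : Fin n) :
    HasDerivAt (fun t => Rx z (Function.update x p t) i j)
      (-(Rx z x * cx (Ap p) * Rx z x) i j) (x p) := by
  have key : ∀ t, Rx z (Function.update x p t) i j - Rx z x i j =
      ((t - x p : ℝ) : ℂ) * -(Rx z (Function.update x p t) * cx (Ap p) * Rx z x) i j := by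
    intro t
    have h := res_sub_res (Hx_symm x) (Hx_symm (Function.update x p t)) hz
    have h2 : Hx (Function.update x p t) - Hx x = (t - x p) • Ap p := by
      rw [Hx_update]; abel
    rw [h2, Res789.cx_smul] at h
    have h3 := congrFun (congrFun h i) j
    rw [Matrix.sub_apply, Matrix.neg_apply, mul_smul_comm, smul_mul_assoc, Matrix.smul_apply,
      smul_eq_mul] at h3
    unfold Rx
    rw [h3, mul_neg]
  have hcont : Continuous fun t : ℝ =>
      -(Rx z (Function.update x p t) * cx (Ap p) * Rx z x) i j := by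
    have h1 : Continuous fun t : ℝ => Function.update x p t :=
      continuous_const.update p continuous_id
    have h2 : Continuous fun t : ℝ => Rx z (Function.update x p t) := (continuous_Rx hz).comp h1
    exact (((h2.matrix_mul continuous_const).matrix_mul continuous_const).matrix_elem i j).neg
  rw [hasDerivAt_iff_tendsto_slope]
  have h3 : Filter.Tendsto (fun t : ℝ =>
      -(Rx z (Function.update x p t) * cx (Ap p) * Rx z x) i j) (nhdsWithin (x p) {x p}ᶜ)
      (nhds (-(Rx z x * cx (Ap p) * Rx z x) i j)) := by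
    have h4 := (hcont.tendsto (x p)).mono_left (nhdsWithin_le_nhds (s := {x p}ᶜ))
    rwa [Function.update_eq_self] at h4
  refine h3.congr' ?_
  filter_upwards [self_mem_nhdsWithin] with t ht
  have ht' : ((t - x p : ℝ) : ℂ) ≠ 0 := by
    rw [Complex.ofReal_ne_zero]
    exact sub_ne_zero.2 ht
  rw [slope_def_module, Function.update_eq_self, key t, Complex.real_smul, ← mul_assoc,
    Complex.ofReal_inv, inv_mul_cancel₀ ht', one_mul]

lemma hasDerivAt_trace {z : ℂ} (hz : 0 < z.im) (M : Matrix (Fin n) (Fin n) ℂ)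
    (x : Fin n × Fin n → ℝ) (p : Fin n × Fin n) :
    HasDerivAt (fun t => (M * Rx z (Function.update x p t)).trace)
      (-(M * (Rx z x * cx (Ap p) * Rx z x)).trace) (x p) := by
  simp only [Matrix.trace, Matrix.diag, Matrix.mul_apply (M := M)]
  rw [← Finset.sum_neg_distrib]
  refine HasDerivAt.fun_sum fun i _ => ?_
  rw [← Finset.sum_neg_distrib]
  refine HasDerivAt.fun_sum fun k _ => ?_
  have h := (hasDerivAt_Rx hz x p k i).const_mul (M i k)
  exact h.congr_deriv (by ring)

/-- normalised trace -/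
noncomputable def mx (z : ℂ) (x : Fin n × Fin n → ℝ) : ℂ := (Rx z x).trace / n

/-- `P = 1 + z m + m²` -/
noncomputable def Px (z : ℂ) (x : Fin n × Fin n → ℝ) : ℂ := 1 + z * mx z x + mx z x * mx z x

lemma nice_mx {z : ℂ} (hz : 0 < z.im) : Nice fun x : Fin n × Fin n → ℝ => mx z x := by
  unfold mx
  simp only [div_eq_mul_inv]
  exact (niceM_Rx hz).trace.mul (Nice.const _)

lemma nice_Px {z : ℂ} (hz : 0 < z.im) : Nice fun x : Fin n × Fin n → ℝ => Px z x := by
  unfold Px
  exact ((Nice.const 1).add ((Nice.const z).mul (nice_mx hz))).add ((nice_mx hz).mul (nice_mx hz))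

lemma hasDerivAt_mx {z : ℂ} (hz : 0 < z.im) (x : Fin n × Fin n → ℝ) (p : Fin n × Fin n) :
    HasDerivAt (fun t => mx z (Function.update x p t))
      (-(Rx z x * cx (Ap p) * Rx z x).trace / n) (x p) := by
  have h := (hasDerivAt_trace hz 1 x p).div_const (n : ℂ)
  simp only [one_mul] at h
  exact h

lemma hasDerivAt_Px {z : ℂ} (hz : 0 < z.im) (x : Fin n × Fin n → ℝ) (p : Fin n × Fin n) :
    HasDerivAt (fun t => Px z (Function.update x p t))
      ((z + 2 * mx z x) * (-(Rx z x * cx (Ap p) * Rx z x).trace / n)) (x p) := by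
  have h := hasDerivAt_mx hz x p
  have h1 := ((hasDerivAt_const (x p) (1 : ℂ)).fun_add (h.const_mul z)).fun_add (h.fun_mul h)
  refine h1.congr_deriv ?_
  rw [Function.update_eq_self]
  ring

/-- the test function for the coordinate `p` -/
noncomputable def Fp (z : ℂ) (p : Fin n × Fin n) (x : Fin n × Fin n → ℝ) : ℂ :=
  (cx (Ap p) * Rx z x).trace * star (Px z x)

/-- its derivative -/
noncomputable def Fp' (z : ℂ) (p : Fin n × Fin n) (x : Fin n × Fin n → ℝ) : ℂ :=
  -(cx (Ap p) * (Rx z x * cx (Ap p) * Rx z x)).trace * star (Px z x) +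
    (cx (Ap p) * Rx z x).trace *
      star ((z + 2 * mx z x) * (-(Rx z x * cx (Ap p) * Rx z x).trace / n))

lemma hasDerivAt_Fp {z : ℂ} (hz : 0 < z.im) (x : Fin n × Fin n → ℝ) (p : Fin n × Fin n) :
    HasDerivAt (fun t => Fp z p (Function.update x p t)) (Fp' z p x) (x p) := by
  have h1 := hasDerivAt_trace hz (cx (Ap p)) x p
  have h2 := (hasDerivAt_Px hz x p).star
  have h3 := h1.fun_mul h2
  refine h3.congr_deriv ?_
  rw [Function.update_eq_self]
  rfl

lemma nice_Fp {z : ℂ} (hz : 0 < z.im) (p : Fin n × Fin n) :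
    Nice fun x : Fin n × Fin n → ℝ => Fp z p x :=
  ((NiceM.const _).mul (niceM_Rx hz)).trace.mul (nice_Px hz).star

lemma nice_Fp' {z : ℂ} (hz : 0 < z.im) (p : Fin n × Fin n) :
    Nice fun x : Fin n × Fin n → ℝ => Fp' z p x := by
  have hR := niceM_Rx (n := n) hz
  have hA : NiceM fun _ : Fin n × Fin n → ℝ => cx (Ap p) := NiceM.const _
  have h1 := ((hR.mul hA).mul hR)
  unfold Fp'
  refine Nice.add ?_ ?_
  · exact ((hA.mul h1).trace.neg).mul (nice_Px hz).star
  · refine ((hA.mul hR).trace).mul (Nice.star ?_)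
    simp only [div_eq_mul_inv]
    exact ((Nice.const z).add ((Nice.const 2).mul (nice_mx hz))).mul ((h1.trace.neg).mul
      (Nice.const _))

/-- sum of the test functions -/
lemma sum_Fp {z : ℂ} (hz : 0 < z.im) (x : Fin n × Fin n → ℝ) :
    ∑ p, ((x p : ℝ) : ℂ) * Fp z p x = (n + z * (Rx z x).trace) * star (Px z x) := by
  unfold Fp
  have h1 : ∑ p, ((x p : ℝ) : ℂ) * (cx (Ap p) * Rx z x).trace = n + z * (Rx z x).trace := by
    have h2 : (cx (Hx x) * Rx z x).trace = n + z * (Rx z x).trace := by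
      have h3 := Res789.sub_mul_Res (Hx_symm x) hz
      rw [sub_mul, smul_mul_assoc, one_mul] at h3
      have h4 : cx (Hx x) * Rx z x = 1 + z • Rx z x := by
        rw [← h3]
        unfold Rx
        abel
      rw [h4, Matrix.trace_add, Matrix.trace_smul, Matrix.trace_one, smul_eq_mul]
      simp
    rw [← h2]
    simp only [Matrix.trace, Matrix.diag, Matrix.mul_apply, Res789.cx_apply, Finset.mul_sum]
    rw [Finset.sum_comm]
    refine Finset.sum_congr rfl fun i _ => ?_
    rw [Finset.sum_comm]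
    refine Finset.sum_congr rfl fun j _ => ?_
    rw [Hx_sum x i j, Complex.ofReal_sum, Finset.sum_mul]
    refine Finset.sum_congr rfl fun p _ => ?_
    push_cast
    ring
  rw [← h1, Finset.sum_mul]
  exact Finset.sum_congr rfl fun p _ => by ring

lemma sum_Fp' (hn : 0 < n) {z : ℂ} (hz : 0 < z.im) (x : Fin n × Fin n → ℝ) :
    ∑ p, Fp' z p x = -(1 / (n : ℂ)) * ((Rx z x).trace * (Rx z x).trace +
        (Rx z x * Rx z x).trace) * star (Px z x) -
      star (z + 2 * mx z x) / n * ((2 / (n : ℂ)) * (Rx z x * ((Rx z x)ᴴ * (Rx z x)ᴴ)).trace) := by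
  unfold Fp'
  rw [Finset.sum_add_distrib]
  have h1 : ∑ p, -(cx (Ap p) * (Rx z x * cx (Ap p) * Rx z x)).trace * star (Px z x) =
      -(1 / (n : ℂ)) * ((Rx z x).trace * (Rx z x).trace +
        (Rx z x * Rx z x).trace) * star (Px z x) := by
    rw [← Finset.sum_mul, Finset.sum_neg_distrib]
    have h2 := sum_trace_four hn (Rx z x) (Rx z x)
    rw [Rx_transpose hz] at h2
    have h3 : ∑ p, (cx (Ap p) * (Rx z x * cx (Ap p) * Rx z x)).trace =
        ∑ p, (cx (Ap p) * Rx z x * cx (Ap p) * Rx z x).trace :=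
      Finset.sum_congr rfl fun p _ => by simp only [mul_assoc]
    rw [h3, h2]
    ring
  have h4 : ∀ p : Fin n × Fin n, star ((Rx z x * cx (Ap p) * Rx z x).trace) =
      (cx (Ap p) * ((Rx z x)ᴴ * (Rx z x)ᴴ)).trace := by
    intro p
    rw [← Matrix.trace_conjTranspose, Matrix.conjTranspose_mul, Matrix.conjTranspose_mul,
      Res789.cx_conjTranspose, Ap_symm, Matrix.trace_mul_comm, mul_assoc]
  have h5 : ∑ p, (cx (Ap p) * Rx z x).trace *
      star ((z + 2 * mx z x) * (-(Rx z x * cx (Ap p) * Rx z x).trace / n)) =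
      - (star (z + 2 * mx z x) / n * ((2 / (n : ℂ)) *
        (Rx z x * ((Rx z x)ᴴ * (Rx z x)ᴴ)).trace)) := by
    have h6 := sum_trace_two hn (Rx z x) ((Rx z x)ᴴ * (Rx z x)ᴴ)
    rw [Matrix.transpose_mul, Rx_conj_transpose hz] at h6
    have h7 : ∀ p : Fin n × Fin n, (cx (Ap p) * Rx z x).trace *
        star ((z + 2 * mx z x) * (-(Rx z x * cx (Ap p) * Rx z x).trace / n)) =
        -(star (z + 2 * mx z x) / n) * ((cx (Ap p) * Rx z x).trace *
          (cx (Ap p) * ((Rx z x)ᴴ * (Rx z x)ᴴ)).trace) := by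
      intro p
      rw [← h4 p, star_mul', star_div₀, star_neg, star_natCast]
      ring
    rw [Finset.sum_congr rfl fun p _ => h7 p, ← Finset.mul_sum, h6]
    ring
  rw [h1, h5]
  ring

/-- Gaussian measure -/
noncomputable abbrev gam (n : ℕ) : Measure (Fin n × Fin n → ℝ) :=
  Measure.pi fun _ => gaussianReal 0 1

lemma integrable_coord (p : Fin n × Fin n) :
    Integrable (fun x : Fin n × Fin n → ℝ => ((x p : ℝ) : ℂ)) (gam n) := by
  have h : MeasurePreserving (fun x : Fin n × Fin n → ℝ => x p) (gam n) (gaussianReal 0 1) :=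
    measurePreserving_eval (fun _ => gaussianReal 0 1) p
  have h1 : Integrable (fun t : ℝ => (t : ℂ)) (gaussianReal 0 1) := by
    have h := (memLp_id_gaussianReal (μ := 0) (v := 1) 1)
    have h2 : Integrable (fun t : ℝ => t) (gaussianReal 0 1) := by
      exact (memLp_one_iff_integrable.1 (by simpa using h) :
        Integrable (id : ℝ → ℝ) (gaussianReal 0 1))
    exact h2.ofReal
  exact h.integrable_comp_of_integrable h1

lemma integral_identity (hn : 0 < n) {z : ℂ} (hz : 0 < z.im) :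
    ∫ x, (n : ℂ) * (Px z x * star (Px z x)) ∂(gam n) =
      ∫ x, (-(1 / (n : ℂ)) * (Rx z x * Rx z x).trace * star (Px z x) -
        star (z + 2 * mx z x) / n *
          ((2 / (n : ℂ)) * (Rx z x * ((Rx z x)ᴴ * (Rx z x)ᴴ)).trace)) ∂(gam n) := by
  have hn' : (n : ℂ) ≠ 0 := by exact_mod_cast hn.ne'
  have h1 : ∑ p, ∫ x, ((x p : ℝ) : ℂ) * Fp z p x ∂(gam n) = ∑ p, ∫ x, Fp' z p x ∂(gam n) := by
    refine Finset.sum_congr rfl fun p _ => ?_
    obtain ⟨C, hC⟩ := (nice_Fp (n := n) hz p).2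
    obtain ⟨C', hC'⟩ := (nice_Fp' (n := n) hz p).2
    exact Stein583.stein p (nice_Fp hz p).1.measurable (nice_Fp' hz p).1.measurable
      (fun x => hasDerivAt_Fp hz x p) hC hC'
  rw [← integral_finsetSum _ (fun p _ => ?_), ← integral_finsetSum _ (fun p _ => ?_)] at h1
  · simp only [sum_Fp hz, sum_Fp' hn hz] at h1
    have hR := niceM_Rx (n := n) hz
    have hP := nice_Px (n := n) hz
    have hm := nice_mx (n := n) hz
    have i1 : Integrable (fun x => ((n : ℂ) + z * (Rx z x).trace) * star (Px z x)) (gam n) :=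
      (((Nice.const _).add ((Nice.const z).mul hR.trace)).mul hP.star).integrable _
    have i2 : Integrable (fun x => (1 / (n : ℂ)) * ((Rx z x).trace * (Rx z x).trace) *
        star (Px z x)) (gam n) :=
      (((Nice.const _).mul (hR.trace.mul hR.trace)).mul hP.star).integrable _
    have i3 : Integrable (fun x => -(1 / (n : ℂ)) * ((Rx z x).trace * (Rx z x).trace +
        (Rx z x * Rx z x).trace) * star (Px z x) -
      star (z + 2 * mx z x) / n *
        ((2 / (n : ℂ)) * (Rx z x * ((Rx z x)ᴴ * (Rx z x)ᴴ)).trace)) (gam n) := by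
      refine Nice.integrable ?_ _
      simp only [sub_eq_add_neg, div_eq_mul_inv (star _)]
      refine Nice.add ?_ (Nice.neg ?_)
      · exact ((Nice.const _).mul ((hR.trace.mul hR.trace).add (hR.mul hR).trace)).mul hP.star
      · exact (((Nice.const z).add ((Nice.const 2).mul hm)).star.mul (Nice.const _)).mul
          ((Nice.const _).mul (hR.mul (hR.conjTranspose.mul hR.conjTranspose)).trace)
    have h2 : ∫ x, (n : ℂ) * (Px z x * star (Px z x)) ∂(gam n) =
        ∫ x, ((n : ℂ) + z * (Rx z x).trace) * star (Px z x) ∂(gam n) +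
        ∫ x, (1 / (n : ℂ)) * ((Rx z x).trace * (Rx z x).trace) * star (Px z x) ∂(gam n) := by
      rw [← integral_add i1 i2]
      refine integral_congr_ae (Filter.Eventually.of_forall fun x => ?_)
      simp only
      have : (n : ℂ) * Px z x = n + z * (Rx z x).trace + 1 / (n : ℂ) *
          ((Rx z x).trace * (Rx z x).trace) := by
        unfold Px mx
        field_simp
      rw [← mul_assoc, this]
      ring
    rw [h2, h1, ← integral_add i3 i2]
    refine integral_congr_ae (Filter.Eventually.of_forall fun x => ?_)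
    simp only
    ring
  · exact (nice_Fp' hz p).integrable _
  · obtain ⟨hc, C, hC⟩ := nice_Fp (n := n) hz p
    have := (integrable_coord p).bdd_mul (c := C) hc.measurable.aestronglyMeasurable
      (Filter.Eventually.of_forall hC)
    refine this.congr (Filter.Eventually.of_forall fun x => ?_)
    simp only
    ring

end goe

end Crest.Agent.R166.Goe583
end

-- ▼ part R166/GoeLLc_583
section

/-!
Row 166 (helper583), section 60.1, part 3: `E |1 + z m + m²|² ≤ 60 / K²` and `ImLimO`.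
-/

set_option autoImplicit false

open MeasureTheory ProbabilityTheory Matrix
open Crest.ProbabilityR.RandomMatrix

namespace Crest.Agent.R166.Goe583

open Res789 (cx imM)

/-- scalar inequality -/
lemma scalar_bound {a μ k : ℝ} (ha : 0 ≤ a) (hμ : 0 ≤ μ) (hk : 0 ≤ k) (hk1 : k ≤ 1 / 10)
    (h : μ ^ 2 ≤ 2 * a + 3) :
    μ * a * k + 2 * ((1 + 2 * μ) * μ) * k ^ 2 ≤ 3 / 5 * a ^ 2 + 21 * k ^ 2 := by
  have h1 : μ ≤ (1 + μ ^ 2) / 2 := by nlinarith [sq_nonneg (μ - 1)]
  have h2 : μ ≤ a + 2 := by linarith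
  have h3 : μ * a * k ≤ (a + 2) * a * k :=
    mul_le_mul_of_nonneg_right (mul_le_mul_of_nonneg_right h2 ha) hk
  have h4 : a ^ 2 * k ≤ a ^ 2 * (1 / 10) := mul_le_mul_of_nonneg_left hk1 (sq_nonneg a)
  have h5 : 2 * a * k ≤ a ^ 2 / 4 + 4 * k ^ 2 := by nlinarith [sq_nonneg (a / 2 - 2 * k)]
  have h6 : 2 * ((1 + 2 * μ) * μ) ≤ 16 + 10 * a := by nlinarith
  have h7 : 2 * ((1 + 2 * μ) * μ) * k ^ 2 ≤ (16 + 10 * a) * k ^ 2 :=
    mul_le_mul_of_nonneg_right h6 (sq_nonneg k)
  have h8 : 10 * a * k ^ 2 ≤ a * k := by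
    have : k ^ 2 ≤ k * (1 / 10) := by nlinarith
    nlinarith
  have h9 : a * k ≤ a ^ 2 / 4 + k ^ 2 := by nlinarith [sq_nonneg (a / 2 - k)]
  nlinarith

section goe

variable {n : ℕ}

lemma mx_im_nonneg {z : ℂ} (hz : 0 < z.im) (x : Fin n × Fin n → ℝ) : 0 ≤ (mx z x).im := by
  unfold mx
  have h := hs_res (Hx_symm x) hz
  have h2 : 0 ≤ hs (Res789.Res (Hx x) z) :=
    Finset.sum_nonneg fun _ _ => Finset.sum_nonneg fun _ _ => by positivity
  rw [Complex.div_natCast_im]
  unfold Rx
  rw [← h]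
  positivity

lemma hs_le (hn : 0 < n) {z : ℂ} (hz : 0 < z.im) (x : Fin n × Fin n → ℝ) :
    hs (Rx z x) ≤ n * ‖mx z x‖ / z.im := by
  have hn' : (0 : ℝ) < n := by exact_mod_cast hn
  have h := hs_res (Hx_symm x) hz
  rw [le_div_iff₀ hz, mul_comm]
  unfold Rx
  rw [h]
  have h2 : (Res789.Res (Hx x) z).trace = n * mx z x := by
    have hne : (n : ℂ) ≠ 0 := by exact_mod_cast hn.ne'
    unfold mx Rx
    rw [mul_div_cancel₀ _ hne]
  rw [h2]
  refine (le_abs_self _).trans ((Complex.abs_im_le_norm _).trans ?_)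
  rw [norm_mul, Complex.norm_natCast]

lemma mx_sq_le {z : ℂ} (hz1 : ‖z‖ ≤ 1) (x : Fin n × Fin n → ℝ) :
    ‖mx z x‖ ^ 2 ≤ 2 * ‖Px z x‖ + 3 := by
  have h1 : mx z x * mx z x = Px z x - 1 - z * mx z x := by unfold Px; ring
  have h2 : ‖mx z x‖ ^ 2 ≤ ‖Px z x‖ + 1 + ‖mx z x‖ := by
    calc ‖mx z x‖ ^ 2 = ‖mx z x * mx z x‖ := by rw [norm_mul, sq]
      _ = ‖Px z x - 1 - z * mx z x‖ := by rw [h1]
      _ ≤ ‖Px z x - 1‖ + ‖z * mx z x‖ := norm_sub_le _ _
      _ ≤ (‖Px z x‖ + 1) + ‖mx z x‖ := by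
        refine add_le_add ?_ ?_
        · exact (norm_sub_le _ _).trans (by simp)
        · rw [norm_mul]
          exact mul_le_of_le_one_left (norm_nonneg _) hz1
  nlinarith [sq_nonneg (‖mx z x‖ - 1)]

/-- **second moment bound** -/
theorem sq_bound (hn : 0 < n) {z : ℂ} (hz : 0 < z.im) (hz1 : ‖z‖ ≤ 1)
    (hK : 10 ≤ n * z.im) :
    ∫ x, ‖Px z x‖ ^ 2 ∂(gam n) ≤ 60 / (n * z.im) ^ 2 := by
  have hn' : (0 : ℝ) < n := by exact_mod_cast hn
  set K : ℝ := n * z.im with hKdef
  have hK0 : 0 < K := by linarith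
  set I : ℝ := ∫ x, ‖Px z x‖ ^ 2 ∂(gam n) with hI
  have hint : Integrable (fun x => ‖Px z x‖ ^ 2) (gam n) := by
    have h1 := ((nice_Px (n := n) hz).mul (nice_Px (n := n) hz).star).integrable (gam n)
    refine h1.norm.congr (Filter.Eventually.of_forall fun x => ?_)
    simp only
    rw [norm_mul, norm_star, sq]
  have e1 : ∫ x, (n : ℂ) * (Px z x * star (Px z x)) ∂(gam n) = ((n * I : ℝ) : ℂ) := by
    rw [hI, ← integral_const_mul, ← integral_complex_ofReal]
    refine integral_congr_ae (Filter.Eventually.of_forall fun x => ?_)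
    simp only
    rw [Complex.star_def, Complex.mul_conj, Complex.normSq_eq_norm_sq]
    push_cast
    ring
  have e2 := integral_identity hn hz
  rw [e1] at e2
  have hI0 : 0 ≤ I := integral_nonneg fun x => by positivity
  have e3 : n * I ≤ ∫ x, n * (3 / 5 * ‖Px z x‖ ^ 2 + 21 * (1 / K) ^ 2) ∂(gam n) := by
    have h1 : n * I = ‖((n * I : ℝ) : ℂ)‖ := by
      rw [Complex.norm_real, Real.norm_of_nonneg (by positivity)]
    rw [h1, e2]
    refine (norm_integral_le_integral_norm _).trans ?_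
    refine integral_mono_of_nonneg (Filter.Eventually.of_forall fun x => norm_nonneg _) ?_ ?_
    · exact ((hint.const_mul _).add (integrable_const _)).const_mul _
    · refine Filter.Eventually.of_forall fun x => ?_
      simp only
      have b1 := norm_trace_mul_le (Hx_symm x) hz
      have b2 := norm_trace_mul3_le (Hx_symm x) hz
      have b3 := hs_le hn hz x
      have b4 : ‖z + 2 * mx z x‖ ≤ 1 + 2 * ‖mx z x‖ := by
        refine (norm_add_le _ _).trans (add_le_add hz1 ?_)
        rw [norm_mul]; simp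
      set a := ‖Px z x‖ with ha
      set μ := ‖mx z x‖ with hμ
      have ha0 : 0 ≤ a := norm_nonneg _
      have hμ0 : 0 ≤ μ := norm_nonneg _
      have c1 : ‖-(1 / (n : ℂ)) * (Rx z x * Rx z x).trace * star (Px z x)‖ ≤
          n * (μ * a * (1 / K)) := by
        rw [norm_mul, norm_mul, norm_star, norm_neg, norm_div, norm_one, Complex.norm_natCast]
        have : ‖(Rx z x * Rx z x).trace‖ ≤ n * μ / z.im := b1.trans b3
        calc 1 / (n : ℝ) * ‖(Rx z x * Rx z x).trace‖ * a ≤ 1 / (n : ℝ) * (n * μ / z.im) * a := by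
              gcongr
          _ = n * (μ * a * (1 / K)) := by
              rw [hKdef]; field_simp
      have c2 : ‖star (z + 2 * mx z x) / n *
          ((2 / (n : ℂ)) * (Rx z x * ((Rx z x)ᴴ * (Rx z x)ᴴ)).trace)‖ ≤
          n * (2 * ((1 + 2 * μ) * μ) * (1 / K) ^ 2) := by
        rw [norm_mul, norm_mul, norm_div, norm_div, norm_star, Complex.norm_natCast]
        have h2 : ‖(2 : ℂ)‖ = 2 := by simp
        rw [h2]
        have : ‖(Rx z x * ((Rx z x)ᴴ * (Rx z x)ᴴ)).trace‖ ≤ (n * μ / z.im) / z.im :=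
          b2.trans (by gcongr; exact b3)
        calc ‖z + 2 * mx z x‖ / n * (2 / n * ‖(Rx z x * ((Rx z x)ᴴ * (Rx z x)ᴴ)).trace‖) ≤
            (1 + 2 * μ) / n * (2 / n * ((n * μ / z.im) / z.im)) := by
              gcongr
          _ = n * (2 * ((1 + 2 * μ) * μ) * (1 / K) ^ 2) := by
              rw [hKdef]; field_simp
      have c3 := scalar_bound (k := 1 / K) ha0 hμ0 (by positivity)
        (by rw [div_le_div_iff₀ hK0 (by norm_num)]; linarith) (mx_sq_le hz1 x)
      refine (norm_sub_le _ _).trans ((add_le_add c1 c2).trans ?_)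
      rw [← mul_add]
      exact mul_le_mul_of_nonneg_left c3 hn'.le
  have e4 : ∫ x, n * (3 / 5 * ‖Px z x‖ ^ 2 + 21 * (1 / K) ^ 2) ∂(gam n) =
      n * (3 / 5 * I + 21 * (1 / K) ^ 2) := by
    rw [integral_const_mul, integral_add (hint.const_mul _) (integrable_const _),
      integral_const_mul, integral_const]
    simp [hI]
  rw [e4] at e3
  have e5 : I ≤ 3 / 5 * I + 21 * (1 / K) ^ 2 := le_of_mul_le_mul_left e3 hn'
  have e6 : 60 / K ^ 2 = 60 * (1 / K) ^ 2 := by field_simp
  rw [e6]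
  nlinarith [sq_nonneg (1 / K)]

/-- stability at the energy `0` -/
lemma dist_I_le {z : ℂ} {η : ℝ} (hz : z = Complex.I * (η : ℂ)) (hη : 0 < η) (hη1 : η ≤ 1 / 2)
    (x : Fin n × Fin n → ℝ) : ‖mx z x - Complex.I‖ ≤ 2 * ‖Px z x‖ + 2 * η := by
  have hzim : 0 < z.im := by rw [hz]; simpa using hη
  have hzn : ‖z‖ = η := by rw [hz]; simp [abs_of_pos hη]
  have h1 : (mx z x - Complex.I) * (mx z x + Complex.I) = Px z x - z * mx z x := by
    unfold Px
    ring_nf
    rw [Complex.I_sq]
    ring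
  have h2 : 1 ≤ ‖mx z x + Complex.I‖ := by
    have h3 : (mx z x + Complex.I).im = (mx z x).im + 1 := by simp
    have h4 := mx_im_nonneg hzim x
    calc (1 : ℝ) ≤ (mx z x + Complex.I).im := by rw [h3]; linarith
      _ ≤ |(mx z x + Complex.I).im| := le_abs_self _
      _ ≤ _ := Complex.abs_im_le_norm _
  have h5 : ‖mx z x - Complex.I‖ ≤ ‖Px z x‖ + η * ‖mx z x‖ := by
    calc ‖mx z x - Complex.I‖ ≤ ‖mx z x - Complex.I‖ * ‖mx z x + Complex.I‖ :=
          le_mul_of_one_le_right (norm_nonneg _) h2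
      _ = ‖Px z x - z * mx z x‖ := by rw [← norm_mul, h1]
      _ ≤ ‖Px z x‖ + ‖z * mx z x‖ := norm_sub_le _ _
      _ = ‖Px z x‖ + η * ‖mx z x‖ := by rw [norm_mul, hzn]
  have h6 : ‖mx z x‖ ≤ 1 + ‖mx z x - Complex.I‖ := by
    calc ‖mx z x‖ = ‖Complex.I + (mx z x - Complex.I)‖ := by congr 1; ring
      _ ≤ ‖Complex.I‖ + ‖mx z x - Complex.I‖ := norm_add_le _ _
      _ = _ := by rw [Complex.norm_I]
  have h7 : 0 ≤ ‖mx z x - Complex.I‖ := norm_nonneg _
  nlinarith

end goe

/-- **The GOE local law** (section 60.1). -/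
theorem imLimO : ImLimO := by
  intro ε hε
  refine ⟨10 + 96 / ε ^ 3, by positivity, fun K hK => ?_⟩
  have hK10 : 10 ≤ K := by
    have : 0 < 96 / ε ^ 3 := by positivity
    linarith
  have hK0 : 0 < K := by linarith
  refine ⟨⌈K * (2 + 8 / ε)⌉₊ + 1, fun n hn => ?_⟩
  have hn0 : 0 < n := by omega
  have hn' : (0 : ℝ) < n := by exact_mod_cast hn0
  have hn2 : K * (2 + 8 / ε) ≤ n := by
    refine (Nat.le_ceil _).trans ?_
    have : ⌈K * (2 + 8 / ε)⌉₊ ≤ n := by omega
    exact_mod_cast this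
  set z : ℂ := zz 0 K n with hzdef
  set η : ℝ := K / n with hη
  have hη0 : 0 < η := by positivity
  have hz : z = Complex.I * (η : ℂ) := by
    rw [hzdef, zz]; simp [hη]
  have hη1 : η ≤ 1 / 2 := by
    rw [hη, div_le_div_iff₀ hn' (by norm_num)]
    have : 0 < K * (8 / ε) := by positivity
    nlinarith
  have hη2 : η ≤ ε / 8 := by
    rw [hη, div_le_div_iff₀ hn' (by norm_num)]
    have h1 : K * (8 / ε) ≤ n := by nlinarith
    have h2 : K * (8 / ε) * ε = K * 8 := by field_simp
    nlinarith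
  have hzim : z.im = η := by rw [hz]; simp
  have hz0 : 0 < z.im := by rw [hzim]; exact hη0
  have hzn : ‖z‖ ≤ 1 := by
    rw [hz]
    simp only [norm_mul, Complex.norm_I, one_mul, Complex.norm_real, Real.norm_eq_abs,
      abs_of_pos hη0]
    linarith
  have hKn : n * z.im = K := by rw [hzim, hη]; field_simp
  have hsq := sq_bound hn0 hz0 hzn (by rw [hKn]; exact hK10)
  rw [hKn] at hsq
  -- the set in uncurried form
  have hset : {g : GOEDisorder n | ε < ‖mn (goeMatrix g) z - Complex.I‖} =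
      (fun (g : Fin n → Fin n → ℝ) (p : Fin n × Fin n) => g p.1 p.2) ⁻¹'
        {x | ε < ‖mx z x - Complex.I‖} := rfl
  have hmeas : MeasurableSet {x : Fin n × Fin n → ℝ | ε < ‖mx z x - Complex.I‖} :=
    measurableSet_lt measurable_const
      (((nice_mx hz0).1.sub continuous_const).norm.measurable)
  have h1 : (goeDisorderLaw n) {g | ε < ‖mn (goeMatrix g) z - Complex.I‖} =
      (gam n) {x | ε < ‖mx z x - Complex.I‖} := by
    rw [hset]
    have h2 := Gauss286.gm_map_uncurry (ι := Fin n) (κ := Fin n)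
    have h3 : (goeDisorderLaw n).map
        (fun (g : Fin n → Fin n → ℝ) (p : Fin n × Fin n) => g p.1 p.2) = gam n := h2
    rw [← h3, Measure.map_apply Gauss286.measurable_uncurry' hmeas]
  rw [h1]
  have h4 : {x : Fin n × Fin n → ℝ | ε < ‖mx z x - Complex.I‖} ⊆
      {x | (ε / 4) ^ 2 ≤ ‖Px z x‖ ^ 2} := by
    intro x hx
    change ε < ‖mx z x - Complex.I‖ at hx
    change (ε / 4) ^ 2 ≤ ‖Px z x‖ ^ 2
    have h5 := dist_I_le hz hη0 hη1 x
    have h6 : ε / 4 ≤ ‖Px z x‖ := by linarith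
    exact pow_le_pow_left₀ (by positivity) h6 2
  have hint : Integrable (fun x => ‖Px z x‖ ^ 2) (gam n) := by
    have h1 := ((nice_Px (n := n) hz0).mul (nice_Px (n := n) hz0).star).integrable (gam n)
    refine h1.norm.congr (Filter.Eventually.of_forall fun x => ?_)
    simp only
    rw [norm_mul, norm_star, sq]
  have h7 := mul_meas_ge_le_integral_of_nonneg
    (Filter.Eventually.of_forall fun x => by positivity : 0 ≤ᵐ[gam n] fun x => ‖Px z x‖ ^ 2)
    hint ((ε / 4) ^ 2)
  have h8 : (gam n).real {x | (ε / 4) ^ 2 ≤ ‖Px z x‖ ^ 2} ≤ ε := by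
    have h9 : (ε / 4) ^ 2 * (gam n).real {x | (ε / 4) ^ 2 ≤ ‖Px z x‖ ^ 2} ≤ 60 / K ^ 2 :=
      h7.trans hsq
    have h10 : 60 / K ^ 2 ≤ (ε / 4) ^ 2 * ε := by
      rw [div_le_iff₀ (by positivity)]
      have h11 : 96 / ε ^ 3 ≤ K := by linarith
      have h12 : 96 ≤ K * ε ^ 3 := by rwa [div_le_iff₀ (by positivity)] at h11
      have h13 : 96 * 10 ≤ K * ε ^ 3 * K := by nlinarith
      nlinarith
    exact le_of_mul_le_mul_left (h9.trans h10) (by positivity)
  calc (gam n) {x | ε < ‖mx z x - Complex.I‖} ≤ (gam n) {x | (ε / 4) ^ 2 ≤ ‖Px z x‖ ^ 2} :=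
        measure_mono h4
    _ = ENNReal.ofReal ((gam n).real {x | (ε / 4) ^ 2 ≤ ‖Px z x‖ ^ 2}) := by
        rw [measureReal_def, ENNReal.ofReal_toReal (measure_ne_top _ _)]
    _ ≤ ENNReal.ofReal ε := ENNReal.ofReal_le_ofReal h8

end Crest.Agent.R166.Goe583
end

-- ▼ part R166/LapFun_8
section

/-!
Row 166, (52a): the Laplace functional of the eigenvalues is a continuous function of the
Cayley transform (helper8).
`lapFunExists : LapFunExists`.
-/

set_option autoImplicit false

noncomputable section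

namespace Crest.Agent.R166.Rec8
open Matrix Gen85 Cl85
open scoped Matrix.Norms.L2Operator

variable {m : ℕ}

lemma contOn (φ : ℂ → ℂ) (hφ : ContinuousOn φ (Metric.sphere 0 1)) :
    ContinuousOn (fun U : Matrix (Fin m) (Fin m) ℂ => (cfc φ U).trace)
      (unitaryGroup (Fin m) ℂ : Set (Matrix (Fin m) (Fin m) ℂ)) := by
  have h1 := continuousOn_cfc (Matrix (Fin m) (Fin m) ℂ) (isCompact_sphere (0:ℂ) 1) φ hφ
  have h2 : ContinuousOn (cfc φ) (unitaryGroup (Fin m) ℂ : Set (Matrix (Fin m) (Fin m) ℂ)) := by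
    refine h1.mono ?_
    intro U hU
    have hU' : U ∈ unitary (Matrix (Fin m) (Fin m) ℂ) := hU
    exact ⟨isStarNormal_of_mem_unitary hU', spectrum.subset_circle_of_unitary hU'⟩
  exact (Continuous.matrix_trace continuous_id).comp_continuousOn h2

/-- `x ↦ V diag(x) V*` -/
def DHom (V : unitaryGroup (Fin m) ℂ) : (Fin m → ℂ) →⋆ₐ[ℂ] Matrix (Fin m) (Fin m) ℂ where
  toFun x := (V : Matrix (Fin m) (Fin m) ℂ) * diagonal x * star (V : Matrix (Fin m) (Fin m) ℂ)
  map_one' := by
    rw [show (diagonal (1 : Fin m → ℂ)) = 1 from diagonal_one, Matrix.mul_one]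
    exact Unitary.coe_mul_star_self V
  map_mul' x y := by
    have h : star (V : Matrix (Fin m) (Fin m) ℂ) * (V : Matrix (Fin m) (Fin m) ℂ) = 1 :=
      Unitary.coe_star_mul_self V
    have h2 : diagonal (x * y) = diagonal x * diagonal y := by
      rw [diagonal_mul_diagonal]; rfl
    rw [h2]
    calc (V : Matrix (Fin m) (Fin m) ℂ) * (diagonal x * diagonal y) * star (V : Matrix (Fin m) (Fin m) ℂ)
        = (V : Matrix (Fin m) (Fin m) ℂ) * diagonal x * 1 * diagonal y * star (V : Matrix (Fin m) (Fin m) ℂ) := by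
          simp only [Matrix.mul_assoc, Matrix.mul_one]
      _ = _ := by rw [← h]; simp only [Matrix.mul_assoc]
  map_zero' := by
    rw [show (diagonal (0 : Fin m → ℂ)) = 0 from diagonal_zero, Matrix.mul_zero, Matrix.zero_mul]
  map_add' x y := by
    rw [show (diagonal (x + y)) = diagonal x + diagonal y from (diagonal_add x y).symm,
      Matrix.mul_add, Matrix.add_mul]
  commutes' r := by
    have h2 : diagonal ((algebraMap ℂ (Fin m → ℂ)) r) = r • (1 : Matrix (Fin m) (Fin m) ℂ) := by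
      ext i j
      simp [diagonal_apply, one_apply]
    rw [h2, Matrix.mul_smul, Matrix.mul_one, Matrix.smul_mul]
    rw [show (V : Matrix (Fin m) (Fin m) ℂ) * star (V : Matrix (Fin m) (Fin m) ℂ) = 1 from Unitary.coe_mul_star_self V]
    exact (Algebra.algebraMap_eq_smul_one r).symm
  map_star' x := by
    have h2 : diagonal (star x) = star (diagonal x) := by
      rw [star_eq_conjTranspose, diagonal_conjTranspose]
    rw [h2, star_mul, star_mul, star_star, mul_assoc]

lemma DHom_apply (V : unitaryGroup (Fin m) ℂ) (x : Fin m → ℂ) :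
    DHom V x = (V : Matrix (Fin m) (Fin m) ℂ) * diagonal x * star (V : Matrix (Fin m) (Fin m) ℂ) := rfl

lemma DHom_cont (V : unitaryGroup (Fin m) ℂ) : Continuous (DHom V) := by
  have : (DHom V : (Fin m → ℂ) → Matrix (Fin m) (Fin m) ℂ) = fun x => (V : Matrix (Fin m) (Fin m) ℂ) * diagonal x * star (V : Matrix (Fin m) (Fin m) ℂ) := rfl
  rw [this]
  exact (continuous_const.matrix_mul (Continuous.matrix_diagonal continuous_id)).matrix_mul continuous_const

lemma DHom_trace (V : unitaryGroup (Fin m) ℂ) (x : Fin m → ℂ) :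
    (DHom V x).trace = ∑ i, x i := by
  rw [DHom_apply, Matrix.trace_mul_comm, ← Matrix.mul_assoc]
  rw [show star (V : Matrix (Fin m) (Fin m) ℂ) * (V : Matrix (Fin m) (Fin m) ℂ) = 1 from Unitary.coe_star_mul_self V]
  rw [Matrix.one_mul, trace_diagonal]

lemma cfc_DHom (V : unitaryGroup (Fin m) ℂ) (x : Fin m → ℂ) (φ : ℂ → ℂ) 
    (hx : ∀ i, x i ∈ Metric.sphere (0:ℂ) 1) (hφ : ContinuousOn φ (Metric.sphere 0 1)) :
    cfc φ (DHom V x) = DHom V (fun i => φ (x i)) := by
  have hspec : spectrum ℂ x ⊆ Metric.sphere 0 1 := by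
    rw [Pi.spectrum_eq]
    intro z hz
    obtain ⟨i, hi⟩ := Set.mem_iUnion.mp hz
    have : z = x i := by
      have := spectrum.algebraMap_mem_iff ℂ (r := z) (a := x i)
      have h3 : spectrum ℂ (x i) = {x i} := by
        ext w
        rw [spectrum.mem_iff, Set.mem_singleton_iff, isUnit_iff_ne_zero, not_not, sub_eq_zero]
        rfl
      rw [h3] at hi
      exact hi
    rw [this]; exact hx i
  have h1 := (DHom V).map_cfc φ x (hφ.mono hspec) (DHom_cont V) ⟨by rw [commute_iff_eq, mul_comm]⟩ 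
    (by
      refine isStarNormal_of_mem_unitary ?_
      rw [Unitary.mem_iff]
      have hs : star x * x = 1 := by
        ext i
        have := hx i
        rw [mem_sphere_zero_iff_norm] at this
        simp only [Pi.mul_apply, Pi.star_apply, RCLike.star_def, Pi.one_apply]
        rw [mul_comm, Complex.mul_conj, Complex.normSq_eq_norm_sq, this]; norm_num
      constructor
      · rw [← map_star, ← map_mul, hs, map_one]
      · rw [← map_star, ← map_mul, mul_comm, hs, map_one])
  rw [← h1]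
  congr 1
  rw [cfc_map_pi (S := ℂ) (p := IsStarNormal) (q := fun _ => IsStarNormal) φ x
    (by rw [← Pi.spectrum_eq]; exact hφ.mono hspec) ⟨by rw [commute_iff_eq, mul_comm]⟩
    (fun i => ⟨by rw [commute_iff_eq, mul_comm]⟩)]
  funext i
  have := cfc_algebraMap (R := ℂ) (A := ℂ) (p := IsStarNormal) (x i) φ
  simpa using this

/-- diagonalisation of a real symmetric matrix over `ℂ` -/
lemma exists_DHom {C : Matrix (Fin m) (Fin m) ℝ} (hC : C.IsHermitian) :
    ∃ V : unitaryGroup (Fin m) ℂ, toC C = DHom V (fun i => (hC.eigenvalues i : ℂ)) := by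
  have hV := hC.eigenvectorUnitary.2
  set V0 : Matrix (Fin m) (Fin m) ℝ := (↑(hC.eigenvectorUnitary) : Matrix (Fin m) (Fin m) ℝ) with hV0
  have h1 : V0 * V0ᵀ = 1 := by
    have := Unitary.mul_star_self_of_mem hV
    rwa [star_eq_conjTranspose, conjTranspose_eq_transpose_of_trivial] at this
  have h2 : V0ᵀ * V0 = 1 := by
    have := Unitary.star_mul_self_of_mem hV
    rwa [star_eq_conjTranspose, conjTranspose_eq_transpose_of_trivial] at this
  have hst : star (toC V0) = toC V0ᵀ := by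
    rw [star_eq_conjTranspose, toC_conjTranspose]
  refine ⟨⟨toC V0, ?_⟩, ?_⟩
  · rw [mem_unitaryGroup_iff, hst, ← toC_mul, h1, toC_one]
  · rw [DHom_apply]
    have h3 := hC.spectral_theorem
    rw [Unitary.conjStarAlgAut_apply] at h3
    rw [← hV0] at h3
    conv_lhs => rw [h3]
    rw [toC_mul, toC_mul]
    congr 1
    · congr 1
      ext i j
      simp [toC, diagonal_apply]
      split_ifs <;> simp
    · rw [hst, star_eq_conjTranspose, conjTranspose_eq_transpose_of_trivial]

lemma Cay_eq_DHom {C : Matrix (Fin m) (Fin m) ℝ} (hC : C.IsHermitian) :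
    ∃ V : unitaryGroup (Fin m) ℂ, Cay C = DHom V (fun i => ((hC.eigenvalues i : ℂ) - Complex.I) *
      ((hC.eigenvalues i : ℂ) + Complex.I)⁻¹) := by
  obtain ⟨V, hV⟩ := exists_DHom hC
  refine ⟨V, ?_⟩
  have hI : Complex.I • (1 : Matrix (Fin m) (Fin m) ℂ) = DHom V (fun _ => Complex.I) := by
    have := (DHom V).commutes' Complex.I
    rw [Algebra.algebraMap_eq_smul_one, Algebra.algebraMap_eq_smul_one] at this
    rw [← this]
    show DHom V _ = DHom V _
    congr 1
    funext i
    simp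
  have hne : ∀ c : ℝ, (c : ℂ) + Complex.I ≠ 0 := by
    intro c h
    have := congrArg Complex.im h
    simp at this
  have hinv : (toC C + Complex.I • (1 : Matrix (Fin m) (Fin m) ℂ))⁻¹ =
      DHom V (fun i => ((hC.eigenvalues i : ℂ) + Complex.I)⁻¹) := by
    apply Matrix.inv_eq_right_inv
    rw [hV, hI, ← map_add, ← map_mul, ← map_one (DHom V)]
    congr 1
    funext i
    simp only [Pi.mul_apply, Pi.add_apply, Pi.one_apply]
    exact mul_inv_cancel₀ (hne _)
  rw [Cay_def, Wi, hinv, hI, hV, ← map_sub, ← map_mul]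
  congr 1

/-- the function on the circle -/
def phi (h : ℝ → ℝ) (m : ℕ) (u : ℂ) : ℂ := by
  classical exact if u = -1 then 0 else
    (h ((m : ℝ) / Real.pi * (-Complex.I * (1 - u) / (1 + u)).re) : ℂ)

lemma w_im {u : ℂ} (hu : ‖u‖ = 1) : (-Complex.I * (1 - u) / (1 + u)).im = 0 := by
  rcases eq_or_ne u (-1) with h1 | h1
  · rw [h1]; simp
  have h1' : (1 + u) ≠ 0 := by
    intro h; exact h1 (by linear_combination h)
  have hu0 : u ≠ 0 := by
    intro h; rw [h, norm_zero] at hu; exact zero_ne_one hu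
  have hc : (starRingEnd ℂ) u = u⁻¹ := by
    rw [Complex.inv_def, Complex.normSq_eq_norm_sq, hu]; simp
  rw [← Complex.conj_eq_iff_im]
  rw [map_div₀, map_mul, map_neg, Complex.conj_I, map_sub, map_add, map_one, hc]
  have h2 : (1 + u⁻¹) ≠ 0 := by
    intro h
    apply h1'
    have : u * (1 + u⁻¹) = 0 := by rw [h, mul_zero]
    rw [mul_add, mul_one, mul_inv_cancel₀ hu0] at this
    rw [add_comm]; exact this
  rw [div_eq_div_iff h2 h1']
  field_simp
  ring

lemma phi_cont (h : ℝ → ℝ) (hc : Continuous h) (hs : HasCompactSupport h) (m : ℕ) (hm : 0 < m) :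
    ContinuousOn (phi h m) (Metric.sphere 0 1) := by
  obtain ⟨R, hR⟩ : ∃ R : ℝ, ∀ t, R < |t| → h t = 0 := by
    obtain ⟨R, hR⟩ := hs.isCompact.isBounded.exists_norm_le
    refine ⟨R, fun t ht => ?_⟩
    by_contra h0
    have := hR t (subset_tsupport h h0)
    rw [Real.norm_eq_abs] at this
    linarith
  have hmpos : (0:ℝ) < m := by exact_mod_cast hm
  intro u hu
  have hu1 : ‖u‖ = 1 := by simpa using hu
  rcases eq_or_ne u (-1) with h1 | h1
  · -- near -1
    subst h1
    have hz : ∀ᶠ v in nhdsWithin (-1 : ℂ) (Metric.sphere 0 1), phi h m v = 0 := by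
      set r : ℝ := min 1 ((m : ℝ) / Real.pi / (|R| + 1)) with hr
      have hrpos : 0 < r := lt_min one_pos (by positivity)
      filter_upwards [inter_mem_nhdsWithin _ (Metric.ball_mem_nhds (-1 : ℂ) hrpos)] with v hv
      obtain ⟨hv1, hv2⟩ := hv
      have hvn : ‖v‖ = 1 := by simpa using hv1
      rw [Metric.mem_ball, dist_eq_norm] at hv2
      unfold phi
      split_ifs with h3
      · rfl
      have h3' : (1 + v) ≠ 0 := by
        intro h; exact h3 (by linear_combination h)
      have h4 : |(-Complex.I * (1 - v) / (1 + v)).re| = ‖(-Complex.I * (1 - v) / (1 + v))‖ := by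
        rw [Complex.abs_re_eq_norm]
        exact w_im hvn
      have h5 : ‖1 + v‖ < r := by
        have : 1 + v = v - (-1) := by ring
        rw [this]; exact hv2
      have h6 : 1 ≤ ‖1 - v‖ := by
        have h7 : (2 : ℂ) = (1 - v) + (1 + v) := by ring
        have h8 : (2 : ℝ) = ‖(2:ℂ)‖ := by simp
        have h9 : ‖(2:ℂ)‖ ≤ ‖1 - v‖ + ‖1 + v‖ := by
          conv_lhs => rw [h7]
          exact norm_add_le _ _
        have h10 : r ≤ 1 := min_le_left _ _
        linarith
      have h11 : 0 < ‖1 + v‖ := norm_pos_iff.mpr h3'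
      have h12 : ‖(-Complex.I * (1 - v) / (1 + v))‖ = ‖1 - v‖ / ‖1 + v‖ := by
        rw [norm_div, norm_mul, norm_neg, Complex.norm_I, one_mul]
      have h13 : (h ((m : ℝ) / Real.pi * (-Complex.I * (1 - v) / (1 + v)).re)) = 0 := by
        apply hR
        rw [abs_mul, h4, h12, abs_of_pos (by positivity : (0:ℝ) < (m:ℝ) / Real.pi)]
        have h14 : r ≤ (m : ℝ) / Real.pi / (|R| + 1) := min_le_right _ _
        have h15 : 1 / ‖1 + v‖ ≤ ‖1 - v‖ / ‖1 + v‖ := by gcongr
        have h16 : 1 / r < 1 / ‖1 + v‖ := one_div_lt_one_div_of_lt h11 h5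
        have h17 : (m : ℝ) / Real.pi * (1 / r) ≥ |R| + 1 := by
          have h18 : (0:ℝ) < |R| + 1 := by positivity
          have h19 : r * (|R| + 1) ≤ (m : ℝ) / Real.pi := by
            rwa [le_div_iff₀ h18] at h14
          rw [ge_iff_le, mul_one_div, le_div_iff₀ hrpos]
          linarith
        have h20 : (m : ℝ) / Real.pi * (1 / r) ≤ (m : ℝ) / Real.pi * (‖1 - v‖ / ‖1 + v‖) := by
          apply mul_le_mul_of_nonneg_left (by linarith) (by positivity)
        have h21 := le_abs_self R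
        linarith
      rw [h13]; simp
    have h0 : phi h m (-1) = 0 := by unfold phi; simp
    unfold ContinuousWithinAt
    rw [h0]
    exact (Filter.tendsto_congr' hz).mpr tendsto_const_nhds
  · -- away
    apply ContinuousAt.continuousWithinAt
    have h1' : (1 + u) ≠ 0 := by
      intro h; exact h1 (by linear_combination h)
    have h2 : (phi h m) =ᶠ[nhds u] fun v =>
        (h ((m : ℝ) / Real.pi * (-Complex.I * (1 - v) / (1 + v)).re) : ℂ) := by
      filter_upwards [isOpen_ne.mem_nhds h1] with v hv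
      unfold phi
      rw [if_neg hv]
    rw [continuousAt_congr h2]
    apply Complex.continuous_ofReal.continuousAt.comp
    apply hc.continuousAt.comp
    apply ContinuousAt.mul continuousAt_const
    apply Complex.continuous_re.continuousAt.comp
    apply ContinuousAt.div
    · fun_prop
    · fun_prop
    · exact h1'

lemma phi_val (h : ℝ → ℝ) (m : ℕ) (c : ℝ) :
    phi h m (((c : ℂ) - Complex.I) * ((c : ℂ) + Complex.I)⁻¹) =
      ((if c = 0 then 0 else h ((m : ℝ) / (Real.pi * c)) : ℝ) : ℂ) := by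
  have hne : (c : ℂ) + Complex.I ≠ 0 := by
    intro h
    have := congrArg Complex.im h
    simp at this
  have key : ((c : ℂ) - Complex.I) * ((c : ℂ) + Complex.I)⁻¹ = -1 ↔ c = 0 := by
    rw [← div_eq_mul_inv, div_eq_iff hne]
    constructor
    · intro h
      have := congrArg Complex.re h
      simp at this
      linarith
    · rintro rfl; simp
  unfold phi
  by_cases hc : c = 0
  · rw [if_pos (key.mpr hc), if_pos hc]; simp
  · rw [if_neg (fun h => hc (key.mp h)), if_neg hc]
    congr 2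
    have hcc : (c : ℂ) ≠ 0 := by exact_mod_cast hc
    have h1 : (1 + ((c : ℂ) - Complex.I) * ((c : ℂ) + Complex.I)⁻¹) = 2 * c * ((c : ℂ) + Complex.I)⁻¹ := by
      field_simp; ring
    have h2 : (1 - ((c : ℂ) - Complex.I) * ((c : ℂ) + Complex.I)⁻¹) = 2 * Complex.I * ((c : ℂ) + Complex.I)⁻¹ := by
      field_simp; ring
    have h3 : (-Complex.I * (1 - ((c : ℂ) - Complex.I) * ((c : ℂ) + Complex.I)⁻¹) / (1 + ((c : ℂ) - Complex.I) * ((c : ℂ) + Complex.I)⁻¹)) = ((1 / c : ℝ) : ℂ) := by
      rw [h1, h2]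
      have h4 : ((c : ℂ) + Complex.I)⁻¹ ≠ 0 := inv_ne_zero hne
      rw [div_eq_iff (by simp [hcc, h4])]
      push_cast
      field_simp
      linear_combination (-1 : ℂ) * Complex.I_sq
    rw [h3, Complex.ofReal_re]
    field_simp

theorem lapFunExists : LapFunExists := by
  intro h hc hs hpos m
  rcases Nat.eq_zero_or_pos m with hm | hm
  · subst hm
    refine ⟨fun _ => 1, continuous_const, ?_⟩
    intro C hC
    simp
  have hφ := phi_cont h hc hs m hm
  have hcont := contOn (m := m) (phi h m) hφ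
  have hclosed : IsClosed (unitaryGroup (Fin m) ℂ : Set (Matrix (Fin m) (Fin m) ℂ)) := by
    have : (unitaryGroup (Fin m) ℂ : Set (Matrix (Fin m) (Fin m) ℂ)) = {U | U * star U = 1} := by
      ext U
      exact mem_unitaryGroup_iff
    rw [this]
    exact isClosed_eq (by fun_prop) continuous_const
  set g0 : (unitaryGroup (Fin m) ℂ : Set (Matrix (Fin m) (Fin m) ℂ)) → ℝ := fun U => Real.exp (-(cfc (phi h m) (U : Matrix (Fin m) (Fin m) ℂ)).trace.re) with hg0
  have hg0c : Continuous g0 := by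
    apply Real.continuous_exp.comp
    apply Continuous.neg
    apply Complex.continuous_re.comp
    exact continuousOn_iff_continuous_domRestrict.mp hcont
  obtain ⟨F, hF⟩ := ContinuousMap.exists_restrict_eq hclosed ⟨g0, hg0c⟩
  refine ⟨F, F.continuous, ?_⟩
  intro C hC
  have hCt : Cᵀ = C := by
    have := hC.eq
    rwa [conjTranspose_eq_transpose_of_trivial] at this
  have hU := Cay_unitary hCt
  have h1 : F (Cay C) = g0 ⟨Cay C, hU⟩ := by
    have := congrArg (fun G => G ⟨Cay C, hU⟩) hF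
    change F (Cay C) = g0 ⟨Cay C, hU⟩ at this
    exact this
  rw [h1, hg0]
  simp only
  obtain ⟨V, hV⟩ := Cay_eq_DHom hC
  rw [hV, cfc_DHom V _ _ _ hφ, DHom_trace]
  · congr 1
    rw [Complex.re_sum]
    congr 1
    refine Finset.sum_congr rfl fun i _ => ?_
    rw [phi_val, Complex.ofReal_re]
  · intro i
    rw [mem_sphere_zero_iff_norm, norm_mul, norm_inv]
    have h2 : ‖((hC.eigenvalues i : ℂ) - Complex.I)‖ = ‖((hC.eigenvalues i : ℂ) + Complex.I)‖ := by
      rw [← Complex.norm_conj]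
      congr 1
      rw [map_sub, Complex.conj_ofReal, Complex.conj_I, sub_neg_eq_add]
    rw [h2]
    apply mul_inv_cancel₀
    rw [norm_ne_zero_iff]
    intro h
    have := congrArg Complex.im h
    simp at this

end Crest.Agent.R166.Rec8
end
end

-- ▼ part R166/Tight_8
section

/-!
Row 166, (52c): tightness of the one-dimensional test array (helper8).
`tightTest : TightTest`; `tail_bound` (pointwise in `x`), `first_moment`, `card_near`.
-/

set_option autoImplicit false
set_option linter.unusedSectionVars false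

noncomputable section

namespace Crest.Agent.R166.Rec8
open Matrix MeasureTheory ProbabilityTheory Gauss286 SpArr286

lemma int_coord_sq {ι : Type*} [Fintype ι] (i : ι) : ∫ x, (x i) ^ 2 ∂(gv ι) = 1 := by
  classical
  have h := lin_sq (ι := ι) (fun j => if j = i then 1 else 0)
  simp only [ite_mul, one_mul, zero_mul, Finset.sum_ite_eq', Finset.mem_univ, if_true] at h
  rw [h]
  simp [ite_pow]

lemma integrable_coord_sq {ι : Type*} [Fintype ι] (i : ι) : Integrable (fun x : ι → ℝ => (x i) ^ 2) (gv ι) := by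
  by_contra h
  have := int_coord_sq (ι := ι) i
  rw [integral_undef h] at this
  exact zero_ne_one this

lemma integrable_quad_diag_sq {ι : Type*} [Fintype ι] (a : ι → ℝ) :
    Integrable (fun x : ι → ℝ => (∑ i, a i * (x i ^ 2 - 1)) ^ 2) (gv ι) := by
  by_cases h0 : ∑ i, a i ^ 2 = 0
  · have h1 : ∀ i, a i = 0 := by
      intro i
      have := (Finset.sum_eq_zero_iff_of_nonneg (fun i _ => sq_nonneg (a i))).mp h0 i (Finset.mem_univ i)
      simpa using this
    simp [h1]
  · by_contra h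
    have := quad_diag (ι := ι) a
    rw [integral_undef h] at this
    apply h0
    linarith

/-- first moment bound for `∑ c_i x_i² - ∑ b_i` -/
lemma first_moment {ι : Type*} [Fintype ι] (c b : ι → ℝ) (F : ι → Prop) [DecidablePred F] :
    Integrable (fun x : ι → ℝ => |∑ i, c i * x i ^ 2 - ∑ i, b i|) (gv ι) ∧
    ∫ x, |∑ i, c i * x i ^ 2 - ∑ i, b i| ∂(gv ι) ≤
      (1 + 2 * ∑ i, (if F i then c i ^ 2 else 0)) / 2 + 
        ∑ i, (if F i then |c i - b i| else |c i| + |b i|) := by
  have hint : Integrable (fun x : ι → ℝ => |∑ i, c i * x i ^ 2 - ∑ i, b i|) (gv ι) := by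
    apply Integrable.abs
    apply Integrable.sub
    · exact integrable_finsetSum _ fun i _ => (integrable_coord_sq i).const_mul _
    · exact integrable_const _
  refine ⟨hint, ?_⟩
  set a : ι → ℝ := fun i => if F i then c i else 0 with ha
  have hpt : ∀ x : ι → ℝ, |∑ i, c i * x i ^ 2 - ∑ i, b i| ≤ (1 + (∑ i, a i * (x i ^ 2 - 1)) ^ 2) / 2 +
      ∑ i, (if F i then |c i - b i| else |c i| * x i ^ 2 + |b i|) := by
    intro x
    have h1 : ∑ i, c i * x i ^ 2 - ∑ i, b i = ∑ i, a i * (x i ^ 2 - 1) +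
        ∑ i, (if F i then c i - b i else c i * x i ^ 2 - b i) := by
      rw [← Finset.sum_sub_distrib, ← Finset.sum_add_distrib]
      refine Finset.sum_congr rfl fun i _ => ?_
      simp only [ha]
      split_ifs <;> ring
    rw [h1]
    refine (abs_add_le _ _).trans (add_le_add ?_ ?_)
    · have h2 := sq_nonneg (|∑ i, a i * (x i ^ 2 - 1)| - 1)
      have h3 := sq_abs (∑ i, a i * (x i ^ 2 - 1))
      nlinarith
    · refine (Finset.abs_sum_le_sum_abs _ _).trans (Finset.sum_le_sum fun i _ => ?_)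
      split_ifs
      · exact le_rfl
      · refine (abs_sub _ _).trans ?_
        rw [abs_mul, abs_of_nonneg (sq_nonneg (x i))]
  have hi1 : Integrable (fun x : ι → ℝ => (1 + (∑ i, a i * (x i ^ 2 - 1)) ^ 2) / 2) (gv ι) :=
    ((integrable_const _).add (integrable_quad_diag_sq a)).div_const _
  have hi2 : ∀ i, Integrable (fun x : ι → ℝ => (if F i then |c i - b i| else |c i| * x i ^ 2 + |b i|)) (gv ι) := by
    intro i
    split_ifs
    · exact integrable_const _
    · exact ((integrable_coord_sq i).const_mul _).add (integrable_const _)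
  calc ∫ x, |∑ i, c i * x i ^ 2 - ∑ i, b i| ∂(gv ι)
      ≤ ∫ x, ((1 + (∑ i, a i * (x i ^ 2 - 1)) ^ 2) / 2 +
      ∑ i, (if F i then |c i - b i| else |c i| * x i ^ 2 + |b i|)) ∂(gv ι) :=
        integral_mono hint (hi1.add (integrable_finsetSum _ fun i _ => hi2 i)) hpt
    _ = _ := by
        rw [integral_add hi1 (integrable_finsetSum _ fun i _ => hi2 i), integral_finsetSum _ fun i _ => hi2 i,
          integral_div, integral_add (integrable_const _) (integrable_quad_diag_sq a), quad_diag]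
        congr 1
        · simp only [integral_const, smul_eq_mul, mul_one, probReal_univ]
          congr 4
          funext i
          simp only [ha]
          split_ifs <;> simp
        · refine Finset.sum_congr rfl fun i _ => ?_
          split_ifs
          · simp
          · rw [integral_add ((integrable_coord_sq i).const_mul _) (integrable_const _), integral_const_mul, int_coord_sq]
            simp


/-- the deterministic sums -/
lemma tight_sums {ι : Type*} [Fintype ι] (y : ι → ℝ) {Y L δ τ x : ℝ} (hL : 0 < L) (hδ : 0 < δ) (hτ : 0 < τ)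
    (hY : ∑ i, L / (y i ^ 2 + L ^ 2) ≤ Y) (hx0 : 0 ≤ x) (hx1 : x ≤ δ)
    (hx : ∀ i, |y i| ≤ 2 * δ + L → τ ≤ |y i - x|) :
    (1 + 2 * ∑ i, (if 2 * δ + L < |y i| then ((y i - x)⁻¹) ^ 2 else 0)) / 2 + 
        ∑ i, (if 2 * δ + L < |y i| then |(y i - x)⁻¹ - y i / (y i ^ 2 + L ^ 2)| else
          |(y i - x)⁻¹| + |y i / (y i ^ 2 + L ^ 2)|) ≤
      (1 + 2 * (8 * (Y / L))) / 2 + (2 * L + 2 * δ + (1 / τ + 1 / L) * ((2 * δ + L) ^ 2 + L ^ 2)) * (Y / L) := by
  have hYL : ∑ i, 1 / (y i ^ 2 + L ^ 2) ≤ Y / L := by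
    rw [le_div_iff₀ hL, Finset.sum_mul]
    refine le_trans (le_of_eq ?_) hY
    refine Finset.sum_congr rfl fun i _ => by ring
  have hpos : ∀ i, 0 < y i ^ 2 + L ^ 2 := fun i => by positivity
  have key : ∀ i, 2 * δ + L < |y i| → |y i| / 2 ≤ |y i - x| ∧ L ^ 2 ≤ y i ^ 2 ∧ 0 < |y i| := by
    intro i hi
    have h1 : |y i| - |x| ≤ |y i - x| := abs_sub_abs_le_abs_sub _ _
    rw [abs_of_nonneg hx0] at h1
    refine ⟨by linarith, ?_, by linarith⟩
    rw [← sq_abs (y i)]
    exact pow_le_pow_left₀ hL.le (by linarith) 2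
  have h1 : ∑ i, (if 2 * δ + L < |y i| then ((y i - x)⁻¹) ^ 2 else 0) ≤ 8 * (Y / L) := by
    calc ∑ i, (if 2 * δ + L < |y i| then ((y i - x)⁻¹) ^ 2 else 0)
        ≤ ∑ i, 8 * (1 / (y i ^ 2 + L ^ 2)) := by
          refine Finset.sum_le_sum fun i _ => ?_
          split_ifs with hi
          · obtain ⟨h2, h3, h4⟩ := key i hi
            have h5 : y i ^ 2 / 4 ≤ (y i - x) ^ 2 := by
              have := pow_le_pow_left₀ (by positivity) h2 2
              rw [div_pow, sq_abs, sq_abs] at this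
              linarith
            have h6 : (y i ^ 2 + L ^ 2) / 8 ≤ (y i - x) ^ 2 := by linarith
            rw [inv_pow, mul_one_div]
            have h7 : (0:ℝ) < (y i ^ 2 + L ^ 2) / 8 := by have := hpos i; positivity
            have := inv_anti₀ h7 h6
            rwa [inv_div] at this
          · have := hpos i; positivity
      _ = 8 * ∑ i, 1 / (y i ^ 2 + L ^ 2) := by rw [Finset.mul_sum]
      _ ≤ _ := by linarith
  have h2 : ∑ i, (if 2 * δ + L < |y i| then |(y i - x)⁻¹ - y i / (y i ^ 2 + L ^ 2)| else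
          |(y i - x)⁻¹| + |y i / (y i ^ 2 + L ^ 2)|) ≤ 
      (2 * L + 2 * δ + (1 / τ + 1 / L) * ((2 * δ + L) ^ 2 + L ^ 2)) * (Y / L) := by
    calc _ ≤ ∑ i, (2 * L + 2 * δ + (1 / τ + 1 / L) * ((2 * δ + L) ^ 2 + L ^ 2)) * (1 / (y i ^ 2 + L ^ 2)) := by
          refine Finset.sum_le_sum fun i _ => ?_
          have hp := hpos i
          split_ifs with hi
          · obtain ⟨h3, h4, h5⟩ := key i hi
            have hne : y i - x ≠ 0 := by
              intro h0; rw [h0, abs_zero] at h3; linarith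
            have e1 : (y i - x)⁻¹ - y i / (y i ^ 2 + L ^ 2) = (L ^ 2 + x * y i) / ((y i - x) * (y i ^ 2 + L ^ 2)) := by
              rw [eq_div_iff (mul_ne_zero hne hp.ne')]
              field_simp
              ring
            rw [e1, abs_div, abs_mul, abs_of_pos hp, mul_one_div]
            rw [div_le_div_iff₀ (mul_pos (abs_pos.mpr hne) hp) hp]
            have h6 : |L ^ 2 + x * y i| ≤ (2 * L + 2 * δ) * |y i - x| := by
              have h7 : |L ^ 2 + x * y i| ≤ L ^ 2 + δ * |y i| := by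
                refine (abs_add_le _ _).trans ?_
                rw [abs_mul, abs_of_nonneg hx0, abs_of_nonneg (sq_nonneg L)]
                have : x * |y i| ≤ δ * |y i| := mul_le_mul_of_nonneg_right hx1 (abs_nonneg _)
                linarith
              have h8 : L ^ 2 ≤ L * |y i| := by
                rw [sq]; exact mul_le_mul_of_nonneg_left (by linarith) hL.le
              have h9 : (L + δ) * |y i| ≤ (L + δ) * (2 * |y i - x|) :=
                mul_le_mul_of_nonneg_left (by linarith) (by positivity)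
              nlinarith
            have h10 : (0:ℝ) ≤ (1 / τ + 1 / L) * ((2 * δ + L) ^ 2 + L ^ 2) := by positivity
            calc |L ^ 2 + x * y i| * (y i ^ 2 + L ^ 2) ≤ ((2 * L + 2 * δ) * |y i - x|) * (y i ^ 2 + L ^ 2) :=
                  mul_le_mul_of_nonneg_right h6 hp.le
              _ = (2 * L + 2 * δ) * (|y i - x| * (y i ^ 2 + L ^ 2)) := by ring
              _ ≤ _ := by
                  apply mul_le_mul_of_nonneg_right (by linarith)
                  positivity
          · have hi' : |y i| ≤ 2 * δ + L := not_lt.mp hi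
            have h3 : |(y i - x)⁻¹| ≤ 1 / τ := by
              rw [abs_inv, one_div]
              exact inv_anti₀ hτ (hx i hi')
            have h4 : |y i / (y i ^ 2 + L ^ 2)| ≤ 1 / L := by
              rw [abs_div, abs_of_pos hp, div_le_div_iff₀ hp hL]
              have := sq_nonneg (|y i| - L)
              have := sq_abs (y i)
              nlinarith [abs_nonneg (y i)]
            have h5 : y i ^ 2 + L ^ 2 ≤ (2 * δ + L) ^ 2 + L ^ 2 := by
              have := pow_le_pow_left₀ (abs_nonneg (y i)) hi' 2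
              rw [sq_abs] at this
              linarith
            have h6 : (1:ℝ) ≤ ((2 * δ + L) ^ 2 + L ^ 2) * (1 / (y i ^ 2 + L ^ 2)) := by
              rw [mul_one_div, le_div_iff₀ hp]; linarith
            have h7 : (0:ℝ) ≤ (2 * L + 2 * δ) * (1 / (y i ^ 2 + L ^ 2)) := by positivity
            have h8 : (0:ℝ) ≤ 1 / τ + 1 / L := by positivity
            have h9 := mul_le_mul_of_nonneg_left h6 h8
            nlinarith
      _ = (2 * L + 2 * δ + (1 / τ + 1 / L) * ((2 * δ + L) ^ 2 + L ^ 2)) * ∑ i, 1 / (y i ^ 2 + L ^ 2) := by rw [Finset.mul_sum]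
      _ ≤ _ := mul_le_mul_of_nonneg_left hYL (by positivity)
  linarith

/-- number of near points -/
lemma card_near {ι : Type*} [Fintype ι] (y : ι → ℝ) {Y L M : ℝ} (hL : 0 < L) 
    (hY : ∑ i, L / (y i ^ 2 + L ^ 2) ≤ Y) :
    ((Finset.univ.filter fun i => |y i| ≤ M).card : ℝ) ≤ (M ^ 2 + L ^ 2) * (Y / L) := by
  have hYL : ∑ i, 1 / (y i ^ 2 + L ^ 2) ≤ Y / L := by
    rw [le_div_iff₀ hL, Finset.sum_mul]
    refine le_trans (le_of_eq ?_) hY
    refine Finset.sum_congr rfl fun i _ => by ring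
  have hpos : ∀ i, 0 < y i ^ 2 + L ^ 2 := fun i => by positivity
  calc ((Finset.univ.filter fun i => |y i| ≤ M).card : ℝ) = ∑ i ∈ Finset.univ.filter (fun i => |y i| ≤ M), (1:ℝ) := by simp
    _ ≤ ∑ i ∈ Finset.univ.filter (fun i => |y i| ≤ M), (M ^ 2 + L ^ 2) * (1 / (y i ^ 2 + L ^ 2)) := by
        refine Finset.sum_le_sum fun i hi => ?_
        rw [Finset.mem_filter] at hi
        rw [mul_one_div, le_div_iff₀ (hpos i)]
        have := pow_le_pow_left₀ (abs_nonneg (y i)) hi.2 2
        rw [sq_abs] at this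
        linarith
    _ ≤ ∑ i, (M ^ 2 + L ^ 2) * (1 / (y i ^ 2 + L ^ 2)) := by
        apply Finset.sum_le_sum_of_subset_of_nonneg (Finset.filter_subset _ _)
        intro i _ _
        have := hpos i
        positivity
    _ = (M ^ 2 + L ^ 2) * ∑ i, 1 / (y i ^ 2 + L ^ 2) := by rw [Finset.mul_sum]
    _ ≤ _ := mul_le_mul_of_nonneg_left hYL (by positivity)

lemma continuous_testArr {n m : ℕ} (H : Matrix (Fin n) (Fin n) ℝ) (e : ℝ) (k l : Fin m) :
    Continuous fun g : Fin n → Fin m → ℝ => testArr H e g k l := by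
  have : Continuous fun g : Fin n → Fin m → ℝ => testArr H e g := by
    unfold testArr
    have h1 : Continuous fun g : Fin n → Fin m → ℝ => (Matrix.of g : Matrix (Fin n) (Fin m) ℝ) := continuous_id
    have h2 : Continuous fun g : Fin n → Fin m → ℝ => (Matrix.of g).transpose *
        (H - e • (1 : Matrix (Fin n) (Fin n) ℝ))⁻¹ * Matrix.of g :=
      (h1.matrix_transpose.matrix_mul continuous_const).matrix_mul h1
    refine continuous_pi fun i => continuous_pi fun j => ?_
    exact continuous_const.mul ((continuous_apply j).comp ((continuous_apply i).comp h2))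
  exact (continuous_apply l).comp ((continuous_apply k).comp this)

/-- pointwise (in `x`) tail bound -/
lemma tail_bound {n : ℕ} (hn : 0 < n) {H : Matrix (Fin n) (Fin n) ℝ} (hH : H.IsHermitian)
    {Y L δ τ x E T : ℝ} (hL : 0 < L) (hδ : 0 < δ) (hτ : 0 < τ) (hT : 0 < T)
    (hY : (mn H (zz E L n)).im ≤ Y) (hx0 : 0 ≤ x) (hx1 : x ≤ δ)
    (hx : ∀ i, |hl hH E i| ≤ 2 * δ + L → τ ≤ |hl hH E i - x|) :
    ((gaussM n 1) {g | T < |testArr H (E + x / n) g 0 0 - (mn H (zz E L n)).re|}).toReal ≤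
      ((1 + 2 * (8 * (Y / L))) / 2 + (2 * L + 2 * δ + (1 / τ + 1 / L) * ((2 * δ + L) ^ 2 + L ^ 2)) * (Y / L)) / T := by
  classical
  set a : ℝ := (mn H (zz E L n)).re with ha
  set y : Fin n → ℝ := hl hH E with hy
  have hY' : ∑ i, L / (y i ^ 2 + L ^ 2) ≤ Y := by rw [← mn_im hH hn hL E]; exact hY
  have hne : ∀ i, y i ≠ x := by
    intro i h0
    rcases le_or_gt (|y i|) (2 * δ + L) with h1 | h1
    · have := hx i h1
      rw [h0, sub_self, abs_zero] at this
      linarith
    · rw [h0, abs_of_nonneg hx0] at h1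
      linarith
  have hne' : ∀ i, hH.eigenvalues i ≠ E + x / n := by
    intro i h0
    apply hne i
    have hn' : (n : ℝ) ≠ 0 := by exact_mod_cast hn.ne'
    rw [hy]; unfold hl; rw [h0]; field_simp; ring
  set F : Matrix (Fin 1) (Fin 1) ℝ → ℝ := fun C => if T < |C 0 0 - a| then 1 else 0 with hF
  have hms : MeasurableSet {g : Fin n → Fin 1 → ℝ | T < |testArr H (E + x / n) g 0 0 - a|} := by
    apply measurableSet_lt measurable_const
    exact ((continuous_testArr H _ 0 0).sub continuous_const).abs.measurable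
  have h1 : ((gaussM n 1) {g | T < |testArr H (E + x / n) g 0 0 - a|}).toReal =
      ∫ g, F (testArr H (E + x / n) g) ∂(gaussM n 1) := by
    have : (fun g : Fin n → Fin 1 → ℝ => F (testArr H (E + x / n) g)) =
        Set.indicator {g | T < |testArr H (E + x / n) g 0 0 - a|} 1 := by
      funext g
      simp only [hF, Set.indicator_apply, Set.mem_ofPred_eq, Pi.one_apply]
    rw [this, integral_indicator_one hms]
    rfl
  rw [h1, integral_testArr hH hne' F]
  have hc : (fun i => ((n : ℝ) * (hH.eigenvalues i - (E + x / n)))⁻¹) = fun i => (y i - x)⁻¹ := by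
    funext i
    rw [mul_sub_shift hn]
    rfl
  rw [hc]
  set c : Fin n → ℝ := fun i => (y i - x)⁻¹ with hcdef
  set b : Fin n → ℝ := fun i => y i / (y i ^ 2 + L ^ 2) with hb
  have ha2 : a = ∑ i, b i := by rw [ha, mn_re hH hn hL E]
  obtain ⟨fm1, fm2⟩ := first_moment c b (fun i => 2 * δ + L < |y i|)
  set Ψ : (Fin n → ℝ) → ℝ := fun v => |∑ i, c i * v i ^ 2 - ∑ i, b i| with hΨ
  have hΨm : Measurable Ψ := by
    apply Continuous.measurable
    simp only [hΨ]
    fun_prop
  have hcol : ∫ g, Ψ (fun i => g i 0) ∂(gm (Fin n) (Fin 1)) = ∫ v, Ψ v ∂(gv (Fin n)) := by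
    rw [← gm_map_col (ι := Fin n) (κ := Fin 1) 0, integral_map (measurable_col 0).aemeasurable hΨm.aestronglyMeasurable]
  have hcolI : Integrable (fun g : Fin n → Fin 1 → ℝ => Ψ (fun i => g i 0)) (gm (Fin n) (Fin 1)) := by
    have : Integrable Ψ ((gm (Fin n) (Fin 1)).map (fun g i => g i 0)) := by
      rw [gm_map_col]; exact fm1
    exact (integrable_map_measure hΨm.aestronglyMeasurable (measurable_col 0).aemeasurable).mp this
  have hle : ∀ g : Fin n → Fin 1 → ℝ, F (spArr c g) ≤ Ψ (fun i => g i 0) / T := by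
    intro g
    have h2 : spArr c g 0 0 - a = ∑ i, c i * g i 0 ^ 2 - ∑ i, b i := by
      rw [spArr_apply, ha2]
      congr 1
      exact Finset.sum_congr rfl fun i _ => by ring
    simp only [hF, h2]
    split_ifs with h3
    · rw [one_le_div hT]; exact h3.le
    · exact div_nonneg (abs_nonneg _) hT.le
  have hFint : Integrable (fun g : Fin n → Fin 1 → ℝ => F (spArr c g)) (gm (Fin n) (Fin 1)) := by
    have hms2 : MeasurableSet {g : Fin n → Fin 1 → ℝ | T < |spArr c g 0 0 - a|} := by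
      apply measurableSet_lt measurable_const
      have : Continuous fun g : Fin n → Fin 1 → ℝ => spArr c g 0 0 :=
        (continuous_apply _).comp ((continuous_apply _).comp (continuous_spArr c))
      exact (this.sub continuous_const).abs.measurable
    have : (fun g : Fin n → Fin 1 → ℝ => F (spArr c g)) =
        Set.indicator {g | T < |spArr c g 0 0 - a|} (fun _ => (1:ℝ)) := by
      funext g
      simp only [hF, Set.indicator_apply, Set.mem_ofPred_eq]
    rw [this]
    exact (integrable_const _).indicator hms2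
  calc ∫ g, F (spArr c g) ∂(gm (Fin n) (Fin 1))
      ≤ ∫ g, Ψ (fun i => g i 0) / T ∂(gm (Fin n) (Fin 1)) :=
        integral_mono hFint (hcolI.div_const _) hle
    _ = (∫ v, Ψ v ∂(gv (Fin n))) / T := by rw [integral_div, hcol]
    _ ≤ _ := by
        apply div_le_div_of_nonneg_right _ hT.le
        exact fm2.trans (tight_sums y hL hδ hτ hY' hx0 hx1 hx)

theorem tightTest : TightTest := by
  intro Y L δ ε hL hδ hε
  set M : ℝ := 2 * δ + L with hM
  set N0 : ℝ := (M ^ 2 + L ^ 2) * (|Y| / L) with hN0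
  have hN0p : 0 ≤ N0 := by positivity
  set τ : ℝ := ε * δ / (4 * (N0 + 1)) with hτd
  have hτ : 0 < τ := by positivity
  set Cst : ℝ := (1 + 2 * (8 * (|Y| / L))) / 2 + (2 * L + 2 * δ + (1 / τ + 1 / L) * (M ^ 2 + L ^ 2)) * (|Y| / L) with hCst
  have hCp : 0 < Cst := by positivity
  set T : ℝ := 2 * Cst / ε with hTd
  have hT : 0 < T := by positivity
  refine ⟨T, ?_⟩
  intro E n hn H hH hIm
  have hIm' : (mn H (zz E L n)).im ≤ |Y| := hIm.trans (le_abs_self Y)
  set y : Fin n → ℝ := hl hH E with hy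
  set f : ℝ → ℝ := fun x => ((gaussM n 1) {g | T < |testArr H (E + x / n) g 0 0 - (mn H (zz E L n)).re|}).toReal with hf
  set near : Finset (Fin n) := Finset.univ.filter fun i => |y i| ≤ M with hnear
  set B : Set ℝ := ⋃ i ∈ near, Metric.ball (y i) τ with hB
  have hBm : MeasurableSet B := Finset.measurableSet_biUnion _ fun i _ => measurableSet_ball
  have hcard : (near.card : ℝ) ≤ N0 := by
    apply card_near y hL
    rw [← mn_im hH hn hL E]; exact hIm'
  have hBvol : (volume B).toReal ≤ N0 * (2 * τ) := by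
    have h1 : volume B ≤ ∑ i ∈ near, volume (Metric.ball (y i) τ) := measure_biUnion_finset_le _ _
    simp only [Real.volume_ball, Finset.sum_const, nsmul_eq_mul] at h1
    have h2 : (near.card : ENNReal) * ENNReal.ofReal (2 * τ) = ENNReal.ofReal (near.card * (2 * τ)) := by
      rw [ENNReal.ofReal_mul (Nat.cast_nonneg _), ENNReal.ofReal_natCast]
    rw [h2] at h1
    have h3 := ENNReal.toReal_mono ENNReal.ofReal_ne_top h1
    rw [ENNReal.toReal_ofReal (by positivity)] at h3
    refine h3.trans ?_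
    exact mul_le_mul_of_nonneg_right hcard (by positivity)
  have hBfin : volume B ≠ ⊤ := by
    have h1 : volume B ≤ ∑ i ∈ near, volume (Metric.ball (y i) τ) := measure_biUnion_finset_le _ _
    refine ne_top_of_le_ne_top ?_ h1
    simp only [Real.volume_ball]
    exact (ENNReal.sum_lt_top.mpr fun i _ => ENNReal.ofReal_lt_top).ne
  have hfle : ∀ x ∈ Set.Icc (0:ℝ) δ, f x ≤ B.indicator (fun _ => (1:ℝ)) x + Cst / T := by
    intro x hx
    by_cases hxB : x ∈ B
    · rw [Set.indicator_of_mem hxB]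
      have : f x ≤ 1 := by
        have : IsProbabilityMeasure (gaussM n 1) := by unfold gaussM; infer_instance
        exact ENNReal.toReal_le_of_le_ofReal zero_le_one (by simpa using prob_le_one)
      have : 0 ≤ Cst / T := by positivity
      linarith
    · rw [Set.indicator_of_notMem hxB, zero_add]
      apply tail_bound hn hH hL hδ hτ hT hIm' hx.1 hx.2
      intro i hi
      by_contra hlt
      apply hxB
      rw [hB]
      refine Set.mem_iUnion₂.mpr ⟨i, ?_, ?_⟩
      · rw [hnear, Finset.mem_filter]; exact ⟨Finset.mem_univ _, hi⟩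
      · rw [Metric.mem_ball, dist_comm, Real.dist_eq]
        exact not_le.mp hlt
  have hCT : Cst / T = ε / 2 := by
    rw [hTd]; field_simp
  change δ⁻¹ * ∫ x in (0:ℝ)..δ, f x ≤ ε
  by_cases hfi : IntervalIntegrable f volume 0 δ
  · have hgi : IntervalIntegrable (fun x => B.indicator (fun _ => (1:ℝ)) x + Cst / T) volume 0 δ := by
      apply IntervalIntegrable.add
      · apply Integrable.intervalIntegrable
        exact (integrable_indicator_iff hBm).mpr (integrableOn_const hBfin)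
      · exact intervalIntegrable_const
    have h1 : ∫ x in (0:ℝ)..δ, f x ≤ ∫ x in (0:ℝ)..δ, (B.indicator (fun _ => (1:ℝ)) x + Cst / T) :=
      intervalIntegral.integral_mono_on hδ.le hfi hgi hfle
    have h2 : ∫ x in (0:ℝ)..δ, (B.indicator (fun _ => (1:ℝ)) x + Cst / T) ≤ N0 * (2 * τ) + δ * (ε / 2) := by
      rw [intervalIntegral.integral_add, intervalIntegral.integral_const, hCT]
      · have h3 : ∫ x in (0:ℝ)..δ, B.indicator (fun _ => (1:ℝ)) x ≤ (volume B).toReal := by
          rw [intervalIntegral.integral_of_le hδ.le]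
          calc ∫ x in Set.Ioc (0:ℝ) δ, B.indicator (fun _ => (1:ℝ)) x ≤ ∫ x, B.indicator (fun _ => (1:ℝ)) x := by
                apply setIntegral_le_integral
                · exact (integrable_indicator_iff hBm).mpr (integrableOn_const hBfin)
                · exact Filter.Eventually.of_forall fun x => Set.indicator_nonneg (fun _ _ => zero_le_one) x
            _ = (volume B).toReal := by
                rw [integral_indicator hBm]; simp [Measure.real]
        simp only [sub_zero, smul_eq_mul]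
        linarith
      · apply Integrable.intervalIntegrable
        exact (integrable_indicator_iff hBm).mpr (integrableOn_const hBfin)
      · exact intervalIntegrable_const
    have h4 : N0 * (2 * τ) ≤ δ * (ε / 2) := by
      rw [hτd]
      have h5 : N0 * (2 * (ε * δ / (4 * (N0 + 1)))) = δ * (ε / 2) * (N0 / (N0 + 1)) := by
        field_simp; ring
      rw [h5]
      have h6 : N0 / (N0 + 1) ≤ 1 := by rw [div_le_one (by positivity)]; linarith
      have h7 : 0 ≤ δ * (ε / 2) := by positivity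
      nlinarith
    calc δ⁻¹ * ∫ x in (0:ℝ)..δ, f x ≤ δ⁻¹ * (δ * ε) := by
          apply mul_le_mul_of_nonneg_left _ (by positivity)
          linarith
      _ = ε := by field_simp
  · rw [intervalIntegral.integral_undef hfi, mul_zero]
    exact hε.le

end Crest.Agent.R166.Rec8
end
end

-- ▼ part R166/Final_423
section

/-!
Row 166, section 81: final composition and the wrappers to the frozen statements (helper423).
-/

set_option autoImplicit false

namespace Crest.Agent.R166.Asm423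

open MeasureTheory ProbabilityTheory Crest.ProbabilityR.RandomMatrix Crest.Agent.R166
open Crest.Agent.R166.Meas423

/-- everything after `InvG`, `InvO`, `COEStatement`, `ImLim` and the reconstruction core -/
theorem finalGO_of {d : ℕ} {s E ρ : ℝ} (hρ : 0 < ρ) (hIm : ImLim d s E ρ)
    (hInvG : InvG d s E ρ) (hInvO : InvO) (hCOE : COEStatement d s E ρ) (hR : ReconStatement2)
    (h : ℝ → ℝ) (hc : Continuous h) (hs : HasCompactSupport h) (h0 : ∀ t, 0 ≤ h t) :
    FinalGO d s E ρ h := by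
  have hC : CompareGO d s E ρ := hCOE hInvG hInvO
  exact asm2 hρ hIm Goe583.imLimO (asm1 hρ hIm Goe583.imLimO Rec8.tightTest hC) hC
    Rec8.lapFunExists hR h hc hs h0

theorem laplaceWeight_congr {n : ℕ} {A B : Matrix (Fin n) (Fin n) ℝ} (hAB : A = B)
    (hA : A.IsHermitian) (hB : B.IsHermitian) (φ : ℝ → ℝ) :
    laplaceWeight A hA φ = laplaceWeight B hB φ := by
  subst hAB; rfl

theorem disordered_zero {n : ℕ} (G : SimpleGraph (Fin n)) (ω : Fin n → ℝ) (φ : ℝ → ℝ) :
    disorderedLaplaceWeight G 0 ω φ = adjLaplaceWeight G φ := by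
  unfold disorderedLaplaceWeight adjLaplaceWeight
  refine laplaceWeight_congr ?_ _ _ φ
  rw [zero_smul, add_zero]

/-- `FinalGO` at `s = 0` is the statement S0251 -/
theorem s0251_of {d : ℕ} {E : ℝ} {h : ℝ → ℝ} (hF : FinalGO d 0 E (kestenMcKayDensity d E) h) :
    ∀ ε : ℝ, 0 < ε → ∃ N : ℕ, ∀ n : ℕ, N ≤ n → (regularGraphs n d).Nonempty →
      |regularAverage n d (fun G => adjLaplaceWeight G
          (unfoldAt h (n * kestenMcKayDensity d E) E)) -
          ∫ g, goeLaplaceWeight g (unfoldAt h (n / Real.pi) 0) ∂goeDisorderLaw n| < ε := by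
  intro ε hε
  obtain ⟨N, hN⟩ := hF ε hε
  refine ⟨N, fun n hn hne => ?_⟩
  have h1 := hN n hn hne
  simp only [disordered_zero, integral_const, probReal_univ, one_smul] at h1
  exact h1

/-- density-of-states output together with the comparison, in the form needed for S0252 -/
def TreeFinal (d : ℕ) (κ : ℝ) : Prop :=
  ∃ s₀ : ℝ, 0 < s₀ ∧ ∀ s : ℝ, 0 < s → s < s₀ →
      ∃ ν : MeasureTheory.Measure ℝ, IsTreeDOS d s ν ∧
        ∃ (ρ : ℝ → ℝ) (U : Set ℝ), IsOpen U ∧
          Set.Icc (-(2 * Real.sqrt ((d : ℝ) - 1)) + κ) (2 * Real.sqrt ((d : ℝ) - 1) - κ) ⊆ U ∧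
          ContinuousOn ρ U ∧ (∀ t ∈ U, 0 ≤ ρ t) ∧
          ν.restrict U = (MeasureTheory.volume.restrict U).withDensity
            (fun t => ENNReal.ofReal (ρ t)) ∧
          (∀ E ∈ Set.Icc (-(2 * Real.sqrt ((d : ℝ) - 1)) + κ)
            (2 * Real.sqrt ((d : ℝ) - 1) - κ), 0 < ρ E) ∧
          ∀ E ∈ Set.Icc (-(2 * Real.sqrt ((d : ℝ) - 1)) + κ) (2 * Real.sqrt ((d : ℝ) - 1) - κ),
            ∀ h : ℝ → ℝ, Continuous h → HasCompactSupport h → (∀ t, 0 ≤ h t) →
              FinalGO d s E (ρ E) h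

/-- wrapper for S0252: regular graphs exist for large `n` with `n d` even -/
theorem s0252_of {d : ℕ} (hd : 3 ≤ d) {κ : ℝ} (hF : TreeFinal d κ) :
    ∃ s₀ : ℝ, 0 < s₀ ∧ ∀ s : ℝ, 0 < s → s < s₀ →
      ∃ ν : MeasureTheory.Measure ℝ, IsTreeDOS d s ν ∧
        ∃ (ρ : ℝ → ℝ) (U : Set ℝ), IsOpen U ∧
          Set.Icc (-(2 * Real.sqrt ((d : ℝ) - 1)) + κ) (2 * Real.sqrt ((d : ℝ) - 1) - κ) ⊆ U ∧
          ContinuousOn ρ U ∧ (∀ t ∈ U, 0 ≤ ρ t) ∧
          ν.restrict U = (MeasureTheory.volume.restrict U).withDensity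
            (fun t => ENNReal.ofReal (ρ t)) ∧
          (∀ E ∈ Set.Icc (-(2 * Real.sqrt ((d : ℝ) - 1)) + κ)
            (2 * Real.sqrt ((d : ℝ) - 1) - κ), 0 < ρ E) ∧
          ∀ E ∈ Set.Icc (-(2 * Real.sqrt ((d : ℝ) - 1)) + κ) (2 * Real.sqrt ((d : ℝ) - 1) - κ),
            ∀ h : ℝ → ℝ, Continuous h → HasCompactSupport h → (∀ t, 0 ≤ h t) →
              ∀ ε : ℝ, 0 < ε → ∃ N : ℕ, ∀ n : ℕ, N ≤ n → d < n → Even (n * d) →
                |regularAverage n d (fun G => ∫ ω, disorderedLaplaceWeight G s ω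
                      (unfoldAt h (n * ρ E) E) ∂potentialLaw n) -
                    ∫ g, goeLaplaceWeight g (unfoldAt h (n / Real.pi) 0) ∂goeDisorderLaw n|
                  < ε := by
  obtain ⟨s₀, hs₀, H⟩ := hF
  refine ⟨s₀, hs₀, fun s hs hs' => ?_⟩
  obtain ⟨ν, hν, ρ, U, hU, hIU, hρc, hρ0, hνU, hρpos, hfin⟩ := H s hs hs'
  refine ⟨ν, hν, ρ, U, hU, hIU, hρc, hρ0, hνU, hρpos, fun E hE h hc hsupp hpos ε hε => ?_⟩
  obtain ⟨N, hN⟩ := hfin E hE h hc hsupp hpos ε hε
  obtain ⟨n0, hn0⟩ := Simple356.regularGraphs_nonempty d (by omega)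
  exact ⟨max N n0, fun n hn _ hev => hN n ((le_max_left _ _).trans hn)
    (hn0 n ((le_max_right _ _).trans hn) hev)⟩

end Crest.Agent.R166.Asm423
end

-- ▼ part R166/Rec6_255

/-!
# Row 166, section 52b (reconstruction), part 6: `recon2 : ReconStatement2` (helper255)
-/

set_option autoImplicit false

noncomputable section

namespace Crest.Agent.R166.Rec255

open Matrix MeasureTheory ProbabilityTheory Gauss286
open Crest.ProbabilityR.RandomMatrix

variable {n m : ℕ}

/-- the functional of the normalised array `A = (π/m) C` -/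
def PhiOf (m : ℕ) (f : Matrix (Fin m) (Fin m) ℂ → ℝ) (A : Matrix (Fin m) (Fin m) ℝ) : ℝ :=
  f (Cay (((m : ℝ) / Real.pi) • A))

lemma isHermitian_smul {A : Matrix (Fin m) (Fin m) ℝ} (hA : A.IsHermitian) (c : ℝ) :
    (c • A).IsHermitian := by
  rw [Matrix.IsHermitian, Matrix.conjTranspose_eq_transpose_of_trivial] at hA ⊢
  rw [Matrix.transpose_smul, hA]

lemma isDg_smul {A : Matrix (Fin m) (Fin m) ℝ} {a : Fin m → ℝ} (h : IsDg A a) (c : ℝ) :
    IsDg (c • A) (fun i => c * a i) := by
  obtain ⟨O, h1, h2, h3⟩ := h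
  refine ⟨O, h1, h2, ?_⟩
  have h4 : diagonal (fun i => c * a i) = c • diagonal a := by
    ext i j
    simp only [Matrix.diagonal_apply, Matrix.smul_apply, smul_eq_mul]
    split_ifs <;> simp
  rw [h4, Matrix.mul_smul, Matrix.smul_mul, ← h3]

lemma isLap_PhiOf {h : ℝ → ℝ} (hm : 0 < m) {f : Matrix (Fin m) (Fin m) ℂ → ℝ}
    (hf : IsLapFun h m f) : IsLap h m (PhiOf m f) := by
  intro A hA
  have hm' : (0 : ℝ) < m := by exact_mod_cast hm
  have hpi := Real.pi_pos
  have hC := isHermitian_smul hA ((m : ℝ) / Real.pi)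
  unfold PhiOf
  rw [hf _ hC]
  congr 2
  have h1 := sum_eq_of_isDg (isDg_eigenvalues hC)
    (isDg_smul (isDg_eigenvalues hA) ((m : ℝ) / Real.pi))
    (fun t => if t = 0 then 0 else h ((m : ℝ) / (Real.pi * t)))
  rw [h1]
  refine Finset.sum_congr rfl fun i _ => ?_
  unfold kf
  by_cases h0 : hA.eigenvalues i = 0
  · rw [h0]; simp
  · rw [if_neg h0, if_neg (mul_ne_zero (div_ne_zero hm'.ne' hpi.ne') h0)]
    congr 1
    field_simp

lemma measurable_PhiOf {f : Matrix (Fin m) (Fin m) ℂ → ℝ} (hf : Continuous f) :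
    Measurable fun A : Fin m → Fin m → ℝ => PhiOf m f (Matrix.of A) := by
  have h1 : Meas423.EM (fun A : Fin m → Fin m → ℝ => ((m : ℝ) / Real.pi) • Matrix.of A) := by
    intro i j
    simp only [Matrix.smul_apply, Matrix.of_apply, smul_eq_mul]
    exact (measurable_entry i j).const_mul _
  exact (Meas423.EM_Cay h1).continuous_comp hf

lemma aK_scale {ρ : ℝ} (hρ : 0 < ρ) (K : ℝ) (y : Fin n → ℝ) :
    aK (ρ * K) (fun i => ρ * y i) = ρ⁻¹ * ∑ i, y i / (y i ^ 2 + K ^ 2) := by
  unfold aK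
  rw [Finset.mul_sum]
  refine Finset.sum_congr rfl fun i _ => ?_
  rw [show (ρ * y i) ^ 2 + (ρ * K) ^ 2 = ρ ^ 2 * (y i ^ 2 + K ^ 2) by ring]
  rcases eq_or_ne (y i ^ 2 + K ^ 2) 0 with h | h
  · rw [h]; simp
  · field_simp

lemma yK_scale {ρ : ℝ} (hρ : 0 < ρ) (K : ℝ) (y : Fin n → ℝ) :
    yK (ρ * K) (fun i => ρ * y i) = ρ⁻¹ * ∑ i, K / (y i ^ 2 + K ^ 2) := by
  unfold yK
  rw [Finset.mul_sum]
  refine Finset.sum_congr rfl fun i _ => ?_
  rw [show (ρ * y i) ^ 2 + (ρ * K) ^ 2 = ρ ^ 2 * (y i ^ 2 + K ^ 2) by ring]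
  rcases eq_or_ne (y i ^ 2 + K ^ 2) 0 with h | h
  · rw [h]; simp
  · field_simp

/-- the array inside `TestVal_eq` -/
lemma arr_scale (hm : 0 < m) {ρ : ℝ} (hρ : 0 < ρ) (y : Fin n → ℝ) (x r : ℝ)
    (g : Fin n → Fin m → ℝ) :
    (1 / (Real.pi * ρ)) • (SpArr286.spArr (fun i => (y i - x)⁻¹) g -
        r • (1 : Matrix (Fin m) (Fin m) ℝ)) =
      ((m : ℝ) / Real.pi) • Am (fun i => ρ * y i) (ρ * x) (ρ⁻¹ * r) g := by
  have hm' : (m : ℝ) ≠ 0 := by exact_mod_cast hm.ne'
  have hpi := Real.pi_pos.ne'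
  have hρ' := hρ.ne'
  have h1 : arr (fun i => ρ * y i) (ρ * x) g = ρ⁻¹ • SpArr286.spArr (fun i => (y i - x)⁻¹) g := by
    ext k l
    simp only [arr, Matrix.smul_apply, SpArr286.spArr_apply, smul_eq_mul, Finset.mul_sum]
    refine Finset.sum_congr rfl fun i _ => ?_
    rw [← mul_sub, div_eq_mul_inv, mul_inv]
    ring
  unfold Am
  rw [h1, mul_smul, ← smul_sub, smul_smul, smul_smul]
  congr 1
  field_simp

theorem TestVal_scale {H : Matrix (Fin n) (Fin n) ℝ} (hH : H.IsHermitian) (hn : 0 < n)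
    (hm : 0 < m) {ρ : ℝ} (hρ : 0 < ρ) {h : ℝ → ℝ} {f f' : Matrix (Fin m) (Fin m) ℂ → ℝ}
    (hf : IsLapFun h m f) (hf' : IsLapFun h m f') (E K δ : ℝ) :
    TestVal H E ρ K δ m f = (ρ * δ)⁻¹ * ∫ x in (0 : ℝ)..(ρ * δ),
      ∫ g : Fin n → Fin m → ℝ, PhiOf m f' (Am (fun i => ρ * SpArr286.hl hH E i) x
        (ρ⁻¹ * (mn H (zz E K n)).re) g) ∂gm (Fin n) (Fin m) := by
  rw [SpArr286.TestVal_eq hH hn]
  have h1 : ∀ x : ℝ, (∫ g, f (Cay ((1 / (Real.pi * ρ)) •
      (SpArr286.spArr (fun i => (SpArr286.hl hH E i - x)⁻¹) g -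
        (mn H (zz E K n)).re • (1 : Matrix (Fin m) (Fin m) ℝ)))) ∂(gm (Fin n) (Fin m))) =
      (fun x' => ∫ g : Fin n → Fin m → ℝ, PhiOf m f' (Am (fun i => ρ * SpArr286.hl hH E i) x'
        (ρ⁻¹ * (mn H (zz E K n)).re) g) ∂gm (Fin n) (Fin m)) (ρ * x) := by
    intro x
    refine integral_congr_ae (Filter.Eventually.of_forall fun g => ?_)
    simp only
    unfold PhiOf
    rw [arr_scale hm hρ]
    have hA := isHermitian_smul (isHermitian_Am (fun i => ρ * SpArr286.hl hH E i) (ρ * x)
      (ρ⁻¹ * (mn H (zz E K n)).re) g) ((m : ℝ) / Real.pi)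
    rw [hf _ hA, hf' _ hA]
  simp only [h1]
  rw [intervalIntegral.integral_comp_mul_left (fun x' => ∫ g : Fin n → Fin m → ℝ,
    PhiOf m f' (Am (fun i => ρ * SpArr286.hl hH E i) x'
        (ρ⁻¹ * (mn H (zz E K n)).re) g) ∂gm (Fin n) (Fin m)) hρ.ne', mul_zero, smul_eq_mul,
    ← mul_assoc, mul_inv, mul_comm δ⁻¹]

/-- **Section 52b** -/
theorem recon2 : Asm423.ReconStatement2 := by
  intro h hc hs' h0 ρ hρ Y L1 hL1 ε hε
  obtain ⟨δ0, hδ0, hcore⟩ := core hc hs' h0 (ρ⁻¹ * Y) (ρ * L1) (by positivity) hε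
  refine ⟨ρ⁻¹ * δ0, by positivity, fun δ hδ hδ1 => ?_⟩
  have hρδ : ρ * δ ≤ δ0 := by
    calc ρ * δ ≤ ρ * (ρ⁻¹ * δ0) := mul_le_mul_of_nonneg_left hδ1 hρ.le
      _ = δ0 := by field_simp
  obtain ⟨L0, hL0, hcore⟩ := hcore (ρ * δ) (by positivity) hρδ
  refine ⟨ρ⁻¹ * L0, by positivity, fun L hL T => ?_⟩
  have hLpos : 0 < L := lt_of_lt_of_le (by positivity) hL
  have hρL : L0 ≤ ρ * L := by
    calc L0 = ρ * (ρ⁻¹ * L0) := by field_simp
      _ ≤ ρ * L := mul_le_mul_of_nonneg_left hL hρ.le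
  obtain ⟨m0, hcore⟩ := hcore (ρ * L) hρL (ρ⁻¹ * T)
  refine ⟨m0 + 1, fun m hm f hf E K hK n hn H hH hY1 hYL hT => ?_⟩
  have hmpos : 0 < m := by omega
  obtain ⟨f', hf'c, hf'⟩ := Rec8.lapFunExists h hc hs' h0 m
  have hcore := hcore m (by omega) (PhiOf m f') (measurable_PhiOf hf'c) (isLap_PhiOf hmpos hf')
    n (fun i => ρ * SpArr286.hl hH E i) (ρ⁻¹ * (mn H (zz E K n)).re) ?_ ?_ ?_
  · rw [TestVal_scale hH hn hmpos hρ hf hf']
    refine le_trans (le_of_eq ?_) hcore
    congr 2
    unfold laplaceWeight unfoldAt SpArr286.hl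
    congr 2
    refine Finset.sum_congr rfl fun i _ => ?_
    congr 1
    ring
  · rw [yK_scale hρ, ← SpArr286.mn_im hH hn hL1]
    exact mul_le_mul_of_nonneg_left hY1 (by positivity)
  · rw [yK_scale hρ, ← SpArr286.mn_im hH hn hLpos]
    exact mul_le_mul_of_nonneg_left hYL (by positivity)
  · rw [aK_scale hρ, ← SpArr286.mn_re hH hn hLpos, ← mul_sub, abs_mul,
      abs_of_pos (inv_pos.mpr hρ)]
    exact mul_le_mul_of_nonneg_left hT (by positivity)

end Crest.Agent.R166.Rec255
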