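import Mathlib
import Crest.Agent.R166.COEtop_682
import Crest.Agent.R166.Gen_85
import Crest.Agent.R166.Spine_419
import Crest.Agent.R166.Cl_85
import Crest.Agent.R166.Rec6_255_Mg
import Crest.Agent.R166.Spec_D_350
import Crest.Agent.R166.SpecA_598

-- ▼ part R166/COEavg_682
section

/-!
Row 166, section 51 (COE lemma): averaging over a compact group.
-/

set_option autoImplicit false

namespace Crest.Agent.R166.COE682

open MeasureTheory Topology Filter MeasureTheory.Measure

section haar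

variable (G : Type*) [Group G] [TopologicalSpace G] [IsTopologicalGroup G] [CompactSpace G]
  [MeasurableSpace G] [BorelSpace G]

/-- the whole group as a positive compact -/
noncomputable def topPC : TopologicalSpace.PositiveCompacts G where
  carrier := Set.univ
  isCompact' := isCompact_univ
  interior_nonempty' := by simp

/-- Haar probability measure on a compact group -/
noncomputable def hp : Measure G := haarMeasure (topPC G)

instance hp_prob : IsProbabilityMeasure (hp G) :=
  ⟨by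
    have h := haarMeasure_self (K₀ := topPC G)
    exact h⟩

instance hp_haar : IsHaarMeasure (hp G) := isHaarMeasure_haarMeasure _

lemma hp_left (g : G) : (hp G).map (g * ·) = hp G := map_mul_left_eq_self _ g

lemma hp_right (g : G) : (hp G).map (· * g) = hp G := by
  have hm : Measurable fun x : G => x * g := (continuous_mul_const g).measurable
  have : IsProbabilityMeasure ((hp G).map (· * g)) := isProbabilityMeasure_map hm.aemeasurable
  have h := isMulInvariant_eq_smul_of_compactSpace ((hp G).map (· * g)) (hp G)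
  have h2 : ((hp G).map (· * g)) Set.univ =
      (haarScalarFactor ((hp G).map (· * g)) (hp G) • (hp G)) Set.univ := by rw [← h]
  rw [measure_univ, Measure.smul_apply, measure_univ] at h2
  have h3 : haarScalarFactor ((hp G).map (· * g)) (hp G) = 1 := by
    have h4 : ((haarScalarFactor ((hp G).map (· * g)) (hp G) : NNReal) : ENNReal) = 1 := by
      rw [h2]
      simp [ENNReal.smul_def]
    exact_mod_cast h4
  rw [h, h3, one_smul]

end haar

section avg

variable {G : Type*} [Group G] [TopologicalSpace G] [IsTopologicalGroup G] [CompactSpace G]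
  [MeasurableSpace G] [BorelSpace G] [SecondCountableTopology G]
  {X : Type*} [TopologicalSpace X] [MeasurableSpace X] [BorelSpace X] [SecondCountableTopology X]
  [MulAction G X] [ContinuousSMul G X]

/-- average of `f` over the orbit -/
noncomputable def avg (G : Type*) [Group G] [TopologicalSpace G] [IsTopologicalGroup G]
    [CompactSpace G] [MeasurableSpace G] [BorelSpace G] {X : Type*} [MulAction G X]
    (f : X → ℂ) (x : X) : ℂ := ∫ g : G, f (g • x) ∂(hp G)

lemma avg_smul (f : X → ℂ) (h : G) (x : X) : avg G f (h • x) = avg G f x := by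
  unfold avg
  conv_rhs => rw [← hp_right G h]
  have he : MeasurableEmbedding fun x : G => x * h :=
    (Homeomorph.mulRight h).measurableEmbedding
  rw [he.integral_map]
  simp only [mul_smul]

/-- averaging a function with `f (h • x) = f' x` -/
lemma avg_comp (f : X → ℂ) (h : G) (x : X) : avg G (fun x => f (h • x)) x = avg G f x := by
  unfold avg
  conv_rhs => rw [← hp_left G h]
  have he : MeasurableEmbedding fun x : G => h * x :=
    (Homeomorph.mulLeft h).measurableEmbedding
  rw [he.integral_map]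
  simp only [mul_smul]

lemma avg_mul_invariant {f k : X → ℂ} (hk : ∀ (g : G) x, k (g • x) = k x) (x : X) :
    avg G (fun x => k x * f x) x = k x * avg G f x := by
  unfold avg
  simp only [hk]
  rw [integral_const_mul]


lemma measurable_smul_pair : Measurable fun p : G × X => p.1 • p.2 :=
  continuous_smul.measurable


/-- **averaging**: for a `G`-invariant probability measure, `∫ f = ∫ avg f`. -/
theorem integral_eq_integral_avg (P : Measure X) [IsProbabilityMeasure P]
    (hP : ∀ g : G, P.map (g • ·) = P) {f : X → ℂ} (hf : Measurable f) {C : ℝ}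
    (hC : ∀ x, ‖f x‖ ≤ C) : ∫ x, f x ∂P = ∫ x, avg G f x ∂P := by
  have h1 : ∀ g : G, ∫ x, f (g • x) ∂P = ∫ x, f x ∂P := by
    intro g
    have he : MeasurableEmbedding fun x : X => g • x := (Homeomorph.smul g).measurableEmbedding
    conv_rhs => rw [← hP g]
    rw [he.integral_map]
  have h2 : ∫ x, avg G f x ∂P = ∫ g : G, ∫ x, f (g • x) ∂P ∂(hp G) := by
    unfold avg
    rw [integral_integral_swap]
    refine Integrable.of_bound (C := C) ?_ (Eventually.of_forall fun p => hC _)
    exact (hf.comp (measurable_smul_pair.comp measurable_swap)).aestronglyMeasurable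
  rw [h2]
  simp only [h1]
  simp

end avg

end Crest.Agent.R166.COE682
end

-- ▼ part R166/COEgrp_682
section

/-!
Row 166, section 51 (COE lemma): the special unitary group `SG m` acting on `SymU m`,
plane blocks, transitivity on determinant fibres.
-/

set_option autoImplicit false

namespace Crest.Agent.R166.COE682

open Matrix MeasureTheory Topology Filter

open Crest.Agent.R166.Gen85 (toC E2 PP PP_orth E2_mul E2_one E2_star takagi)

/-- the special unitary group as a type -/
def SG (m : ℕ) : Type := specialUnitaryGroup (Fin m) ℂ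

namespace SG

variable {m : ℕ}

/-- the matrix -/
def val (V : SG m) : MM m := Subtype.val V

noncomputable instance : Group (SG m) := inferInstanceAs (Group (specialUnitaryGroup (Fin m) ℂ))

noncomputable instance : TopologicalSpace (SG m) := instTopologicalSpaceSubtype

lemma mem (V : SG m) : V.val ∈ specialUnitaryGroup (Fin m) ℂ := Subtype.property V

/-- constructor -/
def mk (V : MM m) (h : V ∈ specialUnitaryGroup (Fin m) ℂ) : SG m := ⟨V, h⟩

@[simp] lemma val_mk (V : MM m) (h : V ∈ specialUnitaryGroup (Fin m) ℂ) : (mk V h).val = V := rfl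

@[ext] lemma ext {U V : SG m} (h : U.val = V.val) : U = V := Subtype.ext h

lemma unit (V : SG m) : V.val ∈ unitaryGroup (Fin m) ℂ := (mem_specialUnitaryGroup_iff.1 V.mem).1

lemma det_eq (V : SG m) : V.val.det = 1 := (mem_specialUnitaryGroup_iff.1 V.mem).2

@[simp] lemma val_mul (V W : SG m) : (V * W).val = V.val * W.val := rfl

@[simp] lemma val_one : (1 : SG m).val = 1 := rfl

@[simp] lemma val_inv (V : SG m) : (V⁻¹).val = star V.val := rfl

lemma continuous_val : Continuous (val : SG m → MM m) := continuous_subtype_val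

lemma continuous_iff {X : Type*} [TopologicalSpace X] {f : X → SG m} :
    Continuous f ↔ Continuous fun x => (f x).val := continuous_induced_rng

instance : IsTopologicalGroup (SG m) where
  continuous_mul := by
    rw [continuous_iff]
    exact (continuous_val.comp continuous_fst).mul (continuous_val.comp continuous_snd)
  continuous_inv := by
    rw [continuous_iff]
    exact continuous_star.comp continuous_val

lemma isCompact_SG : IsCompact ((specialUnitaryGroup (Fin m) ℂ : Submonoid (MM m)) : Set (MM m)) := by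
  have hK : IsCompact (Set.univ.pi fun _ : Fin m => Set.univ.pi fun _ : Fin m =>
      Metric.closedBall (0 : ℂ) 1) :=
    isCompact_univ_pi fun _ => isCompact_univ_pi fun _ => isCompact_closedBall 0 1
  have h1 : IsClosed {U : MM m | star U * U = 1} := isClosed_eq (by fun_prop) (by fun_prop)
  have h2 : IsClosed {U : MM m | U.det = 1} :=
    isClosed_eq (Continuous.matrix_det continuous_id) continuous_const
  have h3 : ((specialUnitaryGroup (Fin m) ℂ : Submonoid (MM m)) : Set (MM m)) =
      {U : MM m | star U * U = 1} ∩ {U : MM m | U.det = 1} := by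
    ext U
    simp only [SetLike.mem_coe, mem_specialUnitaryGroup_iff, mem_unitaryGroup_iff',
      Set.mem_inter_iff, Set.mem_ofPred_eq]
  refine IsCompact.of_isClosed_subset hK (by rw [h3]; exact h1.inter h2) ?_
  intro U hU i _ j _
  rw [mem_closedBall_zero_iff]
  exact norm_entry_le (mem_specialUnitaryGroup_iff.1 hU).1 i j

instance : CompactSpace (SG m) := isCompact_iff_compactSpace.1 isCompact_SG

noncomputable instance : MeasurableSpace (SG m) := borel _

instance : BorelSpace (SG m) := ⟨rfl⟩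

instance : SecondCountableTopology (SG m) :=
  TopologicalSpace.Subtype.secondCountableTopology
    ((specialUnitaryGroup (Fin m) ℂ : Submonoid (MM m)) : Set (MM m))

/-- as an element of the unitary group -/
def toU (V : SG m) : unitaryGroup (Fin m) ℂ := ⟨V.val, V.unit⟩

noncomputable instance : MulAction (SG m) (SymU m) where
  smul V U := V.toU • U
  one_smul U := one_smul (unitaryGroup (Fin m) ℂ) U
  mul_smul V W U := mul_smul V.toU W.toU U

@[simp] lemma val_smul (V : SG m) (U : SymU m) : (V • U).val = V.val * U.val * V.valᵀ := rfl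

instance : ContinuousSMul (SG m) (SymU m) where
  continuous_smul := by
    rw [SymU.continuous_iff]
    show Continuous fun p : SG m × SymU m => p.1.val * p.2.val * p.1.valᵀ
    have h1 : Continuous fun p : SG m × SymU m => p.1.val := continuous_val.comp continuous_fst
    have h2 : Continuous fun p : SG m × SymU m => p.2.val :=
      SymU.continuous_val.comp continuous_snd
    exact (h1.mul h2).mul h1.matrix_transpose

lemma det_smul (V : SG m) (U : SymU m) : (V • U).val.det = U.val.det := by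
  rw [val_smul, det_mul, det_mul, det_transpose, V.det_eq, one_mul, mul_one]

end SG

/-! ### Plane blocks -/

section blocks

variable {m : ℕ}

lemma det_E2 {a b : Fin m} (hab : a ≠ b) (M : Matrix (Fin 2) (Fin 2) ℂ) :
    (E2 a b M).det = M.det := by
  unfold E2
  rw [det_one_add_mul_comm, ← Matrix.mul_assoc, PP_orth hab, Matrix.one_mul]
  congr 1
  abel

lemma E2_mem {a b : Fin m} (hab : a ≠ b) {M : Matrix (Fin 2) (Fin 2) ℂ} (h : M * Mᴴ = 1)
    (hd : M.det = 1) : E2 a b M ∈ specialUnitaryGroup (Fin m) ℂ := by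
  rw [mem_specialUnitaryGroup_iff]
  refine ⟨?_, by rw [det_E2 hab, hd]⟩
  rw [mem_unitaryGroup_iff]
  show E2 a b M * (E2 a b M)ᴴ = 1
  rw [E2_star, E2_mul hab, h, E2_one]

lemma E2_mul_apply {a b : Fin m} (hab : a ≠ b) (M : Matrix (Fin 2) (Fin 2) ℂ) (A : MM m)
    (i j : Fin m) :
    (E2 a b M * A : MM m) i j = if i = a then M 0 0 * A a j + M 0 1 * A b j
      else if i = b then M 1 0 * A a j + M 1 1 * A b j else A i j := by
  unfold E2
  have hP : ∀ k : Fin 2, ((PP a b)ᵀ * A : Matrix (Fin 2) (Fin m) ℂ) k j = A (![a, b] k) j := by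
    intro k
    rw [Matrix.mul_apply]
    simp [PP, Matrix.transpose_apply]
  rw [Matrix.add_mul, Matrix.one_mul, Matrix.mul_assoc, Matrix.mul_assoc, Matrix.add_apply,
    Matrix.mul_apply, Fin.sum_univ_two, Matrix.mul_apply, Matrix.mul_apply, Fin.sum_univ_two,
    Fin.sum_univ_two, hP, hP]
  by_cases hia : i = a
  · subst hia
    simp [PP, hab]
    ring
  · by_cases hib : i = b
    · subst hib
      simp [PP, hia]
      ring
    · simp [PP, hia, hib]

lemma mul_E2_transpose_apply {a b : Fin m} (hab : a ≠ b) (M : Matrix (Fin 2) (Fin 2) ℂ) (A : MM m)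
    (i j : Fin m) :
    (A * (E2 a b M)ᵀ : MM m) i j = if j = a then M 0 0 * A i a + M 0 1 * A i b
      else if j = b then M 1 0 * A i a + M 1 1 * A i b else A i j := by
  have h : (A * (E2 a b M)ᵀ : MM m) = (E2 a b M * Aᵀ)ᵀ := by
    rw [Matrix.transpose_mul, Matrix.transpose_transpose]
  rw [h, Matrix.transpose_apply, E2_mul_apply hab]
  rfl

/-- plane block as a group element -/
noncomputable def blk {a b : Fin m} (hab : a ≠ b) (M : Matrix (Fin 2) (Fin 2) ℂ) (h : M * Mᴴ = 1)
    (hd : M.det = 1) : SG m := SG.mk (E2 a b M) (E2_mem hab h hd)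

/-- action of a plane block, entrywise -/
lemma blk_smul_apply {a b : Fin m} (hab : a ≠ b) (M : Matrix (Fin 2) (Fin 2) ℂ) (h : M * Mᴴ = 1)
    (hd : M.det = 1) (U : SymU m) (i j : Fin m) :
    (blk hab M h hd • U).val i j =
      if j = a then M 0 0 * (if i = a then M 0 0 * U.val a a + M 0 1 * U.val b a
          else if i = b then M 1 0 * U.val a a + M 1 1 * U.val b a else U.val i a) +
        M 0 1 * (if i = a then M 0 0 * U.val a b + M 0 1 * U.val b b
          else if i = b then M 1 0 * U.val a b + M 1 1 * U.val b b else U.val i b)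
      else if j = b then M 1 0 * (if i = a then M 0 0 * U.val a a + M 0 1 * U.val b a
          else if i = b then M 1 0 * U.val a a + M 1 1 * U.val b a else U.val i a) +
        M 1 1 * (if i = a then M 0 0 * U.val a b + M 0 1 * U.val b b
          else if i = b then M 1 0 * U.val a b + M 1 1 * U.val b b else U.val i b)
      else (if i = a then M 0 0 * U.val a j + M 0 1 * U.val b j
          else if i = b then M 1 0 * U.val a j + M 1 1 * U.val b j else U.val i j) := by
  rw [SG.val_smul]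
  show (E2 a b M * U.val * (E2 a b M)ᵀ : MM m) i j = _
  rw [mul_E2_transpose_apply hab, E2_mul_apply hab, E2_mul_apply hab, E2_mul_apply hab]

/-- phase element `diag(τ, τ̄)` in the plane `a,b` -/
noncomputable def phs {a b : Fin m} (hab : a ≠ b) (τ : ℂ) (hτ : ‖τ‖ = 1) : SG m :=
  blk hab (diagonal ![τ, star τ]) (by
    have h1 : τ * star τ = 1 := by
      rw [RCLike.star_def, Complex.mul_conj, Complex.normSq_eq_norm_sq, hτ]; simp
    have h2 : star τ * τ = 1 := by rw [mul_comm]; exact h1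
    ext i j
    fin_cases i <;> fin_cases j <;>
      simp [Matrix.mul_apply, Fin.sum_univ_two, Matrix.diagonal, Matrix.conjTranspose_apply] <;>
      first | exact h1 | exact h2) (by
    have h1 : τ * star τ = 1 := by
      rw [RCLike.star_def, Complex.mul_conj, Complex.normSq_eq_norm_sq, hτ]; simp
    rw [det_diagonal, Fin.prod_univ_two]
    exact h1)

/-- the phase vector of `phs` -/
noncomputable def phd (a b : Fin m) (τ : ℂ) (i : Fin m) : ℂ :=
  if i = a then τ else if i = b then star τ else 1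

lemma phs_smul_apply {a b : Fin m} (hab : a ≠ b) (τ : ℂ) (hτ : ‖τ‖ = 1) (U : SymU m)
    (i j : Fin m) : (phs hab τ hτ • U).val i j = phd a b τ i * U.val i j * phd a b τ j := by
  unfold phs phd
  rw [blk_smul_apply]
  simp only [Matrix.diagonal_apply_eq, Matrix.diagonal, Matrix.of_apply]
  by_cases hja : j = a
  · subst hja
    by_cases hia : i = j
    · subst hia; simp [hab]; ring
    · by_cases hib : i = b
      · subst hib; simp [hia]; ring
      · simp [hia, hib]; ring
  · by_cases hjb : j = b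
    · subst hjb
      by_cases hia : i = a
      · subst hia; simp [hab.symm]; ring
      · by_cases hib : i = j
        · subst hib; simp [hia]; ring
        · simp [hia, hib, hja]; ring
    · by_cases hia : i = a
      · subst hia; simp [hja, hjb]
      · by_cases hib : i = b
        · subst hib; simp [hia, hja, hjb]
        · simp [hia, hib, hja, hjb]

/-- signed swap in the plane `a,b` -/
noncomputable def swp {a b : Fin m} (hab : a ≠ b) : SG m :=
  blk hab !![0, 1; -1, 0] (by
    ext i j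
    fin_cases i <;> fin_cases j <;>
      simp [Matrix.mul_apply, Fin.sum_univ_two, Matrix.conjTranspose_apply]) (by
    simp [Matrix.det_fin_two])

/-- rotation by 45 degrees in the plane `a,b` -/
noncomputable def rt {a b : Fin m} (hab : a ≠ b) : SG m :=
  blk hab !![((Real.sqrt 2)⁻¹ : ℝ), ((Real.sqrt 2)⁻¹ : ℝ); (-(Real.sqrt 2)⁻¹ : ℝ), ((Real.sqrt 2)⁻¹ : ℝ)]
    (by
      have h : ((Real.sqrt 2)⁻¹ : ℝ) * (Real.sqrt 2)⁻¹ = 1 / 2 := by
        rw [← mul_inv, Real.mul_self_sqrt (by norm_num)]; norm_num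
      have h' : ((((Real.sqrt 2)⁻¹ : ℝ) : ℂ)) * (((Real.sqrt 2)⁻¹ : ℝ) : ℂ) = 1 / 2 := by
        rw [← Complex.ofReal_mul, h]; norm_num
      have hs : star (((Real.sqrt 2)⁻¹ : ℝ) : ℂ) = (((Real.sqrt 2)⁻¹ : ℝ) : ℂ) :=
        Complex.conj_ofReal _
      rw [Complex.ofReal_neg]
      generalize (((Real.sqrt 2)⁻¹ : ℝ) : ℂ) = c at *
      ext i j
      rw [Matrix.mul_apply, Fin.sum_univ_two, Matrix.conjTranspose_apply, Matrix.conjTranspose_apply]
      fin_cases i <;> fin_cases j
      · show c * star c + c * star c = 1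
        rw [hs, h']; norm_num
      · show c * star (-c) + c * star c = 0
        rw [star_neg, hs]; ring
      · show -c * star c + c * star c = 0
        rw [hs]; ring
      · show -c * star (-c) + c * star c = 1
        rw [star_neg, hs, neg_mul_neg, h']; norm_num) (by
      have h : ((Real.sqrt 2)⁻¹ : ℝ) * (Real.sqrt 2)⁻¹ = 1 / 2 := by
        rw [← mul_inv, Real.mul_self_sqrt (by norm_num)]; norm_num
      have h' : ((((Real.sqrt 2)⁻¹ : ℝ) : ℂ)) * (((Real.sqrt 2)⁻¹ : ℝ) : ℂ) = 1 / 2 := by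
        rw [← Complex.ofReal_mul, h]; norm_num
      rw [Matrix.det_fin_two, Complex.ofReal_neg]
      generalize (((Real.sqrt 2)⁻¹ : ℝ) : ℂ) = c at *
      show c * c - c * -c = 1
      rw [mul_neg, h']; norm_num)

end blocks

end Crest.Agent.R166.COE682
end

-- ▼ part R166/COEtrans_682
section

/-!
Row 166, section 51 (COE lemma): transitivity of `SU(m)` on the determinant fibres, and
independence of `det U` and `U 0 0` for invariant measures.
-/

set_option autoImplicit false

namespace Crest.Agent.R166.COE682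

open Matrix MeasureTheory Topology Filter

open Crest.Agent.R166.Gen85 (toC E2 PP PP_orth E2_mul E2_one E2_star takagi toC_mem toC_det orth_det)

variable {m : ℕ}

/-- `diag (z, 1, …, 1)` -/
noncomputable def dg (m : ℕ) (z : ℂ) : MM (m + 1) := diagonal fun i => if i = 0 then z else 1

lemma dg_mem {z : ℂ} (hz : ‖z‖ = 1) : dg m z ∈ Sy (m + 1) := by
  refine ⟨diagonal_transpose _, ?_⟩
  unfold dg
  apply Crest.Agent.R166.Gen85.diag_unitary
  intro i
  by_cases h : i = 0 <;> simp [h, hz]

/-- `diag (z, 1, …, 1)` as a symmetric unitary -/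
noncomputable def dgS (m : ℕ) (z : Circle) : SymU (m + 1) := SymU.mk (dg m z) (dg_mem z.norm_coe)

lemma continuous_dgS : Continuous (dgS m) := by
  rw [SymU.continuous_iff]
  show Continuous fun z : Circle => dg m (z : ℂ)
  unfold dg
  refine Continuous.matrix_diagonal ?_
  refine continuous_pi fun i => ?_
  by_cases h : i = 0
  · simp only [h, if_true]; exact continuous_subtype_val
  · simp only [h, if_false]; exact continuous_const

lemma norm_det (U : SymU m) : ‖U.val.det‖ = 1 := by
  have h := mem_unitaryGroup_iff.1 U.unit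
  have h2 := congrArg Matrix.det h
  rw [det_mul, det_one, Matrix.star_eq_conjTranspose, det_conjTranspose] at h2
  have h3 := congrArg norm h2
  rw [norm_mul, norm_star, norm_one] at h3
  nlinarith [norm_nonneg U.val.det]

/-- a unimodular number as a point of the circle -/
noncomputable def mkC (w : ℂ) (hw : ‖w‖ = 1) : Circle := ⟨w, mem_sphere_zero_iff_norm.2 hw⟩

@[simp] lemma coe_mkC (w : ℂ) (hw : ‖w‖ = 1) : (mkC w hw : ℂ) = w := rfl

/-- the determinant as a point of the circle -/
noncomputable def detC (U : SymU m) : Circle := mkC U.val.det (norm_det U)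

@[simp] lemma coe_detC (U : SymU m) : (detC U : ℂ) = U.val.det := rfl

lemma continuous_det : Continuous fun U : SymU m => U.val.det :=
  Continuous.matrix_det SymU.continuous_val

lemma continuous_detC : Continuous (detC : SymU m → Circle) :=
  continuous_induced_rng.2 continuous_det

lemma exists_sqrt (z : ℂ) (hz : ‖z‖ = 1) : ∃ w : ℂ, w * w = z ∧ ‖w‖ = 1 := by
  obtain ⟨w, hw⟩ := IsAlgClosed.exists_pow_nat_eq z (n := 2) (by norm_num)
  refine ⟨w, by rw [← hw]; ring, ?_⟩
  have := congrArg norm hw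
  rw [norm_pow, hz] at this
  nlinarith [norm_nonneg w]

/-- **transitivity** -/
theorem exists_rep (U : SymU (m + 1)) :
    ∃ V : SG (m + 1), V • dgS m (detC U) = U := by
  obtain ⟨O, hO, δ, hδ, hU⟩ := takagi U.unit U.symm
  choose ε hε hε1 using fun i => exists_sqrt (δ i) (hδ i)
  have hOdet : ((O.det : ℝ) : ℂ) * ((O.det : ℝ) : ℂ) = 1 := by
    rcases orth_det hO with h | h <;> rw [h] <;> norm_num
  set p : ℂ := ((O.det : ℝ) : ℂ) * ∏ i : Fin m, ε i.succ with hp
  have hpn : ‖p‖ = 1 := by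
    rw [hp, norm_mul, norm_prod]
    simp only [hε1, Finset.prod_const_one, mul_one]
    rcases orth_det hO with h | h <;> rw [h] <;> norm_num
  have hp0 : p ≠ 0 := by
    intro h; rw [h, norm_zero] at hpn; exact zero_ne_one hpn
  -- the phases
  set e : Fin (m + 1) → ℂ := fun i => if i = 0 then p⁻¹ else ε i with he
  have he1 : ∀ i, ‖e i‖ = 1 := by
    intro i
    by_cases h : i = 0
    · simp [he, h, hpn]
    · simp [he, h, hε1]
  have hdU : U.val.det = ∏ i, δ i := by
    rw [hU, det_mul, det_mul, det_diagonal, det_transpose, toC_det]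
    rw [mul_comm ((O.det : ℝ) : ℂ), mul_assoc, hOdet, mul_one]
  have hVu : toC O * diagonal e ∈ unitaryGroup (Fin (m + 1)) ℂ :=
    mul_mem (toC_mem hO) (Crest.Agent.R166.Gen85.diag_unitary he1)
  have hVd : (toC O * diagonal e).det = 1 := by
    rw [det_mul, det_diagonal, toC_det, Fin.prod_univ_succ]
    have h1 : ∏ i : Fin m, e i.succ = ∏ i : Fin m, ε i.succ :=
      Finset.prod_congr rfl fun i _ => by simp [he, Fin.succ_ne_zero]
    rw [h1]
    have h2 : e 0 = p⁻¹ := by simp [he]
    rw [h2]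
    have h3 : ((O.det : ℝ) : ℂ) * (p⁻¹ * ∏ i : Fin m, ε i.succ) = p⁻¹ * p := by
      rw [hp]; ring
    rw [h3, inv_mul_cancel₀ hp0]
  refine ⟨SG.mk (toC O * diagonal e) (mem_specialUnitaryGroup_iff.2 ⟨hVu, hVd⟩), ?_⟩
  apply SymU.ext
  rw [SG.val_smul, SG.val_mk]
  show toC O * diagonal e * dg m U.val.det * (toC O * diagonal e)ᵀ = U.val
  rw [Matrix.transpose_mul, diagonal_transpose]
  have h4 : diagonal e * dg m U.val.det * diagonal e = diagonal δ := by
    unfold dg
    rw [diagonal_mul_diagonal, diagonal_mul_diagonal]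
    congr 1
    ext i
    refine Fin.cases ?_ (fun i => ?_) i
    · have h5 : ∏ i : Fin m, δ i.succ = p * p := by
        have : p * p = (((O.det : ℝ) : ℂ) * ((O.det : ℝ) : ℂ)) *
            ((∏ i : Fin m, ε i.succ) * ∏ i : Fin m, ε i.succ) := by rw [hp]; ring
        rw [this, hOdet, one_mul, ← Finset.prod_mul_distrib]
        exact Finset.prod_congr rfl fun i _ => (hε _).symm
      simp only [he, if_true]
      rw [hdU, Fin.prod_univ_succ, h5]
      field_simp
    · simp only [he, Fin.succ_ne_zero, if_false, mul_one]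
      exact hε _
  calc toC O * diagonal e * dg m U.val.det * (diagonal e * (toC O)ᵀ)
      = toC O * (diagonal e * dg m U.val.det * diagonal e) * (toC O)ᵀ := by
        simp only [Matrix.mul_assoc]
    _ = U.val := by rw [h4, ← hU]

/-- invariant functions only depend on the determinant -/
lemma eq_of_invariant {F : SymU (m + 1) → ℂ} (hF : ∀ (V : SG (m + 1)) U, F (V • U) = F U)
    (U : SymU (m + 1)) : F U = F (dgS m (detC U)) := by
  obtain ⟨V, hV⟩ := exists_rep U
  conv_lhs => rw [← hV]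
  exact hF _ _

/-- invariance of a measure under `SU(m)` -/
def Inv (P : Measure (SymU m)) : Prop := ∀ V : SG m, P.map (V • ·) = P

lemma Inv.integral_smul {E : Type*} [NormedAddCommGroup E] [NormedSpace ℝ E]
    {P : Measure (SymU m)} (h : Inv P) (V : SG m)
    (f : SymU m → E) : ∫ U, f (V • U) ∂P = ∫ U, f U ∂P := by
  have he : MeasurableEmbedding fun x : SymU m => V • x := (Homeomorph.smul V).measurableEmbedding
  conv_rhs => rw [← h V]
  rw [he.integral_map]

/-- scalar multiplication by a phase -/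
noncomputable def scal (c : Circle) (U : SymU m) : SymU m :=
  SymU.mk ((c : ℂ) • U.val) ⟨by rw [transpose_smul, U.symm], by
    rw [mem_unitaryGroup_iff, star_smul, smul_mul_smul_comm, mem_unitaryGroup_iff.1 U.unit]
    have : (c : ℂ) * star (c : ℂ) = 1 := by
      rw [RCLike.star_def, Complex.mul_conj, Circle.normSq_coe]; norm_num
    rw [this, one_smul]⟩

@[simp] lemma scal_apply (c : Circle) (U : SymU m) (i j : Fin m) :
    (scal c U).val i j = (c : ℂ) * U.val i j := rfl

lemma det_scal (c : Circle) (U : SymU m) : (scal c U).val.det = (c : ℂ) ^ m * U.val.det := by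
  show ((c : ℂ) • U.val).det = _
  rw [det_smul, Fintype.card_fin]

lemma smul_scal (V : SG m) (c : Circle) (U : SymU m) : V • scal c U = scal c (V • U) := by
  apply SymU.ext
  show V.val * ((c : ℂ) • U.val) * V.valᵀ = (c : ℂ) • (V.val * U.val * V.valᵀ)
  rw [Matrix.mul_smul, Matrix.smul_mul]

/-- the average of a function of `U 0 0` is constant (size at least two) -/
lemma avg_const (g : ℂ → ℂ) (hg : Measurable g) (U W : SymU (m + 2)) :
    avg (SG (m + 2)) (fun U : SymU (m + 2) => g (U.val 0 0)) U =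
      avg (SG (m + 2)) (fun U : SymU (m + 2) => g (U.val 0 0)) W := by
  set F := avg (SG (m + 2)) (fun U : SymU (m + 2) => g (U.val 0 0)) with hF
  have hinv : ∀ (V : SG (m + 2)) U, F (V • U) = F U := fun V U => avg_smul _ V U
  have h01 : (0 : Fin (m + 2)) ≠ 1 := by simp
  -- invariance under phases
  have hsc : ∀ (c : Circle) (U : SymU (m + 2)), F (scal c U) = F U := by
    intro c U
    obtain ⟨w, hw, hw1⟩ := exists_sqrt (c : ℂ) c.norm_coe
    have h1 : F U = avg (SG (m + 2)) (fun U : SymU (m + 2) =>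
        g (((phs h01 w hw1) • U).val 0 0)) U := (avg_comp _ (phs h01 w hw1) U).symm
    rw [h1, hF]
    unfold avg
    refine integral_congr_ae (Eventually.of_forall fun V => ?_)
    simp only
    rw [phs_smul_apply, smul_scal, scal_apply]
    congr 1
    simp only [phd, if_true]
    rw [← hw]; ring
  -- adjust the determinant
  have hone : ∀ U : SymU (m + 2), F U = F (dgS (m + 1) 1) := by
    intro U
    obtain ⟨w, hw⟩ := IsAlgClosed.exists_pow_nat_eq (star U.val.det) (n := m + 2) (by omega)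
    have hw1 : ‖w‖ = 1 := by
      have := congrArg norm hw
      rw [norm_pow, norm_star, norm_det] at this
      exact (pow_eq_one_iff_of_nonneg (norm_nonneg _) (by omega)).1 this
    have h1 := hsc (mkC w hw1) U
    rw [← h1, eq_of_invariant hinv]
    congr 2
    apply Circle.ext
    rw [coe_detC, det_scal, coe_mkC, hw, Circle.coe_one, mul_comm, RCLike.star_def,
      Complex.mul_conj, Complex.normSq_eq_norm_sq, norm_det]
    norm_num
  rw [hone U, hone W]

/-- **independence** of `det U` and `U 0 0` -/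
theorem integral_det_mul (P : Measure (SymU (m + 2))) [IsProbabilityMeasure P] (hP : Inv P)
    (h : ℂ → ℂ) (hh : Measurable h) (Ch : ℝ) (hCh : ∀ U : SymU (m + 2), ‖h U.val.det‖ ≤ Ch)
    (g : ℂ → ℂ) (hg : Measurable g) (Cg : ℝ) (hCg : ∀ z, ‖g z‖ ≤ Cg) :
    ∫ U, h U.val.det * g (U.val 0 0) ∂P = (∫ U, h U.val.det ∂P) * ∫ U, g (U.val 0 0) ∂P := by
  have hm1 : Measurable fun U : SymU (m + 2) => h U.val.det := hh.comp continuous_det.measurable
  have hm2 : Measurable fun U : SymU (m + 2) => g (U.val 0 0) :=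
    hg.comp (SymU.continuous_entry 0 0).measurable
  have hCh0 : 0 ≤ Ch := (norm_nonneg _).trans (hCh (Classical.arbitrary _))
  set F := avg (SG (m + 2)) (fun U : SymU (m + 2) => g (U.val 0 0)) with hF
  set γ : ℂ := F (dgS (m + 1) 1) with hγ
  have hFγ : ∀ U, F U = γ := fun U => avg_const g hg U _
  have h1 : ∫ U, h U.val.det * g (U.val 0 0) ∂P = ∫ U, h U.val.det * γ ∂P := by
    have hm3 : Measurable fun U : SymU (m + 2) => h U.val.det * g (U.val 0 0) := hm1.mul hm2
    rw [integral_eq_integral_avg (G := SG (m + 2)) P hP hm3 (C := Ch * Cg)]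
    · refine integral_congr_ae (Eventually.of_forall fun U => ?_)
      have := avg_mul_invariant (G := SG (m + 2)) (f := fun U : SymU (m + 2) => g (U.val 0 0))
        (k := fun U : SymU (m + 2) => h U.val.det) (fun V U => by simp only [SG.det_smul]) U
      rw [← hF, hFγ] at this
      exact this
    · intro U
      rw [norm_mul]
      exact mul_le_mul (hCh U) (hCg _) (norm_nonneg _) hCh0
  have h2 : ∫ U, g (U.val 0 0) ∂P = γ := by
    rw [integral_eq_integral_avg (G := SG (m + 2)) P hP hm2 (C := Cg) (fun U => hCg _)]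
    have : (fun U => avg (SG (m + 2)) (fun U : SymU (m + 2) => g (U.val 0 0)) U) = fun _ => γ := by
      ext U; exact hFγ U
    rw [this]
    simp
  rw [h1, h2, integral_mul_const]

end Crest.Agent.R166.COE682
end

-- ▼ part R166/COEineq_682
section

/-!
Row 166, section 51 (COE lemma): the elementary inequality for the phase factor.
-/

set_option autoImplicit false

namespace Crest.Agent.R166.COE682

/-- the phase factor of closing a port -/
noncomputable def gph (u : ℂ) : ℂ := (1 - star u) / (1 - u)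

lemma norm_gph_le (u : ℂ) : ‖gph u‖ ≤ 1 := by
  unfold gph
  have h : ‖1 - star u‖ = ‖1 - u‖ := by
    have : (1 : ℂ) - star u = star (1 - u) := by simp
    rw [this, norm_star]
  rw [norm_div, h]
  by_cases h0 : ‖1 - u‖ = 0
  · simp [h0]
  · rw [div_self h0]

lemma norm_gph {u : ℂ} (hu : u ≠ 1) : ‖gph u‖ = 1 := by
  unfold gph
  have h : ‖1 - star u‖ = ‖1 - u‖ := by
    have : (1 : ℂ) - star u = star (1 - u) := by simp
    rw [this, norm_star]
  rw [norm_div, h, div_self]
  rw [norm_ne_zero_iff]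
  exact sub_ne_zero.2 hu.symm

lemma pow_sub_pow_approx (p q : ℂ) (hp : ‖p‖ = 1) (hq : ‖q‖ = 1) (k : ℕ) :
    ‖p ^ (k + 1) - q ^ (k + 1) - (k + 1) * (p - q) * q ^ k‖ ≤ (k * (k + 1) / 2) * ‖p - q‖ ^ 2 := by
  induction k with
  | zero => simp
  | succ k ih =>
    have h1 : p ^ (k + 1 + 1) - q ^ (k + 1 + 1) - ((k + 1 : ℕ) + 1) * (p - q) * q ^ (k + 1) =
        p * (p ^ (k + 1) - q ^ (k + 1) - (k + 1) * (p - q) * q ^ k) +
        (k + 1) * (p - q) * q ^ k * (p - q) := by
      push_cast; ring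
    rw [h1]
    refine (norm_add_le _ _).trans ?_
    rw [norm_mul, hp, one_mul]
    have h2 : ‖((k : ℂ) + 1) * (p - q) * q ^ k * (p - q)‖ = (k + 1) * ‖p - q‖ ^ 2 := by
      rw [norm_mul, norm_mul, norm_mul, norm_pow, hq, one_pow, mul_one]
      have : ‖(k : ℂ) + 1‖ = k + 1 := by
        have : (k : ℂ) + 1 = ((k + 1 : ℕ) : ℂ) := by push_cast; ring
        rw [this, Complex.norm_natCast]; push_cast; ring
      rw [this]; ring
    rw [h2]
    push_cast
    nlinarith [ih]

/-- lower bound for the difference of powers of nearby unimodular numbers -/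
lemma half_le_norm_pow_sub_pow (p q : ℂ) (hp : ‖p‖ = 1) (hq : ‖q‖ = 1) (k : ℕ)
    (h : (k + 1 : ℝ) * ‖p - q‖ ≤ 1) : ‖p - q‖ / 2 ≤ ‖p ^ (k + 1) - q ^ (k + 1)‖ := by
  have h1 := pow_sub_pow_approx p q hp hq k
  have h2 : ‖((k : ℂ) + 1) * (p - q) * q ^ k‖ = (k + 1) * ‖p - q‖ := by
    rw [norm_mul, norm_mul, norm_pow, hq, one_pow, mul_one]
    have : ‖(k : ℂ) + 1‖ = k + 1 := by
      have : (k : ℂ) + 1 = ((k + 1 : ℕ) : ℂ) := by push_cast; ring
      rw [this, Complex.norm_natCast]; push_cast; ring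
    rw [this]
  have h3 : ‖((k : ℂ) + 1) * (p - q) * q ^ k‖ ≤ ‖p ^ (k + 1) - q ^ (k + 1)‖ +
      ‖p ^ (k + 1) - q ^ (k + 1) - (k + 1) * (p - q) * q ^ k‖ := by
    have : ((k : ℂ) + 1) * (p - q) * q ^ k = (p ^ (k + 1) - q ^ (k + 1)) -
      (p ^ (k + 1) - q ^ (k + 1) - (k + 1) * (p - q) * q ^ k) := by ring
    conv_lhs => rw [this]
    exact norm_sub_le _ _
  rw [h2] at h3
  have h0 : 0 ≤ ‖p - q‖ := norm_nonneg _
  have hk : (0 : ℝ) ≤ k := Nat.cast_nonneg k
  have h4 : (k * (k + 1) / 2 : ℝ) * ‖p - q‖ ^ 2 ≤ (k / 2) * ‖p - q‖ := by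
    have : (k * (k + 1) / 2 : ℝ) * ‖p - q‖ ^ 2 = (k / 2) * ‖p - q‖ * ((k + 1) * ‖p - q‖) := by ring
    rw [this]
    exact mul_le_of_le_one_right (by positivity) h
  nlinarith [mul_nonneg hk h0]

lemma parallelogram_unit (x y : ℂ) (hx : ‖x‖ = 1) (hy : ‖y‖ = 1) :
    ‖x + y‖ ^ 2 = 4 - ‖x - y‖ ^ 2 := by
  have h := parallelogram_law_with_norm ℝ x y
  rw [hx, hy] at h
  nlinarith [h]

lemma gph_sub (u : ℂ) (h1 : u ≠ 1) (h2 : u ≠ -1) :
    gph u - gph (-u) = (2 * (u - star u)) / (1 - u ^ 2) := by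
  unfold gph
  have e1 : (1 - u) ≠ 0 := sub_ne_zero.2 h1.symm
  have e2 : (1 + u) ≠ 0 := by
    intro h
    exact h2 (eq_neg_of_add_eq_zero_right h)
  have e3 : (1 - u ^ 2) ≠ 0 := by
    have : 1 - u ^ 2 = (1 - u) * (1 + u) := by ring
    rw [this]
    exact mul_ne_zero e1 e2
  have e4 : (1 - -u) ≠ 0 := by simpa [sub_neg_eq_add] using e2
  rw [star_neg]
  field_simp
  ring

/-- **key inequality** -/
theorem key_ineq (k : ℕ) (u : ℂ) :
    ‖(gph u ^ (k + 1) + gph (-u) ^ (k + 1)) / 2‖ ≤
      1 - u.im ^ 2 / 4 + 9 * (k + 1) ^ 2 * ‖u‖ ^ 4 := by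
  have hle : ‖(gph u ^ (k + 1) + gph (-u) ^ (k + 1)) / 2‖ ≤ 1 := by
    rw [norm_div, Complex.norm_ofNat]
    have h1 : ‖gph u ^ (k + 1)‖ ≤ 1 := by
      rw [norm_pow]; exact pow_le_one₀ (norm_nonneg _) (norm_gph_le u)
    have h2 : ‖gph (-u) ^ (k + 1)‖ ≤ 1 := by
      rw [norm_pow]; exact pow_le_one₀ (norm_nonneg _) (norm_gph_le (-u))
    have h3 := norm_add_le (gph u ^ (k + 1)) (gph (-u) ^ (k + 1))
    rw [div_le_one (by norm_num)]
    linarith
  have him : |u.im| ≤ ‖u‖ := Complex.abs_im_le_norm u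
  have him2 : u.im ^ 2 ≤ ‖u‖ ^ 2 := by
    rw [← sq_abs]; exact pow_le_pow_left₀ (abs_nonneg _) him 2
  have hk : (0 : ℝ) ≤ k := Nat.cast_nonneg k
  by_cases hu : 6 * (k + 1) * ‖u‖ ≤ 1
  · have hn : ‖u‖ ≤ 1 / 6 := by nlinarith [norm_nonneg u, mul_nonneg hk (norm_nonneg u)]
    have hu1 : u ≠ 1 := by
      rintro rfl; rw [norm_one] at hn; linarith
    have hu2 : -u ≠ 1 := by
      intro h
      have : ‖-u‖ = 1 := by rw [h, norm_one]
      rw [norm_neg] at this; linarith
    have hu3 : u ≠ -1 := fun h => hu2 (by rw [h]; ring)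
    set p := gph u with hp
    set q := gph (-u) with hq
    have hp1 : ‖p‖ = 1 := norm_gph hu1
    have hq1 : ‖q‖ = 1 := norm_gph hu2
    have hd : ‖p - q‖ = 4 * |u.im| / ‖1 - u ^ 2‖ := by
      rw [hp, hq, gph_sub u hu1 hu3, norm_div]
      congr 1
      have : (2 : ℂ) * (u - star u) = ((4 * u.im : ℝ) : ℂ) * Complex.I := by
        have : u - star u = ((2 * u.im : ℝ) : ℂ) * Complex.I := Complex.sub_conj u
        rw [this]; push_cast; ring
      rw [this, norm_mul, Complex.norm_I, mul_one, Complex.norm_real, Real.norm_eq_abs, abs_mul]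
      norm_num
    have hu4 : ‖u ^ 2‖ ≤ 1 / 36 := by
      rw [norm_pow]; nlinarith [norm_nonneg u]
    have hA : 35 / 36 ≤ ‖1 - u ^ 2‖ := by
      have := norm_sub_norm_le (1 : ℂ) (u ^ 2)
      rw [norm_one] at this; linarith
    have hB : ‖1 - u ^ 2‖ ≤ 37 / 36 := by
      have := norm_sub_le (1 : ℂ) (u ^ 2)
      rw [norm_one] at this; linarith
    have hd1 : ‖p - q‖ ≤ 6 * ‖u‖ := by
      rw [hd, div_le_iff₀ (by linarith)]
      nlinarith [abs_nonneg u.im, norm_nonneg u]
    have hd2 : 3 * |u.im| ≤ ‖p - q‖ := by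
      rw [hd, le_div_iff₀ (by linarith)]
      nlinarith [abs_nonneg u.im]
    have hkd : (k + 1 : ℝ) * ‖p - q‖ ≤ 1 := by nlinarith
    have h5 := half_le_norm_pow_sub_pow p q hp1 hq1 k hkd
    have h6 := parallelogram_unit (p ^ (k + 1)) (q ^ (k + 1)) (by rw [norm_pow, hp1, one_pow])
      (by rw [norm_pow, hq1, one_pow])
    have h7 : ‖p ^ (k + 1) + q ^ (k + 1)‖ ^ 2 ≤ 4 - 9 / 4 * u.im ^ 2 := by
      rw [h6]
      have : 3 * |u.im| / 2 ≤ ‖p ^ (k + 1) - q ^ (k + 1)‖ := by linarith
      have h8 : (3 * |u.im| / 2) ^ 2 ≤ ‖p ^ (k + 1) - q ^ (k + 1)‖ ^ 2 :=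
        pow_le_pow_left₀ (by positivity) this 2
      have h9 : (3 * |u.im| / 2) ^ 2 = 9 / 4 * u.im ^ 2 := by
        rw [div_pow, mul_pow, sq_abs]; ring
      linarith
    rw [norm_div, Complex.norm_ofNat]
    have h10 : 0 ≤ 9 * ((k : ℝ) + 1) ^ 2 * ‖u‖ ^ 4 := by positivity
    have him3 : u.im ^ 2 ≤ 1 / 36 := by nlinarith [norm_nonneg u]
    have h11 : ‖p ^ (k + 1) + q ^ (k + 1)‖ ≤ 2 * (1 - u.im ^ 2 / 4) := by
      have hb : (0 : ℝ) ≤ 2 * (1 - u.im ^ 2 / 4) := by nlinarith
      refine (pow_le_pow_iff_left₀ (norm_nonneg _) hb two_ne_zero).1 ?_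
      nlinarith [sq_nonneg (u.im ^ 2)]
    rw [div_le_iff₀ (by norm_num)]
    nlinarith
  · push Not at hu
    have h12 : ‖u‖ ^ 2 / 4 ≤ 9 * (k + 1) ^ 2 * ‖u‖ ^ 4 := by
      have : 1 ≤ (6 * (k + 1) * ‖u‖) ^ 2 := one_le_pow₀ hu.le
      nlinarith [sq_nonneg ‖u‖]
    linarith

end Crest.Agent.R166.COE682
end

-- ▼ part R166/COEmom_682
section

/-!
Row 166, section 51 (COE lemma): second and fourth moments of `U 0 0` for invariant measures.
-/

set_option autoImplicit false
set_option linter.unusedSectionVars false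

namespace Crest.Agent.R166.COE682

open Matrix MeasureTheory Topology Filter

variable {m : ℕ}

/-- squared modulus of an entry -/
noncomputable def nsq (i j : Fin m) (U : SymU m) : ℝ := Complex.normSq (U.val i j)

lemma continuous_nsq (i j : Fin m) : Continuous (nsq i j) :=
  Complex.continuous_normSq.comp (SymU.continuous_entry i j)

lemma nsq_symm (i j : Fin m) (U : SymU m) : nsq i j U = nsq j i U := by
  unfold nsq; rw [U.entry_symm]

lemma integ {P : Measure (SymU m)} [IsProbabilityMeasure P] {f : SymU m → ℝ}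
    (hf : Continuous f) : Integrable f P :=
  hf.integrable_of_hasCompactSupport (HasCompactSupport.of_compactSpace f)

lemma nsq_swp {a b : Fin m} (hab : a ≠ b) (U : SymU m) (i j : Fin m) :
    nsq i j (swp hab • U) = nsq (Equiv.swap a b i) (Equiv.swap a b j) U := by
  unfold nsq swp
  rw [blk_smul_apply]
  by_cases hja : j = a
  · subst hja
    by_cases hia : i = j
    · subst hia; simp
    · by_cases hib : i = b
      · subst hib; simp [hia]
      · simp [hia, hib, Equiv.swap_apply_of_ne_of_ne]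
  · by_cases hjb : j = b
    · subst hjb
      by_cases hia : i = a
      · subst hia; simp [hja]
      · by_cases hib : i = j
        · subst hib; simp [hia]
        · simp [hia, hib, hja, Equiv.swap_apply_of_ne_of_ne]
    · by_cases hia : i = a
      · subst hia; simp [hja, hjb, Equiv.swap_apply_of_ne_of_ne]
      · by_cases hib : i = b
        · subst hib; simp [hia, hja, hjb, Equiv.swap_apply_of_ne_of_ne]
        · simp [hia, hib, hja, hjb, Equiv.swap_apply_of_ne_of_ne]

lemma rt_smul_00 {a b : Fin m} (hab : a ≠ b) (U : SymU m) :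
    (rt hab • U).val a a = (U.val a a + 2 * U.val a b + U.val b b) / 2 := by
  unfold rt
  rw [blk_smul_apply]
  have h : ((Real.sqrt 2)⁻¹ : ℝ) * (Real.sqrt 2)⁻¹ = 1 / 2 := by
    rw [← mul_inv, Real.mul_self_sqrt (by norm_num)]; norm_num
  have h' : ((((Real.sqrt 2)⁻¹ : ℝ) : ℂ)) * (((Real.sqrt 2)⁻¹ : ℝ) : ℂ) = 1 / 2 := by
    rw [← Complex.ofReal_mul, h]; norm_num
  have hs := U.entry_symm b a
  generalize hc : (((Real.sqrt 2)⁻¹ : ℝ) : ℂ) = c at *
  simp only [if_true, Matrix.of_apply, Matrix.cons_val', Matrix.cons_val_zero, Matrix.cons_val_one]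
  rw [hs]
  linear_combination (U.val a a + 2 * U.val a b + U.val b b) * h'

lemma rt_smul_01 {a b : Fin m} (hab : a ≠ b) (U : SymU m) :
    (rt hab • U).val a b = (U.val b b - U.val a a) / 2 := by
  unfold rt
  rw [blk_smul_apply]
  have h : ((Real.sqrt 2)⁻¹ : ℝ) * (Real.sqrt 2)⁻¹ = 1 / 2 := by
    rw [← mul_inv, Real.mul_self_sqrt (by norm_num)]; norm_num
  have h' : ((((Real.sqrt 2)⁻¹ : ℝ) : ℂ)) * (((Real.sqrt 2)⁻¹ : ℝ) : ℂ) = 1 / 2 := by
    rw [← Complex.ofReal_mul, h]; norm_num
  have hs := U.entry_symm b a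
  rw [Complex.ofReal_neg]
  generalize hc : (((Real.sqrt 2)⁻¹ : ℝ) : ℂ) = c at *
  simp only [if_true, hab.symm, if_false, Matrix.of_apply, Matrix.cons_val', Matrix.cons_val_zero,
    Matrix.cons_val_one]
  rw [hs]
  linear_combination (U.val b b - U.val a a) * h'

section moments

variable (P : Measure (SymU (m + 3))) [IsProbabilityMeasure P] (hP : Inv P)

include hP

/-- phases: `(a,b,c) ↦ (τ² a, τ b, c)` -/
lemma int_phase (F : ℂ → ℂ → ℂ → ℝ) (τ : ℂ) (hτ : ‖τ‖ = 1) :
    ∫ U, F (U.val 0 0) (U.val 0 1) (U.val 1 1) ∂P =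
      ∫ U, F (τ * τ * U.val 0 0) (τ * U.val 0 1) (U.val 1 1) ∂P := by
  have h02 : (0 : Fin (m + 3)) ≠ 2 := by
    simp [Fin.ext_iff, Fin.val_ofNat, Nat.mod_eq_of_lt (show 2 < m + 3 by omega)]
  have h12 : (1 : Fin (m + 3)) ≠ 2 := by
    simp [Fin.ext_iff, Fin.val_ofNat, Nat.mod_eq_of_lt (show 2 < m + 3 by omega)]
  have h10 : (1 : Fin (m + 3)) ≠ 0 := by
    intro h; have := congrArg Fin.val h; simp at this
  rw [← hP.integral_smul (phs h02 τ hτ)]
  refine integral_congr_ae (Eventually.of_forall fun U => ?_)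
  simp only [phs_smul_apply, phd, if_true, h10, h12, if_false, mul_one, one_mul]
  congr 1
  ring

lemma int_swap (F : SymU (m + 3) → ℝ) {a b : Fin (m + 3)} (hab : a ≠ b) :
    ∫ U, F (swp hab • U) ∂P = ∫ U, F U ∂P := hP.integral_smul _ _

lemma int_nsq_11 : ∫ U, nsq 1 1 U ∂P = ∫ U, nsq 0 0 U ∂P := by
  have h01 : (0 : Fin (m + 3)) ≠ 1 := by
    intro h; have := congrArg Fin.val h; simp at this
  rw [← int_swap P hP (nsq 0 0) h01]
  simp only [nsq_swp, Equiv.swap_apply_left]

lemma int_nsq_0j (j : Fin (m + 3)) (hj : j ≠ 0) : ∫ U, nsq 0 j U ∂P = ∫ U, nsq 0 1 U ∂P := by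
  have h01 : (0 : Fin (m + 3)) ≠ 1 := by
    intro h; have := congrArg Fin.val h; simp at this
  by_cases h : j = 1
  · rw [h]
  · rw [← int_swap P hP (nsq 0 1) h]
    simp only [nsq_swp, Equiv.swap_apply_right, Equiv.swap_apply_of_ne_of_ne (Ne.symm hj) h01]

lemma int_nsq_00_0j (j : Fin (m + 3)) (hj : j ≠ 0) :
    ∫ U, nsq 0 0 U * nsq 0 j U ∂P = ∫ U, nsq 0 0 U * nsq 0 1 U ∂P := by
  have h01 : (0 : Fin (m + 3)) ≠ 1 := by
    intro h; have := congrArg Fin.val h; simp at this
  by_cases h : j = 1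
  · rw [h]
  · rw [← int_swap P hP (fun U => nsq 0 0 U * nsq 0 1 U) h]
    simp only [nsq_swp, Equiv.swap_apply_right, Equiv.swap_apply_of_ne_of_ne (Ne.symm hj) h01]

lemma int_nsq_01_11 : ∫ U, nsq 0 1 U * nsq 1 1 U ∂P = ∫ U, nsq 0 0 U * nsq 0 1 U ∂P := by
  have h01 : (0 : Fin (m + 3)) ≠ 1 := by
    intro h; have := congrArg Fin.val h; simp at this
  rw [← int_swap P hP (fun U => nsq 0 0 U * nsq 0 1 U) h01]
  simp only [nsq_swp, Equiv.swap_apply_left, Equiv.swap_apply_right]
  refine integral_congr_ae (Eventually.of_forall fun U => ?_)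
  simp only
  rw [nsq_symm 1 0, mul_comm]

lemma int_nsq_11_sq : ∫ U, nsq 1 1 U ^ 2 ∂P = ∫ U, nsq 0 0 U ^ 2 ∂P := by
  have h01 : (0 : Fin (m + 3)) ≠ 1 := by
    intro h; have := congrArg Fin.val h; simp at this
  rw [← int_swap P hP (fun U => nsq 0 0 U ^ 2) h01]
  simp only [nsq_swp, Equiv.swap_apply_left]

omit hP in
lemma sum_nsq (U : SymU (m + 3)) : nsq 0 0 U + ∑ j : Fin (m + 2), nsq 0 j.succ U = 1 := by
  have h := sum_normSq_row U.unit 0
  rw [Fin.sum_univ_succ] at h
  exact h

/-- average over the four phases -/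
lemma int_four (F : ℂ → ℂ → ℂ → ℝ) (hF : Continuous fun p : ℂ × ℂ × ℂ => F p.1 p.2.1 p.2.2) :
    4 * ∫ U, F (U.val 0 0) (U.val 0 1) (U.val 1 1) ∂P =
      ∫ U, (F (U.val 0 0) (U.val 0 1) (U.val 1 1) +
        F (-U.val 0 0) (Complex.I * U.val 0 1) (U.val 1 1) +
        F (U.val 0 0) (-U.val 0 1) (U.val 1 1) +
        F (-U.val 0 0) (-(Complex.I * U.val 0 1)) (U.val 1 1)) ∂P := by
  have hc : ∀ x y : ℂ, Continuous fun U : SymU (m + 3) =>
      F (x * U.val 0 0) (y * U.val 0 1) (U.val 1 1) := by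
    intro x y
    have : Continuous fun U : SymU (m + 3) => (x * U.val 0 0, y * U.val 0 1, U.val 1 1) := by
      refine (continuous_const.mul (SymU.continuous_entry _ _)).prodMk
        ((continuous_const.mul (SymU.continuous_entry _ _)).prodMk (SymU.continuous_entry _ _))
    exact hF.comp this
  have e1 := int_phase P hP F Complex.I Complex.norm_I
  have e2 := int_phase P hP F (-1) (by simp)
  have e3 := int_phase P hP F (-Complex.I) (by simp)
  have i0 : Integrable (fun U : SymU (m + 3) => F (U.val 0 0) (U.val 0 1) (U.val 1 1)) P :=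
    integ (by simpa using hc 1 1)
  have i1 : Integrable (fun U : SymU (m + 3) =>
      F (-U.val 0 0) (Complex.I * U.val 0 1) (U.val 1 1)) P :=
    integ (by simpa using hc (-1) Complex.I)
  have i2 : Integrable (fun U : SymU (m + 3) =>
      F (U.val 0 0) (-U.val 0 1) (U.val 1 1)) P :=
    integ (by simpa using hc 1 (-1))
  have i3 : Integrable (fun U : SymU (m + 3) =>
      F (-U.val 0 0) (-(Complex.I * U.val 0 1)) (U.val 1 1)) P :=
    integ (by simpa using hc (-1) (-Complex.I))
  have i01 : Integrable (fun U : SymU (m + 3) => F (U.val 0 0) (U.val 0 1) (U.val 1 1) +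
      F (-U.val 0 0) (Complex.I * U.val 0 1) (U.val 1 1)) P := i0.add i1
  have i02 : Integrable (fun U : SymU (m + 3) => F (U.val 0 0) (U.val 0 1) (U.val 1 1) +
      F (-U.val 0 0) (Complex.I * U.val 0 1) (U.val 1 1) +
      F (U.val 0 0) (-U.val 0 1) (U.val 1 1)) P := i01.add i2
  rw [integral_add i02 i3, integral_add i01 i2, integral_add i0 i1]
  simp only [Complex.I_mul_I, neg_mul, one_mul, mul_neg, neg_neg] at e1 e2 e3
  linarith

/-- second moments -/
lemma int_q : 2 * ∫ U, nsq 0 1 U ∂P = ∫ U, nsq 0 0 U ∂P := by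
  have h01 : (0 : Fin (m + 3)) ≠ 1 := by
    intro h; have := congrArg Fin.val h; simp at this
  have h1 : ∫ U, nsq 0 0 U ∂P =
      ∫ U, Complex.normSq ((U.val 0 0 + 2 * U.val 0 1 + U.val 1 1) / 2) ∂P := by
    rw [← hP.integral_smul (rt h01)]
    refine integral_congr_ae (Eventually.of_forall fun U => ?_)
    simp only [nsq, rt_smul_00]
  have h2 := int_four P hP (fun a b c => Complex.normSq ((a + 2 * b + c) / 2))
    (Complex.continuous_normSq.comp (by fun_prop))
  rw [← h1] at h2
  have h3 : ∫ U : SymU (m + 3), (Complex.normSq ((U.val 0 0 + 2 * U.val 0 1 + U.val 1 1) / 2) +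
        Complex.normSq ((-U.val 0 0 + 2 * (Complex.I * U.val 0 1) + U.val 1 1) / 2) +
        Complex.normSq ((U.val 0 0 + 2 * (-U.val 0 1) + U.val 1 1) / 2) +
        Complex.normSq ((-U.val 0 0 + 2 * (-(Complex.I * U.val 0 1)) + U.val 1 1) / 2)) ∂P =
      ∫ U, (nsq 0 0 U + 4 * nsq 0 1 U + nsq 1 1 U) ∂P := by
    refine integral_congr_ae (Eventually.of_forall fun U => ?_)
    simp only [nsq, Complex.normSq_div]
    simp only [Complex.normSq_apply, Complex.add_re, Complex.add_im,
      Complex.mul_re, Complex.mul_im, Complex.I_re, Complex.I_im, Complex.neg_re, Complex.neg_im,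
      Complex.re_ofNat, Complex.im_ofNat]
    ring
  rw [h3, integral_add, integral_add, integral_const_mul, int_nsq_11 P hP] at h2
  · linarith
  · exact integ (continuous_nsq _ _)
  · exact integ (continuous_const.mul (continuous_nsq _ _))
  · exact (integ (continuous_nsq _ _)).add (integ (continuous_const.mul (continuous_nsq _ _)))
  · exact integ (continuous_nsq _ _)

theorem int_s : ∫ U, nsq 0 0 U ∂P = 2 / ((m : ℝ) + 4) := by
  have h1 : ∫ U, (nsq 0 0 U + ∑ j : Fin (m + 2), nsq 0 j.succ U) ∂P = 1 := by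
    simp only [sum_nsq]; simp
  rw [integral_add (integ (continuous_nsq _ _))
    (integrable_finsetSum _ fun j _ => integ (continuous_nsq _ _)),
    integral_finsetSum _ (fun j _ => integ (continuous_nsq _ _))] at h1
  have h2 : ∀ j : Fin (m + 2), ∫ U, nsq 0 j.succ U ∂P = (∫ U, nsq 0 0 U ∂P) / 2 := by
    intro j
    rw [int_nsq_0j P hP _ (Fin.succ_ne_zero j), ← int_q P hP]
    ring
  rw [Finset.sum_congr rfl fun j _ => h2 j, Finset.sum_const, Finset.card_univ, Fintype.card_fin,
    nsmul_eq_mul] at h1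
  push_cast at h1
  have h3 : ((m : ℝ) + 4) ≠ 0 := by positivity
  field_simp
  linarith

/-- fourth moments -/
lemma int_A : 4 * ∫ U, nsq 0 0 U * nsq 0 1 U ∂P = ∫ U, nsq 0 0 U ^ 2 ∂P := by
  have h01 : (0 : Fin (m + 3)) ≠ 1 := by
    intro h; have := congrArg Fin.val h; simp at this
  have h1 : ∫ U, nsq 0 0 U * nsq 0 1 U ∂P =
      ∫ U, Complex.normSq ((U.val 0 0 + 2 * U.val 0 1 + U.val 1 1) / 2) *
        Complex.normSq ((U.val 1 1 - U.val 0 0) / 2) ∂P := by
    rw [← hP.integral_smul (rt h01)]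
    refine integral_congr_ae (Eventually.of_forall fun U => ?_)
    simp only [nsq, rt_smul_00, rt_smul_01]
  have h2 := int_four P hP (fun a b c => Complex.normSq ((a + 2 * b + c) / 2) *
    Complex.normSq ((c - a) / 2))
    ((Complex.continuous_normSq.comp (by fun_prop)).mul
      (Complex.continuous_normSq.comp (by fun_prop)))
  rw [← h1] at h2
  set R : SymU (m + 3) → ℝ := fun U => Complex.normSq (U.val 1 1 ^ 2 - U.val 0 0 ^ 2) with hR
  set S : SymU (m + 3) → ℝ := fun U => Complex.normSq (U.val 1 1 ^ 2 + U.val 0 0 ^ 2) with hS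
  have hRc : Continuous R := Complex.continuous_normSq.comp
    (((SymU.continuous_entry 1 1).pow 2).sub ((SymU.continuous_entry 0 0).pow 2))
  have hSc : Continuous S := Complex.continuous_normSq.comp
    (((SymU.continuous_entry 1 1).pow 2).add ((SymU.continuous_entry 0 0).pow 2))
  have h3 : ∫ U : SymU (m + 3), (Complex.normSq ((U.val 0 0 + 2 * U.val 0 1 + U.val 1 1) / 2) *
          Complex.normSq ((U.val 1 1 - U.val 0 0) / 2) +
        Complex.normSq ((-U.val 0 0 + 2 * (Complex.I * U.val 0 1) + U.val 1 1) / 2) *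
          Complex.normSq ((U.val 1 1 - -U.val 0 0) / 2) +
        Complex.normSq ((U.val 0 0 + 2 * (-U.val 0 1) + U.val 1 1) / 2) *
          Complex.normSq ((U.val 1 1 - U.val 0 0) / 2) +
        Complex.normSq ((-U.val 0 0 + 2 * (-(Complex.I * U.val 0 1)) + U.val 1 1) / 2) *
          Complex.normSq ((U.val 1 1 - -U.val 0 0) / 2)) ∂P =
      ∫ U, ((1 / 4) * R U + nsq 0 1 U * nsq 1 1 U + nsq 0 0 U * nsq 0 1 U) ∂P := by
    refine integral_congr_ae (Eventually.of_forall fun U => ?_)
    simp only [nsq, hR, Complex.normSq_div]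
    simp only [Complex.normSq_apply, Complex.add_re, Complex.add_im,
      Complex.mul_re, Complex.mul_im, Complex.I_re, Complex.I_im, Complex.neg_re, Complex.neg_im,
      Complex.re_ofNat, Complex.im_ofNat, Complex.sub_re, Complex.sub_im, pow_two]
    ring
  have i1 : Integrable (fun U => (1 / 4) * R U) P := integ (continuous_const.mul hRc)
  have i2 : Integrable (fun U => nsq 0 1 U * nsq 1 1 U) P :=
    integ ((continuous_nsq 0 1).mul (continuous_nsq 1 1))
  have i3 : Integrable (fun U => nsq 0 0 U * nsq 0 1 U) P :=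
    integ ((continuous_nsq 0 0).mul (continuous_nsq 0 1))
  have i12 : Integrable (fun U => (1 / 4) * R U + nsq 0 1 U * nsq 1 1 U) P := i1.add i2
  rw [h3, integral_add i12 i3, integral_add i1 i2, integral_const_mul,
    int_nsq_01_11 P hP] at h2
  -- the square terms
  obtain ⟨τ, hτ, hτ1⟩ := exists_sqrt Complex.I Complex.norm_I
  have h4 : ∫ U, R U ∂P = ∫ U, S U ∂P := by
    rw [hR, int_phase P hP (fun a _ c => Complex.normSq (c ^ 2 - a ^ 2)) τ hτ1]
    refine integral_congr_ae (Eventually.of_forall fun U => ?_)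
    simp only [hS, hτ]
    congr 1
    rw [mul_pow, Complex.I_sq]; ring
  have h5 : ∫ U, (R U + S U) ∂P = ∫ U, (2 * nsq 0 0 U ^ 2 + 2 * nsq 1 1 U ^ 2) ∂P := by
    refine integral_congr_ae (Eventually.of_forall fun U => ?_)
    simp only [nsq, hR, hS, Complex.normSq_apply, Complex.add_re, Complex.add_im,
      Complex.mul_re, Complex.mul_im, Complex.sub_re, Complex.sub_im, pow_two]
    ring
  have i6 : Integrable (fun U : SymU (m + 3) => 2 * nsq 0 0 U ^ 2) P :=
    integ (continuous_const.mul ((continuous_nsq _ _).pow 2))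
  have i7 : Integrable (fun U : SymU (m + 3) => 2 * nsq 1 1 U ^ 2) P :=
    integ (continuous_const.mul ((continuous_nsq _ _).pow 2))
  rw [integral_add (integ hRc) (integ hSc), integral_add i6 i7, integral_const_mul,
    integral_const_mul, int_nsq_11_sq P hP, ← h4] at h5
  linarith

theorem int_M : ∫ U, nsq 0 0 U ^ 2 ∂P = 8 / (((m : ℝ) + 4) * (m + 6)) := by
  have h1 : ∫ U, nsq 0 0 U * (nsq 0 0 U + ∑ j : Fin (m + 2), nsq 0 j.succ U) ∂P =
      2 / ((m : ℝ) + 4) := by
    simp only [sum_nsq, mul_one]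
    exact int_s P hP
  have h2 : ∫ U, nsq 0 0 U * (nsq 0 0 U + ∑ j : Fin (m + 2), nsq 0 j.succ U) ∂P =
      ∫ U, (nsq 0 0 U ^ 2 + ∑ j : Fin (m + 2), nsq 0 0 U * nsq 0 j.succ U) ∂P := by
    refine integral_congr_ae (Eventually.of_forall fun U => ?_)
    simp only [mul_add, Finset.mul_sum, pow_two]
  have i1 : Integrable (fun U : SymU (m + 3) => nsq 0 0 U ^ 2) P :=
    integ ((continuous_nsq _ _).pow 2)
  have i2 : ∀ j : Fin (m + 2), Integrable (fun U : SymU (m + 3) => nsq 0 0 U * nsq 0 j.succ U) P :=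
    fun j => integ ((continuous_nsq _ _).mul (continuous_nsq _ _))
  rw [h2, integral_add i1 (integrable_finsetSum _ fun j _ => i2 j),
    integral_finsetSum _ (fun j _ => i2 j)] at h1
  have h3 : ∀ j : Fin (m + 2), ∫ U, nsq 0 0 U * nsq 0 j.succ U ∂P =
      (∫ U, nsq 0 0 U ^ 2 ∂P) / 4 := by
    intro j
    rw [int_nsq_00_0j P hP _ (Fin.succ_ne_zero j), ← int_A P hP]
    ring
  rw [Finset.sum_congr rfl fun j _ => h3 j, Finset.sum_const, Finset.card_univ, Fintype.card_fin,
    nsmul_eq_mul] at h1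
  push_cast at h1
  have h4 : ((m : ℝ) + 4) ≠ 0 := by positivity
  have h5 : ((m : ℝ) + 6) ≠ 0 := by positivity
  field_simp at h1 ⊢
  linarith

lemma int_im : ∫ U : SymU (m + 3), (U.val 0 0).im ^ 2 ∂P = 1 / ((m : ℝ) + 4) := by
  obtain ⟨τ, hτ, hτ1⟩ := exists_sqrt Complex.I Complex.norm_I
  have h1 := int_phase P hP (fun a _ _ => a.im ^ 2) τ hτ1
  simp only [hτ] at h1
  have h2 : ∫ U : SymU (m + 3), ((U.val 0 0).im ^ 2 + (Complex.I * U.val 0 0).im ^ 2) ∂P =
      ∫ U, nsq 0 0 U ∂P := by
    refine integral_congr_ae (Eventually.of_forall fun U => ?_)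
    simp only [nsq, Complex.normSq_apply, Complex.mul_im, Complex.I_re, Complex.I_im]
    ring
  have c1 : Continuous fun U : SymU (m + 3) => (U.val 0 0).im ^ 2 :=
    (Complex.continuous_im.comp (SymU.continuous_entry 0 0)).pow 2
  have c2 : Continuous fun U : SymU (m + 3) => (Complex.I * U.val 0 0).im ^ 2 :=
    (Complex.continuous_im.comp (continuous_const.mul (SymU.continuous_entry 0 0))).pow 2
  rw [integral_add (integ c1) (integ c2), ← h1, int_s P hP] at h2
  have h4 : ((m : ℝ) + 4) ≠ 0 := by positivity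
  field_simp at h2 ⊢
  linarith

/-- the phase factor -/
theorem norm_gamma_le (k : ℕ) :
    ‖∫ U : SymU (m + 3), gph (U.val 0 0) ^ (k + 1) ∂P‖ ≤
      1 - 1 / (4 * ((m : ℝ) + 4)) + 72 * (k + 1) ^ 2 / (((m : ℝ) + 4) * (m + 6)) := by
  have h01 : (0 : Fin (m + 3)) ≠ 1 := by
    intro h; have := congrArg Fin.val h; simp at this
  have hgm : Measurable gph := by
    unfold gph
    exact (measurable_const.sub continuous_star.measurable).div (measurable_const.sub measurable_id)
  have hm : ∀ c : ℂ, Measurable fun U : SymU (m + 3) => gph (c * U.val 0 0) ^ (k + 1) := fun c =>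
    (hgm.comp (measurable_const.mul (SymU.continuous_entry 0 0).measurable)).pow_const _
  have hb : ∀ z, ‖gph z ^ (k + 1)‖ ≤ 1 := fun z => by
    rw [norm_pow]; exact pow_le_one₀ (norm_nonneg _) (norm_gph_le z)
  have i1 : Integrable (fun U : SymU (m + 3) => gph (U.val 0 0) ^ (k + 1)) P :=
    Integrable.of_bound (by simpa using (hm 1).aestronglyMeasurable) 1
      (Eventually.of_forall fun U => hb _)
  have i2 : Integrable (fun U : SymU (m + 3) => gph (-U.val 0 0) ^ (k + 1)) P :=
    Integrable.of_bound (by simpa using (hm (-1)).aestronglyMeasurable) 1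
      (Eventually.of_forall fun U => hb _)
  have h1 : ∫ U : SymU (m + 3), gph (U.val 0 0) ^ (k + 1) ∂P =
      ∫ U : SymU (m + 3), gph (-U.val 0 0) ^ (k + 1) ∂P := by
    rw [← hP.integral_smul (phs h01 Complex.I Complex.norm_I)]
    refine integral_congr_ae (Eventually.of_forall fun U => ?_)
    simp only [phs_smul_apply, phd, if_true]
    congr 2
    rw [mul_comm, ← mul_assoc, Complex.I_mul_I]; ring
  have h2 : ∫ U : SymU (m + 3), gph (U.val 0 0) ^ (k + 1) ∂P =
      ∫ U : SymU (m + 3), (gph (U.val 0 0) ^ (k + 1) + gph (-U.val 0 0) ^ (k + 1)) / 2 ∂P := by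
    rw [integral_div, integral_add i1 i2, ← h1]; ring
  rw [h2]
  have c1 : Continuous fun U : SymU (m + 3) => (U.val 0 0).im ^ 2 :=
    (Complex.continuous_im.comp (SymU.continuous_entry 0 0)).pow 2
  have i3 : Integrable (fun U : SymU (m + 3) => (1 : ℝ) - (U.val 0 0).im ^ 2 / 4) P :=
    integ (continuous_const.sub (c1.div_const 4))
  have i4 : Integrable (fun U : SymU (m + 3) => 9 * ((k : ℝ) + 1) ^ 2 * nsq 0 0 U ^ 2) P :=
    integ (continuous_const.mul ((continuous_nsq 0 0).pow 2))
  calc ‖∫ U : SymU (m + 3), (gph (U.val 0 0) ^ (k + 1) + gph (-U.val 0 0) ^ (k + 1)) / 2 ∂P‖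
      ≤ ∫ U : SymU (m + 3), ‖(gph (U.val 0 0) ^ (k + 1) + gph (-U.val 0 0) ^ (k + 1)) / 2‖ ∂P :=
        norm_integral_le_integral_norm _
    _ ≤ ∫ U : SymU (m + 3), (1 - (U.val 0 0).im ^ 2 / 4 + 9 * ((k : ℝ) + 1) ^ 2 * nsq 0 0 U ^ 2) ∂P := by
        refine integral_mono ((i1.add i2).div_const 2).norm (i3.add i4) fun U => ?_
        have h3 := key_ineq k (U.val 0 0)
        have h4 : nsq 0 0 U ^ 2 = ‖U.val 0 0‖ ^ 4 := by
          unfold nsq; rw [Complex.normSq_eq_norm_sq]; ring
        simp only [h4]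
        exact h3
    _ = _ := by
        rw [integral_add i3 i4, integral_sub (integrable_const _) (integ (c1.div_const 4)),
          integral_div, integral_const_mul, int_im P hP, int_M P hP]
        simp only [integral_const, probReal_univ, smul_eq_mul, mul_one]
        have h4 : ((m : ℝ) + 4) ≠ 0 := by positivity
        have h5 : ((m : ℝ) + 6) ≠ 0 := by positivity
        field_simp
        ring

end moments

end Crest.Agent.R166.COE682
end

-- ▼ part R166/COEexact_682
section

/-!
Row 166, section 51 (COE lemma): the exact uniqueness theorem.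
-/

set_option autoImplicit false
set_option linter.unusedSectionVars false

namespace Crest.Agent.R166.COE682

open Matrix MeasureTheory Topology Filter

/-! ### Laws on the circle are determined by their moments -/

section circle

open AddCircle

instance factOne : Fact (0 < (1 : ℝ)) := ⟨one_pos⟩

lemma integral_circle_eq {X : Type*} [MeasurableSpace X] [TopologicalSpace X] [BorelSpace X]
    (P Q : Measure X)
    [IsProbabilityMeasure P] [IsProbabilityMeasure Q] (D : X → Circle) (hD : Continuous D)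
    (h : ∀ k : ℕ, ∫ x, (D x : ℂ) ^ (k + 1) ∂P = ∫ x, (D x : ℂ) ^ (k + 1) ∂Q)
    (φ : Circle → ℂ) (hφ : Continuous φ) : ∫ x, φ (D x) ∂P = ∫ x, φ (D x) ∂Q := by
  set e : AddCircle (1 : ℝ) ≃ₜ Circle := homeomorphCircle one_ne_zero with he
  -- integrability
  have hint : ∀ (ν : Measure X) [IsProbabilityMeasure ν] (g : C(AddCircle (1 : ℝ), ℂ)),
      Integrable (fun x => g (e.symm (D x))) ν := by
    intro ν _ g
    refine Integrable.of_bound (C := ‖g‖) ?_ (Eventually.of_forall fun x => g.norm_coe_le_norm _)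
    exact ((g.continuous.comp e.symm.continuous).comp hD).measurable.aestronglyMeasurable
  -- all integer powers
  have hz : ∀ n : ℤ, ∫ x, (fourier n (e.symm (D x)) : ℂ) ∂P =
      ∫ x, (fourier n (e.symm (D x)) : ℂ) ∂Q := by
    have hf : ∀ (n : ℕ) (x : X), (fourier (n : ℤ) (e.symm (D x)) : ℂ) = (D x : ℂ) ^ n := by
      intro n x
      rw [fourier_apply, natCast_zsmul, toCircle_nsmul, ← homeomorphCircle_apply one_ne_zero,
        ← he, Homeomorph.apply_symm_apply, Circle.coe_pow]
    have hn : ∀ n : ℕ, ∫ x, (fourier (n : ℤ) (e.symm (D x)) : ℂ) ∂P =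
        ∫ x, (fourier (n : ℤ) (e.symm (D x)) : ℂ) ∂Q := by
      intro n
      simp only [hf]
      cases n with
      | zero => simp
      | succ n => exact h n
    intro n
    obtain ⟨k, rfl | rfl⟩ := n.eq_nat_or_neg
    · exact hn k
    · simp only [fourier_neg]
      rw [integral_conj, integral_conj, hn k]
  -- span
  have hs : ∀ g ∈ Submodule.span ℂ (Set.range (@fourier (1 : ℝ))),
      ∫ x, (g (e.symm (D x)) : ℂ) ∂P = ∫ x, (g (e.symm (D x)) : ℂ) ∂Q := by
    intro g hg
    induction hg using Submodule.span_induction with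
    | mem g hg => obtain ⟨n, rfl⟩ := hg; exact hz n
    | zero => simp
    | add f g _ _ hf hg =>
      simp only [ContinuousMap.add_apply]
      rw [integral_add (hint P f) (hint P g), integral_add (hint Q f) (hint Q g), hf, hg]
    | smul c g _ hg =>
      simp only [ContinuousMap.smul_apply]
      rw [integral_smul, integral_smul, hg]
  -- density
  set ψ : C(AddCircle (1 : ℝ), ℂ) := ⟨fun x => φ (e x), hφ.comp e.continuous⟩ with hψ
  have hψ1 : ∀ x, φ (D x) = ψ (e.symm (D x)) := fun x => by simp [hψ]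
  simp only [hψ1]
  have hdense : ψ ∈ closure
      (Submodule.span ℂ (Set.range (@fourier (1 : ℝ))) : Set C(AddCircle (1 : ℝ), ℂ)) := by
    rw [← Submodule.topologicalClosure_coe, span_fourier_closure_eq_top]
    trivial
  have hb : ∀ (ν : Measure X) [IsProbabilityMeasure ν] (f g : C(AddCircle (1 : ℝ), ℂ)),
      ‖(∫ x, f (e.symm (D x)) ∂ν) - ∫ x, g (e.symm (D x)) ∂ν‖ ≤ ‖f - g‖ := by
    intro ν _ f g
    rw [← integral_sub (hint ν f) (hint ν g)]
    refine (norm_integral_le_of_norm_le_const (C := ‖f - g‖)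
      (Eventually.of_forall fun x => ?_)).trans (by simp)
    exact (f - g).norm_coe_le_norm _
  rw [← sub_eq_zero, ← norm_eq_zero]
  refine le_antisymm (le_of_forall_pos_le_add fun ε hε => ?_) (norm_nonneg _)
  obtain ⟨g, hg, hgε⟩ := Metric.mem_closure_iff.1 hdense (ε / 2) (by positivity)
  have h1 := hb P ψ g
  have h2 := hb Q ψ g
  have h3 := hs g hg
  rw [dist_eq_norm] at hgε
  have h4 : (∫ x, ψ (e.symm (D x)) ∂P) - ∫ x, ψ (e.symm (D x)) ∂Q =
      ((∫ x, ψ (e.symm (D x)) ∂P) - ∫ x, g (e.symm (D x)) ∂P) -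
      ((∫ x, ψ (e.symm (D x)) ∂Q) - ∫ x, g (e.symm (D x)) ∂Q) := by rw [h3]; ring
  rw [h4]
  refine (norm_sub_le _ _).trans ?_
  linarith

end circle

variable {m : ℕ}

/-- invariant laws are determined by the law of the determinant -/
theorem eq_of_moments (P Q : Measure (SymU (m + 1))) [IsProbabilityMeasure P]
    [IsProbabilityMeasure Q] (hP : Inv P) (hQ : Inv Q)
    (h : ∀ k : ℕ, ∫ U, U.val.det ^ (k + 1) ∂P = ∫ U, U.val.det ^ (k + 1) ∂Q) : P = Q := by
  refine ext_of_forall_integral_eq_of_IsFiniteMeasure fun f => ?_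
  set f' : SymU (m + 1) → ℂ := fun U => ((f U : ℝ) : ℂ) with hf'
  have hf'c : Continuous f' := Complex.continuous_ofReal.comp f.continuous
  have hf'b : ∀ U, ‖f' U‖ ≤ ‖f‖ := fun U => by
    rw [hf', Complex.norm_real]; exact f.norm_coe_le_norm U
  set F := avg (SG (m + 1)) f' with hF
  have hinv : ∀ (V : SG (m + 1)) U, F (V • U) = F U := fun V U => avg_smul _ V U
  have hFd := eq_of_invariant hinv
  have hcont : Continuous fun z : Circle => F (dgS m z) := by
    rw [hF]
    unfold avg
    refine continuous_of_dominated (bound := fun _ => ‖f‖) ?_ ?_ ?_ ?_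
    · intro z
      have : Continuous fun g : SG (m + 1) => f' (g • dgS m z) :=
        hf'c.comp (continuous_id.smul continuous_const)
      exact this.measurable.aestronglyMeasurable
    · exact fun z => Eventually.of_forall fun g => hf'b _
    · exact integrable_const _
    · exact Eventually.of_forall fun g =>
        hf'c.comp (continuous_const.smul continuous_dgS)
  have key : ∀ (ν : Measure (SymU (m + 1))) [IsProbabilityMeasure ν], Inv ν →
      ((∫ U, f U ∂ν : ℝ) : ℂ) = ∫ U, F (dgS m (detC U)) ∂ν := by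
    intro ν _ hν
    rw [← integral_complex_ofReal]
    have := integral_eq_integral_avg (G := SG (m + 1)) ν hν hf'c.measurable hf'b
    rw [← hF] at this
    refine Eq.trans this ?_
    exact integral_congr_ae (Eventually.of_forall fun U => hFd U)
  have h2 := integral_circle_eq P Q (detC : SymU (m + 1) → Circle) continuous_detC
    (fun k => by simpa using h k) (fun z => F (dgS m z)) hcont
  have h3 := (key P hP).trans (h2.trans (key Q hQ).symm)
  exact_mod_cast h3

/-! ### `U 0 0 ≠ 1` almost surely -/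

lemma ae_ne_one (P : Measure (SymU (m + 2))) [IsProbabilityMeasure P] (hP : Inv P) :
    ∀ᵐ U ∂P, U.val 0 0 ≠ 1 := by
  have h01 : (0 : Fin (m + 2)) ≠ 1 := by simp
  set A : Circle → Set (SymU (m + 2)) := fun z => {U | U.val 0 0 = (z : ℂ)} with hA
  have hAm : ∀ z, MeasurableSet (A z) := fun z =>
    (isClosed_eq (SymU.continuous_entry 0 0) continuous_const).measurableSet
  have hPA : ∀ z, P (A z) = P (A 1) := by
    intro z
    obtain ⟨w, hw, hw1⟩ := exists_sqrt (z : ℂ) z.norm_coe
    have hpre : (phs h01 w hw1 • · : SymU (m + 2) → SymU (m + 2)) ⁻¹' (A z) = A 1 := by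
      ext U
      simp only [hA, Set.mem_preimage, Set.mem_ofPred_eq, phs_smul_apply, phd, if_true,
        Circle.coe_one]
      constructor
      · intro h
        have h2 : (z : ℂ) * (U.val 0 0) = z * 1 := by rw [← hw, mul_one]; rw [← hw] at h; linear_combination h
        exact mul_left_cancel₀ z.coe_ne_zero h2
      · intro h
        rw [h, ← hw]; ring
    have hm : Measurable (phs h01 w hw1 • · : SymU (m + 2) → SymU (m + 2)) :=
      (continuous_const_smul _).measurable
    conv_lhs => rw [← hP (phs h01 w hw1), Measure.map_apply hm (hAm z), hpre]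
  have hdisj : Pairwise (Function.onFun Disjoint A) := by
    intro z w hzw
    refine Set.disjoint_left.2 fun U h1 h2 => hzw ?_
    apply Circle.ext
    exact (show U.val 0 0 = (z : ℂ) from h1).symm.trans h2
  by_contra hne
  have hpos : 0 < P (A 1) := by
    rw [pos_iff_ne_zero]
    intro h0
    apply hne
    rw [ae_iff]
    convert h0 using 2
    ext U
    simp [hA]
  have hfin := Measure.finite_const_le_meas_of_disjoint_iUnion P hpos hAm hdisj
    (measure_ne_top _ _)
  have : {i : Circle | P (A 1) ≤ P (A i)} = Set.univ := by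
    ext z; simp [hPA z]
  rw [this] at hfin
  have hinf : Infinite Circle := by
    have hI : Infinite (Set.Ioo (0 : ℝ) 1) := (Set.Ioo_infinite one_pos).to_subtype
    have : Function.Injective (fun t : Set.Ioo (0 : ℝ) 1 => Circle.exp (t : ℝ)) := by
      intro s t hst
      have h1 := Circle.arg_exp (x := (s : ℝ)) (by linarith [s.2.1, Real.pi_pos])
        (by linarith [s.2.2, Real.pi_gt_three])
      have h2 := Circle.arg_exp (x := (t : ℝ)) (by linarith [t.2.1, Real.pi_pos])
        (by linarith [t.2.2, Real.pi_gt_three])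
      simp only at hst
      rw [hst, h2] at h1
      exact Subtype.ext h1.symm
    exact Infinite.of_injective _ this
  exact Set.infinite_univ hfin

/-! ### The recursion -/

lemma measurable_gph : Measurable gph := by
  unfold gph
  exact (measurable_const.sub continuous_star.measurable).div (measurable_const.sub measurable_id)

/-- the recursion for the moments of the determinant -/
lemma moment_rec (P : Measure (SymU (m + 2))) [IsProbabilityMeasure P] (hP : Inv P) (k : ℕ) :
    ∫ U, U.val.det ^ k ∂(P.map SymU.close) =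
      (-1) ^ k * ((∫ U, U.val.det ^ k ∂P) * ∫ U, gph (U.val 0 0) ^ k ∂P) := by
  have hm0 : Measurable fun U : SymU (m + 1) => U.val.det ^ k :=
    (continuous_det.pow k).measurable
  rw [integral_map SymU.measurable_close.aemeasurable hm0.aestronglyMeasurable]
  have h1 : ∫ U : SymU (m + 2), (SymU.close U).val.det ^ k ∂P =
      ∫ U : SymU (m + 2), (-1) ^ k * (U.val.det ^ k * gph (U.val 0 0) ^ k) ∂P := by
    refine integral_congr_ae ?_
    filter_upwards [ae_ne_one P hP] with U hU
    rw [SymU.val_close, det_cl U.unit hU]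
    unfold gph
    rw [neg_eq_neg_one_mul, mul_pow, mul_pow]
  rw [h1, integral_const_mul]
  congr 1
  exact integral_det_mul P hP (fun z => z ^ k) (measurable_id.pow_const k) 1
    (fun U => by rw [norm_pow, norm_det, one_pow]) (fun z => gph z ^ k)
    (measurable_gph.pow_const k) 1
    (fun z => by rw [norm_pow]; exact pow_le_one₀ (norm_nonneg _) (norm_gph_le z))


lemma norm_moment_le_one (P : Measure (SymU m)) [IsProbabilityMeasure P] (k : ℕ) :
    ‖∫ U, U.val.det ^ k ∂P‖ ≤ 1 := by
  refine (norm_integral_le_of_norm_le_const (C := 1) (Eventually.of_forall fun U => ?_)).trans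
    (by simp)
  rw [norm_pow, norm_det, one_pow]

/-- divergence of the harmonic series kills the moments -/
lemma seq_zero (b : ℕ → ℝ) (M : ℕ) (c : ℝ) (hc : 0 < c) (h0 : ∀ m, 0 ≤ b m) (h1 : ∀ m, b m ≤ 1)
    (hb : ∀ m, M ≤ m → b m ≤ (1 - c / (m + 2)) * b (m + 1)) (m : ℕ) (hm : M ≤ m) : b m = 0 := by
  by_contra hne
  have hpos : 0 < b m := lt_of_le_of_ne (h0 m) (Ne.symm hne)
  -- monotone
  have hstep : ∀ n, M ≤ n → b n + c / (n + 2) * b (n + 1) ≤ b (n + 1) := by
    intro n hn
    have := hb n hn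
    linarith
  have hmono : ∀ N : ℕ, b m ≤ b (m + N) := by
    intro N
    induction N with
    | zero => simp
    | succ N ih =>
      have h2 := hstep (m + N) (by omega)
      have h3 : 0 ≤ c / (((m + N : ℕ) : ℝ) + 2) * b (m + N + 1) :=
        mul_nonneg (by positivity) (h0 _)
      rw [← add_assoc]
      linarith
  have hsum : ∀ N : ℕ, b m + c * b m / (m + 2) * ∑ i ∈ Finset.range N, 1 / ((i : ℝ) + 1) ≤
      b (m + N) := by
    intro N
    induction N with
    | zero => simp
    | succ N ih =>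
      have h2 := hstep (m + N) (by omega)
      have h3 := hmono (N + 1)
      rw [← add_assoc] at h3
      rw [Finset.sum_range_succ, mul_add, ← add_assoc, ← add_assoc]
      refine le_trans (add_le_add_left ih _ ) (le_trans ?_ h2)
      refine add_le_add_right ?_ _
      have h4 : c / (((m + N : ℕ) : ℝ) + 2) * b m ≤ c / (((m + N : ℕ) : ℝ) + 2) * b (m + N + 1) :=
        mul_le_mul_of_nonneg_left h3 (by positivity)
      refine le_trans ?_ h4
      have h5 : c * b m / ((m : ℝ) + 2) * (1 / ((N : ℝ) + 1)) =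
          c * b m * (1 / (((m : ℝ) + 2) * (N + 1))) := by
        field_simp
      have h6 : c / (((m + N : ℕ) : ℝ) + 2) * b m = c * b m * (1 / (((m + N : ℕ) : ℝ) + 2)) := by
        ring
      rw [h5, h6]
      refine mul_le_mul_of_nonneg_left ?_ (by positivity)
      apply one_div_le_one_div_of_le (by positivity)
      push_cast
      nlinarith [mul_nonneg (Nat.cast_nonneg (α := ℝ) m) (Nat.cast_nonneg (α := ℝ) N),
        Nat.cast_nonneg (α := ℝ) N, Nat.cast_nonneg (α := ℝ) m]
  have htend := Real.tendsto_sum_range_one_div_nat_succ_atTop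
  have hK : 0 < c * b m / ((m : ℝ) + 2) := by positivity
  obtain ⟨N, hN⟩ := (htend.eventually_ge_atTop ((1 : ℝ) / (c * b m / ((m : ℝ) + 2)))).exists
  have h7 := hsum N
  have h8 : 1 ≤ c * b m / ((m : ℝ) + 2) * ∑ i ∈ Finset.range N, 1 / ((i : ℝ) + 1) := by
    rw [div_le_iff₀' hK] at hN
    exact hN
  linarith [h1 (m + N)]

/-- all moments of the determinant vanish -/
theorem moment_zero (P : (m : ℕ) → Measure (SymU m)) [∀ m, IsProbabilityMeasure (P m)] (m0 : ℕ)
    (hm0 : 1 ≤ m0) (hinv : ∀ m, m0 ≤ m → Inv (P m))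
    (hcl : ∀ m, m0 ≤ m → (P (m + 1)).map SymU.close = P m) (k : ℕ) (m : ℕ) (hm : m0 ≤ m) :
    ∫ U, U.val.det ^ (k + 1) ∂(P m) = 0 := by
  set b : ℕ → ℝ := fun m => ‖∫ U, U.val.det ^ (k + 1) ∂(P m)‖ with hb
  -- one step
  have hstep : ∀ n, m0 ≤ n → b n ≤ ‖∫ U : SymU (n + 1), gph (U.val 0 0) ^ (k + 1) ∂(P (n + 1))‖ *
      b (n + 1) := by
    intro n hn
    obtain ⟨j, rfl⟩ : ∃ j, n = j + 1 := ⟨n - 1, by omega⟩
    have h1 := moment_rec (P (j + 2)) (hinv _ (by omega)) (k + 1)
    have h2 := hcl (j + 1) hn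
    have h3 : b (j + 1) = ‖∫ U, U.val.det ^ (k + 1) ∂((P (j + 2)).map SymU.close)‖ := by
      rw [hb]; simp only; rw [h2]
    rw [h3, h1, norm_mul, norm_mul, norm_pow, norm_neg, norm_one, one_pow, one_mul, mul_comm]
  -- large sizes
  set M : ℕ := max (m0 + 2) (576 * (k + 1) ^ 2) with hM
  have hlarge : ∀ n, M ≤ n → b n ≤ (1 - (1 / 8) / (n + 2)) * b (n + 1) := by
    intro n hn
    have hn1 : m0 + 2 ≤ n := le_trans (le_max_left _ _) hn
    have hn2 : 576 * (k + 1) ^ 2 ≤ n := le_trans (le_max_right _ _) hn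
    refine (hstep n (by omega)).trans (mul_le_mul_of_nonneg_right ?_ (norm_nonneg _))
    obtain ⟨j, rfl⟩ : ∃ j, n = j + 2 := ⟨n - 2, by omega⟩
    have h1 := norm_gamma_le (P (j + 3)) (hinv _ (by omega)) k
    refine h1.trans ?_
    have hn3 : (576 : ℝ) * (k + 1) ^ 2 ≤ (j : ℝ) + 2 := by
      have h := (Nat.cast_le (α := ℝ)).2 hn2
      push_cast at h
      exact h
    have h2 : (72 : ℝ) * (k + 1) ^ 2 / (((j : ℝ) + 4) * (j + 6)) ≤ 1 / (8 * ((j : ℝ) + 4)) := by
      rw [div_le_div_iff₀ (by positivity) (by positivity)]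
      have hj : (0 : ℝ) ≤ (j : ℝ) + 4 := by positivity
      have h5 : (576 : ℝ) * (k + 1) ^ 2 ≤ (j : ℝ) + 6 := by linarith
      have h6 := mul_le_mul_of_nonneg_left h5 hj
      clear_value M
      linear_combination h6
    have h3 : (1 : ℝ) / (4 * ((j : ℝ) + 4)) = 2 * (1 / (8 * ((j : ℝ) + 4))) := by
      field_simp; norm_num
    have h4 : (1 / 8 : ℝ) / (((j + 2 : ℕ) : ℝ) + 2) = 1 / (8 * ((j : ℝ) + 4)) := by
      push_cast
      field_simp
      ring
    rw [h3, h4]
    linarith
  have hz : ∀ n, M ≤ n → b n = 0 := seq_zero b M (1 / 8) (by norm_num) (fun _ => norm_nonneg _)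
    (fun n => norm_moment_le_one (P n) (k + 1)) hlarge
  -- descend
  have hall : ∀ j n, m0 ≤ n → M ≤ n + j → b n = 0 := by
    intro j
    induction j with
    | zero => intro n _ hn; exact hz n hn
    | succ j ih =>
      intro n hn hn2
      have h1 := ih (n + 1) (by omega) (by omega)
      have h2 := hstep n hn
      rw [h1, mul_zero] at h2
      exact le_antisymm h2 (norm_nonneg _)
  exact norm_eq_zero.1 (hall M m hm (by omega))

/-- **COE lemma, exact form** -/
theorem coe_exact (P Q : (m : ℕ) → Measure (SymU m)) [∀ m, IsProbabilityMeasure (P m)]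
    [∀ m, IsProbabilityMeasure (Q m)] (m0 : ℕ) (hm0 : 1 ≤ m0)
    (hPi : ∀ m, m0 ≤ m → Inv (P m)) (hPc : ∀ m, m0 ≤ m → (P (m + 1)).map SymU.close = P m)
    (hQi : ∀ m, m0 ≤ m → Inv (Q m)) (hQc : ∀ m, m0 ≤ m → (Q (m + 1)).map SymU.close = Q m)
    (m : ℕ) (hm : m0 ≤ m) : P m = Q m := by
  obtain ⟨j, rfl⟩ : ∃ j, m = j + 1 := ⟨m - 1, by omega⟩
  refine eq_of_moments _ _ (hPi _ hm) (hQi _ hm) fun k => ?_
  rw [moment_zero P m0 hm0 hPi hPc k _ hm, moment_zero Q m0 hm0 hQi hQc k _ hm]

end Crest.Agent.R166.COE682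
end

-- ▼ part R166/COElim_682
section

/-!
Row 166, section 51 (COE lemma): the asymptotic form, along an arbitrary filter.
-/

set_option autoImplicit false
set_option linter.unusedSectionVars false

namespace Crest.Agent.R166.COE682

open Matrix MeasureTheory Topology Filter

variable {m : ℕ}

/-- cut-off near `U 0 0 = 1` -/
noncomputable def chi (j : ℕ) (U : SymU (m + 1)) : ℝ := min 1 (j * ‖U.val 0 0 - 1‖)

lemma continuous_chi (j : ℕ) : Continuous (chi (m := m) j) :=
  continuous_const.min (continuous_const.mul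
    ((SymU.continuous_entry 0 0).sub continuous_const).norm)

lemma chi_nonneg (j : ℕ) (U : SymU (m + 1)) : 0 ≤ chi j U := le_min zero_le_one (by positivity)

lemma chi_le (j : ℕ) (U : SymU (m + 1)) : chi j U ≤ 1 := min_le_left _ _

lemma tendsto_chi {U : SymU (m + 1)} (h : U.val 0 0 ≠ 1) :
    Tendsto (fun j => chi j U) atTop (𝓝 1) := by
  have h1 : 0 < ‖U.val 0 0 - 1‖ := norm_pos_iff.2 (sub_ne_zero.2 h)
  refine tendsto_const_nhds.congr' ?_
  obtain ⟨N, hN⟩ := exists_nat_gt (1 / ‖U.val 0 0 - 1‖)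
  filter_upwards [eventually_ge_atTop N] with j hj
  have h2 : 1 ≤ (j : ℝ) * ‖U.val 0 0 - 1‖ := by
    rw [div_lt_iff₀ h1] at hN
    have : (N : ℝ) ≤ j := by exact_mod_cast hj
    nlinarith
  exact (min_eq_left h2).symm

/-- `χ_j · (f ∘ close)` is continuous -/
lemma continuous_chi_close (j : ℕ) (f : C(SymU m, ℝ)) :
    Continuous fun U : SymU (m + 1) => chi j U * f (SymU.close U) := by
  rw [continuous_iff_continuousAt]
  intro U
  by_cases h : U.val 0 0 = 1
  · have h0 : chi j U = 0 := by simp [chi, h]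
    have h1 : Tendsto (fun V : SymU (m + 1) => chi j V * ‖f‖) (𝓝 U) (𝓝 0) := by
      have hc : Continuous fun V : SymU (m + 1) => chi j V * ‖f‖ :=
        (continuous_chi (m := m) j).mul continuous_const
      have := hc.tendsto U
      rw [h0, zero_mul] at this
      exact this
    rw [ContinuousAt, h0, zero_mul]
    refine squeeze_zero_norm (fun V => ?_) h1
    rw [norm_mul, Real.norm_of_nonneg (chi_nonneg j V)]
    exact mul_le_mul_of_nonneg_left (f.norm_coe_le_norm _) (chi_nonneg j V)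
  · exact (continuous_chi j).continuousAt.mul
      (f.continuous.continuousAt.comp (SymU.continuousAt_close h))

/-- **COE lemma, asymptotic form.** -/
theorem coe_limit {ι : Type*} (l : Filter ι) (P Q : ι → (m : ℕ) → ProbabilityMeasure (SymU m))
    (m0 : ℕ) (hm0 : 1 ≤ m0)
    (hPi : ∀ m, m0 ≤ m → ∀ (V : SG m) (f : C(SymU m, ℝ)),
      Tendsto (fun i => ∫ U, f (V • U) ∂(P i m : Measure (SymU m)) -
        ∫ U, f U ∂(P i m : Measure (SymU m))) l (𝓝 0))
    (hPc : ∀ m, m0 ≤ m → ∀ (f : C(SymU m, ℝ)),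
      Tendsto (fun i => ∫ U, f (SymU.close U) ∂(P i (m + 1) : Measure (SymU (m + 1))) -
        ∫ U, f U ∂(P i m : Measure (SymU m))) l (𝓝 0))
    (hQi : ∀ m, m0 ≤ m → ∀ (V : SG m) (f : C(SymU m, ℝ)),
      Tendsto (fun i => ∫ U, f (V • U) ∂(Q i m : Measure (SymU m)) -
        ∫ U, f U ∂(Q i m : Measure (SymU m))) l (𝓝 0))
    (hQc : ∀ m, m0 ≤ m → ∀ (f : C(SymU m, ℝ)),
      Tendsto (fun i => ∫ U, f (SymU.close U) ∂(Q i (m + 1) : Measure (SymU (m + 1))) -
        ∫ U, f U ∂(Q i m : Measure (SymU m))) l (𝓝 0))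
    (m : ℕ) (hm : m0 ≤ m) (f : C(SymU m, ℝ)) :
    Tendsto (fun i => ∫ U, f U ∂(P i m : Measure (SymU m)) -
      ∫ U, f U ∂(Q i m : Measure (SymU m))) l (𝓝 0) := by
  rw [tendsto_iff_ultrafilter]
  intro g hg
  -- limits along the ultrafilter
  have hlim : ∀ (R : ι → (m : ℕ) → ProbabilityMeasure (SymU m)) (m : ℕ),
      ∃ S : ProbabilityMeasure (SymU m), ∀ f : C(SymU m, ℝ),
        Tendsto (fun i => ∫ U, f U ∂(R i m : Measure (SymU m))) g
          (𝓝 (∫ U, f U ∂(S : Measure (SymU m)))) := by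
    intro R m
    obtain ⟨S, -, hS⟩ := isCompact_univ.ultrafilter_le_nhds (g.map fun i => R i m) (by simp)
    refine ⟨S, fun f => ?_⟩
    have h1 : Tendsto (fun i => R i m) g (𝓝 S) := hS
    rw [ProbabilityMeasure.tendsto_iff_forall_integral_tendsto] at h1
    exact h1 (BoundedContinuousFunction.mkOfCompact f)
  -- the limit families satisfy the exact hypotheses
  have hexact : ∀ (R : ι → (m : ℕ) → ProbabilityMeasure (SymU m))
      (S : (m : ℕ) → ProbabilityMeasure (SymU m))
      (_ : ∀ m, ∀ f : C(SymU m, ℝ), Tendsto (fun i => ∫ U, f U ∂(R i m : Measure (SymU m))) g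
          (𝓝 (∫ U, f U ∂(S m : Measure (SymU m)))))
      (_ : ∀ m, m0 ≤ m → ∀ (V : SG m) (f : C(SymU m, ℝ)),
        Tendsto (fun i => ∫ U, f (V • U) ∂(R i m : Measure (SymU m)) -
          ∫ U, f U ∂(R i m : Measure (SymU m))) l (𝓝 0))
      (_ : ∀ m, m0 ≤ m → ∀ (f : C(SymU m, ℝ)),
        Tendsto (fun i => ∫ U, f (SymU.close U) ∂(R i (m + 1) : Measure (SymU (m + 1))) -
          ∫ U, f U ∂(R i m : Measure (SymU m))) l (𝓝 0)),
      (∀ m, m0 ≤ m → Inv (S m : Measure (SymU m))) ∧
      (∀ m, m0 ≤ m → ((S (m + 1) : Measure (SymU (m + 1)))).map SymU.close = S m) := by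
    intro R S hS hI hC
    have hInv : ∀ m, m0 ≤ m → Inv (S m : Measure (SymU m)) := by
      intro m hm V
      have hcV : Continuous fun U : SymU m => V • U := continuous_const_smul V
      have : IsProbabilityMeasure ((S m : Measure (SymU m)).map (V • ·)) :=
        Measure.isProbabilityMeasure_map hcV.measurable.aemeasurable
      refine ext_of_forall_integral_eq_of_IsFiniteMeasure fun f => ?_
      rw [integral_map hcV.measurable.aemeasurable f.continuous.measurable.aestronglyMeasurable]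
      set f' : C(SymU m, ℝ) := ⟨f, f.continuous⟩ with hf'
      set fV : C(SymU m, ℝ) := ⟨fun U => f (V • U), f.continuous.comp hcV⟩ with hfV
      have h1 := (hS m fV).sub (hS m f')
      have h2 := (hI m hm V f').mono_left hg
      have h3 := tendsto_nhds_unique h1 h2
      exact sub_eq_zero.1 h3
    refine ⟨hInv, fun m hm => ?_⟩
    have : IsProbabilityMeasure ((S (m + 1) : Measure (SymU (m + 1))).map SymU.close) :=
      Measure.isProbabilityMeasure_map SymU.measurable_close.aemeasurable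
    refine ext_of_forall_integral_eq_of_IsFiniteMeasure fun f => ?_
    rw [integral_map SymU.measurable_close.aemeasurable
      f.continuous.measurable.aestronglyMeasurable]
    set f' : C(SymU m, ℝ) := ⟨f, f.continuous⟩ with hf'
    set ν : Measure (SymU (m + 1)) := (S (m + 1) : Measure (SymU (m + 1))) with hν
    have hfb : ∀ U, ‖f U‖ ≤ ‖f'‖ := fun U => f'.norm_coe_le_norm U
    have hfm : Measurable fun U : SymU (m + 1) => f (SymU.close U) :=
      f.continuous.measurable.comp SymU.measurable_close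
    have hne : ∀ᵐ U ∂ν, U.val 0 0 ≠ 1 := by
      obtain ⟨j, rfl⟩ : ∃ j, m = j + 1 := ⟨m - 1, by omega⟩
      exact ae_ne_one _ (hInv (j + 2) (by omega))
    -- integrable facts
    have iclose : ∀ (ρ : Measure (SymU (m + 1))) [IsProbabilityMeasure ρ],
        Integrable (fun U : SymU (m + 1) => f (SymU.close U)) ρ := fun ρ _ =>
      Integrable.of_bound hfm.aestronglyMeasurable ‖f'‖ (Eventually.of_forall fun U => hfb _)
    have key : ∀ j : ℕ, |∫ U, f U ∂(S m : Measure (SymU m)) -
        ∫ U, chi j U * f (SymU.close U) ∂ν| ≤ ‖f'‖ * ∫ U, (1 - chi j U) ∂ν := by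
      intro j
      set hj : C(SymU (m + 1), ℝ) := ⟨_, continuous_chi_close j f'⟩ with hhj
      set cj : C(SymU (m + 1), ℝ) := ⟨fun U => 1 - chi j U,
        continuous_const.sub (continuous_chi j)⟩ with hcj
      have t1 := (hS m f').sub (hS (m + 1) hj)
      have t2 := (hS (m + 1) cj).const_mul ‖f'‖
      have t3 := ((hC m hm f').mono_left hg).abs
      rw [abs_zero] at t3
      have t4 := t3.add t2
      rw [zero_add] at t4
      refine le_of_tendsto_of_tendsto t1.abs t4 (Eventually.of_forall fun i => ?_)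
      simp only
      set ρ : Measure (SymU (m + 1)) := (R i (m + 1) : Measure (SymU (m + 1))) with hρ
      have e1 : ∫ U, f (SymU.close U) ∂ρ - ∫ U, hj U ∂ρ = ∫ U, (1 - chi j U) * f (SymU.close U) ∂ρ := by
        rw [← integral_sub (iclose ρ) (integ hj.continuous)]
        refine integral_congr_ae (Eventually.of_forall fun U => ?_)
        simp only [hhj, hf', ContinuousMap.coe_mk]
        ring
      have e2 : |∫ U, (1 - chi j U) * f (SymU.close U) ∂ρ| ≤ ‖f'‖ * ∫ U, cj U ∂ρ := by
        rw [← integral_const_mul]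
        refine (abs_integral_le_integral_abs).trans ?_
        refine integral_mono_of_nonneg (Eventually.of_forall fun U => abs_nonneg _)
          (integ (continuous_const.mul cj.continuous)) (Eventually.of_forall fun U => ?_)
        simp only [hcj, ContinuousMap.coe_mk]
        have h1 : 0 ≤ 1 - chi j U := by linarith [chi_le j U]
        rw [abs_mul, abs_of_nonneg h1, mul_comm]
        exact mul_le_mul_of_nonneg_right (hfb _) h1
      have e3 : ∫ U, f' U ∂(R i m : Measure (SymU m)) - ∫ U, hj U ∂ρ =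
          -(∫ U, f' (SymU.close U) ∂ρ - ∫ U, f' U ∂(R i m : Measure (SymU m))) +
          (∫ U, f (SymU.close U) ∂ρ - ∫ U, hj U ∂ρ) := by
        have : ∫ U, f' (SymU.close U) ∂ρ = ∫ U, f (SymU.close U) ∂ρ := rfl
        rw [this]; ring
      rw [e3, e1]
      refine (abs_add_le _ _).trans ?_
      rw [abs_neg]
      exact add_le_add le_rfl e2
    -- pass to the limit `j → ∞`
    have l1 : Tendsto (fun j : ℕ => ∫ U, chi j U * f (SymU.close U) ∂ν) atTop
        (𝓝 (∫ U, f (SymU.close U) ∂ν)) := by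
      refine tendsto_integral_of_dominated_convergence (fun _ => ‖f'‖) ?_ (integrable_const _) ?_ ?_
      · exact fun j => ((continuous_chi j).measurable.mul hfm).aestronglyMeasurable
      · intro j
        refine Eventually.of_forall fun U => ?_
        rw [norm_mul, Real.norm_of_nonneg (chi_nonneg j U)]
        calc chi j U * ‖f (SymU.close U)‖ ≤ 1 * ‖f'‖ :=
              mul_le_mul (chi_le j U) (hfb _) (norm_nonneg _) zero_le_one
          _ = ‖f'‖ := one_mul _
      · filter_upwards [hne] with U hU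
        have := (tendsto_chi hU).mul_const (f (SymU.close U))
        rw [one_mul] at this
        exact this
    have l2 : Tendsto (fun j : ℕ => ∫ U, (1 - chi j U) ∂ν) atTop (𝓝 0) := by
      have : Tendsto (fun j : ℕ => ∫ U, (1 - chi j U) ∂ν) atTop (𝓝 (∫ _, (0 : ℝ) ∂ν)) := by
        refine tendsto_integral_of_dominated_convergence (fun _ => 1) ?_ (integrable_const _) ?_ ?_
        · exact fun j => (measurable_const.sub (continuous_chi j).measurable).aestronglyMeasurable
        · intro j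
          refine Eventually.of_forall fun U => ?_
          rw [Real.norm_of_nonneg (by linarith [chi_le j U])]
          linarith [chi_nonneg j U]
        · filter_upwards [hne] with U hU
          have := (tendsto_const_nhds (x := (1 : ℝ))).sub (tendsto_chi hU)
          rw [sub_self] at this
          exact this
      simpa using this
    have l3 := ((tendsto_const_nhds (x := ∫ U, f U ∂(S m : Measure (SymU m)))).sub l1).abs
    have l4 := l2.const_mul ‖f'‖
    rw [mul_zero] at l4
    have l5 := le_of_tendsto_of_tendsto' l3 l4 key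
    have l6 := abs_nonpos_iff.1 l5
    linarith [sub_eq_zero.1 l6]
  choose SP hSP using hlim P
  choose SQ hSQ using hlim Q
  obtain ⟨a1, a2⟩ := hexact P SP hSP hPi hPc
  obtain ⟨b1, b2⟩ := hexact Q SQ hSQ hQi hQc
  have hEq := coe_exact (fun m => (SP m : Measure (SymU m))) (fun m => (SQ m : Measure (SymU m)))
    m0 hm0 a1 a2 b1 b2 m hm
  have h1 := (hSP m f).sub (hSQ m f)
  rw [hEq, sub_self] at h1
  exact h1

end Crest.Agent.R166.COE682
end

-- ▼ part R166/COEcay_682
section

/-!
Row 166, section 51 (COE lemma): Cayley transform of real symmetric matrices and the corner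
identity `cl (Cay C) = Cay (corner of C)`.
-/

set_option autoImplicit false

namespace Crest.Agent.R166.COE682

open Matrix MeasureTheory Topology Filter

open Crest.Agent.R166.Gen85 (toC toC_mul toC_transpose toC_conjTranspose toC_one)

open Crest.Agent.R166 (Cay)

open scoped ComplexOrder

variable {m : ℕ}

/-- `C + i` -/
noncomputable def ac (C : Matrix (Fin m) (Fin m) ℝ) : MM m := toC C + Complex.I • (1 : MM m)

lemma ac_conj {C : Matrix (Fin m) (Fin m) ℝ} (hC : Cᵀ = C) :
    (ac C)ᴴ = toC C - Complex.I • (1 : MM m) := by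
  unfold ac
  rw [conjTranspose_add, toC_conjTranspose, hC, conjTranspose_smul, conjTranspose_one]
  rw [show star Complex.I = -Complex.I from Complex.conj_I, neg_smul, sub_eq_add_neg]

lemma ac_mul {C : Matrix (Fin m) (Fin m) ℝ} (hC : Cᵀ = C) :
    (ac C)ᴴ * ac C = (toC C)ᴴ * toC C + 1 := by
  rw [ac_conj hC, toC_conjTranspose, hC]
  unfold ac
  rw [Matrix.sub_mul, Matrix.mul_add, Matrix.mul_add, Matrix.smul_mul, Matrix.one_mul,
    Matrix.mul_smul, Matrix.mul_one, Matrix.smul_mul, Matrix.one_mul, smul_smul, Complex.I_mul_I]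
  rw [neg_one_smul]
  abel

lemma det_ac_ne {C : Matrix (Fin m) (Fin m) ℝ} (hC : Cᵀ = C) : (ac C).det ≠ 0 := by
  intro h
  have h1 : ((ac C)ᴴ * ac C).PosDef := by
    rw [ac_mul hC]
    exact Matrix.PosDef.posSemidef_add (Matrix.posSemidef_conjTranspose_mul_self _)
      Matrix.PosDef.one
  have h2 := h1.det_pos
  rw [det_mul, h, mul_zero] at h2
  exact lt_irrefl _ h2

lemma isUnit_ac {C : Matrix (Fin m) (Fin m) ℝ} (hC : Cᵀ = C) : IsUnit (ac C).det :=
  isUnit_iff_ne_zero.2 (det_ac_ne hC)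

/-- `U = 1 - 2 i (C + i)⁻¹` -/
lemma Cay_eq {C : Matrix (Fin m) (Fin m) ℝ} (hC : Cᵀ = C) :
    Cay C = 1 - (2 * Complex.I) • (ac C)⁻¹ := by
  have h1 : Cay C = (toC C - Complex.I • (1 : MM m)) * (ac C)⁻¹ := rfl
  have h2 : toC C - Complex.I • (1 : MM m) = ac C - (2 * Complex.I) • (1 : MM m) := by
    unfold ac
    rw [two_mul, add_smul]; abel
  rw [h1, h2, Matrix.sub_mul, Matrix.mul_nonsing_inv _ (isUnit_ac hC), Matrix.smul_mul,
    Matrix.one_mul]

lemma ac_transpose {C : Matrix (Fin m) (Fin m) ℝ} (hC : Cᵀ = C) : (ac C)ᵀ = ac C := by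
  unfold ac
  rw [transpose_add, ← toC_transpose, hC, transpose_smul, transpose_one]

lemma good_Cay {C : Matrix (Fin m) (Fin m) ℝ} (hC : Cᵀ = C) : Good (Cay C) := by
  have hu := isUnit_ac hC
  have hS := Matrix.mul_nonsing_inv _ hu
  have hS' := Matrix.nonsing_inv_mul _ hu
  refine ⟨?_, ?_, ?_⟩
  · rw [Cay_eq hC, transpose_sub, transpose_one, transpose_smul, transpose_nonsing_inv,
      ac_transpose hC]
  · rw [mem_unitaryGroup_iff, Cay_eq hC]
    set S := (ac C)⁻¹ with hSdef
    have h1 : S - Sᴴ = -((2 * Complex.I) • (S * Sᴴ)) := by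
      have e1 : Sᴴ * (ac C)ᴴ = 1 := by
        rw [← conjTranspose_mul, hS, conjTranspose_one]
      have e1' : (ac C)ᴴ * Sᴴ = 1 := by
        rw [← conjTranspose_mul, hS', conjTranspose_one]
      have e2 : (ac C)ᴴ - ac C = -((2 * Complex.I) • (1 : MM m)) := by
        rw [ac_conj hC]; unfold ac; rw [two_mul, add_smul]; abel
      calc S - Sᴴ = S * ((ac C)ᴴ * Sᴴ) - (S * ac C) * Sᴴ := by
            rw [e1', hS', Matrix.mul_one, Matrix.one_mul]
        _ = S * (((ac C)ᴴ - ac C) * Sᴴ) := by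
            rw [Matrix.sub_mul, Matrix.mul_sub, Matrix.mul_assoc]
        _ = _ := by
            rw [e2, Matrix.neg_mul, Matrix.smul_mul, Matrix.one_mul, Matrix.mul_neg,
              Matrix.mul_smul]
    rw [star_sub, star_one, star_smul, Matrix.star_eq_conjTranspose]
    have hI : star (2 * Complex.I) = -(2 * Complex.I) := by
      apply Complex.ext <;> simp
    rw [hI, neg_smul, sub_neg_eq_add, Matrix.sub_mul, Matrix.one_mul, Matrix.mul_add,
      Matrix.mul_one, Matrix.smul_mul, Matrix.mul_smul, smul_smul]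
    have h2 : (2 * Complex.I) • Sᴴ = (2 * Complex.I) • S + ((2 * Complex.I) * (2 * Complex.I)) • (S * Sᴴ) := by
      have : Sᴴ = S - (S - Sᴴ) := by abel
      conv_lhs => rw [this, h1]
      rw [sub_neg_eq_add, smul_add, smul_smul]
    rw [h2]
    abel
  · rw [Cay_eq hC, sub_sub_cancel, det_smul, det_nonsing_inv]
    refine mul_ne_zero (pow_ne_zero _ (by simp)) ?_
    rw [Ring.inverse_eq_inv']
    exact inv_ne_zero (det_ac_ne hC)

/-- the corner of `C` -/
def corner (C : Matrix (Fin (m + 1)) (Fin (m + 1)) ℝ) : Matrix (Fin m) (Fin m) ℝ :=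
  C.submatrix Fin.succ Fin.succ

lemma corner_symm {C : Matrix (Fin (m + 1)) (Fin (m + 1)) ℝ} (hC : Cᵀ = C) :
    (corner C)ᵀ = corner C := by
  unfold corner
  rw [transpose_submatrix, hC]

/-- Schur complement of the inverse -/
noncomputable def schurT (S : MM (m + 1)) : MM m :=
  fun i j => S i.succ j.succ - S i.succ 0 * S 0 j.succ / S 0 0

lemma schurT_apply (S : MM (m + 1)) (i j : Fin m) :
    schurT S i j = S i.succ j.succ - S i.succ 0 * S 0 j.succ / S 0 0 := rfl

/-- **corner identity** -/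
theorem cl_Cay {C : Matrix (Fin (m + 1)) (Fin (m + 1)) ℝ} (hC : Cᵀ = C) :
    cl (Cay C) = Cay (corner C) := by
  have hgood := good_Cay hC
  have hu1 := hgood.u_ne
  set S := (ac C)⁻¹ with hS
  have hU : ∀ i j, Cay C i j = (1 : MM (m + 1)) i j - (2 * Complex.I) * S i j := by
    intro i j
    rw [Cay_eq hC]; rfl
  have hS00 : S 0 0 ≠ 0 := by
    intro h
    apply hu1
    rw [hU, h, mul_zero, sub_zero, Matrix.one_apply_eq]
  have hAS := Matrix.mul_nonsing_inv _ (isUnit_ac hC)
  rw [← hS] at hAS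
  -- Schur complement
  have hinv : (ac (corner C))⁻¹ = schurT S := by
    apply Matrix.inv_eq_right_inv
    ext i j
    have hac : ∀ i l : Fin m, ac (corner C) i l = ac C i.succ l.succ := by
      intro i l
      unfold ac corner
      simp [Matrix.add_apply, Matrix.smul_apply, Matrix.one_apply]
    have h1 := congrFun (congrFun hAS i.succ) j.succ
    have h2 := congrFun (congrFun hAS i.succ) 0
    rw [Matrix.mul_apply, Fin.sum_univ_succ] at h1 h2
    rw [Matrix.one_apply_ne (Fin.succ_ne_zero i)] at h2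
    have h3 : (1 : MM (m + 1)) i.succ j.succ = (1 : MM m) i j := by
      simp [Matrix.one_apply]
    rw [h3] at h1
    rw [Matrix.mul_apply, ← h1]
    simp only [hac, schurT_apply]
    have h4 : ∑ l : Fin m, ac C i.succ l.succ * (S l.succ j.succ - S l.succ 0 * S 0 j.succ / S 0 0) =
        ∑ l : Fin m, ac C i.succ l.succ * S l.succ j.succ -
          (∑ l : Fin m, ac C i.succ l.succ * S l.succ 0) * (S 0 j.succ / S 0 0) := by
      rw [Finset.sum_mul, ← Finset.sum_sub_distrib]
      refine Finset.sum_congr rfl fun l _ => ?_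
      ring
    rw [h4]
    have h5 : ∑ l : Fin m, ac C i.succ l.succ * S l.succ 0 = -(ac C i.succ 0 * S 0 0) := by
      linear_combination h2
    rw [h5]
    field_simp
    ring
  ext i j
  rw [Cay_eq (corner_symm hC), hinv, Matrix.sub_apply, Matrix.smul_apply, smul_eq_mul,
    schurT_apply]
  unfold cl
  rw [hU, hU, hU, hU, Matrix.one_apply_ne (Fin.succ_ne_zero i),
    Matrix.one_apply_ne (Fin.succ_ne_zero j).symm, Matrix.one_apply_eq]
  have h3 : (1 : MM (m + 1)) i.succ j.succ = (1 : MM m) i j := by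
    simp [Matrix.one_apply]
  rw [h3]
  have hI : (2 * Complex.I) ≠ 0 := by simp
  have h6 : (1 : ℂ) - (1 - 2 * Complex.I * S 0 0) = 2 * Complex.I * S 0 0 := by ring
  rw [h6]
  field_simp
  ring

/-- symmetrised Cayley transform, a total map into `SymU` -/
noncomputable def cayT (C : Matrix (Fin m) (Fin m) ℝ) : SymU m :=
  SymU.mk (Cay ((1 / 2 : ℝ) • (C + Cᵀ))) (by
    have h : ((1 / 2 : ℝ) • (C + Cᵀ))ᵀ = (1 / 2 : ℝ) • (C + Cᵀ) := by
      rw [transpose_smul, transpose_add, transpose_transpose, add_comm]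
    exact ⟨(good_Cay h).symm, (good_Cay h).unit⟩)

lemma val_cayT {C : Matrix (Fin m) (Fin m) ℝ} (hC : Cᵀ = C) : (cayT C).val = Cay C := by
  have : (1 / 2 : ℝ) • (C + Cᵀ) = C := by
    rw [hC, ← two_smul ℝ C, smul_smul]; norm_num
  show Cay ((1 / 2 : ℝ) • (C + Cᵀ)) = Cay C
  rw [this]

lemma close_cayT {C : Matrix (Fin (m + 1)) (Fin (m + 1)) ℝ} (hC : Cᵀ = C) :
    SymU.close (cayT C) = cayT (corner C) := by
  apply SymU.ext
  rw [SymU.val_close, val_cayT hC, val_cayT (corner_symm hC), cl_Cay hC]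

lemma continuous_cayT : Continuous (cayT : Matrix (Fin m) (Fin m) ℝ → SymU m) := by
  rw [SymU.continuous_iff]
  have hsym : ∀ C : Matrix (Fin m) (Fin m) ℝ, ((1 / 2 : ℝ) • (C + Cᵀ))ᵀ = (1 / 2 : ℝ) • (C + Cᵀ) := by
    intro C
    rw [transpose_smul, transpose_add, transpose_transpose, add_comm]
  have h1 : (fun C : Matrix (Fin m) (Fin m) ℝ => (cayT C).val) = fun C =>
      1 - (2 * Complex.I) • ((ac ((1 / 2 : ℝ) • (C + Cᵀ))).det⁻¹ •
        (ac ((1 / 2 : ℝ) • (C + Cᵀ))).adjugate) := by
    ext1 C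
    show Cay ((1 / 2 : ℝ) • (C + Cᵀ)) = _
    rw [Cay_eq (hsym C), Matrix.inv_def, Ring.inverse_eq_inv']
  rw [h1]
  have h2 : Continuous fun C : Matrix (Fin m) (Fin m) ℝ => ac ((1 / 2 : ℝ) • (C + Cᵀ)) := by
    unfold ac
    have h3 : Continuous fun C : Matrix (Fin m) (Fin m) ℝ => (1 / 2 : ℝ) • (C + Cᵀ) := by
      fun_prop
    have h4 : Continuous fun C : Matrix (Fin m) (Fin m) ℝ => toC C :=
      Continuous.matrix_map continuous_id Complex.continuous_ofReal
    exact (h4.comp h3).add continuous_const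
  have h5 : Continuous fun C : Matrix (Fin m) (Fin m) ℝ =>
      (ac ((1 / 2 : ℝ) • (C + Cᵀ))).det⁻¹ • (ac ((1 / 2 : ℝ) • (C + Cᵀ))).adjugate :=
    (h2.matrix_det.inv₀ fun C => det_ac_ne (hsym C)).smul h2.matrix_adjugate
  have h6 : Continuous fun C : Matrix (Fin m) (Fin m) ℝ =>
      (2 * Complex.I) • ((ac ((1 / 2 : ℝ) • (C + Cᵀ))).det⁻¹ •
        (ac ((1 / 2 : ℝ) • (C + Cᵀ))).adjugate) := h5.const_smul (2 * Complex.I)
  exact continuous_const.sub h6

end Crest.Agent.R166.COE682
end

-- ▼ part R166/Meas_85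
section

/-!
# Row 166: measurability and Fubini toolkit for `TestVal`, `EG`, `EO`

Instance-free entrywise measurability `EM` of random matrices.
-/

set_option autoImplicit false
set_option linter.unusedSectionVars false

noncomputable section

namespace Crest.Agent.R166.Meas85

open Matrix MeasureTheory ProbabilityTheory Crest.ProbabilityR.RandomMatrix Gen85 Cl85

variable {Ω : Type*} [MeasurableSpace Ω]

/-- entrywise measurability of a random matrix -/
def EM {m n R : Type*} [MeasurableSpace R] (H : Ω → Matrix m n R) : Prop :=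
  ∀ i j, Measurable fun w => H w i j

section General

variable {m n k R : Type*} [MeasurableSpace R]

lemma EM.const (A : Matrix m n R) : EM (fun _ : Ω => A) := fun _ _ => measurable_const

lemma EM.comp {Ω' : Type*} [MeasurableSpace Ω'] {H : Ω → Matrix m n R} (h : EM H) {φ : Ω' → Ω}
    (hφ : Measurable φ) : EM (fun w => H (φ w)) := fun i j => (h i j).comp hφ

lemma EM.transpose {H : Ω → Matrix m n R} (h : EM H) : EM (fun w => (H w)ᵀ) :=
  fun i j => h j i


lemma EM.map {R' : Type*} [MeasurableSpace R'] {H : Ω → Matrix m n R} (h : EM H) {φ : R → R'}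
    (hφ : Measurable φ) : EM (fun w => (H w).map φ) := fun i j => hφ.comp (h i j)


variable [CommRing R] [MeasurableAdd₂ R] [MeasurableMul₂ R] [MeasurableSub₂ R]

lemma EM.add {H H' : Ω → Matrix m n R} (h : EM H) (h' : EM H') : EM (fun w => H w + H' w) :=
  fun i j => (h i j).add (h' i j)

lemma EM.sub {H H' : Ω → Matrix m n R} (h : EM H) (h' : EM H') : EM (fun w => H w - H' w) :=
  fun i j => (h i j).sub (h' i j)

lemma EM.smul {c : Ω → R} (hc : Measurable c) {H : Ω → Matrix m n R} (h : EM H) :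
    EM (fun w => c w • H w) := fun i j => hc.mul (h i j)

lemma EM.mul [Fintype n] {H : Ω → Matrix m n R} {H' : Ω → Matrix n k R} (h : EM H) (h' : EM H') :
    EM (fun w => H w * H' w) := fun i j => by
  simp only [Matrix.mul_apply]
  exact Finset.measurable_sum _ fun l _ => (h i l).mul (h' l j)

lemma EM.det [Fintype n] [DecidableEq n] {H : Ω → Matrix n n R} (h : EM H) :
    Measurable fun w => (H w).det := by
  simp only [Matrix.det_apply']
  refine Finset.measurable_sum _ fun σ _ => ?_
  exact measurable_const.mul (Finset.measurable_prod _ fun i _ => h (σ i) i)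

lemma EM.trace [Fintype n] {H : Ω → Matrix n n R} (h : EM H) :
    Measurable fun w => (H w).trace := by
  simp only [Matrix.trace, Matrix.diag_apply]
  exact Finset.measurable_sum _ fun i _ => h i i

lemma EM.adjugate [Fintype n] [DecidableEq n] {H : Ω → Matrix n n R} (h : EM H) :
    EM (fun w => (H w).adjugate) := fun i j => by
  simp only [Matrix.adjugate_apply]
  refine EM.det (fun a b => ?_)
  simp only [Matrix.updateRow_apply]
  by_cases hab : a = j
  · simp only [hab, if_true]; exact measurable_const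
  · simp only [hab, if_false]; exact h a b

end General

section Field

variable {n R : Type*} [Fintype n] [DecidableEq n] [MeasurableSpace R] [Field R]
  [MeasurableAdd₂ R] [MeasurableMul₂ R] [MeasurableSub₂ R] [MeasurableInv R]

lemma EM.inv {H : Ω → Matrix n n R} (h : EM H) : EM (fun w => (H w)⁻¹) := fun i j => by
  simp only [Matrix.inv_def, Ring.inverse_eq_inv', Matrix.smul_apply, smul_eq_mul]
  exact h.det.inv.mul (h.adjugate i j)

end Field

/-- a continuous function of an entrywise measurable matrix is measurable. -/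
lemma EM.measurable_of_continuous {m n R β : Type*} [Countable m] [Countable n]
    [TopologicalSpace R] [MeasurableSpace R] [BorelSpace R] [SecondCountableTopology R]
    [TopologicalSpace β] [MeasurableSpace β] [BorelSpace β]
    {H : Ω → Matrix m n R} (h : EM H) {f : Matrix m n R → β} (hf : Continuous f) :
    Measurable fun w => f (H w) := by
  have h1 : @Measurable Ω (m → n → R) _ _ (fun w => H w) :=
    measurable_pi_iff.mpr fun i => measurable_pi_iff.mpr fun j => h i j
  have hf' : @Continuous (m → n → R) β _ _ f := hf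
  have h2 : @Measurable (m → n → R) β _ _ f := hf'.measurable
  exact h2.comp h1

/-! ### The objects of the spine -/


lemma EM_Hm (n : ℕ) (s : ℝ) :
    EM (fun p : SimpleGraph (Fin n) × (Fin n → ℝ) => Hm p.1 s p.2) := fun i j => by
  classical
  have h1 : Measurable fun p : SimpleGraph (Fin n) × (Fin n → ℝ) =>
      (if p.1.Adj i j then (1 : ℝ) else 0) := by
    have : Measurable fun G : SimpleGraph (Fin n) => (if G.Adj i j then (1 : ℝ) else 0) :=
      measurable_from_top
    exact this.comp measurable_fst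
  have h2 : Measurable fun p : SimpleGraph (Fin n) × (Fin n → ℝ) =>
      s * (if i = j then p.2 i else 0) := by
    by_cases hij : i = j
    · simp only [hij, if_true]
      exact measurable_const.mul ((measurable_pi_apply j).comp measurable_snd)
    · simp only [hij, if_false]; exact measurable_const
  have h3 : (fun p : SimpleGraph (Fin n) × (Fin n → ℝ) => Hm p.1 s p.2 i j) =
      fun p => (if p.1.Adj i j then (1 : ℝ) else 0) + s * (if i = j then p.2 i else 0) := by
    funext p
    simp only [Hm, Matrix.add_apply, SimpleGraph.adjMatrix_apply, Matrix.smul_apply,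
      Matrix.diagonal_apply, smul_eq_mul]
  rw [h3]
  exact h1.add h2

lemma EM_goe (n : ℕ) : EM (fun g : GOEDisorder n => goeMatrix g) := fun i j => by
  unfold goeMatrix
  have h : ∀ a b : Fin n, Measurable fun g : GOEDisorder n => g a b := fun a b =>
    (measurable_pi_apply b).comp (measurable_pi_apply a)
  by_cases h1 : i = j
  · simp only [h1, if_true]
    exact ((measurable_const.mul (h j j)).div_const _)
  · by_cases h2 : i < j
    · simp only [h1, h2, if_true, if_false]
      exact (h i j).div_const _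
    · simp only [h1, h2, if_false]
      exact (h j i).div_const _

lemma EM_Res {ι : Type*} [Fintype ι] [DecidableEq ι] {H : Ω → Matrix ι ι ℝ} (h : EM H)
    {z : Ω → ℂ} (hz : Measurable z) : EM (fun w => Res (H w) (z w)) := by
  unfold Res
  exact ((h.map Complex.measurable_ofReal).sub (EM.smul hz (EM.const 1))).inv

lemma measurable_mn {n : ℕ} {H : Ω → Matrix (Fin n) (Fin n) ℝ} (h : EM H)
    {z : Ω → ℂ} (hz : Measurable z) : Measurable (fun w => mn (H w) (z w)) :=
  (EM_Res h hz).trace.div_const _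

lemma EM_testArr {n m : ℕ} {H : Ω → Matrix (Fin n) (Fin n) ℝ} (h : EM H) {e : Ω → ℝ}
    (he : Measurable e) {g : Ω → Fin n → Fin m → ℝ} (hg : ∀ i j, Measurable fun w => g w i j) :
    EM (fun w => testArr (H w) (e w) (g w)) := by
  unfold testArr
  have hg' : EM (fun w => Matrix.of (g w)) := hg
  have h1 : EM (fun w => (H w - e w • (1 : Matrix (Fin n) (Fin n) ℝ))⁻¹) :=
    (h.sub (EM.smul he (EM.const 1))).inv
  exact EM.smul measurable_const ((hg'.transpose.mul h1).mul hg')

lemma EM_Cay {m : ℕ} {C : Ω → Matrix (Fin m) (Fin m) ℝ} (h : EM C) :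
    EM (fun w => Cay (C w)) := by
  unfold Cay
  exact ((h.map Complex.measurable_ofReal).sub (EM.const _)).mul
    ((h.map Complex.measurable_ofReal).add (EM.const _)).inv

lemma EM_uOf {n m : ℕ} {H : Ω → Matrix (Fin n) (Fin n) ℝ} (h : EM H) (E ρ K : ℝ) {x : Ω → ℝ}
    (hx : Measurable x) {g : Ω → Fin n → Fin m → ℝ} (hg : ∀ i j, Measurable fun w => g w i j) :
    EM (fun w => uOf (H w) E ρ K (x w) (g w)) := by
  unfold uOf
  refine EM_Cay (EM.smul measurable_const (EM.sub ?_ ?_))
  · exact EM_testArr h (measurable_const.add (hx.div_const _)) hg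
  · exact EM.smul (Complex.measurable_re.comp (measurable_mn h measurable_const)) (EM.const 1)

/-! ### Symmetry, unitarity, bounds -/

lemma testArr_symm {n m : ℕ} {H : Matrix (Fin n) (Fin n) ℝ} (hH : Hᵀ = H) (e : ℝ)
    (g : Fin n → Fin m → ℝ) : (testArr H e g)ᵀ = testArr H e g := by
  unfold testArr
  rw [Matrix.transpose_smul, Matrix.transpose_mul, Matrix.transpose_mul, Matrix.transpose_transpose,
    Matrix.transpose_nonsing_inv, Matrix.transpose_sub, Matrix.transpose_smul, Matrix.transpose_one,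
    hH, Matrix.mul_assoc]

lemma arg_symm {n m : ℕ} {H : Matrix (Fin n) (Fin n) ℝ} (hH : Hᵀ = H) (E ρ K x : ℝ)
    (g : Fin n → Fin m → ℝ) :
    ((1 / (Real.pi * ρ)) • (testArr H (E + x / n) g -
      (mn H (zz E K n)).re • (1 : Matrix (Fin m) (Fin m) ℝ)))ᵀ =
    (1 / (Real.pi * ρ)) • (testArr H (E + x / n) g -
      (mn H (zz E K n)).re • (1 : Matrix (Fin m) (Fin m) ℝ)) := by
  rw [Matrix.transpose_smul, Matrix.transpose_sub, Matrix.transpose_smul, Matrix.transpose_one,
    testArr_symm hH]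

theorem uOf_unitary {n m : ℕ} {H : Matrix (Fin n) (Fin n) ℝ} (hH : Hᵀ = H) (E ρ K x : ℝ)
    (g : Fin n → Fin m → ℝ) : uOf H E ρ K x g ∈ unitaryGroup (Fin m) ℂ :=
  Cay_unitary (arg_symm hH E ρ K x g)


lemma Hm_symm {n : ℕ} (G : SimpleGraph (Fin n)) (s : ℝ) (ω : Fin n → ℝ) :
    (Hm G s ω)ᵀ = Hm G s ω := by
  classical
  unfold Hm
  rw [Matrix.transpose_add, Matrix.transpose_smul, Matrix.diagonal_transpose,
    SimpleGraph.transpose_adjMatrix]

lemma goe_symm {n : ℕ} (g : GOEDisorder n) : (goeMatrix g)ᵀ = goeMatrix g := by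
  ext i j
  simp only [Matrix.transpose_apply, goeMatrix]
  by_cases h : i = j
  · subst h; rfl
  · have h' : ¬ j = i := fun e => h e.symm
    simp only [h, h', if_false]
    by_cases hlt : i < j
    · have : ¬ j < i := not_lt.2 hlt.le
      simp [hlt, this]
    · have : j < i := lt_of_le_of_ne (not_lt.1 hlt) h'
      simp [hlt, this]

/-- continuous functions are bounded on the unitary group. -/
theorem exists_bound {m : ℕ} {f : Matrix (Fin m) (Fin m) ℂ → ℝ} (hf : Continuous f) :
    ∃ M : ℝ, 0 ≤ M ∧ ∀ U ∈ unitaryGroup (Fin m) ℂ, |f U| ≤ M := by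
  have hc : IsCompact (Set.pi Set.univ fun _ : Fin m => Set.pi Set.univ fun _ : Fin m =>
      Metric.closedBall (0 : ℂ) 1) :=
    isCompact_univ_pi fun _ => isCompact_univ_pi fun _ => isCompact_closedBall _ _
  obtain ⟨M, hM⟩ := hc.exists_bound_of_continuousOn (f := (f : (Fin m → Fin m → ℂ) → ℝ))
    (Continuous.continuousOn hf)
  refine ⟨max M 0, le_max_right _ _, fun U hU => ?_⟩
  have h1 := hM U (fun i _ j _ => by
    rw [Metric.mem_closedBall, dist_zero_right]
    exact entry_norm_bound_of_unitary hU i j)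
  exact h1.trans (le_max_left _ _)

/-! ### Probability measures -/

instance instProbPot (n : ℕ) : IsProbabilityMeasure (potentialLaw n) := by
  unfold potentialLaw
  have : IsProbabilityMeasure ((2⁻¹ : NNReal) • (volume : Measure ℝ).restrict (Set.Icc (-1 : ℝ) 1)) := by
    constructor
    rw [Measure.smul_apply, Measure.restrict_apply MeasurableSet.univ, Set.univ_inter,
      Real.volume_Icc]
    have h1 : (1 : ℝ) - -1 = 2 := by norm_num
    rw [h1]
    rw [ENNReal.smul_def, smul_eq_mul]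
    rw [ENNReal.coe_inv (by norm_num), ENNReal.ofReal_ofNat]
    exact ENNReal.inv_mul_cancel (by norm_num) (by norm_num)
  infer_instance

instance instProbGauss (n m : ℕ) : IsProbabilityMeasure (gaussM n m) := by
  unfold gaussM; infer_instance

instance instProbGoe (n : ℕ) : IsProbabilityMeasure (goeDisorderLaw n) := by
  unfold goeDisorderLaw; infer_instance

/-- the uniform law on `(0, δ]` -/
def tauM (δ : ℝ) : Measure ℝ := (ENNReal.ofReal δ)⁻¹ • volume.restrict (Set.Ioc 0 δ)

lemma isProb_tauM {δ : ℝ} (hδ : 0 < δ) : IsProbabilityMeasure (tauM δ) := by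
  constructor
  unfold tauM
  rw [Measure.smul_apply, Measure.restrict_apply MeasurableSet.univ, Set.univ_inter,
    Real.volume_Ioc, sub_zero, smul_eq_mul]
  exact ENNReal.inv_mul_cancel (by simpa using hδ) ENNReal.ofReal_ne_top

lemma isFinite_tauM (δ : ℝ) : IsFiniteMeasure (tauM δ) := by
  rcases lt_or_ge 0 δ with h | h
  · have := isProb_tauM h
    infer_instance
  · unfold tauM
    have : Set.Ioc (0 : ℝ) δ = ∅ := Set.Ioc_eq_empty (not_lt.mpr h)
    rw [this, Measure.restrict_empty, smul_zero]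
    infer_instance

lemma isProb_gLaw {n d : ℕ} (h : (regularGraphs n d).Nonempty) : IsProbabilityMeasure (gLaw n d) := by
  constructor
  unfold gLaw
  rw [Measure.smul_apply, Measure.finsetSum_apply]
  simp only [measure_univ, Finset.sum_const, nsmul_eq_mul, mul_one, smul_eq_mul]
  refine ENNReal.inv_mul_cancel ?_ (by simp)
  simpa using h.ne_empty

lemma isProb_law {n d : ℕ} (h : (regularGraphs n d).Nonempty) : IsProbabilityMeasure (law n d) := by
  have := isProb_gLaw h
  unfold law
  infer_instance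

lemma isFinite_gLaw (n d : ℕ) : IsFiniteMeasure (gLaw n d) := by
  by_cases h : (regularGraphs n d).Nonempty
  · have := isProb_gLaw h; infer_instance
  · rw [Finset.not_nonempty_iff_eq_empty] at h
    unfold gLaw
    rw [h]
    simp only [Finset.sum_empty, smul_zero]
    infer_instance

instance instFinGLaw (n d : ℕ) : IsFiniteMeasure (gLaw n d) := isFinite_gLaw n d

instance instFinLaw (n d : ℕ) : IsFiniteMeasure (law n d) := by
  unfold law; infer_instance

instance instFinTau (δ : ℝ) : IsFiniteMeasure (tauM δ) := isFinite_tauM δ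

/-! ### TestVal -/

/-- the integrand is bounded by a constant -/
lemma abs_f_uOf_le {n m : ℕ} {f : Matrix (Fin m) (Fin m) ℂ → ℝ} {M : ℝ}
    (hM : ∀ U ∈ unitaryGroup (Fin m) ℂ, |f U| ≤ M) {H : Matrix (Fin n) (Fin n) ℝ} (hH : Hᵀ = H)
    (E ρ K x : ℝ) (g : Fin n → Fin m → ℝ) : |f (uOf H E ρ K x g)| ≤ M :=
  hM _ (uOf_unitary hH E ρ K x g)

lemma measurable_entry' {α : Type*} [MeasurableSpace α] {n m : ℕ} {φ : α → Fin n → Fin m → ℝ}
    (h : Measurable φ) (i : Fin n) (j : Fin m) : Measurable fun a => φ a i j :=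
  (measurable_pi_apply j).comp ((measurable_pi_apply i).comp h)

/-- joint measurability of `f ∘ uOf`. -/
theorem measurable_f_uOf {n m : ℕ} {H : Ω → Matrix (Fin n) (Fin n) ℝ} (h : EM H) (E ρ K : ℝ)
    {f : Matrix (Fin m) (Fin m) ℂ → ℝ} (hf : Continuous f) :
    Measurable fun p : Ω × (ℝ × (Fin n → Fin m → ℝ)) => f (uOf (H p.1) E ρ K p.2.1 p.2.2) := by
  have h1 : EM (fun p : Ω × (ℝ × (Fin n → Fin m → ℝ)) => uOf (H p.1) E ρ K p.2.1 p.2.2) := by
    refine EM_uOf (h.comp measurable_fst) E ρ K (measurable_fst.comp measurable_snd) ?_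
    intro i j
    exact measurable_entry' (measurable_snd.comp measurable_snd) i j
  exact h1.measurable_of_continuous hf

/-- `TestVal` as an integral over a finite measure -/
theorem TestVal_eq {n m : ℕ} {H : Matrix (Fin n) (Fin n) ℝ} (hH : Hᵀ = H) (E ρ K : ℝ) {δ : ℝ}
    (hδ : 0 < δ) {f : Matrix (Fin m) (Fin m) ℂ → ℝ} (hf : Continuous f) :
    TestVal H E ρ K δ m f =
      ∫ p, f (uOf H E ρ K p.1 p.2) ∂((tauM δ).prod (gaussM n m)) := by
  obtain ⟨M, hM0, hM⟩ := exists_bound hf
  have hmeas : Measurable fun p : ℝ × (Fin n → Fin m → ℝ) => f (uOf H E ρ K p.1 p.2) := by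
    have h1 : EM (fun p : ℝ × (Fin n → Fin m → ℝ) => uOf H E ρ K p.1 p.2) :=
      EM_uOf (EM.const H) E ρ K measurable_fst (fun i j => measurable_entry' measurable_snd i j)
    exact h1.measurable_of_continuous hf
  have hint : Integrable (fun p : ℝ × (Fin n → Fin m → ℝ) => f (uOf H E ρ K p.1 p.2))
      ((tauM δ).prod (gaussM n m)) := by
    refine Integrable.of_bound hmeas.aestronglyMeasurable M ?_
    exact Filter.Eventually.of_forall fun p => by
      rw [Real.norm_eq_abs]; exact abs_f_uOf_le hM hH E ρ K p.1 p.2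
  rw [integral_prod _ hint]
  unfold TestVal tauM
  rw [integral_smul_measure, intervalIntegral.integral_of_le hδ.le]
  congr 1
  rw [ENNReal.toReal_inv, ENNReal.toReal_ofReal hδ.le]

theorem abs_TestVal_le {n m : ℕ} {H : Matrix (Fin n) (Fin n) ℝ} (hH : Hᵀ = H) (E ρ K : ℝ) {δ : ℝ}
    (hδ : 0 < δ) {f : Matrix (Fin m) (Fin m) ℂ → ℝ} (hf : Continuous f) {M : ℝ}
    (hM : ∀ U ∈ unitaryGroup (Fin m) ℂ, |f U| ≤ M) : |TestVal H E ρ K δ m f| ≤ M := by
  rw [TestVal_eq hH E ρ K hδ hf]
  have := isProb_tauM hδ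
  have h1 := norm_integral_le_of_norm_le_const (μ := (tauM δ).prod (gaussM n m))
    (f := fun p : ℝ × (Fin n → Fin m → ℝ) => f (uOf H E ρ K p.1 p.2)) (C := M)
    (Filter.Eventually.of_forall fun p => by
      rw [Real.norm_eq_abs]; exact abs_f_uOf_le hM hH E ρ K p.1 p.2)
  rw [Real.norm_eq_abs] at h1
  simpa using h1

/-- measurability of `TestVal` in the matrix -/
theorem measurable_TestVal {n m : ℕ} {H : Ω → Matrix (Fin n) (Fin n) ℝ} (h : EM H)
    (hH : ∀ w, (H w)ᵀ = H w) (E ρ K : ℝ) {δ : ℝ} (hδ : 0 < δ)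
    {f : Matrix (Fin m) (Fin m) ℂ → ℝ} (hf : Continuous f) :
    Measurable fun w => TestVal (H w) E ρ K δ m f := by
  have h1 := measurable_f_uOf h E ρ K hf
  have h2 : StronglyMeasurable fun w => ∫ p, f (uOf (H w) E ρ K p.1 p.2)
      ∂((tauM δ).prod (gaussM n m)) := h1.stronglyMeasurable.integral_prod_right
  have h3 : (fun w => TestVal (H w) E ρ K δ m f) = fun w => ∫ p, f (uOf (H w) E ρ K p.1 p.2)
      ∂((tauM δ).prod (gaussM n m)) := by
    funext w; exact TestVal_eq (hH w) E ρ K hδ hf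
  rw [h3]
  exact h2.measurable

/-! ### EG -/

/-- integration against the uniform law on regular graphs -/
theorem integral_gLaw (n d : ℕ) (F : SimpleGraph (Fin n) → ℝ) :
    ∫ G, F G ∂(gLaw n d) = regularAverage n d F := by
  unfold gLaw regularAverage
  rw [integral_smul_measure, integral_finsetSum_measure]
  · simp only [integral_dirac, ENNReal.toReal_inv, ENNReal.toReal_natCast, smul_eq_mul]
    rw [div_eq_inv_mul]
  · intro G _
    exact integrable_dirac (by simp)

/-- `EG` as an integral over the joint law. -/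
theorem EG_eq (n d : ℕ) (s : ℝ) {Φ : Matrix (Fin n) (Fin n) ℝ → ℝ}
    (hΦ : Measurable fun p : SimpleGraph (Fin n) × (Fin n → ℝ) => Φ (Hm p.1 s p.2)) {M : ℝ}
    (hM : ∀ G ω, |Φ (Hm G s ω)| ≤ M) :
    EG n d s Φ = ∫ p, Φ (Hm p.1 s p.2) ∂(law n d) := by
  unfold EG law
  rw [integral_prod, integral_gLaw]
  refine Integrable.of_bound hΦ.aestronglyMeasurable M ?_
  exact Filter.Eventually.of_forall fun p => by rw [Real.norm_eq_abs]; exact hM p.1 p.2

/-- `EG` of a test value as one integral -/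
theorem EG_TestVal_eq (n d : ℕ) (s E ρ K : ℝ) {δ : ℝ} (hδ : 0 < δ) {m : ℕ}
    {f : Matrix (Fin m) (Fin m) ℂ → ℝ} (hf : Continuous f) :
    EG n d s (fun H => TestVal H E ρ K δ m f) =
      ∫ p, f (uOf (Hm p.1.1 s p.1.2) E ρ K p.2.1 p.2.2)
        ∂((law n d).prod ((tauM δ).prod (gaussM n m))) := by
  obtain ⟨M, hM0, hM⟩ := exists_bound hf
  have hmeas := measurable_f_uOf (EM_Hm n s) (m := m) E ρ K hf
  rw [EG_eq n d s (M := M)
    (measurable_TestVal (EM_Hm n s) (fun w => Hm_symm _ _ _) E ρ K hδ hf)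
    (fun G ω => abs_TestVal_le (Hm_symm G s ω) E ρ K hδ hf hM), integral_prod]
  · refine integral_congr_ae (Filter.Eventually.of_forall fun p => ?_)
    exact TestVal_eq (Hm_symm _ _ _) E ρ K hδ hf
  · refine Integrable.of_bound hmeas.aestronglyMeasurable M ?_
    exact Filter.Eventually.of_forall fun p => by
      rw [Real.norm_eq_abs]; exact abs_f_uOf_le hM (Hm_symm _ _ _) E ρ K _ _

/-- `EO` of a test value as one integral -/
theorem EO_TestVal_eq (n : ℕ) (E ρ K : ℝ) {δ : ℝ} (hδ : 0 < δ) {m : ℕ}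
    {f : Matrix (Fin m) (Fin m) ℂ → ℝ} (hf : Continuous f) :
    EO n (fun H => TestVal H E ρ K δ m f) =
      ∫ p, f (uOf (goeMatrix p.1) E ρ K p.2.1 p.2.2)
        ∂((goeDisorderLaw n).prod ((tauM δ).prod (gaussM n m))) := by
  obtain ⟨M, hM0, hM⟩ := exists_bound hf
  have hmeas := measurable_f_uOf (EM_goe n) (m := m) E ρ K hf
  unfold EO
  rw [integral_prod]
  · refine integral_congr_ae (Filter.Eventually.of_forall fun p => ?_)
    exact TestVal_eq (goe_symm _) E ρ K hδ hf
  · refine Integrable.of_bound hmeas.aestronglyMeasurable M ?_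
    exact Filter.Eventually.of_forall fun p => by
      rw [Real.norm_eq_abs]; exact abs_f_uOf_le hM (goe_symm _) E ρ K _ _

end Crest.Agent.R166.Meas85
end
end

-- ▼ part R166/COEmain_682
section

/-!
Row 166, section 51: `COEStatement`, i.e. the comparison of the two models from the asymptotic
`SU(m)`-invariance of the test arrays.
-/

set_option autoImplicit false
set_option linter.unusedSectionVars false

namespace Crest.Agent.R166.COE682

open Matrix MeasureTheory Topology Filter
open Crest.ProbabilityR.RandomMatrix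

open Crest.Agent.R166.Meas85

/-! ### The array and its corner -/

section arrays

variable {n m : ℕ}

/-- the normalised real test array -/
noncomputable def arr (H : Matrix (Fin n) (Fin n) ℝ) (E ρ K x : ℝ) (g : Fin n → Fin m → ℝ) :
    Matrix (Fin m) (Fin m) ℝ :=
  (1 / (Real.pi * ρ)) • (testArr H (E + x / n) g -
    (mn H (zz E K n)).re • (1 : Matrix (Fin m) (Fin m) ℝ))

lemma uOf_eq (H : Matrix (Fin n) (Fin n) ℝ) (E ρ K x : ℝ) (g : Fin n → Fin m → ℝ) :
    uOf H E ρ K x g = Cay (arr H E ρ K x g) := rfl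

lemma arr_symm {H : Matrix (Fin n) (Fin n) ℝ} (hH : Hᵀ = H) (E ρ K x : ℝ)
    (g : Fin n → Fin m → ℝ) : (arr H E ρ K x g)ᵀ = arr H E ρ K x g :=
  arg_symm hH E ρ K x g

/-- dropping the first column -/
def drop (g : Fin n → Fin (m + 1) → ℝ) : Fin n → Fin m → ℝ := fun a i => g a i.succ

lemma corner_arr (H : Matrix (Fin n) (Fin n) ℝ) (E ρ K x : ℝ) (g : Fin n → Fin (m + 1) → ℝ) :
    corner (arr H E ρ K x g) = arr H E ρ K x (drop g) := by
  ext i j
  have h1 : (1 : Matrix (Fin (m + 1)) (Fin (m + 1)) ℝ) i.succ j.succ =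
      (1 : Matrix (Fin m) (Fin m) ℝ) i j := by
    simp [Matrix.one_apply]
  unfold corner arr testArr
  simp only [Matrix.submatrix_apply, Matrix.smul_apply, Matrix.sub_apply, h1, smul_eq_mul]
  rfl

end arrays

/-! ### The law of the test array on `SymU m` -/

section laws

variable {Ω : Type*} [MeasurableSpace Ω] {n : ℕ}

/-- the random symmetric unitary -/
noncomputable def toSym (H : Ω → Matrix (Fin n) (Fin n) ℝ) (E ρ K : ℝ) (m : ℕ)
    (p : Ω × (ℝ × (Fin n → Fin m → ℝ))) : SymU m :=
  cayT (arr (H p.1) E ρ K p.2.1 p.2.2)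

lemma measurable_toSym {H : Ω → Matrix (Fin n) (Fin n) ℝ} (h : EM H) (E ρ K : ℝ) (m : ℕ) :
    Measurable (toSym H E ρ K m) := by
  have h1 : EM (fun p : Ω × (ℝ × (Fin n → Fin m → ℝ)) => arr (H p.1) E ρ K p.2.1 p.2.2) := by
    unfold arr
    refine EM.smul measurable_const (EM.sub ?_ ?_)
    · refine EM_testArr (h.comp measurable_fst) ?_ ?_
      · exact measurable_const.add ((measurable_fst.comp measurable_snd).div_const _)
      · exact fun i j => measurable_entry' (measurable_snd.comp measurable_snd) i j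
    · refine EM.smul ?_ (EM.const 1)
      exact Complex.measurable_re.comp (measurable_mn (h.comp measurable_fst) measurable_const)
  exact h1.measurable_of_continuous continuous_cayT

/-- the law of the test array -/
noncomputable def lawS (μ : Measure Ω) (H : Ω → Matrix (Fin n) (Fin n) ℝ) (E ρ K δ : ℝ) (m : ℕ) :
    Measure (SymU m) :=
  (μ.prod ((tauM δ).prod (gaussM n m))).map (toSym H E ρ K m)

lemma isProb_lawS (μ : Measure Ω) [IsProbabilityMeasure μ] {H : Ω → Matrix (Fin n) (Fin n) ℝ}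
    (h : EM H) (E ρ K : ℝ) {δ : ℝ} (hδ : 0 < δ) (m : ℕ) :
    IsProbabilityMeasure (lawS μ H E ρ K δ m) := by
  have := isProb_tauM hδ
  exact Measure.isProbabilityMeasure_map (measurable_toSym h E ρ K m).aemeasurable

lemma integral_lawS (μ : Measure Ω) {H : Ω → Matrix (Fin n) (Fin n) ℝ}
    (h : EM H) (hH : ∀ w, (H w)ᵀ = H w) (E ρ K δ : ℝ) (m : ℕ)
    {F : Matrix (Fin m) (Fin m) ℂ → ℝ} (hF : Continuous F) :
    ∫ U, F U.val ∂(lawS μ H E ρ K δ m) =
      ∫ p, F (uOf (H p.1) E ρ K p.2.1 p.2.2) ∂(μ.prod ((tauM δ).prod (gaussM n m))) := by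
  unfold lawS
  have hm : Measurable fun U : SymU m => F U.val := (hF.comp SymU.continuous_val).measurable
  rw [integral_map (measurable_toSym h E ρ K m).aemeasurable hm.aestronglyMeasurable]
  refine integral_congr_ae (Eventually.of_forall fun p => ?_)
  simp only [toSym]
  rw [val_cayT (arr_symm (hH p.1) E ρ K _ _), uOf_eq]

lemma gaussM_drop (n m : ℕ) : (gaussM n (m + 1)).map drop = gaussM n m := by
  have hrow : (Measure.pi fun _ : Fin (m + 1) => ProbabilityTheory.gaussianReal 0 1).map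
      (fun (y : Fin (m + 1) → ℝ) (i : Fin m) => y i.succ) =
      Measure.pi fun _ : Fin m => ProbabilityTheory.gaussianReal 0 1 := by
    have h1 := measurePreserving_piFinSuccAbove
      (fun _ : Fin (m + 1) => ProbabilityTheory.gaussianReal 0 1) 0
    have h2 := (measurePreserving_snd (μ := ProbabilityTheory.gaussianReal 0 1)
      (ν := Measure.pi fun _ : Fin m => ProbabilityTheory.gaussianReal 0 1)).comp h1
    exact h2.map_eq
  unfold gaussM
  have hm : Measurable (fun (y : Fin (m + 1) → ℝ) (i : Fin m) => y i.succ) :=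
    measurable_pi_iff.2 fun i => measurable_pi_apply _
  have h3 : IsProbabilityMeasure ((Measure.pi fun _ : Fin (m + 1) =>
      ProbabilityTheory.gaussianReal 0 1).map
      (fun (y : Fin (m + 1) → ℝ) (i : Fin m) => y i.succ)) :=
    Measure.isProbabilityMeasure_map hm.aemeasurable
  have h4 := Measure.pi_map_pi (ι := Fin n)
    (μ := fun _ : Fin n => Measure.pi fun _ : Fin (m + 1) => ProbabilityTheory.gaussianReal 0 1)
    (f := fun _ (y : Fin (m + 1) → ℝ) (i : Fin m) => y i.succ) (fun _ => hm.aemeasurable)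
  simp only [hrow] at h4
  exact h4

lemma close_lawS (μ : Measure Ω) [IsFiniteMeasure μ] {H : Ω → Matrix (Fin n) (Fin n) ℝ}
    (h : EM H) (hH : ∀ w, (H w)ᵀ = H w) (E ρ K δ : ℝ) (m : ℕ) :
    (lawS μ H E ρ K δ (m + 1)).map SymU.close = lawS μ H E ρ K δ m := by
  unfold lawS
  have hd : Measurable (drop : (Fin n → Fin (m + 1) → ℝ) → (Fin n → Fin m → ℝ)) :=
    measurable_pi_iff.2 fun a => measurable_pi_iff.2 fun i =>
      (measurable_pi_apply _).comp (measurable_pi_apply _)
  rw [Measure.map_map SymU.measurable_close (measurable_toSym h E ρ K (m + 1))]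
  have h1 : SymU.close ∘ toSym H E ρ K (m + 1) =
      toSym H E ρ K m ∘ (Prod.map id (Prod.map id drop)) := by
    ext1 p
    simp only [Function.comp_apply, toSym]
    rw [close_cayT (arr_symm (hH p.1) E ρ K _ _), corner_arr]
    rfl
  rw [h1, ← Measure.map_map (measurable_toSym h E ρ K m)
    (measurable_id.prodMap (measurable_id.prodMap hd))]
  congr 1
  rw [← Measure.map_prod_map _ _ measurable_id (measurable_id.prodMap hd),
    ← Measure.map_prod_map _ _ measurable_id hd, Measure.map_id, Measure.map_id, gaussM_drop]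

end laws

/-! ### The comparison -/

/-- a probability measure from a measure (junk value if it is not one) -/
noncomputable def mkM {m : ℕ} (μ : Measure (SymU m)) : Measure (SymU m) := by
  classical exact
    if IsProbabilityMeasure μ then μ else Measure.dirac (Classical.arbitrary _)

lemma isProb_mkM {m : ℕ} (μ : Measure (SymU m)) : IsProbabilityMeasure (mkM μ) := by
  unfold mkM
  split_ifs with h
  · exact h
  · infer_instance

/-- a probability measure from a measure (junk value if it is not one) -/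
noncomputable def mkP {m : ℕ} (μ : Measure (SymU m)) : ProbabilityMeasure (SymU m) :=
  ⟨mkM μ, isProb_mkM μ⟩

lemma coe_mkP {m : ℕ} {μ : Measure (SymU m)} (h : IsProbabilityMeasure μ) :
    (mkP μ : Measure (SymU m)) = μ := by
  show mkM μ = μ
  unfold mkM
  rw [if_pos h]

/-- the index filter: first `n → ∞` (in a set `S`), then `K → ∞` -/
def fil (S : Set ℕ) : Filter (ℝ × ℕ) := (atTop : Filter ℝ).curry ((atTop : Filter ℕ) ⊓ 𝓟 S)

lemma tendsto_fil {S : Set ℕ} {F : ℝ × ℕ → ℝ} :
    Tendsto F (fil S) (𝓝 0) ↔ ∀ ε : ℝ, 0 < ε → ∃ K0 : ℝ, 0 < K0 ∧ ∀ K : ℝ, K0 ≤ K →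
      ∃ N : ℕ, ∀ n : ℕ, N ≤ n → n ∈ S → |F (K, n)| ≤ ε := by
  rw [Metric.tendsto_nhds]
  unfold fil
  constructor
  · intro h ε hε
    have h1 := h ε hε
    rw [eventually_curry_iff] at h1
    obtain ⟨K1, hK1⟩ := eventually_atTop.1 h1
    refine ⟨max K1 1, by positivity, fun K hK => ?_⟩
    have h2 := hK1 K (le_trans (le_max_left _ _) hK)
    rw [eventually_inf_principal] at h2
    obtain ⟨N, hN⟩ := eventually_atTop.1 h2
    refine ⟨N, fun n hn hS => ?_⟩
    have h3 := hN n hn hS
    rw [Real.dist_eq, sub_zero] at h3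
    exact h3.le
  · intro h ε hε
    rw [eventually_curry_iff]
    obtain ⟨K0, -, hK0⟩ := h (ε / 2) (by positivity)
    filter_upwards [eventually_ge_atTop K0] with K hK
    obtain ⟨N, hN⟩ := hK0 K hK
    rw [eventually_inf_principal]
    filter_upwards [eventually_ge_atTop N] with n hn hS
    rw [Real.dist_eq, sub_zero]
    linarith [hN n hn hS]

lemma eventually_fil {S : Set ℕ} {p : ℝ × ℕ → Prop} (h : ∀ K n, n ∈ S → p (K, n)) :
    ∀ᶠ i in fil S, p i := by
  unfold fil
  rw [eventually_curry_iff]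
  refine Eventually.of_forall fun K => ?_
  rw [eventually_inf_principal]
  exact Eventually.of_forall fun n hn => h K n hn

lemma exists_extension {m : ℕ} (f : C(SymU m, ℝ)) :
    ∃ F : MM m → ℝ, Continuous F ∧ ∀ U : SymU m, F U.val = f U := by
  have he : IsClosedEmbedding (SymU.val : SymU m → MM m) :=
    (SymU.isClosed_Sy (m := m)).isClosedEmbedding_subtypeVal
  obtain ⟨g, hg⟩ := f.exists_extension he
  exact ⟨g, g.continuous, fun U => congrFun (congrArg DFunLike.coe hg) U⟩

/-- **COE statement** -/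
theorem coeStatement (d : ℕ) (s E ρ : ℝ) : COEStatement d s E ρ := by
  intro hG hO m hm f hf δ hδ
  set S : Set ℕ := {n | (regularGraphs n d).Nonempty} with hS
  -- the two families
  set P : ℝ × ℕ → (m : ℕ) → ProbabilityMeasure (SymU m) := fun i m =>
    mkP (lawS (law i.2 d) (fun p => Hm p.1 s p.2) E ρ i.1 δ m) with hP
  set Q : ℝ × ℕ → (m : ℕ) → ProbabilityMeasure (SymU m) := fun i m =>
    mkP (lawS (goeDisorderLaw i.2) (fun g => goeMatrix g) 0 (1 / Real.pi) i.1 δ m) with hQ
  have hPc : ∀ i m, i.2 ∈ S → (P i m : Measure (SymU m)) =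
      lawS (law i.2 d) (fun p => Hm p.1 s p.2) E ρ i.1 δ m := by
    intro i m hi
    have := isProb_law hi
    exact coe_mkP (isProb_lawS _ (EM_Hm i.2 s) E ρ i.1 hδ m)
  have hQc : ∀ i m, (Q i m : Measure (SymU m)) =
      lawS (goeDisorderLaw i.2) (fun g => goeMatrix g) 0 (1 / Real.pi) i.1 δ m := by
    intro i m
    exact coe_mkP (isProb_lawS _ (EM_goe i.2) 0 (1 / Real.pi) i.1 hδ m)
  have hPint : ∀ i m, i.2 ∈ S → ∀ F : MM m → ℝ, Continuous F →
      ∫ U, F U.val ∂(P i m : Measure (SymU m)) =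
        EG i.2 d s (fun H => TestVal H E ρ i.1 δ m F) := by
    intro i m hi F hF
    rw [hPc i m hi, integral_lawS _ (EM_Hm i.2 s) (fun p => Hm_symm p.1 s p.2) E ρ i.1 δ m hF,
      EG_TestVal_eq i.2 d s E ρ i.1 hδ hF]
  have hQint : ∀ i m, ∀ F : MM m → ℝ, Continuous F →
      ∫ U, F U.val ∂(Q i m : Measure (SymU m)) =
        EO i.2 (fun H => TestVal H 0 (1 / Real.pi) i.1 δ m F) := by
    intro i m F hF
    rw [hQc i m, integral_lawS _ (EM_goe i.2) (fun g => goe_symm g) 0 (1 / Real.pi) i.1 δ m hF,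
      EO_TestVal_eq i.2 0 (1 / Real.pi) i.1 hδ hF]
  have main := coe_limit (fil S) P Q 4 (by norm_num) ?_ ?_ ?_ ?_ m hm
    ⟨fun U => f U.val, hf.comp SymU.continuous_val⟩
  · intro ε hε
    obtain ⟨K0, hK0, h⟩ := tendsto_fil.1 main ε hε
    refine ⟨K0, hK0, fun K hK => ?_⟩
    obtain ⟨N, hN⟩ := h K hK
    refine ⟨N, fun n hn hne => ?_⟩
    have h1 := hN n hn hne
    simp only [ContinuousMap.coe_mk] at h1
    rw [hPint (K, n) m hne f hf, hQint (K, n) m f hf] at h1
    exact h1
  · -- invariance, graph side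
    intro m hm V g
    obtain ⟨F, hFc, hF⟩ := exists_extension g
    have hFV : Continuous fun U : MM m => F (V.val * U * V.valᵀ) := by
      refine hFc.comp ?_
      exact (continuous_const.mul continuous_id).mul continuous_const
    have h1 : Tendsto (fun i : ℝ × ℕ => EG i.2 d s (fun H => TestVal H E ρ i.1 δ m
        fun U => F (V.val * U * V.valᵀ)) - EG i.2 d s (fun H => TestVal H E ρ i.1 δ m F))
        (fil S) (𝓝 0) := by
      rw [tendsto_fil]
      intro ε hε
      exact hG m hm V.val V.unit V.det_eq F hFc δ hδ ε hε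
    refine h1.congr' (eventually_fil fun K n hn => ?_)
    simp only
    rw [← hPint (K, n) m hn _ hFV, ← hPint (K, n) m hn F hFc]
    congr 1
    · refine integral_congr_ae (Eventually.of_forall fun U => ?_)
      simp only
      rw [← hF (V • U), SG.val_smul]
    · refine integral_congr_ae (Eventually.of_forall fun U => ?_)
      simp only
      rw [hF]
  · -- consistency, graph side
    intro m hm g
    refine tendsto_const_nhds.congr' (eventually_fil fun K n hn => ?_)
    simp only
    rw [hPc (K, n) m hn, ← close_lawS _ (EM_Hm n s) (fun p => Hm_symm p.1 s p.2) E ρ K δ m,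
      ← hPc (K, n) (m + 1) hn, integral_map SymU.measurable_close.aemeasurable
      g.continuous.measurable.aestronglyMeasurable, sub_self]
  · -- invariance, GOE side
    intro m hm V g
    obtain ⟨F, hFc, hF⟩ := exists_extension g
    have hFV : Continuous fun U : MM m => F (V.val * U * V.valᵀ) := by
      refine hFc.comp ?_
      exact (continuous_const.mul continuous_id).mul continuous_const
    have h1 : Tendsto (fun i : ℝ × ℕ => EO i.2 (fun H => TestVal H 0 (1 / Real.pi) i.1 δ m
        fun U => F (V.val * U * V.valᵀ)) - EO i.2 (fun H => TestVal H 0 (1 / Real.pi) i.1 δ m F))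
        (fil S) (𝓝 0) := by
      rw [tendsto_fil]
      intro ε hε
      obtain ⟨K0, hK0, h⟩ := hO m hm V.val V.unit V.det_eq F hFc δ hδ ε hε
      refine ⟨K0, hK0, fun K hK => ?_⟩
      obtain ⟨N, hN⟩ := h K hK
      exact ⟨N, fun n hn _ => hN n hn⟩
    refine h1.congr' (Eventually.of_forall fun i => ?_)
    simp only
    rw [← hQint i m _ hFV, ← hQint i m F hFc]
    congr 1
    · refine integral_congr_ae (Eventually.of_forall fun U => ?_)
      simp only
      rw [← hF (V • U), SG.val_smul]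
    · refine integral_congr_ae (Eventually.of_forall fun U => ?_)
      simp only
      rw [hF]
  · -- consistency, GOE side
    intro m hm g
    refine tendsto_const_nhds.congr' (Eventually.of_forall fun i => ?_)
    simp only
    rw [hQc i m, ← close_lawS _ (EM_goe i.2) (fun g => goe_symm g) 0 (1 / Real.pi) i.1 δ m,
      ← hQc i (m + 1), integral_map SymU.measurable_close.aemeasurable
      g.continuous.measurable.aestronglyMeasurable, sub_self]

end Crest.Agent.R166.COE682
end

-- ▼ part R166/Final2_423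
section

/-!
Row 166, section 81: final composition, part 2 (helper423): sections 51, 52, 60.1, 81 plugged in.
-/

set_option autoImplicit false

namespace Crest.Agent.R166.Asm423

open MeasureTheory ProbabilityTheory Crest.ProbabilityR.RandomMatrix Crest.Agent.R166

/-- everything after `ImLim`, `InvG`, `InvO` -/
theorem finalGO_of_inv {d : ℕ} {s E ρ : ℝ} (hρ : 0 < ρ) (hIm : ImLim d s E ρ)
    (hInvG : InvG d s E ρ) (hInvO : InvO)
    (h : ℝ → ℝ) (hc : Continuous h) (hs : HasCompactSupport h) (h0 : ∀ t, 0 ≤ h t) :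
    FinalGO d s E ρ h :=
  finalGO_of hρ hIm hInvG hInvO (COE682.coeStatement d s E ρ) Rec255.recon2 h hc hs h0

theorem kestenMcKay_pos {d : ℕ} (hd : 3 ≤ d) {E : ℝ} (hE : E ^ 2 < 4 * ((d : ℝ) - 1)) :
    0 < kestenMcKayDensity d E := by
  have hd' : (3 : ℝ) ≤ d := by exact_mod_cast hd
  unfold kestenMcKayDensity
  have h1 : 0 < 4 * ((d : ℝ) - 1) - E ^ 2 := by linarith
  have h2 : 0 < (d : ℝ) ^ 2 - E ^ 2 := by nlinarith [sq_nonneg ((d : ℝ) - 2)]
  have h3 : 0 < Real.sqrt (4 * ((d : ℝ) - 1) - E ^ 2) := Real.sqrt_pos.2 h1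
  have := Real.pi_pos
  positivity

/-- S0251 from `ImLim`, `InvG`, `InvO` -/
theorem s0251_of_inv {d : ℕ} (hd : 3 ≤ d) {E : ℝ} (hE : E ^ 2 < 4 * ((d : ℝ) - 1))
    {h : ℝ → ℝ} (hc : Continuous h) (hs : HasCompactSupport h) (h0 : ∀ t, 0 ≤ h t)
    (hIm : ImLim d 0 E (kestenMcKayDensity d E)) (hInvG : InvG d 0 E (kestenMcKayDensity d E))
    (hInvO : InvO) :
    ∀ ε : ℝ, 0 < ε → ∃ N : ℕ, ∀ n : ℕ, N ≤ n → (regularGraphs n d).Nonempty →
      |regularAverage n d (fun G => adjLaplaceWeight G
          (unfoldAt h (n * kestenMcKayDensity d E) E)) -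
          ∫ g, goeLaplaceWeight g (unfoldAt h (n / Real.pi) 0) ∂goeDisorderLaw n| < ε :=
  s0251_of (finalGO_of_inv (kestenMcKay_pos hd hE) hIm hInvG hInvO h hc hs h0)

end Crest.Agent.R166.Asm423
end

-- ▼ part R166/Master_423

/-!
Row 166, section 81: master composition (helper423).

The remaining inputs of S0251 and S0252 as Props, and the two frozen statements from them.
-/

set_option autoImplicit false

namespace Crest.Agent.R166.Master423

open MeasureTheory ProbabilityTheory Crest.ProbabilityR.RandomMatrix Crest.Agent.R166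
open Crest.Agent.R166.Asm423

/-! ### Section 50 -/

/-- (50) final output of section 50 (owner 348): invariance on the graph side -/
def Stmt50 : Prop :=
  ∀ (d : ℕ) (s E ρ : ℝ), 3 ≤ d → 0 < ρ → EnvDet d s E → ImLim d s E ρ → LocLim d s E →
    NonDeg d s E → ThmB d s E ρ → InvG d s E ρ

/-- `EnvDet` (owner 536) -/
def StmtEnv : Prop := ∀ (d : ℕ) (s E : ℝ), 3 ≤ d → 0 ≤ s → EnvDet d s E

/-! ### Clean case -/

/-- local law outputs at `s = 0` (owners 598, 395, 501, 566) -/
def Stmt31 : Prop :=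
  ∀ (d : ℕ) (E : ℝ), 3 ≤ d → E ^ 2 < 4 * ((d : ℝ) - 1) →
    ImLim d 0 E (kestenMcKayDensity d E) ∧ ImFix d 0 E (kestenMcKayDensity d E) ∧
      LocLim d 0 E ∧ NonDeg d 0 E ∧ NoEsc d 0 E ∧ ∀ r : ℝ, 0 < r → NearClean d 0 E r

/-- Theorem B at `s = 0` (owners 955, 385, 980) -/
def StmtB0 : Prop :=
  ∀ (d : ℕ) (E : ℝ), 3 ≤ d → E ^ 2 < 4 * ((d : ℝ) - 1) →
    ImLim d 0 E (kestenMcKayDensity d E) → ImFix d 0 E (kestenMcKayDensity d E) →
    LocLim d 0 E → NonDeg d 0 E → NoEsc d 0 E → (∀ r : ℝ, 0 < r → NearClean d 0 E r) →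
    ThmB d 0 E (kestenMcKayDensity d E)

theorem s0251 (h50 : Stmt50) (hEnv : StmtEnv) (h31 : Stmt31) (hB : StmtB0) (hInvO : InvO)
    (d : ℕ) (hd : 3 ≤ d) (E : ℝ) (hE : E ^ 2 < 4 * ((d : ℝ) - 1))
    (h : ℝ → ℝ) (hcont : Continuous h) (hsupp : HasCompactSupport h) (hpos : ∀ t, 0 ≤ h t) :
    ∀ ε : ℝ, 0 < ε → ∃ N : ℕ, ∀ n : ℕ, N ≤ n → (regularGraphs n d).Nonempty →
      |regularAverage n d (fun G => adjLaplaceWeight G
          (unfoldAt h (n * kestenMcKayDensity d E) E)) -
          ∫ g, goeLaplaceWeight g (unfoldAt h (n / Real.pi) 0) ∂goeDisorderLaw n| < ε := by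
  obtain ⟨hIm, hFix, hLoc, hNd, hNo, hNc⟩ := h31 d E hd hE
  have hρ := kestenMcKay_pos hd hE
  have hTB := hB d E hd hE hIm hFix hLoc hNd hNo hNc
  exact s0251_of_inv hd hE hcont hsupp hpos hIm
    (h50 d 0 E _ hd hρ (hEnv d 0 E hd le_rfl) hIm hLoc hNd hTB) hInvO

/-! ### Disordered case -/

/-- `Im Gav(E + iη) → π ρ` as `η → 0` -/
def GavLim (d : ℕ) (s E ρ : ℝ) : Prop :=
  ∀ ε : ℝ, 0 < ε → ∃ η0 : ℝ, 0 < η0 ∧ ∀ η : ℝ, 0 < η → η ≤ η0 →
    |(TreeDefs350.Gav (d - 1) s (ze E η)).im - Real.pi * ρ| ≤ ε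

/-- graph half of section 32 (owners 420, 522, 798, 583, 424, 355) -/
def Stmt32G : Prop :=
  ∀ (d : ℕ), 3 ≤ d → ∀ κ : ℝ, 0 < κ → ∃ s0 : ℝ, 0 < s0 ∧ ∀ s : ℝ, 0 < s → s < s0 →
    ∀ E ρ : ℝ, |E| ≤ 2 * Real.sqrt ((d : ℝ) - 1) - κ → 0 < ρ → GavLim d s E ρ →
      ImLim d s E ρ ∧ ImFix d s E ρ ∧ LocLim d s E ∧ NonDeg d s E ∧ NoEsc d s E

/-- Theorem B at `0 < s < s0` (owners 955, 385, 980) -/
def StmtBs : Prop :=
  ∀ (d : ℕ), 3 ≤ d → ∀ κ : ℝ, 0 < κ → ∃ s0 : ℝ, 0 < s0 ∧ ∀ s : ℝ, 0 < s → s < s0 →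
    ∀ E ρ : ℝ, |E| ≤ 2 * Real.sqrt ((d : ℝ) - 1) - κ → 0 < ρ → GavLim d s E ρ →
      ImLim d s E ρ → ImFix d s E ρ → LocLim d s E → NonDeg d s E → NoEsc d s E →
      ThmB d s E ρ

/-- (70, M1): the density of states measure and its Stieltjes transform (owner 390) -/
def StmtM1 : Prop :=
  ∀ (d : ℕ) (s : ℝ), 3 ≤ d → 0 ≤ s → ∃ ν : Measure ℝ, IsTreeDOS d s ν ∧
    ∀ z : ℂ, 0 < z.im → ∫ x, ((x : ℂ) - z)⁻¹ ∂ν = TreeDefs350.Gav (d - 1) s z

/-- (70, M2): Stieltjes inversion (owner 390) -/
def StmtM2 : Prop :=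
  ∀ (ν : Measure ℝ) [IsProbabilityMeasure ν] (U : Set ℝ) (ρ : ℝ → ℝ), IsOpen U →
    ContinuousOn ρ U → (∀ t ∈ U, 0 ≤ ρ t) →
    (∀ ε : ℝ, 0 < ε → ∃ η0 : ℝ, 0 < η0 ∧ ∀ η : ℝ, 0 < η → η ≤ η0 → ∀ E ∈ U,
      |(∫ x, ((x : ℂ) - ze E η)⁻¹ ∂ν).im - Real.pi * ρ E| ≤ ε) →
    ν.restrict U = (volume.restrict U).withDensity (fun t => ENNReal.ofReal (ρ t))

theorem abs_le_of_mem {b κ E : ℝ}
    (hE : E ∈ Set.Icc (-(2 * Real.sqrt b) + κ) (2 * Real.sqrt b - κ)) :
    |E| ≤ 2 * Real.sqrt b - κ := abs_le.2 ⟨by linarith [hE.1], hE.2⟩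

theorem treeFinal (h50 : Stmt50) (hEnv : StmtEnv) (h32 : Stmt32G) (hB : StmtBs) (hInvO : InvO)
    (hM1 : StmtM1) (hM2 : StmtM2) (hT8 : ∀ b : ℕ, 2 ≤ b → TreeSpec350.T8 b)
    {d : ℕ} (hd : 3 ≤ d) {κ : ℝ} (hκ : 0 < κ) : TreeFinal d κ := by
  have hcast : ((d - 1 : ℕ) : ℝ) = (d : ℝ) - 1 := by
    rw [Nat.cast_sub (by omega)]; simp
  obtain ⟨s1, hs1, H1⟩ := hT8 (d - 1) (by omega) (κ / 2) (by positivity)
  obtain ⟨s2, hs2, H2⟩ := h32 d hd κ hκ
  obtain ⟨s3, hs3, H3⟩ := hB d hd κ hκ
  rw [hcast] at H1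
  refine ⟨min s1 (min s2 s3), lt_min hs1 (lt_min hs2 hs3), fun s hs hs' => ?_⟩
  have hs1' : s < s1 := lt_of_lt_of_le hs' (min_le_left _ _)
  have hs2' : s < s2 := lt_of_lt_of_le hs' ((min_le_right _ _).trans (min_le_left _ _))
  have hs3' : s < s3 := lt_of_lt_of_le hs' ((min_le_right _ _).trans (min_le_right _ _))
  obtain ⟨ρ, hρc, ⟨c, hc, hρ0⟩, hlim⟩ := H1 s hs hs1'
  obtain ⟨ν, hν, hStj⟩ := hM1 d s hd hs.le
  have hUopen : IsOpen {E : ℝ | |E| < 2 * Real.sqrt ((d : ℝ) - 1) - κ / 2} :=
    isOpen_lt continuous_abs continuous_const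
  have hsub : Set.Icc (-(2 * Real.sqrt ((d : ℝ) - 1)) + κ) (2 * Real.sqrt ((d : ℝ) - 1) - κ) ⊆
      {E : ℝ | |E| < 2 * Real.sqrt ((d : ℝ) - 1) - κ / 2} := fun E hE => by
    have := abs_le_of_mem hE
    exact lt_of_le_of_lt this (by linarith)
  have hprob : IsProbabilityMeasure ν := hν.1
  have hpos : ∀ t ∈ {E : ℝ | |E| < 2 * Real.sqrt ((d : ℝ) - 1) - κ / 2}, 0 ≤ ρ t :=
    fun t ht => hc.le.trans (hρ0 t ht)
  have hGav : ∀ E ∈ Set.Icc (-(2 * Real.sqrt ((d : ℝ) - 1)) + κ)
      (2 * Real.sqrt ((d : ℝ) - 1) - κ), GavLim d s E (ρ E) := fun E hE ε hε => by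
    obtain ⟨η0, hη0, h⟩ := hlim ε hε
    exact ⟨η0, hη0, fun η h1 h2 => h η h1 h2 E (hsub hE)⟩
  refine ⟨ν, hν, ρ, {E : ℝ | |E| < 2 * Real.sqrt ((d : ℝ) - 1) - κ / 2}, hUopen, hsub, hρc, hpos,
    ?_, ?_, ?_⟩
  · refine hM2 ν _ ρ hUopen hρc hpos fun ε hε => ?_
    obtain ⟨η0, hη0, h⟩ := hlim ε hε
    refine ⟨η0, hη0, fun η h1 h2 E hE => ?_⟩
    rw [hStj (ze E η) (by simp [ze, h1])]
    exact h η h1 h2 E hE
  · exact fun E hE => lt_of_lt_of_le hc (hρ0 E (hsub hE))
  · intro E hE h hcont hsupp hh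
    have hρE : 0 < ρ E := lt_of_lt_of_le hc (hρ0 E (hsub hE))
    obtain ⟨hIm, hFix, hLoc, hNd, hNo⟩ := H2 s hs hs2' E (ρ E) (abs_le_of_mem hE) hρE (hGav E hE)
    have hTB := H3 s hs hs3' E (ρ E) (abs_le_of_mem hE) hρE (hGav E hE) hIm hFix hLoc hNd hNo
    exact finalGO_of_inv hρE hIm
      (h50 d s E _ hd hρE (hEnv d s E hd hs.le) hIm hLoc hNd hTB) hInvO h hcont hsupp hh

theorem s0252 (h50 : Stmt50) (hEnv : StmtEnv) (h32 : Stmt32G) (hB : StmtBs) (hInvO : InvO)
    (hM1 : StmtM1) (hM2 : StmtM2) (hT8 : ∀ b : ℕ, 2 ≤ b → TreeSpec350.T8 b)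
    (d : ℕ) (hd : 3 ≤ d) (κ : ℝ) (hκ : 0 < κ) :
    ∃ s₀ : ℝ, 0 < s₀ ∧ ∀ s : ℝ, 0 < s → s < s₀ →
      ∃ ν : MeasureTheory.Measure ℝ, IsTreeDOS d s ν ∧
        ∃ (ρ : ℝ → ℝ) (U : Set ℝ), IsOpen U ∧
          Set.Icc (-(2 * Real.sqrt ((d : ℝ) - 1)) + κ) (2 * Real.sqrt ((d : ℝ) - 1) - κ) ⊆ U ∧
          ContinuousOn ρ U ∧ (∀ t ∈ U, 0 ≤ ρ t) ∧
          ν.restrict U = (MeasureTheory.volume.restrict U).withDensity
            (fun t => ENNReal.ofReal (ρ t)) ∧
          (∀ E ∈ Set.Icc (-(2 * Real.sqrt ((d : ℝ) - 1)) + κ)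
            (2 * Real.sqrt ((d : ℝ) - 1) - κ), 0 < ρ E) ∧
          ∀ E ∈ Set.Icc (-(2 * Real.sqrt ((d : ℝ) - 1)) + κ) (2 * Real.sqrt ((d : ℝ) - 1) - κ),
            ∀ h : ℝ → ℝ, Continuous h → HasCompactSupport h → (∀ t, 0 ≤ h t) →
              ∀ ε : ℝ, 0 < ε → ∃ N : ℕ, ∀ n : ℕ, N ≤ n → d < n → Even (n * d) →
                |regularAverage n d (fun G => ∫ ω, disorderedLaplaceWeight G s ω
                      (unfoldAt h (n * ρ E) E) ∂potentialLaw n) -
                    ∫ g, goeLaplaceWeight g (unfoldAt h (n / Real.pi) 0) ∂goeDisorderLaw n|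
                  < ε :=
  s0252_of hd (treeFinal h50 hEnv h32 hB hInvO hM1 hM2 hT8 hd hκ)

end Crest.Agent.R166.Master423
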