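import Mathlib
import Crest.Agent.R166.Noise_547

/-!
Row 166, section 40.2 (helper547), part 2: volume bounds.

* `gauss_withDensity` : the standard Gaussian vector has the expected density;
* `ball_vol_le`, `ellipsoid_vol_le` : volume of ellipsoids (used in (U), 40.7);
* `chi_tail` : lower tail of the chi-square law;
* `noise_density_le` : density bound of `F + √t Z` (used in (T), 40.6).
-/

set_option autoImplicit false
set_option maxHeartbeats 400000

namespace Crest.Agent.R166.Noise547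

open Matrix MeasureTheory ProbabilityTheory
open scoped ENNReal

section gauss

variable {ι : Type*} [Fintype ι]

lemma gaussPDF_std (x : ℝ) :
    gaussianPDFReal 0 1 x = (Real.sqrt (2 * Real.pi))⁻¹ * Real.exp (-(x ^ 2) / 2) := by
  simp [gaussianPDFReal]

lemma prod_gaussPDF (x : ι → ℝ) :
    ∏ i, gaussianPDFReal 0 1 (x i) =
      (Real.sqrt (2 * Real.pi))⁻¹ ^ (Fintype.card ι) * Real.exp (-(∑ i, x i ^ 2) / 2) := by
  simp only [gaussPDF_std]
  rw [Finset.prod_mul_distrib, Finset.prod_const, Finset.card_univ, ← Real.exp_sum]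
  congr 2
  rw [neg_div, Finset.sum_div, ← Finset.sum_neg_distrib]
  exact Finset.sum_congr rfl fun i _ => by ring

/-- density of the standard Gaussian vector -/
lemma gauss_withDensity :
    (Measure.pi fun _ : ι => gaussianReal 0 1) =
      (volume : Measure (ι → ℝ)).withDensity
        (fun x => ENNReal.ofReal (∏ i, gaussianPDFReal 0 1 (x i))) := by
  refine Measure.pi_eq fun s hs => ?_
  have hbox : MeasurableSet (Set.univ.pi s) := MeasurableSet.univ_pi hs
  have hint : Integrable (fun x : ι → ℝ => ∏ i, gaussianPDFReal 0 1 (x i)) volume :=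
    Integrable.fintype_prod (f := fun _ => gaussianPDFReal 0 1)
      (fun _ => integrable_gaussianPDFReal 0 1)
  have hnn : ∀ x : ι → ℝ, 0 ≤ ∏ i, gaussianPDFReal 0 1 (x i) := fun x =>
    Finset.prod_nonneg fun i _ => gaussianPDFReal_nonneg _ _ _
  rw [withDensity_apply _ hbox, ← ofReal_integral_eq_lintegral_ofReal hint.restrict
    (Filter.Eventually.of_forall hnn)]
  have h1 : ∀ i, gaussianReal 0 1 (s i) =
      ENNReal.ofReal (∫ x in s i, gaussianPDFReal 0 1 x) := fun i =>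
    gaussianReal_apply_eq_integral 0 one_ne_zero (s i)
  simp only [h1]
  rw [← ENNReal.ofReal_prod_of_nonneg]
  · congr 1
    rw [← integral_indicator hbox]
    have h2 : ∀ x : ι → ℝ, (Set.univ.pi s).indicator
        (fun x : ι → ℝ => ∏ i, gaussianPDFReal 0 1 (x i)) x =
        ∏ i, (s i).indicator (fun y => gaussianPDFReal 0 1 y) (x i) := by
      intro x
      by_cases hx : x ∈ Set.univ.pi s
      · rw [Set.indicator_of_mem hx]
        refine Finset.prod_congr rfl fun i _ => ?_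
        rw [Set.indicator_of_mem (hx i (Set.mem_univ i))]
      · rw [Set.indicator_of_notMem hx]
        simp only [Set.mem_univ_pi, not_forall] at hx
        obtain ⟨i, hi⟩ := hx
        symm
        exact Finset.prod_eq_zero (Finset.mem_univ i) (Set.indicator_of_notMem hi _)
    simp only [h2]
    rw [integral_fintype_prod_volume_eq_prod (fun i => (s i).indicator
      (fun y => gaussianPDFReal 0 1 y))]
    refine Finset.prod_congr rfl fun i _ => ?_
    rw [integral_indicator (hs i)]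
  · intro i _
    exact integral_nonneg fun x => gaussianPDFReal_nonneg _ _ _

/-- volume of the ball of radius `√N` in dimension `N` -/
lemma ball_vol_le :
    volume {x : ι → ℝ | ∑ i, x i ^ 2 ≤ Fintype.card ι} ≤
      ENNReal.ofReal (Real.exp ((Fintype.card ι : ℝ) / 2 * Real.log (2 * Real.pi * Real.exp 1))) := by
  set N : ℕ := Fintype.card ι with hN
  set S : Set (ι → ℝ) := {x | ∑ i, x i ^ 2 ≤ (N : ℝ)} with hS
  have hSm : MeasurableSet S := by
    apply measurableSet_le _ measurable_const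
    exact Finset.measurable_sum _ fun i _ => (measurable_pi_apply i).pow_const 2
  have h1 : (Measure.pi fun _ : ι => gaussianReal 0 1) S ≤ 1 := prob_le_one
  rw [gauss_withDensity, withDensity_apply _ hSm] at h1
  set c : ℝ := (Real.sqrt (2 * Real.pi))⁻¹ ^ N * Real.exp (-(N : ℝ) / 2) with hc
  have hcpos : 0 < c := by positivity
  have h2 : ENNReal.ofReal c * volume S ≤ 1 := by
    calc ENNReal.ofReal c * volume S = ∫⁻ x in S, ENNReal.ofReal c := by
          rw [lintegral_const, Measure.restrict_apply MeasurableSet.univ, Set.univ_inter]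
      _ ≤ ∫⁻ x in S, ENNReal.ofReal (∏ i, gaussianPDFReal 0 1 (x i)) := by
          refine setLIntegral_mono' hSm fun x hx => ?_
          apply ENNReal.ofReal_le_ofReal
          rw [prod_gaussPDF, hc]
          refine mul_le_mul_of_nonneg_left ?_ (by positivity)
          apply Real.exp_le_exp.2
          have : ∑ i, x i ^ 2 ≤ (N : ℝ) := hx
          linarith
      _ ≤ 1 := h1
  have h3 : c⁻¹ = Real.exp ((N : ℝ) / 2 * Real.log (2 * Real.pi * Real.exp 1)) := by
    have hpi : (0 : ℝ) < 2 * Real.pi := by positivity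
    have e1 : Real.sqrt (2 * Real.pi) ^ N = Real.exp ((N : ℝ) / 2 * Real.log (2 * Real.pi)) := by
      rw [← Real.exp_log (Real.sqrt_pos.2 hpi), ← Real.exp_nat_mul, Real.log_sqrt hpi.le]
      congr 1
      ring
    rw [hc, mul_inv, inv_pow, inv_inv, ← Real.exp_neg, Real.log_mul hpi.ne'
      (Real.exp_pos 1).ne', Real.log_exp, e1, ← Real.exp_add]
    congr 1
    ring
  rw [← h3]
  have h4 : volume S ≤ (ENNReal.ofReal c)⁻¹ := by
    rw [ENNReal.le_inv_iff_mul_le, mul_comm]
    exact h2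
  rwa [ENNReal.ofReal_inv_of_pos hcpos]

/-- volume of an ellipsoid given through an invertible matrix -/
lemma ellipsoid_mat [DecidableEq ι] (T : Matrix ι ι ℝ) (hT : T.det ≠ 0) :
    volume {y : ι → ℝ | ∑ i, (T⁻¹ *ᵥ y) i ^ 2 ≤ Fintype.card ι} ≤
      ENNReal.ofReal (|T.det| *
        Real.exp ((Fintype.card ι : ℝ) / 2 * Real.log (2 * Real.pi * Real.exp 1))) := by
  have hdet : LinearMap.det (Matrix.toLin' T⁻¹) = (T.det)⁻¹ := by
    rw [LinearMap.det_toLin', Matrix.det_nonsing_inv, Ring.inverse_eq_inv']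
  have h := Measure.addHaar_preimage_linearMap (volume : Measure (ι → ℝ))
    (f := Matrix.toLin' T⁻¹) (by rw [hdet]; exact inv_ne_zero hT)
    {x : ι → ℝ | ∑ i, x i ^ 2 ≤ Fintype.card ι}
  have e : {y : ι → ℝ | ∑ i, (T⁻¹ *ᵥ y) i ^ 2 ≤ Fintype.card ι} =
      (Matrix.toLin' T⁻¹) ⁻¹' {x : ι → ℝ | ∑ i, x i ^ 2 ≤ Fintype.card ι} := by
    ext y
    simp [Matrix.toLin'_apply]
  rw [e, h, hdet, inv_inv, ENNReal.ofReal_mul (abs_nonneg _)]
  exact mul_le_mul_right ball_vol_le _

end gauss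

section curry

variable {V K : Type*} [Fintype V] [Fintype K]

/-- uncurrying preserves a product measure -/
lemma uncurry_map (μ : Measure ℝ) [SigmaFinite μ] :
    Measure.map (fun (y : V → K → ℝ) (p : V × K) => y p.1 p.2)
      (Measure.pi fun _ : V => Measure.pi fun _ : K => μ) = Measure.pi fun _ : V × K => μ := by
  symm
  refine Measure.pi_eq fun s hs => ?_
  have hm : Measurable (fun (y : V → K → ℝ) (p : V × K) => y p.1 p.2) :=
    measurable_pi_lambda _ fun p => (measurable_pi_apply p.2).comp (measurable_pi_apply p.1)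
  rw [Measure.map_apply hm (MeasurableSet.univ_pi hs)]
  have e : (fun (y : V → K → ℝ) (p : V × K) => y p.1 p.2) ⁻¹' (Set.univ.pi s) =
      Set.univ.pi (fun v => Set.univ.pi fun κ => s (v, κ)) := by
    ext y
    simp [Set.mem_pi]
  rw [e, Measure.pi_pi]
  simp only [Measure.pi_pi]
  rw [← Finset.univ_product_univ, Finset.prod_product]

lemma uncurry_volume :
    Measure.map (fun (y : V → K → ℝ) (p : V × K) => y p.1 p.2) volume =
      (volume : Measure (V × K → ℝ)) := uncurry_map volume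

end curry

section ellipsoid

variable {V : Type*} [Fintype V] [DecidableEq V] {H : Matrix V V ℝ}

/-- `√g(H) ⊗ I_k` scaled by `√q` -/
noncomputable def Tmat (hH : H.IsHermitian) (g : ℝ → ℝ) (q : ℝ) (k : ℕ) :
    Matrix (V × Fin k) (V × Fin k) ℝ :=
  Matrix.blockDiagonal fun _ : Fin k => fM hH (fun t => Real.sqrt (q * g t))

lemma Tmat_det (hH : H.IsHermitian) (g : ℝ → ℝ) (q : ℝ) (k : ℕ) :
    (Tmat hH g q k).det = (∏ i, Real.sqrt (q * g (hH.eigenvalues i))) ^ k := by
  unfold Tmat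
  rw [Matrix.det_blockDiagonal]
  simp [fM_det]

lemma Tmat_det_pos (hH : H.IsHermitian) {g : ℝ → ℝ} (hg : ∀ i, 0 < g (hH.eigenvalues i))
    {q : ℝ} (hq : 0 < q) (k : ℕ) : 0 < (Tmat hH g q k).det := by
  rw [Tmat_det]
  exact pow_pos (Finset.prod_pos fun i _ => Real.sqrt_pos.2 (mul_pos hq (hg i))) k

lemma Tmat_det_eq_exp (hH : H.IsHermitian) {g : ℝ → ℝ} (hg : ∀ i, 0 < g (hH.eigenvalues i))
    {q : ℝ} (hq : 0 < q) (k : ℕ) :
    (Tmat hH g q k).det = Real.exp ((Fintype.card V * k : ℝ) / 2 * Real.log q +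
      (k : ℝ) / 2 * ∑ i, Real.log (g (hH.eigenvalues i))) := by
  rw [← Real.exp_log (Tmat_det_pos hH hg hq k), Tmat_det, Real.log_pow, Real.log_prod]
  · congr 1
    have : ∀ i, Real.log (Real.sqrt (q * g (hH.eigenvalues i))) =
        (Real.log q + Real.log (g (hH.eigenvalues i))) / 2 := by
      intro i
      rw [Real.log_sqrt (mul_pos hq (hg i)).le, Real.log_mul hq.ne' (hg i).ne']
    simp only [this]
    rw [← Finset.sum_div, Finset.sum_add_distrib, Finset.sum_const, Finset.card_univ,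
      nsmul_eq_mul]
    ring
  · exact fun i _ => (Real.sqrt_pos.2 (mul_pos hq (hg i))).ne'

lemma Tmat_inv (hH : H.IsHermitian) {g : ℝ → ℝ} (hg : ∀ i, 0 < g (hH.eigenvalues i))
    {q : ℝ} (hq : 0 < q) (k : ℕ) :
    (Tmat hH g q k)⁻¹ = Matrix.blockDiagonal
      fun _ : Fin k => fM hH (fun t => (Real.sqrt (q * g t))⁻¹) := by
  refine Matrix.inv_eq_right_inv ?_
  unfold Tmat
  rw [← Matrix.blockDiagonal_mul]
  have : (fun _ : Fin k => fM hH (fun t => Real.sqrt (q * g t)) *
      fM hH (fun t => (Real.sqrt (q * g t))⁻¹)) = 1 := by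
    funext j
    rw [fM_mul, Pi.one_apply, ← fM_one hH]
    exact fM_congr hH fun i => mul_inv_cancel₀ (Real.sqrt_pos.2 (mul_pos hq (hg i))).ne'
  rw [this, Matrix.blockDiagonal_one]

/-- the quadratic form of `T⁻¹ y` -/
lemma Tmat_inv_sq (hH : H.IsHermitian) {g : ℝ → ℝ} (hg : ∀ i, 0 < g (hH.eigenvalues i))
    {q : ℝ} (hq : 0 < q) (k : ℕ) (y : V → Fin k → ℝ) :
    ∑ p, ((Tmat hH g q k)⁻¹ *ᵥ (fun p : V × Fin k => y p.1 p.2)) p ^ 2 =
      q⁻¹ * ∑ κ, ∑ x, ∑ z, y x κ * fM hH (fun t => (g t)⁻¹) x z * y z κ := by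
  rw [Tmat_inv hH hg hq]
  have h1 : ∀ p : V × Fin k, ((Matrix.blockDiagonal
      fun _ : Fin k => fM hH (fun t => (Real.sqrt (q * g t))⁻¹)) *ᵥ
      (fun p : V × Fin k => y p.1 p.2)) p =
      ∑ z, fM hH (fun t => (Real.sqrt (q * g t))⁻¹) p.1 z * y z p.2 := by
    intro p
    simp only [Matrix.mulVec, dotProduct, Matrix.blockDiagonal_apply]
    rw [← Finset.univ_product_univ, Finset.sum_product]
    refine Finset.sum_congr rfl fun z _ => ?_
    simp
  simp only [h1]
  rw [← Finset.univ_product_univ, Finset.sum_product_right, Finset.mul_sum]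
  refine Finset.sum_congr rfl fun κ _ => ?_
  rw [fM_quad]
  have h2 : ∑ x, (∑ z, fM hH (fun t => (Real.sqrt (q * g t))⁻¹) x z * y z κ) ^ 2 =
      ∑ x, ∑ z, y x κ * fM hH (fun t => (q * g t)⁻¹) x z * y z κ := by
    have h3 : fM hH (fun t => (q * g t)⁻¹) = fM hH (fun t => (Real.sqrt (q * g t))⁻¹) *
        fM hH (fun t => (Real.sqrt (q * g t))⁻¹) := by
      rw [fM_mul]
      refine fM_congr hH fun i => ?_
      rw [← mul_inv, Real.mul_self_sqrt (mul_pos hq (hg i)).le]
    rw [h3]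
    simp only [Matrix.mul_apply, sq, Finset.mul_sum, Finset.sum_mul]
    calc ∑ x, ∑ z, ∑ w, fM hH (fun t => (Real.sqrt (q * g t))⁻¹) x w * y w κ *
          (fM hH (fun t => (Real.sqrt (q * g t))⁻¹) x z * y z κ)
        = ∑ z, ∑ x, ∑ w, fM hH (fun t => (Real.sqrt (q * g t))⁻¹) x w * y w κ *
          (fM hH (fun t => (Real.sqrt (q * g t))⁻¹) x z * y z κ) := Finset.sum_comm
      _ = ∑ z, ∑ w, ∑ x, fM hH (fun t => (Real.sqrt (q * g t))⁻¹) x w * y w κ *
          (fM hH (fun t => (Real.sqrt (q * g t))⁻¹) x z * y z κ) :=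
          Finset.sum_congr rfl fun z _ => Finset.sum_comm
      _ = ∑ w, ∑ z, ∑ x, fM hH (fun t => (Real.sqrt (q * g t))⁻¹) x w * y w κ *
          (fM hH (fun t => (Real.sqrt (q * g t))⁻¹) x z * y z κ) := Finset.sum_comm
      _ = _ := by
          refine Finset.sum_congr rfl fun w _ => Finset.sum_congr rfl fun z _ =>
            Finset.sum_congr rfl fun x _ => ?_
          rw [fM_symm hH _ x w]
          ring
  rw [h2, fM_quad, Finset.mul_sum]
  refine Finset.sum_congr rfl fun i _ => ?_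
  rw [mul_inv]
  ring

/-- **volume of the ellipsoid** (section 40.7). -/
theorem ellipsoid_vol_le (hH : H.IsHermitian) {g : ℝ → ℝ} (hg : ∀ i, 0 < g (hH.eigenvalues i))
    {q : ℝ} (hq : 0 < q) (k : ℕ) :
    volume {y : V → Fin k → ℝ |
        ∑ κ, ∑ x, ∑ z, y x κ * fM hH (fun t => (g t)⁻¹) x z * y z κ ≤
          (Fintype.card V * k : ℝ) * q} ≤
      ENNReal.ofReal (Real.exp ((Fintype.card V * k : ℝ) / 2 *
          Real.log (2 * Real.pi * Real.exp 1 * q) +
        (k : ℝ) / 2 * ∑ i, Real.log (g (hH.eigenvalues i)))) := by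
  have hcard : (Fintype.card (V × Fin k) : ℝ) = Fintype.card V * k := by
    rw [Fintype.card_prod, Fintype.card_fin]
    push_cast
    ring
  have hdet := Tmat_det_pos hH hg hq k
  have h := ellipsoid_mat (Tmat hH g q k) hdet.ne'
  rw [hcard] at h
  have hm : Measurable (fun (y : V → Fin k → ℝ) (p : V × Fin k) => y p.1 p.2) :=
    measurable_pi_lambda _ fun p => (measurable_pi_apply p.2).comp (measurable_pi_apply p.1)
  have hS : MeasurableSet {y : V × Fin k → ℝ | ∑ i, ((Tmat hH g q k)⁻¹ *ᵥ y) i ^ 2 ≤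
      (Fintype.card V * k : ℝ)} := by
    apply measurableSet_le _ measurable_const
    refine Finset.measurable_sum _ fun i _ => Measurable.pow_const ?_ 2
    simp only [Matrix.mulVec, dotProduct]
    exact Finset.measurable_sum _ fun j _ => (measurable_pi_apply j).const_mul _
  have e : {y : V → Fin k → ℝ |
        ∑ κ, ∑ x, ∑ z, y x κ * fM hH (fun t => (g t)⁻¹) x z * y z κ ≤
          (Fintype.card V * k : ℝ) * q} =
      (fun (y : V → Fin k → ℝ) (p : V × Fin k) => y p.1 p.2) ⁻¹'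
      {y : V × Fin k → ℝ | ∑ i, ((Tmat hH g q k)⁻¹ *ᵥ y) i ^ 2 ≤
      (Fintype.card V * k : ℝ)} := by
    ext y
    simp only [Set.mem_ofPred_eq, Set.mem_preimage]
    rw [Tmat_inv_sq hH hg hq, inv_mul_le_iff₀ hq, mul_comm q]
  rw [e, ← Measure.map_apply hm hS, uncurry_volume]
  refine h.trans (ENNReal.ofReal_le_ofReal ?_)
  rw [abs_of_pos hdet, Tmat_det_eq_exp hH hg hq, ← Real.exp_add]
  apply le_of_eq
  congr 1
  rw [Real.log_mul (by positivity) hq.ne']
  ring

end ellipsoid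

section chi

variable {ι : Type*} [Fintype ι]

lemma gauss_exp_sq {l : ℝ} (hl : 0 ≤ l) :
    ∫ x, Real.exp (-l * x ^ 2) ∂(gaussianReal 0 1) = (Real.sqrt (1 + 2 * l))⁻¹ := by
  rw [integral_gaussianReal_eq_integral_smul one_ne_zero]
  have h1 : ∀ x : ℝ, gaussianPDFReal 0 1 x • Real.exp (-l * x ^ 2) =
      (Real.sqrt (2 * Real.pi))⁻¹ * Real.exp (-(l + 1 / 2) * x ^ 2) := by
    intro x
    rw [gaussPDF_std, smul_eq_mul, mul_assoc, ← Real.exp_add]
    congr 2
    ring
  simp only [h1]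
  rw [integral_const_mul, integral_gaussian, ← Real.sqrt_inv, ← Real.sqrt_inv,
    ← Real.sqrt_mul (by positivity)]
  congr 1
  have : (0 : ℝ) < l + 1 / 2 := by positivity
  have hpi := Real.pi_pos
  field_simp
  ring

lemma gauss_exp_sum_sq {l : ℝ} (hl : 0 ≤ l) :
    ∫ x : ι → ℝ, Real.exp (-l * ∑ i, x i ^ 2) ∂(Measure.pi fun _ => gaussianReal 0 1) =
      (Real.sqrt (1 + 2 * l))⁻¹ ^ Fintype.card ι := by
  have h1 : ∀ x : ι → ℝ, Real.exp (-l * ∑ i, x i ^ 2) = ∏ i, Real.exp (-l * x i ^ 2) := by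
    intro x
    rw [← Real.exp_sum, Finset.mul_sum]
  simp only [h1]
  rw [integral_fintype_prod_eq_prod (fun (_ : ι) (x : ℝ) => Real.exp (-l * x ^ 2))]
  simp only [gauss_exp_sq hl, Finset.prod_const, Finset.card_univ]

lemma chi_aux {x N l : ℝ} (hN' : 0 < N) (hl : l = x / N) (hx : 0 ≤ x) (m : ℕ) (hm : N = m) :
    Real.exp (l * (N - 2 * x)) * (Real.sqrt (1 + 2 * l))⁻¹ ^ m ≤ Real.exp (-(x ^ 2) / N) := by
  have hl0 : 0 ≤ l := by rw [hl]; positivity
  have hpos : 0 < 1 + 2 * l := by positivity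
  have e1 : (Real.sqrt (1 + 2 * l))⁻¹ ^ m = Real.exp (-(N / 2) * Real.log (1 + 2 * l)) := by
    rw [← Real.exp_log (inv_pos.2 (Real.sqrt_pos.2 hpos)), ← Real.exp_nat_mul,
      Real.log_inv, Real.log_sqrt hpos.le, hm]
    congr 1
    ring
  rw [e1, ← Real.exp_add]
  apply Real.exp_le_exp.2
  have hlog : 2 * l - 2 * l ^ 2 ≤ Real.log (1 + 2 * l) := by
    have h5 := Real.le_log_one_add_of_nonneg (x := 2 * l) (by positivity)
    refine le_trans ?_ h5
    rw [le_div_iff₀ (by positivity)]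
    nlinarith [mul_nonneg hl0 (sq_nonneg l)]
  have e2 : x = l * N := by rw [hl]; field_simp
  have e3 : -(x ^ 2) / N = -(l ^ 2 * N) := by
    rw [e2]; field_simp
  rw [e3]
  have h6 := mul_le_mul_of_nonneg_left hlog (by positivity : 0 ≤ N / 2)
  rw [e2]
  nlinarith [h6]

lemma integrable_exp_sq {l : ℝ} (hl0 : 0 ≤ l) :
    Integrable (fun ξ : ι → ℝ => Real.exp (-l * ∑ i, ξ i ^ 2))
      (Measure.pi fun _ : ι => gaussianReal 0 1) := by
  have hmeas : Measurable fun ξ : ι → ℝ => Real.exp (-l * ∑ i, ξ i ^ 2) := by fun_prop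
  refine Integrable.of_bound hmeas.aestronglyMeasurable 1
      (Filter.Eventually.of_forall fun ξ => ?_)
  rw [Real.norm_eq_abs, abs_of_pos (Real.exp_pos _)]
  apply Real.exp_le_one_iff.2
  have : 0 ≤ ∑ i, ξ i ^ 2 := Finset.sum_nonneg fun i _ => sq_nonneg _
  nlinarith

lemma chi_markov {l a c : ℝ} (hl0 : 0 ≤ l)
    (h0 : ∫ x : ι → ℝ, Real.exp (-l * ∑ i, x i ^ 2) ∂(Measure.pi fun _ => gaussianReal 0 1) = c) :
    Real.exp (-l * a) * (Measure.pi fun _ : ι => gaussianReal 0 1).real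
    {ξ : ι → ℝ | Real.exp (-l * a) ≤ Real.exp (-l * ∑ i, ξ i ^ 2)} ≤ c := by
  rw [← h0]
  refine mul_meas_ge_le_integral_of_nonneg ?_ (integrable_exp_sq hl0) _
  exact Filter.Eventually.of_forall fun ξ => (Real.exp_pos _).le

omit [Fintype ι] in
lemma chi_subset [Fintype ι] {l a : ℝ} (hl0 : 0 ≤ l) : {ξ : ι → ℝ | ∑ i, ξ i ^ 2 ≤ a} ⊆
      {ξ : ι → ℝ | Real.exp (-l * a) ≤ Real.exp (-l * ∑ i, ξ i ^ 2)} := by
  intro ξ hξ
  have hξ' : ∑ i, ξ i ^ 2 ≤ a := hξ
  show Real.exp (-l * a) ≤ Real.exp (-l * ∑ i, ξ i ^ 2)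
  apply Real.exp_le_exp.2
  nlinarith

lemma chi_chernoff_aux {l a b : ℝ} (hl0 : 0 ≤ l)
    (h1 : Real.exp (-l * a) * (Measure.pi fun _ : ι => gaussianReal 0 1).real
    {ξ : ι → ℝ | Real.exp (-l * a) ≤ Real.exp (-l * ∑ i, ξ i ^ 2)} ≤ b) :
    (Measure.pi fun _ : ι => gaussianReal 0 1) {ξ : ι → ℝ | ∑ i, ξ i ^ 2 ≤ a} ≤
      ENNReal.ofReal (Real.exp (l * a) * b) := by
  refine (measure_mono (chi_subset hl0)).trans ?_
  have h0 : (Measure.pi fun _ : ι => gaussianReal 0 1)
    {ξ : ι → ℝ | Real.exp (-l * a) ≤ Real.exp (-l * ∑ i, ξ i ^ 2)} ≠ ⊤ := measure_ne_top _ _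
  rw [← ENNReal.ofReal_toReal h0]
  apply ENNReal.ofReal_le_ofReal
  have h3 := mul_le_mul_of_nonneg_left h1 (Real.exp_pos (l * a)).le
  rw [← mul_assoc, ← Real.exp_add] at h3
  have h4 : l * a + -l * a = 0 := by ring
  rw [h4, Real.exp_zero, one_mul] at h3
  exact h3

/-- Chernoff bound for the chi-square law -/
lemma chi_chernoff {l a : ℝ} (hl0 : 0 ≤ l) :
    (Measure.pi fun _ : ι => gaussianReal 0 1) {ξ | ∑ i, ξ i ^ 2 ≤ a} ≤
      ENNReal.ofReal (Real.exp (l * a) * (Real.sqrt (1 + 2 * l))⁻¹ ^ Fintype.card ι) :=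
  chi_chernoff_aux hl0 (chi_markov hl0 (gauss_exp_sum_sq hl0))

/-- lower tail of the chi-square law -/
lemma chi_tail {x : ℝ} (hx : 0 ≤ x) (hN : 0 < Fintype.card ι) :
    (Measure.pi fun _ : ι => gaussianReal 0 1)
      {ξ | ∑ i, ξ i ^ 2 ≤ (Fintype.card ι : ℝ) - 2 * x} ≤
      ENNReal.ofReal (Real.exp (-(x ^ 2) / Fintype.card ι)) := by
  have hN' : (0 : ℝ) < Fintype.card ι := by exact_mod_cast hN
  refine (chi_chernoff (l := x / Fintype.card ι) (by positivity)).trans
    (ENNReal.ofReal_le_ofReal ?_)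
  exact chi_aux hN' rfl hx _ rfl

/-- the Gaussian measure of a set away from the small ball -/
lemma gauss_density_le {e : ℝ} (B : Set (ι → ℝ)) (hB : MeasurableSet B) :
    (Measure.pi fun _ : ι => gaussianReal 0 1) B ≤
      ENNReal.ofReal (Real.exp (-((Fintype.card ι : ℝ) / 2 *
        Real.log (2 * Real.pi * Real.exp 1)) + e)) * volume B +
      (Measure.pi fun _ : ι => gaussianReal 0 1)
        {ξ | ∑ i, ξ i ^ 2 ≤ (Fintype.card ι : ℝ) - 2 * e} := by
  set N : ℕ := Fintype.card ι with hN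
  set S : Set (ι → ℝ) := {ξ | ∑ i, ξ i ^ 2 ≤ (N : ℝ) - 2 * e} with hS
  have hSm : MeasurableSet S := by
    apply measurableSet_le _ measurable_const
    exact Finset.measurable_sum _ fun i _ => (measurable_pi_apply i).pow_const 2
  have h1 : (Measure.pi fun _ : ι => gaussianReal 0 1) B ≤
      (Measure.pi fun _ : ι => gaussianReal 0 1) (B \ S) +
      (Measure.pi fun _ : ι => gaussianReal 0 1) S := by
    refine (measure_mono ?_).trans (measure_union_le _ _)
    rw [Set.sdiff_union_self]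
    exact Set.subset_union_left
  refine h1.trans (add_le_add ?_ le_rfl)
  rw [gauss_withDensity, withDensity_apply _ (hB.diff hSm)]
  have hpi : (0 : ℝ) < 2 * Real.pi := by positivity
  have h3 : (Real.sqrt (2 * Real.pi))⁻¹ ^ N * Real.exp (-((N : ℝ) - 2 * e) / 2) =
      Real.exp (-((N : ℝ) / 2 * Real.log (2 * Real.pi * Real.exp 1)) + e) := by
    have e1 : (Real.sqrt (2 * Real.pi))⁻¹ ^ N =
        Real.exp (-((N : ℝ) / 2 * Real.log (2 * Real.pi))) := by
      rw [← Real.exp_log (inv_pos.2 (Real.sqrt_pos.2 hpi)), ← Real.exp_nat_mul, Real.log_inv,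
        Real.log_sqrt hpi.le]
      congr 1
      ring
    rw [e1, ← Real.exp_add, Real.log_mul hpi.ne' (Real.exp_pos 1).ne', Real.log_exp]
    congr 1
    ring
  calc ∫⁻ x in B \ S, ENNReal.ofReal (∏ i, gaussianPDFReal 0 1 (x i))
      ≤ ∫⁻ _x in B \ S, ENNReal.ofReal
          (Real.exp (-((N : ℝ) / 2 * Real.log (2 * Real.pi * Real.exp 1)) + e)) := by
        refine setLIntegral_mono' (hB.diff hSm) fun x hx => ?_
        apply ENNReal.ofReal_le_ofReal
        rw [prod_gaussPDF, ← h3]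
        refine mul_le_mul_of_nonneg_left ?_ (by positivity)
        apply Real.exp_le_exp.2
        have : ¬ (∑ i, x i ^ 2 ≤ (N : ℝ) - 2 * e) := hx.2
        linarith [not_le.1 this]
    _ = ENNReal.ofReal (Real.exp (-((N : ℝ) / 2 *
          Real.log (2 * Real.pi * Real.exp 1)) + e)) * volume (B \ S) := by
        rw [lintegral_const, Measure.restrict_apply MeasurableSet.univ, Set.univ_inter]
    _ ≤ _ := mul_le_mul_right (measure_mono Set.sdiff_subset) _

end chi

section noise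

variable {V : Type*} [Fintype V] [DecidableEq V] {H : Matrix V V ℝ}

/-- the field `F + √t Z`, `Z = √g(H) ξ` -/
noncomputable def noisy (hH : H.IsHermitian) (g : ℝ → ℝ) (t : ℝ) {k : ℕ} (F : V → Fin k → ℝ)
    (ξ : V → Fin k → ℝ) : V → Fin k → ℝ :=
  fun v κ => F v κ + ∑ x, fM hH (fun u => Real.sqrt (t * g u)) v x * ξ x κ


/-- **density bound** (section 40.6) of `F + √t Z`. -/
theorem noise_density_le (hH : H.IsHermitian) {g : ℝ → ℝ} (hg : ∀ i, 0 < g (hH.eigenvalues i))
    {t : ℝ} (ht : 0 < t) {k : ℕ} (F : V → Fin k → ℝ) (A : Set (V → Fin k → ℝ))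
    (hA : MeasurableSet A) (e : ℝ) :
    (Measure.pi fun _ : V => Measure.pi fun _ : Fin k => gaussianReal 0 1)
        {ξ | noisy hH g t F ξ ∈ A} ≤
      ENNReal.ofReal (Real.exp (-((Fintype.card V * k : ℝ) / 2 *
          Real.log (2 * Real.pi * Real.exp 1 * t) +
        (k : ℝ) / 2 * ∑ i, Real.log (g (hH.eigenvalues i))) + e)) * volume A +
      (Measure.pi fun _ : V => Measure.pi fun _ : Fin k => gaussianReal 0 1)
        {ξ | ∑ v, ∑ κ, ξ v κ ^ 2 ≤ (Fintype.card V * k : ℝ) - 2 * e} := by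
  have hcard : (Fintype.card (V × Fin k) : ℝ) = Fintype.card V * k := by
    rw [Fintype.card_prod, Fintype.card_fin]
    push_cast
    ring
  set U : (V → Fin k → ℝ) → (V × Fin k → ℝ) := fun y p => y p.1 p.2 with hU
  have hUm : Measurable U :=
    measurable_pi_lambda _ fun p => (measurable_pi_apply p.2).comp (measurable_pi_apply p.1)
  set C : (V × Fin k → ℝ) → (V → Fin k → ℝ) := fun y v κ => y (v, κ) with hC
  have hCm : Measurable C :=
    measurable_pi_lambda _ fun v => measurable_pi_lambda _ fun κ => measurable_pi_apply _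
  have hCU : ∀ y, C (U y) = y := fun y => rfl
  have hUC : ∀ y, U (C y) = y := fun y => rfl
  set T := Tmat hH g t k with hT
  have hTpos : 0 < T.det := Tmat_det_pos hH hg ht k
  set B : Set (V × Fin k → ℝ) := {ξ | C (T *ᵥ ξ + U F) ∈ A} with hB
  have hTm : Measurable fun ξ : V × Fin k → ℝ => T *ᵥ ξ + U F := by
    refine measurable_pi_lambda _ fun p => ?_
    simp only [Pi.add_apply, Matrix.mulVec, dotProduct]
    exact (Finset.measurable_sum _ fun j _ => (measurable_pi_apply j).const_mul _).add_const _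
  have hBm : MeasurableSet B := (hCm.comp hTm) hA
  have hTU : ∀ ξ : V → Fin k → ℝ, C (T *ᵥ U ξ + U F) = noisy hH g t F ξ := by
    intro ξ
    funext v κ
    simp only [hC, hU, noisy, Pi.add_apply]
    rw [add_comm]
    congr 1
    simp only [hT, Tmat, Matrix.mulVec, dotProduct, Matrix.blockDiagonal_apply]
    rw [← Finset.univ_product_univ, Finset.sum_product]
    refine Finset.sum_congr rfl fun z _ => ?_
    simp
  have e1 : {ξ : V → Fin k → ℝ | noisy hH g t F ξ ∈ A} = U ⁻¹' B := by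
    ext ξ
    simp only [hB, Set.mem_preimage, Set.mem_ofPred_eq, hTU]
  have e2 : {ξ : V → Fin k → ℝ | ∑ v, ∑ κ, ξ v κ ^ 2 ≤ (Fintype.card V * k : ℝ) - 2 * e} =
      U ⁻¹' {ξ | ∑ i, ξ i ^ 2 ≤ (Fintype.card (V × Fin k) : ℝ) - 2 * e} := by
    ext ξ
    simp only [Set.mem_preimage, Set.mem_ofPred_eq, hcard, hU]
    rw [← Finset.univ_product_univ, Finset.sum_product]
  have hSm : MeasurableSet {ξ : V × Fin k → ℝ |
      ∑ i, ξ i ^ 2 ≤ (Fintype.card (V × Fin k) : ℝ) - 2 * e} := by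
    apply measurableSet_le _ measurable_const
    exact Finset.measurable_sum _ fun i _ => (measurable_pi_apply i).pow_const 2
  rw [e1, e2, ← Measure.map_apply hUm hBm, ← Measure.map_apply hUm hSm, uncurry_map]
  refine (gauss_density_le (e := e) B hBm).trans (add_le_add ?_ le_rfl)
  -- volume of `B`
  have hvol : volume B = ENNReal.ofReal (T.det)⁻¹ * volume A := by
    have hdet : LinearMap.det (Matrix.toLin' T) = T.det := LinearMap.det_toLin' T
    have h1 := Measure.addHaar_preimage_linearMap (volume : Measure (V × Fin k → ℝ))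
      (f := Matrix.toLin' T) (by rw [hdet]; exact hTpos.ne') {y | C (y + U F) ∈ A}
    have e3 : B = (Matrix.toLin' T) ⁻¹' {y | C (y + U F) ∈ A} := by
      ext ξ
      simp [hB, Matrix.toLin'_apply]
    rw [e3, h1, hdet, abs_of_pos (inv_pos.2 hTpos)]
    congr 1
    have h2 : {y : V × Fin k → ℝ | C (y + U F) ∈ A} = (fun y => y + U F) ⁻¹' (C ⁻¹' A) := rfl
    rw [h2, measure_preimage_add_right]
    rw [← uncurry_volume, Measure.map_apply hUm (hCm hA)]
    rfl
  rw [hvol, ← mul_assoc]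
  refine mul_le_mul_left ?_ _
  rw [← ENNReal.ofReal_mul (Real.exp_pos _).le]
  apply ENNReal.ofReal_le_ofReal
  rw [hT, Tmat_det_eq_exp hH hg ht, ← Real.exp_neg, ← Real.exp_add, hcard]
  apply le_of_eq
  congr 1
  rw [Real.log_mul (x := 2 * Real.pi * Real.exp 1) (by positivity) ht.ne']
  ring

/-- the tail in `noise_density_le` -/
theorem noise_tail (V : Type*) [Fintype V] (k : ℕ) {e : ℝ} (he : 0 ≤ e)
    (hN : 0 < Fintype.card V * k) :
    (Measure.pi fun _ : V => Measure.pi fun _ : Fin k => gaussianReal 0 1)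
        {ξ | ∑ v, ∑ κ, ξ v κ ^ 2 ≤ (Fintype.card V * k : ℝ) - 2 * e} ≤
      ENNReal.ofReal (Real.exp (-(e ^ 2) / (Fintype.card V * k : ℝ))) := by
  have hcard : (Fintype.card (V × Fin k) : ℝ) = Fintype.card V * k := by
    rw [Fintype.card_prod, Fintype.card_fin]
    push_cast
    ring
  set U : (V → Fin k → ℝ) → (V × Fin k → ℝ) := fun y p => y p.1 p.2 with hU
  have hUm : Measurable U :=
    measurable_pi_lambda _ fun p => (measurable_pi_apply p.2).comp (measurable_pi_apply p.1)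
  have e2 : {ξ : V → Fin k → ℝ | ∑ v, ∑ κ, ξ v κ ^ 2 ≤ (Fintype.card V * k : ℝ) - 2 * e} =
      U ⁻¹' {ξ | ∑ i, ξ i ^ 2 ≤ (Fintype.card (V × Fin k) : ℝ) - 2 * e} := by
    ext ξ
    simp only [Set.mem_preimage, Set.mem_ofPred_eq, hcard, hU]
    rw [← Finset.univ_product_univ, Finset.sum_product]
  have hSm : MeasurableSet {ξ : V × Fin k → ℝ |
      ∑ i, ξ i ^ 2 ≤ (Fintype.card (V × Fin k) : ℝ) - 2 * e} := by
    apply measurableSet_le _ measurable_const
    exact Finset.measurable_sum _ fun i _ => (measurable_pi_apply i).pow_const 2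
  rw [e2, ← Measure.map_apply hUm hSm, uncurry_map]
  have := chi_tail (ι := V × Fin k) he (by rw [Fintype.card_prod, Fintype.card_fin]; exact hN)
  rwa [hcard] at this ⊢

end noise

end Crest.Agent.R166.Noise547
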