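import Crest.Agent.R166.TreeG_879
import Crest.Agent.R166.Spec_B2_385
import Crest.Agent.R166.NoiseLim4_849

/-!
# Row 166 (helper879): covariance algebra of the limit process

Dictionary between the graphing form of `Spec_B2_385` (`pp = cross`, `rr = rotn 1`) and the words of
`Words_955`; the entries of `treeG` on the windows used in `LimProc.Z_gauss` converge to
`Gd, Gs, Go, Bk` of the limit cavity field.
-/

set_option autoImplicit false
set_option linter.unusedSectionVars false
noncomputable section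
open MeasureTheory Filter Topology Finset

namespace Crest.Agent.R166.PhiAlg879

open Words955 TreeG879

variable {d : ℕ} [NeZero d]

/-! ### Dictionary -/

section dict
variable {S : Type*} [PortAct d S]

theorem iter_rotn (k : ℕ) (ξ : Conf d S) :
    (rotn (1 : Fin d))^[k] ξ = rotn (Fin.ofNat d k) ξ := by
  induction k with
  | zero =>
    have : (Fin.ofNat d 0) = 0 := rfl
    rw [this, rotn_zero]; rfl
  | succ k ih =>
    rw [Function.iterate_succ_apply', ih, rotn_rotn]
    congr 1
    apply Fin.ext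
    simp [Fin.ofNat, Fin.val_add, add_comm]

theorem mv_eq (j : ℕ) (ξ : Conf d S) : B2.mv cross (rotn 1) j ξ = step (Fin.ofNat d j) ξ := by
  rw [B2.mv, iter_rotn]; rfl

theorem wd_eq (w : List ℕ) (ξ : Conf d S) :
    B2.wd cross (rotn 1) w ξ = reroot (w.map (Fin.ofNat d)) ξ := by
  induction w generalizing ξ with
  | nil => rfl
  | cons j w ih =>
    change B2.wd cross (rotn 1) w (B2.mv cross (rotn 1) j ξ) = _
    rw [List.map_cons, reroot, ← mv_eq, ih]

theorem cross_eq (ξ : Conf d S) : cross ξ = step 0 ξ := by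
  rw [step, rotn_zero]

theorem reroot_append (u v : List (Fin d)) (ξ : Conf d S) :
    reroot (u ++ v) ξ = reroot v (reroot u ξ) := by
  induction u generalizing ξ with
  | nil => rfl
  | cons i u ih => rw [List.cons_append, reroot, ih, reroot]

lemma ofNat_val (i : Fin d) : Fin.ofNat d i.1 = i := by
  apply Fin.ext
  simp [Fin.ofNat, Nat.mod_eq_of_lt i.2]

lemma sum_mv {M : Type*} [AddCommMonoid M] (f : Conf d S → M) (ξ : Conf d S) :
    ∑ i ∈ Finset.range d, f (B2.mv cross (rotn 1) i ξ) = ∑ k : Fin d, f (step k ξ) := by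
  rw [Finset.sum_range]
  refine Finset.sum_congr rfl fun k _ => ?_
  rw [mv_eq, ofNat_val]

lemma sum_mv_succ {M : Type*} [AddCommMonoid M] (f : Conf d S → M) (ξ : Conf d S) :
    ∑ j ∈ Finset.range (d - 1), f (B2.mv cross (rotn 1) (j + 1) ξ) =
      ∑ k ∈ Finset.univ.filter (fun k : Fin d => k ≠ 0), f (step k ξ) := by
  have hd : 0 < d := Nat.pos_of_ne_zero (NeZero.ne d)
  refine Finset.sum_bij' (fun j _ => Fin.ofNat d (j + 1)) (fun k _ => k.1 - 1) ?_ ?_ ?_ ?_ ?_
  · intro j hj
    rw [Finset.mem_range] at hj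
    rw [Finset.mem_filter]
    refine ⟨Finset.mem_univ _, fun h => ?_⟩
    have h1 := congrArg Fin.val h
    simp only [Fin.ofNat, Fin.val_zero] at h1
    rw [Nat.mod_eq_of_lt (by omega)] at h1
    omega
  · intro k hk
    rw [Finset.mem_filter] at hk
    rw [Finset.mem_range]
    have := k.2
    have h0 : k.1 ≠ 0 := fun e => hk.2 (Fin.ext (by simpa using e))
    omega
  · intro j hj
    rw [Finset.mem_range] at hj
    simp only [Fin.ofNat]
    rw [Nat.mod_eq_of_lt (by omega)]
    omega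
  · intro k hk
    rw [Finset.mem_filter] at hk
    have h0 : k.1 ≠ 0 := fun e => hk.2 (Fin.ext (by simpa using e))
    apply Fin.ext
    simp only [Fin.ofNat]
    have := k.2
    rw [Nat.mod_eq_of_lt (by omega)]
    omega
  · intro j hj
    rw [mv_eq]

/-- the words of the star -/
def ws (a : B2.St d) : TW d := match a with
  | none => TW.nil
  | some i => TW.single i

/-- the far word -/
def far (w : List ℕ) (hw : B2.OutW d w) : TW d := ⟨0 :: w.map (Fin.ofNat d), by
  intro a ha
  simp only [List.tail_cons, List.mem_map] at ha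
  obtain ⟨j, hj, rfl⟩ := ha
  obtain ⟨h1, h2⟩ := hw j hj
  intro h
  have h3 := congrArg Fin.val h
  simp only [Fin.ofNat, Fin.val_zero] at h3
  rw [Nat.mod_eq_of_lt h2] at h3
  omega⟩

theorem value_ws (ξ : Conf d S) (a : B2.St d) :
    B2.sv cross (rotn 1) d ξ a TW.nil = ξ (ws a) := by
  cases a with
  | none => rfl
  | some i =>
    change B2.mv cross (rotn 1) i.1 ξ TW.nil = _
    rw [mv_eq, ofNat_val]
    exact reroot_nil (TW.single i) ξ

theorem value_far (ξ : Conf d S) (w : List ℕ) (hw : B2.OutW d w) :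
    B2.wd cross (rotn 1) w (cross ξ) TW.nil = ξ (far w hw) := by
  rw [wd_eq, cross_eq]
  exact reroot_nil (far w hw) ξ

end dict

/-! ### Green functions in the limit -/

section lim
variable {T : Type*} (π : T → ℝ) (s E : ℝ) (z : ℕ → ℂ) (cl : Conf d (Fin d × T) → ℂ)

/-- good configurations: the cavity numbers at the energies `z l` converge at all rerootings -/
structure Good (ξ : Conf d (Fin d × T)) : Prop where
  lim : ∀ u : List (Fin d), Tendsto (fun l => cav s (z l) (omOf π (reroot u ξ))) atTop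
    (𝓝 (cl (reroot u ξ)))
  im : ∀ u : List (Fin d), 0 < (cl (reroot u ξ)).im
  om : ∀ u : List (Fin d), |omOf π (reroot u ξ) TW.nil| ≤ 1

/-- the potential at the root -/
def om0 (ξ : Conf d (Fin d × T)) : ℝ := π (ξ TW.nil).2

variable {π s E z cl}

theorem Good.reroot {ξ : Conf d (Fin d × T)} (h : Good π s z cl ξ) (u : List (Fin d)) :
    Good π s z cl (reroot u ξ) where
  lim v := by rw [← reroot_append]; exact h.lim _
  im v := by rw [← reroot_append]; exact h.im _
  om v := by rw [← reroot_append]; exact h.om _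

theorem Good.step {ξ : Conf d (Fin d × T)} (h : Good π s z cl ξ) (k : Fin d) :
    Good π s z cl (step k ξ) := h.reroot [k]

theorem Good.cross {ξ : Conf d (Fin d × T)} (h : Good π s z cl ξ) :
    Good π s z cl (Words955.cross ξ) := by rw [cross_eq]; exact h.step 0

theorem Good.lim0 {ξ : Conf d (Fin d × T)} (h : Good π s z cl ξ) :
    Tendsto (fun l => cav s (z l) (omOf π ξ)) atTop (𝓝 (cl ξ)) := h.lim []

theorem Good.im0 {ξ : Conf d (Fin d × T)} (h : Good π s z cl ξ) : 0 < (cl ξ).im := h.im []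

theorem Good.lim1 {ξ : Conf d (Fin d × T)} (h : Good π s z cl ξ) (k : Fin d) :
    Tendsto (fun l => cav s (z l) (omOf π ξ ∘ mv k)) atTop (𝓝 (cl (Words955.step k ξ))) := by
  have := (h.step k).lim0
  simpa only [omOf_step] using this

theorem Good.limc {ξ : Conf d (Fin d × T)} (h : Good π s z cl ξ) :
    Tendsto (fun l => cav s (z l) (omOf π ξ ∘ TW.cr)) atTop (𝓝 (cl (Words955.cross ξ))) :=
  h.cross.lim0

variable (hz : ∀ l, 0 < (z l).im) (hzE : Tendsto z atTop (𝓝 (E : ℂ)))
include hz hzE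

/-- the Green function at the root -/
theorem Good.lim_Gd {ξ : Conf d (Fin d × T)} (h : Good π s z cl ξ) :
    Tendsto (fun l => treeG s (z l) (omOf π ξ) TW.nil TW.nil) atTop
      (𝓝 (B2.Gd Words955.cross (rotn 1) d s E (om0 π) cl ξ)) := by
  have hd : 0 < d := Nat.pos_of_ne_zero (NeZero.ne d)
  set D : ℂ := (E : ℂ) - s * om0 π ξ + ∑ k : Fin d, cl (Words955.step k ξ) with hD
  have hDim : 0 < D.im := by
    rw [hD, Complex.add_im, Complex.im_sum, Complex.sub_im, Complex.ofReal_im,
      ← Complex.ofReal_mul, Complex.ofReal_im, sub_zero, zero_add]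
    exact Finset.sum_pos (fun k _ => (h.step k).im0) ⟨0, Finset.mem_univ _⟩
  have hD0 : D ≠ 0 := by
    intro e; rw [e] at hDim; simp at hDim
  have h1 : B2.Gd Words955.cross (rotn 1) d s E (om0 π) cl ξ = -1 / D := by
    rw [B2.Gd, sum_mv cl ξ]
  have h2 : Tendsto (fun l => z l - s * clip (omOf π ξ TW.nil) +
      ∑ k : Fin d, cav s (z l) (omOf π ξ ∘ mv k)) atTop (𝓝 D) := by
    have h3 : clip (omOf π ξ TW.nil) = om0 π ξ := clip_eq (h.om [])
    rw [h3, hD]
    exact (hzE.sub_const _).add (tendsto_finsetSum _ fun k _ => h.lim1 k)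
  rw [h1]
  refine ((tendsto_const_nhds (x := (-1 : ℂ))).div h2 hD0).congr fun l => ?_
  have h4 := treeG_nil s (omOf π ξ) (hz l)
  have h5 : z l - s * clip (omOf π ξ TW.nil) + ∑ k : Fin d, cav s (z l) (omOf π ξ ∘ mv k) ≠ 0 := by
    intro e
    rw [e, mul_zero] at h4
    exact (by norm_num : (0 : ℂ) ≠ -1) h4
  rw [Pi.div_apply, div_eq_iff h5, h4]

theorem Good.lim_Gs {ξ : Conf d (Fin d × T)} (h : Good π s z cl ξ) (a b : B2.St d) :
    Tendsto (fun l => treeG s (z l) (omOf π ξ) (ws a) (ws b)) atTop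
      (𝓝 (B2.Gs Words955.cross (rotn 1) d s E (om0 π) cl ξ a b)) := by
  have hG := h.lim_Gd hz hzE
  cases a with
  | none =>
    cases b with
    | none => exact hG
    | some i =>
      change Tendsto _ _ (𝓝 (B2.Gd _ _ d s E _ cl ξ * (-cl (B2.mv _ _ i.1 ξ))))
      rw [mv_eq, ofNat_val]
      refine (hG.mul (h.lim1 i).neg).congr fun l => ?_
      change _ = treeG s (z l) (omOf π ξ) TW.nil (TW.single i)
      rw [treeG_symm s (hz l) _ TW.nil (TW.single i), treeG_star_one s _ (hz l)]; ring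
  | some i =>
    cases b with
    | none =>
      change Tendsto _ _ (𝓝 (B2.Gd _ _ d s E _ cl ξ * (-cl (B2.mv _ _ i.1 ξ))))
      rw [mv_eq, ofNat_val]
      refine (hG.mul (h.lim1 i).neg).congr fun l => ?_
      change _ = treeG s (z l) (omOf π ξ) (TW.single i) TW.nil
      rw [treeG_star_one s _ (hz l)]; ring
    | some j =>
      change Tendsto _ _ (𝓝 (B2.Gd _ _ d s E _ cl ξ * cl (B2.mv _ _ i.1 ξ) *
        cl (B2.mv _ _ j.1 ξ) + (if i = j then cl (B2.mv _ _ i.1 ξ) else 0)))
      rw [mv_eq, mv_eq, ofNat_val, ofNat_val]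
      have h1 : Tendsto (fun l => if i = j then cav s (z l) (omOf π ξ ∘ mv i) else 0) atTop
          (𝓝 (if i = j then cl (Words955.step i ξ) else 0)) := by
        split_ifs
        · exact h.lim1 i
        · exact tendsto_const_nhds
      refine (((hG.mul (h.lim1 i)).mul (h.lim1 j)).add h1).congr fun l => ?_
      exact (treeG_star_two s (omOf π ξ) (hz l) i j).symm

omit hz hzE in
theorem Good.lim_trp {ξ : Conf d (Fin d × T)} (h : Good π s z cl ξ) (w : List ℕ) :
    Tendsto (fun l => trp s (z l) (w.map (Fin.ofNat d)) (omOf π ξ)) atTop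
      (𝓝 (B2.tr Words955.cross (rotn 1) cl w ξ)) := by
  induction w generalizing ξ with
  | nil => exact tendsto_const_nhds
  | cons j w ih =>
    change Tendsto _ _ (𝓝 ((-cl (B2.mv _ _ j ξ)) * B2.tr _ _ cl w (B2.mv _ _ j ξ)))
    rw [mv_eq]
    refine ((h.lim1 (Fin.ofNat d j)).neg.mul (ih (h.step (Fin.ofNat d j)))).congr fun l => ?_
    rw [List.map_cons, trp, omOf_step]

omit hz hzE in
lemma ws_zero : ws (some (0 : Fin d)) = TW.single 0 := rfl

theorem Good.lim_Go {ξ : Conf d (Fin d × T)} (h : Good π s z cl ξ) (w : List ℕ)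
    (hw : B2.OutW d w) (a : B2.St d) :
    Tendsto (fun l => treeG s (z l) (omOf π ξ) (far w hw) (ws a)) atTop
      (𝓝 (B2.Go Words955.cross (rotn 1) d s E (om0 π) cl w ξ a)) := by
  have hG := h.lim_Gd hz hzE
  have htr := h.cross.lim_trp w
  rw [omOf_cross] at htr
  cases a with
  | none =>
    change Tendsto _ _ (𝓝 (B2.tr _ _ cl w (Words955.cross ξ) *
      (B2.Gd _ _ d s E _ cl ξ * (-cl (Words955.cross ξ)))))
    refine (htr.mul (hG.mul h.limc.neg)).congr fun l => ?_
    have h1 := treeG_far s (omOf π ξ) (hz l) (w.map (Fin.ofNat d)) (far w hw).2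
      (y := TW.nil) (not_mem_Br_nil (by simp))
    change _ = treeG s (z l) (omOf π ξ) (far w hw) TW.nil
    rw [show far w hw = (⟨0 :: w.map (Fin.ofNat d), (far w hw).2⟩ : TW d) from rfl, h1]
    ring
  | some i =>
    by_cases hi : (i : ℕ) = 0
    · have hi0 : i = 0 := Fin.ext (by simpa using hi)
      subst hi0
      change Tendsto _ _ (𝓝 (B2.tr _ _ cl w (Words955.cross ξ) *
        (if ((0 : Fin d) : ℕ) = 0 then B2.Gd _ _ d s E _ cl (Words955.cross ξ) else _)))
      rw [if_pos (by simp)]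
      have hG2 := h.cross.lim_Gd hz hzE
      rw [omOf_cross] at hG2
      refine (htr.mul hG2).congr fun l => ?_
      have h1 := treeG_far_zero s (omOf π ξ) (hz l) (w.map (Fin.ofNat d)) (far w hw).2
      rw [ws_zero]
      rw [show far w hw = (⟨0 :: w.map (Fin.ofNat d), (far w hw).2⟩ : TW d) from rfl, h1,
        treeG_cr s _ (hz l), cr_nil]
      ring
    · change Tendsto _ _ (𝓝 (B2.tr _ _ cl w (Words955.cross ξ) *
        (if (i : ℕ) = 0 then B2.Gd _ _ d s E _ cl (Words955.cross ξ) else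
          B2.Gd _ _ d s E _ cl ξ * (-cl (Words955.cross ξ)) * (-cl (B2.mv _ _ i.1 ξ)))))
      rw [if_neg hi, mv_eq, ofNat_val]
      refine (htr.mul ((hG.mul h.limc.neg).mul (h.lim1 i).neg)).congr fun l => ?_
      have hnot : TW.single i ∉ Br [(0 : Fin d)] := by
        intro hh
        have h1 : [(0 : Fin d)] <+: [i] := hh
        simp at h1
        exact hi (by rw [← h1]; simp)
      have h1 := treeG_far s (omOf π ξ) (hz l) (w.map (Fin.ofNat d)) (far w hw).2 hnot
      change _ = treeG s (z l) (omOf π ξ) (far w hw) (TW.single i)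
      rw [show far w hw = (⟨0 :: w.map (Fin.ofNat d), (far w hw).2⟩ : TW d) from rfl, h1,
        treeG_symm s (hz l) _ TW.nil (TW.single i), treeG_star_one s _ (hz l)]
      ring

theorem Good.lim_far {ξ : Conf d (Fin d × T)} (h : Good π s z cl ξ) (w : List ℕ)
    (hw : B2.OutW d w) :
    Tendsto (fun l => treeG s (z l) (omOf π ξ) (far w hw) (far w hw)) atTop
      (𝓝 (B2.Gd Words955.cross (rotn 1) d s E (om0 π) cl
        (B2.wd Words955.cross (rotn 1) w (Words955.cross ξ)))) := by
  have h1 : B2.wd Words955.cross (rotn 1) w (Words955.cross ξ) = Words955.reroot (far w hw).1 ξ := by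
    rw [wd_eq, cross_eq]; rfl
  rw [h1]
  refine ((h.reroot (far w hw).1).lim_Gd hz hzE).congr fun l => ?_
  rw [omOf_reroot, treeG_diag s _ (hz l) (far w hw)]

/-- all entries of the Green function converge -/
theorem Good.lim_pair {ξ : Conf d (Fin d × T)} (h : Good π s z cl ξ) (x y : TW d) :
    ∃ L : ℂ, Tendsto (fun l => treeG s (z l) (omOf π ξ) x y) atTop (𝓝 L) := by
  obtain ⟨y', hy'⟩ := (aut_mvL x.1).bij.2 y
  have h1 : ∀ l, treeG s (z l) (omOf π ξ) x y =
      treeG s (z l) (omOf π (Words955.reroot x.1 ξ)) y' TW.nil := fun l => by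
    rw [omOf_reroot, treeG_mvL s _ x.1 (hz l), mvL_nil, hy', treeG_symm s (hz l)]
  simp only [h1]
  have h2 := h.reroot x.1
  have hG := h2.lim_Gd hz hzE
  obtain ⟨y', hy'p⟩ := y'
  cases y' with
  | nil => exact ⟨_, hG⟩
  | cons j u =>
    have h3 := h2.lim_trp ((j :: u).map Fin.val)
    have h4 : ((j :: u).map Fin.val).map (Fin.ofNat d) = j :: u := by
      rw [List.map_map]
      conv_rhs => rw [← List.map_id (j :: u)]
      exact List.map_congr_left fun i _ => ofNat_val i
    rw [h4] at h3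
    refine ⟨_, (hG.mul h3).congr fun l => ?_⟩
    rw [treeG_trp s _ (hz l) j u hy'p (y := TW.nil) (not_mem_Br_nil (by simp))]

/-- the edge block -/
theorem Good.lim_Bk {ξ : Conf d (Fin d × T)} (h : Good π s z cl ξ) (a b : Fin 2) :
    Tendsto (fun l => treeG s (z l) (omOf π ξ) (![TW.nil, TW.single 0] a) (![TW.nil, TW.single 0] b))
      atTop (𝓝 (B2.Bk Words955.cross cl ξ a b)) := by
  set c := cl ξ with hc
  set c' := cl (Words955.cross ξ) with hc'
  have hne : 1 - c * c' ≠ 0 := by
    intro e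
    have h1 : c * c' = 1 := (sub_eq_zero.1 e).symm
    have h2 : 0 < c.im := h.im0
    have h3 : 0 < c'.im := h.cross.im0
    have hc0 : c ≠ 0 := by
      intro e; rw [e] at h2; simp at h2
    have h4 : c' = c⁻¹ := by
      field_simp
      rw [mul_comm]; exact h1
    rw [h4, Complex.inv_im] at h3
    have : 0 < Complex.normSq c := Complex.normSq_pos.2 hc0
    have h5 : -c.im / Complex.normSq c < 0 := div_neg_of_neg_of_pos (by linarith) this
    linarith
  have hl := h.lim0
  have hl' := h.limc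
  have hden : Tendsto (fun l => 1 - cav s (z l) (omOf π ξ) * cav s (z l) (omOf π ξ ∘ TW.cr)) atTop
      (𝓝 (1 - c * c')) := tendsto_const_nhds.sub (hl.mul hl')
  have e1 : ∀ l, treeG s (z l) (omOf π ξ) TW.nil TW.nil =
      1 / (1 - cav s (z l) (omOf π ξ) * cav s (z l) (omOf π ξ ∘ TW.cr)) *
        cav s (z l) (omOf π ξ) := fun l => by
    have h1 := treeG_uu s (omOf π ξ) (hz l)
    have h2 := one_sub_cav_ne s (omOf π ξ) (hz l)
    rw [one_div_mul_eq_div, eq_div_iff h2, h1]
  have e2 : ∀ l, treeG s (z l) (omOf π ξ) (TW.single 0) TW.nil =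
      1 / (1 - cav s (z l) (omOf π ξ) * cav s (z l) (omOf π ξ ∘ TW.cr)) *
        -(cav s (z l) (omOf π ξ) * cav s (z l) (omOf π ξ ∘ TW.cr)) := fun l => by
    rw [treeG_vu s (omOf π ξ) (hz l), e1]; ring
  have e3 : ∀ l, treeG s (z l) (omOf π ξ) (TW.single 0) (TW.single 0) =
      1 / (1 - cav s (z l) (omOf π ξ) * cav s (z l) (omOf π ξ ∘ TW.cr)) *
        cav s (z l) (omOf π ξ ∘ TW.cr) := fun l => by
    have h1 := treeG_vv s (omOf π ξ) (hz l)
    have h2 := one_sub_cav_ne s (omOf π ξ) (hz l)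
    rw [one_div_mul_eq_div, eq_div_iff h2, h1]
  have hden' := (tendsto_const_nhds (x := (1 : ℂ))).div hden hne
  have hoff : Tendsto (fun l => treeG s (z l) (omOf π ξ) (TW.single 0) TW.nil) atTop
      (𝓝 (1 / (1 - c * c') * -(c * c'))) :=
    (hden'.mul (hl.mul hl').neg).congr fun l => (e2 l).symm
  have hB : ∀ a b, B2.Bk Words955.cross cl ξ a b = 1 / (1 - c * c') *
      (!![c, -(c * c'); -(c * c'), c'] a b) := fun a b => rfl
  fin_cases a <;> fin_cases b
  · rw [hB]
    exact (hden'.mul hl).congr fun l => (e1 l).symm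
  · rw [hB]
    refine hoff.congr fun l => ?_
    exact treeG_symm s (hz l) _ _ _
  · rw [hB]
    exact hoff
  · rw [hB]
    exact (hden'.mul hl').congr fun l => (e3 l).symm

end lim

/-! ### The limit kernel -/

section Phi
variable {T : Type*} (π : T → ℝ) (s ρ : ℝ) (z : ℕ → ℂ)

/-- the kernel at the energy `z` -/
def PhiL (z : ℂ) (x y : TW d) (ξ : Conf d (Fin d × T)) : ℝ :=
  (treeG s z (omOf π ξ) x y).im / (Real.pi * ρ)

/-- the limit kernel -/
def Phi (x y : TW d) (ξ : Conf d (Fin d × T)) : ℝ := limUnder atTop fun l => PhiL π s ρ (z l) x y ξ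

variable {π s ρ z}

theorem continuous_PhiL [TopologicalSpace T] (hπ : Continuous π) {z : ℂ} (hz : 0 < z.im)
    (x y : TW d) : Continuous (PhiL π s ρ z x y : Conf d (Fin d × T) → ℝ) :=
  (Complex.continuous_im.comp ((continuous_treeG s hz x y).comp
    (continuous_omOf π hπ))).div_const _

theorem measurable_Phi [TopologicalSpace T] [MeasurableSpace T]
    [OpensMeasurableSpace (Conf d (Fin d × T))] (hπ : Continuous π) (hz : ∀ l, 0 < (z l).im)
    (x y : TW d) : Measurable (Phi π s ρ z x y : Conf d (Fin d × T) → ℝ) := by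
  unfold Phi
  exact (StronglyMeasurable.limUnder fun l =>
    (continuous_PhiL hπ (hz l) x y).measurable.stronglyMeasurable).measurable

variable {E : ℝ} {cl : Conf d (Fin d × T) → ℂ} (hz : ∀ l, 0 < (z l).im)
  (hzE : Tendsto z atTop (𝓝 (E : ℂ)))
include hz

theorem Phi_eq_of {ξ : Conf d (Fin d × T)} {x y : TW d} {L : ℂ}
    (h : Tendsto (fun l => treeG s (z l) (omOf π ξ) x y) atTop (𝓝 L)) :
    Tendsto (fun l => PhiL π s ρ (z l) x y ξ) atTop (𝓝 (Phi π s ρ z x y ξ)) ∧
      Phi π s ρ z x y ξ = L.im / (Real.pi * ρ) := by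
  have h1 : Tendsto (fun l => PhiL π s ρ (z l) x y ξ) atTop (𝓝 (L.im / (Real.pi * ρ))) :=
    ((Complex.continuous_im.tendsto L).comp h).div_const _
  have h2 : Phi π s ρ z x y ξ = L.im / (Real.pi * ρ) := h1.limUnder_eq
  exact ⟨by rw [h2]; exact h1, h2⟩

include hzE


theorem Good.Phi_star {ξ : Conf d (Fin d × T)} (h : Good π s z cl ξ) (a b : B2.St d) :
    Phi π s ρ z (ws a) (ws b) ξ =
      (B2.Gs Words955.cross (rotn 1) d s E (om0 π) cl ξ a b).im / (Real.pi * ρ) :=
  (Phi_eq_of hz (h.lim_Gs hz hzE a b)).2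

theorem Good.Phi_far_star {ξ : Conf d (Fin d × T)} (h : Good π s z cl ξ) (w : List ℕ)
    (hw : B2.OutW d w) (a : B2.St d) :
    Phi π s ρ z (far w hw) (ws a) ξ =
      (B2.Go Words955.cross (rotn 1) d s E (om0 π) cl w ξ a).im / (Real.pi * ρ) :=
  (Phi_eq_of hz (h.lim_Go hz hzE w hw a)).2

theorem Good.Phi_far {ξ : Conf d (Fin d × T)} (h : Good π s z cl ξ) (w : List ℕ)
    (hw : B2.OutW d w) :
    Phi π s ρ z (far w hw) (far w hw) ξ =
      (B2.Gd Words955.cross (rotn 1) d s E (om0 π) cl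
        (B2.wd Words955.cross (rotn 1) w (Words955.cross ξ))).im / (Real.pi * ρ) :=
  (Phi_eq_of hz (h.lim_far hz hzE w hw)).2

theorem Good.Phi_edge {ξ : Conf d (Fin d × T)} (h : Good π s z cl ξ) (a b : Fin 2) :
    Phi π s ρ z (![TW.nil, TW.single 0] a) (![TW.nil, TW.single 0] b) ξ =
      (B2.Bk Words955.cross cl ξ a b).im / (Real.pi * ρ) :=
  (Phi_eq_of hz (h.lim_Bk hz hzE a b)).2

omit hzE in
theorem Phi_symm (x y : TW d) (ξ : Conf d (Fin d × T)) :
    Phi π s ρ z x y ξ = Phi π s ρ z y x ξ := by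
  unfold Phi
  congr 1
  funext l
  unfold PhiL
  rw [treeG_symm s (hz l)]

end Phi

/-! ### Index families instead of sets of words -/

section fam
open NoiseLim849
variable {k : ℕ} {P : Type*} [Fintype P]

/-- the set of words of a family -/
def famB (f : P → TW d) : Finset (TW d) := by classical exact Finset.univ.image f

lemma mem_famB (f : P → TW d) (p : P) : f p ∈ famB f := by
  classical
  unfold famB
  exact Finset.mem_image_of_mem f (Finset.mem_univ p)

/-- the coefficients summed over the fibres -/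
def famT (f : P → TW d) (x : P → Fin k → ℝ) (b : famB f) (j : Fin k) : ℝ := by
  classical exact ∑ p, if f p = b.1 then x p j else 0

lemma sum_famT (f : P → TW d) (x : P → Fin k → ℝ) (j : Fin k) (g : TW d → ℝ) :
    ∑ b : famB f, famT f x b j * g b.1 = ∑ p, x p j * g (f p) := by
  classical
  unfold famT
  simp only [Finset.sum_mul]
  rw [Finset.sum_comm]
  refine Finset.sum_congr rfl fun p _ => ?_
  rw [Finset.sum_eq_single (⟨f p, mem_famB f p⟩ : famB f)]
  · simp
  · intro b _ hb
    rw [if_neg, zero_mul]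
    intro e
    exact hb (Subtype.ext e.symm)
  · intro h; exact absurd (Finset.mem_univ _) h

theorem zph_fam (f : P → TW d) (x : P → Fin k → ℝ) (ζ : Conf d (S2 d k)) :
    zph (famB f) (famT f x) ζ = ∑ j, ∑ p, x p j * (ζ (f p)).2.2.2 j := by
  unfold zph
  refine Finset.sum_congr rfl fun j _ => ?_
  exact sum_famT f x j fun w => (ζ w).2.2.2 j

theorem Qf_fam (f : P → TW d) (x : P → Fin k → ℝ) (Γ : TW d → TW d → Conf d (S1 d k) → ℝ)
    (ζ : Conf d (S1 d k)) :
    Qf (famT f x) (gam Γ (famB f) ζ) = ∑ j, ∑ p, ∑ q, x p j * Γ (f p) (f q) ζ * x q j := by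
  unfold Qf gam
  refine Finset.sum_congr rfl fun j _ => ?_
  have h1 : ∀ b : famB f, ∑ b' : famB f, famT f x b j * Γ b.1 b'.1 ζ * famT f x b' j =
      famT f x b j * ∑ q, x q j * Γ b.1 (f q) ζ := fun b => by
    rw [← sum_famT f x j fun w => Γ b.1 w ζ, Finset.mul_sum]
    exact Finset.sum_congr rfl fun b' _ => by ring
  rw [Finset.sum_congr rfl fun b _ => h1 b,
    sum_famT f x j fun w => ∑ q, x q j * Γ w (f q) ζ]
  refine Finset.sum_congr rfl fun p _ => ?_
  rw [Finset.mul_sum]
  exact Finset.sum_congr rfl fun q _ => by ring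

/-- the window of `LimProc.Z_gauss` -/
def win (w : List ℕ) (hw : B2.OutW d w) : Option (B2.St d) → TW d
  | none => far w hw
  | some a => ws a

/-- the coefficients of `LimProc.Z_gauss` -/
def winC (α : Fin k → ℝ) (x : B2.St d → Fin k → ℝ) : Option (B2.St d) → Fin k → ℝ
  | none => α
  | some a => x a

theorem zph_win (w : List ℕ) (hw : B2.OutW d w) (α : Fin k → ℝ) (x : B2.St d → Fin k → ℝ)
    (ζ : Conf d (S2 d k)) :
    zph (famB (win w hw)) (famT (win w hw) (winC α x)) ζ =
      ∑ l, (α l * (B2.wd cross (rotn 1) w (cross ζ) TW.nil).2.2.2 l +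
        ∑ a, x a l * (B2.sv cross (rotn 1) d ζ a TW.nil).2.2.2 l) := by
  rw [zph_fam]
  refine Finset.sum_congr rfl fun j _ => ?_
  rw [Fintype.sum_option, value_far ζ w hw]
  congr 1
  exact Finset.sum_congr rfl fun a _ => by rw [value_ws]; rfl

variable {s ρ E : ℝ} {z : ℕ → ℂ} {cl : Conf d (S1 d k) → ℂ} (hz : ∀ l, 0 < (z l).im)
  (hzE : Tendsto z atTop (𝓝 (E : ℂ)))
include hz hzE


end fam

end Crest.Agent.R166.PhiAlg879
end
private theorem rz_b5f14c29c9 : type_of% @_root_.Crest.Agent.R166.PhiAlg879.winC.eq_1 := @_root_.Crest.Agent.R166.PhiAlg879.winC.eq_1 -- L543
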