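import Crest.Agent.R166.Spine_419
import Crest.Agent.R166.Spec_B2_385
import Crest.Agent.R166.TreeDefs_350
import Crest.Agent.R166.TreeG_879
import Crest.Agent.R166.LimEnv_289
import Crest.Agent.R166.SimpleP_356

-- ▼ part R166/PhiLim_85
section

/-!
Row 166 (helper85), F4 of helper980's plan: THE LIMIT CAVITY FIELD, abstract part.

On a probability space with two measure preserving maps `pp`, `rr` (graphing form of
`Spec_B2_385`), cavity fields `c l` (at `E + i η_l`) whose edge blocks are summably Cauchy in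
probability and non-degenerate converge a.e. to a cavity field with positive imaginary part.
-/

set_option autoImplicit false

open MeasureTheory ProbabilityTheory Filter Topology

namespace Crest.Agent.R166.PhiLim85

open Crest.Agent.R166.B2

/-! ### 2x2 algebra -/

/-- the edge block of two cavity numbers -/
noncomputable def blk2 (c c' : ℂ) : Matrix (Fin 2) (Fin 2) ℂ :=
  (1 / (1 - c * c')) • !![c, -(c * c'); -(c * c'), c']

lemma Bk_eq {Ω : Type*} (pp : Ω → Ω) (cav : Ω → ℂ) (h : Ω) :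
    Bk pp cav h = blk2 (cav h) (cav (pp h)) := rfl

/-- non-degeneracy of the imaginary part -/
def ND (δ : ℝ) (B : Matrix (Fin 2) (Fin 2) ℂ) : Prop :=
  ∀ x : Fin 2 → ℝ, δ * (x 0 ^ 2 + x 1 ^ 2) ≤ ∑ a, ∑ b, x a * (B a b).im * x b

lemma one_sub_mul_ne {c c' : ℂ} (hc : 0 < c.im) (hc' : 0 < c'.im) : 1 - c * c' ≠ 0 := by
  intro h
  have h1 : c * c' = 1 := (sub_eq_zero.1 h).symm
  have hc0 : c ≠ 0 := by
    rintro rfl; simp at hc
  have h2 : c' = c⁻¹ := by
    field_simp
    rw [mul_comm]; exact h1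
  rw [h2, Complex.inv_im] at hc'
  have : 0 < Complex.normSq c := Complex.normSq_pos.2 hc0
  have h3 : -c.im / Complex.normSq c < 0 := div_neg_of_neg_of_pos (by linarith) this
  linarith

lemma blk2_00 (c c' : ℂ) : blk2 c c' 0 0 = c / (1 - c * c') := by
  simp [blk2]; ring
lemma blk2_01 (c c' : ℂ) : blk2 c c' 0 1 = -(c * c') / (1 - c * c') := by
  simp [blk2]; ring
lemma blk2_10 (c c' : ℂ) : blk2 c c' 1 0 = -(c * c') / (1 - c * c') := by
  simp [blk2]; ring
lemma blk2_11 (c c' : ℂ) : blk2 c c' 1 1 = c' / (1 - c * c') := by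
  simp [blk2]; ring

lemma blk2_one_sub {c c' : ℂ} (h : 1 - c * c' ≠ 0) : 1 - blk2 c c' 0 1 = 1 / (1 - c * c') := by
  rw [blk2_01]; field_simp; ring

lemma blk2_rel {c c' : ℂ} (h : 1 - c * c' ≠ 0) :
    blk2 c c' 0 0 * blk2 c c' 1 1 = blk2 c c' 0 1 ^ 2 - blk2 c c' 0 1 := by
  rw [blk2_00, blk2_01, blk2_11]; field_simp; ring

lemma blk2_fst {c c' : ℂ} (h : 1 - c * c' ≠ 0) : c = blk2 c c' 0 0 / (1 - blk2 c c' 0 1) := by
  rw [blk2_one_sub h, blk2_00]; field_simp

lemma blk2_snd {c c' : ℂ} (h : 1 - c * c' ≠ 0) : c' = blk2 c c' 1 1 / (1 - blk2 c c' 0 1) := by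
  have h' : 1 - c' * c ≠ 0 := by rw [mul_comm]; exact h
  rw [blk2_one_sub h, blk2_11]; field_simp

lemma ND.im00 {δ : ℝ} {B : Matrix (Fin 2) (Fin 2) ℂ} (h : ND δ B) : δ ≤ (B 0 0).im := by
  have := h ![1, 0]
  simpa using this

lemma ND.im11 {δ : ℝ} {B : Matrix (Fin 2) (Fin 2) ℂ} (h : ND δ B) : δ ≤ (B 1 1).im := by
  have := h ![0, 1]
  simpa using this

/-- the imaginary part of the inverse of a symmetric matrix with positive imaginary part -/
lemma im_neg_of {b00 b01 b11 w : ℂ} {δ : ℝ} (hδ : 0 < δ)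
    (hnd : ∀ x y : ℝ, δ * (x ^ 2 + y ^ 2) ≤ b00.im * x ^ 2 + 2 * b01.im * x * y + b11.im * y ^ 2)
    (h1 : b00 * w + b01 = 1) (h2 : b01 * w + b11 = 0) : w.im < 0 := by
  have e1 := congrArg Complex.re h1
  have e2 := congrArg Complex.im h1
  have e3 := congrArg Complex.re h2
  have e4 := congrArg Complex.im h2
  simp only [Complex.add_re, Complex.mul_re, Complex.one_re, Complex.add_im, Complex.mul_im,
    Complex.one_im, Complex.zero_re, Complex.zero_im] at e1 e2 e3 e4
  have q1 := hnd w.re 1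
  have q2 := hnd w.im 0
  have key : b00.im * w.re ^ 2 + 2 * b01.im * w.re * 1 + b11.im * 1 ^ 2 +
      (b00.im * w.im ^ 2 + 2 * b01.im * w.im * 0 + b11.im * 0 ^ 2) = -w.im := by
    have a1 : b00.im * w.re ^ 2 = -(b01.im * w.re) - b00.re * w.im * w.re := by
      have : b00.im * w.re = -b01.im - b00.re * w.im := by linarith
      calc b00.im * w.re ^ 2 = (b00.im * w.re) * w.re := by ring
        _ = _ := by rw [this]; ring
    have a2 : b00.im * w.im ^ 2 = b00.re * w.re * w.im + b01.re * w.im - w.im := by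
      have : b00.im * w.im = b00.re * w.re + b01.re - 1 := by linarith
      calc b00.im * w.im ^ 2 = (b00.im * w.im) * w.im := by ring
        _ = _ := by rw [this]; ring
    rw [a1, a2]
    linarith
  nlinarith [sq_nonneg w.re, sq_nonneg w.im]

lemma ND.form {δ : ℝ} {B : Matrix (Fin 2) (Fin 2) ℂ} (h : ND δ B) (hs : B 1 0 = B 0 1)
    (x y : ℝ) : δ * (x ^ 2 + y ^ 2) ≤
      (B 0 0).im * x ^ 2 + 2 * (B 0 1).im * x * y + (B 1 1).im * y ^ 2 := by
  have := h ![x, y]
  simp only [Fin.sum_univ_two, Matrix.cons_val_zero, Matrix.cons_val_one, hs] at this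
  linarith

/-- **limits of edge blocks** -/
theorem blk_limit {c c' : ℕ → ℂ} (hc : ∀ l, 0 < (c l).im) (hc' : ∀ l, 0 < (c' l).im)
    {B : Matrix (Fin 2) (Fin 2) ℂ} {δ : ℝ} (hδ : 0 < δ) (hnd : ND δ B)
    (hlim : ∀ a b, Tendsto (fun l => blk2 (c l) (c' l) a b) atTop (𝓝 (B a b))) :
    ∃ x x' : ℂ, 0 < x.im ∧ 0 < x'.im ∧ Tendsto c atTop (𝓝 x) ∧ Tendsto c' atTop (𝓝 x') ∧
      B = blk2 x x' := by
  have hne : ∀ l, 1 - c l * c' l ≠ 0 := fun l => one_sub_mul_ne (hc l) (hc' l)
  have hs : B 1 0 = B 0 1 := by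
    have h1 := hlim 1 0
    have h2 := hlim 0 1
    simp only [blk2_10, blk2_01] at h1 h2
    exact tendsto_nhds_unique h1 h2
  have hrel : B 0 0 * B 1 1 = B 0 1 ^ 2 - B 0 1 := by
    have h1 := (hlim 0 0).mul (hlim 1 1)
    have h2 := ((hlim 0 1).pow 2).sub (hlim 0 1)
    refine tendsto_nhds_unique h1 (h2.congr fun l => ?_)
    exact (blk2_rel (hne l)).symm
  have h00 : (0 : ℝ) < (B 0 0).im := lt_of_lt_of_le hδ hnd.im00
  have h11 : (0 : ℝ) < (B 1 1).im := lt_of_lt_of_le hδ hnd.im11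
  have n00 : B 0 0 ≠ 0 := by intro h; rw [h] at h00; simp at h00
  have n11 : B 1 1 ≠ 0 := by intro h; rw [h] at h11; simp at h11
  have n01 : 1 - B 0 1 ≠ 0 := by
    intro h
    have h1 : B 0 1 = 1 := (sub_eq_zero.1 h).symm
    rw [h1] at hrel
    have : B 0 0 * B 1 1 = 0 := by rw [hrel]; ring
    exact mul_ne_zero n00 n11 this
  have m01 : B 0 1 ≠ 0 := by
    intro h
    rw [h] at hrel
    have : B 0 0 * B 1 1 = 0 := by rw [hrel]; ring
    exact mul_ne_zero n00 n11 this
  have hform := hnd.form hs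
  refine ⟨B 0 0 / (1 - B 0 1), B 1 1 / (1 - B 0 1), ?_, ?_, ?_, ?_, ?_⟩
  · have hw : ((1 - B 0 1) / B 0 0).im < 0 := by
      refine im_neg_of hδ hform (b00 := B 0 0) (b01 := B 0 1) (b11 := B 1 1) ?_ ?_
      · field_simp; ring
      · field_simp
        linear_combination hrel
    have hx : B 0 0 / (1 - B 0 1) = ((1 - B 0 1) / B 0 0)⁻¹ := by rw [inv_div]
    rw [hx, Complex.inv_im]
    have : 0 < Complex.normSq ((1 - B 0 1) / B 0 0) :=
      Complex.normSq_pos.2 (div_ne_zero n01 n00)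
    exact div_pos (by linarith) this
  · have hw : ((1 - B 0 1) / B 1 1).im < 0 := by
      refine im_neg_of hδ (b00 := B 1 1) (b01 := B 0 1) (b11 := B 0 0) ?_ ?_ ?_
      · intro x y
        have := hform y x
        nlinarith
      · field_simp; ring
      · field_simp
        linear_combination hrel
    have hx : B 1 1 / (1 - B 0 1) = ((1 - B 0 1) / B 1 1)⁻¹ := by rw [inv_div]
    rw [hx, Complex.inv_im]
    have : 0 < Complex.normSq ((1 - B 0 1) / B 1 1) :=
      Complex.normSq_pos.2 (div_ne_zero n01 n11)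
    exact div_pos (by linarith) this
  · have := (hlim 0 0).div (tendsto_const_nhds.sub (hlim 0 1)) n01
    refine this.congr fun l => ?_
    exact (blk2_fst (hne l)).symm
  · have := (hlim 1 1).div (tendsto_const_nhds.sub (hlim 0 1)) n01
    refine this.congr fun l => ?_
    exact (blk2_snd (hne l)).symm
  · have hd : 1 - B 0 0 / (1 - B 0 1) * (B 1 1 / (1 - B 0 1)) = 1 / (1 - B 0 1) := by
      field_simp
      linear_combination -hrel
    ext a b
    fin_cases a <;> fin_cases b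
    · change B 0 0 = _
      rw [show ((⟨0, by norm_num⟩ : Fin 2)) = 0 from rfl, blk2_00, hd]
      field_simp
    · change B 0 1 = _
      change _ = blk2 _ _ 0 1
      rw [blk2_01, hd]
      field_simp
      linear_combination hrel
    · change B 1 0 = _
      change _ = blk2 _ _ 1 0
      rw [blk2_10, hd, hs]
      field_simp
      linear_combination hrel
    · change B 1 1 = _
      change _ = blk2 _ _ 1 1
      rw [blk2_11, hd]
      field_simp

/-! ### almost sure convergence from summable errors -/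

variable {Ω : Type*}

/-- summable `min 1`-distances imply a.e. convergence -/
theorem ae_tendsto_of_summable [mΩ : MeasurableSpace Ω] {P : Measure Ω} {f : ℕ → Ω → ℂ}
    (hf : ∀ l, Measurable (f l))
    (hsum : ∑' l, ∫⁻ h, ENNReal.ofReal (min 1 ‖f l h - f (l + 1) h‖) ∂P ≠ ⊤) :
    ∀ᵐ h ∂P, ∃ x, Tendsto (fun l => f l h) atTop (𝓝 x) := by
  have hmeas : ∀ l, Measurable fun h => ENNReal.ofReal (min 1 ‖f l h - f (l + 1) h‖) := by
    intro l
    exact (measurable_const.min ((hf l).sub (hf (l + 1))).norm).ennreal_ofReal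
  rw [← lintegral_tsum (fun l => (hmeas l).aemeasurable)] at hsum
  have h1 := ae_lt_top (Measurable.tsum hmeas) hsum
  filter_upwards [h1] with h hh
  have hs : Summable fun l => min 1 ‖f l h - f (l + 1) h‖ := by
    have := ENNReal.summable_toReal hh.ne
    refine this.congr fun l => ?_
    rw [ENNReal.toReal_ofReal]
    exact le_min zero_le_one (norm_nonneg _)
  have h0 := hs.tendsto_atTop_zero
  have h2 : ∀ᶠ l in atTop, min 1 ‖f l h - f (l + 1) h‖ < 1 :=
    h0.eventually (gt_mem_nhds one_pos)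
  have h3 : Summable fun l => ‖f l h - f (l + 1) h‖ := by
    obtain ⟨L, hL⟩ := eventually_atTop.1 h2
    rw [← summable_nat_add_iff L]
    have h4 := (summable_nat_add_iff L).2 hs
    refine h4.congr fun l => ?_
    have := hL (l + L) (by omega)
    rcases min_lt_iff.1 this with h5 | h5
    · exact absurd h5 (lt_irrefl _)
    · exact min_eq_right h5.le
  have h5 : CauchySeq fun l => f l h := by
    refine cauchySeq_of_summable_dist ?_
    simpa [dist_eq_norm] using h3
  exact cauchySeq_tendsto_of_complete h5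

lemma ND.of_tendsto {δ : ℝ} {B : ℕ → Matrix (Fin 2) (Fin 2) ℂ} {B0 : Matrix (Fin 2) (Fin 2) ℂ}
    (hB : ∀ a b, Tendsto (fun l => B l a b) atTop (𝓝 (B0 a b)))
    (hf : ∃ᶠ l in atTop, ND δ (B l)) : ND δ B0 := by
  intro x
  have h1 : Tendsto (fun l => ∑ a, ∑ b, x a * (B l a b).im * x b) atTop
      (𝓝 (∑ a, ∑ b, x a * (B0 a b).im * x b)) := by
    refine tendsto_finsetSum _ fun a _ => tendsto_finsetSum _ fun b _ => ?_
    exact ((((Complex.continuous_im.tendsto _).comp (hB a b)).const_mul (x a)).mul_const (x b))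
  refine ge_of_tendsto_of_frequently h1 ?_
  exact hf.mono fun l hl => hl x

lemma ND.mono {δ δ' : ℝ} (h : δ' ≤ δ) {B : Matrix (Fin 2) (Fin 2) ℂ} (hB : ND δ B) : ND δ' B := by
  intro x
  have := hB x
  have h2 : δ' * (x 0 ^ 2 + x 1 ^ 2) ≤ δ * (x 0 ^ 2 + x 1 ^ 2) := by gcongr
  linarith

/-- the limit is non-degenerate -/
theorem ae_ND [mΩ : MeasurableSpace Ω] {P : Measure Ω}
    {B : ℕ → Ω → Matrix (Fin 2) (Fin 2) ℂ}
    (hnd : ∀ ε : ℝ, 0 < ε → ∃ δ : ℝ, 0 < δ ∧ ∃ᶠ l in atTop,
      P {h | ¬ ND δ (B l h)} ≤ ENNReal.ofReal ε) {B0 : Ω → Matrix (Fin 2) (Fin 2) ℂ}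
    (hB : ∀ᵐ h ∂P, ∀ a b, Tendsto (fun l => B l h a b) atTop (𝓝 (B0 h a b))) :
    ∀ᵐ h ∂P, ∃ δ : ℝ, 0 < δ ∧ ND δ (B0 h) := by
  have key : ∀ ε : ℝ, 0 < ε → P {h | ¬ ∃ δ : ℝ, 0 < δ ∧ ND δ (B0 h)} ≤ ENNReal.ofReal ε := by
    intro ε hε
    obtain ⟨δ, hδ, hfr⟩ := hnd ε hε
    have h1 : P {h | ¬ ∃ δ : ℝ, 0 < δ ∧ ND δ (B0 h)} ≤
        P (⋃ L : ℕ, ⋂ l ≥ L, {h | ¬ ND δ (B l h)}) := by
      refine measure_mono_ae ?_
      filter_upwards [hB] with h hh
      intro (hno : ¬ ∃ δ : ℝ, 0 < δ ∧ ND δ (B0 h))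
      by_contra hcon
      apply hno
      refine ⟨δ, hδ, ND.of_tendsto hh ?_⟩
      rw [frequently_atTop]
      intro L
      by_contra hc
      apply hcon
      refine Set.mem_iUnion.2 ⟨L, ?_⟩
      refine Set.mem_iInter₂.2 fun l hl => ?_
      intro (hh2 : ND δ (B l h))
      exact hc ⟨l, hl, hh2⟩
    refine h1.trans ?_
    have hmono : Monotone fun L : ℕ => ⋂ l ≥ L, {h | ¬ ND δ (B l h)} := by
      intro L L' hLL
      exact Set.biInter_mono (fun l (hl : L' ≤ l) => le_trans hLL hl) fun _ _ => le_rfl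
    rw [hmono.measure_iUnion]
    refine iSup_le fun L => ?_
    obtain ⟨l, hl, hl2⟩ := frequently_atTop.1 hfr L
    refine le_trans (measure_mono ?_) hl2
    exact Set.biInter_subset_of_mem (show l ∈ {l | l ≥ L} from hl)
  have h0 : P {h | ¬ ∃ δ : ℝ, 0 < δ ∧ ND δ (B0 h)} = 0 := by
    refine le_antisymm ?_ zero_le
    refine ge_of_tendsto (x := 𝓝[>] (0 : ℝ)) (f := fun ε : ℝ => ENNReal.ofReal ε) ?_ ?_
    · have : Tendsto (fun ε : ℝ => ENNReal.ofReal ε) (𝓝 0) (𝓝 (ENNReal.ofReal 0)) :=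
        (ENNReal.continuous_ofReal.tendsto 0)
      rw [ENNReal.ofReal_zero] at this
      exact this.mono_left nhdsWithin_le_nhds
    · filter_upwards [self_mem_nhdsWithin] with ε hε
      exact key ε hε
  exact h0

lemma entry_le_bnorm (B : Matrix (Fin 2) (Fin 2) ℂ) (a b : Fin 2) : ‖B a b‖ ≤ bnorm B := by
  unfold bnorm
  fin_cases a <;> fin_cases b
  · exact (le_max_left _ _).trans (le_max_left _ _)
  · exact (le_max_right _ _).trans (le_max_left _ _)
  · exact (le_max_left _ _).trans (le_max_right _ _)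
  · exact (le_max_right _ _).trans (le_max_right _ _)

/-! ### the limit cavity field -/

/-- the limit cavity field -/
noncomputable def cavLim (c : ℕ → Ω → ℂ) (h : Ω) : ℂ := limUnder atTop fun l => c l h

lemma measurable_cavLim [mΩ : MeasurableSpace Ω] {c : ℕ → Ω → ℂ} (hc : ∀ l, Measurable (c l)) :
    Measurable (cavLim c) :=
  (StronglyMeasurable.limUnder fun l => (hc l).stronglyMeasurable).measurable

lemma mp_iterate [mΩ : MeasurableSpace Ω] {P : Measure Ω} {pp rr : Ω → Ω}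
    (hpp : MeasurePreserving pp P P) (hrr : MeasurePreserving rr P P) (j : ℕ) :
    MeasurePreserving (mv pp rr j) P P :=
  hpp.comp (hrr.iterate j)

/-- **Main theorem of F4 (abstract part)** -/
theorem cavLim_props [mΩ : MeasurableSpace Ω] {P : Measure Ω} [IsProbabilityMeasure P]
    {pp : Ω → Ω} (hpp : MeasurePreserving pp P P) {c : ℕ → Ω → ℂ}
    (hc : ∀ l, Measurable (c l)) (him : ∀ l, ∀ᵐ h ∂P, 0 < (c l h).im)
    (hsum : ∑' l, ∫⁻ h, ENNReal.ofReal (min 1
      (bnorm (Bk pp (c l) h - Bk pp (c (l + 1)) h))) ∂P ≠ ⊤)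
    (hnd : ∀ ε : ℝ, 0 < ε → ∃ δ : ℝ, 0 < δ ∧ ∃ᶠ l in atTop,
      P {h | ¬ ND δ (Bk pp (c l) h)} ≤ ENNReal.ofReal ε) :
    (∀ᵐ h ∂P, 0 < (cavLim c h).im) ∧
    (∀ᵐ h ∂P, Tendsto (fun l => c l h) atTop (𝓝 (cavLim c h))) ∧
    (∀ᵐ h ∂P, ∃ δ : ℝ, 0 < δ ∧ ND δ (Bk pp (cavLim c) h)) ∧
    (∀ᵐ h ∂P, ∀ a b, Tendsto (fun l => Bk pp (c l) h a b) atTop
      (𝓝 (Bk pp (cavLim c) h a b))) := by
  have hme : ∀ l, ∀ a b, Measurable fun h => Bk pp (c l) h a b := by
    intro l a b
    have h1 := hc l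
    have h2 : Measurable fun h => c l (pp h) := (hc l).comp hpp.measurable
    have h3 : Measurable fun h => (1 - c l h * c l (pp h)) :=
      measurable_const.sub (h1.mul h2)
    fin_cases a <;> fin_cases b
    · have : (fun h => Bk pp (c l) h 0 0) = fun h => c l h / (1 - c l h * c l (pp h)) := by
        funext h; rw [Bk_eq, blk2_00]
      change Measurable fun h => Bk pp (c l) h 0 0
      rw [this]; exact h1.div h3
    · have : (fun h => Bk pp (c l) h 0 1) =
          fun h => -(c l h * c l (pp h)) / (1 - c l h * c l (pp h)) := by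
        funext h; rw [Bk_eq, blk2_01]
      change Measurable fun h => Bk pp (c l) h 0 1
      rw [this]; exact (h1.mul h2).neg.div h3
    · have : (fun h => Bk pp (c l) h 1 0) =
          fun h => -(c l h * c l (pp h)) / (1 - c l h * c l (pp h)) := by
        funext h; rw [Bk_eq, blk2_10]
      change Measurable fun h => Bk pp (c l) h 1 0
      rw [this]; exact (h1.mul h2).neg.div h3
    · have : (fun h => Bk pp (c l) h 1 1) = fun h => c l (pp h) / (1 - c l h * c l (pp h)) := by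
        funext h; rw [Bk_eq, blk2_11]
      change Measurable fun h => Bk pp (c l) h 1 1
      rw [this]; exact h2.div h3
  have hconv : ∀ a b, ∀ᵐ h ∂P, ∃ x, Tendsto (fun l => Bk pp (c l) h a b) atTop (𝓝 x) := by
    intro a b
    refine ae_tendsto_of_summable (fun l => hme l a b) ?_
    refine ne_top_of_le_ne_top hsum ?_
    refine ENNReal.tsum_le_tsum fun l => lintegral_mono fun h => ?_
    refine ENNReal.ofReal_le_ofReal (min_le_min_left 1 ?_)
    have := entry_le_bnorm (Bk pp (c l) h - Bk pp (c (l + 1)) h) a b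
    simpa using this
  have hall : ∀ᵐ h ∂P, ∀ a b, ∃ x, Tendsto (fun l => Bk pp (c l) h a b) atTop (𝓝 x) := by
    rw [ae_all_iff]; intro a
    rw [ae_all_iff]; intro b
    exact hconv a b
  -- the limit block
  let B0 : Ω → Matrix (Fin 2) (Fin 2) ℂ := fun h a b => limUnder atTop fun l => Bk pp (c l) h a b
  have hB0 : ∀ᵐ h ∂P, ∀ a b, Tendsto (fun l => Bk pp (c l) h a b) atTop (𝓝 (B0 h a b)) := by
    filter_upwards [hall] with h hh a b
    obtain ⟨x, hx⟩ := hh a b
    exact tendsto_nhds_limUnder ⟨x, hx⟩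
  have hND := ae_ND hnd hB0
  have him' : ∀ᵐ h ∂P, ∀ l, 0 < (c l h).im ∧ 0 < (c l (pp h)).im := by
    rw [ae_all_iff]; intro l
    exact (him l).and (hpp.quasiMeasurePreserving.ae (him l))
  have hmain : ∀ᵐ h ∂P, ∃ x x' : ℂ, 0 < x.im ∧ 0 < x'.im ∧
      Tendsto (fun l => c l h) atTop (𝓝 x) ∧ Tendsto (fun l => c l (pp h)) atTop (𝓝 x') ∧
      B0 h = blk2 x x' := by
    filter_upwards [hB0, hND, him'] with h h1 h2 h3
    obtain ⟨δ, hδ, hnd'⟩ := h2
    exact blk_limit (fun l => (h3 l).1) (fun l => (h3 l).2) hδ hnd' h1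
  have hB : ∀ᵐ h ∂P, B0 h = Bk pp (cavLim c) h := by
    filter_upwards [hmain] with h hh
    obtain ⟨x, x', _, _, hx, hx', hB⟩ := hh
    rw [Bk_eq]
    have e1 : cavLim c h = x := hx.limUnder_eq
    have e2 : cavLim c (pp h) = x' := hx'.limUnder_eq
    rw [e1, e2]; exact hB
  refine ⟨?_, ?_, ?_, ?_⟩
  · filter_upwards [hmain] with h hh
    obtain ⟨x, x', h1, _, hx, _, _⟩ := hh
    have e1 : cavLim c h = x := hx.limUnder_eq
    rw [e1]; exact h1
  · filter_upwards [hmain] with h hh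
    obtain ⟨x, x', h1, _, hx, _, _⟩ := hh
    have e1 : cavLim c h = x := hx.limUnder_eq
    rw [e1]; exact hx
  · filter_upwards [hND, hB] with h h1 h2
    rw [← h2]; exact h1
  · filter_upwards [hB0, hB] with h h1 h2
    rw [← h2]; exact h1

/-- convergence at all neighbours -/
lemma ae_mv [mΩ : MeasurableSpace Ω] {P : Measure Ω}
    {pp rr : Ω → Ω} (hpp : MeasurePreserving pp P P) (hrr : MeasurePreserving rr P P)
    {Q : Ω → Prop} (hQ : ∀ᵐ h ∂P, Q h) : ∀ᵐ h ∂P, ∀ j, Q (mv pp rr j h) := by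
  rw [ae_all_iff]; intro j
  exact (mp_iterate hpp hrr j).quasiMeasurePreserving.ae hQ

/-- the recursion passes to the limit -/
theorem cavLim_rec [mΩ : MeasurableSpace Ω] {P : Measure Ω}
    {pp rr : Ω → Ω} (hpp : MeasurePreserving pp P P) (hrr : MeasurePreserving rr P P)
    {c : ℕ → Ω → ℂ} {d : ℕ} {s E : ℝ} {om : Ω → ℝ} {η : ℕ → ℝ} (hη : Tendsto η atTop (𝓝 0))
    (hrec : ∀ l, ∀ᵐ h ∂P, c l h * ((E : ℂ) + Complex.I * η l - s * om h +
        ∑ j ∈ Finset.range (d - 1), c l (mv pp rr (j + 1) h)) = -1)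
    (hlim : ∀ᵐ h ∂P, Tendsto (fun l => c l h) atTop (𝓝 (cavLim c h))) :
    ∀ᵐ h ∂P, cavLim c h * ((E : ℂ) - s * om h +
      ∑ j ∈ Finset.range (d - 1), cavLim c (mv pp rr (j + 1) h)) = -1 := by
  have h1 : ∀ᵐ h ∂P, ∀ l, c l h * ((E : ℂ) + Complex.I * η l - s * om h +
        ∑ j ∈ Finset.range (d - 1), c l (mv pp rr (j + 1) h)) = -1 := by
    rw [ae_all_iff]; exact hrec
  filter_upwards [h1, hlim, ae_mv hpp hrr hlim] with h e1 e2 e3
  have hη' : Tendsto (fun l => (E : ℂ) + Complex.I * (η l : ℂ) - s * om h) atTop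
      (𝓝 ((E : ℂ) - s * om h)) := by
    have : Tendsto (fun l => ((η l : ℝ) : ℂ)) atTop (𝓝 ((0 : ℝ) : ℂ)) :=
      (Complex.continuous_ofReal.tendsto _).comp hη
    have h2 := ((this.const_mul Complex.I).const_add (E : ℂ)).sub_const ((s : ℂ) * om h)
    simpa using h2
  have h2 := e2.mul (hη'.add (tendsto_finsetSum (Finset.range (d - 1))
    fun j _ => e3 (j + 1)))
  refine tendsto_nhds_unique h2 ?_
  refine tendsto_const_nhds.congr fun l => ?_
  exact (e1 l).symm

/-- full Green function at the level `l` -/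
noncomputable def Gdl (pp rr : Ω → Ω) (d : ℕ) (s : ℝ) (z : ℂ) (om : Ω → ℝ) (cav : Ω → ℂ)
    (h : Ω) : ℂ :=
  -1 / (z - s * om h + ∑ i ∈ Finset.range d, cav (mv pp rr i h))

lemma Gd_eq_Gdl (pp rr : Ω → Ω) (d : ℕ) (s E : ℝ) (om : Ω → ℝ) (cav : Ω → ℂ) (h : Ω) :
    Gd pp rr d s E om cav h = Gdl pp rr d s (E : ℂ) om cav h := rfl

lemma den_im_pos {pp rr : Ω → Ω} {d : ℕ} (hd : 0 < d) {s : ℝ} {z : ℂ} (hz : 0 ≤ z.im) {om : Ω → ℝ}
    {cav : Ω → ℂ} {h : Ω} (hc : ∀ j, 0 < (cav (mv pp rr j h)).im) :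
    0 < (z - s * om h + ∑ i ∈ Finset.range d, cav (mv pp rr i h)).im := by
  rw [Complex.add_im, Complex.im_sum, Complex.sub_im]
  have h1 : ((s : ℂ) * (om h : ℂ)).im = 0 := by
    rw [← Complex.ofReal_mul]; exact Complex.ofReal_im _
  have h2 : 0 < ∑ i ∈ Finset.range d, (cav (mv pp rr i h)).im :=
    Finset.sum_pos (fun i _ => hc i) ⟨0, Finset.mem_range.2 hd⟩
  rw [h1]; linarith



end Crest.Agent.R166.PhiLim85
end

-- ▼ part R166/PhiLimB_85
section

/-!
Row 166 (helper85), F4, part B: `∫ Im G_oo dP = π ρ` for the limit cavity field.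
-/

set_option autoImplicit false

open MeasureTheory ProbabilityTheory Filter Topology

namespace Crest.Agent.R166.PhiLim85

open Crest.Agent.R166.B2 Crest.Agent.R166.TreeDefs350

/-- `Im (-1/(w - s t))` -/
noncomputable def fI (s t : ℝ) (w : ℂ) : ℝ := (-1 / (w - s * t)).im

lemma den_im (s t : ℝ) (w : ℂ) : (w - s * t).im = w.im := by
  rw [Complex.sub_im]
  have : ((s : ℂ) * (t : ℂ)).im = 0 := by
    rw [← Complex.ofReal_mul]; exact Complex.ofReal_im _
  rw [this, sub_zero]

lemma den_re (s t : ℝ) (w : ℂ) : (w - s * t).re = w.re - s * t := by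
  rw [Complex.sub_re, ← Complex.ofReal_mul, Complex.ofReal_re]

lemma fI_eq (s t : ℝ) (w : ℂ) :
    fI s t w = w.im / ((w.re - s * t) ^ 2 + w.im ^ 2) := by
  unfold fI
  rw [neg_div, Complex.neg_im, one_div, Complex.inv_im, den_im, Complex.normSq_apply, den_im,
    den_re]
  rw [neg_div, neg_neg]
  congr 1
  ring

lemma fI_pos {s t : ℝ} {w : ℂ} (hw : 0 < w.im) : 0 < fI s t w := by
  rw [fI_eq]; positivity

lemma fI_le {s t : ℝ} {w : ℂ} (hw : 0 < w.im) : fI s t w ≤ 1 / w.im := by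
  rw [fI_eq, div_le_div_iff₀ (by positivity) hw]
  nlinarith [sq_nonneg (w.re - s * t)]

lemma measurable_fI (s : ℝ) : Measurable fun p : ℝ × ℂ => fI s p.1 p.2 := by
  unfold fI
  have h1 : Measurable fun p : ℝ × ℂ => p.2 - (s : ℂ) * ((p.1 : ℝ) : ℂ) :=
    measurable_snd.sub ((Complex.measurable_ofReal.comp measurable_fst).const_mul _)
  exact Complex.measurable_im.comp (h1.const_div (-1))

lemma fI_scaled {s : ℝ} {w : ℂ} (hw : 0 < w.im) (hs : 0 < s) (t : ℝ) :
    fI s t w = (w.im)⁻¹ * (1 + ((s / w.im) * (t - w.re / s)) ^ 2)⁻¹ := by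
  rw [fI_eq]
  field_simp
  ring

lemma integrable_fI {s : ℝ} {w : ℂ} (hw : 0 < w.im) (hs : 0 < s) :
    Integrable fun t => fI s t w := by
  have h1 : Integrable (fun t : ℝ => (1 + ((s / w.im) * (t - w.re / s)) ^ 2)⁻¹) := by
    have h0 := integrable_inv_one_add_sq
    have h2 : Integrable (fun t : ℝ => (1 + ((s / w.im) * t) ^ 2)⁻¹) :=
      h0.comp_mul_left' (by positivity : (s / w.im) ≠ 0)
    exact h2.comp_sub_right (w.re / s)
  have h2 := h1.const_mul (w.im)⁻¹
  refine h2.congr (Eventually.of_forall fun t => ?_)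
  exact (fI_scaled hw hs t).symm

lemma integral_fI {s : ℝ} {w : ℂ} (hw : 0 < w.im) (hs : 0 < s) :
    ∫ t, fI s t w = Real.pi / s := by
  have e1 : (fun t => fI s t w) =
      fun t => (w.im)⁻¹ * (1 + ((s / w.im) * (t - w.re / s)) ^ 2)⁻¹ := by
    funext t; exact fI_scaled hw hs t
  rw [e1, integral_const_mul]
  have h1 := integral_sub_right_eq_self (μ := (volume : Measure ℝ))
    (fun t : ℝ => (1 + ((s / w.im) * t) ^ 2)⁻¹) (w.re / s)
  rw [h1]
  have h2 := Measure.integral_comp_mul_left (fun t : ℝ => (1 + t ^ 2)⁻¹) (s / w.im)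
  rw [h2, integral_univ_inv_one_add_sq]
  have : (0 : ℝ) < (s / w.im)⁻¹ := by positivity
  rw [abs_of_pos this, smul_eq_mul]
  field_simp

/-- `Im` of the resolvent averaged over a uniform potential -/
noncomputable def thF (s : ℝ) (w : ℂ) : ℝ := ∫ t, fI s t w ∂unif

lemma integrable_fI_unif {s : ℝ} {w : ℂ} (hw : 0 < w.im) :
    Integrable (fun t => fI s t w) unif := by
  refine Integrable.of_bound (C := 1 / w.im)
    ((measurable_fI s).comp (measurable_id.prodMk measurable_const)).aestronglyMeasurable ?_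
  refine Eventually.of_forall fun t => ?_
  rw [Real.norm_eq_abs, abs_of_pos (fI_pos hw)]
  exact fI_le hw

lemma thF_nonneg {s : ℝ} {w : ℂ} (hw : 0 < w.im) : 0 ≤ thF s w :=
  integral_nonneg fun _ => (fI_pos hw).le

lemma thF_le {s : ℝ} {w : ℂ} (hw : 0 < w.im) (hs : 0 < s) : thF s w ≤ Real.pi / (2 * s) := by
  unfold thF unif
  rw [integral_smul_nnreal_measure]
  have h1 : ∫ t in Set.Icc (-1 : ℝ) 1, fI s t w ≤ Real.pi / s := by
    rw [← integral_fI hw hs]
    exact setIntegral_le_integral (integrable_fI hw hs)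
      (Eventually.of_forall fun t => (fI_pos hw).le)
  rw [NNReal.smul_def]
  simp only [NNReal.coe_inv, NNReal.coe_ofNat, smul_eq_mul]
  calc (2 : ℝ)⁻¹ * ∫ t in Set.Icc (-1 : ℝ) 1, fI s t w ≤ 2⁻¹ * (Real.pi / s) := by gcongr
    _ = _ := by field_simp

lemma thF_tendsto {s : ℝ} {w : ℕ → ℂ} {w0 : ℂ} (hw0 : 0 < w0.im)
    (h : Tendsto w atTop (𝓝 w0)) : Tendsto (fun l => thF s (w l)) atTop (𝓝 (thF s w0)) := by
  have him : Tendsto (fun l => (w l).im) atTop (𝓝 w0.im) :=
    (Complex.continuous_im.tendsto _).comp h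
  have hre : Tendsto (fun l => (w l).re) atTop (𝓝 w0.re) :=
    (Complex.continuous_re.tendsto _).comp h
  have hev : ∀ᶠ l in atTop, w0.im / 2 < (w l).im :=
    him.eventually (lt_mem_nhds (by linarith))
  unfold thF
  refine tendsto_integral_filter_of_dominated_convergence (fun _ => 2 / w0.im) ?_ ?_ ?_ ?_
  · refine Eventually.of_forall fun l => ?_
    exact ((measurable_fI s).comp (measurable_id.prodMk measurable_const)).aestronglyMeasurable
  · filter_upwards [hev] with l hl
    refine Eventually.of_forall fun t => ?_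
    have h0 : 0 < (w l).im := by linarith
    rw [Real.norm_eq_abs, abs_of_pos (fI_pos h0)]
    refine (fI_le h0).trans ?_
    rw [div_le_div_iff₀ h0 hw0]
    linarith
  · exact integrable_const _
  · refine Eventually.of_forall fun t => ?_
    simp only [fI_eq]
    refine him.div (((hre.sub_const _).pow 2).add (him.pow 2)) ?_
    positivity

variable {Ω : Type*} [mΩ : MeasurableSpace Ω] {P : Measure Ω} [IsProbabilityMeasure P]

/-- integration over an independent uniform potential -/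
theorem integral_indep {s : ℝ} (hs : 0 < s) {om : Ω → ℝ} {W : Ω → ℂ} (hom : Measurable om)
    (hW : Measurable W) (hlaw : P.map om = unif) (hind : IndepFun om W P)
    (hpos : ∀ᵐ h ∂P, 0 < (W h).im) :
    Integrable (fun h => fI s (om h) (W h)) P ∧
      ∫ h, fI s (om h) (W h) ∂P = ∫ h, thF s (W h) ∂P := by
  have hprod := (indepFun_iff_map_prod_eq_prod_map_map hom.aemeasurable hW.aemeasurable).1 hind
  have hWp : IsProbabilityMeasure (P.map W) := Measure.isProbabilityMeasure_map hW.aemeasurable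
  have hpos' : ∀ᵐ w ∂(P.map W), 0 < w.im := by
    rw [ae_map_iff hW.aemeasurable (measurableSet_lt measurable_const Complex.measurable_im)]
    exact hpos
  have hfm : Measurable fun p : ℝ × ℂ => fI s p.1 p.2 := measurable_fI s
  have hI : Integrable (fun p : ℝ × ℂ => fI s p.1 p.2) (unif.prod (P.map W)) := by
    rw [integrable_prod_iff' hfm.aestronglyMeasurable]
    constructor
    · filter_upwards [hpos'] with w hw
      exact integrable_fI_unif hw
    · refine Integrable.of_bound (C := Real.pi / (2 * s)) ?_ ?_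
      · exact (hfm.norm.stronglyMeasurable.integral_prod_left').aestronglyMeasurable
      · filter_upwards [hpos'] with w hw
        have e1 : (∫ t, ‖fI s t w‖ ∂unif) = thF s w := by
          unfold thF
          refine integral_congr_ae (Eventually.of_forall fun t => ?_)
          change ‖fI s t w‖ = fI s t w
          rw [Real.norm_eq_abs, abs_of_pos (fI_pos hw)]
        rw [e1, Real.norm_eq_abs, abs_of_nonneg (thF_nonneg hw)]
        exact thF_le hw hs
  have hpair : Measurable fun h => (om h, W h) := hom.prodMk hW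
  have hI2 : Integrable (fun p : ℝ × ℂ => fI s p.1 p.2) (P.map fun h => (om h, W h)) := by
    rw [hprod, hlaw]; exact hI
  constructor
  · exact hI2.comp_measurable hpair
  · have h1 := integral_map (μ := P) hpair.aemeasurable (f := fun p : ℝ × ℂ => fI s p.1 p.2)
      hfm.aestronglyMeasurable
    have h2 : ∫ h, fI s (om h) (W h) ∂P =
        ∫ p, fI s p.1 p.2 ∂(P.map fun h => (om h, W h)) := h1.symm
    rw [h2, hprod, hlaw, integral_prod_symm _ hI]
    have h3 : Measurable (thF s) := (hfm.stronglyMeasurable.integral_prod_left').measurable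
    exact integral_map hW.aemeasurable h3.aestronglyMeasurable

/-- the spectral parameter of the root: `z + ∑ cav (mv i h)` -/
noncomputable def Wd (pp rr : Ω → Ω) (d : ℕ) (z : ℂ) (cav : Ω → ℂ) (h : Ω) : ℂ :=
  z + ∑ i ∈ Finset.range d, cav (mv pp rr i h)

omit mΩ in
lemma Gdl_eq_fI (pp rr : Ω → Ω) (d : ℕ) (s : ℝ) (z : ℂ) (om : Ω → ℝ) (cav : Ω → ℂ) (h : Ω) :
    (Gdl pp rr d s z om cav h).im = fI s (om h) (Wd pp rr d z cav h) := by
  unfold Gdl fI Wd
  congr 2
  ring

omit mΩ in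
lemma Wd_im_pos {pp rr : Ω → Ω} {d : ℕ} (hd : 0 < d) {z : ℂ} (hz : 0 ≤ z.im)
    {cav : Ω → ℂ} {h : Ω} (hc : ∀ j, 0 < (cav (mv pp rr j h)).im) :
    0 < (Wd pp rr d z cav h).im := by
  unfold Wd
  rw [Complex.add_im, Complex.im_sum]
  have h2 : 0 < ∑ i ∈ Finset.range d, (cav (mv pp rr i h)).im :=
    Finset.sum_pos (fun i _ => hc i) ⟨0, Finset.mem_range.2 hd⟩
  linarith

omit [IsProbabilityMeasure P] in
lemma measurable_mv {pp rr : Ω → Ω} (hpp : Measurable pp) (hrr : Measurable rr) (j : ℕ) :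
    Measurable (mv pp rr j) := hpp.comp (hrr.iterate j)

lemma tendsto_ze {E : ℝ} {η : ℕ → ℝ} (hη : Tendsto η atTop (𝓝 0)) :
    Tendsto (fun l => ze E (η l)) atTop (𝓝 (E : ℂ)) := by
  have : Tendsto (fun l => ((η l : ℝ) : ℂ)) atTop (𝓝 ((0 : ℝ) : ℂ)) :=
    (Complex.continuous_ofReal.tendsto _).comp hη
  have h2 := ((this.const_mul Complex.I).const_add (E : ℂ))
  unfold ze
  simpa using h2

lemma ze_im (E η : ℝ) : (ze E η).im = η := by
  unfold ze; simp

/-- **the density of states of the limit cavity field, `s > 0`**: the potential at the root is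
uniform and independent of all the cavity numbers at the neighbours. -/
theorem G_rho_indep {pp rr : Ω → Ω} (hpp : MeasurePreserving pp P P)
    (hrr : MeasurePreserving rr P P) {d : ℕ} (hd : 0 < d) {s E : ℝ} (hs : 0 < s) {om : Ω → ℝ}
    (hom : Measurable om) (hlaw : P.map om = unif) {c : ℕ → Ω → ℂ} (hc : ∀ l, Measurable (c l))
    (him : ∀ l, ∀ᵐ h ∂P, 0 < (c l h).im)
    (hind : IndepFun om (fun h => fun q : ℕ × ℕ => c q.1 (mv pp rr q.2 h)) P)
    {η : ℕ → ℝ} (hη0 : ∀ l, 0 < η l) (hη : Tendsto η atTop (𝓝 0))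
    (hci : ∀ᵐ h ∂P, 0 < (cavLim c h).im)
    (hlim : ∀ᵐ h ∂P, Tendsto (fun l => c l h) atTop (𝓝 (cavLim c h)))
    {L : ℝ} (hL : Tendsto (fun l => ∫ h, (Gdl pp rr d s (ze E (η l)) om (c l) h).im ∂P)
      atTop (𝓝 L)) :
    Integrable (fun h => (Gd pp rr d s E om (cavLim c) h).im) P ∧
      ∫ h, (Gd pp rr d s E om (cavLim c) h).im ∂P = L := by
  have hmvm : ∀ j, Measurable (mv pp rr j) := fun j =>
    measurable_mv hpp.measurable hrr.measurable j
  have hWl : ∀ l, Measurable (Wd pp rr d (ze E (η l)) (c l)) := by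
    intro l
    refine measurable_const.add (Finset.measurable_fun_sum _ fun i _ => (hc l).comp (hmvm i))
  -- independence at the level `l`
  have hindl : ∀ l, IndepFun om (Wd pp rr d (ze E (η l)) (c l)) P := by
    intro l
    have hψ : Measurable fun x : ℕ × ℕ → ℂ => ze E (η l) + ∑ i ∈ Finset.range d, x (l, i) :=
      measurable_const.add (Finset.measurable_fun_sum _ fun i _ => measurable_pi_apply _)
    exact hind.comp measurable_id hψ
  -- independence in the limit
  have hcavm : Measurable (cavLim c) := measurable_cavLim hc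
  have hW0 : Measurable (Wd pp rr d (E : ℂ) (cavLim c)) :=
    measurable_const.add (Finset.measurable_fun_sum _ fun i _ => hcavm.comp (hmvm i))
  have hind0 : IndepFun om (Wd pp rr d (E : ℂ) (cavLim c)) P := by
    have hψ : Measurable fun x : ℕ × ℕ → ℂ => (E : ℂ) + ∑ i ∈ Finset.range d,
        limUnder atTop (fun l => x (l, i)) := by
      refine measurable_const.add (Finset.measurable_fun_sum _ fun i _ => ?_)
      exact (StronglyMeasurable.limUnder (l := atTop) (f := fun l (x : ℕ × ℕ → ℂ) => x (l, i))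
        fun l => (measurable_pi_apply _).stronglyMeasurable).measurable
    exact hind.comp measurable_id hψ
  have hposl : ∀ l, ∀ᵐ h ∂P, 0 < (Wd pp rr d (ze E (η l)) (c l) h).im := by
    intro l
    filter_upwards [ae_mv hpp hrr (him l)] with h hh
    exact Wd_im_pos hd (by rw [ze_im]; exact (hη0 l).le) hh
  have hpos0 : ∀ᵐ h ∂P, 0 < (Wd pp rr d (E : ℂ) (cavLim c) h).im := by
    filter_upwards [ae_mv hpp hrr hci] with h hh
    exact Wd_im_pos hd (by simp) hh
  obtain ⟨hI0, he0⟩ := integral_indep hs hom hW0 hlaw hind0 hpos0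
  have hg0 : (fun h => (Gd pp rr d s E om (cavLim c) h).im) =
      fun h => fI s (om h) (Wd pp rr d (E : ℂ) (cavLim c) h) := by
    funext h
    rw [Gd_eq_Gdl, Gdl_eq_fI]
  rw [hg0]
  refine ⟨hI0, ?_⟩
  rw [he0]
  -- convergence of the averages
  have hconv : Tendsto (fun l => ∫ h, thF s (Wd pp rr d (ze E (η l)) (c l) h) ∂P) atTop
      (𝓝 (∫ h, thF s (Wd pp rr d (E : ℂ) (cavLim c) h) ∂P)) := by
    refine tendsto_integral_of_dominated_convergence (fun _ => Real.pi / (2 * s)) ?_ ?_ ?_ ?_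
    · intro l
      have h3 : Measurable (thF s) :=
        ((measurable_fI s).stronglyMeasurable.integral_prod_left').measurable
      exact (h3.comp (hWl l)).aestronglyMeasurable
    · exact integrable_const _
    · intro l
      filter_upwards [hposl l] with h hh
      rw [Real.norm_eq_abs, abs_of_nonneg (thF_nonneg hh)]
      exact thF_le hh hs
    · filter_upwards [hpos0, ae_mv hpp hrr hlim] with h hh hl
      refine thF_tendsto hh ?_
      unfold Wd
      exact (tendsto_ze hη).add (tendsto_finsetSum _ fun i _ => hl i)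
  have hL' : Tendsto (fun l => ∫ h, thF s (Wd pp rr d (ze E (η l)) (c l) h) ∂P) atTop (𝓝 L) := by
    refine hL.congr fun l => ?_
    rw [← (integral_indep hs hom (hWl l) hlaw (hindl l) (hposl l)).2]
    refine integral_congr_ae (Eventually.of_forall fun h => ?_)
    exact Gdl_eq_fI _ _ _ _ _ _ _ _
  exact tendsto_nhds_unique hconv hL'

/-- **the same when the Green functions are deterministic** (`s = 0`) -/
theorem G_rho_const {pp rr : Ω → Ω} (hpp : MeasurePreserving pp P P)
    (hrr : MeasurePreserving rr P P) {d : ℕ} (hd : 0 < d) {s E : ℝ} {om : Ω → ℝ}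
    {c : ℕ → Ω → ℂ} {η : ℕ → ℝ} (hη : Tendsto η atTop (𝓝 0))
    (hcst : ∀ l, ∃ g : ℂ, ∀ᵐ h ∂P, Gdl pp rr d s (ze E (η l)) om (c l) h = g)
    (hci : ∀ᵐ h ∂P, 0 < (cavLim c h).im)
    (hlim : ∀ᵐ h ∂P, Tendsto (fun l => c l h) atTop (𝓝 (cavLim c h)))
    {L : ℝ} (hL : Tendsto (fun l => ∫ h, (Gdl pp rr d s (ze E (η l)) om (c l) h).im ∂P)
      atTop (𝓝 L)) :
    Integrable (fun h => (Gd pp rr d s E om (cavLim c) h).im) P ∧
      ∫ h, (Gd pp rr d s E om (cavLim c) h).im ∂P = L := by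
  choose g hg using hcst
  have hgL : Tendsto (fun l => (g l).im) atTop (𝓝 L) := by
    refine hL.congr fun l => ?_
    have : ∫ h, (Gdl pp rr d s (ze E (η l)) om (c l) h).im ∂P = ∫ _, (g l).im ∂P := by
      refine integral_congr_ae ?_
      filter_upwards [hg l] with h hh
      rw [hh]
    rw [this]; simp
  have hall : ∀ᵐ h ∂P, ∀ l, Gdl pp rr d s (ze E (η l)) om (c l) h = g l := by
    rw [ae_all_iff]; exact hg
  have hG : ∀ᵐ h ∂P, (Gd pp rr d s E om (cavLim c) h).im = L := by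
    filter_upwards [hall, ae_mv hpp hrr hlim, ae_mv hpp hrr hci] with h h1 h2 h3
    have hpos := den_im_pos (pp := pp) (rr := rr) hd (s := s) (z := (E : ℂ)) (by simp)
      (om := om) h3
    have hne : ((E : ℂ) - s * om h + ∑ i ∈ Finset.range d, cavLim c (mv pp rr i h)) ≠ 0 := by
      intro h0; rw [h0] at hpos; simp at hpos
    have h4 : Tendsto (fun l => Gdl pp rr d s (ze E (η l)) om (c l) h) atTop
        (𝓝 (Gd pp rr d s E om (cavLim c) h)) := by
      unfold Gdl Gd
      refine tendsto_const_nhds.div ?_ hne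
      exact ((tendsto_ze hη).sub_const _).add (tendsto_finsetSum _ fun i _ => h2 i)
    have h5 : Tendsto (fun l => (g l).im) atTop (𝓝 (Gd pp rr d s E om (cavLim c) h).im) := by
      refine ((Complex.continuous_im.tendsto _).comp h4).congr fun l => ?_
      change (Gdl pp rr d s (ze E (η l)) om (c l) h).im = _
      rw [h1 l]
    exact tendsto_nhds_unique h5 hgL
  constructor
  · exact (integrable_const L).congr (hG.mono fun h hh => hh.symm)
  · rw [integral_congr_ae hG]; simp

end Crest.Agent.R166.PhiLim85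
end

-- ▼ part R166/PhiLimC_85

/-!
Row 166 (helper85), F4, part C: the tree edge block, law of large numbers for functions of the
edge blocks at fixed energies, and the three facts about the iid environment law which follow from
`LocLim`, `NonDeg`, `ImFix`.
-/

set_option autoImplicit false

open MeasureTheory ProbabilityTheory Filter Topology

namespace Crest.Agent.R166.PhiLim85

open Crest.ProbabilityR.RandomMatrix
open Crest.Agent.R166 Crest.Agent.R166.B2 Crest.Agent.R166.Words955 Crest.Agent.R166.TreeG879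
open Crest.Agent.R166.EnvLaw289 Crest.Agent.R166.LLN289 Crest.Agent.R166.LimEnv289
open Crest.Agent.R166.Seq980
open Crest.Agent.R166.TreeDefs350 (unif)

abbrev M2 : Type := Matrix (Fin 2) (Fin 2) ℂ

section block
variable {d : ℕ} [NeZero d]

/-- the edge block of the tree at the root edge -/
noncomputable def BT (s : ℝ) (z : ℂ) (om : TW d → ℝ) : M2 :=
  blk2 (cav s z om) (cav s z (om ∘ TW.cr))

lemma BT_00 (s : ℝ) {z : ℂ} (hz : 0 < z.im) (om : TW d → ℝ) :
    BT s z om 0 0 = treeG s z om TW.nil TW.nil := by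
  unfold BT
  rw [blk2_00, div_eq_iff (one_sub_cav_ne s om hz)]
  exact (treeG_uu s om hz).symm

lemma BT_11 (s : ℝ) {z : ℂ} (hz : 0 < z.im) (om : TW d → ℝ) :
    BT s z om 1 1 = treeG s z om (TW.single 0) (TW.single 0) := by
  unfold BT
  rw [blk2_11, div_eq_iff (one_sub_cav_ne s om hz)]
  exact (treeG_vv s om hz).symm

lemma BT_10 (s : ℝ) {z : ℂ} (hz : 0 < z.im) (om : TW d → ℝ) :
    BT s z om 1 0 = treeG s z om (TW.single 0) TW.nil := by
  unfold BT
  rw [blk2_10, treeG_vu s om hz, div_eq_iff (one_sub_cav_ne s om hz)]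
  have := treeG_uu s om hz
  linear_combination (cav s z (om ∘ TW.cr)) * this

lemma BT_01 (s : ℝ) {z : ℂ} (hz : 0 < z.im) (om : TW d → ℝ) :
    BT s z om 0 1 = treeG s z om TW.nil (TW.single 0) := by
  rw [treeG_symm s hz, ← BT_10 s hz]
  unfold BT
  rw [blk2_10, blk2_01]

/-- the root and the other end of the root edge -/
def rt2 (d : ℕ) [NeZero d] : Fin 2 → TW d := ![TW.nil, TW.single 0]

lemma BT_apply (s : ℝ) {z : ℂ} (hz : 0 < z.im) (om : TW d → ℝ) (a b : Fin 2) :
    BT s z om a b = treeG s z om (rt2 d a) (rt2 d b) := by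
  fin_cases a <;> fin_cases b
  · exact BT_00 s hz om
  · exact BT_01 s hz om
  · exact BT_10 s hz om
  · exact BT_11 s hz om

lemma len_rt2 (a : Fin 2) : (rt2 d a).len ≤ 1 := by
  fin_cases a
  · change (TW.nil : TW d).len ≤ 1
    simp [TW.len, TW.nil]
  · change (TW.single (0 : Fin d)).len ≤ 1
    simp [TW.len, TW.single]

lemma continuous_BT (s : ℝ) {z : ℂ} (hz : 0 < z.im) :
    Continuous fun om : TW d → ℝ => BT s z om := by
  refine continuous_matrix fun a b => ?_
  simp only [BT_apply s hz]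
  exact continuous_treeG s hz _ _

lemma bnorm_le {B : M2} {r : ℝ} (h : ∀ a b, ‖B a b‖ ≤ r) : bnorm B ≤ r := by
  unfold bnorm
  exact max_le (max_le (h 0 0) (h 0 1)) (max_le (h 1 0) (h 1 1))

lemma bnorm_nonneg (B : M2) : 0 ≤ bnorm B := (norm_nonneg _).trans (entry_le_bnorm B 0 0)

lemma bnorm_add_le (A B : M2) : bnorm (A + B) ≤ bnorm A + bnorm B :=
  bnorm_le fun a b => (norm_add_le _ _).trans (add_le_add (entry_le_bnorm A a b)
    (entry_le_bnorm B a b))

lemma bnorm_neg (B : M2) : bnorm (-B) = bnorm B := by simp [bnorm]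

lemma bnorm_sub_comm (A B : M2) : bnorm (A - B) = bnorm (B - A) := by
  rw [← bnorm_neg, neg_sub]

lemma bnorm_tri (A B C : M2) : bnorm (A - C) ≤ bnorm (A - B) + bnorm (B - C) := by
  have := bnorm_add_le (A - B) (B - C)
  simpa using this

/-- comparison with the graph block -/
theorem blk_close {n : ℕ} {p : Equiv.Perm (HE n d)} (hp : IsPort p) (s : ℝ) (om : Fin n → ℝ)
    (hom : ∀ v, |om v| ≤ 1) (h : HE n d) {R : ℕ} (hR : Set.InjOn (vx p h) {w | w.len ≤ R})
    {z : ℂ} (hz : 0 < z.im) {ε : ℝ} (hε : 0 < ε) (hr : 1 + rad d s z ε ≤ R) :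
    bnorm (Blk (Res (Hm (graphOf p) s om) z) h.1 (p h).1 -
      BT s z (fun w => om (vx p h w))) ≤ 2 * ε := by
  have hv : ∀ a : Fin 2, ![h.1, (p h).1] a = vx p h (rt2 d a) := by
    intro a
    fin_cases a
    · rfl
    · change (p h).1 = (walk p [0] h).1
      simp [walk]
  refine bnorm_le fun a b => ?_
  rw [Matrix.sub_apply, BT_apply s hz, norm_sub_rev]
  have e : Blk (Res (Hm (graphOf p) s om) z) h.1 (p h).1 a b =
      Res (Hm (graphOf p) s om) z (vx p h (rt2 d a)) (vx p h (rt2 d b)) := by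
    unfold Blk
    rw [Matrix.submatrix_apply, hv, hv]
  rw [e]
  have h1 := len_rt2 (d := d) a
  have h2 := len_rt2 (d := d) b
  exact treeG_sub_Res hp s om hom h hR hz hε (by omega) (by omega)

/-- truncation of the environment to a ball -/
def trc (R : ℕ) (om : TW d → ℝ) : TW d → ℝ := fun w => if w.len ≤ R then om w else 0

lemma continuous_trc (R : ℕ) : Continuous (trc R : (TW d → ℝ) → TW d → ℝ) := by
  refine continuous_pi fun w => ?_
  unfold trc
  split_ifs
  · exact continuous_apply w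
  · exact continuous_const

theorem BT_trc (s : ℝ) (om : TW d → ℝ) {R : ℕ} {z : ℂ} (hz : 0 < z.im) {ε : ℝ} (hε : 0 < ε)
    (hr : 1 + rad d s z ε ≤ R) : bnorm (BT s z om - BT s z (trc R om)) ≤ 2 * ε := by
  classical
  refine bnorm_le fun a b => ?_
  rw [Matrix.sub_apply, BT_apply s hz, BT_apply s hz]
  have h1 := len_rt2 (d := d) a
  refine L2G879.Op.norm_G_sub_G_le (tOp s om) (tOp s (trc R om)) id (rt2 d b)
    (fun k x => x.len + k ≤ R + 1) ?_ ?_ ?_ hz hε (x := rt2 d a) ?_
  · intro k x hx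
    refine ⟨by omega, fun x' hx' => ?_⟩
    have := len_le_of_nbT hx'
    omega
  · intro k x hx
    refine ⟨by simp, by simp [Set.injOn_id], ?_⟩
    have : x.len ≤ R := by omega
    simp [trc, this]
  · intro x _; exact Iff.rfl
  · have h2 : L2G879.Op.rad d |s| z ε = rad d s z ε := rfl
    rw [h2]; omega

end block

/-! ### Law of large numbers for functions of the blocks at two fixed energies -/

section lln
variable {d : ℕ} [NeZero d]

lemma bad_port (d R : ℕ) [NeZero d] {ε δ : ℝ} (hε : 0 < ε) (hδ : 0 < δ) :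
    ∃ N : ℕ, ∀ n ≥ N, portLaw d n {x | ε * (n * d) < ((badH x.1 R).card : ℝ)} ≤
      ENNReal.ofReal δ := by
  classical
  have hd0 : 0 < d := Nat.pos_of_ne_zero (NeZero.ne d)
  have hd0' : (0 : ℝ) < d := by exact_mod_cast hd0
  obtain ⟨N, hN⟩ := TreeLike942.tree_whp_Ports d R hd0 ε δ hε hδ
  refine ⟨N, fun n hn => ?_⟩
  set Pb := (Ports n d).filter fun p => ε * (n * d) < ((badH p R).card : ℝ) with hPb
  have h4 : (Pb.card : ℝ) ≤ δ * ((Ports n d).card : ℝ) := by
    refine hN n hn Pb (Finset.filter_subset _ _) fun p hp => ?_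
    have h5 := (Finset.mem_filter.1 hp).2
    have h6 : ((badH p R).card : ℝ) ≤
        (Nat.card {v : Fin n // ¬ TreeLike942.TreeAt Prod.fst p R v} : ℝ) * d := by
      exact_mod_cast card_badH_le p R
    have h7 : ε * n * d ≤
        (Nat.card {v : Fin n // ¬ TreeLike942.TreeAt Prod.fst p R v} : ℝ) * d := by
      calc ε * n * d = ε * (n * d) := by ring
        _ ≤ _ := h5.le.trans h6
    exact le_of_mul_le_mul_right h7 hd0'
  rw [portLaw_apply]
  have h1 : ∀ p ∈ Ports n d, (potentialLaw n) {ω | (p, ω) ∈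
      {x : PS d n | ε * (n * d) < ((badH x.1 R).card : ℝ)}} =
      if ε * (n * d) < ((badH p R).card : ℝ) then 1 else 0 := by
    intro p _
    have hpr : IsProbabilityMeasure (potentialLaw n) := by
      rw [LimEnv289.potentialLaw_eq]; infer_instance
    split_ifs with h
    · have : {ω : Fin n → ℝ | (p, ω) ∈
        {x : PS d n | ε * (n * d) < ((badH x.1 R).card : ℝ)}} = Set.univ := by
        ext ω; simp [h]
      rw [this, measure_univ]
    · have : {ω : Fin n → ℝ | (p, ω) ∈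
        {x : PS d n | ε * (n * d) < ((badH x.1 R).card : ℝ)}} = ∅ := by
        ext ω; simp [h]
      rw [this, measure_empty]
  rw [Finset.sum_congr rfl h1, ← Finset.sum_filter, Finset.sum_const, nsmul_eq_mul, mul_one]
  rcases Nat.eq_zero_or_pos (Ports n d).card with h0 | h0
  · have : ((Ports n d).filter fun p => ε * (n * d) < ((badH p R).card : ℝ)).card = 0 := by
      have := Finset.card_filter_le (Ports n d) fun p => ε * (n * d) < ((badH p R).card : ℝ)
      omega
    rw [this]; simp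
  · have h2 : ((Ports n d).card : ENNReal) ≠ 0 := by exact_mod_cast h0.ne'
    have h3 : ((Ports n d).card : ENNReal) ≠ ⊤ := ENNReal.natCast_ne_top _
    have h11 : (Pb.card : ENNReal) ≤ ENNReal.ofReal δ * ((Ports n d).card : ENNReal) := by
      rw [← ENNReal.ofReal_natCast, ← ENNReal.ofReal_natCast,
        ← ENNReal.ofReal_mul (by positivity)]
      exact ENNReal.ofReal_le_ofReal h4
    calc ((Ports n d).card : ENNReal)⁻¹ * (Pb.card : ENNReal)
        ≤ ((Ports n d).card : ENNReal)⁻¹ * (ENNReal.ofReal δ * ((Ports n d).card : ENNReal)) := by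
          gcongr
      _ = ENNReal.ofReal δ := by
          rw [mul_comm (ENNReal.ofReal δ), ← mul_assoc, ENNReal.inv_mul_cancel h2 h3, one_mul]

/-- Lipschitz functions of two blocks -/
structure Lip2 (L : ℝ) (Φ : M2 → M2 → ℝ) : Prop where
  nn : 0 ≤ L
  bd : ∀ A B, |Φ A B| ≤ 1
  lip : ∀ A A' B B', |Φ A B - Φ A' B'| ≤ L * (bnorm (A - A') + bnorm (B - B'))

lemma continuous_bnorm : Continuous bnorm := by
  unfold bnorm
  exact (((continuous_id.matrix_elem 0 0).norm.max (continuous_id.matrix_elem 0 1).norm)).max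
    ((continuous_id.matrix_elem 1 0).norm.max (continuous_id.matrix_elem 1 1).norm)

lemma Lip2.continuous {L : ℝ} {Φ : M2 → M2 → ℝ} (h : Lip2 L Φ) {X : Type*} [TopologicalSpace X]
    {f g : X → M2} (hf : Continuous f) (hg : Continuous g) : Continuous fun x => Φ (f x) (g x) := by
  rw [continuous_iff_continuousAt]
  intro x
  have h1 : Tendsto (fun y => L * (bnorm (f y - f x) + bnorm (g y - g x))) (𝓝 x) (𝓝 0) := by
    have hf' : Continuous fun y => bnorm (f y - f x) :=
      continuous_bnorm.comp (hf.sub continuous_const)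
    have hg' : Continuous fun y => bnorm (g y - g x) :=
      continuous_bnorm.comp (hg.sub continuous_const)
    have := (continuous_const.mul (hf'.add hg')).tendsto (x := x) (f := fun y =>
      L * (bnorm (f y - f x) + bnorm (g y - g x)))
    simpa [bnorm] using this
  rw [ContinuousAt, tendsto_iff_dist_tendsto_zero]
  refine squeeze_zero (fun _ => dist_nonneg) (fun y => ?_) h1
  rw [Real.dist_eq]
  exact h.lip _ _ _ _

/-- the function of the blocks read off the environment -/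
noncomputable def PhiE (s : ℝ) (z1 z2 : ℂ) (Φ : M2 → M2 → ℝ) (ξ : Conf d (Fin d × ℝ)) : ℝ :=
  Φ (BT s z1 (omOf id ξ)) (BT s z2 (omOf id ξ))

/-- its local version -/
noncomputable def PhiR (s : ℝ) (z1 z2 : ℂ) (Φ : M2 → M2 → ℝ) (R : ℕ) (ξ : Conf d (Fin d × ℝ)) :
    ℝ :=
  Φ (BT s z1 (trc R (omOf id ξ))) (BT s z2 (trc R (omOf id ξ)))

/-- average of a function of the blocks over the half-edges -/
noncomputable def bAvg {n : ℕ} (s : ℝ) (z1 z2 : ℂ) (Φ : M2 → M2 → ℝ) (x : PS d n) : ℝ :=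
  (∑ h : HE n d, Φ (Blk (Res (Hm (graphOf x.1) s x.2) z1) h.1 (x.1 h).1)
    (Blk (Res (Hm (graphOf x.1) s x.2) z2) h.1 (x.1 h).1)) / (n * d)

theorem bAvg_eq {n : ℕ} (s : ℝ) (z1 z2 : ℂ) (Φ : M2 → M2 → ℝ) {x : PS d n} (hx : IsPort x.1) :
    bAvg s z1 z2 Φ x = eAvg (graphOf x.1) fun u w =>
      Φ (Blk (Res (Hm (graphOf x.1) s x.2) z1) u w) (Blk (Res (Hm (graphOf x.1) s x.2) z2) u w) := by
  rw [hx.eAvg_graphOf]; rfl

theorem lln_two (s : ℝ) {z1 z2 : ℂ} (h1 : 0 < z1.im) (h2 : 0 < z2.im) {L : ℝ}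
    {Φ : M2 → M2 → ℝ} (hΦ : Lip2 L Φ) {ε δ : ℝ} (hε : 0 < ε) (hδ : 0 < δ) :
    ∃ N : ℕ, ∀ n ≥ N, portLaw d n {x | ε < |bAvg s z1 z2 Φ x -
      ∫ ξ, PhiE s z1 z2 Φ ξ ∂(envLaw d unif)|} ≤ ENNReal.ofReal δ := by
  classical
  have hd0 : 0 < d := Nat.pos_of_ne_zero (NeZero.ne d)
  have hd0' : (0 : ℝ) < d := by exact_mod_cast hd0
  set e1 : ℝ := ε / (32 * (L + 1)) with he1
  have hL0 := hΦ.nn
  have he1p : 0 < e1 := by positivity
  have hLe : L * (8 * e1) ≤ ε / 4 := by
    rw [he1]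
    have : L * (8 * (ε / (32 * (L + 1)))) = (ε / 4) * (L / (L + 1)) := by field_simp; ring
    rw [this]
    have h3 : L / (L + 1) ≤ 1 := by rw [div_le_one (by positivity)]; linarith
    calc ε / 4 * (L / (L + 1)) ≤ ε / 4 * 1 := by gcongr
      _ = ε / 4 := mul_one _
  obtain ⟨R, hR1, hR2⟩ : ∃ R : ℕ, 1 + rad d s z1 e1 ≤ R ∧ 1 + rad d s z2 e1 ≤ R :=
    ⟨max (1 + rad d s z1 e1) (1 + rad d s z2 e1), le_max_left _ _, le_max_right _ _⟩
  have hcR : Continuous (PhiR (d := d) s z1 z2 Φ R) := by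
    have hc : Continuous fun ξ : Conf d (Fin d × ℝ) => trc R (omOf id ξ) :=
      (continuous_trc R).comp (continuous_omOf id continuous_id)
    exact hΦ.continuous ((continuous_BT s h1).comp hc) ((continuous_BT s h2).comp hc)
  have hcE : Continuous (PhiE (d := d) s z1 z2 Φ) := by
    have hc : Continuous fun ξ : Conf d (Fin d × ℝ) => omOf id ξ :=
      continuous_omOf id continuous_id
    exact hΦ.continuous ((continuous_BT s h1).comp hc) ((continuous_BT s h2).comp hc)
  have hloc : Loc R (PhiR (d := d) s z1 z2 Φ R) := by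
    intro ξ ξ' hξ
    have : trc R (omOf id ξ) = trc R (omOf id ξ') := by
      funext w
      unfold trc
      split_ifs with hw
      · simp only [omOf]; rw [hξ w hw]
      · rfl
    unfold PhiR
    rw [this]
  obtain ⟨N1, hN1⟩ := lln_port d R (ε := ε / 4) (δ := δ / 2) (by positivity) (by positivity)
  obtain ⟨N2, hN2⟩ := bad_port d R (ε := ε / 8) (δ := δ / 2) (by positivity) (by positivity)
  refine ⟨max (max N1 N2) 1, fun n hn => ?_⟩
  have hn1 : N1 ≤ n := (le_max_left _ _).trans ((le_max_left _ _).trans hn)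
  have hn2 : N2 ≤ n := (le_max_right _ _).trans ((le_max_left _ _).trans hn)
  have hn3 : 1 ≤ n := (le_max_right _ _).trans hn
  have hn0 : (0 : ℝ) < n := by exact_mod_cast hn3
  have A1 := hN1 n hn1 _ hcR.measurable (fun ξ => hΦ.bd _ _) hloc
  have A2 := hN2 n hn2
  -- the integrals
  have hint : |∫ ξ, PhiR s z1 z2 Φ R ξ ∂(envLaw d unif) -
      ∫ ξ, PhiE s z1 z2 Φ ξ ∂(envLaw d unif)| ≤ ε / 4 := by
    have i1 : Integrable (PhiR (d := d) s z1 z2 Φ R) (envLaw d unif) :=
      Integrable.of_bound hcR.aestronglyMeasurable 1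
        (Eventually.of_forall fun ξ => by rw [Real.norm_eq_abs]; exact hΦ.bd _ _)
    have i2 : Integrable (PhiE (d := d) s z1 z2 Φ) (envLaw d unif) :=
      Integrable.of_bound hcE.aestronglyMeasurable 1
        (Eventually.of_forall fun ξ => by rw [Real.norm_eq_abs]; exact hΦ.bd _ _)
    rw [← integral_sub i1 i2]
    have hb : ∀ ξ : Conf d (Fin d × ℝ), ‖PhiR s z1 z2 Φ R ξ - PhiE s z1 z2 Φ ξ‖ ≤ ε / 4 := by
      intro ξ
      rw [Real.norm_eq_abs]
      refine (hΦ.lip _ _ _ _).trans (le_trans ?_ hLe)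
      have b1 := BT_trc s (omOf id ξ) h1 he1p hR1
      have b2 := BT_trc s (omOf id ξ) h2 he1p hR2
      rw [bnorm_sub_comm] at b1 b2
      gcongr
      linarith
    have := norm_integral_le_of_norm_le_const (μ := envLaw d unif) (Eventually.of_forall hb)
    simpa using this
  -- inclusion of events
  have hsub : {x : PS d n | ε < |bAvg s z1 z2 Φ x - ∫ ξ, PhiE s z1 z2 Φ ξ ∂(envLaw d unif)|} ⊆
      ({x | ε / 4 < |(∑ h, PhiR s z1 z2 Φ R (conf x.1 (lab x.2) h)) / (n * d) -
        ∫ ξ, PhiR s z1 z2 Φ R ξ ∂(envLaw d unif)|} ∪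
      {x | ε / 8 * (n * d) < ((badH x.1 R).card : ℝ)}) ∪ (okSet d n)ᶜ := by
    intro x hx
    by_contra hcon
    simp only [Set.mem_union, Set.mem_ofPred_eq, Set.mem_compl_iff, not_or, not_lt, not_not] at hcon
    obtain ⟨⟨c1, c2⟩, c3⟩ := hcon
    have hp := c3.1
    have hom : ∀ v, |x.2 v| ≤ 1 := fun v => abs_le.2 (c3.2 v)
    have hkey : |bAvg s z1 z2 Φ x -
        (∑ h, PhiR s z1 z2 Φ R (conf x.1 (lab x.2) h)) / (n * d)| ≤ ε / 4 + ε / 4 := by
      unfold bAvg
      rw [← sub_div, ← Finset.sum_sub_distrib, abs_div, abs_of_pos (by positivity : (0 : ℝ) < n * d),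
        div_le_iff₀ (by positivity)]
      refine (Finset.abs_sum_le_sum_abs _ _).trans ?_
      have hpt : ∀ h : HE n d,
          |Φ (Blk (Res (Hm (graphOf x.1) s x.2) z1) h.1 (x.1 h).1)
            (Blk (Res (Hm (graphOf x.1) s x.2) z2) h.1 (x.1 h).1) -
            PhiR s z1 z2 Φ R (conf x.1 (lab x.2) h)| ≤
          ε / 4 + (if h ∈ badH x.1 R then 2 else 0) := by
        intro h
        split_ifs with hbad
        · have b1 := hΦ.bd (Blk (Res (Hm (graphOf x.1) s x.2) z1) h.1 (x.1 h).1)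
            (Blk (Res (Hm (graphOf x.1) s x.2) z2) h.1 (x.1 h).1)
          have b2 := hΦ.bd (BT s z1 (trc R (omOf id (conf x.1 (lab x.2) h))))
            (BT s z2 (trc R (omOf id (conf x.1 (lab x.2) h))))
          have b3 := abs_sub (Φ (Blk (Res (Hm (graphOf x.1) s x.2) z1) h.1 (x.1 h).1)
            (Blk (Res (Hm (graphOf x.1) s x.2) z2) h.1 (x.1 h).1))
            (PhiR s z1 z2 Φ R (conf x.1 (lab x.2) h))
          unfold PhiR at b3 ⊢
          linarith
        · rw [add_zero]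
          have hinj : Set.InjOn (vx x.1 h) {w | w.len ≤ R} := by
            by_contra hc
            exact hbad (by
              simp only [badH, Finset.mem_filter, Finset.mem_univ, true_and]
              exact hc)
          refine (hΦ.lip _ _ _ _).trans (le_trans ?_ hLe)
          have o1 : omOf id (conf x.1 (lab x.2) h) = fun w => x.2 (vx x.1 h w) := rfl
          have b1 := blk_close hp s x.2 hom h hinj h1 he1p hR1
          have b2 := blk_close hp s x.2 hom h hinj h2 he1p hR2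
          have t1 := BT_trc s (fun w => x.2 (vx x.1 h w)) h1 he1p hR1
          have t2 := BT_trc s (fun w => x.2 (vx x.1 h w)) h2 he1p hR2
          have u1 := bnorm_tri (Blk (Res (Hm (graphOf x.1) s x.2) z1) h.1 (x.1 h).1)
            (BT s z1 (fun w => x.2 (vx x.1 h w))) (BT s z1 (trc R fun w => x.2 (vx x.1 h w)))
          have u2 := bnorm_tri (Blk (Res (Hm (graphOf x.1) s x.2) z2) h.1 (x.1 h).1)
            (BT s z2 (fun w => x.2 (vx x.1 h w))) (BT s z2 (trc R fun w => x.2 (vx x.1 h w)))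
          rw [o1]
          gcongr
          linarith
      refine (Finset.sum_le_sum fun h _ => hpt h).trans ?_
      rw [Finset.sum_add_distrib, Finset.sum_const, Finset.card_univ, IsPort.card_HE,
        nsmul_eq_mul, ← Finset.sum_filter, Finset.sum_const, nsmul_eq_mul]
      have hf : (Finset.univ.filter fun h => h ∈ badH x.1 R) = badH x.1 R := by
        ext h; simp
      rw [hf]
      push_cast
      nlinarith
    have : ε < |bAvg s z1 z2 Φ x - ∫ ξ, PhiE s z1 z2 Φ ξ ∂(envLaw d unif)| := hx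
    have htri : |bAvg s z1 z2 Φ x - ∫ ξ, PhiE s z1 z2 Φ ξ ∂(envLaw d unif)| ≤
        |bAvg s z1 z2 Φ x - (∑ h, PhiR s z1 z2 Φ R (conf x.1 (lab x.2) h)) / (n * d)| +
        |(∑ h, PhiR s z1 z2 Φ R (conf x.1 (lab x.2) h)) / (n * d) -
          ∫ ξ, PhiR s z1 z2 Φ R ξ ∂(envLaw d unif)| +
        |∫ ξ, PhiR s z1 z2 Φ R ξ ∂(envLaw d unif) -
          ∫ ξ, PhiE s z1 z2 Φ ξ ∂(envLaw d unif)| := by
      have q1 := abs_sub_le (bAvg s z1 z2 Φ x)
        ((∑ h, PhiR s z1 z2 Φ R (conf x.1 (lab x.2) h)) / (n * d))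
        (∫ ξ, PhiE s z1 z2 Φ ξ ∂(envLaw d unif))
      have q2 := abs_sub_le ((∑ h, PhiR s z1 z2 Φ R (conf x.1 (lab x.2) h)) / (n * d))
        (∫ ξ, PhiR s z1 z2 Φ R ξ ∂(envLaw d unif)) (∫ ξ, PhiE s z1 z2 Φ ξ ∂(envLaw d unif))
      linarith
    linarith
  refine (measure_mono hsub).trans ((measure_union_le _ _).trans ?_)
  rw [okSet_compl, add_zero]
  refine (measure_union_le _ _).trans ((add_le_add A1 A2).trans ?_)
  rw [← ENNReal.ofReal_add (by positivity) (by positivity), add_halves]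

end lln

end Crest.Agent.R166.PhiLim85
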