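import Crest.Agent.R166.Lev_47
import Crest.Agent.R166.EntBridge_397
import Crest.Agent.R166.PsiBridge_397

-- ▼ part R166/CMI_47
section

/-!
Row 166, section 40.10 (helper47): approximate conditional independence of the two sides of the
root edge given the environment and the two values at the edge, at fixed `η`.

`d = b + 1`.  `T` = vertex data, `po : T → ℝ` = potential, `py : T → Fin k → ℝ` = the noised values.
-/

set_option autoImplicit false

namespace Crest.Agent.R166.CMI47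

open MeasureTheory Filter Topology Crest.Agent.R166.Words955 Crest.Agent.R166.Upp724
  Crest.Agent.R166.EntTree397 Crest.Agent.R166.Ent397 Crest.Agent.R166.Lim47
  Crest.Agent.R166.View47 Crest.Agent.R166.Lev47

variable {b k : ℕ} {T : Type}

/-- the colour alphabet of level `(a, m)` -/
abbrev CA (b k a m : ℕ) : Type :=
  Fin (b + 1) × (View (Fin (2 ^ m)) (Fin (b + 1)) a × (Fin k → Fin (2 * 16 ^ m)))

/-- the colour of level `(a, m)` -/
noncomputable def cmC (po : T → ℝ) (py : T → Fin k → ℝ) (a m : ℕ)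
    (ξ : Conf (b + 1) (Fin (b + 1) × T)) : CA b k a m :=
  (lb ξ, (vview a (mapC (fun t => oq m (po t)) ξ), fun κ => yq m (py (dt ξ) κ)))

/-- σ-algebra of the environment: labels and potential -/
def EnvC (b : ℕ) (po : T → ℝ) : MeasurableSpace (Conf (b + 1) (Fin (b + 1) × T)) :=
  MeasurableSpace.comap (fun ξ => fun w : TW (b + 1) => ((ξ w).1, po (ξ w).2))
    (inferInstance : MeasurableSpace (TW (b + 1) → Fin (b + 1) × ℝ))

/-- σ-algebra of the values at a vertex `x ξ` -/
def valC (py : T → Fin k → ℝ)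
    (x : Conf (b + 1) (Fin (b + 1) × T) → Conf (b + 1) (Fin (b + 1) × T)) :
    MeasurableSpace (Conf (b + 1) (Fin (b + 1) × T)) :=
  MeasurableSpace.comap (fun ξ => py (dt (x ξ))) inferInstance

section refine

variable {po : T → ℝ} {py : T → Fin k → ℝ}

theorem cmC_ref {a a' m m' : ℕ} (ha : a ≤ a') (hm : m ≤ m')
    (ξ ξ' : Conf (b + 1) (Fin (b + 1) × T)) (h : cmC po py a' m' ξ = cmC po py a' m' ξ') :
    cmC po py a m ξ = cmC po py a m ξ' := by
  simp only [cmC, Prod.mk.injEq] at h ⊢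
  obtain ⟨h1, h2, h3⟩ := h
  refine ⟨h1, ?_, ?_⟩
  · exact vview_ref ha _ (fun t => oq m' (po t)) (fun x x' hx => refQ_o.ref_le hm _ _ hx) h1 h2
  · funext κ
    exact refQ_y.ref_le hm _ _ (congrFun h3 κ)

theorem cmC_rot (a m : ℕ) (ξ ξ' : Conf (b + 1) (Fin (b + 1) × T)) :
    cmC po py a m (rotn 1 ξ) = cmC po py a m (rotn 1 ξ') ↔ cmC po py a m ξ = cmC po py a m ξ' := by
  simp only [cmC, Prod.mk.injEq, lb_rotn, mapC_rotn, vview_rotn, dt_rotn, add_left_inj]

theorem FM_cmC [MeasurableSpace T] (hpo : Measurable po) (hpy : Measurable py) (a m : ℕ) :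
    FM (cmC po py a m : Conf (b + 1) (Fin (b + 1) × T) → CA b k a m) := by
  refine FM.pair FM_lb (FM.pair ?_ ?_)
  · exact FM_vview a ((refQ_o.fm m).comp_right hpo)
  · refine FM.pi fun κ => ?_
    exact (refQ_y.fm m).comp_right ((measurable_pi_apply κ).comp (hpy.comp measurable_dt))

end refine

section sigma

variable {po : T → ℝ} {py : T → Fin k → ℝ}

theorem measurable_EnvC (w : TW (b + 1)) :
    Measurable[EnvC b po] fun ξ : Conf (b + 1) (Fin (b + 1) × T) => ((ξ w).1, po (ξ w).2) := by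
  have h1 : Measurable[EnvC b po] fun ξ : Conf (b + 1) (Fin (b + 1) × T) =>
      fun w : TW (b + 1) => ((ξ w).1, po (ξ w).2) := comap_measurable _
  exact (measurable_pi_apply w).comp h1


/-- a σ-algebra contains the environment as soon as it contains all labels and potentials -/
theorem EnvC_le_of {M : MeasurableSpace (Conf (b + 1) (Fin (b + 1) × T))}
    (h1 : ∀ w : TW (b + 1), Measurable[M] fun ξ => (ξ w).1)
    (h2 : ∀ w : TW (b + 1), Measurable[M] fun ξ => po (ξ w).2) : EnvC b po ≤ M := by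
  rw [EnvC, ← measurable_iff_comap_le]
  exact measurable_pi_lambda _ fun w => (h1 w).prodMk (h2 w)

/-- labels are measurable w.r.t. a colour with a deep view -/
theorem label_sg (a m : ℕ) (w : TW (b + 1)) (hw : w.len ≤ a) :
    Measurable[sg (cmC po py a m)] fun ξ : Conf (b + 1) (Fin (b + 1) × T) => (ξ w).1 := by
  have h : (fun ξ : Conf (b + 1) (Fin (b + 1) × T) => (ξ w).1) =
      (fun x : CA b k a m => (nav a x.1 x.2.1 w.1).1) ∘ cmC po py a m := by
    funext ξ
    simp only [Function.comp, cmC]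
    have := nav_vview_TW a w hw (mapC (fun t => oq m (po t)) ξ)
    rw [lb_mapC] at this
    rw [this]
    rfl
  rw [h]
  exact @Measurable.comp _ _ _ (sg (cmC po py a m)) ⊤ _ _ _ (fun _ _ => trivial)
    (comap_measurable _)

theorem pot_sg (a m : ℕ) (w : TW (b + 1)) (hw : w.len ≤ a) :
    ∀ B : Set (Conf (b + 1) (Fin (b + 1) × T)),
      (∃ s : Set (Fin (2 ^ m)), B = (fun ξ => oq m (po (ξ w).2)) ⁻¹' s) →
      MeasurableSet[sg (cmC po py a m)] B := by
  rintro B ⟨s, rfl⟩
  have h : (fun ξ : Conf (b + 1) (Fin (b + 1) × T) => oq m (po (ξ w).2)) =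
      (fun x : CA b k a m => (nav a x.1 x.2.1 w.1).2) ∘ cmC po py a m := by
    funext ξ
    simp only [Function.comp, cmC]
    have := nav_vview_TW a w hw (mapC (fun t => oq m (po t)) ξ)
    rw [lb_mapC] at this
    rw [this]
    rfl
  rw [h, Set.preimage_comp]
  exact ⟨_, trivial, rfl⟩

/-- the environment is contained in the limit of the colour σ-algebras -/
theorem EnvC_le_iSup (hpo1 : ∀ t, po t ∈ Set.Icc (-1 : ℝ) 1) {a : ℕ → ℕ}
    (ha : Tendsto a atTop atTop) {M : MeasurableSpace (Conf (b + 1) (Fin (b + 1) × T))}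
    (hM : ∀ m, sg (cmC po py (a m) m) ≤ M) : EnvC b po ≤ M := by
  refine EnvC_le_of (fun w => ?_) (fun w => ?_)
  · obtain ⟨m, hm⟩ := (ha.eventually (eventually_ge_atTop w.len)).exists
    exact (label_sg (a m) m w hm).mono (hM m) le_rfl
  · obtain ⟨m0, hm0⟩ := eventually_atTop.1 (ha.eventually (eventually_ge_atTop w.len))
    refine @RefQ.measurable _ _ _ _ _ refQ_o _ M (fun ξ => po (ξ w).2) (fun ξ => hpo1 _) m0 ?_
    intro m hm i
    exact hM m _ (pot_sg (a m) m w (hm0 m hm) _ ⟨{i}, rfl⟩)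

/-- the colour is measurable w.r.t. the environment and the value at the root -/
theorem sg_cmC_le (a m : ℕ) : sg (cmC po py a m) ≤ EnvC b po ⊔ valC (b := b) py id := by
  set M : MeasurableSpace (Conf (b + 1) (Fin (b + 1) × T)) := EnvC b po ⊔ valC (b := b) py id
    with hM
  have hE : EnvC b po ≤ M := le_sup_left
  have hV : valC (b := b) py id ≤ M := le_sup_right
  have h1 : @FM _ M _ (lb : Conf (b + 1) (Fin (b + 1) × T) → Fin (b + 1)) := by
    intro i
    have h := (measurable_EnvC (po := po) (TW.nil : TW (b + 1))).fst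
    exact hE _ (h (measurableSet_singleton i))
  have h2 : @FM _ M _ fun ξ : Conf (b + 1) (Fin (b + 1) × T) =>
      vview a (mapC (fun t => oq m (po t)) ξ) := by
    have h3 : (fun ξ : Conf (b + 1) (Fin (b + 1) × T) => vview a (mapC (fun t => oq m (po t)) ξ)) =
        (fun ζ : Conf (b + 1) (Fin (b + 1) × ℝ) => vview a (mapC (oq m) ζ)) ∘
        (fun ξ => fun w : TW (b + 1) => ((ξ w).1, po (ξ w).2)) := rfl
    intro x
    rw [h3, Set.preimage_comp]
    exact hE _ ⟨_, FM_vview a (refQ_o.fm m) x, rfl⟩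
  have h3 : @FM _ M _ fun ξ : Conf (b + 1) (Fin (b + 1) × T) =>
      fun κ => yq m (py (dt ξ) κ) := by
    refine @FM.pi _ M _ _ _ _ fun κ => ?_
    intro i
    refine hV _ ⟨(fun y : Fin k → ℝ => yq m (y κ)) ⁻¹' {i}, ?_, rfl⟩
    exact ((refQ_y.fm m).comp_right (measurable_pi_apply κ)) i
  exact @sg_le _ M _ _ _ (@FM.pair _ M _ _ _ _ h1 (@FM.pair _ M _ _ _ _ h2 h3))

/-- the value at the root is contained in the limit -/
theorem valC_le_iSup {a : ℕ → ℕ} (x : Conf (b + 1) (Fin (b + 1) × T) → Conf (b + 1) (Fin (b + 1) × T))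
    {M : MeasurableSpace (Conf (b + 1) (Fin (b + 1) × T))}
    (hM : ∀ m, sg (fun ξ => cmC po py (a m) m (x ξ)) ≤ M) : valC (b := b) py x ≤ M := by
  rw [valC, ← measurable_iff_comap_le]
  refine measurable_pi_lambda _ fun κ => ?_
  refine @RefQ.measurable _ _ _ _ _ refQ_y _ M (fun ξ => py (dt (x ξ)) κ) (fun ξ => trivial) 0 ?_
  intro m _ i
  refine hM m _ ⟨{c | c.2.2 κ = i}, trivial, ?_⟩
  rfl

end sigma

end Crest.Agent.R166.CMI47
end

-- ▼ part R166/CMI2_47
section

/-!
Row 166, section 40.10 (helper47): final statement at fixed `η`.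
-/

set_option autoImplicit false

namespace Crest.Agent.R166.CMI47

open MeasureTheory Filter Topology Crest.Agent.R166.Words955 Crest.Agent.R166.Upp724
  Crest.Agent.R166.EntTree397 Crest.Agent.R166.Ent397 Crest.Agent.R166.Lim47
  Crest.Agent.R166.View47 Crest.Agent.R166.Lev47

variable {b k : ℕ} {T : Type}

section sigma2

variable {po : T → ℝ} {py : T → Fin k → ℝ}

/-- the environment and the two values at the root edge -/
def Ced (b : ℕ) (po : T → ℝ) (py : T → Fin k → ℝ) :
    MeasurableSpace (Conf (b + 1) (Fin (b + 1) × T)) :=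
  EnvC b po ⊔ (valC (b := b) py id ⊔ valC (b := b) py cross)

/-- the values at the outward words of length at most `R`, seen from `x` -/
def sideC (py : T → Fin k → ℝ)
    (x : Conf (b + 1) (Fin (b + 1) × T) → Conf (b + 1) (Fin (b + 1) × T)) (R : ℕ) :
    MeasurableSpace (Conf (b + 1) (Fin (b + 1) × T)) :=
  ⨆ w : {w : List ℕ // B2.OutW (b + 1) w ∧ w.length ≤ R},
    valC (b := b) py fun ξ => B2.wd cross (rotn 1) w.1 (x ξ)

theorem comap_cross_EnvC : MeasurableSpace.comap cross (EnvC b po) ≤ EnvC b po := by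
  have h1 : Measurable[EnvC b po] ((fun ξ : Conf (b + 1) (Fin (b + 1) × T) =>
      fun w : TW (b + 1) => ((ξ w).1, po (ξ w).2)) ∘ cross) :=
    @measurable_pi_lambda _ _ _ (EnvC b po) _ _ fun w => measurable_EnvC (po := po) (TW.cr w)
  rw [measurable_iff_comap_le, ← MeasurableSpace.comap_comp] at h1
  exact h1

theorem sg_pair_le {Ω : Type*} {α β : Type*} [Fintype α] [Fintype β] {M : MeasurableSpace Ω}
    {X : Ω → α} {Y : Ω → β} (hX : sg X ≤ M) (hY : sg Y ≤ M) : sg (fun ω => (X ω, Y ω)) ≤ M := by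
  refine @sg_le _ M _ _ _ (@FM.pair _ M _ _ _ _ ?_ ?_)
  · intro i; exact hX _ ⟨{i}, trivial, rfl⟩
  · intro i; exact hY _ ⟨{i}, trivial, rfl⟩

theorem sg_edge_le (a m : ℕ) :
    sg (fun ξ : Conf (b + 1) (Fin (b + 1) × T) => (cmC po py a m ξ, cmC po py a m (cross ξ))) ≤
      Ced b po py := by
  refine sg_pair_le ?_ ?_
  · refine (sg_cmC_le a m).trans ?_
    exact sup_le_sup_left le_sup_left _
  · have h1 : sg (fun ξ : Conf (b + 1) (Fin (b + 1) × T) => cmC po py a m (cross ξ)) =
        MeasurableSpace.comap cross (sg (cmC po py a m)) := by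
      rw [sg, sg, MeasurableSpace.comap_comp]; rfl
    rw [h1]
    refine (MeasurableSpace.comap_mono (sg_cmC_le a m)).trans ?_
    rw [MeasurableSpace.comap_sup]
    refine sup_le_sup comap_cross_EnvC ?_
    have h2 : MeasurableSpace.comap cross (valC (b := b) py id) = valC (b := b) py cross := by
      rw [valC, valC, MeasurableSpace.comap_comp]; rfl
    rw [h2]
    exact le_sup_right

end sigma2

section final

variable [MeasurableSpace T] {po : T → ℝ} {py : T → Fin k → ℝ}

/-- the discrete conditional mutual information of the two sides at level `(a, m)` -/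
noncomputable def cmi (P : Measure (Conf (b + 1) (Fin (b + 1) × T))) (po : T → ℝ)
    (py : T → Fin k → ℝ) (R a m : ℕ) : ℝ :=
  condMI P (fun ξ => (S (cmC po py a m) cross (rotn 1) R ξ : ST (CA b k a m) b R))
    (fun ξ => (S (cmC po py a m) cross (rotn 1) R (cross ξ) : ST (CA b k a m) b R))
    (fun ξ => (cmC po py a m ξ, cmC po py a m (cross ξ)))

theorem stat_cmC {P : Measure (Conf (b + 1) (Fin (b + 1) × T))} (hP : Inv P)
    (hpo : Measurable po) (hpy : Measurable py) (a m : ℕ) :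
    Stat P b (cmC po py a m) cross (rotn 1) :=
  EntBridge397.stat_conf hP measurable_rs (FM_cmC hpo hpy a m) (cmC_rot a m)

/-- approximate conditional independence at level `(a, m)` -/
theorem approxCI_level {P : Measure (Conf (b + 1) (Fin (b + 1) × T))} [IsProbabilityMeasure P]
    (hP : Inv P) (hpo : Measurable po) (hpy : Measurable py) (R a m : ℕ) :
    ApproxCI P
      (sg fun ξ => ((S (cmC po py a m) cross (rotn 1) R ξ : ST (CA b k a m) b R),
        (cmC po py a m ξ, cmC po py a m (cross ξ))))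
      (sg fun ξ => ((S (cmC po py a m) cross (rotn 1) R (cross ξ) : ST (CA b k a m) b R),
        (cmC po py a m ξ, cmC po py a m (cross ξ))))
      (sg fun ξ => (cmC po py a m ξ, cmC po py a m (cross ξ)))
      (2 * Real.sqrt (cmi P po py R a m)) := by
  have hs := stat_cmC hP hpo hpy a m
  have hX := hs.fmS R
  have hY := hs.fmSπ R
  have hc := hs.fm
  have hcc : FM fun ξ => cmC po py a m (cross ξ) := hs.fm.comp_right hs.mpπ.measurable
  have hZ := hc.pair hcc
  refine approxCI_of_condMI (hX.pair hZ) (hY.pair hZ) hZ ?_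
  have h1 := condMI_mono_left P hX (hX.pair hZ) (hY.pair hZ) hZ fun ω ω' e1 e2 => by
    rw [Prod.mk.injEq]; exact ⟨e1, e2⟩
  have h2 := condMI_mono_right P hX hY (hY.pair hZ) hZ fun ω ω' e1 e2 => by
    rw [Prod.mk.injEq]; exact ⟨e1, e2⟩
  exact h1.trans h2

/-- the entropy hypothesis: output of the counting argument (T) + (U) at fixed `η` -/
def EntHyp (P : Measure (Conf (b + 1) (Fin (b + 1) × T))) (po : T → ℝ)
    (py : T → Fin k → ℝ) (R : ℕ) (B : ℝ) : Prop :=
  ∀ e : ℝ, 0 < e → ∃ᶠ m : ℕ in atTop, ∃ a0 : ℕ, ∀ a : ℕ, a0 ≤ a →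
    EntTree397.Psi P b (cmC po py a m) cross (rotn 1) 0 -
      EntTree397.Psi P b (cmC po py a m) cross (rotn 1) R ≤ B + e

theorem exists_radii {P : Measure (Conf (b + 1) (Fin (b + 1) × T))} {R : ℕ} {B : ℝ}
    (hB : EntHyp P po py R B) : ∃ a : ℕ → ℕ, Monotone a ∧ (∀ m, m ≤ a m) ∧
      ∀ e : ℝ, 0 < e → ∃ᶠ m : ℕ in atTop,
        EntTree397.Psi P b (cmC po py (a m) m) cross (rotn 1) 0 -
          EntTree397.Psi P b (cmC po py (a m) m) cross (rotn 1) R ≤ B + e := by
  classical
  set a0 : ℕ → ℕ → ℕ := fun m j => if h : ∃ a0 : ℕ, ∀ a : ℕ, a0 ≤ a →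
    EntTree397.Psi P b (cmC po py a m) cross (rotn 1) 0 -
      EntTree397.Psi P b (cmC po py a m) cross (rotn 1) R ≤ B + 1 / ((j : ℝ) + 1) then h.choose
      else 0 with ha0
  set a : ℕ → ℕ := fun m => m + ∑ i ∈ Finset.range (m + 1), ∑ j ∈ Finset.range (i + 1), a0 i j
    with ha
  have hmono : Monotone a := by
    refine monotone_nat_of_le_succ fun m => ?_
    simp only [ha]
    have h1 : ∑ i ∈ Finset.range (m + 1), ∑ j ∈ Finset.range (i + 1), a0 i j ≤
        ∑ i ∈ Finset.range (m + 1 + 1), ∑ j ∈ Finset.range (i + 1), a0 i j :=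
      Finset.sum_le_sum_of_subset (Finset.range_mono (by omega))
    omega
  have hge : ∀ m j, j ≤ m → a0 m j ≤ a m := by
    intro m j hj
    have h1 : a0 m j ≤ ∑ j ∈ Finset.range (m + 1), a0 m j :=
      Finset.single_le_sum (f := fun j => a0 m j) (fun _ _ => Nat.zero_le _)
        (Finset.mem_range.2 (by omega))
    have h2 : ∑ j ∈ Finset.range (m + 1), a0 m j ≤
        ∑ i ∈ Finset.range (m + 1), ∑ j ∈ Finset.range (i + 1), a0 i j :=
      Finset.single_le_sum (f := fun i => ∑ j ∈ Finset.range (i + 1), a0 i j)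
        (fun _ _ => Nat.zero_le _) (Finset.mem_range.2 (by omega))
    simp only [ha]
    omega
  refine ⟨a, hmono, fun m => by simp only [ha]; omega, fun e he => ?_⟩
  obtain ⟨j, hj⟩ := exists_nat_one_div_lt he
  have h1 := hB (1 / ((j : ℝ) + 1)) (by positivity)
  refine (h1.and_eventually (eventually_ge_atTop j)).mono fun m hm => ?_
  obtain ⟨h2, h3⟩ := hm
  have h4 : a0 m j = h2.choose := by simp only [ha0]; rw [dif_pos h2]
  have h5 := h2.choose_spec (a m) (by rw [← h4]; exact hge m j h3)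
  linarith

/-- **Output at fixed `η`.** -/
theorem approxCI_fixed {P : Measure (Conf (b + 1) (Fin (b + 1) × T))} [IsProbabilityMeasure P]
    (hP : Inv P) (hpo : Measurable po) (hpo1 : ∀ t, po t ∈ Set.Icc (-1 : ℝ) 1)
    (hpy : Measurable py) (R : ℕ) (B : ℝ) (hB : EntHyp P po py R B) :
    ApproxCI P (sideC (b := b) py id R ⊔ Ced b po py) (sideC (b := b) py cross R ⊔ Ced b po py)
      (Ced b po py) (2 * Real.sqrt (2 * sR b R * B)) := by
  obtain ⟨a, hmono, hma, hfreq⟩ := exists_radii hB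
  have hat : Tendsto a atTop atTop := tendsto_atTop_mono hma tendsto_id
  -- the three sequences of σ-algebras
  set A : ℕ → MeasurableSpace (Conf (b + 1) (Fin (b + 1) × T)) := fun m =>
    sg fun ξ => ((S (cmC po py (a m) m) cross (rotn 1) R ξ : ST (CA b k (a m) m) b R),
        (cmC po py (a m) m ξ, cmC po py (a m) m (cross ξ))) with hA
  set A' : ℕ → MeasurableSpace (Conf (b + 1) (Fin (b + 1) × T)) := fun m =>
    sg fun ξ => ((S (cmC po py (a m) m) cross (rotn 1) R (cross ξ) : ST (CA b k (a m) m) b R),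
        (cmC po py (a m) m ξ, cmC po py (a m) m (cross ξ))) with hA'
  set C : ℕ → MeasurableSpace (Conf (b + 1) (Fin (b + 1) × T)) := fun m =>
    sg fun ξ => (cmC po py (a m) m ξ, cmC po py (a m) m (cross ξ)) with hC
  have href : ∀ {m m' : ℕ}, m ≤ m' → ∀ ξ ξ' : Conf (b + 1) (Fin (b + 1) × T),
      cmC po py (a m') m' ξ = cmC po py (a m') m' ξ' → cmC po py (a m) m ξ = cmC po py (a m) m ξ' :=
    fun hm ξ ξ' h => cmC_ref (hmono hm) hm ξ ξ' h
  have hstat := fun m => stat_cmC (P := P) hP hpo hpy (a m) m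
  have hfmc : ∀ m, FM (cmC po py (a m) m : Conf (b + 1) (Fin (b + 1) × T) → CA b k (a m) m) :=
    fun m => FM_cmC hpo hpy (a m) m
  have hfmcc : ∀ m, FM fun ξ : Conf (b + 1) (Fin (b + 1) × T) => cmC po py (a m) m (cross ξ) :=
    fun m => (hfmc m).comp_right measurable_cross
  have hAm : Monotone A := fun m m' hm => sg_mono_of_det fun ξ ξ' h => by
    rw [Prod.mk.injEq, Prod.mk.injEq] at h ⊢
    exact ⟨S_ref (href hm) R _ _ h.1, href hm _ _ h.2.1, href hm _ _ h.2.2⟩
  have hA'm : Monotone A' := fun m m' hm => sg_mono_of_det fun ξ ξ' h => by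
    rw [Prod.mk.injEq, Prod.mk.injEq] at h ⊢
    exact ⟨S_ref (href hm) R _ _ h.1, href hm _ _ h.2.1, href hm _ _ h.2.2⟩
  have hCm : Monotone C := fun m m' hm => sg_mono_of_det fun ξ ξ' h => by
    rw [Prod.mk.injEq] at h ⊢
    exact ⟨href hm _ _ h.1, href hm _ _ h.2⟩
  have hA0 : ∀ m, A m ≤ (inferInstance : MeasurableSpace (Conf (b + 1) (Fin (b + 1) × T))) :=
    fun m => sg_le (((hstat m).fmS R).pair ((hfmc m).pair (hfmcc m)))
  have hA'0 : ∀ m, A' m ≤ (inferInstance : MeasurableSpace (Conf (b + 1) (Fin (b + 1) × T))) :=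
    fun m => sg_le (((hstat m).fmSπ R).pair ((hfmc m).pair (hfmcc m)))
  have hC0 : ∀ m, C m ≤ (inferInstance : MeasurableSpace (Conf (b + 1) (Fin (b + 1) × T))) :=
    fun m => sg_le ((hfmc m).pair (hfmcc m))
  have key := levy_pass (P := P) A A' C hAm hA'm hCm hA0 hA'0 hC0
    (fun m => 2 * Real.sqrt (cmi P po py R (a m) m)) (2 * Real.sqrt (2 * sR b R * B)) ?_
    (fun m => approxCI_level hP hpo hpy R (a m) m)
  · -- identify the limits
    have hcC : ∀ m, sg (cmC po py (a m) m) ≤ ⨆ n, C n := fun m =>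
      (sg_mono_of_det fun ξ ξ' h => ((Prod.mk.injEq _ _ _ _).mp h).1).trans (le_iSup C m)
    have hccC : ∀ m, sg (fun ξ => cmC po py (a m) m (cross ξ)) ≤ ⨆ n, C n := fun m =>
      (sg_mono_of_det fun ξ ξ' h => ((Prod.mk.injEq _ _ _ _).mp h).2).trans (le_iSup C m)
    have hCeq : (⨆ n, C n) = Ced b po py := by
      apply le_antisymm
      · exact iSup_le fun m => sg_edge_le (a m) m
      · refine sup_le (EnvC_le_iSup (py := py) hpo1 hat hcC) (sup_le ?_ ?_)
        · exact valC_le_iSup (po := po) id hcC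
        · exact valC_le_iSup (po := po) cross hccC
    have hCA : (⨆ n, C n) ≤ ⨆ n, A n := iSup_mono fun m =>
      sg_mono_of_det fun ξ ξ' h => ((Prod.mk.injEq _ _ _ _).mp h).2
    have hCA' : (⨆ n, C n) ≤ ⨆ n, A' n := iSup_mono fun m =>
      sg_mono_of_det fun ξ ξ' h => ((Prod.mk.injEq _ _ _ _).mp h).2
    rw [hCeq] at key hCA hCA'
    refine key.mono (sup_le ?_ hCA) (sup_le ?_ hCA') le_rfl
    · refine iSup_le fun w => valC_le_iSup (po := po) (a := a) _ fun m => ?_
      refine le_trans ?_ (le_iSup A m)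
      refine sg_mono_of_det fun ξ ξ' h => ?_
      exact S_wd w.1 w.2.1 R w.2.2 _ _ ((Prod.mk.injEq _ _ _ _).mp h).1
    · refine iSup_le fun w => valC_le_iSup (po := po) (a := a) _ fun m => ?_
      refine le_trans ?_ (le_iSup A' m)
      refine sg_mono_of_det fun ξ ξ' h => ?_
      exact S_wd w.1 w.2.1 R w.2.2 _ _ ((Prod.mk.injEq _ _ _ _).mp h).1
  · -- the errors
    intro e he
    have hcont : Tendsto (fun t : ℝ => 2 * Real.sqrt (2 * sR b R * (B + t))) (𝓝[>] 0)
        (𝓝 (2 * Real.sqrt (2 * sR b R * B))) := by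
      have h1 : Continuous fun t : ℝ => 2 * Real.sqrt (2 * sR b R * (B + t)) := by fun_prop
      have h2 := (h1.tendsto 0).mono_left (nhdsWithin_le_nhds (s := Set.Ioi (0 : ℝ)))
      simpa using h2
    have hev := hcont.eventually (gt_mem_nhds (show 2 * Real.sqrt (2 * sR b R * B) <
      2 * Real.sqrt (2 * sR b R * B) + e by linarith))
    obtain ⟨t, ht, htpos⟩ := (hev.and self_mem_nhdsWithin).exists
    refine (hfreq t htpos).mono fun m hm => ?_
    have h1 := condMI_le (hstat m) R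
    have h2 : cmi P po py R (a m) m ≤ 2 * sR b R * (B + t) :=
      h1.trans (mul_le_mul_of_nonneg_left hm (mul_nonneg (by norm_num) (sR_nonneg b R)))
    have h3 := Real.sqrt_le_sqrt h2
    show 2 * Real.sqrt (cmi P po py R (a m) m) ≤ _
    linarith

end final

end Crest.Agent.R166.CMI47
end

-- ▼ part R166/PsiBridge2_397

/-!
Row 166, sections 40.8-40.10 (helper397): the entropy hypothesis `CMI47.EntHyp` from the limits
(T) + (U) in the form `SpecB1.PsiDiff`.
-/

set_option autoImplicit false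

namespace Crest.Agent.R166.PsiBridge397

open MeasureTheory Filter Crest.Agent.R166.Ent397 Crest.Agent.R166.EntTree397
  Crest.Agent.R166.Words955 Crest.Agent.R166.View47 Crest.Agent.R166.CMI47

/-- the potential -/
def poS (k : ℕ) : ℝ × (Fin k → ℝ) × (Fin k → ℝ) → ℝ := fun u => u.1

/-- the noised values -/
noncomputable def pyS (k : ℕ) (t : ℝ) : ℝ × (Fin k → ℝ) × (Fin k → ℝ) → Fin k → ℝ :=
  fun u i => u.2.1 i + Real.sqrt t * u.2.2 i

theorem measurable_poS (k : ℕ) : Measurable (poS k) := measurable_fst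

theorem measurable_pyS (k : ℕ) (t : ℝ) : Measurable (pyS k t) := by
  refine measurable_pi_lambda _ fun i => ?_
  exact ((measurable_pi_apply i).comp (measurable_fst.comp measurable_snd)).add
    (((measurable_pi_apply i).comp (measurable_snd.comp measurable_snd)).const_mul _)

section Gcol

variable {d k : ℕ} [NeZero d] {t : ℝ} {a m : ℕ}

theorem gcol_rotn (j : Fin d) (ζ : Conf d (SpecB1.S2 d k)) :
    SpecB1.gcol d k t a m (rotn j ζ) = SpecB1.gcol d k t a m ζ := by
  unfold SpecB1.gcol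
  have h1 : ((rotn j ζ : Conf d (SpecB1.S2 d k)) TW.nil).2 = (ζ TW.nil).2 := dt_rotn j ζ
  rw [mapC_rotn, vview_rotn, h1]

theorem FM_gcol : FM (SpecB1.gcol d k t a m) := by
  refine FM.pair ?_ ?_
  · exact FM_vview a ((Lev47.refQ_o.fm m).comp_right (measurable_poS k))
  · refine FM.pi fun κ => ?_
    exact (Lev47.refQ_y.fm m).comp_right
      ((measurable_pi_apply κ).comp ((measurable_pyS k t).comp measurable_dt))

/-- `SpecB1.PsiL` is `EntTree397.Psi - log d` -/
theorem PsiL_eq {Q : Measure (Conf d (SpecB1.S2 d k))} [IsProbabilityMeasure Q] (hQ : Inv Q)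
    (R : ℕ) : EntTree397.Psi Q (d - 1) (fun ζ => (View47.lb ζ, SpecB1.gcol d k t a m ζ))
      cross (rotn 1) R = Real.log d + SpecB1.PsiL t Q a m R := by
  rw [Psi_conf hQ FM_gcol gcol_rotn R]
  unfold SpecB1.PsiL
  congr

end Gcol


theorem Psi_cmC {b k : ℕ} {t : ℝ} {a m : ℕ} {Q : Measure (Conf (b + 1) (SpecB1.S2 (b + 1) k))}
    [IsProbabilityMeasure Q] (hQ : Inv Q) (R : ℕ) :
    EntTree397.Psi Q b (cmC (poS k) (pyS k t) a m) cross (rotn 1) R =
      Real.log ((b + 1 : ℕ) : ℝ) + SpecB1.PsiL t Q a m R := by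
  have h := PsiL_eq (t := t) (a := a) (m := m) hQ R
  exact h

/-- `EntHyp` from the weak form of `PsiDiff` -/
theorem entHyp_of_weak {b k : ℕ} {t B : ℝ} {R : ℕ}
    {Q : Measure (Conf (b + 1) (SpecB1.S2 (b + 1) k))}
    [IsProbabilityMeasure Q] (hQ : Inv Q)
    (h : ∀ ε : ℝ, 0 < ε → ∃ᶠ m : ℕ in atTop, ∃ a0 : ℕ, ∀ a : ℕ, a0 ≤ a →
      SpecB1.PsiL t Q a m 0 - SpecB1.PsiL t Q a m R ≤ B + ε) :
    EntHyp Q (poS k) (pyS k t) R B := by
  intro e he
  refine (h e he).mono fun m hm => ?_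
  obtain ⟨a0, ha0⟩ := hm
  refine ⟨a0, fun a ha => ?_⟩
  rw [Psi_cmC hQ, Psi_cmC hQ]
  have := ha0 a ha
  linarith

/-- `EntHyp` from `PsiDiff` -/
theorem entHyp_of_psiDiff {b k : ℕ} {t q : ℝ} (R : ℕ)
    {Q : Measure (Conf (b + 1) (SpecB1.S2 (b + 1) k))}
    [IsProbabilityMeasure Q] (hQ : Inv Q) (h : SpecB1.PsiDiff t q Q) :
    EntHyp Q (poS k) (pyS k t) R ((k : ℝ) / 2 * Real.log (q / t)) := by
  refine entHyp_of_weak hQ fun ε hε => ?_
  obtain ⟨a0, m0, h1⟩ := h ε hε
  refine Eventually.frequently ?_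
  filter_upwards [eventually_ge_atTop m0] with m hm
  exact ⟨a0, fun a ha => h1 a m ha hm R⟩

/-! ### Clipped potential -/

/-- the potential truncated to `[-1, 1]` (same formula as `TreeG879.clip`) -/
def poC (k : ℕ) : ℝ × (Fin k → ℝ) × (Fin k → ℝ) → ℝ := fun u => max (-1) (min 1 u.1)

theorem measurable_poC (k : ℕ) : Measurable (poC k) :=
  measurable_const.max (measurable_const.min measurable_fst)

theorem poC_mem (k : ℕ) (u : ℝ × (Fin k → ℝ) × (Fin k → ℝ)) : poC k u ∈ Set.Icc (-1 : ℝ) 1 :=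
  ⟨le_max_left _ _, max_le (by norm_num) (min_le_left _ _)⟩

/-- the cells of the potential do not see the truncation -/
theorem oq_clip (m : ℕ) (x : ℝ) : Lev47.oq m (max (-1) (min 1 x)) = Lev47.oq m x := by
  apply Fin.ext
  rw [Lev47.oq_val, Lev47.oq_val]
  have hP : (0 : ℝ) < 2 ^ m := by positivity
  rcases lt_or_ge x (-1) with h | h
  · have h1 : max (-1) (min 1 x) = -1 := by
      rw [min_eq_right (by linarith), max_eq_left h.le]
    have h2 : ⌊(x + 1) / 2 * 2 ^ m⌋ ≤ 0 := by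
      refine Int.floor_nonpos ?_
      have : (x + 1) / 2 < 0 := by linarith
      nlinarith
    rw [h1, Int.toNat_of_nonpos h2]
    simp
  · rcases le_or_gt x 1 with h' | h'
    · rw [min_eq_right h', max_eq_right h]
    · have h1 : max (-1) (min 1 x) = 1 := by
        rw [min_eq_left h'.le, max_eq_right (by norm_num)]
      have h2 : ((2 ^ m : ℕ) : ℤ) ≤ ⌊(x + 1) / 2 * 2 ^ m⌋ := by
        rw [Int.le_floor]
        push_cast
        nlinarith
      have h3 : ⌊((1 : ℝ) + 1) / 2 * 2 ^ m⌋ = ((2 ^ m : ℕ) : ℤ) := by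
        have : ((1 : ℝ) + 1) / 2 * 2 ^ m = (((2 ^ m : ℕ) : ℤ) : ℝ) := by push_cast; ring
        rw [this, Int.floor_intCast]
      rw [h1, h3]
      have h4 : 2 ^ m ≤ (⌊(x + 1) / 2 * 2 ^ m⌋).toNat := by omega
      rw [Int.toNat_natCast, min_eq_left (Nat.sub_le _ _), min_eq_left ((Nat.sub_le _ _).trans h4)]

theorem cmC_clip (b k : ℕ) (t : ℝ) (a m : ℕ) :
    (cmC (poC k) (pyS k t) a m : Conf (b + 1) (SpecB1.S2 (b + 1) k) → CA b k a m) =
      cmC (poS k) (pyS k t) a m := by
  funext ξ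
  unfold cmC
  have h1 : (fun u : ℝ × (Fin k → ℝ) × (Fin k → ℝ) => Lev47.oq m (poC k u)) =
      fun u => Lev47.oq m (poS k u) := funext fun u => oq_clip m u.1
  rw [h1]

theorem entHyp_clip {b k : ℕ} {t B : ℝ} {R : ℕ}
    {Q : Measure (Conf (b + 1) (SpecB1.S2 (b + 1) k))} (h : EntHyp Q (poS k) (pyS k t) R B) :
    EntHyp Q (poC k) (pyS k t) R B := by
  intro e he
  refine (h e he).mono fun m hm => ?_
  obtain ⟨a0, ha0⟩ := hm
  refine ⟨a0, fun a ha => ?_⟩
  rw [cmC_clip]
  exact ha0 a ha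

/-- **the output of 40.6-40.10 at fixed `η`**, in terms of `PsiDiff`: the two sides of the root
edge are approximately independent given the environment and the two values at the edge -/
theorem approxCI_of_psiDiff {b k : ℕ} {t q : ℝ} (R : ℕ)
    {Q : Measure (Conf (b + 1) (SpecB1.S2 (b + 1) k))}
    [IsProbabilityMeasure Q] (hQ : Inv Q) (h : SpecB1.PsiDiff t q Q) :
    Lim47.ApproxCI Q (sideC (b := b) (pyS k t) id R ⊔ Ced b (poC k) (pyS k t))
      (sideC (b := b) (pyS k t) cross R ⊔ Ced b (poC k) (pyS k t))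
      (Ced b (poC k) (pyS k t))
      (2 * Real.sqrt (2 * sR b R * ((k : ℝ) / 2 * Real.log (q / t)))) :=
  approxCI_fixed hQ (measurable_poC k) (poC_mem k) (measurable_pyS k t) R _
    (entHyp_clip (entHyp_of_psiDiff R hQ h))


end Crest.Agent.R166.PsiBridge397
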