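import Mathlib
import Crest.Agent.R166.NoiseLim5_849
import Crest.Agent.R166.LimA_793

/-!
Row 166, section 40.10 (helper955): the law of `(label, ω, X, Z)` with `Z` Gaussian given
`(label, ω, X)`.

* `NLaw P Γ Q` : `Q` has `(label, ω, X)`-marginal `P` and `Z` is a Gaussian field with covariance
  `Γ ⊗ I_k` given `(label, ω, X)`;
* `NLaw.of_continuous` : it suffices to test with continuous functions;
* `exists_limit_law` : limits of such laws when `Γ_n → Γ` almost everywhere.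
-/

set_option autoImplicit false
set_option linter.unusedSectionVars false
set_option linter.unusedVariables false

noncomputable section

namespace Crest.Agent.R166.Q0_955

open MeasureTheory ProbabilityTheory Filter Topology BoundedContinuousFunction
open Crest.Agent.R166.Words955 Crest.Agent.R166.LimLaw980 Crest.Agent.R166.NoiseLim849

/-! ### Abstract extension from continuous to measurable test functions -/

section ext

variable {X Y : Type*} [TopologicalSpace X] [MeasurableSpace X] [BorelSpace X] [PolishSpace X]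
  [MeasurableSpace Y] {P : Measure X} [IsProbabilityMeasure P] {Q : Measure Y}
  [IsProbabilityMeasure Q] {pi : Y → X}

/-- test functions: from continuous to bounded measurable -/
theorem int_ext (hpi : Measurable pi) (hm : Q.map pi = P) {e : Y → ℂ} (he : Measurable e)
    (heb : ∀ y, ‖e y‖ ≤ 1) {c : X → ℂ} (hc : AEStronglyMeasurable c P) (hcb : ∀ᵐ x ∂P, ‖c x‖ ≤ 1)
    (h : ∀ φ : X → ℂ, Continuous φ → (∀ x, ‖φ x‖ ≤ 1) →
      ∫ y, φ (pi y) * e y ∂Q = ∫ x, φ x * c x ∂P)
    {φ : X → ℂ} (hφ : Measurable φ) {C : ℝ} (hφb : ∀ x, ‖φ x‖ ≤ C) :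
    ∫ y, φ (pi y) * e y ∂Q = ∫ x, φ x * c x ∂P := by
  -- all bounded continuous functions
  have hb : ∀ g : X →ᵇ ℂ, ∫ y, g (pi y) * e y ∂Q = ∫ x, g x * c x ∂P := by
    intro g
    set K : ℝ := ‖g‖ + 1 with hK
    have hK0 : 0 < K := by positivity
    have h1 := h (fun x => (K : ℂ)⁻¹ * g x) (continuous_const.mul g.continuous) (fun x => by
      rw [norm_mul, norm_inv, Complex.norm_real, Real.norm_eq_abs, abs_of_pos hK0]
      have := g.norm_coe_le_norm x
      rw [inv_mul_le_iff₀ hK0, mul_one]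
      linarith)
    simp only [mul_assoc] at h1
    rw [integral_const_mul, integral_const_mul] at h1
    have hK1 : ((K : ℂ))⁻¹ ≠ 0 := inv_ne_zero (by exact_mod_cast hK0.ne')
    exact mul_left_cancel₀ hK1 h1
  by_contra hne
  set D := ‖(∫ y, φ (pi y) * e y ∂Q) - ∫ x, φ x * c x ∂P‖ with hD
  have hD0 : 0 < D := norm_pos_iff.2 (sub_ne_zero.2 hne)
  have hφi : Integrable φ P := Integrable.of_bound hφ.aestronglyMeasurable C
    (Eventually.of_forall hφb)
  obtain ⟨g, hg1, hg2⟩ := hφi.exists_boundedContinuous_integral_sub_le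
    (ε := D / 3) (by positivity)
  have hgm : Measurable (g : X → ℂ) := g.continuous.measurable
  have hdi : Integrable (fun x => φ x - g x) P := hφi.sub hg2
  have hmp : MeasurePreserving pi Q P := ⟨hpi, hm⟩
  have e1 : ‖(∫ y, φ (pi y) * e y ∂Q) - ∫ y, g (pi y) * e y ∂Q‖ ≤ D / 3 := by
    have i1 : Integrable (fun y => φ (pi y) * e y) Q :=
      (hmp.integrable_comp_of_integrable hφi).mul_bdd (c := 1) he.aestronglyMeasurable
        (Eventually.of_forall heb)
    have i2 : Integrable (fun y => g (pi y) * e y) Q :=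
      (hmp.integrable_comp_of_integrable hg2).mul_bdd (c := 1) he.aestronglyMeasurable
        (Eventually.of_forall heb)
    rw [← integral_sub i1 i2]
    have h2 : ∀ y, ‖φ (pi y) * e y - g (pi y) * e y‖ ≤ ‖φ (pi y) - g (pi y)‖ := by
      intro y
      rw [← sub_mul, norm_mul]
      exact mul_le_of_le_one_right (norm_nonneg _) (heb y)
    refine (norm_integral_le_integral_norm _).trans ?_
    refine (integral_mono (i1.sub i2).norm (hmp.integrable_comp_of_integrable hdi).norm h2).trans ?_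
    have h3 := hmp.map_eq ▸ (integral_map (μ := Q) hpi.aemeasurable
      (f := fun x => ‖φ x - g x‖) (by
        rw [hm]; exact hdi.norm.aestronglyMeasurable))
    refine le_trans (le_of_eq ?_) hg1
    exact h3.symm
  have e2 : ‖(∫ x, φ x * c x ∂P) - ∫ x, g x * c x ∂P‖ ≤ D / 3 := by
    have i1 : Integrable (fun x => φ x * c x) P := hφi.mul_bdd (c := 1) hc hcb
    have i2 : Integrable (fun x => g x * c x) P := hg2.mul_bdd (c := 1) hc hcb
    rw [← integral_sub i1 i2]
    refine (norm_integral_le_integral_norm _).trans ?_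
    refine (integral_mono_ae (i1.sub i2).norm hdi.norm ?_).trans hg1
    filter_upwards [hcb] with x hx
    show ‖φ x * c x - g x * c x‖ ≤ ‖φ x - g x‖
    rw [← sub_mul, norm_mul]
    exact mul_le_of_le_one_right (norm_nonneg _) hx
  have h4 : D ≤ D / 3 + D / 3 := by
    calc D = ‖((∫ y, φ (pi y) * e y ∂Q) - ∫ y, g (pi y) * e y ∂Q) -
        ((∫ x, φ x * c x ∂P) - ∫ x, g x * c x ∂P)‖ := by
          rw [hD, hb g]; congr 1; ring
      _ ≤ _ := (norm_sub_le _ _).trans (add_le_add e1 e2)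
  linarith

/-- the marginal from continuous test functions -/
theorem map_eq_of_test (hpi : Measurable pi)
    (h : ∀ φ : X → ℂ, Continuous φ → (∀ x, ‖φ x‖ ≤ 1) →
      ∫ y, φ (pi y) ∂Q = ∫ x, φ x ∂P) : Q.map pi = P := by
  have : IsProbabilityMeasure (Q.map pi) := Measure.isProbabilityMeasure_map hpi.aemeasurable
  refine ext_of_forall_integral_eq_of_IsFiniteMeasure fun f => ?_
  rw [integral_map hpi.aemeasurable f.continuous.measurable.aestronglyMeasurable]
  set K : ℝ := ‖f‖ + 1 with hK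
  have hK0 : 0 < K := by positivity
  have h1 := h (fun x => ((K⁻¹ * f x : ℝ) : ℂ)) (by
      have := f.continuous
      fun_prop) (fun x => by
    rw [Complex.norm_real, norm_mul, norm_inv, Real.norm_eq_abs, abs_of_pos hK0]
    have := f.norm_coe_le_norm x
    rw [inv_mul_le_iff₀ hK0, mul_one]
    linarith)
  have h2 : ∫ y, ((K⁻¹ * f (pi y) : ℝ) : ℂ) ∂Q = ((∫ y, K⁻¹ * f (pi y) ∂Q : ℝ) : ℂ) :=
    integral_ofReal
  have h3 : ∫ x, ((K⁻¹ * f x : ℝ) : ℂ) ∂P = ((∫ x, K⁻¹ * f x ∂P : ℝ) : ℂ) := integral_ofReal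
  rw [h2, h3, Complex.ofReal_inj, integral_const_mul, integral_const_mul] at h1
  exact mul_left_cancel₀ (inv_ne_zero hK0.ne') h1

end ext

/-! ### Laws with Gaussian noise -/

section law

variable {d k : ℕ} [NeZero d]

attribute [local instance] opens_S2 borel_S2 polish_S2

/-- covariance kernel: measurable and positive semidefinite almost everywhere -/
structure IsCov (P : Measure (Conf d (S1 d k))) (Γ : TW d → TW d → Conf d (S1 d k) → ℝ) :
    Prop where
  meas : ∀ w w', Measurable (Γ w w')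
  psd : ∀ᵐ ζ ∂P, ∀ (B : Finset (TW d)) (c : B → ℝ), 0 ≤ ∑ b, ∑ b', c b * Γ b.1 b'.1 ζ * c b'

/-- `Q` has `(label, ω, X)`-marginal `P` and given this `Z` is Gaussian with covariance
`Γ ⊗ I_k`. -/
structure NLaw (P : Measure (Conf d (S1 d k))) (Γ : TW d → TW d → Conf d (S1 d k) → ℝ)
    (Q : Measure (Conf d (S2 d k))) : Prop where
  prob : IsProbabilityMeasure Q
  marg : Q.map pr = P
  char : ∀ (B : Finset (TW d)) (τ : B → Fin k → ℝ) (φ : Conf d (S1 d k) → ℂ), Measurable φ →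
    (∀ ζ, ‖φ ζ‖ ≤ 1) →
    ∫ ζ, φ (pr ζ) * Complex.exp (Complex.I * ((zph B τ ζ : ℝ) : ℂ)) ∂Q =
      ∫ ζ, φ ζ * cch Γ B τ ζ ∂P

variable {P : Measure (Conf d (S1 d k))} {Γ : TW d → TW d → Conf d (S1 d k) → ℝ}
  {Q : Measure (Conf d (S2 d k))}

theorem measurable_pr : Measurable (pr : Conf d (S2 d k) → Conf d (S1 d k)) :=
  continuous_pr.measurable

theorem measurable_zph (B : Finset (TW d)) (τ : B → Fin k → ℝ) :
    Measurable (zph B τ : Conf d (S2 d k) → ℝ) := (continuous_zph B τ).measurable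

theorem measurable_cch (hΓ : ∀ w w', Measurable (Γ w w')) (B : Finset (TW d))
    (τ : B → Fin k → ℝ) : Measurable (cch Γ B τ) := by
  unfold cch Qf gam
  fun_prop

theorem IsCov.norm_cch (h : IsCov P Γ) (B : Finset (TW d)) :
    ∀ᵐ ζ ∂P, ∀ τ : B → Fin k → ℝ, ‖cch Γ B τ ζ‖ ≤ 1 := by
  filter_upwards [h.psd] with ζ hζ τ using norm_cch_le (hζ B) τ

theorem norm_exp_zph (B : Finset (TW d)) (τ : B → Fin k → ℝ) (ζ : Conf d (S2 d k)) :
    ‖Complex.exp (Complex.I * ((zph B τ ζ : ℝ) : ℂ))‖ ≤ 1 := by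
  rw [mul_comm, Complex.norm_exp_ofReal_mul_I]

theorem measurable_exp_zph (B : Finset (TW d)) (τ : B → Fin k → ℝ) :
    Measurable fun ζ : Conf d (S2 d k) => Complex.exp (Complex.I * ((zph B τ ζ : ℝ) : ℂ)) := by
  have := measurable_zph (d := d) (k := k) B τ
  fun_prop

theorem zph_empty (τ : (∅ : Finset (TW d)) → Fin k → ℝ) (ζ : Conf d (S2 d k)) :
    zph ∅ τ ζ = 0 := by
  unfold zph
  simp

theorem cch_empty (τ : (∅ : Finset (TW d)) → Fin k → ℝ) (ζ : Conf d (S1 d k)) :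
    cch Γ ∅ τ ζ = 1 := by
  unfold cch Qf
  simp

/-- it suffices to test with continuous functions -/
theorem NLaw.of_continuous [IsProbabilityMeasure P] (hΓ : IsCov P Γ) [hQ : IsProbabilityMeasure Q]
    (h : ∀ (B : Finset (TW d)) (τ : B → Fin k → ℝ) (φ : Conf d (S1 d k) → ℂ), Continuous φ →
      (∀ ζ, ‖φ ζ‖ ≤ 1) →
      ∫ ζ, φ (pr ζ) * Complex.exp (Complex.I * ((zph B τ ζ : ℝ) : ℂ)) ∂Q =
        ∫ ζ, φ ζ * cch Γ B τ ζ ∂P) : NLaw P Γ Q := by
  have hmarg : Q.map pr = P := by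
    refine map_eq_of_test measurable_pr fun φ hφ hφ1 => ?_
    have h1 := h ∅ (fun _ _ => 0) φ hφ hφ1
    simpa only [zph_empty, cch_empty, Complex.ofReal_zero, mul_zero, Complex.exp_zero,
      mul_one] using h1
  refine ⟨hQ, hmarg, fun B τ φ hφ hφ1 => ?_⟩
  exact int_ext measurable_pr hmarg (measurable_exp_zph B τ) (norm_exp_zph B τ)
    (measurable_cch hΓ.meas B τ).aestronglyMeasurable
    ((hΓ.norm_cch B).mono fun ζ hζ => hζ τ) (fun φ hφ hφ1 => h B τ φ hφ hφ1) hφ (C := 1) hφ1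


theorem NLaw.probP (h : NLaw P Γ Q) : IsProbabilityMeasure P := by
  have := h.prob
  rw [← h.marg]
  exact Measure.isProbabilityMeasure_map measurable_pr.aemeasurable

/-- bounded test functions -/
theorem NLaw.char' (h : NLaw P Γ Q) (B : Finset (TW d)) (τ : B → Fin k → ℝ)
    {φ : Conf d (S1 d k) → ℂ} (hφ : Measurable φ) {C : ℝ} (hC : ∀ ζ, ‖φ ζ‖ ≤ C) :
    ∫ ζ, φ (pr ζ) * Complex.exp (Complex.I * ((zph B τ ζ : ℝ) : ℂ)) ∂Q =
      ∫ ζ, φ ζ * cch Γ B τ ζ ∂P := by
  set K : ℝ := |C| + 1 with hK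
  have hK0 : 0 < K := by positivity
  have h1 := h.char B τ (fun x => (K : ℂ)⁻¹ * φ x) (hφ.const_mul _) (fun x => by
    rw [norm_mul, norm_inv, Complex.norm_real, Real.norm_eq_abs, abs_of_pos hK0,
      inv_mul_le_iff₀ hK0, mul_one]
    have := hC x
    have := le_abs_self C
    linarith)
  simp only [mul_assoc] at h1
  rw [integral_const_mul, integral_const_mul] at h1
  have hK1 : ((K : ℂ))⁻¹ ≠ 0 := inv_ne_zero (by exact_mod_cast hK0.ne')
  exact mul_left_cancel₀ hK1 h1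

/-! ### Limits of such laws -/

section limit

/-- tightness of a real random variable that only depends on `(label, ω, X)` -/
theorem tight_pr [IsProbabilityMeasure P] {f : Conf d (S1 d k) → ℝ} (hf : Measurable f)
    {ε : ENNReal} (hε : 0 < ε) : ∃ R : ℝ, ∀ Q : Measure (Conf d (S2 d k)), Q.map pr = P →
      Q {ζ | R < |f (pr ζ)|} ≤ ε := by
  have hp : IsProbabilityMeasure (P.map f) := Measure.isProbabilityMeasure_map hf.aemeasurable
  have h1 := tendsto_measure_norm_gt_of_isTightMeasureSet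
    (isTightMeasureSet_singleton (μ := P.map f))
  have h2 := (ENNReal.tendsto_nhds_zero.1 h1) ε hε
  obtain ⟨R, hR⟩ := h2.exists
  refine ⟨R, fun Q hQ => ?_⟩
  have h3 : MeasurableSet {x : ℝ | R < ‖x‖} := measurableSet_lt measurable_const measurable_norm
  have h4 : Q {ζ | R < |f (pr ζ)|} = (P.map f) {x : ℝ | R < ‖x‖} := by
    rw [← hQ, Measure.map_map hf measurable_pr, Measure.map_apply (hf.comp measurable_pr) h3]
    rfl
  rw [h4]
  refine le_trans ?_ hR
  simp

/-- frequency `t` at the coordinate `i` of the word `w` -/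
def τs (w : TW d) (i : Fin k) (t : ℝ) : ({w} : Finset (TW d)) → Fin k → ℝ :=
  fun _ j => if j = i then t else 0

theorem zph_τs (w : TW d) (i : Fin k) (t : ℝ) (ζ : Conf d (S2 d k)) :
    zph {w} (τs w i t) ζ = t * (ζ w).2.2.2 i := by
  unfold zph τs
  rw [Finset.sum_comm]
  rw [Finset.sum_coe_sort ({w} : Finset (TW d))
    (fun b => ∑ j, (if j = i then t else 0) * (ζ b).2.2.2 j)]
  simp

theorem Qf_τs (w : TW d) (i : Fin k) (t : ℝ) (ζ : Conf d (S1 d k)) :
    Qf (τs w i t) (gam Γ {w} ζ) = t ^ 2 * Γ w w ζ := by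
  unfold Qf τs gam
  have h1 : ∀ j : Fin k, ∑ b : ({w} : Finset (TW d)), ∑ b' : ({w} : Finset (TW d)),
      (if j = i then t else 0) * Γ b.1 b'.1 ζ * (if j = i then t else 0) =
      (if j = i then t else 0) * Γ w w ζ * (if j = i then t else 0) := by
    intro j
    rw [Finset.sum_coe_sort ({w} : Finset (TW d)) (fun b => ∑ b' : ({w} : Finset (TW d)),
      (if j = i then t else 0) * Γ b b'.1 ζ * (if j = i then t else 0)), Finset.sum_singleton,
      Finset.sum_coe_sort ({w} : Finset (TW d)) (fun b' =>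
      (if j = i then t else 0) * Γ w b' ζ * (if j = i then t else 0)), Finset.sum_singleton]
  rw [Finset.sum_congr rfl fun j _ => h1 j]
  rw [Finset.sum_eq_single i]
  · simp; ring
  · intro j _ hj
    simp [hj]
  · intro hi
    exact absurd (Finset.mem_univ _) hi

variable {Γn : ℕ → TW d → TW d → Conf d (S1 d k) → ℝ}

/-- positivity passes to the limit -/
theorem IsCov.of_tendsto (hΓn : ∀ n, IsCov P (Γn n)) (hm : ∀ w w', Measurable (Γ w w'))
    (hlim : ∀ w w', ∀ᵐ ζ ∂P, Tendsto (fun n => Γn n w w' ζ) atTop (𝓝 (Γ w w' ζ))) :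
    IsCov P Γ := by
  refine ⟨hm, ?_⟩
  have h1 : ∀ᵐ ζ ∂P, ∀ n, ∀ (B : Finset (TW d)) (c : B → ℝ),
      0 ≤ ∑ b, ∑ b', c b * Γn n b.1 b'.1 ζ * c b' := ae_all_iff.2 fun n => (hΓn n).psd
  have h2 : ∀ᵐ ζ ∂P, ∀ w w', Tendsto (fun n => Γn n w w' ζ) atTop (𝓝 (Γ w w' ζ)) :=
    ae_all_iff.2 fun w => ae_all_iff.2 fun w' => hlim w w'
  filter_upwards [h1, h2] with ζ hζ1 hζ2 B c
  have h3 : Tendsto (fun n => ∑ b : B, ∑ b' : B, c b * Γn n b.1 b'.1 ζ * c b') atTop
      (𝓝 (∑ b : B, ∑ b' : B, c b * Γ b.1 b'.1 ζ * c b')) :=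
    tendsto_finsetSum _ fun b _ => tendsto_finsetSum _ fun b' _ =>
      ((hζ2 b.1 b'.1).const_mul (c b)).mul_const (c b')
  exact ge_of_tendsto' h3 fun n => hζ1 n B c

theorem tendsto_cch {ζ : Conf d (S1 d k)}
    (hlim : ∀ w w', Tendsto (fun n => Γn n w w' ζ) atTop (𝓝 (Γ w w' ζ))) (B : Finset (TW d))
    (τ : B → Fin k → ℝ) : Tendsto (fun n => cch (Γn n) B τ ζ) atTop (𝓝 (cch Γ B τ ζ)) := by
  unfold cch
  have h1 : Tendsto (fun n => Qf τ (gam (Γn n) B ζ)) atTop (𝓝 (Qf τ (gam Γ B ζ))) := by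
    unfold Qf gam
    exact tendsto_finsetSum _ fun j _ => tendsto_finsetSum _ fun b _ =>
      tendsto_finsetSum _ fun b' _ => ((hlim b.1 b'.1).const_mul (τ b j)).mul_const (τ b' j)
  have h2 : Continuous fun x : ℝ => Complex.exp (-(x : ℂ) / 2) := by fun_prop
  exact (h2.tendsto _).comp h1

theorem tendsto_int_cch [IsProbabilityMeasure P] (hΓn : ∀ n, IsCov P (Γn n))
    (hlim : ∀ w w', ∀ᵐ ζ ∂P, Tendsto (fun n => Γn n w w' ζ) atTop (𝓝 (Γ w w' ζ)))
    (B : Finset (TW d)) (τ : B → Fin k → ℝ) {φ : Conf d (S1 d k) → ℂ} (hφ : Measurable φ)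
    (hφ1 : ∀ ζ, ‖φ ζ‖ ≤ 1) :
    Tendsto (fun n => ∫ ζ, φ ζ * cch (Γn n) B τ ζ ∂P) atTop (𝓝 (∫ ζ, φ ζ * cch Γ B τ ζ ∂P)) := by
  refine tendsto_integral_of_dominated_convergence (fun _ => 1)
    (fun n => (hφ.mul (measurable_cch (hΓn n).meas B τ)).aestronglyMeasurable)
    (integrable_const _) (fun n => ?_) ?_
  · filter_upwards [(hΓn n).norm_cch B] with ζ hζ
    rw [norm_mul]
    exact mul_le_one₀ (hφ1 ζ) (norm_nonneg _) (hζ τ)
  · have h2 : ∀ᵐ ζ ∂P, ∀ w w', Tendsto (fun n => Γn n w w' ζ) atTop (𝓝 (Γ w w' ζ)) :=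
      ae_all_iff.2 fun w => ae_all_iff.2 fun w' => hlim w w'
    filter_upwards [h2] with ζ hζ
    exact (tendsto_cch hζ B τ).const_mul _

/-- continuity in the frequency -/
theorem continuous_int_cch [IsProbabilityMeasure P] (hΓ : IsCov P Γ) (w : TW d) (i : Fin k) :
    Continuous fun t : ℝ => ∫ ζ, cch Γ {w} (τs w i t) ζ ∂P := by
  refine continuous_of_dominated (bound := fun _ => 1)
    (fun t => (measurable_cch hΓ.meas _ _).aestronglyMeasurable) (fun t => ?_)
    (integrable_const _) ?_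
  · filter_upwards [hΓ.norm_cch {w}] with ζ hζ using hζ _
  · refine Eventually.of_forall fun ζ => ?_
    unfold cch
    simp only [Qf_τs]
    fun_prop

/-- tightness of the `Z`-coordinates -/
theorem tight_Z [IsProbabilityMeasure P] (hΓn : ∀ n, IsCov P (Γn n)) (hΓ : IsCov P Γ)
    (hlim : ∀ w w', ∀ᵐ ζ ∂P, Tendsto (fun n => Γn n w w' ζ) atTop (𝓝 (Γ w w' ζ)))
    {Q : ℕ → ProbabilityMeasure (Conf d (S2 d k))}
    (hQ : ∀ n, NLaw P (Γn n) (Q n : Measure (Conf d (S2 d k)))) (w : TW d) (i : Fin k)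
    {ε : ENNReal} (hε : 0 < ε) : ∃ R : ℝ, ∀ n,
      (Q n : Measure (Conf d (S2 d k))) {ζ | R < |(ζ w).2.2.2 i|} ≤ ε := by
  have hfc : Continuous fun ζ : Conf d (S2 d k) => (ζ w).2.2.2 i := by fun_prop
  have hf : Measurable fun ζ : Conf d (S2 d k) => (ζ w).2.2.2 i := hfc.measurable
  set μ : ℕ → Measure ℝ := fun n =>
    (Q n : Measure (Conf d (S2 d k))).map (fun ζ => (ζ w).2.2.2 i) with hμ
  have hμp : ∀ n, IsProbabilityMeasure (μ n) := fun n =>
    Measure.isProbabilityMeasure_map hf.aemeasurable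
  have h1 : ∀ t, Tendsto (fun n => charFun (μ n) t) atTop
      (𝓝 (∫ ζ, cch Γ {w} (τs w i t) ζ ∂P)) := by
    intro t
    have h2 := tendsto_int_cch hΓn hlim {w} (τs w i t) (φ := fun _ => 1) measurable_const
      (fun _ => by simp)
    simp only [one_mul] at h2
    refine h2.congr fun n => ?_
    have h3 := (hQ n).char {w} (τs w i t) (fun _ => 1) measurable_const (fun _ => by simp)
    simp only [one_mul] at h3
    rw [← h3, charFun_apply_real, integral_map hf.aemeasurable (by fun_prop)]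
    refine integral_congr_ae (Eventually.of_forall fun ζ => ?_)
    simp only [zph_τs]
    push_cast
    congr 1
    ring
  have h2 := isTightMeasureSet_of_tendsto_charFun
    (f := fun t => ∫ ζ, cch Γ {w} (τs w i t) ζ ∂P)
    (continuous_int_cch hΓ w i).continuousAt h1
  have h3 := tendsto_measure_norm_gt_of_isTightMeasureSet h2
  obtain ⟨R, hR⟩ := ((ENNReal.tendsto_nhds_zero.1 h3) ε hε).exists
  refine ⟨R, fun n => ?_⟩
  have h4 : MeasurableSet {x : ℝ | R < ‖x‖} := measurableSet_lt measurable_const measurable_norm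
  have h5 : (Q n : Measure (Conf d (S2 d k))) {ζ | R < |(ζ w).2.2.2 i|} =
      μ n {x : ℝ | R < ‖x‖} := by
    rw [hμ, Measure.map_apply hf h4]
    rfl
  rw [h5]
  refine le_trans ?_ hR
  exact le_iSup₂ (f := fun (ν : Measure ℝ) (_ : ν ∈ Set.range μ) => ν {x | R < ‖x‖}) (μ n) ⟨n, rfl⟩

/-- **existence of the limit law** when the covariance kernels converge almost everywhere -/
theorem exists_limit_law [IsProbabilityMeasure P] (hΓn : ∀ n, IsCov P (Γn n))
    (hm : ∀ w w', Measurable (Γ w w'))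
    (hlim : ∀ w w', ∀ᵐ ζ ∂P, Tendsto (fun n => Γn n w w' ζ) atTop (𝓝 (Γ w w' ζ)))
    {Q : ℕ → ProbabilityMeasure (Conf d (S2 d k))}
    (hQ : ∀ n, NLaw P (Γn n) (Q n : Measure (Conf d (S2 d k)))) :
    IsCov P Γ ∧ ∃ Q0 : ProbabilityMeasure (Conf d (S2 d k)), Tendsto Q atTop (𝓝 Q0) ∧
      NLaw P Γ (Q0 : Measure (Conf d (S2 d k))) := by
  have hΓ := IsCov.of_tendsto hΓn hm hlim
  refine ⟨hΓ, ?_⟩
  have hfin : Continuous fun i : Fin d => (((i : ℕ) : ℝ)) := continuous_of_discreteTopology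
  obtain ⟨Q0, hQ0⟩ := exists_limit (coordE d k) (isClosedEmbedding_coordE d k) atTop Q
    (fun x ε hε => by
      obtain ⟨w, a⟩ := x
      rcases a with (a | a) | (a | a)
      · obtain ⟨R, hR⟩ := tight_pr (P := P) (f := fun ζ => (((ζ w).1 : ℕ) : ℝ))
          (by fun_prop) hε
        exact ⟨R, fun n => hR _ (hQ n).marg⟩
      · obtain ⟨R, hR⟩ := tight_pr (P := P) (f := fun ζ => (ζ w).2.1)
          (by fun_prop) hε
        exact ⟨R, fun n => hR _ (hQ n).marg⟩
      · obtain ⟨R, hR⟩ := tight_pr (P := P) (f := fun ζ => (ζ w).2.2 a)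
          (by fun_prop) hε
        exact ⟨R, fun n => hR _ (hQ n).marg⟩
      · exact tight_Z hΓn hΓ hlim hQ w a hε)
    (fun q => ∫ ζ, φq q ζ * cch Γ (Bq q) (τq q) ζ ∂P) (fun q => by
      have h1 := tendsto_int_cch hΓn hlim (Bq q) (τq q) (continuous_φq q).measurable (norm_φq q)
      refine h1.congr fun n => ?_
      rw [← (hQ n).char (Bq q) (τq q) (φq q) (continuous_φq q).measurable (norm_φq q)]
      refine integral_congr_ae (Eventually.of_forall fun ζ => ?_)
      simp only [phase_coordE, φq]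
      rw [← Complex.exp_add, ← mul_add]
      push_cast
      rfl)
  refine ⟨Q0, hQ0, NLaw.of_continuous hΓ ?_⟩
  intro B τ φ hφc hφ
  set ψ : Conf d (S2 d k) → ℂ := fun ζ =>
    φ (pr ζ) * Complex.exp (Complex.I * ((zph B τ ζ : ℝ) : ℂ)) with hψ
  have hψc : Continuous ψ := by
    have h1 := hφc.comp (continuous_pr (d := d) (k := k))
    have h2 := continuous_zph (d := d) B τ
    exact h1.mul (by fun_prop)
  have hψn : ∀ ζ, ‖ψ ζ‖ ≤ 1 := by
    intro ζ
    rw [hψ, norm_mul, mul_comm Complex.I, Complex.norm_exp_ofReal_mul_I, mul_one]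
    exact hφ _
  let fψ : Conf d (S2 d k) →ᵇ ℂ := BoundedContinuousFunction.ofNormedAddCommGroup ψ hψc 1 hψn
  have h1 : Tendsto (fun n => ∫ ζ, ψ ζ ∂(Q n : Measure (Conf d (S2 d k)))) atTop
      (𝓝 (∫ ζ, ψ ζ ∂(Q0 : Measure (Conf d (S2 d k))))) :=
    ((continuous_integral_bcf fψ).tendsto Q0).comp hQ0
  have h2 := tendsto_int_cch hΓn hlim B τ hφc.measurable hφ
  refine tendsto_nhds_unique h1 (h2.congr fun n => ?_)
  exact ((hQ n).char B τ φ hφc.measurable hφ).symm

end limit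

end law

end Crest.Agent.R166.Q0_955
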