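import Mathlib
import Crest.Agent.R166.Gauss_286

-- ▼ part R166/Rec1_255
section

/-!
# Row 166, section 52 (reconstruction), part 1: spectral sums of real symmetric matrices (helper255)

* `hs`            : squared Hilbert–Schmidt norm
* `IsDg A a`      : `A = O diag(a) Oᵀ` with `O` orthogonal
* `sum_sub_eq`    : `∑ k(a_i) - ∑ k(b_j) = ∑_{ij} W_ij² (k(a_i) - k(b_j))`
* `abs_sum_sub_le`: `|∑ k(a_i) - ∑ k(b_j)| ≤ α(|A|²+|B|²) + c √(2(|A|²+|B|²)) |A-B|`
* `sum_eig_comm`  : equality of spectral sums of `XY` and of a matrix with the charpoly of `YX`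
-/

set_option autoImplicit false

noncomputable section

namespace Crest.Agent.R166.Rec255

open Matrix Finset

/-- squared Hilbert–Schmidt norm -/
def hs {ι κ : Type*} [Fintype ι] [Fintype κ] (A : Matrix ι κ ℝ) : ℝ := ∑ i, ∑ j, A i j ^ 2

section HS

variable {ι κ : Type*} [Fintype ι] [DecidableEq ι] [Fintype κ] [DecidableEq κ]

omit [DecidableEq ι] [DecidableEq κ] in
lemma hs_nonneg (A : Matrix ι κ ℝ) : 0 ≤ hs A := by unfold hs; positivity

omit [DecidableEq ι] [DecidableEq κ] in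
lemma hs_eq_trace (A : Matrix ι κ ℝ) : hs A = (Aᵀ * A).trace := by
  unfold hs
  rw [Finset.sum_comm]
  simp only [Matrix.trace, Matrix.diag, Matrix.mul_apply, Matrix.transpose_apply, sq]

omit [DecidableEq ι] [DecidableEq κ] in
lemma hs_transpose (A : Matrix ι κ ℝ) : hs Aᵀ = hs A := by
  unfold hs
  rw [Finset.sum_comm]
  rfl

omit [DecidableEq κ] in
lemma hs_orth_mul {O : Matrix ι ι ℝ} (hO : Oᵀ * O = 1) (A : Matrix ι κ ℝ) :
    hs (O * A) = hs A := by
  rw [hs_eq_trace, hs_eq_trace, Matrix.transpose_mul, Matrix.mul_assoc, ← Matrix.mul_assoc Oᵀ, hO,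
    Matrix.one_mul]

omit [DecidableEq ι] in
lemma hs_mul_orth {O : Matrix κ κ ℝ} (hO : O * Oᵀ = 1) (A : Matrix ι κ ℝ) :
    hs (A * O) = hs A := by
  rw [← hs_transpose, Matrix.transpose_mul, hs_orth_mul (by rwa [Matrix.transpose_transpose]),
    hs_transpose]



omit [DecidableEq ι] [DecidableEq κ] in
lemma hs_add_le (A B : Matrix ι κ ℝ) : hs (A + B) ≤ 2 * (hs A + hs B) := by
  unfold hs
  rw [← Finset.sum_add_distrib, Finset.mul_sum]
  refine Finset.sum_le_sum fun i _ => ?_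
  rw [← Finset.sum_add_distrib, Finset.mul_sum]
  refine Finset.sum_le_sum fun j _ => ?_
  rw [Matrix.add_apply]
  nlinarith [sq_nonneg (A i j - B i j)]

omit [DecidableEq ι] [DecidableEq κ] in
lemma hs_smul (c : ℝ) (A : Matrix ι κ ℝ) : hs (c • A) = c ^ 2 * hs A := by
  unfold hs
  rw [Finset.mul_sum]
  refine Finset.sum_congr rfl fun i _ => ?_
  rw [Finset.mul_sum]
  refine Finset.sum_congr rfl fun j _ => ?_
  rw [Matrix.smul_apply, smul_eq_mul, mul_pow]

omit [DecidableEq ι] [DecidableEq κ] in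
/-- Frobenius norm is submultiplicative -/
lemma hs_mul_le {μ : Type*} [Fintype μ] (A : Matrix ι κ ℝ) (B : Matrix κ μ ℝ) :
    hs (A * B) ≤ hs A * hs B := by
  unfold hs
  have h1 : ∀ i j, (A * B) i j ^ 2 ≤ (∑ k, A i k ^ 2) * ∑ k, B k j ^ 2 := by
    intro i j
    rw [Matrix.mul_apply]
    exact Finset.sum_mul_sq_le_sq_mul_sq _ _ _
  calc ∑ i, ∑ j, (A * B) i j ^ 2 ≤ ∑ i, ∑ j, (∑ k, A i k ^ 2) * ∑ k, B k j ^ 2 :=
        Finset.sum_le_sum fun i _ => Finset.sum_le_sum fun j _ => h1 i j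
    _ = (∑ i, ∑ k, A i k ^ 2) * ∑ j, ∑ k, B k j ^ 2 := by
        rw [Finset.sum_mul_sum]
    _ = _ := by
        rw [Finset.sum_comm (γ := μ) (α := κ)]

omit [DecidableEq κ] in
/-- multiplication by a bounded diagonal matrix -/
lemma hs_diag_mul_le {d : ι → ℝ} {T : ℝ} (hd : ∀ i, |d i| ≤ T)
    (A : Matrix ι κ ℝ) : hs (diagonal d * A) ≤ T ^ 2 * hs A := by
  unfold hs
  rw [Finset.mul_sum]
  refine Finset.sum_le_sum fun i _ => ?_
  rw [Finset.mul_sum]
  refine Finset.sum_le_sum fun j _ => ?_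
  rw [Matrix.diagonal_mul, mul_pow]
  have : d i ^ 2 ≤ T ^ 2 := sq_le_sq' (abs_le.mp (hd i)).1 (abs_le.mp (hd i)).2
  gcongr

omit [DecidableEq ι] in
lemma hs_mul_diag_le {d : κ → ℝ} {T : ℝ} (hd : ∀ i, |d i| ≤ T)
    (A : Matrix ι κ ℝ) : hs (A * diagonal d) ≤ T ^ 2 * hs A := by
  rw [← hs_transpose, Matrix.transpose_mul, Matrix.diagonal_transpose, ← hs_transpose A]
  exact hs_diag_mul_le hd _

lemma hs_diagonal (d : ι → ℝ) : hs (diagonal d) = ∑ i, d i ^ 2 := by
  unfold hs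
  refine Finset.sum_congr rfl fun i _ => ?_
  rw [Finset.sum_eq_single i]
  · rw [Matrix.diagonal_apply_eq]
  · intro j _ hj
    rw [Matrix.diagonal_apply_ne _ (Ne.symm hj)]; simp
  · simp

end HS

section Dg

variable {ι : Type*} [Fintype ι] [DecidableEq ι]

/-- orthogonal diagonalisation -/
def IsDg (A : Matrix ι ι ℝ) (a : ι → ℝ) : Prop :=
  ∃ O : Matrix ι ι ℝ, Oᵀ * O = 1 ∧ O * Oᵀ = 1 ∧ A = O * diagonal a * Oᵀ

lemma isDg_diagonal (a : ι → ℝ) : IsDg (diagonal a) a :=
  ⟨1, by simp, by simp, by simp⟩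

lemma isDg_eigenvalues {A : Matrix ι ι ℝ} (hA : A.IsHermitian) : IsDg A hA.eigenvalues := by
  refine ⟨(hA.eigenvectorUnitary : Matrix ι ι ℝ), ?_, ?_, ?_⟩
  · have := Unitary.star_mul_self_of_mem hA.eigenvectorUnitary.2
    rwa [star_eq_conjTranspose, conjTranspose_eq_transpose_of_trivial] at this
  · have := Unitary.mul_star_self_of_mem hA.eigenvectorUnitary.2
    rwa [star_eq_conjTranspose, conjTranspose_eq_transpose_of_trivial] at this
  · have := hA.spectral_theorem
    rw [Unitary.conjStarAlgAut_apply] at this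
    rw [star_eq_conjTranspose, conjTranspose_eq_transpose_of_trivial] at this
    exact this

lemma IsDg.hs_eq {A : Matrix ι ι ℝ} {a : ι → ℝ} (h : IsDg A a) : hs A = ∑ i, a i ^ 2 := by
  obtain ⟨O, h1, h2, rfl⟩ := h
  rw [Matrix.mul_assoc, hs_orth_mul h1, hs_mul_orth (by rw [Matrix.transpose_transpose, h1]),
    hs_diagonal]

/-- the comparison matrix -/
lemma exists_W {A B : Matrix ι ι ℝ} {a b : ι → ℝ} (hA : IsDg A a) (hB : IsDg B b) :
    ∃ W : Matrix ι ι ℝ, (∀ i, ∑ j, W i j ^ 2 = 1) ∧ (∀ j, ∑ i, W i j ^ 2 = 1) ∧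
      hs (A - B) = ∑ i, ∑ j, W i j ^ 2 * (a i - b j) ^ 2 := by
  obtain ⟨O, h1, h2, hA'⟩ := hA
  obtain ⟨V, h3, h4, hB'⟩ := hB
  refine ⟨Oᵀ * V, fun i => ?_, fun j => ?_, ?_⟩
  · have h : ((Oᵀ * V) * (Oᵀ * V)ᵀ) i i = 1 := by
      rw [Matrix.transpose_mul, Matrix.transpose_transpose, Matrix.mul_assoc,
        ← Matrix.mul_assoc V, h4, Matrix.one_mul, h1, Matrix.one_apply_eq]
    rw [Matrix.mul_apply] at h
    simpa [sq] using h
  · have h : ((Oᵀ * V)ᵀ * (Oᵀ * V)) j j = 1 := by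
      rw [Matrix.transpose_mul, Matrix.transpose_transpose, Matrix.mul_assoc,
        ← Matrix.mul_assoc O, h2, Matrix.one_mul, h3, Matrix.one_apply_eq]
    rw [Matrix.mul_apply] at h
    simpa [sq] using h
  · have e1 : Oᵀ * ((A - B) * V) = diagonal a * (Oᵀ * V) - (Oᵀ * V) * diagonal b := by
      rw [hA', hB', Matrix.sub_mul, Matrix.mul_sub]
      congr 1
      · rw [← Matrix.mul_assoc, ← Matrix.mul_assoc, ← Matrix.mul_assoc, h1, Matrix.one_mul,
          Matrix.mul_assoc]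
      · rw [Matrix.mul_assoc _ Vᵀ V, h3, Matrix.mul_one, Matrix.mul_assoc]
    have e2 : hs (A - B) = hs (Oᵀ * ((A - B) * V)) := by
      rw [hs_orth_mul (by rw [Matrix.transpose_transpose, h2]), hs_mul_orth h4]
    rw [e2, e1]
    unfold hs
    refine Finset.sum_congr rfl fun i _ => Finset.sum_congr rfl fun j _ => ?_
    rw [Matrix.sub_apply, Matrix.diagonal_mul, Matrix.mul_diagonal]
    ring

/-- **stability of spectral sums in Hilbert–Schmidt norm** -/
theorem abs_sum_sub_le {A B : Matrix ι ι ℝ} {a b : ι → ℝ} (hA : IsDg A a) (hB : IsDg B b)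
    {k : ℝ → ℝ} {α c : ℝ} (hc : 0 ≤ c)
    (hk : ∀ x y, |k x - k y| ≤ α * (x ^ 2 + y ^ 2) + c * ((|x| + |y|) * |x - y|)) :
    |∑ i, k (a i) - ∑ i, k (b i)| ≤
      α * (hs A + hs B) + c * (Real.sqrt (2 * (hs A + hs B)) * Real.sqrt (hs (A - B))) := by
  obtain ⟨W, hW1, hW2, hW⟩ := exists_W hA hB
  have e1 : ∑ i, k (a i) = ∑ i, ∑ j, W i j ^ 2 * k (a i) := by
    refine Finset.sum_congr rfl fun i _ => ?_
    rw [← Finset.sum_mul, hW1, one_mul]
  have e2 : ∑ i, k (b i) = ∑ i, ∑ j, W i j ^ 2 * k (b j) := by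
    rw [Finset.sum_comm]
    refine Finset.sum_congr rfl fun i _ => ?_
    rw [← Finset.sum_mul, hW2, one_mul]
  have e3 : ∑ i, k (a i) - ∑ i, k (b i) = ∑ i, ∑ j, W i j ^ 2 * (k (a i) - k (b j)) := by
    rw [e1, e2, ← Finset.sum_sub_distrib]
    refine Finset.sum_congr rfl fun i _ => ?_
    rw [← Finset.sum_sub_distrib]
    refine Finset.sum_congr rfl fun j _ => ?_
    ring
  have s1 : ∑ i, ∑ j, W i j ^ 2 * (a i ^ 2 + b j ^ 2) = hs A + hs B := by
    rw [hA.hs_eq, hB.hs_eq]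
    have : ∀ i, ∑ j, W i j ^ 2 * (a i ^ 2 + b j ^ 2) =
        a i ^ 2 + ∑ j, W i j ^ 2 * b j ^ 2 := by
      intro i
      simp only [mul_add]
      rw [Finset.sum_add_distrib, ← Finset.sum_mul, hW1, one_mul]
    simp only [this]
    rw [Finset.sum_add_distrib, Finset.sum_comm (γ := ι) (α := ι)]
    congr 1
    refine Finset.sum_congr rfl fun i _ => ?_
    rw [← Finset.sum_mul, hW2, one_mul]
  have s2 : ∑ i, ∑ j, W i j ^ 2 * ((|a i| + |b j|) * |a i - b j|) ≤
      Real.sqrt (2 * (hs A + hs B)) * Real.sqrt (hs (A - B)) := by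
    rw [← Real.sqrt_mul (by have := hs_nonneg A; have := hs_nonneg B; positivity)]
    apply Real.le_sqrt_of_sq_le
    have cs := Finset.sum_mul_sq_le_sq_mul_sq (Finset.univ ×ˢ Finset.univ : Finset (ι × ι))
      (fun p => |W p.1 p.2| * (|a p.1| + |b p.2|)) (fun p => |W p.1 p.2| * |a p.1 - b p.2|)
    rw [Finset.sum_product, Finset.sum_product, Finset.sum_product] at cs
    have t1 : ∑ i, ∑ j, |W i j| * (|a i| + |b j|) * (|W i j| * |a i - b j|) =
        ∑ i, ∑ j, W i j ^ 2 * ((|a i| + |b j|) * |a i - b j|) := by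
      refine Finset.sum_congr rfl fun i _ => Finset.sum_congr rfl fun j _ => ?_
      rw [← sq_abs (W i j)]; ring
    have t2 : ∑ i, ∑ j, (|W i j| * |a i - b j|) ^ 2 = hs (A - B) := by
      rw [hW]
      refine Finset.sum_congr rfl fun i _ => Finset.sum_congr rfl fun j _ => ?_
      rw [mul_pow, sq_abs, sq_abs]
    have t3 : ∑ i, ∑ j, (|W i j| * (|a i| + |b j|)) ^ 2 ≤ 2 * (hs A + hs B) := by
      rw [← s1, Finset.mul_sum]
      refine Finset.sum_le_sum fun i _ => ?_
      rw [Finset.mul_sum]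
      refine Finset.sum_le_sum fun j _ => ?_
      rw [mul_pow, sq_abs]
      have h0 : (|a i| + |b j|) ^ 2 ≤ 2 * (a i ^ 2 + b j ^ 2) := by
        nlinarith [sq_nonneg (|a i| - |b j|), sq_abs (a i), sq_abs (b j)]
      have h1 := sq_nonneg (W i j)
      nlinarith
    rw [t1, t2] at cs
    exact cs.trans (mul_le_mul_of_nonneg_right t3 (hs_nonneg _))
  rw [e3]
  calc |∑ i, ∑ j, W i j ^ 2 * (k (a i) - k (b j))|
      ≤ ∑ i, ∑ j, W i j ^ 2 * |k (a i) - k (b j)| := by
        refine (Finset.abs_sum_le_sum_abs _ _).trans (Finset.sum_le_sum fun i _ => ?_)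
        refine (Finset.abs_sum_le_sum_abs _ _).trans (Finset.sum_le_sum fun j _ => ?_)
        rw [abs_mul, abs_of_nonneg (sq_nonneg (W i j))]
    _ ≤ ∑ i, ∑ j, W i j ^ 2 * (α * (a i ^ 2 + b j ^ 2) + c * ((|a i| + |b j|) * |a i - b j|)) := by
        refine Finset.sum_le_sum fun i _ => Finset.sum_le_sum fun j _ => ?_
        exact mul_le_mul_of_nonneg_left (hk _ _) (sq_nonneg _)
    _ = α * ∑ i, ∑ j, W i j ^ 2 * (a i ^ 2 + b j ^ 2) +
        c * ∑ i, ∑ j, W i j ^ 2 * ((|a i| + |b j|) * |a i - b j|) := by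
        rw [Finset.mul_sum, Finset.mul_sum, ← Finset.sum_add_distrib]
        refine Finset.sum_congr rfl fun i _ => ?_
        rw [Finset.mul_sum, Finset.mul_sum, ← Finset.sum_add_distrib]
        refine Finset.sum_congr rfl fun j _ => ?_
        ring
    _ ≤ _ := by
        rw [s1]
        gcongr

/-- the spectral sum does not depend on the diagonalisation -/
lemma sum_eq_of_isDg {A : Matrix ι ι ℝ} {a b : ι → ℝ} (hA : IsDg A a) (hB : IsDg A b)
    (k : ℝ → ℝ) : ∑ i, k (a i) = ∑ i, k (b i) := by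
  obtain ⟨W, hW1, hW2, hW⟩ := exists_W hA hB
  have h0 : hs (A - A) = 0 := by rw [sub_self]; simp [hs]
  rw [h0] at hW
  have hz : ∀ i j, W i j ^ 2 * (a i - b j) ^ 2 = 0 := by
    intro i j
    have h1 := (Finset.sum_eq_zero_iff_of_nonneg
      (fun i _ => Finset.sum_nonneg fun j _ => by positivity)).mp hW.symm i (Finset.mem_univ _)
    exact (Finset.sum_eq_zero_iff_of_nonneg (fun j _ => by positivity)).mp h1 j (Finset.mem_univ _)
  have hz' : ∀ i j, W i j ^ 2 * k (a i) = W i j ^ 2 * k (b j) := by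
    intro i j
    rcases mul_eq_zero.mp (hz i j) with h | h
    · rw [h]; ring
    · have : a i = b j := by
        have := pow_eq_zero_iff (two_ne_zero) |>.mp h
        linarith
      rw [this]
  calc ∑ i, k (a i) = ∑ i, ∑ j, W i j ^ 2 * k (a i) := by
        refine Finset.sum_congr rfl fun i _ => ?_
        rw [← Finset.sum_mul, hW1, one_mul]
    _ = ∑ i, ∑ j, W i j ^ 2 * k (b j) := by
        refine Finset.sum_congr rfl fun i _ => Finset.sum_congr rfl fun j _ => hz' i j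
    _ = ∑ i, k (b i) := by
        rw [Finset.sum_comm]
        refine Finset.sum_congr rfl fun i _ => ?_
        rw [← Finset.sum_mul, hW2, one_mul]

end Dg

section Comm

variable {ι κ : Type*} [Fintype ι] [DecidableEq ι] [Fintype κ] [DecidableEq κ]

open Polynomial in
/-- spectral sums of `XY` and of a symmetric matrix with the characteristic polynomial of `YX` -/
theorem sum_eig_comm {X' : Matrix ι κ ℝ} {Y : Matrix κ ι ℝ} (hXY : (X' * Y).IsHermitian)
    {B : Matrix κ κ ℝ} (hB : B.IsHermitian) (hc : B.charpoly = (Y * X').charpoly)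
    {k : ℝ → ℝ} (k0 : k 0 = 0) :
    ∑ i, k (hXY.eigenvalues i) = ∑ i, k (hB.eigenvalues i) := by
  have h := Matrix.charpoly_mul_comm' X' Y
  rw [← hc] at h
  have h1 : (X ^ Fintype.card κ * (X' * Y).charpoly).roots =
      (X ^ Fintype.card ι * B.charpoly).roots := by rw [h]
  have n1 : (X' * Y).charpoly ≠ 0 := (Matrix.charpoly_monic _).ne_zero
  have n2 : B.charpoly ≠ 0 := (Matrix.charpoly_monic _).ne_zero
  have n3 : ∀ j : ℕ, (X ^ j : ℝ[X]) ≠ 0 := fun j => pow_ne_zero _ X_ne_zero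
  rw [Polynomial.roots_mul (mul_ne_zero (n3 _) n1), Polynomial.roots_mul (mul_ne_zero (n3 _) n2),
    Polynomial.roots_X_pow, Polynomial.roots_X_pow, hXY.roots_charpoly_eq_eigenvalues,
    hB.roots_charpoly_eq_eigenvalues] at h1
  have h2 := congrArg (fun s => (s.map k).sum) h1
  simp only [Multiset.map_add, Multiset.sum_add, Multiset.map_nsmul, Multiset.map_singleton, k0,
    Multiset.sum_nsmul, Multiset.sum_singleton, smul_zero, zero_add, Multiset.map_map] at h2
  exact h2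

end Comm

end Crest.Agent.R166.Rec255
end
end

-- ▼ part R166/Rec2_255
section

/-!
# Row 166, section 52 (reconstruction), part 2: Gaussian second moments (helper255)

* `int_rows`  : `E ∑_{kl} (∑_i c_i (g_ik g_il - δ_kl))² ≤ V4 m² ∑ c_i²`
* `int_gram`  : `E ∑_{ij} (∑_k (g_ik g_jk - δ_ij))² ≤ V4 r² m`
-/

set_option autoImplicit false

noncomputable section

namespace Crest.Agent.R166.Rec255

open Matrix MeasureTheory ProbabilityTheory Gauss286

variable {ι κ : Type*} [Fintype ι] [Fintype κ]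

/-- a bound for the variance of `g_k g_l - δ_kl` -/
def V4 : ℝ := 2 * (∫ x : ℝ, x ^ 4 ∂gaussianReal 0 1) + 2

lemma V4_pos : 0 < V4 := by
  unfold V4
  have : 0 ≤ ∫ x : ℝ, x ^ 4 ∂gaussianReal 0 1 := integral_nonneg fun x => by positivity
  linarith

lemma integrable_pow4 : Integrable (fun x : ℝ => x ^ 4) (gaussianReal 0 1) := by
  have h := (memLp_id_gaussianReal' (μ := 0) (v := 1) 4 (by norm_num)).integrable_norm_pow
    (p := 4) (by norm_num)
  refine h.congr (Filter.Eventually.of_forall fun x => ?_)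
  simp only [id, Real.norm_eq_abs]
  exact Even.pow_abs (by decide) x

lemma integrable_sq' : Integrable (fun x : ℝ => x ^ 2) (gaussianReal 0 1) := by
  have h := (memLp_id_gaussianReal' (μ := 0) (v := 1) 2 (by norm_num)).integrable_norm_pow
    (p := 2) (by norm_num)
  refine h.congr (Filter.Eventually.of_forall fun x => ?_)
  simp only [id, Real.norm_eq_abs, sq_abs]

lemma integral_sq' : ∫ x : ℝ, x ^ 2 ∂gaussianReal 0 1 = 1 := by
  have h := variance_id_gaussianReal (μ := 0) (v := 1)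
  rw [variance_of_integral_eq_zero (by fun_prop) (by simp)] at h
  simpa using h

lemma gv_eval {f : ℝ → ℝ} (k : κ) (hf : Measurable f) :
    ∫ v : κ → ℝ, f (v k) ∂gv κ = ∫ x, f x ∂gaussianReal 0 1 := by
  have h := measurePreserving_eval (fun _ : κ => gaussianReal 0 1) k
  rw [← h.map_eq, integral_map h.measurable.aemeasurable hf.aestronglyMeasurable]

lemma integrable_eval {f : ℝ → ℝ} (k : κ) (hf : Integrable f (gaussianReal 0 1)) :
    Integrable (fun v : κ → ℝ => f (v k)) (gv κ) :=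
  (measurePreserving_eval (fun _ : κ => gaussianReal 0 1) k).integrable_comp_of_integrable hf

section
variable [DecidableEq κ]

/-- `g_k g_l - δ_kl` -/
def Zc (k l : κ) (v : κ → ℝ) : ℝ := v k * v l - if k = l then 1 else 0

omit [Fintype κ] in
lemma measurable_Zc (k l : κ) : Measurable (Zc k l) := by
  unfold Zc
  exact ((measurable_pi_apply k).mul (measurable_pi_apply l)).sub_const _

omit [DecidableEq κ] in
lemma integrable_mul_eval (k l : κ) : Integrable (fun v : κ → ℝ => v k * v l) (gv κ) := by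
  have h1 := integrable_eval k integrable_sq' (κ := κ)
  have h2 := integrable_eval l integrable_sq' (κ := κ)
  refine (h1.add h2).mono' (by fun_prop) (Filter.Eventually.of_forall fun v => ?_)
  rw [Real.norm_eq_abs, abs_mul, Pi.add_apply]
  nlinarith [sq_nonneg (|v k| - |v l|), sq_abs (v k), sq_abs (v l), sq_nonneg (v k),
    sq_nonneg (v l)]

lemma integral_mul_eval (k l : κ) : ∫ v : κ → ℝ, v k * v l ∂gv κ = if k = l then 1 else 0 := by
  split_ifs with h
  · subst h
    have := gv_eval (κ := κ) k (f := fun x => x ^ 2) (by fun_prop)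
    rw [integral_sq'] at this
    rw [← this]
    exact integral_congr_ae (Filter.Eventually.of_forall fun v => by simp only; ring)
  · have hI := iIndepFun_pi (μ := fun _ : κ => gaussianReal 0 1) (X := fun _ => id)
      (fun _ => aemeasurable_id)
    have h2 := (hI.indepFun h).integral_fun_mul_eq_mul_integral
      ((measurable_pi_apply k).aestronglyMeasurable) ((measurable_pi_apply l).aestronglyMeasurable)
    simp only [id] at h2
    rw [h2, gv_eval (κ := κ) k (f := fun x => x) measurable_id, integral_id_gaussianReal, zero_mul]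

lemma integral_Zc (k l : κ) : ∫ v, Zc k l v ∂gv κ = 0 := by
  unfold Zc
  rw [integral_sub (integrable_mul_eval k l) (integrable_const _), integral_mul_eval]
  simp

lemma integrable_Zc_sq (k l : κ) : Integrable (fun v => Zc k l v ^ 2) (gv κ) ∧
    ∫ v, Zc k l v ^ 2 ∂gv κ ≤ V4 := by
  have h1 := integrable_eval k integrable_pow4 (κ := κ)
  have h2 := integrable_eval l integrable_pow4 (κ := κ)
  have hle : ∀ v : κ → ℝ, Zc k l v ^ 2 ≤ v k ^ 4 + v l ^ 4 + 2 := by
    intro v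
    unfold Zc
    have a1 : (v k * v l) ^ 2 ≤ (v k ^ 4 + v l ^ 4) / 2 := by
      nlinarith [sq_nonneg (v k ^ 2 - v l ^ 2)]
    split_ifs
    · nlinarith [sq_nonneg (v k * v l + 1)]
    · nlinarith [sq_nonneg (v k * v l), sq_nonneg (v k ^ 2), sq_nonneg (v l ^ 2)]
  have hI : Integrable (fun v : κ → ℝ => v k ^ 4 + v l ^ 4 + 2) (gv κ) :=
    (h1.add h2).add (integrable_const _)
  have hI2 : Integrable (fun v => Zc k l v ^ 2) (gv κ) := by
    refine hI.mono' ((measurable_Zc k l).pow_const 2).aestronglyMeasurable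
      (Filter.Eventually.of_forall fun v => ?_)
    rw [Real.norm_of_nonneg (sq_nonneg _)]
    exact hle v
  refine ⟨hI2, ?_⟩
  calc ∫ v, Zc k l v ^ 2 ∂gv κ ≤ ∫ v : κ → ℝ, (v k ^ 4 + v l ^ 4 + 2) ∂gv κ :=
        integral_mono hI2 hI hle
    _ = V4 := by
        have e1 := gv_eval (κ := κ) k (f := fun x => x ^ 4) (by fun_prop)
        have e2 := gv_eval (κ := κ) l (f := fun x => x ^ 4) (by fun_prop)
        have h12 : Integrable (fun v : κ → ℝ => v k ^ 4 + v l ^ 4) (gv κ) := h1.add h2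
        rw [integral_add h12 (integrable_const _), integral_add h1 h2, e1, e2]
        simp only [integral_const, probReal_univ, smul_eq_mul, one_mul]
        unfold V4
        ring

/-- second moment of a sum over rows -/
lemma int_sum_sq (c : ι → ℝ) {Z : (κ → ℝ) → ℝ} (hm : Measurable Z) (h0 : ∫ v, Z v ∂gv κ = 0)
    (h2 : Integrable (fun v => Z v ^ 2) (gv κ)) :
    Integrable (fun g : ι → κ → ℝ => (∑ i, c i * Z (g i)) ^ 2) (gm ι κ) ∧
    ∫ g : ι → κ → ℝ, (∑ i, c i * Z (g i)) ^ 2 ∂gm ι κ = (∑ i, c i ^ 2) * ∫ v, Z v ^ 2 ∂gv κ := by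
  classical
  have hL : MemLp Z 2 (gv κ) := (memLp_two_iff_integrable_sq hm.aestronglyMeasurable).mpr h2
  have hI := iIndepFun_pi (μ := fun _ : ι => gv κ) (X := fun i v => c i * Z v)
    (fun i => (hm.const_mul (c i)).aemeasurable)
  have hp : ∀ i, MeasurePreserving (Function.eval i) (gm ι κ) (gv κ) := fun i =>
    measurePreserving_eval (fun _ : ι => gv κ) i
  have hLi : ∀ i, MemLp (fun g : ι → κ → ℝ => c i * Z (g i)) 2 (gm ι κ) := fun i =>
    (hL.const_mul (c i)).comp_measurePreserving (hp i)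
  have hv := IndepFun.variance_sum (s := Finset.univ)
    (X := fun i (g : ι → κ → ℝ) => c i * Z (g i)) (μ := gm ι κ) (fun i _ => hLi i)
    (fun i _ j _ hij => hI.indepFun hij)
  have e0 : (∑ i : ι, fun g : ι → κ → ℝ => c i * Z (g i)) = fun g => ∑ i, c i * Z (g i) := by
    ext g; simp
  rw [e0] at hv
  have hmi : ∀ i, Measurable (fun g : ι → κ → ℝ => c i * Z (g i)) := fun i =>
    (hm.comp (measurable_pi_apply i)).const_mul _
  have hZi : ∀ i, ∫ g : ι → κ → ℝ, c i * Z (g i) ∂gm ι κ = 0 := by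
    intro i
    rw [integral_const_mul]
    have : ∫ g : ι → κ → ℝ, Z (g i) ∂gm ι κ = ∫ v, Z v ∂gv κ := by
      rw [← (hp i).map_eq, integral_map (hp i).measurable.aemeasurable hm.aestronglyMeasurable]
    rw [this, h0, mul_zero]
  have hsum : MemLp (fun g : ι → κ → ℝ => ∑ i, c i * Z (g i)) 2 (gm ι κ) :=
    memLp_finsetSum _ fun i _ => hLi i
  refine ⟨hsum.integrable_sq, ?_⟩
  rw [variance_of_integral_eq_zero hsum.aestronglyMeasurable.aemeasurable (by
    rw [integral_finsetSum _ fun i _ => (hLi i).integrable one_le_two]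
    exact Finset.sum_eq_zero fun i _ => hZi i)] at hv
  have e1 : ∀ i, Var[fun g : ι → κ → ℝ => c i * Z (g i); gm ι κ] =
      c i ^ 2 * ∫ v, Z v ^ 2 ∂gv κ := by
    intro i
    rw [variance_of_integral_eq_zero (hmi i).aemeasurable (hZi i)]
    have : ∫ g : ι → κ → ℝ, Z (g i) ^ 2 ∂gm ι κ = ∫ v, Z v ^ 2 ∂gv κ := by
      rw [← (hp i).map_eq, integral_map (hp i).measurable.aemeasurable
        (hm.pow_const 2).aestronglyMeasurable]
    rw [← this, ← integral_const_mul]
    exact integral_congr_ae (Filter.Eventually.of_forall fun g => by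
      simp only; ring)
  simp only [e1] at hv
  rw [Finset.sum_mul]
  exact hv

/-- `∑_i c_i (g_ik g_il - δ_kl)` -/
def rowM (c : ι → ℝ) (g : ι → κ → ℝ) : Matrix κ κ ℝ := fun k l => ∑ i, c i * Zc k l (g i)

/-- `E hs ≤ V4 m² ∑ c²` -/
theorem int_rows (c : ι → ℝ) :
    Integrable (fun g : ι → κ → ℝ => hs (rowM c g)) (gm ι κ) ∧
    ∫ g : ι → κ → ℝ, hs (rowM c g) ∂gm ι κ ≤
      V4 * (Fintype.card κ : ℝ) ^ 2 * ∑ i, c i ^ 2 := by
  unfold hs rowM
  have h : ∀ k l : κ, _ := fun k l => int_sum_sq (ι := ι) c (measurable_Zc k l) (integral_Zc k l)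
    (integrable_Zc_sq k l).1
  have hI : ∀ k : κ, Integrable (fun g : ι → κ → ℝ => ∑ l, (∑ i, c i * Zc k l (g i)) ^ 2)
      (gm ι κ) := fun k => integrable_finsetSum _ fun l _ => (h k l).1
  refine ⟨integrable_finsetSum _ fun k _ => hI k, ?_⟩
  rw [integral_finsetSum _ fun k _ => hI k]
  calc ∑ k : κ, ∫ g : ι → κ → ℝ, ∑ l, (∑ i, c i * Zc k l (g i)) ^ 2 ∂gm ι κ
      = ∑ k : κ, ∑ l : κ, (∑ i, c i ^ 2) * ∫ v, Zc k l v ^ 2 ∂gv κ := by
        refine Finset.sum_congr rfl fun k _ => ?_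
        rw [integral_finsetSum _ fun l _ => (h k l).1]
        exact Finset.sum_congr rfl fun l _ => (h k l).2
    _ ≤ ∑ k : κ, ∑ l : κ, (∑ i, c i ^ 2) * V4 := by
        refine Finset.sum_le_sum fun k _ => Finset.sum_le_sum fun l _ => ?_
        exact mul_le_mul_of_nonneg_left (integrable_Zc_sq k l).2 (by positivity)
    _ = _ := by
        simp only [Finset.sum_const, Finset.card_univ, nsmul_eq_mul]
        ring

end

section
variable [DecidableEq ι]



end

end Crest.Agent.R166.Rec255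
end
end

-- ▼ part R166/Rec3_255
section

/-!
# Row 166, section 52 (reconstruction), part 3: deterministic estimates (helper255)

* `kf h μ = h (1/μ)` (`0` at `0`) and its modulus `kf_mod`
* `near_sum` : spectral sums of `Gᵀ D G` for an almost orthonormal family
* `det_core` : `|∑ k(λ_i(N+F)) - ∑ k(d_j)| ≤ ε` when `F` and `G Gᵀ - 1` are small
-/

set_option autoImplicit false

noncomputable section

namespace Crest.Agent.R166.Rec255

open Matrix

/-- `μ ↦ h (1/μ)`, value `0` at `0` -/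
def kf (h : ℝ → ℝ) (μ : ℝ) : ℝ := if μ = 0 then 0 else h μ⁻¹

lemma kf_zero (h : ℝ → ℝ) : kf h 0 = 0 := if_pos rfl

lemma kf_nonneg {h : ℝ → ℝ} (h0 : ∀ t, 0 ≤ h t) (μ : ℝ) : 0 ≤ kf h μ := by
  unfold kf; split_ifs
  · exact le_rfl
  · exact h0 _

/-- modulus of `kf h` -/
lemma kf_mod {h : ℝ → ℝ} (hc : Continuous h) (hs : HasCompactSupport h) {ε : ℝ} (hε : 0 < ε) :
    ∃ c : ℝ, 0 ≤ c ∧ ∀ x y, |kf h x - kf h y| ≤ ε * (x ^ 2 + y ^ 2) + c * ((|x| + |y|) * |x - y|) := by
  -- support radius and bound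
  obtain ⟨R, hR1, hR⟩ : ∃ R : ℝ, 1 ≤ R ∧ ∀ t, R < |t| → h t = 0 := by
    obtain ⟨R, hR⟩ := hs.isCompact.isBounded.subset_closedBall 0
    refine ⟨max R 1, le_max_right _ _, fun t ht => ?_⟩
    by_contra hne
    have h1 : t ∈ tsupport h := subset_tsupport h hne
    have h2 := hR h1
    rw [Metric.mem_closedBall, dist_zero_right, Real.norm_eq_abs] at h2
    exact absurd (lt_of_lt_of_le ht h2) (not_lt.mpr (le_max_left _ _))
  obtain ⟨B, hB0, hB⟩ : ∃ B : ℝ, 0 ≤ B ∧ ∀ t, |h t| ≤ B := by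
    obtain ⟨B, hB⟩ := hc.bounded_above_of_compact_support hs
    exact ⟨B, (norm_nonneg _).trans (hB 0), fun t => hB t⟩
  have hu : UniformContinuous h := hc.uniformContinuous_of_tendsto_cocompact
    hs.is_zero_at_infty
  obtain ⟨η, hη, hη'⟩ := Metric.uniformContinuous_iff.mp hu (ε / R ^ 2) (by positivity)
  have hR0 : 0 < R := by linarith
  have hkB : ∀ x y, |kf h x - kf h y| ≤ 2 * B := by
    intro x y
    have : ∀ z, |kf h z| ≤ B := by
      intro z; unfold kf; split_ifs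
      · simpa using hB0
      · exact hB _
    calc |kf h x - kf h y| ≤ |kf h x| + |kf h y| := abs_sub _ _
      _ ≤ _ := by linarith [this x, this y]
  have hk0 : ∀ x, |x| < 1 / R → kf h x = 0 := by
    intro x hx
    unfold kf
    split_ifs with h0
    · rfl
    · apply hR
      rw [abs_inv]
      have hx0 : 0 < |x| := abs_pos.mpr h0
      rw [lt_inv_comm₀ hR0 hx0, ← one_div]
      exact hx
  refine ⟨2 * B * (2 * R) * R + 2 * B * (4 * R ^ 2 / η) * R, by positivity, fun x y => ?_⟩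
  have hp1 : 0 ≤ ε * (x ^ 2 + y ^ 2) := by positivity
  have hp2 : 0 ≤ (|x| + |y|) * |x - y| := by positivity
  by_cases hxy : |x| < 1 / R ∧ |y| < 1 / R
  · rw [hk0 x hxy.1, hk0 y hxy.2, sub_self, abs_zero]
    positivity
  -- at least one is large
  have hbig : 1 / R ≤ |x| ∨ 1 / R ≤ |y| := by
    by_contra hcon
    push Not at hcon
    exact hxy hcon
  have hsum : 1 ≤ R * (|x| + |y|) := by
    have h1 : 1 / R ≤ |x| + |y| := by
      rcases hbig with h | h
      · linarith [abs_nonneg y]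
      · linarith [abs_nonneg x]
    calc (1 : ℝ) = R * (1 / R) := by field_simp
      _ ≤ _ := by gcongr
  have hsq : 1 / R ^ 2 ≤ x ^ 2 + y ^ 2 := by
    have h2 : ∀ z : ℝ, 1 / R ≤ |z| → 1 / R ^ 2 ≤ z ^ 2 := by
      intro z hz
      rw [← sq_abs z]
      calc 1 / R ^ 2 = (1 / R) ^ 2 := by rw [div_pow, one_pow]
        _ ≤ _ := by gcongr
    rcases hbig with h | h
    · linarith [h2 x h, sq_nonneg y]
    · linarith [h2 y h, sq_nonneg x]
  -- far apart
  by_cases hfar : 1 / (2 * R) ≤ |x - y|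
  · have h1 : 1 ≤ 2 * R * |x - y| := by
      calc (1 : ℝ) = 2 * R * (1 / (2 * R)) := by field_simp
        _ ≤ _ := by gcongr
    calc |kf h x - kf h y| ≤ 2 * B := hkB x y
      _ = 2 * B * 1 * 1 := by ring
      _ ≤ 2 * B * (2 * R * |x - y|) * (R * (|x| + |y|)) := by gcongr
      _ = 2 * B * (2 * R) * R * ((|x| + |y|) * |x - y|) := by ring
      _ ≤ (2 * B * (2 * R) * R + 2 * B * (4 * R ^ 2 / η) * R) * ((|x| + |y|) * |x - y|) := by
          apply mul_le_mul_of_nonneg_right _ hp2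
          have : 0 ≤ 2 * B * (4 * R ^ 2 / η) * R := by positivity
          linarith
      _ ≤ _ := by linarith
  · push Not at hfar
    -- both are large
    have hx2 : 1 / (2 * R) < |x| ∧ 1 / (2 * R) < |y| := by
      have e1 : 1 / R = 1 / (2 * R) + 1 / (2 * R) := by field_simp; norm_num
      have e0 : 0 < 1 / (2 * R) := by positivity
      rcases hbig with h | h
      · have h3 : |x| ≤ |y| + |x - y| := by
          have := abs_add_le y (x - y)
          rwa [add_sub_cancel] at this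
        exact ⟨by linarith, by linarith⟩
      · have h3 : |y| ≤ |x| + |x - y| := by
          have := abs_add_le x (y - x)
          rw [add_sub_cancel, abs_sub_comm y x] at this
          exact this
        exact ⟨by linarith, by linarith⟩
    have hx0 : x ≠ 0 := by
      rintro rfl
      rw [abs_zero] at hx2
      exact absurd hx2.1 (not_lt.mpr (by positivity))
    have hy0 : y ≠ 0 := by
      rintro rfl
      rw [abs_zero] at hx2
      exact absurd hx2.2 (not_lt.mpr (by positivity))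
    have hinv : |x⁻¹ - y⁻¹| ≤ 4 * R ^ 2 * |x - y| := by
      have e1 : x⁻¹ - y⁻¹ = (y - x) / (x * y) := by field_simp
      rw [e1, abs_div, abs_mul, abs_sub_comm y x, div_le_iff₀ (by positivity)]
      have h4 : 1 / (4 * R ^ 2) ≤ |x| * |y| := by
        calc 1 / (4 * R ^ 2) = 1 / (2 * R) * (1 / (2 * R)) := by field_simp; norm_num
          _ ≤ |x| * |y| := mul_le_mul hx2.1.le hx2.2.le (by positivity) (abs_nonneg _)
      calc |x - y| = 4 * R ^ 2 * |x - y| * (1 / (4 * R ^ 2)) := by field_simp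
        _ ≤ 4 * R ^ 2 * |x - y| * (|x| * |y|) := by gcongr
    have ekx : kf h x = h x⁻¹ := if_neg hx0
    have eky : kf h y = h y⁻¹ := if_neg hy0
    by_cases hclose : |x⁻¹ - y⁻¹| < η
    · have h5 := hη' (show dist x⁻¹ y⁻¹ < η by rwa [Real.dist_eq])
      rw [Real.dist_eq] at h5
      rw [ekx, eky]
      calc |h x⁻¹ - h y⁻¹| ≤ ε / R ^ 2 := h5.le
        _ = ε * (1 / R ^ 2) := by ring
        _ ≤ ε * (x ^ 2 + y ^ 2) := by gcongr
        _ ≤ _ := by
            have : 0 ≤ (2 * B * (2 * R) * R + 2 * B * (4 * R ^ 2 / η) * R) *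
              ((|x| + |y|) * |x - y|) := by positivity
            linarith
    · push Not at hclose
      have h6 : 1 ≤ 4 * R ^ 2 / η * |x - y| := by
        rw [div_mul_eq_mul_div, le_div_iff₀ hη, one_mul]
        exact hclose.trans hinv
      calc |kf h x - kf h y| ≤ 2 * B := hkB x y
        _ = 2 * B * 1 * 1 := by ring
        _ ≤ 2 * B * (4 * R ^ 2 / η * |x - y|) * (R * (|x| + |y|)) := by gcongr
        _ = 2 * B * (4 * R ^ 2 / η) * R * ((|x| + |y|) * |x - y|) := by ring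
        _ ≤ (2 * B * (2 * R) * R + 2 * B * (4 * R ^ 2 / η) * R) * ((|x| + |y|) * |x - y|) := by
            apply mul_le_mul_of_nonneg_right _ hp2
            have : 0 ≤ 2 * B * (2 * R) * R := by positivity
            linarith
        _ ≤ _ := by linarith

section

variable {ι κ : Type*} [Fintype ι] [DecidableEq ι] [Fintype κ] [DecidableEq κ]

omit [DecidableEq ι] in
/-- symmetric square root, close to `1` -/
lemma exists_sqrt (G : Matrix κ ι ℝ) : ∃ S : Matrix κ κ ℝ, Sᵀ = S ∧ S * S = G * Gᵀ ∧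
    hs (S - 1) ≤ hs (G * Gᵀ - 1) := by
  have hps : (G * Gᵀ).PosSemidef := by
    have := Matrix.posSemidef_self_mul_conjTranspose G
    rwa [conjTranspose_eq_transpose_of_trivial] at this
  have hH := hps.isHermitian
  obtain ⟨O, h1, h2, h3⟩ := isDg_eigenvalues hH
  set γ := hH.eigenvalues with hγ
  have hγ0 : ∀ i, 0 ≤ γ i := hps.eigenvalues_nonneg
  refine ⟨O * diagonal (fun i => Real.sqrt (γ i)) * Oᵀ, ?_, ?_, ?_⟩
  · rw [Matrix.transpose_mul, Matrix.transpose_mul, Matrix.transpose_transpose,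
      Matrix.diagonal_transpose, Matrix.mul_assoc]
  · rw [h3, Matrix.mul_assoc (O * diagonal _) Oᵀ, ← Matrix.mul_assoc Oᵀ, ← Matrix.mul_assoc Oᵀ, h1,
      Matrix.one_mul, ← Matrix.mul_assoc, Matrix.mul_assoc O, Matrix.diagonal_mul_diagonal]
    simp only [Real.mul_self_sqrt (hγ0 _)]
  · have e1 : (1 : Matrix κ κ ℝ) = O * diagonal (fun _ => (1 : ℝ)) * Oᵀ := by
      rw [Matrix.diagonal_one, Matrix.mul_one, h2]
    have hd : ∀ a : κ → ℝ, hs (O * diagonal a * Oᵀ - 1) = ∑ i, (a i - 1) ^ 2 := by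
      intro a
      have : IsDg (O * diagonal a * Oᵀ - 1) (fun i => a i - 1) := by
        refine ⟨O, h1, h2, ?_⟩
        rw [← Matrix.diagonal_sub a (fun _ => (1 : ℝ)), Matrix.mul_sub, Matrix.sub_mul, ← e1]
      exact this.hs_eq
    have e2 : hs (G * Gᵀ - 1) = ∑ i, (γ i - 1) ^ 2 := by
      conv_lhs => rw [h3]
      exact hd _
    rw [hd, e2]
    refine Finset.sum_le_sum fun i _ => ?_
    have s1 := Real.sqrt_nonneg (γ i)
    have s2 := Real.mul_self_sqrt (hγ0 i)
    have e3 : γ i - 1 = (Real.sqrt (γ i) - 1) * (Real.sqrt (γ i) + 1) := by nlinarith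
    rw [e3, mul_pow]
    have : 1 ≤ (Real.sqrt (γ i) + 1) ^ 2 := by nlinarith
    nlinarith [sq_nonneg (Real.sqrt (γ i) - 1)]

/-- `S D S - D` is small -/
lemma hs_SDS_le {S : Matrix κ κ ℝ} {d : κ → ℝ} {θ : ℝ} (hd : ∀ i, |d i| ≤ θ)
    (hS : hs (S - 1) ≤ 1) :
    hs (S * diagonal d * S - diagonal d) ≤ 12 * θ ^ 2 * hs (S - 1) := by
  have e1 : S * diagonal d * S - diagonal d =
      ((S - 1) * diagonal d + diagonal d * (S - 1)) + (S - 1) * diagonal d * (S - 1) := by
    noncomm_ring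
  have h0 := hs_nonneg (S - 1)
  have a1 := hs_mul_diag_le hd (S - 1)
  have a2 := hs_diag_mul_le hd (S - 1)
  have a3 : hs ((S - 1) * diagonal d * (S - 1)) ≤ θ ^ 2 * hs (S - 1) := by
    refine (hs_mul_le _ _).trans ?_
    calc hs ((S - 1) * diagonal d) * hs (S - 1) ≤ θ ^ 2 * hs (S - 1) * 1 := by
          apply mul_le_mul a1 hS h0 (by positivity)
      _ = _ := by ring
  rw [e1]
  have b1 := hs_add_le ((S - 1) * diagonal d + diagonal d * (S - 1)) ((S - 1) * diagonal d * (S - 1))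
  have b2 := hs_add_le ((S - 1) * diagonal d) (diagonal d * (S - 1))
  have b3 : 0 ≤ θ ^ 2 * hs (S - 1) := by positivity
  nlinarith

/-- spectral sums of `Gᵀ D G` -/
lemma near_sum {G : Matrix κ ι ℝ} {S : Matrix κ κ ℝ} {d : κ → ℝ} (hS : Sᵀ = S)
    (hSS : S * S = G * Gᵀ) (hN : (Gᵀ * (diagonal d * G)).IsHermitian) :
    ∃ hB : (S * diagonal d * S).IsHermitian, ∀ k : ℝ → ℝ, k 0 = 0 →
      ∑ i, k (hN.eigenvalues i) = ∑ i, k (hB.eigenvalues i) := by
  have hB : (S * diagonal d * S).IsHermitian := by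
    rw [Matrix.IsHermitian, conjTranspose_eq_transpose_of_trivial, Matrix.transpose_mul,
      Matrix.transpose_mul, Matrix.diagonal_transpose, hS, Matrix.mul_assoc]
  refine ⟨hB, fun k k0 => ?_⟩
  refine sum_eig_comm hN hB ?_ k0
  rw [Matrix.mul_assoc, Matrix.charpoly_mul_comm, Matrix.mul_assoc, hSS, Matrix.mul_assoc]

lemma hs_eq_sum_eig {A : Matrix ι ι ℝ} (hA : A.IsHermitian) : hs A = ∑ i, hA.eigenvalues i ^ 2 :=
  (isDg_eigenvalues hA).hs_eq

end

/-- **deterministic core** -/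
theorem det_core {h : ℝ → ℝ} (hc : Continuous h) (hs' : HasCompactSupport h) {H θ ε : ℝ}
    (hH : 0 ≤ H) (hε : 0 < ε) :
    ∃ φ : ℝ, 0 < φ ∧ ∀ {ι κ : Type} [Fintype ι] [DecidableEq ι] [Fintype κ] [DecidableEq κ]
      (G : Matrix κ ι ℝ) (d : κ → ℝ) (F : Matrix ι ι ℝ)
      (hA : (Gᵀ * (diagonal d * G) + F).IsHermitian), (∀ j, |d j| ≤ θ) → ∑ j, d j ^ 2 ≤ H →
      hs (G * Gᵀ - 1) ≤ φ → hs F ≤ φ →
      |∑ i, kf h (hA.eigenvalues i) - ∑ j, kf h (d j)| ≤ ε := by
  set ε1 : ℝ := ε / (32 * (H + 1)) with hε1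
  have hε1' : 0 < ε1 := by positivity
  obtain ⟨c, hc0, hcm⟩ := kf_mod hc hs' hε1'
  set φ0 : ℝ := min 1 ((ε / (16 * (c + 1) * Real.sqrt (H + 1))) ^ 2) with hφ0
  have hφ0' : 0 < φ0 := by
    refine lt_min one_pos ?_
    positivity
  refine ⟨min φ0 (φ0 / (12 * (θ ^ 2 + 1))), by positivity, ?_⟩
  intro ι κ _ _ _ _ G d F hA hd hdH hG hF
  obtain ⟨S, hS, hSS, hS1⟩ := exists_sqrt G
  have hF0 : hs F ≤ φ0 := hF.trans (min_le_left _ _)
  have hF1 : hs F ≤ 1 := hF0.trans (min_le_left _ _)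
  have hSle : hs (S - 1) ≤ φ0 / (12 * (θ ^ 2 + 1)) := hS1.trans (hG.trans (min_le_right _ _))
  have hSle1 : hs (S - 1) ≤ 1 := hS1.trans (hG.trans ((min_le_left _ _).trans (min_le_left _ _)))
  have hq : hs (S * diagonal d * S - diagonal d) ≤ φ0 := by
    refine (hs_SDS_le hd hSle1).trans ?_
    calc 12 * θ ^ 2 * hs (S - 1) ≤ 12 * (θ ^ 2 + 1) * (φ0 / (12 * (θ ^ 2 + 1))) := by
          apply mul_le_mul _ hSle (hs_nonneg _) (by positivity)
          nlinarith
      _ = φ0 := by field_simp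
  have hq1 : hs (S * diagonal d * S - diagonal d) ≤ 1 := hq.trans (min_le_left _ _)
  have hN : (Gᵀ * (diagonal d * G)).IsHermitian := by
    rw [Matrix.IsHermitian, conjTranspose_eq_transpose_of_trivial, Matrix.transpose_mul,
      Matrix.transpose_mul, Matrix.diagonal_transpose, Matrix.transpose_transpose, Matrix.mul_assoc]
  obtain ⟨hB, hNB⟩ := near_sum hS hSS hN
  have hDd : hs (diagonal d) ≤ H := by rw [hs_diagonal]; exact hdH
  have hB2 : hs (S * diagonal d * S) ≤ 2 * (H + 1) := by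
    have := hs_add_le (diagonal d) (S * diagonal d * S - diagonal d)
    rw [add_sub_cancel] at this
    linarith
  have hN2 : hs (Gᵀ * (diagonal d * G)) ≤ 2 * (H + 1) := by
    rw [hs_eq_sum_eig hN, hNB (fun μ => μ ^ 2) (by norm_num), ← hs_eq_sum_eig hB]
    exact hB2
  have hA2 : hs (Gᵀ * (diagonal d * G) + F) ≤ 6 * (H + 1) := by
    have := hs_add_le (Gᵀ * (diagonal d * G)) F
    linarith
  -- first comparison
  have c1 := abs_sum_sub_le (isDg_eigenvalues hA) (isDg_eigenvalues hN) hc0 hcm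
  have c2 := abs_sum_sub_le (isDg_eigenvalues hB) (isDg_diagonal d) hc0 hcm
  rw [add_sub_cancel_left] at c1
  have hsq : ∀ a q : ℝ, 0 ≤ a → a ≤ 8 * (H + 1) → 0 ≤ q → q ≤ φ0 →
      ε1 * a + c * (Real.sqrt (2 * a) * Real.sqrt q) ≤ ε / 2 := by
    intro a q ha0 ha hq0 hq
    have t1 : ε1 * a ≤ ε / 4 := by
      calc ε1 * a ≤ ε1 * (8 * (H + 1)) := by gcongr
        _ = ε / 4 := by rw [hε1]; field_simp; norm_num
    have t2 : Real.sqrt (2 * a) ≤ 4 * Real.sqrt (H + 1) := by
      rw [show (4 : ℝ) * Real.sqrt (H + 1) = Real.sqrt (16 * (H + 1)) by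
        rw [Real.sqrt_mul (by norm_num), show (16 : ℝ) = 4 ^ 2 by norm_num,
          Real.sqrt_sq (by norm_num)]]
      exact Real.sqrt_le_sqrt (by linarith)
    have t3 : Real.sqrt q ≤ ε / (16 * (c + 1) * Real.sqrt (H + 1)) := by
      rw [← Real.sqrt_sq (show (0 : ℝ) ≤ ε / (16 * (c + 1) * Real.sqrt (H + 1)) by positivity)]
      exact Real.sqrt_le_sqrt (hq.trans (min_le_right _ _))
    have t4 : c * (Real.sqrt (2 * a) * Real.sqrt q) ≤ ε / 4 := by
      have hH1 : 0 < Real.sqrt (H + 1) := Real.sqrt_pos.mpr (by linarith)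
      calc c * (Real.sqrt (2 * a) * Real.sqrt q)
          ≤ (c + 1) * (4 * Real.sqrt (H + 1) * (ε / (16 * (c + 1) * Real.sqrt (H + 1)))) := by
            gcongr
            linarith
        _ = ε / 4 := by field_simp; norm_num
    linarith
  have d1 := hsq (hs (Gᵀ * (diagonal d * G) + F) + hs (Gᵀ * (diagonal d * G))) (hs F)
    (add_nonneg (hs_nonneg _) (hs_nonneg _)) (by linarith) (hs_nonneg _) hF0
  have d2 := hsq (hs (S * diagonal d * S) + hs (diagonal d)) (hs (S * diagonal d * S - diagonal d))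
    (add_nonneg (hs_nonneg _) (hs_nonneg _)) (by linarith) (hs_nonneg _) hq
  have c3 : |∑ i, kf h (hA.eigenvalues i) - ∑ i, kf h (hN.eigenvalues i)| ≤ ε / 2 := c1.trans d1
  have c4 : |∑ i, kf h (hB.eigenvalues i) - ∑ i, kf h (d i)| ≤ ε / 2 := c2.trans d2
  rw [← hNB (kf h) (kf_zero h)] at c4
  calc |∑ i, kf h (hA.eigenvalues i) - ∑ j, kf h (d j)|
      ≤ |∑ i, kf h (hA.eigenvalues i) - ∑ i, kf h (hN.eigenvalues i)| +
        |∑ i, kf h (hN.eigenvalues i) - ∑ i, kf h (d i)| := abs_sub_le _ _ _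
    _ ≤ ε := by linarith

end Crest.Agent.R166.Rec255
end
end

-- ▼ part R166/Rec4_255

/-!
# Row 166, section 52 (reconstruction), part 4: fixed spectrum, fixed `x` (helper255)
-/

set_option autoImplicit false

noncomputable section

namespace Crest.Agent.R166.Rec255

open Matrix MeasureTheory ProbabilityTheory Gauss286

/-- `∑ e_i/(e_i²+K²)` -/
def aK {n : ℕ} (K : ℝ) (e : Fin n → ℝ) : ℝ := ∑ i, e i / (e i ^ 2 + K ^ 2)

/-- `∑ K/(e_i²+K²)` -/
def yK {n : ℕ} (K : ℝ) (e : Fin n → ℝ) : ℝ := ∑ i, K / (e i ^ 2 + K ^ 2)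

/-- `∑ g_i g_iᵀ/(e_i - x)` -/
def arr {n m : ℕ} (e : Fin n → ℝ) (x : ℝ) (g : Fin n → Fin m → ℝ) : Matrix (Fin m) (Fin m) ℝ :=
  fun k l => ∑ i, g i k * g i l / (e i - x)

/-- `(1/m) (arr - a)` -/
def Am {n m : ℕ} (e : Fin n → ℝ) (x a : ℝ) (g : Fin n → Fin m → ℝ) : Matrix (Fin m) (Fin m) ℝ :=
  (1 / (m : ℝ)) • (arr e x g - a • (1 : Matrix (Fin m) (Fin m) ℝ))

lemma yK_nonneg {n : ℕ} {K : ℝ} (hK : 0 ≤ K) (e : Fin n → ℝ) : 0 ≤ yK K e := by
  unfold yK
  exact Finset.sum_nonneg fun i _ => by positivity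

lemma isHermitian_Am {n m : ℕ} (e : Fin n → ℝ) (x a : ℝ) (g : Fin n → Fin m → ℝ) :
    (Am e x a g).IsHermitian := by
  rw [Matrix.IsHermitian, conjTranspose_eq_transpose_of_trivial]
  ext k l
  simp only [Am, arr, Matrix.transpose_apply, Matrix.smul_apply, Matrix.sub_apply, smul_eq_mul,
    Matrix.one_apply]
  congr 1
  congr 1
  · exact Finset.sum_congr rfl fun i _ => by ring
  · simp only [eq_comm]

lemma measurable_Am {n m : ℕ} (e : Fin n → ℝ) (a : ℝ) :
    Measurable fun (p : ℝ × (Fin n → Fin m → ℝ)) (k l : Fin m) => Am e p.1 a p.2 k l := by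
  refine measurable_pi_lambda _ fun k => measurable_pi_lambda _ fun l => ?_
  simp only [Am, arr, Matrix.smul_apply, Matrix.sub_apply, smul_eq_mul]
  refine Measurable.const_mul (Measurable.sub_const (Finset.measurable_sum _ fun i _ => ?_) _) _
  exact (((measurable_entry i k).comp measurable_snd).mul
    ((measurable_entry i l).comp measurable_snd)).div (measurable_const.sub measurable_fst)

variable {n m : ℕ}

/-- the near indices -/
def near (L : ℝ) (e : Fin n → ℝ) : Finset (Fin n) := Finset.univ.filter fun i => |e i| ≤ L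

/-- the far coefficients -/
def cfar (L x : ℝ) (e : Fin n → ℝ) (i : Fin n) : ℝ := if |e i| ≤ L then 0 else (e i - x)⁻¹

/-- the near frame -/
def Gm (L : ℝ) (e : Fin n → ℝ) (g : Fin n → Fin m → ℝ) : Matrix {i // i ∈ near L e} (Fin m) ℝ :=
  fun j k => g j.1 k / Real.sqrt m

/-- the remainder -/
def Fm (L x a : ℝ) (e : Fin n → ℝ) (g : Fin n → Fin m → ℝ) : Matrix (Fin m) (Fin m) ℝ :=
  (1 / (m : ℝ)) • rowM (cfar L x e) g +
    ((1 / (m : ℝ)) * (∑ i, cfar L x e i - a)) • (1 : Matrix (Fin m) (Fin m) ℝ)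

lemma sum_near (L : ℝ) (e : Fin n → ℝ) (f : Fin n → ℝ) :
    ∑ j : {i // i ∈ near L e}, f j.1 = ∑ i, if |e i| ≤ L then f i else 0 := by
  rw [Finset.sum_coe_sort (near L e) f, near, Finset.sum_filter]

lemma decomp (hm : 0 < m) (L x a : ℝ) (e : Fin n → ℝ) (g : Fin n → Fin m → ℝ) :
    Am e x a g = (Gm L e g)ᵀ * (diagonal (fun j : {i // i ∈ near L e} => (e j.1 - x)⁻¹) * Gm L e g) +
      Fm L x a e g := by
  have hm' : (0 : ℝ) < m := by exact_mod_cast hm
  have hs : Real.sqrt m * Real.sqrt m = m := Real.mul_self_sqrt hm'.le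
  ext k l
  rw [Matrix.add_apply, Matrix.mul_apply]
  have e1 : ∑ j : {i // i ∈ near L e}, (Gm L e g)ᵀ k j *
      (diagonal (fun j : {i // i ∈ near L e} => (e j.1 - x)⁻¹) * Gm L e g) j l =
      (1 / (m : ℝ)) * ∑ i, if |e i| ≤ L then g i k * g i l * (e i - x)⁻¹ else 0 := by
    rw [← sum_near L e (fun i => g i k * g i l * (e i - x)⁻¹), Finset.mul_sum]
    refine Finset.sum_congr rfl fun j _ => ?_
    rw [Matrix.diagonal_mul, Matrix.transpose_apply]
    unfold Gm
    rw [div_mul_eq_mul_div, mul_div_assoc', mul_div_assoc', div_div, hs]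
    ring
  rw [e1]
  simp only [Am, arr, Fm, rowM, Zc, cfar, Matrix.smul_apply, Matrix.sub_apply, Matrix.add_apply,
    smul_eq_mul, Matrix.one_apply]
  have e2 : ∑ i, g i k * g i l / (e i - x) =
      (∑ i, if |e i| ≤ L then g i k * g i l * (e i - x)⁻¹ else 0) +
      (∑ i, (if |e i| ≤ L then 0 else (e i - x)⁻¹) * (g i k * g i l - if k = l then 1 else 0)) +
      (∑ i, if |e i| ≤ L then 0 else (e i - x)⁻¹) * (if k = l then 1 else 0) := by
    rw [Finset.sum_mul, ← Finset.sum_add_distrib, ← Finset.sum_add_distrib]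
    refine Finset.sum_congr rfl fun i _ => ?_
    split_ifs <;> ring
  rw [e2]
  ring

/-- estimates for the far coefficients -/
lemma far_bounds {L x Y : ℝ} {e : Fin n → ℝ} (hL : 2 ≤ L) (hx0 : 0 ≤ x) (hx1 : x ≤ 1)
    (hY : yK L e ≤ Y) : ∑ i, cfar L x e i ^ 2 ≤ 8 * Y / L ∧ |∑ i, cfar L x e i - aK L e| ≤ 4 * Y := by
  have hL0 : 0 < L := by linarith
  have hden : ∀ i, 0 < e i ^ 2 + L ^ 2 := fun i => by positivity
  have habs : ∀ i, ¬ |e i| ≤ L → |e i| / 2 ≤ |e i - x| := by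
    intro i hi
    push Not at hi
    have h1 : |e i| ≤ |e i - x| + |x| := by
      have := abs_add_le (e i - x) x
      rwa [sub_add_cancel] at this
    rw [abs_of_nonneg hx0] at h1
    linarith
  constructor
  · calc ∑ i, cfar L x e i ^ 2 ≤ ∑ i, 8 / L * (L / (e i ^ 2 + L ^ 2)) := by
          refine Finset.sum_le_sum fun i _ => ?_
          unfold cfar
          split_ifs with h
          · have := hden i
            simp only [ne_eq, OfNat.ofNat_ne_zero, not_false_eq_true, zero_pow]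
            positivity
          · have h2 := habs i h
            push Not at h
            have h3 : 0 < |e i - x| := by linarith
            have e1 : 8 / L * (L / (e i ^ 2 + L ^ 2)) = 8 / (e i ^ 2 + L ^ 2) := by
              field_simp
            rw [e1, inv_pow, ← one_div, div_le_div_iff₀ (by rw [← sq_abs]; positivity) (hden i)]
            rw [← sq_abs (e i - x), ← sq_abs (e i)]
            nlinarith [abs_nonneg (e i), abs_nonneg (e i - x)]
      _ = 8 / L * yK L e := by rw [← Finset.mul_sum]; rfl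
      _ ≤ 8 / L * Y := by gcongr
      _ = _ := by ring
  · have : ∑ i, cfar L x e i - aK L e = ∑ i, (cfar L x e i - e i / (e i ^ 2 + L ^ 2)) := by
      rw [Finset.sum_sub_distrib]; rfl
    rw [this]
    calc |∑ i, (cfar L x e i - e i / (e i ^ 2 + L ^ 2))|
        ≤ ∑ i, |cfar L x e i - e i / (e i ^ 2 + L ^ 2)| := Finset.abs_sum_le_sum_abs _ _
      _ ≤ ∑ i, 4 * (L / (e i ^ 2 + L ^ 2)) := by
          refine Finset.sum_le_sum fun i _ => ?_
          unfold cfar
          have hd := hden i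
          split_ifs with h
          · rw [zero_sub, abs_neg, abs_div, abs_of_pos hd]
            calc |e i| / (e i ^ 2 + L ^ 2) ≤ L / (e i ^ 2 + L ^ 2) := by gcongr
              _ ≤ _ := by
                have : 0 ≤ L / (e i ^ 2 + L ^ 2) := by positivity
                linarith
          · have h2 := habs i h
            push Not at h
            have h3 : 0 < |e i - x| := by linarith
            have h4 : e i - x ≠ 0 := abs_pos.mp h3
            have e1 : (e i - x)⁻¹ - e i / (e i ^ 2 + L ^ 2) =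
                (L ^ 2 + e i * x) / ((e i - x) * (e i ^ 2 + L ^ 2)) := by
              field_simp
              ring
            rw [e1, abs_div, abs_mul, abs_of_pos hd, mul_div_assoc', div_le_div_iff₀ (by positivity) hd]
            have h5 : |L ^ 2 + e i * x| ≤ L ^ 2 + |e i| := by
              refine (abs_add_le _ _).trans ?_
              rw [abs_of_nonneg (sq_nonneg L), abs_mul, abs_of_nonneg hx0]
              nlinarith [abs_nonneg (e i)]
            have h6 : L ^ 2 + |e i| ≤ 4 * L * |e i - x| := by nlinarith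
            calc |L ^ 2 + e i * x| * (e i ^ 2 + L ^ 2) ≤ (4 * L * |e i - x|) * (e i ^ 2 + L ^ 2) := by
                  gcongr
                  exact h5.trans h6
              _ = _ := by ring
      _ = 4 * yK L e := by rw [← Finset.mul_sum]; rfl
      _ ≤ 4 * Y := by linarith

/-- number of near indices -/
lemma card_near_le {L Y : ℝ} {e : Fin n → ℝ} (hL : 0 < L) (hY : yK L e ≤ Y) :
    ((near L e).card : ℝ) ≤ 2 * L * Y := by
  have h1 : ((near L e).card : ℝ) = ∑ i ∈ near L e, (1 : ℝ) := by simp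
  rw [h1]
  calc ∑ i ∈ near L e, (1 : ℝ) ≤ ∑ i ∈ near L e, 2 * L * (L / (e i ^ 2 + L ^ 2)) := by
        refine Finset.sum_le_sum fun i hi => ?_
        have hi' : |e i| ≤ L := (Finset.mem_filter.mp hi).2
        rw [mul_div_assoc', le_div_iff₀ (by positivity)]
        have : e i ^ 2 ≤ L ^ 2 := by rw [← sq_abs]; gcongr
        nlinarith
    _ ≤ ∑ i, 2 * L * (L / (e i ^ 2 + L ^ 2)) :=
        Finset.sum_le_sum_of_subset_of_nonneg (Finset.filter_subset _ _)
          fun i _ _ => by positivity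
    _ = 2 * L * yK L e := by rw [← Finset.mul_sum]; rfl
    _ ≤ _ := by gcongr

/-- counting with the scale `L1` -/
lemma card_le {L1 Y r : ℝ} {e : Fin n → ℝ} (hL : 0 < L1) (hY : yK L1 e ≤ Y) :
    ((near r e).card : ℝ) ≤ Y * ((r ^ 2 + L1 ^ 2) / L1) := by
  have h1 : ((near r e).card : ℝ) = ∑ i ∈ near r e, (1 : ℝ) := by simp
  rw [h1]
  calc ∑ i ∈ near r e, (1 : ℝ) ≤ ∑ i ∈ near r e, (r ^ 2 + L1 ^ 2) / L1 * (L1 / (e i ^ 2 + L1 ^ 2)) := by
        refine Finset.sum_le_sum fun i hi => ?_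
        have hi' : |e i| ≤ r := (Finset.mem_filter.mp hi).2
        have : e i ^ 2 ≤ r ^ 2 := by rw [← sq_abs]; gcongr
        rw [div_mul_div_comm, mul_comm L1 (e i ^ 2 + L1 ^ 2), le_div_iff₀ (by positivity), one_mul]
        gcongr
    _ ≤ ∑ i, (r ^ 2 + L1 ^ 2) / L1 * (L1 / (e i ^ 2 + L1 ^ 2)) :=
        Finset.sum_le_sum_of_subset_of_nonneg (Finset.filter_subset _ _)
          fun i _ _ => by positivity
    _ = (r ^ 2 + L1 ^ 2) / L1 * yK L1 e := by rw [← Finset.mul_sum]; rfl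
    _ ≤ (r ^ 2 + L1 ^ 2) / L1 * Y := by gcongr
    _ = _ := by ring

/-- `∑ (e_i - x)^{-2}` -/
lemma sum_inv_sq_le {L L1 Y x τ : ℝ} {e : Fin n → ℝ} (hL : 0 < L1) (hY : yK L1 e ≤ Y) (hτ : 0 < τ)
    (hx0 : 0 ≤ x) (hx1 : x ≤ 1) (hg : ∀ i, τ ≤ |e i - x|) :
    ∑ j : {i // i ∈ near L e}, ((e j.1 - x)⁻¹) ^ 2 ≤ Y * ((2 + (2 + L1 ^ 2) / τ ^ 2) / L1) := by
  rw [sum_near L e (fun i => ((e i - x)⁻¹) ^ 2)]
  calc (∑ i, if |e i| ≤ L then ((e i - x)⁻¹) ^ 2 else 0)
      ≤ ∑ i, (2 + (2 + L1 ^ 2) / τ ^ 2) / L1 * (L1 / (e i ^ 2 + L1 ^ 2)) := by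
        refine Finset.sum_le_sum fun i _ => ?_
        have hd : 0 < |e i - x| := lt_of_lt_of_le hτ (hg i)
        have h1 : ((e i - x)⁻¹) ^ 2 ≤ (2 + (2 + L1 ^ 2) / τ ^ 2) / L1 * (L1 / (e i ^ 2 + L1 ^ 2)) := by
          rw [div_mul_div_comm, mul_comm L1 (e i ^ 2 + L1 ^ 2), mul_div_mul_right _ _ hL.ne',
            inv_pow, ← one_div, div_le_div_iff₀ (by rw [← sq_abs]; positivity) (by positivity),
            one_mul]
          have h2 : τ ^ 2 ≤ (e i - x) ^ 2 := by rw [← sq_abs (e i - x)]; gcongr; exact hg i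
          have h3 : (2 + L1 ^ 2) ≤ (2 + L1 ^ 2) / τ ^ 2 * (e i - x) ^ 2 := by
            rw [div_mul_eq_mul_div, le_div_iff₀ (by positivity)]
            gcongr
          nlinarith [sq_nonneg (e i - 2 * x), sq_nonneg x]
        split_ifs
        · exact h1
        · exact (sq_nonneg _).trans h1
    _ = (2 + (2 + L1 ^ 2) / τ ^ 2) / L1 * yK L1 e := by rw [← Finset.mul_sum]; rfl
    _ ≤ (2 + (2 + L1 ^ 2) / τ ^ 2) / L1 * Y := by gcongr
    _ = _ := by ring

/-- second moment of one Gram entry -/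
lemma int_gram_entry (i j : Fin n) :
    Integrable (fun g : Fin n → Fin m → ℝ => (∑ k, (g i k * g j k - if i = j then 1 else 0)) ^ 2)
      (gm (Fin n) (Fin m)) ∧
    ∫ g : Fin n → Fin m → ℝ, (∑ k, (g i k * g j k - if i = j then 1 else 0)) ^ 2
      ∂gm (Fin n) (Fin m) ≤ V4 * m := by
  have hT := gm_map_transpose (ι := Fin m) (κ := Fin n)
  have hmt : Measurable (fun (g : Fin m → Fin n → ℝ) (i : Fin n) (k : Fin m) => g k i) := by
    fun_prop
  obtain ⟨h1, h2⟩ := int_sum_sq (ι := Fin m) (fun _ => (1 : ℝ)) (measurable_Zc i j)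
    (integral_Zc i j) (integrable_Zc_sq i j).1
  have hmh : Measurable (fun g : Fin n → Fin m → ℝ =>
      (∑ k, (g i k * g j k - if i = j then 1 else 0)) ^ 2) := by
    fun_prop
  have e1 : ∀ g : Fin m → Fin n → ℝ, (∑ k, (g k i * g k j - if i = j then 1 else 0)) ^ 2 =
      (∑ k, 1 * Zc i j (g k)) ^ 2 := by
    intro g; simp only [one_mul, Zc]
  constructor
  · rw [← hT, integrable_map_measure hmh.aestronglyMeasurable hmt.aemeasurable]
    exact h1.congr (Filter.Eventually.of_forall fun g => (e1 g).symm)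
  · rw [← hT, integral_map hmt.aemeasurable hmh.aestronglyMeasurable]
    simp only [e1]
    rw [h2]
    calc (∑ _k : Fin m, (1 : ℝ) ^ 2) * ∫ v, Zc i j v ^ 2 ∂gv (Fin n)
        ≤ (∑ _k : Fin m, (1 : ℝ) ^ 2) * V4 := by
          gcongr
          exact (integrable_Zc_sq i j).2
      _ = _ := by simp [mul_comm]

/-- second moment of `G Gᵀ - 1` -/
lemma int_Gm (hm : 0 < m) (L : ℝ) (e : Fin n → ℝ) :
    Integrable (fun g : Fin n → Fin m → ℝ => hs (Gm L e g * (Gm L e g)ᵀ - 1))
      (gm (Fin n) (Fin m)) ∧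
    ∫ g : Fin n → Fin m → ℝ, hs (Gm L e g * (Gm L e g)ᵀ - 1) ∂gm (Fin n) (Fin m) ≤
      V4 * ((near L e).card : ℝ) ^ 2 / m := by
  have hm' : (0 : ℝ) < m := by exact_mod_cast hm
  have hs' : Real.sqrt m * Real.sqrt m = m := Real.mul_self_sqrt hm'.le
  have e1 : ∀ g : Fin n → Fin m → ℝ, hs (Gm L e g * (Gm L e g)ᵀ - 1) =
      ∑ i : {i // i ∈ near L e}, ∑ j : {i // i ∈ near L e}, (1 / (m : ℝ) ^ 2) *
        (∑ k, (g i.1 k * g j.1 k - if i.1 = j.1 then 1 else 0)) ^ 2 := by
    intro g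
    unfold hs
    refine Finset.sum_congr rfl fun i _ => Finset.sum_congr rfl fun j _ => ?_
    rw [Matrix.sub_apply, Matrix.mul_apply, ← _root_.one_div_pow, ← mul_pow]
    congr 1
    rw [Finset.mul_sum, Matrix.one_apply]
    have e3 : (if i = j then (1 : ℝ) else 0) = ∑ _k : Fin m, (1 / (m : ℝ)) *
        (if i.1 = j.1 then 1 else 0) := by
      rw [Finset.sum_const, Finset.card_univ, Fintype.card_fin, nsmul_eq_mul]
      by_cases h : i = j
      · rw [if_pos h, if_pos (congrArg _ h)]; field_simp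
      · rw [if_neg h, if_neg (fun h' => h (Subtype.ext h'))]; ring
    rw [e3, ← Finset.sum_sub_distrib]
    refine Finset.sum_congr rfl fun k _ => ?_
    rw [Matrix.transpose_apply]
    unfold Gm
    rw [div_mul_div_comm, hs']
    ring
  have hI : ∀ i j : {i // i ∈ near L e}, Integrable (fun g : Fin n → Fin m → ℝ =>
      (1 / (m : ℝ) ^ 2) * (∑ k, (g i.1 k * g j.1 k - if i.1 = j.1 then 1 else 0)) ^ 2)
      (gm (Fin n) (Fin m)) := fun i j => (int_gram_entry i.1 j.1).1.const_mul _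
  simp only [e1]
  refine ⟨integrable_finsetSum _ fun i _ => integrable_finsetSum _ fun j _ => hI i j, ?_⟩
  rw [integral_finsetSum _ fun i _ => integrable_finsetSum _ fun j _ => hI i j]
  calc _ = ∑ i : {i // i ∈ near L e}, ∑ j : {i // i ∈ near L e}, (1 / (m : ℝ) ^ 2) *
        ∫ g : Fin n → Fin m → ℝ, (∑ k, (g i.1 k * g j.1 k - if i.1 = j.1 then 1 else 0)) ^ 2
          ∂gm (Fin n) (Fin m) := by
        refine Finset.sum_congr rfl fun i _ => ?_
        rw [integral_finsetSum _ fun j _ => hI i j]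
        refine Finset.sum_congr rfl fun j _ => ?_
        rw [integral_const_mul]
    _ ≤ ∑ _i : {i // i ∈ near L e}, ∑ _j : {i // i ∈ near L e}, (1 / (m : ℝ) ^ 2) * (V4 * m) := by
        refine Finset.sum_le_sum fun i _ => Finset.sum_le_sum fun j _ => ?_
        gcongr
        exact (int_gram_entry i.1 j.1).2
    _ = _ := by
        simp only [Finset.sum_const, Finset.card_univ, Fintype.card_coe, nsmul_eq_mul]
        field_simp

/-- second moment of the remainder -/
lemma int_Fm (hm : 0 < m) {L x a : ℝ} {e : Fin n → ℝ} :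
    Integrable (fun g : Fin n → Fin m → ℝ => hs (Fm L x a e g)) (gm (Fin n) (Fin m)) ∧
    ∫ g : Fin n → Fin m → ℝ, hs (Fm L x a e g) ∂gm (Fin n) (Fin m) ≤
      2 * (V4 * ∑ i, cfar L x e i ^ 2 + (∑ i, cfar L x e i - a) ^ 2 / m) := by
  have hm' : (0 : ℝ) < m := by exact_mod_cast hm
  obtain ⟨h1, h2⟩ := int_rows (ι := Fin n) (κ := Fin m) (cfar L x e)
  have hone : hs (1 : Matrix (Fin m) (Fin m) ℝ) = m := by
    rw [← Matrix.diagonal_one, hs_diagonal]; simp
  have hle : ∀ g : Fin n → Fin m → ℝ, hs (Fm L x a e g) ≤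
      2 * ((1 / (m : ℝ)) ^ 2 * hs (rowM (cfar L x e) g) +
        ((1 / (m : ℝ)) * (∑ i, cfar L x e i - a)) ^ 2 * m) := by
    intro g
    refine (hs_add_le _ _).trans (le_of_eq ?_)
    rw [hs_smul, hs_smul, hone]
  have hI : Integrable (fun g : Fin n → Fin m → ℝ =>
      2 * ((1 / (m : ℝ)) ^ 2 * hs (rowM (cfar L x e) g) +
        ((1 / (m : ℝ)) * (∑ i, cfar L x e i - a)) ^ 2 * m)) (gm (Fin n) (Fin m)) :=
    ((h1.const_mul _).add (integrable_const _)).const_mul _
  have hmeas : Measurable (fun g : Fin n → Fin m → ℝ => hs (Fm L x a e g)) := by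
    unfold hs
    refine Finset.measurable_sum _ fun k _ => Finset.measurable_sum _ fun l _ => ?_
    refine Measurable.pow_const ?_ 2
    unfold Fm rowM
    simp only [Matrix.add_apply, Matrix.smul_apply, smul_eq_mul]
    refine Measurable.add_const (Measurable.const_mul (Finset.measurable_sum _ fun i _ => ?_) _) _
    exact ((measurable_Zc k l).comp (measurable_pi_apply i)).const_mul _
  have hI' : Integrable (fun g : Fin n → Fin m → ℝ => hs (Fm L x a e g)) (gm (Fin n) (Fin m)) := by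
    refine hI.mono' hmeas.aestronglyMeasurable (Filter.Eventually.of_forall fun g => ?_)
    rw [Real.norm_of_nonneg (hs_nonneg _)]
    exact hle g
  refine ⟨hI', (integral_mono hI' hI hle).trans ?_⟩
  rw [integral_const_mul, integral_add (h1.const_mul _) (integrable_const _), integral_const_mul]
  simp only [integral_const, probReal_univ, smul_eq_mul, one_mul]
  rw [Fintype.card_fin] at h2
  have e3 : (1 / (m : ℝ)) ^ 2 * ∫ g : Fin n → Fin m → ℝ, hs (rowM (cfar L x e) g)
      ∂gm (Fin n) (Fin m) ≤ V4 * ∑ i, cfar L x e i ^ 2 := by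
    calc _ ≤ (1 / (m : ℝ)) ^ 2 * (V4 * (m : ℝ) ^ 2 * ∑ i, cfar L x e i ^ 2) := by gcongr
      _ = _ := by field_simp
  have e4 : ((1 / (m : ℝ)) * (∑ i, cfar L x e i - a)) ^ 2 * m = (∑ i, cfar L x e i - a) ^ 2 / m := by
    field_simp
  rw [e4]
  linarith

end Crest.Agent.R166.Rec255
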