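import Crest.Agent.R166.Shape_395
import Crest.Agent.R166.SpecA_598
import Crest.Agent.R166.SwP2_470
import Crest.Agent.R166.Rev2_811

/-!
# Row 166, section 30.4 (helper395): interface Props between the deterministic shapes and the
expectations.

* `Sv L p h0` = ball vertices (both sides, depth `≤ L`), `Rr` = resolvent, `BadP`, `AdmP`;
* `cEs` = total square-root coupling of the unrevealed choices;
* `S0P`, `S1P` (depth `L`), `SMP` (depth `1`): the three shapes on port numbered graphs.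
-/

set_option autoImplicit false

open Finset

namespace Crest.Agent.R166.Spec30

open Crest.Agent.R166 Stab269 SwP470 Rev811 Shape395 TreeDet350

variable {n d : ℕ} [NeZero d]

open Classical in
/-- ball vertices of both sides, depth `≤ L` -/
noncomputable def Sv (L : ℕ) (p : Equiv.Perm (HE n d)) (h0 : HE n d) : Finset (Fin n) :=
  Finset.univ.filter fun v => ∃ s w, NZw w ∧ w.length ≤ L ∧ bv p h0 s w = v

omit [NeZero d] in
/-- the resolvent -/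
noncomputable abbrev Rr (p : Equiv.Perm (HE n d)) (s : ℝ) (ω : Fin n → ℝ) (z : ℂ) :
    Matrix (Fin n) (Fin n) ℂ := Res789.Res (Hm (graphOf p) s ω) z

omit [NeZero d] in
/-- bad half-edges -/
def BadP (rs : ℝ) (p : Equiv.Perm (HE n d)) (s : ℝ) (ω : Fin n → ℝ) (z : ℂ) (x : HE n d) : Prop :=
  rs ≤ SpecA.Dv rs p s ω z x

omit [NeZero d] in
/-- the bounded coordinate of the cavity value -/
noncomputable def yP (p : Equiv.Perm (HE n d)) (s : ℝ) (ω : Fin n → ℝ) (z : ℂ) (x : HE n d) : ℂ :=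
  uu (mc d z) (B0 p s ω z x 0 0)

/-- admissibility of the set `A` -/
def AdmP (L : ℕ) (rs ε : ℝ) (p : Equiv.Perm (HE n d)) (s : ℝ) (ω : Fin n → ℝ) (z : ℂ)
    (h0 : HE n d) (A : Finset (BI d L)) (b : BI d L → HE n d) : Prop :=
  Adm (BadP rs p s ω z) (CpW (Sv L p h0) (Rr p s ω z) p ε) (PrW (Rr p s ω z) p ε) A b


/-- total square-root coupling of the choices outside `A` -/
noncomputable def cEs (L : ℕ) (p : Equiv.Perm (HE n d)) (s : ℝ) (ω : Fin n → ℝ) (z : ℂ)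
    (h0 : HE n d) (A : Finset (BI d L)) (b : BI d L → HE n d) : ℝ :=
  (∑ j ∈ Aᶜ, Real.sqrt (cpl (GA (Sv L p h0) p A b) (Rr p s ω z) p (b j))) +
    ∑ jk ∈ (Aᶜ).offDiag, Real.sqrt (cpl2 (Rr p s ω z) p (b jk.1) (b jk.2))

/-- leaves of the side `σ` -/
def Iside (L : ℕ) (σ : Bool) : Finset (BI d L) := Finset.univ.filter fun i => i.1 = σ

/-- the range of the parameters -/
structure Rng (A : ℝ) (n : ℕ) (E s η : ℝ) (ω : Fin n → ℝ) : Prop where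
  n0 : 0 < n
  E : |E| ≤ A
  s : |s| ≤ 1
  η0 : 0 < η
  η1 : η ≤ 1
  ω : ∀ v, |ω v| ≤ 1

/-- **(S0)** at depth `L` -/
def S0P (d : ℕ) [NeZero d] (L : ℕ) (A rs ε C CL : ℝ) : Prop :=
  ∀ (n : ℕ) (E s η : ℝ) (ω : Fin n → ℝ), Rng A n E s η ω → ∀ p : Equiv.Perm (HE n d), IsPort p →
    ∀ (h0 : HE n d) (b : BI d L → HE n d), BVal L p h0 b → AdmP L rs ε p s ω (ze E η) h0 ∅ b →
      SpecA.Dv rs (np p h0 b) s ω (ze E η) h0 ≤
        C * (‖mc d (ze E η) ^ (2 * L) * ∑ i ∈ Iside L false, yP p s ω (ze E η) (b i)‖ +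
          ‖mc d (ze E η) ^ (2 * L) * ∑ i ∈ Iside L true, yP p s ω (ze E η) (b i)‖) +
        C * ‖mc d (ze E η)‖ ^ (2 * L) * (∑ i, SpecA.Dv rs p s ω (ze E η) (b i) ^ 2) +
        CL * ((∑ jk ∈ (Finset.univ : Finset (BI d L)).offDiag,
            SpecA.Dv rs p s ω (ze E η) (b jk.1) * SpecA.Dv rs p s ω (ze E η) (b jk.2)) + |s| +
          cEs L p s ω (ze E η) h0 ∅ b)

/-- **(S1)** at depth `L` -/
def S1P (d : ℕ) [NeZero d] (L : ℕ) (A rs ε C CL : ℝ) : Prop :=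
  ∀ (n : ℕ) (E s η : ℝ) (ω : Fin n → ℝ), Rng A n E s η ω → ∀ p : Equiv.Perm (HE n d), IsPort p →
    ∀ (h0 : HE n d) (b : BI d L → HE n d), BVal L p h0 b → ∀ i : BI d L,
      AdmP L rs ε p s ω (ze E η) h0 {i} b →
      SpecA.Dv rs (np p h0 b) s ω (ze E η) h0 ≤
        C * ‖mc d (ze E η)‖ ^ (2 * L) +
        CL * ((∑ j ∈ ({i} : Finset (BI d L))ᶜ, SpecA.Dv rs p s ω (ze E η) (b j)) + |s| +
          cEs L p s ω (ze E η) h0 {i} b)

/-- **(SM)** at depth `1` -/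
def SMP (d : ℕ) [NeZero d] (A rs ε C : ℝ) : Prop :=
  ∀ (n : ℕ) (E s η : ℝ) (ω : Fin n → ℝ), Rng A n E s η ω → ∀ p : Equiv.Perm (HE n d), IsPort p →
    ∀ (h0 : HE n d) (b : BI d 1 → HE n d), BVal 1 p h0 b → AdmP 1 rs ε p s ω (ze E η) h0 ∅ b →
      ‖yP (np p h0 b) s ω (ze E η) h0 -
          mc d (ze E η) ^ 2 * ∑ i ∈ Iside 1 false, yP p s ω (ze E η) (b i)‖ ≤
        C * ((∑ i, SpecA.Dv rs p s ω (ze E η) (b i) ^ 2) +
          (∑ i, ∑ j ∈ Finset.univ.erase i,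
            SpecA.Dv rs p s ω (ze E η) (b i) * SpecA.Dv rs p s ω (ze E η) (b j)) + |s| +
          (∑ i, Real.sqrt (cpl (Sv 1 p h0) (Rr p s ω (ze E η)) p (b i))) +
          ∑ i, ∑ j ∈ Finset.univ.erase i, Real.sqrt (cpl2 (Rr p s ω (ze E η)) p (b i) (b j)))

/-- **(H1)**, output: helper395 + helper811 -/
def H1P (d : ℕ) [NeZero d] (L : ℕ) (A rs C : ℝ) (gV : ∀ n : ℕ, ℝ → (Fin n → ℝ) → ℂ →
    Equiv.Perm (HE n d) → ℝ) : Prop :=
  ∀ (n : ℕ) (E s η : ℝ) (ω : Fin n → ℝ), Rng A n E s η ω → ∀ p : Equiv.Perm (HE n d), IsPort p →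
    gV n s ω (ze E η) p ≤ 1 / 4 * SpecA.Vp rs p s ω (ze E η) +
      C * (‖SpecA.mup rs p s ω (ze E η)‖ ^ 2 + SpecA.Vp rs p s ω (ze E η) ^ 2 +
        (1 / (n * η) + pr1 (fun h : HE n d => ¬ TL L p h)) + s ^ 2)

/-- **(H2)**, output: helper269 -/
def H2P (d : ℕ) [NeZero d] (A rs C : ℝ) (gm : ∀ n : ℕ, ℝ → (Fin n → ℝ) → ℂ →
    Equiv.Perm (HE n d) → ℂ) : Prop :=
  ∀ (n : ℕ) (E s η : ℝ) (ω : Fin n → ℝ), Rng A n E s η ω → ∀ p : Equiv.Perm (HE n d), IsPort p →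
    ‖gm n s ω (ze E η) p - (((d : ℂ) - 1) * mc d (ze E η) ^ 2) * SpecA.mup rs p s ω (ze E η)‖ ≤
      C * (SpecA.Vp rs p s ω (ze E η) + |s| +
        Real.sqrt (1 / (n * η) + pr1 (fun h : HE n d => ¬ TL 1 p h)))

end Crest.Agent.R166.Spec30
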