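import Mathlib

/-!
Row 166, section 42 (helper487).  Lemma T: if `Y = X + Z` with `Z` standard Gaussian in `ι → ℝ`
independent of `(X, I)` and `E[Z_j (g(I) - G(Y)) b(Y)] = 0`, `E[(g(I) - G(Y)) b(Y)] = 0` for all
bounded measurable `b`, then `G` is a.s. constant.
-/

set_option autoImplicit false
set_option linter.unusedSectionVars false
set_option linter.unusedVariables false

namespace Crest.Agent.R166.Tweedie487

open MeasureTheory ProbabilityTheory

variable {ι : Type*} [Fintype ι]

/-- unnormalised standard Gaussian density -/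
noncomputable def ph (z : ι → ℝ) : ℝ := Real.exp (-(∑ i, z i ^ 2) / 2)

/-- standard Gaussian law -/
noncomputable def gs (ι : Type*) [Fintype ι] : Measure (ι → ℝ) :=
  Measure.pi fun _ => gaussianReal 0 1

instance : IsProbabilityMeasure (gs ι) := by unfold gs; infer_instance

/-- normalising constant -/
noncomputable def cs (ι : Type*) [Fintype ι] : ℝ := ((Real.sqrt (2 * Real.pi))⁻¹) ^ Fintype.card ι

theorem cs_pos : 0 < cs ι := by unfold cs; positivity

theorem ph_pos (z : ι → ℝ) : 0 < ph z := Real.exp_pos _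

theorem ph_le_one (z : ι → ℝ) : ph z ≤ 1 := by
  unfold ph
  apply Real.exp_le_one_iff.2
  have : 0 ≤ ∑ i, z i ^ 2 := Finset.sum_nonneg fun i _ => sq_nonneg _
  linarith

theorem continuous_ph : Continuous (ph (ι := ι)) := by unfold ph; fun_prop

theorem prod_pdf (z : ι → ℝ) : ∏ i, gaussianPDFReal 0 1 (z i) = cs ι * ph z := by
  unfold cs ph gaussianPDFReal
  rw [Finset.prod_mul_distrib, Finset.prod_const, Finset.card_univ, ← Real.exp_sum]
  congr 2
  · simp
  · rw [neg_div, Finset.sum_div, ← Finset.sum_neg_distrib]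
    apply Finset.sum_congr rfl
    intro i _
    simp [neg_div]

theorem gs_eq : gs ι = (volume : Measure (ι → ℝ)).withDensity
    (fun z => ENNReal.ofReal (cs ι * ph z)) := by
  unfold gs
  apply Measure.pi_eq
  intro s hs
  rw [withDensity_apply _ (MeasurableSet.univ_pi hs)]
  have h0 : (volume : Measure (ι → ℝ)).restrict (Set.univ.pi s) =
      Measure.pi fun i => (volume : Measure ℝ).restrict (s i) := by
    rw [volume_pi, Measure.restrict_pi_pi]
  rw [h0]
  have hint : Integrable (fun z : ι → ℝ => ∏ i, gaussianPDFReal 0 1 (z i))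
      (Measure.pi fun i => (volume : Measure ℝ).restrict (s i)) := by
    apply Integrable.fintype_prod (f := fun _ => gaussianPDFReal 0 1)
    intro i
    exact (integrable_gaussianPDFReal 0 1).integrableOn
  have h1 : ∀ z : ι → ℝ, ENNReal.ofReal (cs ι * ph z) =
      ENNReal.ofReal (∏ i, gaussianPDFReal 0 1 (z i)) := by
    intro z
    rw [← prod_pdf]
  simp_rw [h1]
  rw [← ofReal_integral_eq_lintegral_ofReal hint
    (Filter.Eventually.of_forall fun z => Finset.prod_nonneg fun i _ =>
      gaussianPDFReal_nonneg _ _ _)]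
  rw [integral_fintype_prod_eq_prod (f := fun _ => gaussianPDFReal 0 1),
    ENNReal.ofReal_prod_of_nonneg]
  · apply Finset.prod_congr rfl
    intro i _
    rw [gaussianReal_apply_eq_integral 0 one_ne_zero]
  · intro i _
    exact integral_nonneg fun x => gaussianPDFReal_nonneg _ _ _

theorem integral_gs (f : (ι → ℝ) → ℝ) : ∫ z, f z ∂gs ι = cs ι * ∫ z, f z * ph z := by
  have hm : Measurable fun z : ι → ℝ => Real.toNNReal (cs ι * ph z) :=
    ((continuous_const.mul continuous_ph).measurable).real_toNNReal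
  have h := integral_withDensity_eq_integral_smul (μ := (volume : Measure (ι → ℝ))) hm f
  have h2 : gs ι = (volume : Measure (ι → ℝ)).withDensity
      (fun z => ((Real.toNNReal (cs ι * ph z) : NNReal) : ENNReal)) := gs_eq
  rw [h2, h, ← integral_const_mul]
  congr 1
  ext z
  have h3 : 0 ≤ cs ι * ph z := (mul_pos cs_pos (ph_pos z)).le
  rw [NNReal.smul_def, Real.coe_toNNReal _ h3, smul_eq_mul]
  ring

theorem integrable_gs_iff (f : (ι → ℝ) → ℝ) :
    Integrable f (gs ι) ↔ Integrable (fun z => f z * ph z) := by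
  have hm : Measurable fun z : ι → ℝ => Real.toNNReal (cs ι * ph z) :=
    ((continuous_const.mul continuous_ph).measurable).real_toNNReal
  have h2 : gs ι = (volume : Measure (ι → ℝ)).withDensity
      (fun z => ((Real.toNNReal (cs ι * ph z) : NNReal) : ENNReal)) := gs_eq
  rw [h2, integrable_withDensity_iff_integrable_smul hm]
  have h4 : (fun z : ι → ℝ => Real.toNNReal (cs ι * ph z) • f z) =
      fun z => cs ι * (f z * ph z) := by
    ext z
    have h3 : 0 ≤ cs ι * ph z := (mul_pos cs_pos (ph_pos z)).le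
    rw [NNReal.smul_def, Real.coe_toNNReal _ h3, smul_eq_mul]
    ring
  rw [h4]
  exact integrable_const_mul_iff (IsUnit.mk0 _ cs_pos.ne') _

theorem integrable_ph : Integrable (ph (ι := ι)) := by
  have := (integrable_gs_iff (ι := ι) (fun _ => 1)).1 (integrable_const _)
  simpa using this

theorem integrable_coord_ph (j : ι) : Integrable (fun z : ι → ℝ => z j * ph z) := by
  rw [← integrable_gs_iff]
  unfold gs
  have : Integrable (id : ℝ → ℝ) (gaussianReal 0 1) := by
    exact (memLp_id_gaussianReal 1).integrable (by norm_num)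
  exact integrable_comp_eval (μ := fun _ : ι => gaussianReal 0 1) (i := j) (f := id) this

/-- translation: `∫ f(x+z) w(z) dz = ∫ f(y) w(y-x) dy`. -/
theorem integral_shift (x : ι → ℝ) (f w : (ι → ℝ) → ℝ) :
    ∫ z, f (x + z) * w z = ∫ y, f y * w (y - x) := by
  have := integral_sub_right_eq_self (μ := (volume : Measure (ι → ℝ)))
    (fun z => f (x + z) * w z) x
  rw [← this]
  congr 1
  ext y
  congr 2
  abel


section main

variable {β : Type*} [MeasurableSpace β] (μ : Measure ((ι → ℝ) × β)) [IsProbabilityMeasure μ]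

/-- smoothed density of the measure `w · μ` -/
noncomputable def sm (w : (ι → ℝ) × β → ℝ) (k : (ι → ℝ) → ℝ) (y : ι → ℝ) : ℝ :=
  ∫ q, w q * k (y - q.1) ∂μ

theorem abs_coord_mul_ph_le (z : ι → ℝ) (j : ι) : |z j| * ph z ≤ 1 := by
  have h1 : ph z ≤ Real.exp (-(z j ^ 2) / 2) := by
    unfold ph
    apply Real.exp_le_exp.2
    have : z j ^ 2 ≤ ∑ i, z i ^ 2 :=
      Finset.single_le_sum (f := fun i => z i ^ 2) (fun i _ => sq_nonneg _) (Finset.mem_univ j)
    linarith
  have h2 : |z j| ≤ Real.exp (z j ^ 2 / 2) := by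
    have h3 := Real.add_one_le_exp (z j ^ 2 / 2)
    have h4 : |z j| ≤ z j ^ 2 / 2 + 1 := by
      have := sq_abs (z j)
      nlinarith [sq_nonneg (|z j| - 1)]
    linarith
  calc |z j| * ph z ≤ Real.exp (z j ^ 2 / 2) * Real.exp (-(z j ^ 2) / 2) :=
        mul_le_mul h2 h1 (ph_pos z).le (Real.exp_pos _).le
    _ = 1 := by rw [← Real.exp_add]; simp [neg_div]

variable {μ}

theorem continuous_sm {w : (ι → ℝ) × β → ℝ} {k : (ι → ℝ) → ℝ} (hw : Measurable w) (C : ℝ)
    (hwC : ∀ q, |w q| ≤ C) (hk : Continuous k) (D : ℝ) (hkD : ∀ z, |k z| ≤ D) :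
    Continuous (sm μ w k) := by
  unfold sm
  have hC : 0 ≤ C := by
    have : Nonempty ((ι → ℝ) × β) := by
      by_contra hne
      rw [not_nonempty_iff] at hne
      have := IsProbabilityMeasure.ne_zero μ
      exact this (Measure.eq_zero_of_isEmpty μ)
    exact (abs_nonneg _).trans (hwC this.some)
  refine continuous_of_dominated (bound := fun _ => C * D) ?_ ?_ (integrable_const _) ?_
  · intro y
    exact (hw.mul (hk.measurable.comp (measurable_const.sub measurable_fst))).aestronglyMeasurable
  · intro y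
    refine Filter.Eventually.of_forall fun q => ?_
    rw [Real.norm_eq_abs, abs_mul]
    exact mul_le_mul (hwC q) (hkD _) (abs_nonneg _) hC
  · refine Filter.Eventually.of_forall fun q => ?_
    exact continuous_const.mul (hk.comp (continuous_id.sub continuous_const))

/-- Fubini: `∫ dμ ∫ γ(dz) w(q) κ(z) b(x+z) = c ∫ b(y) sm_{κ ph}(y) dy`. -/
theorem fubini_sm {w : (ι → ℝ) × β → ℝ} (hw : Measurable w) (C : ℝ) (hwC : ∀ q, |w q| ≤ C)
    {κ : (ι → ℝ) → ℝ} (hκ : Continuous κ) (hκi : Integrable fun z => κ z * ph z)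
    {b : (ι → ℝ) → ℝ} (hb : Measurable b) (B : ℝ) (hbB : ∀ y, |b y| ≤ B) :
    ∫ q, ∫ z, w q * κ z * b (q.1 + z) ∂gs ι ∂μ =
      cs ι * ∫ y, b y * sm μ w (fun z => κ z * ph z) y := by
  have h1 : ∀ q : (ι → ℝ) × β, ∫ z, w q * κ z * b (q.1 + z) ∂gs ι =
      cs ι * ∫ y, b y * (w q * (κ (y - q.1) * ph (y - q.1))) := by
    intro q
    rw [integral_gs]
    congr 1
    have := integral_shift q.1 b (fun z => w q * (κ z * ph z))
    rw [← this]
    congr 1
    ext z
    ring
  simp_rw [h1]
  rw [integral_const_mul]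
  congr 1
  have hint : Integrable (Function.uncurry fun (q : (ι → ℝ) × β) (y : ι → ℝ) =>
      b y * (w q * (κ (y - q.1) * ph (y - q.1)))) (μ.prod volume) := by
    have hmeas : Measurable (Function.uncurry fun (q : (ι → ℝ) × β) (y : ι → ℝ) =>
        b y * (w q * (κ (y - q.1) * ph (y - q.1)))) := by
      have e1 : Measurable fun r : ((ι → ℝ) × β) × (ι → ℝ) => r.2 - r.1.1 :=
        measurable_snd.sub (measurable_fst.comp measurable_fst)
      exact (hb.comp measurable_snd).mul ((hw.comp measurable_fst).mul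
        ((hκ.measurable.comp e1).mul (continuous_ph.measurable.comp e1)))
    rw [integrable_prod_iff hmeas.aestronglyMeasurable]
    have hB : 0 ≤ B := (abs_nonneg _).trans (hbB 0)
    have hdom : ∀ q : (ι → ℝ) × β, Integrable fun y : ι → ℝ =>
        B * (C * |κ (y - q.1) * ph (y - q.1)|) := by
      intro q
      exact ((hκi.comp_sub_right q.1).abs.const_mul C).const_mul B
    have hle : ∀ (q : (ι → ℝ) × β) (y : ι → ℝ),
        ‖b y * (w q * (κ (y - q.1) * ph (y - q.1)))‖ ≤
          B * (C * |κ (y - q.1) * ph (y - q.1)|) := by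
      intro q y
      rw [Real.norm_eq_abs, abs_mul, abs_mul (w q)]
      exact mul_le_mul (hbB y) (mul_le_mul_of_nonneg_right (hwC q) (abs_nonneg _))
        (mul_nonneg (abs_nonneg _) (abs_nonneg _)) hB
    constructor
    · refine Filter.Eventually.of_forall fun q => ?_
      refine (hdom q).mono' ?_ (Filter.Eventually.of_forall fun y => hle q y)
      exact (hmeas.comp measurable_prodMk_left).aestronglyMeasurable
    · have hconst : Integrable (fun _ : (ι → ℝ) × β =>
          B * (C * ∫ y : ι → ℝ, |κ y * ph y|)) μ := integrable_const _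
      refine hconst.mono' ?_ ?_
      · exact (hmeas.norm.aestronglyMeasurable (μ := μ.prod volume)).integral_prod_right'
      · refine Filter.Eventually.of_forall fun q => ?_
        rw [Real.norm_eq_abs, abs_of_nonneg (integral_nonneg fun y => norm_nonneg _)]
        calc ∫ y, ‖Function.uncurry (fun (q : (ι → ℝ) × β) (y : ι → ℝ) =>
                b y * (w q * (κ (y - q.1) * ph (y - q.1)))) (q, y)‖
            ≤ ∫ y : ι → ℝ, B * (C * |κ (y - q.1) * ph (y - q.1)|) := by
              refine integral_mono_of_nonneg (Filter.Eventually.of_forall fun y => norm_nonneg _)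
                (hdom q) (Filter.Eventually.of_forall fun y => hle q y)
          _ = B * (C * ∫ y : ι → ℝ, |κ y * ph y|) := by
              rw [integral_const_mul, integral_const_mul,
                integral_sub_right_eq_self (fun y : ι → ℝ => |κ y * ph y|)]
  rw [integral_integral_swap hint]
  congr 1
  ext y
  unfold sm
  rw [integral_const_mul]

/-- derivative of `s ↦ ph (s • y - x)` -/
theorem hasDerivAt_ph_ray (y x : ι → ℝ) (s : ℝ) :
    HasDerivAt (fun s : ℝ => ph (s • y - x))
      (-(∑ j, y j * ((s • y - x) j * ph (s • y - x)))) s := by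
  unfold ph
  have h1 : HasDerivAt (fun s : ℝ => -(∑ i, (s • y - x) i ^ 2) / 2)
      (-(∑ j, y j * (s • y - x) j)) s := by
    have h2 : ∀ i ∈ (Finset.univ : Finset ι), HasDerivAt (fun s : ℝ => (s • y - x) i ^ 2)
        (2 * (s • y - x) i * y i) s := by
      intro i _
      have h3 : HasDerivAt (fun s : ℝ => (s • y - x) i) (y i) s := by
        simp only [Pi.sub_apply, Pi.smul_apply, smul_eq_mul]
        simpa using ((hasDerivAt_id s).mul_const (y i)).sub_const (x i)
      simpa using h3.fun_pow 2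
    have h4 := ((HasDerivAt.fun_sum h2).neg.div_const 2)
    refine h4.congr_deriv ?_
    rw [← Finset.sum_neg_distrib, Finset.sum_div, ← Finset.sum_neg_distrib]
    apply Finset.sum_congr rfl
    intro i _
    ring
  refine h1.exp.congr_deriv ?_
  rw [mul_neg, Finset.mul_sum]
  congr 1
  apply Finset.sum_congr rfl
  intro i _
  ring

theorem hasDerivAt_sm_ray {w : (ι → ℝ) × β → ℝ} (hw : Measurable w) (C : ℝ) (hC : 0 ≤ C)
    (hwC : ∀ q, |w q| ≤ C) (y : ι → ℝ) (s : ℝ) :
    HasDerivAt (fun s : ℝ => sm μ w ph (s • y))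
      (-(∑ j, y j * sm μ w (fun z => z j * ph z) (s • y))) s := by
  have hcoord : ∀ j : ι, Continuous fun z : ι → ℝ => z j * ph z := fun j =>
    (continuous_apply j).mul continuous_ph
  have hph : ∀ z : ι → ℝ, |ph z| ≤ 1 := fun z => by
    rw [abs_of_pos (ph_pos z)]; exact ph_le_one z
  have hcb : ∀ (j : ι) (z : ι → ℝ), |z j * ph z| ≤ 1 := by
    intro j z
    rw [abs_mul, abs_of_pos (ph_pos z)]
    exact abs_coord_mul_ph_le z j
  have key := hasDerivAt_integral_of_dominated_loc_of_deriv_le (μ := μ) (𝕜 := ℝ)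
    (F := fun (s : ℝ) (q : (ι → ℝ) × β) => w q * ph (s • y - q.1))
    (F' := fun (s : ℝ) (q : (ι → ℝ) × β) =>
      w q * -(∑ j, y j * ((s • y - q.1) j * ph (s • y - q.1))))
    (x₀ := s) (s := Set.univ) (bound := fun _ => C * ∑ j, |y j|) Filter.univ_mem ?_ ?_ ?_ ?_
    (integrable_const _) ?_
  · refine key.2.congr_deriv ?_
    have h5 : ∀ q : (ι → ℝ) × β, w q * -(∑ j, y j * ((s • y - q.1) j * ph (s • y - q.1))) =
        ∑ j, (-(y j)) * (w q * ((s • y - q.1) j * ph (s • y - q.1))) := by
      intro q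
      rw [← Finset.sum_neg_distrib, Finset.mul_sum]
      apply Finset.sum_congr rfl
      intro j _
      ring
    simp_rw [h5]
    rw [integral_finsetSum]
    · rw [← Finset.sum_neg_distrib]
      apply Finset.sum_congr rfl
      intro j _
      rw [integral_const_mul]
      unfold sm
      ring
    · intro j _
      apply Integrable.const_mul
      refine Integrable.mono' (integrable_const C) ?_ ?_
      · exact (hw.mul ((hcoord j).measurable.comp
          (measurable_const.sub measurable_fst))).aestronglyMeasurable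
      · refine Filter.Eventually.of_forall fun q => ?_
        rw [Real.norm_eq_abs, abs_mul]
        calc |w q| * |(s • y - q.1) j * ph (s • y - q.1)| ≤ C * 1 :=
              mul_le_mul (hwC q) (hcb j _) (abs_nonneg _) hC
          _ = C := mul_one C
  · refine Filter.Eventually.of_forall fun s => ?_
    exact (hw.mul (continuous_ph.measurable.comp
      (measurable_const.sub measurable_fst))).aestronglyMeasurable
  · refine Integrable.mono' (integrable_const C) ?_ ?_
    · exact (hw.mul (continuous_ph.measurable.comp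
        (measurable_const.sub measurable_fst))).aestronglyMeasurable
    · refine Filter.Eventually.of_forall fun q => ?_
      rw [Real.norm_eq_abs, abs_mul]
      calc |w q| * |ph (s • y - q.1)| ≤ C * 1 :=
            mul_le_mul (hwC q) (hph _) (abs_nonneg _) hC
        _ = C := mul_one C
  · refine (hw.mul ?_).aestronglyMeasurable
    refine (Finset.measurable_sum _ fun j _ => ?_).neg
    exact measurable_const.mul ((hcoord j).measurable.comp (measurable_const.sub measurable_fst))
  · refine Filter.Eventually.of_forall fun q s _ => ?_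
    rw [Real.norm_eq_abs, abs_mul, abs_neg]
    refine mul_le_mul (hwC q) ?_ (abs_nonneg _) hC
    refine (Finset.abs_sum_le_sum_abs _ _).trans (Finset.sum_le_sum fun j _ => ?_)
    rw [abs_mul]
    calc |y j| * |(s • y - q.1) j * ph (s • y - q.1)| ≤ |y j| * 1 :=
          mul_le_mul_of_nonneg_left (hcb j _) (abs_nonneg _)
      _ = |y j| := mul_one _
  · refine Filter.Eventually.of_forall fun q s _ => ?_
    exact (hasDerivAt_ph_ray y q.1 s).const_mul (w q)

theorem sm_ph_pos (y : ι → ℝ) : 0 < sm μ (fun _ => 1) ph y := by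
  unfold sm
  have hint : Integrable (fun q : (ι → ℝ) × β => 1 * ph (y - q.1)) μ := by
    refine Integrable.mono' (integrable_const (1 : ℝ)) ?_ ?_
    · exact (measurable_const.mul (continuous_ph.measurable.comp
        (measurable_const.sub measurable_fst))).aestronglyMeasurable
    · refine Filter.Eventually.of_forall fun q => ?_
      rw [Real.norm_eq_abs, one_mul, abs_of_pos (ph_pos _)]
      exact ph_le_one _
  rw [integral_pos_iff_support_of_nonneg_ae (Filter.Eventually.of_forall fun q => by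
    simpa using (ph_pos (y - q.1)).le) hint]
  have : Function.support (fun q : (ι → ℝ) × β => 1 * ph (y - q.1)) = Set.univ := by
    ext q
    simp [(ph_pos (y - q.1)).ne']
  rw [this]
  simp


theorem integrable_sm {w : (ι → ℝ) × β → ℝ} (hw : Measurable w) (C : ℝ)
    (hwC : ∀ q, |w q| ≤ C) {k : (ι → ℝ) → ℝ} (hk : Continuous k) (hki : Integrable k) :
    Integrable (sm μ w k) := by
  have hmeas : Measurable (Function.uncurry fun (q : (ι → ℝ) × β) (y : ι → ℝ) =>
      w q * k (y - q.1)) := by
    have e1 : Measurable fun r : ((ι → ℝ) × β) × (ι → ℝ) => r.2 - r.1.1 :=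
      measurable_snd.sub (measurable_fst.comp measurable_fst)
    exact (hw.comp measurable_fst).mul (hk.measurable.comp e1)
  have hint : Integrable (Function.uncurry fun (q : (ι → ℝ) × β) (y : ι → ℝ) =>
      w q * k (y - q.1)) (μ.prod volume) := by
    rw [integrable_prod_iff hmeas.aestronglyMeasurable]
    have hdom : ∀ q : (ι → ℝ) × β, Integrable fun y : ι → ℝ => C * |k (y - q.1)| := by
      intro q
      exact ((hki.comp_sub_right q.1).abs.const_mul C)
    have hle : ∀ (q : (ι → ℝ) × β) (y : ι → ℝ), ‖w q * k (y - q.1)‖ ≤ C * |k (y - q.1)| := by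
      intro q y
      rw [Real.norm_eq_abs, abs_mul]
      exact mul_le_mul_of_nonneg_right (hwC q) (abs_nonneg _)
    constructor
    · refine Filter.Eventually.of_forall fun q => ?_
      refine (hdom q).mono' ?_ (Filter.Eventually.of_forall fun y => hle q y)
      exact (hmeas.comp measurable_prodMk_left).aestronglyMeasurable
    · have hconst : Integrable (fun _ : (ι → ℝ) × β => C * ∫ y : ι → ℝ, |k y|) μ :=
        integrable_const _
      refine hconst.mono' ?_ ?_
      · exact (hmeas.norm.aestronglyMeasurable (μ := μ.prod volume)).integral_prod_right'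
      · refine Filter.Eventually.of_forall fun q => ?_
        rw [Real.norm_eq_abs, abs_of_nonneg (integral_nonneg fun y => norm_nonneg _)]
        calc ∫ y, ‖Function.uncurry (fun (q : (ι → ℝ) × β) (y : ι → ℝ) =>
                w q * k (y - q.1)) (q, y)‖
            ≤ ∫ y : ι → ℝ, C * |k (y - q.1)| := by
              refine integral_mono_of_nonneg (Filter.Eventually.of_forall fun y => norm_nonneg _)
                (hdom q) (Filter.Eventually.of_forall fun y => hle q y)
          _ = C * ∫ y : ι → ℝ, |k y| := by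
              rw [integral_const_mul, integral_sub_right_eq_self (fun y : ι → ℝ => |k y|)]
  exact hint.integral_prod_right

theorem integrable_prod_gs {w : (ι → ℝ) × β → ℝ} (hw : Measurable w) (C : ℝ) (hC : 0 ≤ C)
    (hwC : ∀ q, |w q| ≤ C) {κ : (ι → ℝ) → ℝ} (hκ : Integrable κ (gs ι)) (hκm : Measurable κ)
    {b : (ι → ℝ) → ℝ} (hb : Measurable b) (B : ℝ) (hbB : ∀ y, |b y| ≤ B) :
    Integrable (fun r : ((ι → ℝ) × β) × (ι → ℝ) => w r.1 * κ r.2 * b (r.1.1 + r.2))
      (μ.prod (gs ι)) := by
  have hB : 0 ≤ B := (abs_nonneg _).trans (hbB 0)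
  have e1 : Measurable fun r : ((ι → ℝ) × β) × (ι → ℝ) => r.1.1 + r.2 :=
    (measurable_fst.comp measurable_fst).add measurable_snd
  have hm : Measurable (fun r : ((ι → ℝ) × β) × (ι → ℝ) => w r.1 * κ r.2 * b (r.1.1 + r.2)) :=
    ((hw.comp measurable_fst).mul (hκm.comp measurable_snd)).mul (hb.comp e1)
  have hd : Integrable (fun r : ((ι → ℝ) × β) × (ι → ℝ) => C * |κ r.2| * B) (μ.prod (gs ι)) := by
    have := (hκ.abs.comp_snd μ)
    exact (this.const_mul C).mul_const B
  refine hd.mono' hm.aestronglyMeasurable (Filter.Eventually.of_forall fun r => ?_)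
  rw [Real.norm_eq_abs, abs_mul, abs_mul]
  exact mul_le_mul (mul_le_mul_of_nonneg_right (hwC _) (abs_nonneg _)) (hbB _) (abs_nonneg _)
    (mul_nonneg hC (abs_nonneg _))

/-- product form of `fubini_sm` -/
theorem fubini_prod {w : (ι → ℝ) × β → ℝ} (hw : Measurable w) (C : ℝ) (hC : 0 ≤ C)
    (hwC : ∀ q, |w q| ≤ C) {κ : (ι → ℝ) → ℝ} (hκ : Continuous κ)
    (hκi : Integrable fun z => κ z * ph z)
    {b : (ι → ℝ) → ℝ} (hb : Measurable b) (B : ℝ) (hbB : ∀ y, |b y| ≤ B) :
    ∫ r, w r.1 * κ r.2 * b (r.1.1 + r.2) ∂(μ.prod (gs ι)) =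
      cs ι * ∫ y, b y * sm μ w (fun z => κ z * ph z) y := by
  rw [← fubini_sm hw C hwC hκ hκi hb B hbB]
  exact integral_prod _ (integrable_prod_gs hw C hC hwC ((integrable_gs_iff _).2 hκi)
    hκ.measurable hb B hbB)

/-- **Lemma T, core**: from the a.e. identities `p_g = G p`, `p_g^j = G p^j` to `G` constant. -/
theorem tweedie_core {w : β → ℝ} (hw : Measurable w) (C : ℝ) (hC : 0 ≤ C) (hwC : ∀ i, |w i| ≤ C)
    {G : (ι → ℝ) → ℝ}
    (a0 : ∀ᵐ y : ι → ℝ, sm μ (fun q => w q.2) ph y = G y * sm μ (fun _ => 1) ph y)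
    (a1 : ∀ j, ∀ᵐ y : ι → ℝ, sm μ (fun q => w q.2) (fun z => z j * ph z) y =
      G y * sm μ (fun _ => 1) (fun z => z j * ph z) y) :
    ∀ᵐ y : ι → ℝ, G y = ∫ q, w q.2 ∂μ := by
  have hw2 : Measurable fun q : (ι → ℝ) × β => w q.2 := hw.comp measurable_snd
  have hw2C : ∀ q : (ι → ℝ) × β, |w q.2| ≤ C := fun q => hwC q.2
  have h1m : Measurable fun _ : (ι → ℝ) × β => (1 : ℝ) := measurable_const
  have h1C : ∀ q : (ι → ℝ) × β, |(1 : ℝ)| ≤ 1 := fun q => by simp
  have hph1 : (fun z : ι → ℝ => (1 : ℝ) * ph z) = ph := by ext z; ring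
  have hcoord : ∀ j : ι, Continuous fun z : ι → ℝ => z j * ph z := fun j =>
    (continuous_apply j).mul continuous_ph
  have hph : ∀ z : ι → ℝ, |ph z| ≤ 1 := fun z => by
    rw [abs_of_pos (ph_pos z)]; exact ph_le_one z
  have hcb : ∀ (j : ι) (z : ι → ℝ), |z j * ph z| ≤ 1 := by
    intro j z
    rw [abs_mul, abs_of_pos (ph_pos z)]
    exact abs_coord_mul_ph_le z j
  -- everywhere identity
  set P : (ι → ℝ) → ℝ := sm μ (fun _ => 1) ph with hP
  set Pg : (ι → ℝ) → ℝ := sm μ (fun q => w q.2) ph with hPg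
  have cP : Continuous P := continuous_sm h1m 1 h1C continuous_ph 1 hph
  have cPg : Continuous Pg := continuous_sm hw2 C hw2C continuous_ph 1 hph
  have hid : ∀ j, (fun y => P y * sm μ (fun q => w q.2) (fun z => z j * ph z) y) =
      fun y => Pg y * sm μ (fun _ => 1) (fun z => z j * ph z) y := by
    intro j
    refine (Continuous.ae_eq_iff_eq (μ := (volume : Measure (ι → ℝ)))
      (cP.mul (continuous_sm hw2 C hw2C (hcoord j) 1 (hcb j)))
      (cPg.mul (continuous_sm h1m 1 h1C (hcoord j) 1 (hcb j)))).1 ?_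
    filter_upwards [a0, a1 j] with y h0 h1
    have e0 : Pg y = G y * P y := h0
    have e1 : sm μ (fun q => w q.2) (fun z => z j * ph z) y =
      G y * sm μ (fun _ => 1) (fun z => z j * ph z) y := h1
    change P y * sm μ (fun q => w q.2) (fun z => z j * ph z) y =
      Pg y * sm μ (fun _ => 1) (fun z => z j * ph z) y
    rw [e1, e0]
    ring
  have hPpos : ∀ y, 0 < P y := fun y => sm_ph_pos y
  have hconst : ∀ y, Pg y / P y = Pg 0 / P 0 := by
    intro y
    have hd : ∀ s : ℝ, HasDerivAt (fun s : ℝ => Pg (s • y) / P (s • y)) 0 s := by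
      intro s
      have d1 := hasDerivAt_sm_ray (μ := μ) hw2 C hC hw2C y s
      have d2 := hasDerivAt_sm_ray (μ := μ) h1m 1 zero_le_one h1C y s
      refine (d1.div d2 (hPpos _).ne').congr_deriv ?_
      have : ∀ j, P (s • y) * sm μ (fun q => w q.2) (fun z => z j * ph z) (s • y) =
          Pg (s • y) * sm μ (fun _ => 1) (fun z => z j * ph z) (s • y) :=
        fun j => congrFun (hid j) (s • y)
      have hnum : -(∑ j, y j * sm μ (fun q => w q.2) (fun z => z j * ph z) (s • y)) *
          P (s • y) - Pg (s • y) *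
          -(∑ j, y j * sm μ (fun _ => 1) (fun z => z j * ph z) (s • y)) = 0 := by
        have : (∑ j, y j * sm μ (fun q => w q.2) (fun z => z j * ph z) (s • y)) * P (s • y) =
            Pg (s • y) * ∑ j, y j * sm μ (fun _ => 1) (fun z => z j * ph z) (s • y) := by
          rw [Finset.sum_mul, Finset.mul_sum]
          apply Finset.sum_congr rfl
          intro j _
          have := this j
          linear_combination y j * this
        linarith
      rw [hnum, zero_div]
    have := is_const_of_deriv_eq_zero (f := fun s : ℝ => Pg (s • y) / P (s • y))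
      (fun s => (hd s).differentiableAt) (fun s => (hd s).deriv) 1 0
    simpa using this
  -- the constant is `∫ w`
  have hc : Pg 0 / P 0 = ∫ q, w q.2 ∂μ := by
    have f1 := fubini_prod (μ := μ) hw2 C hC hw2C (κ := fun _ => 1) continuous_const
      (by rw [hph1]; exact integrable_ph) (b := fun _ => 1) measurable_const 1 (by simp)
    have f2 := fubini_prod (μ := μ) h1m 1 zero_le_one h1C (κ := fun _ => 1) continuous_const
      (by rw [hph1]; exact integrable_ph) (b := fun _ => 1) measurable_const 1 (by simp)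
    rw [hph1] at f1 f2
    have e1 : ∀ y, Pg y = (Pg 0 / P 0) * P y := by
      intro y
      rw [← hconst y]
      field_simp [(hPpos y).ne']
    have f3 : ∫ y, 1 * sm μ (fun q => w q.2) ph y = (Pg 0 / P 0) * ∫ y, 1 * P y := by
      rw [← integral_const_mul]
      congr 1
      ext y
      rw [← hPg, e1 y]
      ring
    rw [f3] at f1
    rw [← hP] at f2
    have f4 : ∫ r : ((ι → ℝ) × β) × (ι → ℝ), w r.1.2 * 1 * 1 ∂(μ.prod (gs ι)) =
        ∫ q, w q.2 ∂μ := by
      have := integral_fun_fst (μ := μ) (ν := gs ι) (fun q : (ι → ℝ) × β => w q.2)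
      simpa using this
    have f5 : ∫ r : ((ι → ℝ) × β) × (ι → ℝ), (1 : ℝ) * 1 * 1 ∂(μ.prod (gs ι)) = 1 := by
      simp
    rw [f4] at f1
    rw [f5] at f2
    rw [f1, mul_left_comm, ← f2, mul_one]
  filter_upwards [a0] with y h0
  have e0 : G y * P y = Pg y := h0.symm
  rw [← hc, ← hconst y, ← e0]
  field_simp [(hPpos y).ne']

end main

section joint

variable {α β : Type*} [MeasurableSpace α] [MeasurableSpace β]

/-- If `∫ b u = 0` for every bounded measurable `b` then `u = 0` a.e. (any measure) -/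
theorem ae_eq_zero_of_forall' {τ : Type*} [MeasurableSpace τ] {m : Measure τ} {u : τ → ℝ}
    (hu : Measurable u) (hui : Integrable u m)
    (h : ∀ b : τ → ℝ, Measurable b → (∀ y, |b y| ≤ 1) → ∫ y, b y * u y ∂m = 0) :
    ∀ᵐ y ∂m, u y = 0 := by
  have hb : Measurable fun y => if 0 ≤ u y then (1 : ℝ) else -1 :=
    Measurable.ite (measurableSet_le measurable_const hu) measurable_const measurable_const
  have h1 := h (fun y => if 0 ≤ u y then (1 : ℝ) else -1) hb (by
    intro y
    by_cases h0 : 0 ≤ u y <;> simp [h0])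
  have h2 : ∀ y, (if 0 ≤ u y then (1 : ℝ) else -1) * u y = |u y| := by
    intro y
    by_cases h0 : 0 ≤ u y
    · simp [h0, abs_of_nonneg h0]
    · rw [if_neg h0, abs_of_neg (not_le.1 h0)]; ring
  simp_rw [h2] at h1
  have h3 := (integral_eq_zero_iff_of_nonneg_ae
    (Filter.Eventually.of_forall fun y => abs_nonneg (u y)) hui.abs).1 h1
  filter_upwards [h3] with y hy
  simpa using hy

/-- kernel version of `sm` -/
noncomputable def smk (κ : Kernel α ((ι → ℝ) × β)) (w : β → ℝ) (k : (ι → ℝ) → ℝ)
    (r : α × (ι → ℝ)) : ℝ :=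
  ∫ q, w q.2 * k (r.2 - q.1) ∂(κ r.1)

theorem measurable_smk {κ : Kernel α ((ι → ℝ) × β)} [IsMarkovKernel κ]
    {w : β → ℝ} (hw : Measurable w) {k : (ι → ℝ) → ℝ} (hk : Measurable k) :
    Measurable (smk κ w k) := by
  have h1 : StronglyMeasurable (Function.uncurry fun (r : α × (ι → ℝ)) (q : (ι → ℝ) × β) =>
      w q.2 * k (r.2 - q.1)) := by
    apply Measurable.stronglyMeasurable
    have e1 : Measurable fun t : (α × (ι → ℝ)) × ((ι → ℝ) × β) => t.1.2 - t.2.1 :=
      (measurable_snd.comp measurable_fst).sub (measurable_fst.comp measurable_snd)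
    exact (hw.comp (measurable_snd.comp measurable_snd)).mul (hk.comp e1)
  have hf : Measurable (Prod.fst : α × (ι → ℝ) → α) := measurable_fst
  have h2 := h1.integral_kernel_prod_right (κ := κ.comap (Prod.fst : α × (ι → ℝ) → α) hf)
  have h3 : smk κ w k = fun r : α × (ι → ℝ) => ∫ q, w q.2 * k (r.2 - q.1)
      ∂(κ.comap (Prod.fst : α × (ι → ℝ) → α) hf r) := by
    ext r
    simp [smk, Kernel.comap_apply]
  rw [h3]
  exact h2.measurable

variable {P : Measure α} [IsProbabilityMeasure P] {κ : Kernel α ((ι → ℝ) × β)} [IsMarkovKernel κ]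

theorem integral_abs_sm_le {μ : Measure ((ι → ℝ) × β)} [IsProbabilityMeasure μ]
    {w : (ι → ℝ) × β → ℝ} (hw : Measurable w) (C : ℝ)
    (hwC : ∀ q, |w q| ≤ C) {k : (ι → ℝ) → ℝ} (hk : Continuous k) (hki : Integrable k) :
    ∫ y, |sm μ w k y| ≤ C * ∫ y, |k y| := by
  have hmeas : Measurable (Function.uncurry fun (q : (ι → ℝ) × β) (y : ι → ℝ) =>
      C * |k (y - q.1)|) := by
    have e1 : Measurable fun r : ((ι → ℝ) × β) × (ι → ℝ) => r.2 - r.1.1 :=
      measurable_snd.sub (measurable_fst.comp measurable_fst)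
    exact measurable_const.mul ((hk.measurable.comp e1).abs)
  have hdom : ∀ q : (ι → ℝ) × β, Integrable fun y : ι → ℝ => C * |k (y - q.1)| := by
    intro q
    exact ((hki.comp_sub_right q.1).abs.const_mul C)
  have hval : ∀ q : (ι → ℝ) × β, ∫ y : ι → ℝ, C * |k (y - q.1)| = C * ∫ y, |k y| := by
    intro q
    rw [integral_const_mul, integral_sub_right_eq_self (fun y : ι → ℝ => |k y|)]
  have hC : 0 ≤ C := by
    have : Nonempty ((ι → ℝ) × β) := by
      by_contra hne
      rw [not_nonempty_iff] at hne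
      have := IsProbabilityMeasure.ne_zero μ
      exact this (Measure.eq_zero_of_isEmpty μ)
    exact (abs_nonneg _).trans (hwC this.some)
  have hint : Integrable (Function.uncurry fun (q : (ι → ℝ) × β) (y : ι → ℝ) =>
      C * |k (y - q.1)|) (μ.prod volume) := by
    rw [integrable_prod_iff hmeas.aestronglyMeasurable]
    constructor
    · exact Filter.Eventually.of_forall fun q => hdom q
    · have hconst : Integrable (fun _ : (ι → ℝ) × β => C * ∫ y : ι → ℝ, |k y|) μ :=
        integrable_const _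
      refine hconst.congr (Filter.Eventually.of_forall fun q => ?_)
      simp only [Function.uncurry]
      rw [← hval q]
      congr 1
      ext y
      rw [Real.norm_eq_abs, abs_of_nonneg (mul_nonneg hC (abs_nonneg _))]
  have hswap : ∫ y, ∫ q : (ι → ℝ) × β, C * |k (y - q.1)| ∂μ = C * ∫ y, |k y| := by
    rw [← integral_integral_swap hint]
    simp_rw [hval]
    simp
  rw [← hswap]
  refine integral_mono_of_nonneg (Filter.Eventually.of_forall fun y => abs_nonneg _)
    hint.integral_prod_right ?_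
  refine hint.swap.prod_right_ae.mono fun y hy => ?_
  unfold sm
  refine (abs_integral_le_integral_abs).trans ?_
  refine integral_mono_of_nonneg (Filter.Eventually.of_forall fun q => abs_nonneg _) hy
    (Filter.Eventually.of_forall fun q => ?_)
  simp only [abs_mul]
  exact mul_le_mul_of_nonneg_right (hwC _) (abs_nonneg _)

theorem integrable_smk {w : β → ℝ} (hw : Measurable w) (C : ℝ) (hwC : ∀ i, |w i| ≤ C)
    {k : (ι → ℝ) → ℝ} (hk : Continuous k) (hki : Integrable k) :
    Integrable (smk κ w k) (P.prod (volume : Measure (ι → ℝ))) := by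
  have hm := measurable_smk (κ := κ) hw hk.measurable
  rw [integrable_prod_iff hm.aestronglyMeasurable]
  have hw2 : Measurable fun q : (ι → ℝ) × β => w q.2 := hw.comp measurable_snd
  have hw2C : ∀ q : (ι → ℝ) × β, |w q.2| ≤ C := fun q => hwC q.2
  constructor
  · refine Filter.Eventually.of_forall fun a => ?_
    exact integrable_sm (μ := κ a) hw2 C hw2C hk hki
  · have hconst : Integrable (fun _ : α => C * ∫ y : ι → ℝ, |k y|) P := integrable_const _
    refine hconst.mono' ?_ ?_
    · exact (hm.norm.aestronglyMeasurable (μ := P.prod volume)).integral_prod_right'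
    · refine Filter.Eventually.of_forall fun a => ?_
      rw [Real.norm_eq_abs, abs_of_nonneg (integral_nonneg fun y => norm_nonneg _)]
      exact integral_abs_sm_le (μ := κ a) hw2 C hw2C hk hki

/-- joint Fubini identity -/
theorem fubini_joint {w : β → ℝ} (hw : Measurable w) (C : ℝ) (hC : 0 ≤ C)
    (hwC : ∀ i, |w i| ≤ C) {k : (ι → ℝ) → ℝ} (hk : Continuous k)
    (hkc : Continuous fun z => k z * ph z)
    (hki : Integrable fun z => k z * ph z)
    {b : α × (ι → ℝ) → ℝ} (hb : Measurable b) (B : ℝ) (hbB : ∀ y, |b y| ≤ B) :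
    Integrable (fun r : (α × ((ι → ℝ) × β)) × (ι → ℝ) =>
        w r.1.2.2 * k r.2 * b (r.1.1, r.1.2.1 + r.2)) ((P ⊗ₘ κ).prod (gs ι)) ∧
      ∫ r, w r.1.2.2 * k r.2 * b (r.1.1, r.1.2.1 + r.2) ∂((P ⊗ₘ κ).prod (gs ι)) =
      cs ι * ∫ t, b t * smk κ w (fun z => k z * ph z) t
        ∂(P.prod (volume : Measure (ι → ℝ))) := by
  have hB : 0 ≤ B := by
    have : Nonempty α := by
      by_contra hne
      rw [not_nonempty_iff] at hne
      have := IsProbabilityMeasure.ne_zero P
      exact this (Measure.eq_zero_of_isEmpty P)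
    exact (abs_nonneg _).trans (hbB (this.some, 0))
  have e1 : Measurable fun r : (α × ((ι → ℝ) × β)) × (ι → ℝ) => (r.1.1, r.1.2.1 + r.2) := by
    refine (measurable_fst.comp measurable_fst).prodMk ?_
    exact (measurable_fst.comp (measurable_snd.comp measurable_fst)).add measurable_snd
  have hm : Measurable (fun r : (α × ((ι → ℝ) × β)) × (ι → ℝ) =>
      w r.1.2.2 * k r.2 * b (r.1.1, r.1.2.1 + r.2)) :=
    ((hw.comp (measurable_snd.comp (measurable_snd.comp measurable_fst))).mul
      (hk.measurable.comp measurable_snd)).mul (hb.comp e1)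
  have hkg : Integrable k (gs ι) := (integrable_gs_iff _).2 hki
  have hI : Integrable (fun r : (α × ((ι → ℝ) × β)) × (ι → ℝ) =>
      w r.1.2.2 * k r.2 * b (r.1.1, r.1.2.1 + r.2)) ((P ⊗ₘ κ).prod (gs ι)) := by
    have hd : Integrable (fun r : (α × ((ι → ℝ) × β)) × (ι → ℝ) => C * |k r.2| * B)
        ((P ⊗ₘ κ).prod (gs ι)) :=
      ((hkg.abs.comp_snd (P ⊗ₘ κ)).const_mul C).mul_const B
    refine hd.mono' hm.aestronglyMeasurable (Filter.Eventually.of_forall fun r => ?_)
    rw [Real.norm_eq_abs, abs_mul, abs_mul]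
    exact mul_le_mul (mul_le_mul_of_nonneg_right (hwC _) (abs_nonneg _)) (hbB _) (abs_nonneg _)
      (mul_nonneg hC (abs_nonneg _))
  refine ⟨hI, ?_⟩
  have hw2 : Measurable fun q : (ι → ℝ) × β => w q.2 := hw.comp measurable_snd
  have hw2C : ∀ q : (ι → ℝ) × β, |w q.2| ≤ C := fun q => hwC q.2
  rw [integral_prod _ hI, Measure.integral_compProd hI.integral_prod_left]
  have h1 : ∀ a : α, ∫ q, ∫ z, w q.2 * k z * b (a, q.1 + z) ∂gs ι ∂(κ a) =
      cs ι * ∫ y, b (a, y) * smk κ w (fun z => k z * ph z) (a, y) := by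
    intro a
    exact fubini_sm (μ := κ a) hw2 C hw2C hk hki (b := fun y => b (a, y))
      (hb.comp measurable_prodMk_left) B (fun y => hbB _)
  simp_rw [h1]
  rw [integral_const_mul]
  congr 1
  have hI2 : Integrable (fun t : α × (ι → ℝ) => b t * smk κ w (fun z => k z * ph z) t)
      (P.prod volume) := by
    have hs := integrable_smk (P := P) (κ := κ) hw C hwC hkc hki
    refine (hs.abs.const_mul B).mono' (hb.mul (measurable_smk hw
      hkc.measurable)).aestronglyMeasurable (Filter.Eventually.of_forall fun t => ?_)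
    rw [Real.norm_eq_abs, abs_mul]
    exact mul_le_mul_of_nonneg_right (hbB t) (abs_nonneg _)
  rw [integral_prod _ hI2]

/-- **Lemma T, joint form.**  `env ∼ P`, `(X, I) | env ∼ κ`, `N` standard Gaussian independent of
everything, `Y = X + N`.  If `G (env, Y)` is a bounded version of `E[w(I) | env, Y]` and
`E[N_j (w(I) - G(env,Y)) b(env,Y)] = 0` for all `j` and bounded measurable `b`, then
`G (env, Y) = E[w(I) | env]` a.e. -/
theorem tweedie_joint {w : β → ℝ} (hw : Measurable w) (C : ℝ) (hC : 0 ≤ C)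
    (hwC : ∀ i, |w i| ≤ C) {G : α × (ι → ℝ) → ℝ} (hG : Measurable G) (hGC : ∀ y, |G y| ≤ C)
    (H0 : ∀ b : α × (ι → ℝ) → ℝ, Measurable b → (∀ y, |b y| ≤ 1) →
      ∫ r : (α × ((ι → ℝ) × β)) × (ι → ℝ),
        (w r.1.2.2 - G (r.1.1, r.1.2.1 + r.2)) * b (r.1.1, r.1.2.1 + r.2)
        ∂((P ⊗ₘ κ).prod (gs ι)) = 0)
    (H1 : ∀ j, ∀ b : α × (ι → ℝ) → ℝ, Measurable b → (∀ y, |b y| ≤ 1) →
      ∫ r : (α × ((ι → ℝ) × β)) × (ι → ℝ),
        r.2 j * ((w r.1.2.2 - G (r.1.1, r.1.2.1 + r.2)) * b (r.1.1, r.1.2.1 + r.2))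
        ∂((P ⊗ₘ κ).prod (gs ι)) = 0) :
    ∀ᵐ t : α × (ι → ℝ) ∂(P.prod (volume : Measure (ι → ℝ))), G t = ∫ q, w q.2 ∂(κ t.1) := by
  have h1m : Measurable fun _ : β => (1 : ℝ) := measurable_const
  have h1C : ∀ q : β, |(1 : ℝ)| ≤ 1 := fun q => by simp
  have key : ∀ (k : (ι → ℝ) → ℝ), Continuous k → Integrable (fun z => k z * ph z) →
      Continuous (fun z => k z * ph z) →
      (∀ b : α × (ι → ℝ) → ℝ, Measurable b → (∀ y, |b y| ≤ 1) →
        ∫ r : (α × ((ι → ℝ) × β)) × (ι → ℝ),
          k r.2 * ((w r.1.2.2 - G (r.1.1, r.1.2.1 + r.2)) * b (r.1.1, r.1.2.1 + r.2))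
          ∂((P ⊗ₘ κ).prod (gs ι)) = 0) →
      ∀ᵐ t : α × (ι → ℝ) ∂(P.prod (volume : Measure (ι → ℝ))),
        smk κ w (fun z => k z * ph z) t -
        G t * smk κ (fun _ => 1) (fun z => k z * ph z) t = 0 := by
    intro k hk hki hkc hb0
    have i1 := integrable_smk (P := P) (κ := κ) hw C hwC hkc hki
    have i2 := integrable_smk (P := P) (κ := κ) h1m 1 h1C hkc hki
    have m1 := measurable_smk (κ := κ) hw hkc.measurable
    have m2 := measurable_smk (κ := κ) h1m hkc.measurable
    have i3 : Integrable (fun t => G t * smk κ (fun _ => 1) (fun z => k z * ph z) t)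
        (P.prod (volume : Measure (ι → ℝ))) := by
      refine (i2.abs.const_mul C).mono' (hG.mul m2).aestronglyMeasurable
        (Filter.Eventually.of_forall fun y => ?_)
      rw [Real.norm_eq_abs, abs_mul]
      exact mul_le_mul_of_nonneg_right (hGC y) (abs_nonneg _)
    apply ae_eq_zero_of_forall' (m1.sub (hG.mul m2)) (i1.sub i3)
    intro b hb hb1
    have hGb : Measurable fun y => G y * b y := hG.mul hb
    have hGbC : ∀ y, |G y * b y| ≤ C := by
      intro y
      rw [abs_mul]
      calc |G y| * |b y| ≤ C * 1 := mul_le_mul (hGC y) (hb1 y) (abs_nonneg _) hC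
        _ = C := mul_one C
    obtain ⟨g1, f1⟩ := fubini_joint (P := P) (κ := κ) hw C hC hwC hk hkc hki hb 1 hb1
    obtain ⟨g2, f2⟩ := fubini_joint (P := P) (κ := κ) h1m 1 zero_le_one h1C hk hkc hki hGb C hGbC
    have h3 := hb0 b hb hb1
    have h4 : ∫ r : (α × ((ι → ℝ) × β)) × (ι → ℝ),
          k r.2 * ((w r.1.2.2 - G (r.1.1, r.1.2.1 + r.2)) * b (r.1.1, r.1.2.1 + r.2))
          ∂((P ⊗ₘ κ).prod (gs ι)) =
        (∫ r : (α × ((ι → ℝ) × β)) × (ι → ℝ),
          w r.1.2.2 * k r.2 * b (r.1.1, r.1.2.1 + r.2) ∂((P ⊗ₘ κ).prod (gs ι))) -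
        ∫ r : (α × ((ι → ℝ) × β)) × (ι → ℝ),
          1 * k r.2 * (G (r.1.1, r.1.2.1 + r.2) * b (r.1.1, r.1.2.1 + r.2))
          ∂((P ⊗ₘ κ).prod (gs ι)) := by
      rw [← integral_sub g1 g2]
      congr 1
      ext r
      ring
    rw [h4, f1, f2, ← mul_sub] at h3
    have h5 := (mul_eq_zero.1 h3).resolve_left cs_pos.ne'
    rw [← h5, ← integral_sub]
    · congr 1
      ext y
      simp only [Pi.sub_apply, Pi.mul_apply]
      ring
    · refine i1.abs.mono' (hb.mul m1).aestronglyMeasurable
        (Filter.Eventually.of_forall fun y => ?_)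
      rw [Real.norm_eq_abs, abs_mul]
      calc |b y| * |smk κ w (fun z => k z * ph z) y| ≤
            1 * |smk κ w (fun z => k z * ph z) y| :=
            mul_le_mul_of_nonneg_right (hb1 y) (abs_nonneg _)
        _ = _ := one_mul _
    · refine i3.abs.mono' (hGb.mul m2).aestronglyMeasurable
        (Filter.Eventually.of_forall fun y => ?_)
      rw [Real.norm_eq_abs, abs_mul, abs_mul, abs_mul]
      calc |G y| * |b y| * |smk κ (fun _ => 1) (fun z => k z * ph z) y| ≤
            |G y| * 1 * |smk κ (fun _ => 1) (fun z => k z * ph z) y| := by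
            gcongr
            exact hb1 y
        _ = _ := by ring
  have hph1 : (fun z : ι → ℝ => (1 : ℝ) * ph z) = ph := by ext z; ring
  have a0 := key (fun _ => 1) continuous_const (by rw [hph1]; exact integrable_ph)
    (by rw [hph1]; exact continuous_ph) (by
      intro b hb hb1
      have := H0 b hb hb1
      simpa using this)
  rw [hph1] at a0
  have hcoord : ∀ j : ι, Continuous fun z : ι → ℝ => z j * ph z := fun j =>
    (continuous_apply j).mul continuous_ph
  have a1 : ∀ j, _ := fun j => key (fun z => z j) (continuous_apply j) (integrable_coord_ph j)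
    (hcoord j) (H1 j)
  have hGm : MeasurableSet {t : α × (ι → ℝ) | G t = ∫ q, w q.2 ∂(κ t.1)} := by
    have hf : Measurable fun t : α × (ι → ℝ) => ∫ q, w q.2 ∂(κ t.1) := by
      have h1 : StronglyMeasurable (Function.uncurry fun (r : α) (q : (ι → ℝ) × β) =>
          w q.2) :=
        Measurable.stronglyMeasurable (hw.comp (measurable_snd.comp measurable_snd))
      exact (h1.integral_kernel_prod_right (κ := κ)).measurable.comp measurable_fst
    exact measurableSet_eq_fun hG hf
  rw [Measure.ae_prod_iff_ae_ae hGm]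
  have b0 := Measure.ae_ae_of_ae_prod a0
  have b1 : ∀ᵐ a ∂P, ∀ j, ∀ᵐ y : ι → ℝ, smk κ w (fun z => z j * ph z) (a, y) -
      G (a, y) * smk κ (fun _ => 1) (fun z => z j * ph z) (a, y) = 0 := by
    rw [ae_all_iff]
    intro j
    exact Measure.ae_ae_of_ae_prod (a1 j)
  filter_upwards [b0, b1] with a h0 h1
  refine tweedie_core (μ := κ a) hw C hC hwC (G := fun y => G (a, y)) ?_ ?_
  · filter_upwards [h0] with y hy
    have : smk κ w ph (a, y) = G (a, y) * smk κ (fun _ => 1) ph (a, y) := by linarith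
    exact this
  · intro j
    filter_upwards [h1 j] with y hy
    have : smk κ w (fun z => z j * ph z) (a, y) =
      G (a, y) * smk κ (fun _ => 1) (fun z => z j * ph z) (a, y) := by linarith
    exact this

end joint

end Crest.Agent.R166.Tweedie487
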