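import Crest.Agent.R166.Seq_980
import Crest.Agent.R166.Count_674
import Crest.Agent.R166.UppView_724
import Crest.Agent.R166.SimpleP_356
import Crest.Agent.R166.Spec_B1_955

-- ▼ part R166/TypC_674
section

/-!
# R166, 40.6 (T), counting side (helper674)

`typ_count`: if every point `x = (p, ω)` of `U` (of outer probability `portLaw`) comes with at least
`Q` cell vectors `y` such that the star counts of the radius `R` views of the colours
`(radius a view of the ω-cells, y)` have `Psi ≤ ψ`, then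
`log portLaw(U) + n log |A| + log Q - C log (n+1) ≤ n ψ`.
-/

set_option autoImplicit false

namespace Crest.Agent.R166.TypC674

open MeasureTheory Finset PairCount356 Crest.ProbabilityR.RandomMatrix
open Crest.Agent.R166.Seq980 (PS portLaw portLaw_apply)
open Crest.Agent.R166.Upp724 (View viewOf vroot vroot_viewOf)
open Crest.Agent.R166.Count674 (St Th)

/-- law of one potential -/
noncomputable def u1 : Measure ℝ := (2⁻¹ : NNReal) • volume.restrict (Set.Icc (-1 : ℝ) 1)

instance : IsProbabilityMeasure u1 := by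
  constructor
  unfold u1
  rw [Measure.smul_apply, Measure.restrict_apply_univ, Real.volume_Icc]
  norm_num
  rw [ENNReal.smul_def, smul_eq_mul]
  norm_num
  exact ENNReal.inv_mul_cancel (by norm_num) (by norm_num)

theorem potentialLaw_eq (n : ℕ) : potentialLaw n = Measure.pi fun _ : Fin n => u1 := rfl

/-- mass of a cell vector -/
theorem potentialLaw_cell {n : ℕ} {A : Type} (q : ℝ → A) (c : ENNReal)
    (hq : ∀ a, u1 (q ⁻¹' {a}) ≤ c) (o : Fin n → A) :
    potentialLaw n {ω | (fun v => q (ω v)) = o} ≤ c ^ n := by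
  have h1 : {ω : Fin n → ℝ | (fun v => q (ω v)) = o} =
      Set.pi Set.univ (fun v => q ⁻¹' {o v}) := by
    ext ω
    simp [funext_iff]
  rw [h1, potentialLaw_eq, Measure.pi_pi]
  calc ∏ i : Fin n, u1 (q ⁻¹' {o i}) ≤ ∏ _i : Fin n, c :=
        Finset.prod_le_prod' fun i _ => hq (o i)
    _ = c ^ n := by simp

section
variable {n d : ℕ} {A : Type} [Fintype A]

/-- occupied pairs (port pairing, cell vector) -/
noncomputable def occ (q : ℝ → A) (U : Set (PS d n)) : Finset (Equiv.Perm (HE n d) × (Fin n → A)) := by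
  classical
  exact (Ports n d ×ˢ (univ : Finset (Fin n → A))).filter fun z =>
    ∃ ω, (z.1, ω) ∈ U ∧ (fun v => q (ω v)) = z.2

theorem mem_occ (q : ℝ → A) (U : Set (PS d n)) (z : Equiv.Perm (HE n d) × (Fin n → A)) :
    z ∈ occ q U ↔ IsPort z.1 ∧ ∃ ω, (z.1, ω) ∈ U ∧ (fun v => q (ω v)) = z.2 := by
  classical
  unfold occ
  rw [mem_filter, mem_product, mem_Ports]
  simp

/-- (b) the probability of `U` is at most the number of the occupied pairs times the mass of a
cell -/
theorem portP_le (q : ℝ → A) (c : ENNReal) (hq : ∀ a, u1 (q ⁻¹' {a}) ≤ c) (U : Set (PS d n)) :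
    portLaw d n U ≤ ((Ports n d).card : ENNReal)⁻¹ * ((occ q U).card * c ^ n) := by
  classical
  rw [portLaw_apply]
  gcongr
  have h1 : ∀ p ∈ Ports n d, potentialLaw n {ω | (p, ω) ∈ U} ≤
      ((univ : Finset (Fin n → A)).filter fun o => (p, o) ∈ occ q U).card * c ^ n := by
    intro p hp
    have hsub : {ω | (p, ω) ∈ U} ⊆ ⋃ o ∈ ((univ : Finset (Fin n → A)).filter
        fun o => (p, o) ∈ occ q U), {ω | (fun v => q (ω v)) = o} := by
      intro ω hω
      simp only [Set.mem_iUnion]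
      refine ⟨fun v => q (ω v), ?_, rfl⟩
      rw [mem_filter, mem_occ]
      exact ⟨mem_univ _, mem_Ports.1 hp, ω, hω, rfl⟩
    refine (measure_mono hsub).trans ((measure_biUnion_finset_le _ _).trans ?_)
    refine (Finset.sum_le_sum fun o _ => potentialLaw_cell q c hq o).trans ?_
    rw [sum_const, nsmul_eq_mul]
  refine (Finset.sum_le_sum h1).trans (le_of_eq ?_)
  rw [← Finset.sum_mul]
  congr 1
  have h2 : (occ q U).card = ∑ p ∈ Ports n d,
      ((univ : Finset (Fin n → A)).filter fun o => (p, o) ∈ occ q U).card := by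
    have h3 : ∀ z ∈ occ q U, z.1 ∈ Ports n d := fun z hz => mem_Ports.2 ((mem_occ q U z).1 hz).1
    rw [Finset.card_eq_sum_card_fiberwise h3]
    refine Finset.sum_congr rfl fun p _ => ?_
    refine Finset.card_bij (fun z _ => z.2) ?_ ?_ ?_
    · intro z hz
      rw [mem_filter] at hz ⊢
      refine ⟨mem_univ _, ?_⟩
      rw [← hz.2]
      exact hz.1
    · intro z hz z' hz' h
      rw [mem_filter] at hz hz'
      exact Prod.ext (hz.2.trans hz'.2.symm) h
    · intro o ho
      rw [mem_filter] at ho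
      exact ⟨(p, o), by rw [mem_filter]; exact ⟨ho.2, rfl⟩, rfl⟩
  rw [h2]
  push_cast
  rfl

end

/-- the colour of a sample: (radius `a` view of the cells of `ω`, `y`) -/
def colC {n d : ℕ} {A B : Type} (a : ℕ) (p : Equiv.Perm (HE n d)) (o : Fin n → A)
    (y : Fin n → B) (v : Fin n) : View A (Fin d) a × B := (viewOf p o a v, y v)

/-- the radius `R` views of the colours determine `(o, y)` -/
theorem view_inj {n d : ℕ} {A B : Type} (a R : ℕ) (p : Equiv.Perm (HE n d)) {o o' : Fin n → A}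
    {y y' : Fin n → B}
    (h : viewOf (⇑p) (colC a p o y) R = viewOf (⇑p) (colC a p o' y') R) : o = o' ∧ y = y' := by
  have h1 : ∀ v, colC a p o y v = colC a p o' y' v := by
    intro v
    have := congrArg (vroot R) (congrFun h v)
    simpa only [vroot_viewOf] using this
  constructor
  · funext v
    have := congrArg (vroot a) (congrArg Prod.fst (h1 v))
    simpa only [colC, vroot_viewOf] using this
  · funext v
    exact congrArg Prod.snd (h1 v)

/-- (c) counting, for a general injective colouring rule -/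
theorem typ_count_gen (d : ℕ) (hd : 1 ≤ d) (A B S : Type) [Fintype A] [Fintype B] [Fintype S]
    [DecidableEq S] (q : ℝ → A) (hq : ∀ x, u1 (q ⁻¹' {x}) ≤ ((Fintype.card A : ℕ) : ENNReal)⁻¹) :
    ∃ C : ℝ, ∃ N : ℕ, ∀ n : ℕ, N ≤ n →
      ∀ (col : Equiv.Perm (HE n d) → (Fin n → A) → (Fin n → B) → (Fin n → S)),
      (∀ p o y o' y', col p o y = col p o' y' → o = o' ∧ y = y') →
      ∀ (U : Set (PS d n)), (∀ x ∈ U, IsPort x.1) →
      ∀ (Yc : PS d n → Finset (Fin n → B)) (Q ψ : ℝ), 0 < Q → (∀ x ∈ U, Q ≤ ((Yc x).card : ℝ)) →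
      (∀ x ∈ U, ∀ y ∈ Yc x, Count674.Psi n (Count674.starCnt x.1
        (col x.1 (fun v => q (x.2 v)) y)) ≤ ψ) →
      ∀ δ : ℝ, 0 < δ → ENNReal.ofReal δ ≤ portLaw d n U →
      Real.log δ + n * Real.log (Fintype.card A) + Real.log Q - C * Real.log (n + 1) ≤ n * ψ := by
  classical
  obtain ⟨C0, n0, hP⟩ := Simple356.exists_np_le_Ports d hd
  refine ⟨C0 + (Count674.cC S d + Fintype.card (St S d)), max n0 1, ?_⟩
  intro n hn col hcol U hU Yc Q ψ hQ hYc hψ δ hδ hδU
  have hn0 : n0 ≤ n := (le_max_left _ _).trans hn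
  have hn1 : 1 ≤ n := (le_max_right _ _).trans hn
  have hnR : (0 : ℝ) < n := by exact_mod_cast hn1
  -- the occupied pairs
  set O := occ q U with hO
  have hrep : ∀ z : Equiv.Perm (HE n d) × (Fin n → A), z ∈ O →
      ∃ ω, (z.1, ω) ∈ U ∧ (fun v => q (ω v)) = z.2 := fun z hz => ((mem_occ q U z).1 hz).2
  let rep : Equiv.Perm (HE n d) × (Fin n → A) → (Fin n → ℝ) := fun z =>
    if hz : z ∈ O then (hrep z hz).choose else 0
  have hrep1 : ∀ z ∈ O, (z.1, rep z) ∈ U ∧ (fun v => q (rep z v)) = z.2 := by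
    intro z hz
    simp only [rep, dif_pos hz]
    exact (hrep z hz).choose_spec
  -- the set of pairs (pairing, colouring)
  let cfun : (Equiv.Perm (HE n d) × (Fin n → A)) × (Fin n → B) →
      Equiv.Perm (HE n d) × (Fin n → S) := fun w => (w.1.1, col w.1.1 w.1.2 w.2)
  let D : Finset ((Equiv.Perm (HE n d) × (Fin n → A)) × (Fin n → B)) :=
    O.biUnion fun z => (Yc (z.1, rep z)).image fun y => (z, y)
  have hDcard : Q * O.card ≤ (D.card : ℝ) := by
    have h1 : D.card = ∑ z ∈ O, (Yc (z.1, rep z)).card := by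
      rw [Finset.card_biUnion]
      · refine Finset.sum_congr rfl fun z _ => ?_
        rw [Finset.card_image_of_injective]
        intro y y' h
        exact (Prod.mk.inj h).2
      · intro z _ z' _ hne
        simp only [Function.onFun]
        rw [Finset.disjoint_left]
        intro w hw hw'
        rw [mem_image] at hw hw'
        obtain ⟨_, _, h1⟩ := hw
        obtain ⟨_, _, h2⟩ := hw'
        exact hne ((congrArg Prod.fst h1).trans (congrArg Prod.fst h2).symm)
    rw [h1]
    push_cast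
    rw [mul_comm, ← nsmul_eq_mul, ← Finset.sum_const]
    exact Finset.sum_le_sum fun z hz => hYc _ (hrep1 z hz).1
  have hinj : Set.InjOn cfun D := by
    rintro ⟨⟨p, o⟩, y⟩ _ ⟨⟨p', o'⟩, y'⟩ _ h
    have h1 : p = p' := congrArg Prod.fst h
    subst h1
    obtain ⟨h2, h3⟩ := hcol p o y o' y' (congrArg Prod.snd h)
    subst h2
    subst h3
    rfl
  -- the set of the count vectors
  let K : Finset (St S d → ℕ) := (D.image cfun).image fun w => Count674.starCnt w.1 w.2
  have hK : ∀ N ∈ K, Count674.Psi (Fintype.card (Fin n)) N ≤ ψ := by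
    intro N hN
    simp only [K, mem_image] at hN
    obtain ⟨w', ⟨w, hw, rfl⟩, rfl⟩ := hN
    simp only [D, mem_biUnion, mem_image] at hw
    obtain ⟨z, hz, y, hy, rfl⟩ := hw
    have h1 := hψ _ (hrep1 z hz).1 y hy
    rw [Fintype.card_fin]
    simp only [cfun]
    rw [(hrep1 z hz).2] at h1
    exact h1
  have hsub : D.image cfun ⊆ ((pairings (Fin n × Fin d)) ×ˢ (univ : Finset (Fin n → S))).filter
      fun x => Count674.starCnt x.1 x.2 ∈ K := by
    intro w hw
    rw [mem_filter, mem_product]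
    refine ⟨⟨?_, mem_univ _⟩, mem_image_of_mem _ hw⟩
    rw [mem_image] at hw
    obtain ⟨w', hw', rfl⟩ := hw
    simp only [D, mem_biUnion, mem_image] at hw'
    obtain ⟨z, hz, y, hy, rfl⟩ := hw'
    have h1 : IsPort z.1 := ((mem_occ q U z).1 hz).1
    exact (mem_pairings _).2 ((Simple356.isPort_iff _).1 h1).1
  have hmain := Count674.card_union_le (V := Fin n) K (by simpa using hn1) ψ hK
  rw [Fintype.card_fin] at hmain
  have hcard := Finset.card_le_card hsub
  rw [Finset.card_image_of_injOn hinj] at hcard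
  have h3 : Q * O.card ≤ np (n * d) * Real.exp (n * ψ +
      (Count674.cC S d + Fintype.card (St S d)) * Real.log (n + 1)) := by
    refine hDcard.trans (le_trans ?_ hmain)
    exact_mod_cast hcard
  -- the probability
  have hb := hδU.trans (portP_le q _ hq U)
  -- positivity of the number of pairings
  have hPort0 : (Ports n d).card ≠ 0 := by
    intro h0
    have : Ports n d = ∅ := Finset.card_eq_zero.1 h0
    have h1 : portLaw d n U = 0 := by
      rw [portLaw_apply, this]
      simp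
    rw [h1] at hδU
    have : ENNReal.ofReal δ ≠ 0 := by
      rw [Ne, ENNReal.ofReal_eq_zero, not_le]; exact hδ
    exact this (nonpos_iff_eq_zero.1 hδU)
  have hPortR : (0 : ℝ) < (Ports n d).card := by
    exact_mod_cast Nat.pos_of_ne_zero hPort0
  have hev : Even (n * d) := by
    by_contra hodd
    have h1 := Simple356.card_Ports_le_np n d
    rw [Nat.not_even_iff_odd] at hodd
    obtain ⟨m, hm⟩ := hodd
    rw [hm, np_odd] at h1
    omega
  have hnpR : (0 : ℝ) < np (n * d) := by exact_mod_cast np_pos_of_even hev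
  have hPle : (np (n * d) : ℝ) ≤ (n : ℝ) ^ C0 * (Ports n d).card := by
    exact_mod_cast hP n hn0 hev
  -- `A` is nonempty
  have hA : 0 < Fintype.card A := by
    rw [Fintype.card_pos_iff]
    exact ⟨q 0⟩
  have hAR : (0 : ℝ) < Fintype.card A := by exact_mod_cast hA
  -- real form of `hb`
  have hb2 : δ * (Ports n d).card * (Fintype.card A : ℝ) ^ n ≤ O.card := by
    have h1 : ((Ports n d).card : ENNReal)⁻¹ * ((O.card : ENNReal) *
        (((Fintype.card A : ℕ) : ENNReal)⁻¹) ^ n) =
        ENNReal.ofReal (((Ports n d).card : ℝ)⁻¹ * ((O.card : ℝ) *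
          ((Fintype.card A : ℝ)⁻¹) ^ n)) := by
      rw [ENNReal.ofReal_mul (by positivity), ENNReal.ofReal_mul (by positivity),
        ENNReal.ofReal_pow (by positivity), ENNReal.ofReal_inv_of_pos hPortR,
        ENNReal.ofReal_inv_of_pos hAR, ENNReal.ofReal_natCast, ENNReal.ofReal_natCast,
        ENNReal.ofReal_natCast]
    rw [h1, ENNReal.ofReal_le_ofReal_iff (by positivity)] at hb
    rw [inv_pow, ← div_eq_inv_mul, ← div_eq_mul_inv, div_div, le_div_iff₀ (by positivity)] at hb
    linarith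
  -- combination
  have h4 : Q * (δ * (Ports n d).card * (Fintype.card A : ℝ) ^ n) ≤
      ((n : ℝ) ^ C0 * (Ports n d).card) * Real.exp (n * ψ +
      (Count674.cC S d + Fintype.card (St S d)) * Real.log (n + 1)) := by
    refine (mul_le_mul_of_nonneg_left hb2 hQ.le).trans (h3.trans ?_)
    exact mul_le_mul_of_nonneg_right hPle (Real.exp_pos _).le
  have h5 : Q * δ * (Fintype.card A : ℝ) ^ n ≤ (n : ℝ) ^ C0 * Real.exp (n * ψ +
      (Count674.cC S d + Fintype.card (St S d)) * Real.log (n + 1)) := by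
    have e1 : Q * (δ * (Ports n d).card * (Fintype.card A : ℝ) ^ n) =
        (Q * δ * (Fintype.card A : ℝ) ^ n) * (Ports n d).card := by ring
    have e2 : ((n : ℝ) ^ C0 * (Ports n d).card) * Real.exp (n * ψ +
      (Count674.cC S d + Fintype.card (St S d)) * Real.log (n + 1)) =
        ((n : ℝ) ^ C0 * Real.exp (n * ψ +
      (Count674.cC S d + Fintype.card (St S d)) * Real.log (n + 1))) * (Ports n d).card := by ring
    rw [e1, e2] at h4
    exact le_of_mul_le_mul_right h4 hPortR
  have h6 := Real.log_le_log (by positivity) h5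
  rw [Real.log_mul (by positivity) (by positivity), Real.log_mul hQ.ne' hδ.ne',
    Real.log_pow, Real.log_mul (by positivity) (Real.exp_pos _).ne', Real.log_pow,
    Real.log_exp] at h6
  have h7 : (C0 : ℝ) * Real.log n ≤ C0 * Real.log (n + 1) := by
    refine mul_le_mul_of_nonneg_left ?_ (by positivity)
    exact Real.log_le_log hnR (by linarith)
  rw [add_mul (C0 : ℝ)]
  linarith

/-- (c) counting, the colours are the radius `R` views of (radius `a` view of the cells, `y`) -/
theorem typ_count (d a R : ℕ) (hd : 1 ≤ d) (A B : Type) [Fintype A] [Fintype B]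
    (q : ℝ → A) (hq : ∀ x, u1 (q ⁻¹' {x}) ≤ ((Fintype.card A : ℕ) : ENNReal)⁻¹) :
    ∃ C : ℝ, ∃ N : ℕ, ∀ n : ℕ, N ≤ n → ∀ (U : Set (PS d n)), (∀ x ∈ U, IsPort x.1) →
      ∀ (Yc : PS d n → Finset (Fin n → B)) (Q ψ : ℝ), 0 < Q → (∀ x ∈ U, Q ≤ ((Yc x).card : ℝ)) →
      (∀ x ∈ U, ∀ y ∈ Yc x, Count674.Psi n (Count674.starCnt x.1 (viewOf (⇑x.1)
        (colC a x.1 (fun v => q (x.2 v)) y) R)) ≤ ψ) →
      ∀ δ : ℝ, 0 < δ → ENNReal.ofReal δ ≤ portLaw d n U →
      Real.log δ + n * Real.log (Fintype.card A) + Real.log Q - C * Real.log (n + 1) ≤ n * ψ := by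
  obtain ⟨C, N, h⟩ := typ_count_gen d hd A B (View (View A (Fin d) a × B) (Fin d) R) q hq
  refine ⟨C, N, fun n hn U hU Yc Q ψ hQ hYc hψ δ hδ hδU => ?_⟩
  exact h n hn (fun p o y => viewOf (⇑p) (colC a p o y) R) (fun p o y o' y' e => view_inj a R p e)
    U hU Yc Q ψ hQ hYc hψ δ hδ hδU

end Crest.Agent.R166.TypC674
end

-- ▼ part R166/TypL_674

/-!
# R166, 40.6 (T): passage to the limit, abstract in the noise (helper674)

`typ_abs`: sequences of sets `U j` of exponentially non-negligible probability; for every `x ∈ U j`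
a noise space with a random cell vector `Yv x ξ`; if every noise event of probability `≥ 1/2` hits at
least `exp (n κ - o(n))` cell vectors, and the star frequencies of the colours converge (with
probability `> 1/2`) to `qs`, then `log |A| + κ ≤ PsiR qs`.
-/

set_option autoImplicit false

namespace Crest.Agent.R166.TypC674

open MeasureTheory Finset PairCount356 SpecB1 Crest.ProbabilityR.RandomMatrix Filter Topology
open Crest.Agent.R166.Seq980 (PS portLaw portLaw_apply)
open Crest.Agent.R166.Upp724 (View viewOf vroot vroot_viewOf)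
open Crest.Agent.R166.Count674 (St Th)

section PsiR
variable {S : Type} [Fintype S] [DecidableEq S] {d : ℕ}

theorem continuous_edgeR (t : Th S d) : Continuous fun q : St S d → ℝ => edgeR q t := by
  unfold edgeR
  refine continuous_finsetSum _ fun s _ => ?_
  by_cases h : s.1 = t.1 ∧ s.2 t.2.1 = (t.2.2.1, t.2.2.2)
  · simp only [h, and_self, if_true]
    exact continuous_apply s
  · simp only [h, if_false]
    exact continuous_const

theorem continuous_PsiR : Continuous (PsiR : (St S d → ℝ) → ℝ) := by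
  unfold PsiR
  refine Continuous.sub ?_ (Continuous.mul continuous_const ?_)
  · exact continuous_finsetSum _ fun s _ => Real.continuous_negMulLog.comp (continuous_apply s)
  · exact continuous_finsetSum _ fun t _ =>
      Real.continuous_negMulLog.comp ((continuous_edgeR t).div_const _)

theorem Psi_eq_PsiR (n : ℕ) (N : St S d → ℕ) :
    Count674.Psi n N = PsiR fun s => (N s : ℝ) / n := by
  unfold Count674.Psi PsiR
  congr 2
  refine Finset.sum_congr rfl fun t _ => ?_
  congr 1
  unfold Count674.edgeCnt edgeR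
  push_cast
  rw [← div_div, Finset.sum_div]
  congr 1
  refine Finset.sum_congr rfl fun s _ => ?_
  split_ifs
  · rfl
  · simp

/-- `Psi` is close to `PsiR q` when the frequencies are close to `q` -/
theorem Psi_close (q : St S d → ℝ) {ε : ℝ} (hε : 0 < ε) :
    ∃ δ : ℝ, 0 < δ ∧ ∀ (n : ℕ) (N : St S d → ℕ), (∀ s, |(N s : ℝ) / n - q s| ≤ δ) →
      |Count674.Psi n N - PsiR q| ≤ ε := by
  have h1 := (continuous_PsiR (S := S) (d := d)).continuousAt (x := q)
  rw [Metric.continuousAt_iff] at h1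
  obtain ⟨δ, hδ, h2⟩ := h1 ε hε
  refine ⟨δ / 2, by positivity, fun n N hN => ?_⟩
  rw [Psi_eq_PsiR]
  have h3 : dist (fun s => (N s : ℝ) / n) q < δ := by
    refine lt_of_le_of_lt ?_ (half_lt_self hδ)
    rw [dist_pi_le_iff (by positivity)]
    intro s
    rw [Real.dist_eq]
    exact hN s
  have h4 := h2 h3
  rw [Real.dist_eq] at h4
  exact h4.le

end PsiR

/-- (T), finite `n`, abstract in the noise -/
theorem typ_fin (d a R : ℕ) (hd : 1 ≤ d) (A B : Type) [Fintype A] [Fintype B]
    (q : ℝ → A) (hq : ∀ x, u1 (q ⁻¹' {x}) ≤ ((Fintype.card A : ℕ) : ENNReal)⁻¹)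
    {ε : ℝ} (hε : 0 < ε) :
    ∃ N : ℕ, ∀ n : ℕ, N ≤ n → ∀ (U : Set (PS d n)), (∀ x ∈ U, IsPort x.1) →
      ENNReal.ofReal (Real.exp (-(ε * n))) ≤ portLaw d n U →
      ∀ (Ξ : Type) (Yv : PS d n → Ξ → Fin n → B) (G : PS d n → Set Ξ) (κ : ℝ),
      (∀ x ∈ U, Real.exp (n * κ) ≤ (Nat.card {y : Fin n → B // ∃ ξ ∈ G x, Yv x ξ = y} : ℝ)) →
      ∃ x ∈ U, ∃ ξ ∈ G x, Real.log (Fintype.card A) + κ - 2 * ε ≤
        Count674.Psi n (Count674.starCnt x.1 (viewOf (⇑x.1)
          (colC a x.1 (fun v => q (x.2 v)) (Yv x ξ)) R)) := by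
  classical
  obtain ⟨C, N, h⟩ := typ_count d a R hd A B q hq
  -- `C log (n+1) ≤ (ε/2) n` eventually
  have hlim : Tendsto (fun n : ℕ => C * Real.log ((n : ℝ) + 1) / n) atTop (𝓝 0) := by
    have h1 : Tendsto (fun x : ℝ => Real.log x / x) atTop (𝓝 0) := by
      simpa using Real.isLittleO_log_id_atTop.tendsto_div_nhds_zero
    have h2 : Tendsto (fun n : ℕ => Real.log ((n : ℝ) + 1) / ((n : ℝ) + 1)) atTop (𝓝 0) := by
      refine h1.comp ?_
      exact tendsto_atTop_add_const_right _ _ tendsto_natCast_atTop_atTop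
    have h3 : Tendsto (fun n : ℕ => ((n : ℝ) + 1) / n) atTop (𝓝 1) := by
      have h4 : Tendsto (fun n : ℕ => 1 + 1 / (n : ℝ)) atTop (𝓝 (1 + 0)) :=
        tendsto_const_nhds.add tendsto_one_div_atTop_nhds_zero_nat
      rw [add_zero] at h4
      refine h4.congr' ?_
      filter_upwards [eventually_gt_atTop 0] with n hn
      have : (n : ℝ) ≠ 0 := by exact_mod_cast hn.ne'
      field_simp
    have h5 := (h2.mul h3).const_mul C
    rw [zero_mul, mul_zero] at h5
    refine h5.congr' ?_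
    filter_upwards [eventually_gt_atTop 0] with n hn
    have h6 : (n : ℝ) ≠ 0 := by exact_mod_cast hn.ne'
    have h7 : (n : ℝ) + 1 ≠ 0 := by positivity
    field_simp
  obtain ⟨N1, hN1⟩ := eventually_atTop.1 (hlim.eventually (gt_mem_nhds hε))
  refine ⟨max (max N N1) 1, fun n hn U hU hUP Ξ Yv G κ hhit => ?_⟩
  have hnN : N ≤ n := (le_max_left _ _).trans ((le_max_left _ _).trans hn)
  have hnN1 : N1 ≤ n := (le_max_right _ _).trans ((le_max_left _ _).trans hn)
  have hn1 : 1 ≤ n := (le_max_right _ _).trans hn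
  have hnR : (0 : ℝ) < n := by exact_mod_cast hn1
  by_contra hcon
  push Not at hcon
  set ψ : ℝ := Real.log (Fintype.card A) + κ - 2 * ε with hψ
  let Yc : PS d n → Finset (Fin n → B) := fun x =>
    univ.filter fun y => ∃ ξ ∈ G x, Yv x ξ = y
  have h1 := h n hnN U hU Yc (Real.exp (n * κ)) ψ (Real.exp_pos _) (by
      intro x hx
      refine (hhit x hx).trans (le_of_eq ?_)
      rw [Nat.card_eq_fintype_card, Fintype.card_subtype]) (by
      intro x hx y hy
      simp only [Yc, mem_filter, mem_univ, true_and] at hy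
      obtain ⟨ξ, hξ, rfl⟩ := hy
      exact (hcon x hx ξ hξ).le) (Real.exp (-(ε * n))) (Real.exp_pos _) hUP
  rw [Real.log_exp, Real.log_exp] at h1
  have h2 := hN1 n hnN1
  rw [div_lt_iff₀ hnR] at h2
  have h3 : (n : ℝ) * ψ = n * Real.log (Fintype.card A) + n * κ - 2 * (ε * n) := by
    rw [hψ]; ring
  rw [h3] at h1
  linarith

/-- (T) in the limit, abstract in the noise -/
theorem typ_abs (d a R : ℕ) (hd : 1 ≤ d) (A B : Type) [Fintype A] [Fintype B]
    (q : ℝ → A) (hq : ∀ x, u1 (q ⁻¹' {x}) ≤ ((Fintype.card A : ℕ) : ENNReal)⁻¹)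
    (n : ℕ → ℕ) (hn : Tendsto n atTop atTop) (U : ∀ j, Set (PS d (n j)))
    (hport : ∀ j, ∀ x ∈ U j, IsPort x.1)
    (hsize : ∀ ε : ℝ, 0 < ε → ∀ᶠ j in atTop,
      ENNReal.ofReal (Real.exp (-(ε * n j))) ≤ portLaw d (n j) (U j))
    (Ξ : ℕ → Type) [∀ j, MeasurableSpace (Ξ j)] (μ : ∀ j, Measure (Ξ j))
    [∀ j, IsProbabilityMeasure (μ j)] (Yv : ∀ j, PS d (n j) → Ξ j → Fin (n j) → B) (κ : ℝ)
    (hhit : ∀ ε : ℝ, 0 < ε → ∀ᶠ j in atTop, ∀ x ∈ U j, ∀ G : Set (Ξ j), 1 / 2 ≤ μ j G →
      Real.exp (n j * (κ - ε)) ≤ (Nat.card {y : Fin (n j) → B // ∃ ξ ∈ G, Yv j x ξ = y} : ℝ))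
    (qs : St (View (View A (Fin d) a × B) (Fin d) R) d → ℝ)
    (hconv : ∀ ε : ℝ, 0 < ε → ∀ᶠ j in atTop, ∀ x ∈ U j,
      μ j {ξ | ∃ σ, ε < |((Count674.starCnt x.1 (viewOf (⇑x.1)
          (colC a x.1 (fun v => q (x.2 v)) (Yv j x ξ)) R) σ : ℕ) : ℝ) / n j - qs σ|} ≤ 1 / 2) :
    Real.log (Fintype.card A) + κ ≤ PsiR qs := by
  classical
  refine le_of_forall_pos_le_add fun ε hε => ?_
  obtain ⟨δ, hδ, hclose⟩ := Psi_close qs (ε := ε / 4) (by positivity)
  obtain ⟨N, hN⟩ := typ_fin d a R hd A B q hq (ε := ε / 4) (by positivity)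
  obtain ⟨j, h1, h2, h3, h4⟩ := ((hn.eventually (eventually_ge_atTop N)).and
    ((hsize (ε / 4) (by positivity)).and ((hhit (ε / 4) (by positivity)).and
      (hconv δ hδ)))).exists
  let G : PS d (n j) → Set (Ξ j) := fun x =>
    {ξ | ∀ σ, |((Count674.starCnt x.1 (viewOf (⇑x.1)
          (colC a x.1 (fun v => q (x.2 v)) (Yv j x ξ)) R) σ : ℕ) : ℝ) / n j - qs σ| ≤ δ}
  have hG : ∀ x ∈ U j, 1 / 2 ≤ μ j (G x) := by
    intro x hx
    have h5 := h4 x hx
    have h6 : (Set.univ : Set (Ξ j)) ⊆ G x ∪ {ξ | ∃ σ, δ < |((Count674.starCnt x.1 (viewOf (⇑x.1)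
          (colC a x.1 (fun v => q (x.2 v)) (Yv j x ξ)) R) σ : ℕ) : ℝ) / n j - qs σ|} := by
      intro ξ _
      by_cases hξ : ξ ∈ G x
      · exact Or.inl hξ
      · right
        simp only [G, Set.mem_ofPred_eq, not_forall, not_le] at hξ
        exact hξ
    have h7 : (1 : ENNReal) ≤ μ j (G x) + 1 / 2 := by
      calc (1 : ENNReal) = μ j Set.univ := (measure_univ).symm
        _ ≤ _ := measure_mono h6
        _ ≤ _ := measure_union_le _ _
        _ ≤ _ := by gcongr
    by_contra hcon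
    push Not at hcon
    have h8 : μ j (G x) + 1 / 2 < 1 / 2 + 1 / 2 :=
      ENNReal.add_lt_add_right (by norm_num) hcon
    rw [ENNReal.add_halves] at h8
    exact absurd (h7.trans_lt h8) (lt_irrefl _)
  obtain ⟨x, hx, ξ, hξ, h5⟩ := hN (n j) h1 (U j) (hport j) h2 (Ξ j) (Yv j) G (κ - ε / 4)
    (fun x hx => h3 x hx (G x) (hG x hx))
  have h6 := (abs_le.1 (hclose (n j) _ hξ)).2
  linarith

end Crest.Agent.R166.TypC674
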