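import Crest.Agent.R166.Spec_B1_955
import Crest.Agent.R166.DosB_420
import Crest.Agent.R166.EnvB_536
import Mathlib
import Crest.Agent.R166.NoiseVol_547
import Crest.Agent.R166.NoiseLLN_849
import Crest.Agent.R166.Gauss_286
import Crest.Agent.R166.TypL_674

-- ▼ part R166/LogDet_424
section

/-!
# R166 / LogDet_424 (helper424)

Leaf B5: `SpecB1.Stmt_LogDet`: the normalised log-determinants (and all spectral averages of
continuous functions) converge uniformly along an extracted sequence.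
-/

set_option autoImplicit false

open MeasureTheory Filter Topology
open scoped BoundedContinuousFunction

namespace Crest.Agent.R166.LogDet424

open Crest.ProbabilityR.RandomMatrix Crest.Agent.R166 Crest.Agent.R166.Words955
  Crest.Agent.R166.Env536 Crest.Agent.R166.TreeLike942 Crest.Agent.R166.Seq980
  Crest.Agent.R166.SpecB1

variable {n d : ℕ} [NeZero d]

/-! ### nodes and words -/

/-- the word of a node (first letter = first step) -/
def word : Node d → TW d
  | (true, l) => ⟨(l.map Subtype.val).reverse, by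
      intro a ha
      have h1 := List.mem_of_mem_tail ha
      rw [List.mem_reverse, List.mem_map] at h1
      obtain ⟨k, _, rfl⟩ := h1
      exact k.2⟩
  | (false, l) => ⟨0 :: (l.map Subtype.val).reverse, by
      intro a ha
      rw [List.tail_cons, List.mem_reverse, List.mem_map] at ha
      obtain ⟨k, _, rfl⟩ := ha
      exact k.2⟩


theorem walk_word {p : Equiv.Perm (HE n d)} (hp : ∀ h, p (p h) = h) (h : HE n d) (x : Node d) :
    walk p (word x).1 h = p (hf p h x.1 x.2) := by
  obtain ⟨b, l⟩ := x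
  cases b
  · induction l with
    | nil =>
      simp [word, walk]
    | cons k l ih =>
      have e : (word (false, k :: l)).1 = (word (false, l)).1 ++ [k.1] := by
        simp [word]
      rw [e, walk_append, ih]
      simp only [walk, hf_cons, child, rot]
  · induction l with
    | nil =>
      simp [word, walk, hp]
    | cons k l ih =>
      have e : (word (true, k :: l)).1 = (word (true, l)).1 ++ [k.1] := by
        simp [word]
      rw [e, walk_append, ih]
      simp only [walk, hf_cons, child, rot]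

theorem conf_word {κ : ℕ} {p : Equiv.Perm (HE n d)} (hp : ∀ h, p (p h) = h) (ω : Fin n → ℝ)
    (F : Fin κ → Fin n → ℝ) (h : HE n d) (x : Node d) :
    (conf p (Seq980.col ω F) h (word x)).2.1 = ω (nv p h x) := by
  show (Seq980.col ω F (walk p (word x).1 h)).2.1 = _
  rw [walk_word hp]
  rfl

/-! ### the local function -/

/-- clipping to `[-1,1]` -/
noncomputable def clip (t : ℝ) : ℝ := max (-1) (min 1 t)

theorem continuous_clip : Continuous clip := continuous_const.max (continuous_const.min continuous_id)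

theorem abs_clip_le (t : ℝ) : |clip t| ≤ 1 := by
  unfold clip
  rw [abs_le]
  exact ⟨le_max_left _ _, max_le (by norm_num) (min_le_left _ _)⟩

theorem clip_eq {t : ℝ} (ht : t ∈ Set.Icc (-1 : ℝ) 1) : clip t = t := by
  unfold clip
  rw [min_eq_right ht.2, max_eq_right ht.1]

/-- the root delta function -/
noncomputable def del : Node d → ℝ := Pi.single (true, []) 1

theorem card_Lt : ((Fintype.card (Lt d) : ℕ) : ℝ) + 1 = d := by
  have h1 : Fintype.card (Lt d) = d - 1 := by
    have := Fintype.card_subtype_compl (fun k : Fin d => k = 0)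
    simp only [Fintype.card_fin, Fintype.card_subtype_eq] at this
    exact this
  have h2 : 1 ≤ d := NeZero.one_le
  rw [h1]
  push_cast [Nat.cast_sub h2]
  ring

theorem abs_pow_Tl_le (s : ℝ) {Ω : Node d → ℝ} (hΩ : ∀ x, |Ω x| ≤ 1) {F : Node d → ℝ}
    (hF : ∀ x, |F x| ≤ 1) (k : ℕ) (x : Node d) :
    |((Tl s Ω) ^ k) F x| ≤ ((d : ℝ) + |s|) ^ k := by
  induction k generalizing x with
  | zero => simpa using hF x
  | succ k ih =>
    rw [pow_succ', Module.End.mul_apply, Tl_apply]
    set G := ((Tl s Ω) ^ k) F with hG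
    set B : ℝ := ((d : ℝ) + |s|) ^ k with hB
    have hB0 : 0 ≤ B := by positivity
    have h1 : |∑ j : Lt d, G (x.1, j :: x.2)| ≤ (Fintype.card (Lt d) : ℝ) * B := by
      refine (Finset.abs_sum_le_sum_abs _ _).trans ?_
      calc ∑ j : Lt d, |G (x.1, j :: x.2)| ≤ ∑ _j : Lt d, B := Finset.sum_le_sum fun j _ => ih _
        _ = _ := by rw [Finset.sum_const, Finset.card_univ, nsmul_eq_mul]
    have h2 : |s * Ω x * G x| ≤ |s| * B := by
      rw [abs_mul, abs_mul]
      calc |s| * |Ω x| * |G x| ≤ |s| * 1 * B :=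
            mul_le_mul (mul_le_mul_of_nonneg_left (hΩ x) (abs_nonneg _)) (ih x) (abs_nonneg _)
              (by positivity)
        _ = |s| * B := by ring
    have h3 := abs_add_le (G (par x) + ∑ j : Lt d, G (x.1, j :: x.2)) (s * Ω x * G x)
    have h4 := abs_add_le (G (par x)) (∑ j : Lt d, G (x.1, j :: x.2))
    have h5 := ih (par x)
    have h6 := card_Lt (d := d)
    calc |G (par x) + ∑ j : Lt d, G (x.1, j :: x.2) + s * Ω x * G x|
        ≤ B + (Fintype.card (Lt d) : ℝ) * B + |s| * B := by linarith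
      _ = ((Fintype.card (Lt d) : ℝ) + 1 + |s|) * B := by ring
      _ = ((d : ℝ) + |s|) ^ (k + 1) := by rw [h6, pow_succ', hB]

/-- the local function representing `(H^k)_{vv}` -/
noncomputable def phi (κ : ℕ) (s : ℝ) (k : ℕ) (ξ : Conf d (S1 d κ)) : ℝ :=
  ((Tl s fun x => clip (ξ (word x)).2.1) ^ k) del (true, [])

theorem abs_del_le (x : Node d) : |del x| ≤ 1 := by
  unfold del
  rw [Pi.single_apply]
  split_ifs <;> simp

theorem abs_phi_le (κ : ℕ) (s : ℝ) (k : ℕ) (ξ : Conf d (S1 d κ)) :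
    |phi κ s k ξ| ≤ ((d : ℝ) + |s|) ^ k :=
  abs_pow_Tl_le s (fun _ => abs_clip_le _) abs_del_le k _

theorem continuous_phi (κ : ℕ) (s : ℝ) (k : ℕ) :
    Continuous (phi κ s k : Conf d (S1 d κ) → ℝ) := by
  unfold phi
  have h1 : Continuous fun (ξ : Conf d (S1 d κ)) (x : Node d) => clip (ξ (word x)).2.1 :=
    continuous_pi fun x => continuous_clip.comp
      (continuous_fst.comp (continuous_snd.comp (continuous_apply (word x))))
  exact (continuous_pow s del k (true, [])).comp h1

/-- the bounded continuous version -/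
noncomputable def phiB (κ : ℕ) (s : ℝ) (k : ℕ) : Conf d (S1 d κ) →ᵇ ℝ :=
  BoundedContinuousFunction.ofNormedAddCommGroup (phi κ s k) (continuous_phi κ s k)
    (((d : ℝ) + |s|) ^ k) (fun ξ => by rw [Real.norm_eq_abs]; exact abs_phi_le κ s k ξ)

@[simp] theorem phiB_apply (κ : ℕ) (s : ℝ) (k : ℕ) (ξ : Conf d (S1 d κ)) :
    phiB κ s k ξ = phi κ s k ξ := rfl

/-! ### diagonal entries of the powers -/

section diag

variable {p : Equiv.Perm (HE n d)} {s : ℝ} {ω : Fin n → ℝ}

theorem pow_diag_eq (hp : IsPort p) (k : ℕ) (h : HE n d) :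
    ((Hm (graphOf p) s ω) ^ k) h.1 h.1 =
      ((Tl s (ω ∘ nv p h)) ^ k) ((Pi.single h.1 (1 : ℝ)) ∘ nv p h) (true, []) := by
  rw [← pow_nv hp s ω (Pi.single h.1 (1 : ℝ)) h k (true, []), nv_true hp,
    Matrix.mulVec_single_one]
  rfl

theorem abs_pow_diag_le (hp : IsPort p) (hω : ∀ v, |ω v| ≤ 1) (k : ℕ) (h : HE n d) :
    |((Hm (graphOf p) s ω) ^ k) h.1 h.1| ≤ ((d : ℝ) + |s|) ^ k := by
  rw [pow_diag_eq hp]
  refine abs_pow_Tl_le s (fun x => hω _) (fun x => ?_) k _
  rw [Function.comp_apply, Pi.single_apply]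
  split_ifs <;> simp

theorem phi_conf {κ : ℕ} (hp : IsPort p) (hω : ∀ v, ω v ∈ Set.Icc (-1 : ℝ) 1)
    (F : Fin κ → Fin n → ℝ) (k : ℕ) (h : HE n d) :
    phi κ s k (conf p (Seq980.col ω F) h) = ((Tl s (ω ∘ nv p h)) ^ k) del (true, []) := by
  unfold phi
  have e : (fun x : Node d => clip (conf p (Seq980.col ω F) h (word x)).2.1) = ω ∘ nv p h := by
    funext x
    rw [conf_word hp.inv, clip_eq (hω _)]
    rfl
  rw [e]

theorem phi_eq_diag {κ : ℕ} (hp : IsPort p) (hω : ∀ v, ω v ∈ Set.Icc (-1 : ℝ) 1)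
    (F : Fin κ → Fin n → ℝ) (k : ℕ) (h : HE n d) (ht : TreeAt Prod.fst p (k + 1) h.1) :
    phi κ s k (conf p (Seq980.col ω F) h) = ((Hm (graphOf p) s ω) ^ k) h.1 h.1 := by
  rw [phi_conf hp hω, pow_diag_eq hp]
  refine pow_local s k 0 (fun y hy => ?_) (fun y _ => rfl) _ (by simp)
  unfold del
  rw [Function.comp_apply, Pi.single_apply, Pi.single_apply]
  by_cases hy' : y = (true, [])
  · subst hy'
    rw [if_pos rfl, nv_true hp, if_pos rfl]
  · rw [if_neg hy', if_neg]
    intro h0
    apply hy'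
    refine nv_inj hp ht (by omega) (by simp) ?_
    rw [h0, nv_true hp]

omit [NeZero d] in
/-- number of the half-edges at non tree-like vertices -/
theorem sum_ite_tree (p : Equiv.Perm (HE n d)) (a : ℕ) (B : ℝ) [∀ v, Decidable (TreeAt Prod.fst p a v)] :
    ∑ h : HE n d, (if TreeAt Prod.fst p a h.1 then 0 else B) = d * (B * nonTree a p) := by
  classical
  rw [Fintype.sum_prod_type]
  have h0 : ∀ v : Fin n, ∑ _i : Fin d, (if TreeAt Prod.fst p a v then (0 : ℝ) else B) =
      (d : ℝ) * (if TreeAt Prod.fst p a v then 0 else B) := fun v => by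
    rw [Finset.sum_const, Finset.card_univ, Fintype.card_fin, nsmul_eq_mul]
  show ∑ v : Fin n, ∑ _i : Fin d, (if TreeAt Prod.fst p a v then (0 : ℝ) else B) = _
  rw [Finset.sum_congr rfl fun v _ => h0 v, ← Finset.mul_sum]
  congr 1
  have h1 : ∑ v : Fin n, (if TreeAt Prod.fst p a v then 0 else B) =
      ∑ v : Fin n, (if ¬ TreeAt Prod.fst p a v then B else 0) :=
    Finset.sum_congr rfl fun v _ => by split_ifs <;> simp_all
  rw [h1, ← Finset.sum_filter, Finset.sum_const, nsmul_eq_mul, mul_comm]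
  congr 2
  unfold nonTree
  rw [Nat.card_eq_fintype_card, Fintype.card_subtype]

theorem abs_trace_sub_le {κ : ℕ} (hn : 0 < n) (hp : IsPort p)
    (hω : ∀ v, ω v ∈ Set.Icc (-1 : ℝ) 1) (F : Fin κ → Fin n → ℝ) (k : ℕ) :
    |((Hm (graphOf p) s ω) ^ k).trace / n -
      ∫ ξ, phi κ s k ξ ∂(emp p (Seq980.col ω F))| ≤
      2 * ((d : ℝ) + |s|) ^ k * (nonTree (k + 1) p / n) := by
  classical
  have hd0 : (0 : ℝ) < d := by exact_mod_cast NeZero.pos d
  have hn0 : (0 : ℝ) < n := by exact_mod_cast hn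
  set B : ℝ := ((d : ℝ) + |s|) ^ k with hB
  have hB0 : 0 ≤ B := by positivity
  have h1 : ((Hm (graphOf p) s ω) ^ k).trace / n =
      ((n : ℝ) * d)⁻¹ * ∑ h : HE n d, ((Hm (graphOf p) s ω) ^ k) h.1 h.1 := by
    rw [Fintype.sum_prod_type]
    simp only [Finset.sum_const, Finset.card_univ, Fintype.card_fin, nsmul_eq_mul]
    rw [← Finset.mul_sum, Matrix.trace]
    simp only [Matrix.diag_apply]
    field_simp
  have h2 : ∫ ξ, phi κ s k ξ ∂(emp p (Seq980.col ω F)) =
      ((n : ℝ) * d)⁻¹ * ∑ h : HE n d, phi κ s k (conf p (Seq980.col ω F) h) := by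
    rw [integral_emp _ _ _ (continuous_phi κ s k).stronglyMeasurable, smul_eq_mul]
    congr 2
    simp
  rw [h1, h2, ← mul_sub, ← Finset.sum_sub_distrib, abs_mul,
    abs_of_pos (by positivity : (0:ℝ) < ((n : ℝ) * d)⁻¹)]
  have h3 : |∑ h : HE n d, (((Hm (graphOf p) s ω) ^ k) h.1 h.1 -
      phi κ s k (conf p (Seq980.col ω F) h))| ≤ d * (2 * B * nonTree (k + 1) p) := by
    rw [← sum_ite_tree p (k + 1) (2 * B)]
    refine (Finset.abs_sum_le_sum_abs _ _).trans (Finset.sum_le_sum fun h _ => ?_)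
    by_cases ht : TreeAt Prod.fst p (k + 1) h.1
    · rw [if_pos ht, phi_eq_diag hp hω F k h ht, sub_self, abs_zero]
    · rw [if_neg ht]
      have h4 := abs_pow_diag_le (s := s) hp (fun v => abs_le.2 (hω v)) k h
      have h5 := abs_phi_le κ s k (conf p (Seq980.col ω F) h)
      have h6 := abs_sub (((Hm (graphOf p) s ω) ^ k) h.1 h.1)
        (phi κ s k (conf p (Seq980.col ω F) h))
      linarith
  calc ((n : ℝ) * d)⁻¹ * |∑ h : HE n d, (((Hm (graphOf p) s ω) ^ k) h.1 h.1 -
        phi κ s k (conf p (Seq980.col ω F) h))|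
      ≤ ((n : ℝ) * d)⁻¹ * (d * (2 * B * nonTree (k + 1) p)) :=
        mul_le_mul_of_nonneg_left h3 (by positivity)
    _ = 2 * B * (nonTree (k + 1) p / n) := by field_simp

end diag

/-! ### spectral bound -/

omit [NeZero d] in
theorem sum_abs_Hm_le' {G : SimpleGraph (Fin n)} (hG : G ∈ regularGraphs n d) (s : ℝ)
    {ω : Fin n → ℝ} (hω : ∀ i, |ω i| ≤ 1) (x : Fin n) :
    ∑ y, |Hm G s ω x y| ≤ (d : ℝ) + |s| := by
  classical
  unfold regularGraphs at hG
  rw [Finset.mem_filter] at hG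
  have hdeg := hG.2 x
  calc ∑ y, |Hm G s ω x y| ≤
      ∑ y, ((if G.Adj x y then (1:ℝ) else 0) + if x = y then |s| else 0) := by
        refine Finset.sum_le_sum fun y _ => ?_
        unfold Hm
        rw [Matrix.add_apply]
        refine (abs_add_le _ _).trans (add_le_add ?_ ?_)
        · rw [SimpleGraph.adjMatrix_apply]
          split_ifs <;> simp
        · rw [Matrix.smul_apply, Matrix.diagonal_apply]
          split_ifs with h
          · rw [smul_eq_mul, abs_mul]
            calc |s| * |ω x| ≤ |s| * 1 := mul_le_mul_of_nonneg_left (hω x) (abs_nonneg _)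
              _ = |s| := mul_one _
          · simp
    _ = (d : ℝ) + |s| := by
        rw [Finset.sum_add_distrib, Finset.sum_ite_eq, if_pos (Finset.mem_univ _)]
        congr 1
        rw [← Finset.sum_filter, Finset.sum_const, nsmul_eq_mul, mul_one]
        norm_cast

/-! ### convergence along the sequence -/

section seq

variable {κ : ℕ} (S : Seq d κ) {s E K' : ℝ}

/-- limit of the normalised trace of `H^k` -/
theorem trace_lim (hS : Extra S s E K') (k : ℕ) {ε : ℝ} (hε : 0 < ε) :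
    ∀ᶠ j in atTop, ∀ x ∈ S.U j, |((Hm (graphOf x.1) s x.2) ^ k).trace / S.n j -
      ∫ ξ, phi κ s k ξ ∂S.P| ≤ ε := by
  set B : ℝ := ((d : ℝ) + |s|) ^ k with hB
  have hB0 : 0 ≤ B := by positivity
  have h1 := hS.tree (k + 1) (ε / (4 * (B + 1))) (by positivity)
  have h2 := S.lim (phiB κ s k) (ε / 2) (by positivity)
  filter_upwards [h1, h2] with j a1 a2 x hx
  have b1 := a1 x hx
  have b2 := a2 x hx
  have hn0 : (0 : ℝ) < S.n j := by exact_mod_cast S.pos j
  have b3 := abs_trace_sub_le (s := s) (S.pos j) (S.port j x hx) (S.om j x hx) (S.F j x) k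
  have b4 : 2 * B * (nonTree (k + 1) x.1 / S.n j) ≤ ε / 2 := by
    have h5 : (nonTree (k + 1) x.1 : ℝ) / S.n j ≤ ε / (4 * (B + 1)) := by
      rw [div_le_iff₀ hn0]; exact b1
    calc 2 * B * (nonTree (k + 1) x.1 / S.n j) ≤ 2 * B * (ε / (4 * (B + 1))) :=
          mul_le_mul_of_nonneg_left h5 (by positivity)
      _ ≤ ε / 2 := by
          rw [mul_div_assoc', div_le_iff₀ (by positivity)]
          nlinarith
  have b5 : |∫ ξ, phi κ s k ξ ∂(emp x.1 (Seq980.col x.2 (S.F j x))) - ∫ ξ, phi κ s k ξ ∂S.P| ≤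
      ε / 2 := b2
  have b6 := abs_sub_le (((Hm (graphOf x.1) s x.2) ^ k).trace / S.n j)
    (∫ ξ, phi κ s k ξ ∂(emp x.1 (Seq980.col x.2 (S.F j x)))) (∫ ξ, phi κ s k ξ ∂S.P)
  linarith

/-- polynomial traces -/
theorem poly_lim (hS : Extra S s E K') (P : Polynomial ℝ) {ε : ℝ} (hε : 0 < ε) :
    ∀ᶠ j in atTop, ∀ x ∈ S.U j, |(Polynomial.aeval (Hm (graphOf x.1) s x.2) P).trace / S.n j -
      ∑ k ∈ P.support, P.coeff k * ∫ ξ, phi κ s k ξ ∂S.P| ≤ ε := by
  classical
  set A : ℝ := ∑ k ∈ P.support, |P.coeff k| with hA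
  have hA0 : 0 ≤ A := Finset.sum_nonneg fun k _ => abs_nonneg _
  have h1 : ∀ k ∈ P.support, ∀ᶠ j in atTop, ∀ x ∈ S.U j,
      |((Hm (graphOf x.1) s x.2) ^ k).trace / S.n j - ∫ ξ, phi κ s k ξ ∂S.P| ≤ ε / (A + 1) :=
    fun k _ => trace_lim S hS k (by positivity)
  rw [← Filter.eventually_all_finset] at h1
  filter_upwards [h1] with j hj x hx
  have e1 : (Polynomial.aeval (Hm (graphOf x.1) s x.2) P).trace / S.n j =
      ∑ k ∈ P.support, P.coeff k * (((Hm (graphOf x.1) s x.2) ^ k).trace / S.n j) := by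
    rw [Polynomial.aeval_eq_sum_range' (Nat.lt_succ_self _), Matrix.trace_sum, Finset.sum_div]
    symm
    refine Finset.sum_subset_zero_on_sdiff ?_ ?_ ?_
    · intro k hk
      rw [Finset.mem_range, Nat.lt_succ_iff]
      exact Polynomial.le_natDegree_of_mem_supp k hk
    · intro k hk
      rw [Finset.mem_sdiff, Polynomial.notMem_support_iff] at hk
      rw [hk.2, zero_smul, Matrix.trace_zero, zero_div]
    · intro k _
      rw [Matrix.trace_smul, smul_eq_mul, mul_div_assoc]
  rw [e1, ← Finset.sum_sub_distrib]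
  calc |∑ k ∈ P.support, (P.coeff k * (((Hm (graphOf x.1) s x.2) ^ k).trace / S.n j) -
          P.coeff k * ∫ ξ, phi κ s k ξ ∂S.P)|
      ≤ ∑ k ∈ P.support, |P.coeff k| * (ε / (A + 1)) := by
        refine (Finset.abs_sum_le_sum_abs _ _).trans (Finset.sum_le_sum fun k hk' => ?_)
        rw [← mul_sub, abs_mul]
        exact mul_le_mul_of_nonneg_left (hj k hk' x hx) (abs_nonneg _)
    _ = A * (ε / (A + 1)) := by rw [← Finset.sum_mul]
    _ ≤ ε := by
        rw [mul_div_assoc', div_le_iff₀ (by positivity)]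
        nlinarith

/-- spectral average of a function at a state -/
noncomputable def specAvg (s : ℝ) {m : ℕ} (f : ℝ → ℝ) (x : PS d m) : ℝ :=
  (∑ i, f ((Hm_isHermitian (graphOf x.1) s x.2).eigenvalues i)) / m

/-- approximate limits of the spectral averages of a continuous function -/
theorem spec_approx (hS : Extra S s E K') {f : ℝ → ℝ} (hf : Continuous f) {ε : ℝ} (hε : 0 < ε) :
    ∃ l : ℝ, ∀ᶠ j in atTop, ∀ x ∈ S.U j, |specAvg s f x - l| ≤ ε := by
  obtain ⟨P, hP⟩ := Noise547.exists_poly hf ((d : ℝ) + |s|) (show 0 < ε / 2 by positivity)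
  refine ⟨∑ k ∈ P.support, P.coeff k * ∫ ξ, phi κ s k ξ ∂S.P, ?_⟩
  filter_upwards [poly_lim S hS P (show 0 < ε / 2 by positivity)] with j hj x hx
  have hn1 : 0 < S.n j := S.pos j
  have : Nonempty (Fin (S.n j)) := ⟨⟨0, hn1⟩⟩
  have h1 := hj x hx
  have h2 := Noise547.logdet_poly (Hm_isHermitian (graphOf x.1) s x.2) (f := f) P (ε := ε / 2)
    (fun i => hP _ (Noise547.eig_abs_le _
      (sum_abs_Hm_le' (S.port j x hx).graphOf_mem s fun v => abs_le.2 (S.om j x hx v)) i))
  rw [Fintype.card_fin] at h2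
  have h3 := abs_sub_le (specAvg s f x)
    ((Polynomial.aeval (Hm (graphOf x.1) s x.2) P).trace / S.n j)
    (∑ k ∈ P.support, P.coeff k * ∫ ξ, phi κ s k ξ ∂S.P)
  have h4 : |specAvg s f x - (Polynomial.aeval (Hm (graphOf x.1) s x.2) P).trace / S.n j| ≤
      ε / 2 := h2
  linarith

/-- **convergence of all spectral averages of continuous functions along the sequence** -/
theorem spec_lim (hS : Extra S s E K') {f : ℝ → ℝ} (hf : Continuous f) :
    ∃ l : ℝ, ∀ ε : ℝ, 0 < ε → ∀ᶠ j in atTop, ∀ x ∈ S.U j, |specAvg s f x - l| ≤ ε := by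
  choose L hL using fun m : ℕ => spec_approx S hS hf (show 0 < 1 / ((m : ℝ) + 1) by positivity)
  have hdist : ∀ m m' : ℕ, |L m - L m'| ≤ 1 / ((m : ℝ) + 1) + 1 / ((m' : ℝ) + 1) := by
    intro m m'
    obtain ⟨j, h1, h2⟩ := ((hL m).and (hL m')).exists
    obtain ⟨x, hx⟩ := S.nonempty j
    have a1 := h1 x hx
    have a2 := h2 x hx
    have a3 := abs_sub_le (L m) (specAvg s f x) (L m')
    rw [abs_sub_comm] at a1
    linarith
  have hc : CauchySeq L := by
    refine Metric.cauchySeq_iff'.2 fun ε hε => ?_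
    obtain ⟨N, hN⟩ := exists_nat_one_div_lt (show 0 < ε / 2 by positivity)
    refine ⟨N, fun m hm => ?_⟩
    rw [Real.dist_eq]
    have h1 := hdist m N
    have h2 : 1 / ((m : ℝ) + 1) ≤ 1 / ((N : ℝ) + 1) := by
      apply one_div_le_one_div_of_le (by positivity)
      have : (N : ℝ) ≤ m := by exact_mod_cast hm
      linarith
    linarith
  obtain ⟨l, hl⟩ := cauchySeq_tendsto_of_complete hc
  refine ⟨l, fun ε hε => ?_⟩
  obtain ⟨N, hN⟩ := exists_nat_one_div_lt (show 0 < ε / 4 by positivity)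
  have h1 : |L N - l| ≤ 2 / ((N : ℝ) + 1) := by
    have h2 : Tendsto (fun m => |L N - L m|) atTop (𝓝 |L N - l|) :=
      (tendsto_const_nhds.sub hl).abs
    refine le_of_tendsto h2 ?_
    filter_upwards [eventually_ge_atTop N] with m hm
    have h3 := hdist N m
    have h4 : 1 / ((m : ℝ) + 1) ≤ 1 / ((N : ℝ) + 1) := by
      apply one_div_le_one_div_of_le (by positivity)
      have : (N : ℝ) ≤ m := by exact_mod_cast hm
      linarith
    calc |L N - L m| ≤ 1 / ((N : ℝ) + 1) + 1 / ((N : ℝ) + 1) := by linarith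
      _ = 2 / ((N : ℝ) + 1) := by ring
  filter_upwards [hL N] with j hj x hx
  have a1 := hj x hx
  have a2 := abs_sub_le (specAvg s f x) (L N) l
  have a3 : 2 / ((N : ℝ) + 1) = 2 * (1 / ((N : ℝ) + 1)) := by ring
  rw [a3] at h1
  linarith

end seq

/-- **B5** -/
theorem stmt_LogDet : Stmt_LogDet := by
  intro d k _ S s E K' η c hη hc hS
  have hcont : Continuous fun t : ℝ => Real.log (Noise547.geta E η c t) :=
    (Noise547.continuous_geta hη).log fun t => (Noise547.geta_pos hη hc t).ne'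
  obtain ⟨l, hl⟩ := spec_lim S hS hcont
  exact ⟨l, hl⟩

end Crest.Agent.R166.LogDet424
private theorem rz_7c706268c2 : type_of% @_root_.Crest.Agent.R166.LogDet424.word.eq_1 := @_root_.Crest.Agent.R166.LogDet424.word.eq_1 -- L28
end

-- ▼ part R166/TypA_547
section

/-!
Row 166, 40.6 (T), part (a) (helper547): for ONE fixed sample, the number of cells of the noisy
field hit by a noise event of probability `≥ 1/2`, including the two infinite cells.

* `cell_vol_le` : volume of `{y : cell y = s, ∑ y² ≤ R}`.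
* `hit_le` : `gm G ≤ exp(...) * #S + tails`.
* `noisy_moment` : Markov bound for `∑ (F + √t Z)²`.
* `log_card_ge` : the final lower bound.
-/

set_option autoImplicit false
set_option maxHeartbeats 400000

namespace Crest.Agent.R166.TypA547

open Matrix MeasureTheory ProbabilityTheory
open Crest.Agent.R166.Noise547
open scoped ENNReal

/-- dominating function of one cell -/
noncomputable def gcell (a D L y : ℝ) : ℝ :=
  (Set.Icc a (a + D)).indicator (fun _ => (1 : ℝ)) y + (Set.Iic (-L)).indicator Real.exp y +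
    (Set.Ioi L).indicator (fun y => Real.exp (-y)) y + ({L} : Set ℝ).indicator (fun _ => 1) y

lemma gcell_nonneg (a D L y : ℝ) : 0 ≤ gcell a D L y := by
  unfold gcell
  have h1 := Set.indicator_nonneg (s := Set.Icc a (a + D)) (f := fun _ => (1 : ℝ))
    (fun x _ => zero_le_one) y
  have h2 := Set.indicator_nonneg (s := Set.Iic (-L)) (f := Real.exp)
    (fun x _ => (Real.exp_pos x).le) y
  have h3 := Set.indicator_nonneg (s := Set.Ioi L) (f := fun y => Real.exp (-y))
    (fun x _ => (Real.exp_pos _).le) y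
  have h4 := Set.indicator_nonneg (s := ({L} : Set ℝ)) (f := fun _ => (1 : ℝ))
    (fun x _ => zero_le_one) y
  linarith

lemma integrable_gcell (a D L : ℝ) : Integrable (gcell a D L) := by
  unfold gcell
  refine ((Integrable.add ?_ ?_).add ?_).add ?_
  · rw [integrable_indicator_iff measurableSet_Icc]
    exact integrableOn_const (by simp)
  · rw [integrable_indicator_iff measurableSet_Iic]
    exact integrableOn_exp_Iic _
  · rw [integrable_indicator_iff measurableSet_Ioi]
    exact integrableOn_exp_neg_Ioi _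
  · rw [integrable_indicator_iff (measurableSet_singleton _)]
    exact integrableOn_const (by simp)

lemma integral_gcell (a L : ℝ) {D : ℝ} (hD : 0 ≤ D) :
    ∫ y, gcell a D L y = D + 2 * Real.exp (-L) := by
  unfold gcell
  have i1 : Integrable ((Set.Icc a (a + D)).indicator (fun _ => (1 : ℝ))) := by
    rw [integrable_indicator_iff measurableSet_Icc]
    exact integrableOn_const (by simp)
  have i2 : Integrable ((Set.Iic (-L)).indicator Real.exp) := by
    rw [integrable_indicator_iff measurableSet_Iic]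
    exact integrableOn_exp_Iic _
  have i3 : Integrable ((Set.Ioi L).indicator (fun y => Real.exp (-y))) := by
    rw [integrable_indicator_iff measurableSet_Ioi]
    exact integrableOn_exp_neg_Ioi _
  have i4 : Integrable (({L} : Set ℝ).indicator (fun _ => (1 : ℝ))) := by
    rw [integrable_indicator_iff (measurableSet_singleton _)]
    exact integrableOn_const (by simp)
  have e : ∀ (p q r s : ℝ → ℝ), Integrable p → Integrable q → Integrable r → Integrable s →
      ∫ y, (p y + q y + r y + s y) = (∫ y, p y) + (∫ y, q y) + (∫ y, r y) + ∫ y, s y := by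
    intro p q r s hp hq hr hs
    rw [integral_add (f := fun y => p y + q y + r y) ((hp.add hq).add hr) hs,
      integral_add (f := fun y => p y + q y) (hp.add hq) hr, integral_add hp hq]
  rw [e _ _ _ _ i1 i2 i3 i4, integral_indicator measurableSet_Icc, integral_indicator measurableSet_Iic,
    integral_indicator measurableSet_Ioi, integral_indicator (measurableSet_singleton _),
    integral_exp_Iic, integral_exp_neg_Ioi]
  simp [hD]
  ring

/-- the pointwise bound in one cell -/
lemma gcell_ge {a D L y : ℝ} (hL : 0 < L) (h : |y| < L → a ≤ y ∧ y ≤ a + D) :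
    Real.exp (-(y ^ 2 / L)) ≤ gcell a D L y := by
  have h1 := Set.indicator_nonneg (s := Set.Icc a (a + D)) (f := fun _ => (1 : ℝ))
    (fun x _ => zero_le_one) y
  have h2 := Set.indicator_nonneg (s := Set.Iic (-L)) (f := Real.exp)
    (fun x _ => (Real.exp_pos x).le) y
  have h3 := Set.indicator_nonneg (s := Set.Ioi L) (f := fun y => Real.exp (-y))
    (fun x _ => (Real.exp_pos _).le) y
  have h4 := Set.indicator_nonneg (s := ({L} : Set ℝ)) (f := fun _ => (1 : ℝ))
    (fun x _ => zero_le_one) y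
  have hle1 : Real.exp (-(y ^ 2 / L)) ≤ 1 := by
    rw [← Real.exp_zero]
    apply Real.exp_le_exp.2
    have : 0 ≤ y ^ 2 / L := by positivity
    linarith
  unfold gcell
  rcases lt_or_ge (|y|) L with hy | hy
  · have hm : y ∈ Set.Icc a (a + D) := h hy
    rw [Set.indicator_of_mem hm]
    linarith
  · rcases le_or_gt y 0 with hy0 | hy0
    · rw [abs_of_nonpos hy0] at hy
      have hm : y ∈ Set.Iic (-L) := by
        show y ≤ -L
        linarith
      rw [Set.indicator_of_mem hm]
      have : Real.exp (-(y ^ 2 / L)) ≤ Real.exp y := by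
        apply Real.exp_le_exp.2
        have : -y ≤ y ^ 2 / L := by
          rw [le_div_iff₀ hL]
          nlinarith
        linarith
      linarith
    · rw [abs_of_pos hy0] at hy
      rcases eq_or_lt_of_le hy with hyL | hyL
      · have hm : y ∈ ({L} : Set ℝ) := by
          show y = L
          exact hyL.symm
        rw [Set.indicator_of_mem hm]
        linarith
      · have hm : y ∈ Set.Ioi L := hyL
        rw [Set.indicator_of_mem hm]
        have : Real.exp (-(y ^ 2 / L)) ≤ Real.exp (-y) := by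
          apply Real.exp_le_exp.2
          have : y ≤ y ^ 2 / L := by
            rw [le_div_iff₀ hL]
            nlinarith
          linarith
        linarith

/-- volume of a (possibly infinite) cell with bounded second moment -/
lemma cell_vol_le {ι : Type*} [Fintype ι] (a : ι → ℝ) {D L : ℝ} (hL : 0 < L) (hD : 0 ≤ D)
    (R : ℝ) :
    volume {y : ι → ℝ | (∀ i, |y i| < L → a i ≤ y i ∧ y i ≤ a i + D) ∧ ∑ i, y i ^ 2 ≤ R} ≤
      ENNReal.ofReal (Real.exp (R / L) * (D + 2 * Real.exp (-L)) ^ Fintype.card ι) := by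
  set A : Set (ι → ℝ) :=
    {y : ι → ℝ | (∀ i, |y i| < L → a i ≤ y i ∧ y i ≤ a i + D) ∧ ∑ i, y i ^ 2 ≤ R} with hA
  have hnn : ∀ y : ι → ℝ, 0 ≤ Real.exp (R / L) * ∏ i, gcell (a i) D L (y i) := fun y =>
    mul_nonneg (Real.exp_pos _).le (Finset.prod_nonneg fun i _ => gcell_nonneg _ _ _ _)
  have hint : Integrable (fun y : ι → ℝ => Real.exp (R / L) * ∏ i, gcell (a i) D L (y i)) :=
    (Integrable.fintype_prod (f := fun i => gcell (a i) D L)
      (fun i => integrable_gcell _ _ _)).const_mul _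
  have hmeas : Measurable fun y : ι → ℝ =>
      ENNReal.ofReal (Real.exp (R / L) * ∏ i, gcell (a i) D L (y i)) := by
    have : ∀ b : ℝ, Measurable (gcell b D L) := by
      intro b
      unfold gcell
      refine ((Measurable.add ?_ ?_).add ?_).add ?_
      · exact measurable_const.indicator measurableSet_Icc
      · exact Real.measurable_exp.indicator measurableSet_Iic
      · exact (Real.measurable_exp.comp measurable_neg).indicator measurableSet_Ioi
      · exact measurable_const.indicator (measurableSet_singleton _)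
    exact ENNReal.measurable_ofReal.comp ((Finset.measurable_prod _ fun i _ =>
      (this (a i)).comp (measurable_pi_apply i)).const_mul _)
  have h1 : volume A ≤ ∫⁻ y : ι → ℝ,
      ENNReal.ofReal (Real.exp (R / L) * ∏ i, gcell (a i) D L (y i)) := by
    refine le_trans (measure_mono fun y hy => ?_)
      (le_trans (le_of_eq (one_mul _).symm) (mul_meas_ge_le_lintegral₀ hmeas.aemeasurable 1))
    show (1 : ℝ≥0∞) ≤ ENNReal.ofReal (Real.exp (R / L) * ∏ i, gcell (a i) D L (y i))
    rw [← ENNReal.ofReal_one]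
    apply ENNReal.ofReal_le_ofReal
    have h2 : ∏ i, Real.exp (-(y i ^ 2 / L)) ≤ ∏ i, gcell (a i) D L (y i) :=
      Finset.prod_le_prod (fun i _ => (Real.exp_pos _).le) fun i _ => gcell_ge hL (hy.1 i)
    rw [← Real.exp_sum] at h2
    have h3 : (1 : ℝ) ≤ Real.exp (R / L) * Real.exp (∑ i, -(y i ^ 2 / L)) := by
      rw [← Real.exp_add, ← Real.exp_zero]
      apply Real.exp_le_exp.2
      rw [Finset.sum_neg_distrib, ← Finset.sum_div]
      have := div_le_div_of_nonneg_right hy.2 hL.le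
      linarith
    exact h3.trans (mul_le_mul_of_nonneg_left h2 (Real.exp_pos _).le)
  refine h1.trans (le_of_eq ?_)
  rw [← ofReal_integral_eq_lintegral_ofReal hint (Filter.Eventually.of_forall hnn)]
  congr 1
  rw [integral_const_mul, integral_fintype_prod_volume_eq_prod (fun i => gcell (a i) D L)]
  congr 1
  simp only [integral_gcell _ _ hD]
  rw [Finset.prod_const, Finset.card_univ]

/-- curried form -/
lemma cell_vol_le' {V K : Type*} [Fintype V] [Fintype K] (a : V → K → ℝ) {D L : ℝ} (hL : 0 < L)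
    (hD : 0 ≤ D) (R : ℝ) :
    volume {y : V → K → ℝ | (∀ v κ, |y v κ| < L → a v κ ≤ y v κ ∧ y v κ ≤ a v κ + D) ∧
        ∑ v, ∑ κ, y v κ ^ 2 ≤ R} ≤
      ENNReal.ofReal (Real.exp (R / L) *
        (D + 2 * Real.exp (-L)) ^ (Fintype.card V * Fintype.card K)) := by
  have h := cell_vol_le (ι := V × K) (fun p => a p.1 p.2) hL hD R
  rw [Fintype.card_prod] at h
  refine le_trans ?_ h
  have hUm : Measurable (fun (y : V → K → ℝ) (p : V × K) => y p.1 p.2) :=
    measurable_pi_lambda _ fun p => (measurable_pi_apply p.2).comp (measurable_pi_apply p.1)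
  rw [← uncurry_volume (V := V) (K := K)]
  refine le_trans (measure_mono ?_) (Measure.le_map_apply hUm.aemeasurable _)
  intro y hy
  refine ⟨fun p => hy.1 p.1 p.2, ?_⟩
  have := hy.2
  rw [← Finset.univ_product_univ, Finset.sum_product]
  exact this

section main

variable {V : Type*} [Fintype V] [DecidableEq V] {H : Matrix V V ℝ}

/-- **number of cells hit**, one sample. `c` is any cell map, `lo` the left end points; nothing
is required of `c` outside `|y| < L`. -/
theorem hit_le (hH : H.IsHermitian) {g : ℝ → ℝ} (hg : ∀ i, 0 < g (hH.eigenvalues i))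
    {t : ℝ} (ht : 0 < t) {k : ℕ} (F : V → Fin k → ℝ) {T : Type*} (c : ℝ → T) (lo : T → ℝ)
    {D L : ℝ} (hL : 0 < L) (hD : 0 < D) (hc : ∀ y, |y| < L → lo (c y) ≤ y ∧ y ≤ lo (c y) + D)
    (G : Set (V → Fin k → ℝ)) (S : Finset (V → Fin k → T))
    (hS : ∀ ξ ∈ G, (fun v κ => c (noisy hH g t F ξ v κ)) ∈ S) (e R : ℝ) :
    (Measure.pi fun _ : V => Measure.pi fun _ : Fin k => gaussianReal 0 1) G ≤
      ENNReal.ofReal (S.card * Real.exp (-((Fintype.card V * k : ℝ) / 2 *
          Real.log (2 * Real.pi * Real.exp 1 * t) +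
        (k : ℝ) / 2 * ∑ i, Real.log (g (hH.eigenvalues i))) + e +
        R / L + Fintype.card V * k * (Real.log D + 2 * Real.exp (-L) / D))) +
      (Measure.pi fun _ : V => Measure.pi fun _ : Fin k => gaussianReal 0 1)
        {ξ | ∑ v, ∑ κ, ξ v κ ^ 2 ≤ (Fintype.card V * k : ℝ) - 2 * e} +
      (Measure.pi fun _ : V => Measure.pi fun _ : Fin k => gaussianReal 0 1)
        {ξ | R < ∑ v, ∑ κ, noisy hH g t F ξ v κ ^ 2} := by
  classical
  set μ := (Measure.pi fun _ : V => Measure.pi fun _ : Fin k => gaussianReal 0 1) with hμ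
  set A0 : Set (V → Fin k → ℝ) := ⋃ s ∈ S, {y : V → Fin k → ℝ |
    (∀ v κ, |y v κ| < L → lo (s v κ) ≤ y v κ ∧ y v κ ≤ lo (s v κ) + D) ∧
        ∑ v, ∑ κ, y v κ ^ 2 ≤ R} with hA0
  set A := toMeasurable volume A0 with hA
  have hsub : G ⊆ {ξ | noisy hH g t F ξ ∈ A} ∪
      {ξ | R < ∑ v, ∑ κ, noisy hH g t F ξ v κ ^ 2} := by
    intro ξ hξ
    rcases lt_or_ge R (∑ v, ∑ κ, noisy hH g t F ξ v κ ^ 2) with h | h
    · exact Or.inr h
    · left
      show noisy hH g t F ξ ∈ A
      apply subset_toMeasurable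
      simp only [hA0, Set.mem_iUnion]
      exact ⟨_, hS ξ hξ, fun v κ => hc _, h⟩
  have hvol : volume A ≤ ENNReal.ofReal (S.card * (Real.exp (R / L) *
      (D + 2 * Real.exp (-L)) ^ (Fintype.card V * k))) := by
    rw [hA, measure_toMeasurable]
    refine (measure_biUnion_finset_le S _).trans ?_
    refine (Finset.sum_le_card_nsmul S _ _ fun s _ =>
      cell_vol_le' (fun v κ => lo (s v κ)) hL hD.le R).trans ?_
    rw [Fintype.card_fin, nsmul_eq_mul, ENNReal.ofReal_mul (Nat.cast_nonneg _),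
      ENNReal.ofReal_natCast]
  have hpow : (D + 2 * Real.exp (-L)) ^ (Fintype.card V * k) ≤
      Real.exp (Fintype.card V * k * (Real.log D + 2 * Real.exp (-L) / D)) := by
    have h1 : D + 2 * Real.exp (-L) ≤ Real.exp (Real.log D + 2 * Real.exp (-L) / D) := by
      rw [Real.exp_add, Real.exp_log hD]
      have := Real.add_one_le_exp (2 * Real.exp (-L) / D)
      calc D + 2 * Real.exp (-L) = D * (2 * Real.exp (-L) / D + 1) := by
            field_simp
            ring
        _ ≤ _ := mul_le_mul_of_nonneg_left this hD.le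
    have h2 := pow_le_pow_left₀ (by positivity) h1 (Fintype.card V * k)
    rw [← Real.exp_nat_mul] at h2
    push_cast at h2
    exact h2
  have hd := noise_density_le hH hg ht F A (measurableSet_toMeasurable _ _) e
  refine (measure_mono hsub).trans ((measure_union_le _ _).trans (add_le_add ?_ le_rfl))
  refine hd.trans (add_le_add ?_ le_rfl)
  refine (mul_le_mul_right hvol _).trans ?_
  rw [← ENNReal.ofReal_mul (Real.exp_pos _).le]
  apply ENNReal.ofReal_le_ofReal
  set X := -((Fintype.card V * k : ℝ) / 2 * Real.log (2 * Real.pi * Real.exp 1 * t) +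
        (k : ℝ) / 2 * ∑ i, Real.log (g (hH.eigenvalues i))) + e with hX
  calc Real.exp X * (S.card * (Real.exp (R / L) *
      (D + 2 * Real.exp (-L)) ^ (Fintype.card V * k)))
      ≤ Real.exp X * (S.card * (Real.exp (R / L) *
        Real.exp (Fintype.card V * k * (Real.log D + 2 * Real.exp (-L) / D)))) := by
        gcongr
    _ = _ := by
        rw [Real.exp_add (X + R / L), Real.exp_add X (R / L)]
        ring

/-! ### second moments -/

lemma lintegral_sq_gauss :
    ∫⁻ x : ℝ, ENNReal.ofReal (x ^ 2) ∂(gaussianReal 0 1) = 1 := by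
  have hint : Integrable (fun x : ℝ => x ^ 2) (gaussianReal 0 1) := by
    have := (memLp_id_gaussianReal (μ := 0) (v := 1) 2).integrable_sq
    simpa using this
  rw [← ofReal_integral_eq_lintegral_ofReal hint (Filter.Eventually.of_forall fun x => sq_nonneg x)]
  have h1 : ∫ x : ℝ, x ^ 2 ∂(gaussianReal 0 1) = 1 := by
    have h2 := variance_id_gaussianReal (μ := 0) (v := 1)
    rw [variance_eq_integral (by fun_prop)] at h2
    simpa [integral_id_gaussianReal] using h2
  rw [h1, ENNReal.ofReal_one]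

lemma lintegral_sq_coord (V K : Type*) [Fintype V] [Fintype K] (v : V) (κ : K) :
    ∫⁻ ξ : V → K → ℝ, ENNReal.ofReal (ξ v κ ^ 2)
      ∂(Measure.pi fun _ : V => Measure.pi fun _ : K => gaussianReal 0 1) = 1 := by
  have hm : Measurable fun x : ℝ => ENNReal.ofReal (x ^ 2) := by fun_prop
  have h1 := (measurePreserving_eval (fun _ : V => Measure.pi fun _ : K => gaussianReal 0 1) v)
  have h2 := (measurePreserving_eval (fun _ : K => gaussianReal 0 1) κ)
  have h3 := h2.comp h1
  have h4 := h3.lintegral_comp hm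
  rw [lintegral_sq_gauss] at h4
  simpa [Function.comp_def, Function.eval] using h4

/-- Markov for the standard Gaussian array -/
lemma gauss_markov (V : Type*) [Fintype V] (k : ℕ) (h : 0 < Fintype.card V * k) :
    (Measure.pi fun _ : V => Measure.pi fun _ : Fin k => gaussianReal 0 1)
      {ξ | 8 * (Fintype.card V * k : ℝ) < ∑ v, ∑ κ, ξ v κ ^ 2} ≤ ENNReal.ofReal (1 / 8) := by
  set μ := (Measure.pi fun _ : V => Measure.pi fun _ : Fin k => gaussianReal 0 1) with hμ
  have hpos : (0 : ℝ) < Fintype.card V * k := by exact_mod_cast h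
  have hm : Measurable fun ξ : V → Fin k → ℝ => ENNReal.ofReal (∑ v, ∑ κ, ξ v κ ^ 2) := by
    refine ENNReal.measurable_ofReal.comp (Finset.measurable_sum _ fun v _ =>
      Finset.measurable_sum _ fun κ _ => ?_)
    exact ((measurable_pi_apply κ).comp (measurable_pi_apply v)).pow_const 2
  have hE : ∫⁻ ξ, ENNReal.ofReal (∑ v, ∑ κ, ξ v κ ^ 2) ∂μ =
      ENNReal.ofReal (Fintype.card V * k : ℝ) := by
    have e1 : ∀ ξ : V → Fin k → ℝ, ENNReal.ofReal (∑ v, ∑ κ, ξ v κ ^ 2) =
        ∑ v, ∑ κ, ENNReal.ofReal (ξ v κ ^ 2) := by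
      intro ξ
      rw [ENNReal.ofReal_sum_of_nonneg fun v _ => Finset.sum_nonneg fun κ _ => sq_nonneg _]
      refine Finset.sum_congr rfl fun v _ => ?_
      rw [ENNReal.ofReal_sum_of_nonneg fun κ _ => sq_nonneg _]
    simp only [e1]
    have hmm : ∀ (v : V) (κ : Fin k), Measurable fun ξ : V → Fin k → ℝ =>
        ENNReal.ofReal (ξ v κ ^ 2) := fun v κ =>
      ENNReal.measurable_ofReal.comp
        (((measurable_pi_apply κ).comp (measurable_pi_apply v)).pow_const 2)
    rw [lintegral_finsetSum _ fun v _ => Finset.measurable_sum _ fun κ _ => hmm v κ]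
    have e2 : ∀ v : V, ∫⁻ ξ, ∑ κ, ENNReal.ofReal (ξ v κ ^ 2) ∂μ = k := by
      intro v
      rw [lintegral_finsetSum _ fun κ _ => hmm v κ]
      simp only [hμ, lintegral_sq_coord]
      simp
    simp only [e2]
    rw [Finset.sum_const, Finset.card_univ, nsmul_eq_mul, ENNReal.ofReal_mul (Nat.cast_nonneg _),
      ENNReal.ofReal_natCast, ENNReal.ofReal_natCast]
  have hmk := mul_meas_ge_le_lintegral (μ := μ) hm (ENNReal.ofReal (8 * (Fintype.card V * k : ℝ)))
  rw [hE] at hmk
  have hsub : {ξ : V → Fin k → ℝ | 8 * (Fintype.card V * k : ℝ) < ∑ v, ∑ κ, ξ v κ ^ 2} ⊆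
      {ξ | ENNReal.ofReal (8 * (Fintype.card V * k : ℝ)) ≤
        ENNReal.ofReal (∑ v, ∑ κ, ξ v κ ^ 2)} := by
    intro ξ hξ
    exact ENNReal.ofReal_le_ofReal (le_of_lt hξ)
  refine (measure_mono hsub).trans ?_
  have h8 : ENNReal.ofReal (8 * (Fintype.card V * k : ℝ)) ≠ 0 := by
    rw [Ne, ENNReal.ofReal_eq_zero, not_le]; positivity
  rw [mul_comm, ← ENNReal.le_div_iff_mul_le (Or.inl h8) (Or.inl ENNReal.ofReal_ne_top)] at hmk
  refine hmk.trans (le_of_eq ?_)
  rw [← ENNReal.ofReal_div_of_pos (by positivity)]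
  congr 1
  rw [div_mul_cancel_right₀ hpos.ne' 8]
  norm_num

/-- energy of the noise -/
lemma fM_energy (hH : H.IsHermitian) {f : ℝ → ℝ} {M : ℝ} (hM : ∀ i, f (hH.eigenvalues i) ^ 2 ≤ M)
    (z : V → ℝ) : ∑ v, (∑ x, fM hH f v x * z x) ^ 2 ≤ M * ∑ x, z x ^ 2 := by
  have h1 : ∑ v, (∑ x, fM hH f v x * z x) ^ 2 =
      ∑ x, ∑ y, z x * fM hH (fun u => f u ^ 2) x y * z y := by
    have e1 : fM hH (fun u => f u ^ 2) = fM hH f * fM hH f := by
      rw [fM_mul]
      congr 1
      funext u
      ring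
    rw [e1]
    have e2 : ∀ v, (∑ x, fM hH f v x * z x) ^ 2 =
        ∑ x, ∑ y, z x * (fM hH f x v * fM hH f v y) * z y := by
      intro v
      rw [sq, Finset.sum_mul_sum]
      refine Finset.sum_congr rfl fun x _ => Finset.sum_congr rfl fun y _ => ?_
      rw [fM_symm hH f x v]
      ring
    simp only [e2]
    rw [Finset.sum_comm]
    refine Finset.sum_congr rfl fun x _ => ?_
    rw [Finset.sum_comm]
    refine Finset.sum_congr rfl fun y _ => ?_
    rw [Matrix.mul_apply, Finset.mul_sum, Finset.sum_mul]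
  rw [h1, fM_quad, parseval hH, Finset.mul_sum]
  exact Finset.sum_le_sum fun i _ => mul_le_mul_of_nonneg_right (hM i) (sq_nonneg _)

/-- **second moment of the samples** (L2) -/
theorem noisy_moment (hH : H.IsHermitian) {g : ℝ → ℝ} {t gmax C0 : ℝ} (ht : 0 < t)
    (hg0 : ∀ i, 0 < g (hH.eigenvalues i)) (hg : ∀ i, g (hH.eigenvalues i) ≤ gmax) {k : ℕ}
    (F : V → Fin k → ℝ) (hF : ∑ v, ∑ κ, F v κ ^ 2 ≤ Fintype.card V * C0)
    (h : 0 < Fintype.card V * k) :
    (Measure.pi fun _ : V => Measure.pi fun _ : Fin k => gaussianReal 0 1)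
        {ξ | Fintype.card V * (2 * C0 + 16 * k * t * gmax) <
          ∑ v, ∑ κ, noisy hH g t F ξ v κ ^ 2} ≤ ENNReal.ofReal (1 / 8) := by
  refine (measure_mono ?_).trans (gauss_markov V k h)
  intro ξ hξ
  have hV : 0 < Fintype.card V := Nat.pos_of_mul_pos_right h
  have hne : Nonempty V := Fintype.card_pos_iff.1 hV
  obtain ⟨v0⟩ := hne
  have hgm : 0 < gmax := (hg0 v0).trans_le (hg v0)
  have h1 : ∑ v, ∑ κ, noisy hH g t F ξ v κ ^ 2 ≤
      2 * ∑ v, ∑ κ, F v κ ^ 2 + 2 * (t * gmax * ∑ v, ∑ κ, ξ v κ ^ 2) := by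
    have h2 : ∀ κ : Fin k, ∑ v, (∑ x, fM hH (fun u => Real.sqrt (t * g u)) v x * ξ x κ) ^ 2 ≤
        t * gmax * ∑ x, ξ x κ ^ 2 := fun κ =>
      fM_energy hH (fun i => by
        rw [Real.sq_sqrt (mul_pos ht (hg0 i)).le]
        exact mul_le_mul_of_nonneg_left (hg i) ht.le) (fun x => ξ x κ)
    calc ∑ v, ∑ κ, noisy hH g t F ξ v κ ^ 2
        ≤ ∑ v, ∑ κ, (2 * F v κ ^ 2 + 2 *
            (∑ x, fM hH (fun u => Real.sqrt (t * g u)) v x * ξ x κ) ^ 2) := by
          refine Finset.sum_le_sum fun v _ => Finset.sum_le_sum fun κ _ => ?_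
          unfold noisy
          nlinarith [sq_nonneg (F v κ - ∑ x, fM hH (fun u => Real.sqrt (t * g u)) v x * ξ x κ)]
      _ = 2 * ∑ v, ∑ κ, F v κ ^ 2 + 2 * ∑ κ, ∑ v,
            (∑ x, fM hH (fun u => Real.sqrt (t * g u)) v x * ξ x κ) ^ 2 := by
          rw [Finset.sum_comm (s := (Finset.univ : Finset (Fin k)))]
          simp only [Finset.sum_add_distrib, Finset.mul_sum]
      _ ≤ _ := by
          gcongr
          rw [Finset.sum_comm (f := fun v κ => ξ v κ ^ 2), Finset.mul_sum]
          exact Finset.sum_le_sum fun κ _ => h2 κ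
  have h3 : Fintype.card V * (2 * C0 + 16 * k * t * gmax) <
      ∑ v, ∑ κ, noisy hH g t F ξ v κ ^ 2 := hξ
  show 8 * (Fintype.card V * k : ℝ) < ∑ v, ∑ κ, ξ v κ ^ 2
  by_contra hcon
  rw [not_lt] at hcon
  have h4 : t * gmax * ∑ v, ∑ κ, ξ v κ ^ 2 ≤ t * gmax * (8 * (Fintype.card V * k : ℝ)) :=
    mul_le_mul_of_nonneg_left hcon (by positivity)
  nlinarith

/-- **(T), part (a)**: the number of cells hit by a noise event of probability `≥ 1/2`. -/
theorem card_ge {k : ℕ} (hk : 0 < k) {t gmax C0 D L ε : ℝ} (ht : 0 < t) (hD : 0 < D)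
    (hL : 0 < L) (hε : 0 < ε) :
    ∃ N : ℕ, ∀ {V : Type} [Fintype V] [DecidableEq V] {H : Matrix V V ℝ} (hH : H.IsHermitian)
      {g : ℝ → ℝ}, N ≤ Fintype.card V → (∀ i, 0 < g (hH.eigenvalues i)) →
      (∀ i, g (hH.eigenvalues i) ≤ gmax) → ∀ (F : V → Fin k → ℝ),
      ∑ v, ∑ κ, F v κ ^ 2 ≤ Fintype.card V * C0 →
      ∀ {T : Type} (c : ℝ → T) (lo : T → ℝ),
      (∀ y, |y| < L → lo (c y) ≤ y ∧ y ≤ lo (c y) + D) →
      ∀ (G : Set (V → Fin k → ℝ)) (S : Finset (V → Fin k → T)),
      (∀ ξ ∈ G, (fun v κ => c (noisy hH g t F ξ v κ)) ∈ S) →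
      ENNReal.ofReal (1 / 2) ≤
        (Measure.pi fun _ : V => Measure.pi fun _ : Fin k => gaussianReal 0 1) G →
      Real.exp (Fintype.card V * ((k : ℝ) / 2 * Real.log (2 * Real.pi * Real.exp 1 * t) +
          (k : ℝ) / 2 * ((∑ i, Real.log (g (hH.eigenvalues i))) / Fintype.card V) -
          k * Real.log D - k * (2 * Real.exp (-L) / D) -
          (2 * C0 + 16 * k * t * gmax) / L - ε)) ≤ (S.card : ℝ) := by
  obtain ⟨N1, hN1⟩ := exists_nat_ge (12 * k / (ε / 2) ^ 2)
  obtain ⟨N2, hN2⟩ := exists_nat_ge (2 / (ε / 2))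
  refine ⟨max (max N1 N2) 1, fun {V} _ _ {H} hH {g} hN hg0 hg F hF {T} c lo hc G S hS hG => ?_⟩
  set n : ℝ := (Fintype.card V : ℝ) with hn
  have hn1 : (N1 : ℝ) ≤ n := by
    rw [hn]
    exact_mod_cast (le_max_left _ _).trans ((le_max_left _ _).trans hN)
  have hn2 : (N2 : ℝ) ≤ n := by
    rw [hn]
    exact_mod_cast (le_max_right _ _).trans ((le_max_left _ _).trans hN)
  have hcard : 1 ≤ Fintype.card V := (le_max_right _ _).trans hN
  have hn0 : 0 < n := by
    have : (1 : ℝ) ≤ n := by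
      rw [hn]
      exact_mod_cast hcard
    linarith
  have hkR : (0 : ℝ) < k := by exact_mod_cast hk
  have hNk : 0 < Fintype.card V * k := Nat.mul_pos hcard hk
  have h1 := hit_le hH hg0 ht F c lo hL hD hc G S hS (ε / 2 * n)
    (n * (2 * C0 + 16 * k * t * gmax))
  have h2 := noisy_moment hH ht hg0 hg F hF hNk
  have h3 := noise_tail V k (e := ε / 2 * n) (by positivity) hNk
  have h4 : Real.exp (-((ε / 2 * n) ^ 2) / (n * k)) ≤ 1 / 8 := by
    have e1 : -((ε / 2 * n) ^ 2) / (n * k) ≤ -12 * 1 := by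
      rw [div_le_iff₀ (by positivity)]
      have : 12 * k ≤ n * (ε / 2) ^ 2 := by
        have := hN1.trans hn1
        rwa [div_le_iff₀ (by positivity)] at this
      nlinarith
    have e2 : Real.exp (-12 * 1) ≤ 1 / 8 := by
      have := Real.add_one_le_exp (12 : ℝ)
      rw [mul_one, Real.exp_neg, inv_eq_one_div]
      apply one_div_le_one_div_of_le (by norm_num)
      linarith
    exact (Real.exp_le_exp.2 e1).trans e2
  set X : ℝ := S.card * Real.exp (-((n * k : ℝ) / 2 *
          Real.log (2 * Real.pi * Real.exp 1 * t) +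
        (k : ℝ) / 2 * ∑ i, Real.log (g (hH.eigenvalues i))) + ε / 2 * n +
        n * (2 * C0 + 16 * k * t * gmax) / L + n * k * (Real.log D + 2 * Real.exp (-L) / D))
    with hX
  have h5 : ENNReal.ofReal (1 / 2) ≤ ENNReal.ofReal (X + 1 / 8 + 1 / 8) := by
    refine hG.trans (h1.trans ?_)
    have hX0 : 0 ≤ X := by positivity
    rw [ENNReal.ofReal_add (by positivity) (by norm_num), ENNReal.ofReal_add hX0 (by norm_num)]
    exact add_le_add (add_le_add le_rfl (h3.trans (ENNReal.ofReal_le_ofReal h4))) h2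
  have h6 : 1 / 4 ≤ X := by
    rw [ENNReal.ofReal_le_ofReal_iff (by positivity)] at h5
    linarith
  have h7 : Real.exp (-(ε / 2 * n)) ≤ 1 / 4 := by
    have e1 : (2 : ℝ) ≤ ε / 2 * n := by
      have := hN2.trans hn2
      rw [div_le_iff₀ (by positivity)] at this
      linarith
    have e2 : Real.exp (-(ε / 2 * n)) ≤ Real.exp (-2) := Real.exp_le_exp.2 (by linarith)
    have e3 : Real.exp (-2) ≤ 1 / 4 := by
      have := Real.exp_one_gt_d9
      rw [Real.exp_neg, inv_eq_one_div]
      apply one_div_le_one_div_of_le (by norm_num)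
      have h9 : Real.exp 2 = Real.exp 1 * Real.exp 1 := by
        rw [← Real.exp_add]; norm_num
      rw [h9]
      nlinarith
    exact e2.trans e3
  have h8 := h7.trans h6
  rw [hX] at h8
  have h9 := (le_div_iff₀ (Real.exp_pos _)).2 (le_refl ((S.card : ℝ) * Real.exp
    (-((n * k : ℝ) / 2 * Real.log (2 * Real.pi * Real.exp 1 * t) +
        (k : ℝ) / 2 * ∑ i, Real.log (g (hH.eigenvalues i))) + ε / 2 * n +
        n * (2 * C0 + 16 * k * t * gmax) / L + n * k * (Real.log D + 2 * Real.exp (-L) / D))))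
  have h10 := (div_le_iff₀ (Real.exp_pos _)).2 h8
  refine le_trans (le_of_eq ?_) h10
  rw [← Real.exp_sub]
  congr 1
  field_simp
  ring

/-- outer measure of a transposed event -/
lemma gm_transpose_le (V : Type*) [Fintype V] (k : ℕ) (G : Set (Fin k → V → ℝ)) :
    (Measure.pi fun _ : Fin k => Measure.pi fun _ : V => gaussianReal 0 1) G ≤
      (Measure.pi fun _ : V => Measure.pi fun _ : Fin k => gaussianReal 0 1)
        {ξ | (fun i v => ξ v i) ∈ G} := by
  have h := Gauss286.gm_map_transpose (ι := Fin k) (κ := V)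
  have hm : Measurable fun (g : Fin k → V → ℝ) (v : V) (i : Fin k) => g i v :=
    measurable_pi_lambda _ fun v => measurable_pi_lambda _ fun i =>
      (measurable_pi_apply v).comp (measurable_pi_apply i)
  have h2 := Measure.le_map_apply (μ := Gauss286.gm (Fin k) V) hm.aemeasurable
    {ξ : V → Fin k → ℝ | (fun i v => ξ v i) ∈ G}
  rw [h] at h2
  exact h2

/-- `noisy` in the form of helper849 -/
lemma noisy_eq_Zn (hH : H.IsHermitian) (g : ℝ → ℝ) {t : ℝ} (ht : 0 ≤ t) {k : ℕ}
    (F : Fin k → V → ℝ) (ξ : Fin k → V → ℝ) (v : V) (i : Fin k) :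
    noisy hH g t (fun v i => F i v) (fun v i => ξ i v) v i =
      F i v + Real.sqrt t * NoiseLLN849.Zn hH g ξ i v := by
  unfold noisy NoiseLLN849.Zn
  congr 1
  have h1 : fM hH (fun u => Real.sqrt (t * g u)) =
      fM hH (fun u => Real.sqrt t * Real.sqrt (g u)) := by
    congr 1
    funext u
    rw [Real.sqrt_mul ht]
  rw [h1, fM_const_mul, Finset.mul_sum]
  refine Finset.sum_congr rfl fun x _ => ?_
  rw [Matrix.smul_apply, smul_eq_mul]
  ring

/-- **(T), part (a)**, noise in the form of helper849 (`Zn`). -/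
theorem card_ge_Zn {k : ℕ} (hk : 0 < k) {t gmax C0 D L ε : ℝ} (ht : 0 < t) (hD : 0 < D)
    (hL : 0 < L) (hε : 0 < ε) :
    ∃ N : ℕ, ∀ {V : Type} [Fintype V] [DecidableEq V] {H : Matrix V V ℝ} (hH : H.IsHermitian)
      {g : ℝ → ℝ}, N ≤ Fintype.card V → (∀ i, 0 < g (hH.eigenvalues i)) →
      (∀ i, g (hH.eigenvalues i) ≤ gmax) → ∀ (F : Fin k → V → ℝ),
      ∑ i, ∑ v, F i v ^ 2 ≤ Fintype.card V * C0 →
      ∀ {T : Type} (c : ℝ → T) (lo : T → ℝ),
      (∀ y, |y| < L → lo (c y) ≤ y ∧ y ≤ lo (c y) + D) →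
      ∀ (G : Set (Fin k → V → ℝ)) (S : Finset (V → Fin k → T)),
      (∀ ξ ∈ G, (fun v i => c (F i v + Real.sqrt t * NoiseLLN849.Zn hH g ξ i v)) ∈ S) →
      ENNReal.ofReal (1 / 2) ≤
        (Measure.pi fun _ : Fin k => Measure.pi fun _ : V => gaussianReal 0 1) G →
      Real.exp (Fintype.card V * ((k : ℝ) / 2 * Real.log (2 * Real.pi * Real.exp 1 * t) +
          (k : ℝ) / 2 * ((∑ i, Real.log (g (hH.eigenvalues i))) / Fintype.card V) -
          k * Real.log D - k * (2 * Real.exp (-L) / D) -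
          (2 * C0 + 16 * k * t * gmax) / L - ε)) ≤ (S.card : ℝ) := by
  obtain ⟨N, hN⟩ := card_ge (gmax := gmax) (C0 := C0) hk ht hD hL hε
  refine ⟨N, fun {V} _ _ {H} hH {g} hNV hg0 hg F hF {T} c lo hc G S hS hG => ?_⟩
  refine hN hH hNV hg0 hg (fun v i => F i v) ?_ c lo hc {ξ | (fun i v => ξ v i) ∈ G} S ?_ ?_
  · rw [Finset.sum_comm]
    exact hF
  · intro ξ hξ
    have h1 := hS _ hξ
    have h2 : (fun v κ => c (noisy hH g t (fun v i => F i v) ξ v κ)) =
        (fun v i => c (F i v + Real.sqrt t * NoiseLLN849.Zn hH g (fun i v => ξ v i) i v)) := by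
      funext v i
      rw [← noisy_eq_Zn hH g ht.le F (fun i v => ξ v i)]
    rw [h2]
    exact h1
  · exact hG.trans (gm_transpose_le V k G)

end main

/-! ### the cells -/


end Crest.Agent.R166.TypA547
end

-- ▼ part R166/TypT_674

/-!
# R166, 40.6 (T): `SpecB1.Stmt_T` (helper674)
-/

set_option autoImplicit false

namespace Crest.Agent.R166.TypC674

open MeasureTheory Finset PairCount356 SpecB1 Crest.ProbabilityR.RandomMatrix Filter Topology
open ProbabilityTheory
open Crest.Agent.R166.Seq980 (PS portLaw portLaw_apply)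
open Crest.Agent.R166.Upp724 (View viewOf vroot vroot_viewOf lo)
open Crest.Agent.R166.Count674 (St Th)
open Crest.Agent.R166.Lev47 Crest.Agent.R166.Words955

/-- in the box the cell contains the value -/
theorem lo_cell_le {L D : ℝ} (hD : 0 < D) {M : ℕ} [NeZero M] {x : ℝ} (h1 : -L ≤ x)
    (h2 : x ≤ -L + D * M) :
    lo L D (cell L D M x) ≤ x ∧ x ≤ lo L D (cell L D M x) + D := by
  have hM : 1 ≤ M := NeZero.pos M
  have hu : 0 ≤ (x + L) / D := div_nonneg (by linarith) hD.le
  have hf1 : (⌊(x + L) / D⌋₊ : ℝ) ≤ (x + L) / D := Nat.floor_le hu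
  have hf2 : (x + L) / D < ⌊(x + L) / D⌋₊ + 1 := Nat.lt_floor_add_one _
  rw [le_div_iff₀ hD] at hf1
  rw [div_lt_iff₀ hD] at hf2
  unfold lo cell
  simp only
  rcases le_or_gt ⌊(x + L) / D⌋₊ (M - 1) with h | h
  · rw [min_eq_right h]
    constructor <;> nlinarith
  · rw [min_eq_left h.le, Nat.cast_sub hM]
    have h3 : (M : ℝ) ≤ ⌊(x + L) / D⌋₊ := by exact_mod_cast (by omega : M ≤ ⌊(x + L) / D⌋₊)
    push_cast
    constructor <;> nlinarith

/-- the cells of the potential have mass at most `2^-m` -/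
theorem u1_oq (m : ℕ) (i : Fin (2 ^ m)) :
    u1 (oq m ⁻¹' {i}) ≤ ((Fintype.card (Fin (2 ^ m)) : ℕ) : ENNReal)⁻¹ := by
  have hmeas : MeasurableSet (oq m ⁻¹' {i}) :=
    measurable_cell 1 (2 * (1 / 2) ^ m) (2 ^ m) (measurableSet_singleton i)
  have hD : (0 : ℝ) < 2 * (1 / 2) ^ m := by positivity
  have hsub : oq m ⁻¹' {i} ∩ Set.Icc (-1 : ℝ) 1 ⊆
      Set.Icc (lo 1 (2 * (1 / 2) ^ m) i) (lo 1 (2 * (1 / 2) ^ m) i + 2 * (1 / 2) ^ m) := by
    rintro x ⟨hx, hx1, hx2⟩
    have h1 : cell 1 (2 * (1 / 2) ^ m) (2 ^ m) x = i := hx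
    have h2 := lo_cell_le hD (M := 2 ^ m) hx1 (by rw [D_mul_M_o]; linarith)
    rw [h1] at h2
    exact h2
  unfold u1
  rw [Measure.smul_apply, Measure.restrict_apply hmeas]
  have h3 : volume (oq m ⁻¹' {i} ∩ Set.Icc (-1 : ℝ) 1) ≤ ENNReal.ofReal (2 * (1 / 2) ^ m) := by
    refine (measure_mono hsub).trans ?_
    rw [Real.volume_Icc]
    apply ENNReal.ofReal_le_ofReal
    linarith
  have h4 : (2⁻¹ : NNReal) • volume (oq m ⁻¹' {i} ∩ Set.Icc (-1 : ℝ) 1) ≤
      (2⁻¹ : NNReal) • ENNReal.ofReal (2 * (1 / 2) ^ m) := by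
    gcongr
  refine h4.trans (le_of_eq ?_)
  rw [ENNReal.smul_def, smul_eq_mul, ENNReal.ofReal_mul (by norm_num), ← mul_assoc,
    ENNReal.coe_inv (by norm_num)]
  have h5 : ((2 : NNReal) : ENNReal)⁻¹ * ENNReal.ofReal 2 = 1 := by
    rw [ENNReal.ofReal_ofNat]
    exact ENNReal.inv_mul_cancel (by norm_num) (by norm_num)
  rw [h5, one_mul, Fintype.card_fin]
  rw [ENNReal.ofReal_pow (by norm_num), one_div, ENNReal.ofReal_inv_of_pos (by norm_num),
    ENNReal.ofReal_ofNat, ← ENNReal.inv_pow]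
  push_cast
  rfl

/-- the error at level `m` -/
noncomputable def errT (k : ℕ) (t gmax : ℝ) (m : ℕ) : ℝ :=
  k * (2 * Real.exp (-(2 ^ m : ℝ)) / (1 / 8) ^ m) + (2 * k + 16 * k * t * gmax) / 2 ^ m

theorem tendsto_errT (k : ℕ) (t gmax : ℝ) : Tendsto (errT k t gmax) atTop (𝓝 0) := by
  have h1 : Tendsto (fun m : ℕ => (2 : ℝ) ^ m) atTop atTop :=
    tendsto_pow_atTop_atTop_of_one_lt (by norm_num)
  have h2 : Tendsto (fun x : ℝ => x ^ 3 * Real.exp (-x)) atTop (𝓝 0) :=
    Real.tendsto_pow_mul_exp_neg_atTop_nhds_zero 3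
  have h3 : Tendsto (fun m : ℕ => ((2 : ℝ) ^ m) ^ 3 * Real.exp (-(2 ^ m))) atTop (𝓝 0) :=
    h2.comp h1
  have h4 : Tendsto (fun m : ℕ => (k : ℝ) * (2 * (((2 : ℝ) ^ m) ^ 3 * Real.exp (-(2 ^ m)))))
      atTop (𝓝 0) := by
    simpa using (h3.const_mul 2).const_mul (k : ℝ)
  have h5 : Tendsto (fun m : ℕ => (2 * k + 16 * k * t * gmax) / (2 : ℝ) ^ m) atTop (𝓝 0) :=
    Tendsto.div_atTop tendsto_const_nhds h1
  have h6 := h4.add h5
  rw [add_zero] at h6
  refine h6.congr fun m => ?_
  unfold errT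
  have e1 : ((2 : ℝ) ^ m) ^ 3 = ((1 / 8 : ℝ) ^ m)⁻¹ := by
    rw [← pow_mul, mul_comm m 3, pow_mul, one_div, inv_pow, inv_inv]
    norm_num
  rw [e1]
  field_simp

theorem stmt_T : Stmt_T := by
  classical
  intro d k _ S s E K' η c t l Q hη hc ht hE hQ hLLN hLD ε hε
  obtain ⟨m0, hm0⟩ := eventually_atTop.1
    ((tendsto_errT k t (c / η)).eventually (gt_mem_nhds hε))
  refine ⟨m0, fun m hm a R => ?_⟩
  have herr := hm0 m hm
  set κ : ℝ := (k : ℝ) / 2 * Real.log (2 * Real.pi * Real.exp 1 * t) + (k : ℝ) / 2 * l -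
    k * Real.log ((1 / 8) ^ m) - errT k t (c / η) m with hκ
  have hd : 1 ≤ d := le_trans (by norm_num) hE.hd
  have hmain := typ_abs d a R hd (Fin (2 ^ m)) (Fin k → Fin (2 * 16 ^ m)) (oq m) (u1_oq m)
    S.n S.tendsto_n S.U S.port ?_ (fun j => Fin k → Fin (S.n j) → ℝ) (fun j => gmP k (S.n j))
    (fun j x ξ v i => yq m (S.F j x i v + Real.sqrt t * ZP s E η c x ξ i v)) κ ?_
    (qstar Q (cview (gcol d k t a m) R)) ?_
  · -- conclusion
    have h1 : PsiL t Q a m R = PsiR (qstar Q (cview (gcol d k t a m) R)) := by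
      unfold PsiL
      congr!
    rw [h1]
    refine le_trans ?_ hmain
    rw [Fintype.card_fin, hκ]
    push_cast
    rw [Real.log_pow, Real.log_pow, one_div, Real.log_inv]
    linarith
  · -- size
    intro ε' hε'
    have h1 : ∀ᶠ j : ℕ in atTop, 1 / ((j : ℝ) + 1) < ε' :=
      (tendsto_one_div_add_atTop_nhds_zero_nat (𝕜 := ℝ)).eventually (gt_mem_nhds hε')
    filter_upwards [h1] with j hj
    refine le_trans ?_ (S.mass j)
    apply ENNReal.ofReal_le_ofReal
    apply Real.exp_le_exp.2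
    have h2 : (S.n j : ℝ) / (j + 1) ≤ ε' * S.n j := by
      rw [div_eq_mul_one_div, mul_comm]
      exact mul_le_mul_of_nonneg_right hj.le (by positivity)
    rw [neg_div]
    linarith
  · -- number of cells
    intro ε' hε'
    rcases Nat.eq_zero_or_pos k with hk | hk
    · subst hk
      refine Eventually.of_forall fun j x hx G hG => ?_
      have hGne : G.Nonempty := by
        rw [Set.nonempty_iff_ne_empty]
        rintro rfl
        rw [measure_empty] at hG
        exact absurd hG (by norm_num)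
      obtain ⟨ξ, hξ⟩ := hGne
      have h1 : 1 ≤ Nat.card {y : Fin (S.n j) → Fin 0 → Fin (2 * 16 ^ m) // ∃ ξ ∈ G,
          (fun v i => yq m (S.F j x i v + Real.sqrt t * ZP s E η c x ξ i v)) = y} := by
        apply Nat.one_le_iff_ne_zero.2
        have : Nonempty {y : Fin (S.n j) → Fin 0 → Fin (2 * 16 ^ m) // ∃ ξ ∈ G,
          (fun v i => yq m (S.F j x i v + Real.sqrt t * ZP s E η c x ξ i v)) = y} :=
          ⟨⟨_, ξ, hξ, rfl⟩⟩
        exact Nat.card_pos.ne'
      have h2 : (1 : ℝ) ≤ Nat.card {y : Fin (S.n j) → Fin 0 → Fin (2 * 16 ^ m) // ∃ ξ ∈ G,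
          (fun v i => yq m (S.F j x i v + Real.sqrt t * ZP s E η c x ξ i v)) = y} := by
        exact_mod_cast h1
      refine le_trans ?_ h2
      rw [Real.exp_le_one_iff]
      have h3 : κ = 0 := by
        rw [hκ]
        simp [errT]
      rw [h3]
      have : (0 : ℝ) ≤ S.n j := by positivity
      nlinarith
    · obtain ⟨N, hN⟩ := TypA547.card_ge_Zn hk (gmax := c / η) (C0 := k) (D := (1 / 8) ^ m)
        (L := 2 ^ m) (ε := ε' / 2) ht (by positivity) (by positivity) (by positivity)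
      have hkR : (0 : ℝ) < k := by exact_mod_cast hk
      have h1 := S.tendsto_n.eventually (eventually_ge_atTop N)
      have h2 := hLD (ε' / k) (by positivity)
      filter_upwards [h1, h2] with j hj1 hj2 x hx G hG
      set Sf : Finset (Fin (S.n j) → Fin k → Fin (2 * 16 ^ m)) := univ.filter fun y =>
        ∃ ξ ∈ G, (fun v i => yq m (S.F j x i v + Real.sqrt t * ZP s E η c x ξ i v)) = y with hSf
      have hcard : Nat.card {y : Fin (S.n j) → Fin k → Fin (2 * 16 ^ m) // ∃ ξ ∈ G,
          (fun v i => yq m (S.F j x i v + Real.sqrt t * ZP s E η c x ξ i v)) = y} = Sf.card := by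
        rw [Nat.card_eq_fintype_card, Fintype.card_subtype]
      rw [hcard]
      have h3 := hN (V := Fin (S.n j)) (H := Hm (graphOf x.1) s x.2)
        (Hm_isHermitian (graphOf x.1) s x.2) (g := Noise547.geta E η c)
        (by rw [Fintype.card_fin]; exact hj1) (fun i => Noise547.geta_pos hη hc _)
        (fun i => Noise547.geta_le hη hc _) (S.F j x) ?_ (yq m) (yrep m) ?_ G Sf ?_ ?_
      · refine le_trans ?_ h3
        apply Real.exp_le_exp.2
        rw [Fintype.card_fin]
        apply mul_le_mul_of_nonneg_left _ (by positivity)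
        have h4 := (abs_le.1 (hj2 x hx)).1
        unfold ldet at h4
        have h5 : (k : ℝ) / 2 * (l - ε' / k) ≤ (k : ℝ) / 2 * ((∑ i, Real.log
            (Noise547.geta E η c ((Hm_isHermitian (graphOf x.1) s x.2).eigenvalues i))) / S.n j) :=
          mul_le_mul_of_nonneg_left (by linarith) (by positivity)
        have h6 : (k : ℝ) / 2 * (l - ε' / k) = (k : ℝ) / 2 * l - ε' / 2 := by
          field_simp
        rw [h6] at h5
        have h7 : errT k t (c / η) m = k * (2 * Real.exp (-(2 ^ m : ℝ)) / (1 / 8) ^ m) +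
          (2 * k + 16 * k * t * (c / η)) / 2 ^ m := rfl
        rw [hκ, h7]
        linarith
      · rw [Fintype.card_fin]
        have h4 : ∑ i, ∑ v, S.F j x i v ^ 2 = ∑ _i : Fin k, (S.n j : ℝ) :=
          Finset.sum_congr rfl fun i _ => S.frame j x hx i
        rw [h4]
        simp [mul_comm]
      · intro y hy
        have h4 := abs_lt.1 hy
        have h5 := lo_cell_le (L := 2 ^ m) (D := (1 / 8) ^ m) (M := 2 * 16 ^ m) (by positivity)
          (x := y) (by linarith [h4.1]) (by rw [D_mul_M_y]; linarith [h4.2])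
        exact h5
      · intro ξ hξ
        rw [hSf, mem_filter]
        exact ⟨mem_univ _, ξ, hξ, rfl⟩
      · have h4 : ENNReal.ofReal (1 / 2) = 1 / 2 := by
          rw [one_div, ENNReal.ofReal_inv_of_pos (by norm_num), ENNReal.ofReal_ofNat, one_div]
        rw [h4]
        exact hG
  · -- convergence
    intro ε' hε'
    have h1 := hLLN a m R (min ε' (1 / 2)) (by positivity)
    filter_upwards [h1] with j hj x hx
    have h2 := hj x hx
    refine le_trans (measure_mono ?_) (h2.trans ?_)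
    · rintro ξ ⟨σ, hσ⟩
      refine ⟨σ, lt_of_le_of_lt (min_le_left _ _) (hσ.trans_le (le_of_eq ?_))⟩
      congr 2
      have h3 : ∀ f : Fin (S.n j) → Col d k a m, ∀ τ : St (View (Col d k a m) (Fin d) R) d,
          ((Count674.starCnt x.1 (viewOf (⇑x.1) f R) τ : ℕ) : ℝ) =
          (Nat.card {v // Count674.starOf x.1 (viewOf (⇑x.1) f R) v = τ} : ℝ) := by
        intro f τ
        rw [Nat.card_eq_fintype_card, Fintype.card_subtype]
        rfl
      rw [h3]
      rfl
    · refine (ENNReal.ofReal_le_ofReal (min_le_right _ _)).trans (le_of_eq ?_)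
      rw [one_div, ENNReal.ofReal_inv_of_pos (by norm_num), ENNReal.ofReal_ofNat, one_div]

end Crest.Agent.R166.TypC674
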