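import Mathlib
import Crest.Agent.R166.UppCell_724
import Crest.Agent.R166.Noise_547

-- ▼ part R166/UppMain_724
section

/-!
# R166, 40.7 (U), part 4: the number of members of the class over a fixed pairing (helper724)
-/

set_option autoImplicit false
set_option linter.unusedSectionVars false
set_option linter.unusedSimpArgs false

namespace Crest.Agent.R166.Upp724

open Finset MeasureTheory

/-- error of the quadratic form per site and component -/
noncomputable def errQ (cI : ℝ) (E s W η D : ℝ) : ℝ :=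
  D * (1 + D) * ((cI + |E| + |s| * W) ^ 2 + η ^ 2)

/-- `∑_i log g_η(λ_i)` -/
noncomputable def logdet {V : Type} [Fintype V] [DecidableEq V] {H : Matrix V V ℝ}
    (hH : H.IsHermitian) (E η c : ℝ) : ℝ :=
  ∑ i, Real.log (Noise547.geta E η c (hH.eigenvalues i))

section
variable {V I A : Type} [Fintype V] [DecidableEq V] [Fintype I] [DecidableEq I] [Fintype A]

/-- the colourings `c` with the same star counts as `(p0, c0)` -/
noncomputable def FF {T : Type} [Fintype T] (p p0 : V × I → V × I) (c0 : V → T) :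
    Finset (V → T) := by
  classical exact univ.filter fun c => ∀ t, cnt (starOf p c) t = cnt (starOf p0 c0) t

lemma mem_FF {T : Type} [Fintype T] (p p0 : V × I → V × I) (c0 c : V → T) :
    c ∈ FF p p0 c0 ↔ ∀ t, cnt (starOf p c) t = cnt (starOf p0 c0) t := by
  classical
  simp [FF]

/-- colouring from the root data -/
def cc {k M : ℕ} (p : V × I → V × I) (a : ℕ) (o : V → A) (y : V × Fin k → Fin M) (v : V) :
    View A I a × (Fin k → Fin M) := (viewOf p o a v, fun κ => y (v, κ))

/-- the `y` index configurations compatible with the environment `o'` -/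
noncomputable def SS {k M : ℕ} (p p0 : V × I → V × I) (a : ℕ) (o : V → A)
    (y : V → Fin k → Fin M) (o' : V → A) : Finset (V × Fin k → Fin M) := by
  classical
  exact univ.filter (fun y' => cc p a o' y' ∈
    FF p p0 (fun v => ((viewOf p0 o a v, y v) : View A I a × (Fin k → Fin M))))

lemma mem_SS {k M : ℕ} (p p0 : V × I → V × I) (a : ℕ) (o : V → A)
    (y : V → Fin k → Fin M) (o' : V → A) (y' : V × Fin k → Fin M) :
    y' ∈ SS p p0 a o y o' ↔ cc p a o' y' ∈
      FF p p0 (fun v => ((viewOf p0 o a v, y v) : View A I a × (Fin k → Fin M))) := by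
  classical
  simp [SS]

/-- structure of the members -/
lemma SS_perm {k M : ℕ} {p p0 : V × I → V × I} {a : ℕ} {o : V → A}
    {y : V → Fin k → Fin M} {o' : V → A} {y' : V × Fin k → Fin M}
    (h : y' ∈ SS p p0 a o y o') :
    ∃ σ : Equiv.Perm V, (∀ v, starOf p (cc p a o' y') v =
        starOf p0 (fun v => ((viewOf p0 o a v, y v) : View A I a × (Fin k → Fin M))) (σ v)) ∧
      o' = o ∘ σ ∧ (∀ v κ, y' (v, κ) = y (σ v) κ) := by
  rw [mem_SS, mem_FF] at h
  obtain ⟨σ, hσ⟩ := exists_perm_of_cnt _ _ h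
  refine ⟨σ, hσ, ?_, ?_⟩
  · funext v
    have h1 := consist hσ v
    have h2 := congrArg (fun z => vroot a z.1) h1
    simpa [cc] using h2
  · intro v κ
    have h1 := consist hσ v
    have h2 := congrArg (fun z => z.2 κ) h1
    simpa [cc] using h2

/-- members of the class over `p` are counted by the root data -/
lemma card_FF_le {k M : ℕ} (p p0 : V × I → V × I) (a : ℕ) (o : V → A) (y : V → Fin k → Fin M) :
    (FF p p0 (fun v => ((viewOf p0 o a v, y v) : View A I a × (Fin k → Fin M)))).card ≤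
      ∑ o' : V → A, (SS p p0 a o y o').card := by
  classical
  set F := FF p p0 (fun v => ((viewOf p0 o a v, y v) : View A I a × (Fin k → Fin M))) with hF
  have hsub : F ⊆ (univ : Finset (V → A)).biUnion fun o' =>
      (SS p p0 a o y o').image (cc p a o') := by
    intro c hc
    have hc' := hc
    rw [hF, mem_FF] at hc'
    obtain ⟨σ, hσ⟩ := exists_perm_of_cnt _ _ hc'
    have h1 : c = cc p a (o ∘ σ) (fun x : V × Fin k => y (σ x.1) x.2) := by
      funext v
      exact consist hσ v
    rw [mem_biUnion]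
    refine ⟨o ∘ σ, mem_univ _, ?_⟩
    rw [mem_image]
    refine ⟨fun x => y (σ x.1) x.2, ?_, h1.symm⟩
    rw [mem_SS, ← h1]
    exact hc
  refine (card_le_card hsub).trans (card_biUnion_le.trans ?_)
  exact sum_le_sum fun o' _ => card_image_le

lemma card_FF_le_all {k M : ℕ} (p p0 : V × I → V × I) (a : ℕ) (o : V → A)
    (y : V → Fin k → Fin M) :
    (FF p p0 (fun v => ((viewOf p0 o a v, y v) : View A I a × (Fin k → Fin M)))).card ≤
      (Fintype.card A * M ^ k) ^ Fintype.card V := by
  classical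
  refine (card_FF_le p p0 a o y).trans ?_
  have h1 : ∀ o' : V → A, (SS p p0 a o y o').card ≤ M ^ (Fintype.card V * k) := by
    intro o'
    refine (card_le_univ _).trans (le_of_eq ?_)
    simp [Fintype.card_fun]
  refine (sum_le_sum fun o' _ => h1 o').trans (le_of_eq ?_)
  rw [sum_const, card_univ, Fintype.card_fun, smul_eq_mul, mul_pow, ← pow_mul, mul_comm k]

/-- the volume of the ellipsoid -/
def EllVol (k : ℕ) (p : V × I → V × I) (hp : ∀ x, p (p x) = x) (s E η c : ℝ) (ω : V → ℝ)
    (q : ℝ) : Prop :=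
  volume {x : V × Fin k → ℝ | ∑ v, Qs k p s E η ω (fun v κ => x (v, κ)) v ≤
      c * η * (Fintype.card V * k * q)} ≤
    ENNReal.ofReal (Real.exp (Fintype.card V * (k / 2 * Real.log (2 * Real.pi * Real.exp 1 * q)) +
      k / 2 * logdet (Hp_isHermitian p hp s ω) E η c))

variable [Nonempty V]

/-- comparison of the log-determinants -/
lemma logdet_close {p p0 : V × I → V × I} (hp : ∀ x, p (p x) = x) (hp0 : ∀ x, p0 (p0 x) = x)
    {o : V → A} {a : ℕ} {σ : Equiv.Perm V}
    (hσ : ∀ v, SameView p (o ∘ σ) p0 o a v (σ v)) (w : A → ℝ) (W : ℝ) (hW : ∀ x, |w x| ≤ W)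
    (hW0 : 0 ≤ W) (s E η c : ℝ) (P : Polynomial ℝ) (hP : P.natDegree ≤ a) (ε : ℝ)
    (hPε : ∀ x, |x| ≤ Fintype.card I + |s| * W →
      |Real.log (Noise547.geta E η c x) - P.eval x| ≤ ε) :
    logdet (Hp_isHermitian p hp s (w ∘ (o ∘ σ))) E η c ≤
      logdet (Hp_isHermitian p0 hp0 s (w ∘ o)) E η c + 2 * ε * Fintype.card V +
        2 * polyBd P (Fintype.card I + |s| * W) * (nBad a p + nBad a p0) := by
  have hn : (0 : ℝ) < Fintype.card V := by exact_mod_cast Fintype.card_pos
  have h1 := Noise547.logdet_poly (Hp_isHermitian p hp s (w ∘ (o ∘ σ)))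
    (f := fun x => Real.log (Noise547.geta E η c x)) P (ε := ε)
    (fun i => hPε _ (Noise547.eig_abs_le _ (Hp_row p s _ W (fun v => hW _)) i))
  have h2 := Noise547.logdet_poly (Hp_isHermitian p0 hp0 s (w ∘ o))
    (f := fun x => Real.log (Noise547.geta E η c x)) P (ε := ε)
    (fun i => hPε _ (Noise547.eig_abs_le _ (Hp_row p0 s _ W (fun v => hW _)) i))
  have h3 := trace_close hp hp0 hσ w W hW hW0 s P hP
  rw [← sub_div, abs_div, abs_of_pos hn, div_le_iff₀ hn, abs_le] at h1 h2
  rw [abs_le] at h3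
  unfold logdet
  nlinarith [h1.2, h2.1, h3.2]

/-- bound of the number of `y` configurations by the volume of the ellipsoid -/
lemma card_SS_le {k M : ℕ} {p p0 : V × I → V × I} (hp : ∀ x, p (p x) = x)
    (hp0 : ∀ x, p0 (p0 x) = x) {a : ℕ} {o : V → A} {y : V → Fin k → Fin M}
    (w : A → ℝ) (W : ℝ) (hW : ∀ x, |w x| ≤ W) (hW0 : 0 ≤ W) (s E η c q : ℝ)
    (L D : ℝ) (hD : 0 < D)
    (P : Polynomial ℝ) (hP : P.natDegree ≤ a) (ε : ℝ)
    (hPε : ∀ x, |x| ≤ Fintype.card I + |s| * W →
      |Real.log (Noise547.geta E η c x) - P.eval x| ≤ ε)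
    (hQ : (1 + D) * ∑ v, Qs k p0 s E η (w ∘ o) (fun v κ => lo L D (y v κ)) v +
      Fintype.card V * (k * errQ (Fintype.card I) E s W η D) ≤
        c * η * (Fintype.card V * k * q))
    (hEll : ∀ ω : V → ℝ, EllVol k p hp s E η c ω q) (o' : V → A) :
    ((SS p p0 a o y o').card : ℝ) * D ^ (Fintype.card V * k) ≤
      Real.exp (Fintype.card V * (k / 2 * Real.log (2 * Real.pi * Real.exp 1 * q)) +
        k / 2 * (logdet (Hp_isHermitian p0 hp0 s (w ∘ o)) E η c + 2 * ε * Fintype.card V +
          2 * polyBd P (Fintype.card I + |s| * W) * (nBad a p + nBad a p0))) := by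
  classical
  rcases (SS p p0 a o y o').eq_empty_or_nonempty with hemp | ⟨y1, hy1⟩
  · rw [hemp]; simp only [card_empty, Nat.cast_zero, zero_mul]; positivity
  obtain ⟨σ, hσ, ho, hy⟩ := SS_perm hy1
  -- the ellipsoid contains all boxes
  have hbox : ∀ y' ∈ SS p p0 a o y o', box L D y' ⊆
      {x : V × Fin k → ℝ | ∑ v, Qs k p s E η (w ∘ o') (fun v κ => x (v, κ)) v ≤
        c * η * (Fintype.card V * k * q)} := by
    intro y' hy' x hx
    obtain ⟨τ, hτ, ho', hyτ⟩ := SS_perm hy'
    rw [Set.mem_ofPred_eq]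
    have e1 : ∀ v κ, |x (v, κ) - lo L D (y' (v, κ))| ≤ D := fun v κ =>
      cell_abs' hD _ (hx (v, κ) (Set.mem_univ _))
    have e2 : ∀ v, Qs k p s E η (w ∘ o') (fun v κ => x (v, κ)) v ≤
        (1 + D) * Qs k p s E η (w ∘ o') (fun v κ => lo L D (y' (v, κ))) v +
          k * errQ (Fintype.card I) E s W η D := fun v =>
      Qs_close k p s E η (w ∘ o') W (fun v => hW _) D hD _ _ (fun v κ => e1 v κ) v
    refine (sum_le_sum fun v _ => e2 v).trans ?_
    rw [sum_add_distrib, ← mul_sum, sum_const, card_univ, nsmul_eq_mul]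
    have e3 := sum_Qs_transfer hτ w (lo L D) s E η
    have e4 : (fun v κ => lo L D (y' (v, κ))) = fun v κ => lo L D (y (τ v) κ) := by
      funext v κ; rw [hyτ]
    rw [e4, ho', e3]
    exact hQ
  have h1 := card_cells_le hD (SS p p0 a o y o') _ hbox
  have h2 := h1.trans (hEll (w ∘ o'))
  have h3 : ((SS p p0 a o y o').card : ENNReal) * ENNReal.ofReal D ^ Fintype.card (V × Fin k) =
      ENNReal.ofReal (((SS p p0 a o y o').card : ℝ) * D ^ (Fintype.card V * k)) := by
    rw [ENNReal.ofReal_mul (by positivity), ENNReal.ofReal_natCast, ENNReal.ofReal_pow hD.le]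
    simp
  rw [h3, ENNReal.ofReal_le_ofReal_iff (Real.exp_pos _).le] at h2
  refine h2.trans (Real.exp_le_exp.2 ?_)
  have h4 := logdet_close hp hp0 (consist_sv hσ a le_rfl) w W hW hW0 s E η c P hP ε hPε
  have hk : (0 : ℝ) ≤ (k : ℝ) / 2 := by positivity
  have h5 : logdet (Hp_isHermitian p hp s (w ∘ o')) E η c =
      logdet (Hp_isHermitian p hp s (w ∘ (o ∘ σ))) E η c := by
    congr 2
    all_goals (subst ho; rfl)
  rw [h5]
  have h6 := mul_le_mul_of_nonneg_left h4 hk
  linarith

/-- the number of members over a pairing `p` -/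
theorem card_FF_le_vol {k M : ℕ} {p p0 : V × I → V × I} (hp : ∀ x, p (p x) = x)
    (hp0 : ∀ x, p0 (p0 x) = x) {a : ℕ} {o : V → A} {y : V → Fin k → Fin M}
    (w : A → ℝ) (W : ℝ) (hW : ∀ x, |w x| ≤ W) (hW0 : 0 ≤ W) (s E η c q : ℝ)
    (L D : ℝ) (hD : 0 < D)
    (P : Polynomial ℝ) (hP : P.natDegree ≤ a) (ε : ℝ)
    (hPε : ∀ x, |x| ≤ Fintype.card I + |s| * W →
      |Real.log (Noise547.geta E η c x) - P.eval x| ≤ ε)
    (hQ : (1 + D) * ∑ v, Qs k p0 s E η (w ∘ o) (fun v κ => lo L D (y v κ)) v +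
      Fintype.card V * (k * errQ (Fintype.card I) E s W η D) ≤
        c * η * (Fintype.card V * k * q))
    (hEll : ∀ ω : V → ℝ, EllVol k p hp s E η c ω q) :
    ((FF p p0 (fun v => ((viewOf p0 o a v, y v) : View A I a × (Fin k → Fin M)))).card : ℝ) *
        D ^ (Fintype.card V * k) ≤ (Fintype.card A : ℝ) ^ Fintype.card V *
      Real.exp (Fintype.card V * (k / 2 * Real.log (2 * Real.pi * Real.exp 1 * q)) +
        k / 2 * (logdet (Hp_isHermitian p0 hp0 s (w ∘ o)) E η c + 2 * ε * Fintype.card V +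
          2 * polyBd P (Fintype.card I + |s| * W) * (nBad a p + nBad a p0))) := by
  have h1 := card_FF_le p p0 a o y
  have h1' : ((FF p p0 (fun v => ((viewOf p0 o a v, y v) :
      View A I a × (Fin k → Fin M)))).card : ℝ) ≤ ∑ o' : V → A, ((SS p p0 a o y o').card : ℝ) := by
    exact_mod_cast h1
  refine (mul_le_mul_of_nonneg_right h1' (by positivity)).trans ?_
  rw [sum_mul]
  refine (sum_le_sum fun o' _ => card_SS_le hp hp0 w W hW hW0 s E η c q L D hD P hP ε hPε hQ
    hEll o').trans (le_of_eq ?_)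
  rw [sum_const, card_univ, Fintype.card_fun, nsmul_eq_mul]
  push_cast
  ring

end

end Crest.Agent.R166.Upp724
end

-- ▼ part R166/UppFin_724

/-!
# R166, 40.7 (U), part 5: the upper inequality, given the ellipsoid volume (helper724)
-/

set_option autoImplicit false
set_option linter.unusedSectionVars false
set_option linter.unusedSimpArgs false

namespace Crest.Agent.R166.Upp724

open Finset MeasureTheory PairCount356

/-- the number of members of the class of `(p0,c0)` -/
noncomputable def clsCard {n d : ℕ} {T : Type} [Fintype T] (p0 : Equiv.Perm (Fin n × Fin d))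
    (c0 : Fin n → T) : ℕ :=
  ∑ p ∈ pairings (Fin n × Fin d), (FF (p : Fin n × Fin d → Fin n × Fin d) p0 c0).card

/-- pairings which are not tree-like at many vertices are superexponentially few -/
lemma few_bad (d a : ℕ) (ε : ℝ) (hε : 0 < ε) :
    ∃ c : ℝ, 0 < c ∧ ∃ n0 : ℕ, ∀ n ≥ n0, Even (n * d) →
      ((((pairings (Fin n × Fin d)).filter fun p : Equiv.Perm (Fin n × Fin d) => ε * n < (nBad a ⇑p : ℝ)).card : ℕ) : ℝ)
        ≤ (np (n * d) : ℝ) * Real.exp (-c * n * Real.log n) := by
  classical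
  obtain ⟨c, hc, n0, h⟩ := TreeLike942.superexp d a ε hε
  refine ⟨c, hc, n0, fun n hn hev => ?_⟩
  have h1 := h n hn
  have hnp : np (n * d) = (n * d - 1).doubleFactorial := by
    obtain ⟨m, hm⟩ := hev
    rw [hm, ← two_mul, np_even]
  rw [hnp]
  refine le_trans ?_ h1
  rw [Nat.card_eq_fintype_card, Fintype.card_subtype]
  have : ((pairings (Fin n × Fin d)).filter fun p : Equiv.Perm (Fin n × Fin d) => ε * n < (nBad a ⇑p : ℝ)) ⊆
      (univ.filter fun p : Equiv.Perm (Fin n × Fin d) => TreeLike942.IsPairing p ∧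
        ε * n ≤ (Nat.card {v : Fin n // ¬ TreeLike942.TreeAt Prod.fst p a v} : ℝ)) := by
    intro p hp
    rw [mem_filter, mem_pairings] at hp
    rw [mem_filter]
    refine ⟨mem_univ _, hp.1, hp.2.le.trans ?_⟩
    exact_mod_cast nBad_le a (p : Fin n × Fin d → Fin n × Fin d)
  exact_mod_cast card_le_card this

lemma even_of_pairing {n d : ℕ} {p : Equiv.Perm (Fin n × Fin d)} (hp : IsPairing p) :
    Even (n * d) := by
  by_contra hodd
  rw [Nat.not_even_iff_odd] at hodd
  obtain ⟨m, hm⟩ := hodd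
  have h1 := card_pairings (Fin n × Fin d)
  rw [Fintype.card_prod, Fintype.card_fin, Fintype.card_fin, hm, np_odd] at h1
  have h2 : p ∈ pairings (Fin n × Fin d) := (mem_pairings p).2 hp
  rw [card_eq_zero] at h1
  rw [h1] at h2
  exact absurd h2 (notMem_empty _)

set_option maxHeartbeats 1000000 in
/-- (U), given the ellipsoid volume bound and a lower bound for the class; the radius `a0` does not
depend on the cells. -/
theorem upper_unif_of (d k : ℕ) (W : ℝ)
    (hW0 : 0 ≤ W) (s E η c : ℝ) (hη : 0 < η) (hc : 0 < c) (ε : ℝ) (hε : 0 < ε)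
    (hEll : ∀ (n : ℕ) (p : Fin n × Fin d → Fin n × Fin d) (hp : ∀ x, p (p x) = x)
      (ω : Fin n → ℝ) (q : ℝ), 0 < n → 0 < q → EllVol k p hp s E η c ω q) :
    ∃ a0 : ℕ, ∀ (M : ℕ) (A : Type) [Fintype A] (w : A → ℝ) (_ : ∀ x, |w x| ≤ W)
      (L D : ℝ) (_ : 0 < D) (qmin : ℝ) (_ : 0 < qmin),
      ∀ a ≥ a0, ∃ ε' : ℝ, 0 < ε' ∧ ∀ C : ℝ, ∃ N : ℕ, ∀ n ≥ N,
      ∀ (p0 : Equiv.Perm (Fin n × Fin d)) (hp0 : IsPairing p0),
      (nBad a ⇑p0 : ℝ) ≤ ε' * n → ∀ (o : Fin n → A) (y : Fin n → Fin k → Fin M) (q : ℝ),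
      qmin ≤ q →
      (1 + D) * ∑ v, Qs k ⇑p0 s E η (w ∘ o) (fun v κ => lo L D (y v κ)) v +
        n * (k * errQ d E s W η D) ≤ c * η * (n * k * q) →
      ∀ Ψ : ℝ, (np (n * d) : ℝ) * Real.exp (n * Ψ - C * Real.log (n + 1)) ≤
        clsCard p0 (fun v => ((viewOf ⇑p0 o a v, y v) :
          View A (Fin d) a × (Fin k → Fin M))) →
      Ψ ≤ Real.log (Fintype.card A) - k * Real.log D +
        k / 2 * Real.log (2 * Real.pi * Real.exp 1 * q) +
        k / 2 * (logdet (Hp_isHermitian ⇑p0 hp0.1 s (w ∘ o)) E η c / n) + ε := by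
  classical
  -- polynomial approximation
  set R : ℝ := (d : ℝ) + |s| * W with hR
  have hR0 : 0 ≤ R := by positivity
  have hcont : Continuous fun x => Real.log (Noise547.geta E η c x) :=
    (Noise547.continuous_geta hη).log fun x => (Noise547.geta_pos hη hc x).ne'
  have hk1 : (0 : ℝ) < k + 1 := by positivity
  obtain ⟨P, hP⟩ := Noise547.exists_poly hcont R (ε := ε / (8 * (k + 1))) (by positivity)
  refine ⟨P.natDegree, fun M A _ w hW L D hD qmin hqmin a ha => ?_⟩
  set B := polyBd P R with hB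
  have hB0 : 0 ≤ B := polyBd_nonneg P hR0
  set ε' : ℝ := ε / (8 * (k + 1) * (B + 1)) with hε'
  have hε'0 : 0 < ε' := by positivity
  refine ⟨ε', hε'0, fun C => ?_⟩
  obtain ⟨c1, hc1, n0, hfew⟩ := few_bad d a ε' hε'0
  -- constants
  set gmin : ℝ := c * η / ((R + |E|) ^ 2 + η ^ 2) with hgmin
  have hgmin0 : 0 < gmin := by positivity
  set β : ℝ := Real.log (Fintype.card A * (M : ℝ) ^ k) with hβ
  set αm : ℝ := Real.log (Fintype.card A) - k * Real.log D +
        k / 2 * Real.log (2 * Real.pi * Real.exp 1 * qmin) + k / 2 * Real.log gmin with hαm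
  -- asymptotics
  have hlim1 : Filter.Tendsto (fun n : ℕ => c1 * Real.log n) Filter.atTop Filter.atTop :=
    (Real.tendsto_log_atTop.comp tendsto_natCast_atTop_atTop).const_mul_atTop hc1
  have hlim2 : Filter.Tendsto (fun n : ℕ => (C * Real.log ((n : ℝ) + 1) + Real.log 2) / n)
      Filter.atTop (nhds 0) := by
    have h1 : Filter.Tendsto (fun n : ℕ => Real.log ((n : ℝ) + 1) / n) Filter.atTop (nhds 0) := by
      have h2 : Filter.Tendsto (fun x : ℝ => Real.log (x + 1) / x) Filter.atTop (nhds 0) := by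
        have h3 := Real.isLittleO_log_id_atTop.tendsto_div_nhds_zero
        have h4 : Filter.Tendsto (fun x : ℝ => x + 1) Filter.atTop Filter.atTop :=
          Filter.tendsto_atTop_add_const_right _ _ Filter.tendsto_id
        have h5 := h3.comp h4
        have h6 : Filter.Tendsto (fun x : ℝ => (x + 1) / x) Filter.atTop (nhds 1) := by
          have : Filter.Tendsto (fun x : ℝ => 1 + 1 / x) Filter.atTop (nhds (1 + 0)) := by
            apply Filter.Tendsto.const_add
            have h0 := tendsto_inv_atTop_zero (𝕜 := ℝ)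
            exact h0.congr fun x => (one_div x).symm
          rw [add_zero] at this
          refine this.congr' ?_
          filter_upwards [Filter.eventually_gt_atTop (0 : ℝ)] with x hx
          field_simp
        have h7 := h5.mul h6
        rw [zero_mul] at h7
        refine h7.congr' ?_
        filter_upwards [Filter.eventually_gt_atTop (0 : ℝ)] with x hx
        simp only [Function.comp, id]
        field_simp
      exact h2.comp tendsto_natCast_atTop_atTop
    have h8 : Filter.Tendsto (fun n : ℕ => Real.log 2 / (n : ℝ)) Filter.atTop (nhds 0) :=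
      Filter.Tendsto.div_atTop tendsto_const_nhds tendsto_natCast_atTop_atTop
    have h9 := (h1.const_mul C).add h8
    rw [mul_zero, zero_add] at h9
    refine h9.congr fun n => ?_
    ring
  obtain ⟨N1, hN1⟩ := Filter.eventually_atTop.1 (hlim1.eventually_ge_atTop (β - αm))
  obtain ⟨N2, hN2⟩ := Filter.eventually_atTop.1
    (hlim2.eventually (gt_mem_nhds (show (0 : ℝ) < ε / 8 by positivity)))
  refine ⟨max 1 (max n0 (max N1 N2)), fun n hn p0 hp0 hbad0 o y q hq hQ Ψ hΨ => ?_⟩
  have hn1 : 1 ≤ n := le_trans (le_max_left _ _) hn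
  have hn2 : n0 ≤ n := le_trans (le_trans (le_max_left _ _) (le_max_right _ _)) hn
  have hn3 : N1 ≤ n := le_trans (le_trans (le_trans (le_max_left _ _) (le_max_right _ _))
    (le_max_right _ _)) hn
  have hn4 : N2 ≤ n := le_trans (le_trans (le_trans (le_max_right _ _) (le_max_right _ _))
    (le_max_right _ _)) hn
  have hnpos : (0 : ℝ) < n := by exact_mod_cast hn1
  have : Nonempty (Fin n) := ⟨⟨0, hn1⟩⟩
  have hq0 : 0 < q := lt_of_lt_of_le hqmin hq
  have hev := even_of_pairing hp0
  have hnp0 : (0 : ℝ) < np (n * d) := by exact_mod_cast np_pos_of_even hev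
  have hcA : (1 : ℝ) ≤ Fintype.card A := by
    have : 0 < Fintype.card A := Fintype.card_pos_iff.2 ⟨o ⟨0, hn1⟩⟩
    exact_mod_cast this
  have hMk : (1 : ℝ) ≤ (M : ℝ) ^ k := by
    rcases Nat.eq_zero_or_pos k with h | h
    · subst h; simp
    · have h2 : 0 < M := Fin.pos (y ⟨0, hn1⟩ ⟨0, h⟩)
      exact one_le_pow₀ (by exact_mod_cast h2)
  -- the log-determinant
  set T0 := logdet (Hp_isHermitian (p0 : Fin n × Fin d → Fin n × Fin d) hp0.1 s (w ∘ o)) E η c
    with hT0
  have hT0ge : n * Real.log gmin ≤ T0 := by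
    rw [hT0, logdet]
    have hle : ∀ i ∈ (univ : Finset (Fin n)), Real.log gmin ≤
        Real.log (Noise547.geta E η c ((Hp_isHermitian (p0 : Fin n × Fin d → Fin n × Fin d)
          hp0.1 s (w ∘ o)).eigenvalues i)) := by
      intro i _
      refine Real.log_le_log hgmin0 (Noise547.geta_ge hη hc ?_)
      refine Noise547.eig_abs_le _ (fun v => ?_) i
      have := Hp_row (p0 : Fin n × Fin d → Fin n × Fin d) s (w ∘ o) W (fun v => hW _) v
      simpa using this
    have := Finset.sum_le_sum hle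
    simpa using this
  -- exponents
  set α : ℝ := Real.log (Fintype.card A) - k * Real.log D +
        k / 2 * Real.log (2 * Real.pi * Real.exp 1 * q) + k / 2 * (T0 / n) +
        k * (ε / (8 * (k + 1))) + k * (B * (2 * ε')) with hα
  have hααm : αm ≤ α := by
    have h1 : Real.log (2 * Real.pi * Real.exp 1 * qmin) ≤
        Real.log (2 * Real.pi * Real.exp 1 * q) := by
      apply Real.log_le_log (by positivity)
      gcongr
    have h2 : Real.log gmin ≤ T0 / n := by
      rw [le_div_iff₀ hnpos]; linarith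
    have hk0 : (0 : ℝ) ≤ (k : ℝ) / 2 := by positivity
    have h3 := mul_le_mul_of_nonneg_left h1 hk0
    have h4 := mul_le_mul_of_nonneg_left h2 hk0
    have h5 : 0 ≤ k * (ε / (8 * ((k : ℝ) + 1))) + k * (B * (2 * ε')) := by positivity
    rw [hαm, hα]
    linarith
  -- members over good pairings
  have hgood : ∀ p ∈ (pairings (Fin n × Fin d)).filter
      (fun p : Equiv.Perm (Fin n × Fin d) => ¬ ε' * n < (nBad a ⇑p : ℝ)),
      ((FF (p : Fin n × Fin d → Fin n × Fin d) p0 (fun v => ((viewOf ⇑p0 o a v, y v) :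
          View A (Fin d) a × (Fin k → Fin M)))).card : ℝ) ≤ Real.exp (n * α) := by
    intro p hp
    rw [mem_filter, mem_pairings, not_lt] at hp
    have hcI : (Fintype.card (Fin d) : ℝ) = d := by simp
    have hcV : (Fintype.card (Fin n) : ℝ) = n := by simp
    have h1 := card_FF_le_vol (k := k) (M := M) hp.1.1 hp0.1 (a := a) (o := o) (y := y) w W hW hW0
      s E η c q L D hD P ha (ε / (8 * (k + 1)))
      (by rw [hcI]; exact hP) (by rw [hcI, hcV]; exact hQ)
      (fun ω => hEll n _ hp.1.1 ω q hn1 hq0)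
    have hcVn : Fintype.card (Fin n) = n := by simp
    rw [hcI, ← hR, ← hB, ← hT0] at h1
    simp only [hcV, hcVn] at h1
    have hDk : (0 : ℝ) < D ^ (n * k) := by positivity
    rw [← le_div_iff₀ hDk] at h1
    refine h1.trans ?_
    rw [div_le_iff₀ hDk]
    have e1 : (Fintype.card A : ℝ) ^ n = Real.exp (n * Real.log (Fintype.card A)) := by
      rw [mul_comm (n : ℝ), ← Real.rpow_def_of_pos (by linarith), Real.rpow_natCast]
    have e2 : D ^ (n * k) = Real.exp (n * (k * Real.log D)) := by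
      rw [show (n : ℝ) * (k * Real.log D) = Real.log D * ((n * k : ℕ) : ℝ) by push_cast; ring,
        ← Real.rpow_def_of_pos hD, Real.rpow_natCast]
    rw [e1, e2, ← Real.exp_add, ← Real.exp_add]
    apply Real.exp_le_exp.2
    have h2 : (nBad a (p : Fin n × Fin d → Fin n × Fin d) : ℝ) + nBad a ⇑p0 ≤
        2 * ε' * n := by linarith [hp.2]
    have h3 : 2 * B * ((nBad a (p : Fin n × Fin d → Fin n × Fin d) : ℝ) + nBad a ⇑p0) ≤
        2 * B * (2 * ε' * n) := mul_le_mul_of_nonneg_left h2 (by positivity)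
    have hk0 : (0 : ℝ) ≤ (k : ℝ) / 2 := by positivity
    have h4 := mul_le_mul_of_nonneg_left h3 hk0
    have h5 : (n : ℝ) * (k / 2 * (T0 / n)) = k / 2 * T0 := by
      field_simp
    have e3 : (n : ℝ) * α + n * (k * Real.log D) = n * Real.log (Fintype.card A) +
        n * (k / 2 * Real.log (2 * Real.pi * Real.exp 1 * q)) + k / 2 * T0 +
        n * (k * (ε / (8 * (k + 1)))) + n * (k * (B * (2 * ε'))) := by
      rw [hα, ← h5]; ring
    rw [e3]
    have e4 : (k : ℝ) / 2 * (T0 + 2 * (ε / (8 * (k + 1))) * n +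
        2 * B * ((nBad a ⇑p : ℝ) + nBad a ⇑p0)) = k / 2 * T0 + n * (k * (ε / (8 * (k + 1)))) +
        k / 2 * (2 * B * ((nBad a ⇑p : ℝ) + nBad a ⇑p0)) := by ring
    have e5 : (k : ℝ) / 2 * (2 * B * (2 * ε' * n)) = n * (k * (B * (2 * ε'))) := by ring
    rw [e4]
    rw [e5] at h4
    linarith
  -- members over bad pairings
  have hbadm : ∀ p ∈ (pairings (Fin n × Fin d)).filter
      (fun p : Equiv.Perm (Fin n × Fin d) => ε' * n < (nBad a ⇑p : ℝ)),
      ((FF (p : Fin n × Fin d → Fin n × Fin d) p0 (fun v => ((viewOf ⇑p0 o a v, y v) :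
          View A (Fin d) a × (Fin k → Fin M)))).card : ℝ) ≤ Real.exp (n * β) := by
    intro p _
    have h1 := card_FF_le_all (k := k) (M := M) (p : Fin n × Fin d → Fin n × Fin d) p0 a o y
    have h2 : ((Fintype.card A * M ^ k) ^ Fintype.card (Fin n) : ℕ) =
        ((Fintype.card A : ℝ) * (M : ℝ) ^ k) ^ n := by simp
    have h3 : ((Fintype.card A : ℝ) * (M : ℝ) ^ k) ^ n = Real.exp (n * β) := by
      rw [hβ, mul_comm (n : ℝ), ← Real.rpow_def_of_pos (by positivity), Real.rpow_natCast]
    rw [← h3, ← h2]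
    exact_mod_cast h1
  -- total
  have htot : (clsCard p0 (fun v => ((viewOf ⇑p0 o a v, y v) :
          View A (Fin d) a × (Fin k → Fin M))) : ℝ) ≤
      np (n * d) * Real.exp (n * α) + np (n * d) * Real.exp (-c1 * n * Real.log n) *
        Real.exp (n * β) := by
    rw [clsCard]
    push_cast
    rw [← sum_filter_add_sum_filter_not (pairings (Fin n × Fin d))
      (fun p : Equiv.Perm (Fin n × Fin d) => ε' * n < (nBad a ⇑p : ℝ)), add_comm]
    refine add_le_add ?_ ?_
    · refine (sum_le_sum hgood).trans ?_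
      rw [sum_const, nsmul_eq_mul]
      refine mul_le_mul_of_nonneg_right ?_ (Real.exp_pos _).le
      have h1 := card_filter_le (pairings (Fin n × Fin d))
        (fun p : Equiv.Perm (Fin n × Fin d) => ¬ ε' * n < (nBad a ⇑p : ℝ))
      rw [card_pairings, Fintype.card_prod, Fintype.card_fin, Fintype.card_fin] at h1
      exact_mod_cast h1
    · refine (sum_le_sum hbadm).trans ?_
      rw [sum_const, nsmul_eq_mul]
      exact mul_le_mul_of_nonneg_right (hfew n hn2 hev) (Real.exp_pos _).le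
  have hN1' := hN1 n hn3
  have hcmp : Real.exp (-c1 * n * Real.log n) * Real.exp (n * β) ≤ Real.exp (n * α) := by
    rw [← Real.exp_add]
    apply Real.exp_le_exp.2
    have : β - c1 * Real.log n ≤ α := by linarith
    nlinarith
  have hfin : Real.exp (n * Ψ - C * Real.log (n + 1)) ≤ 2 * Real.exp (n * α) := by
    have h1 := hΨ.trans htot
    have h2 : (np (n * d) : ℝ) * Real.exp (n * α) + np (n * d) *
        Real.exp (-c1 * n * Real.log n) * Real.exp (n * β) ≤
        np (n * d) * (2 * Real.exp (n * α)) := by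
      have := mul_le_mul_of_nonneg_left hcmp hnp0.le
      nlinarith
    exact le_of_mul_le_mul_left (h1.trans h2) hnp0
  have hfin2 : n * Ψ - C * Real.log (n + 1) ≤ Real.log 2 + n * α := by
    have h1 := Real.log_le_log (Real.exp_pos _) hfin
    rwa [Real.log_exp, Real.log_mul (by norm_num) (Real.exp_pos _).ne', Real.log_exp] at h1
  have hN2' := hN2 n hn4
  rw [div_lt_iff₀ hnpos] at hN2'
  have hle : Ψ ≤ α + ε / 8 := by
    have h1 : n * Ψ ≤ n * (α + ε / 8) := by nlinarith
    exact le_of_mul_le_mul_left h1 hnpos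
  have h1 : (k : ℝ) * (ε / (8 * (k + 1))) ≤ ε / 8 := by
    rw [mul_div_assoc', div_le_div_iff₀ (by positivity) (by norm_num)]
    nlinarith
  have h2 : (k : ℝ) * (B * (2 * ε')) ≤ ε / 4 := by
    have e1 : (k : ℝ) * (B * (2 * ε')) = (k * B) * (2 * ε) / (8 * (k + 1) * (B + 1)) := by
      rw [hε']; ring
    rw [e1, div_le_div_iff₀ (by positivity) (by norm_num)]
    have hk0 : (0 : ℝ) ≤ k := by positivity
    have e2 : ε * (8 * ((k : ℝ) + 1) * (B + 1)) - (k * B) * (2 * ε) * 4 =
        8 * ε * (k + B + 1) := by ring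
    have e3 : 0 ≤ 8 * ε * ((k : ℝ) + B + 1) := by positivity
    linarith
  rw [hα] at hle
  linarith


end Crest.Agent.R166.Upp724
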