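import Crest.Agent.R166.LimF_793
import Crest.Agent.R166.PsiBridge2_397
import Crest.Agent.R166.PhiAlg_879
import Crest.Agent.R166.NoiseNull_849
import Crest.Agent.R166.TypT_674_Mg
import Crest.Agent.R166.Q0_955
import Crest.Agent.R166.Q03_955
import Crest.Agent.R166.Spec_B1_955
import Crest.Agent.R166.Emp_974
import Crest.Agent.R166.PsiBridge_397
import Mathlib
import Crest.Agent.R166.UppFin_724
import Crest.Agent.R166.Count_674
import Crest.Agent.R166.NoiseVol_547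
import Crest.Agent.R166.Lev_47
import Crest.Agent.R166.NoiseLLN_849
import Crest.Agent.R166.GaussQ_286
import Crest.Agent.R166.TypL_674

-- ▼ part R166/MkvF_47
section

/-!
Row 166, section 40.10 (helper47): the field `markov` of `B2.LimProc` for the limit law on
`Conf (b+1) (S2 (b+1) k)`, from 793's `ConfSetup.markov` and approximate conditional independence
of the two sides at every radius.
-/

set_option autoImplicit false

noncomputable section

namespace Crest.Agent.R166.MkvF47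

open MeasureTheory Filter Topology
open Crest.Agent.R166.Words955 Crest.Agent.R166.NoiseLim849 Crest.Agent.R166.CMI47
open Crest.Agent.R166.PsiBridge397 (poC pyS)
open Crest.Agent.R166.PhiAlg879 (wd_eq cross_eq far value_far)
open Crest.Agent.R166.Lim793 (Yw)

variable {b k : ℕ}

/-- the values `X` at the root vertex -/
abbrev X0 {d k : ℕ} [NeZero d] (ξ : Conf d (NoiseLim849.S2 d k)) : Fin k → ℝ := (ξ TW.nil).2.2.1

/-- the values `Z` at the root vertex -/
abbrev Z0 {d k : ℕ} [NeZero d] (ξ : Conf d (NoiseLim849.S2 d k)) : Fin k → ℝ := (ξ TW.nil).2.2.2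

/-- the environment: labels and clipped potential -/
abbrev EnvM (d k : ℕ) [NeZero d] : MeasurableSpace (Conf d (NoiseLim849.S2 d k)) :=
  MeasurableSpace.comap (fun (ξ : Conf d (NoiseLim849.S2 d k)) (w : TW d) =>
    ((ξ w).1, TreeG879.clip (ξ w).2.1)) (inferInstance : MeasurableSpace (TW d → Fin d × ℝ))

theorem EnvM_eq (b k : ℕ) : EnvM (b + 1) k = EnvC b (poC k) := rfl

/-- near word -/
def near {d : ℕ} [NeZero d] (w : List ℕ) (hw : B2.OutW d w) : TW d :=
  ⟨w.map (Fin.ofNat d), fun a ha => by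
    obtain ⟨j, hj, rfl⟩ := List.mem_map.1 (List.mem_of_mem_tail ha)
    obtain ⟨h1, h2⟩ := hw j hj
    intro h
    have h3 := congrArg Fin.val h
    simp only [Fin.ofNat, Fin.val_zero] at h3
    rw [Nat.mod_eq_of_lt h2] at h3
    omega⟩

theorem value_near {d : ℕ} [NeZero d] {S : Type*} [PortAct d S] (ξ : Conf d S) (w : List ℕ)
    (hw : B2.OutW d w) : B2.wd cross (rotn 1) w ξ TW.nil = ξ (near w hw) := by
  rw [wd_eq]
  exact reroot_nil (near w hw) ξ

theorem YY_near {d k : ℕ} [NeZero d] (t : ℝ) (w : List ℕ) (hw : B2.OutW d w) :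
    (fun ξ : Conf d (NoiseLim849.S2 d k) => B2.YY t X0 Z0 (B2.wd cross (rotn 1) w ξ)) =
      Yw t (near w hw) := by
  funext ξ l
  unfold B2.YY Yw
  simp only [X0, Z0]
  rw [value_near ξ w hw]

theorem YY_far {d k : ℕ} [NeZero d] (t : ℝ) (w : List ℕ) (hw : B2.OutW d w) :
    (fun ξ : Conf d (NoiseLim849.S2 d k) => B2.YY t X0 Z0 (B2.wd cross (rotn 1) w (cross ξ))) =
      Yw t (far w hw) := by
  funext ξ l
  unfold B2.YY Yw
  simp only [X0, Z0]
  rw [value_far ξ w hw]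

/-- the conditioning σ-algebra of the edge Markov property -/
abbrev EdgeM (d k : ℕ) [NeZero d] (t : ℝ) : MeasurableSpace (Conf d (NoiseLim849.S2 d k)) :=
  EnvM d k ⊔ MeasurableSpace.comap (fun ξ : Conf d (NoiseLim849.S2 d k) =>
    (B2.YY t X0 Z0 ξ, B2.YY t X0 Z0 (cross ξ))) inferInstance

theorem EdgeM_eq (b k : ℕ) (t : ℝ) : EdgeM (b + 1) k t = Ced b (poC k) (pyS k t) := by
  unfold EdgeM Ced
  rw [EnvM_eq]
  congr 1
  have h : (inferInstance : MeasurableSpace ((Fin k → ℝ) × (Fin k → ℝ))) =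
      MeasurableSpace.comap Prod.fst inferInstance ⊔ MeasurableSpace.comap Prod.snd inferInstance :=
    rfl
  rw [h, MeasurableSpace.comap_sup, MeasurableSpace.comap_comp, MeasurableSpace.comap_comp]
  rfl

/-- the two ends of the root edge -/
def e2 (d : ℕ) [NeZero d] : Fin 2 → TW d := ![TW.nil, TW.single 0]

theorem EdgeM_eq' (d k : ℕ) [NeZero d] (t : ℝ) : EdgeM d k t = EnvM d k ⊔
    ⨆ a, MeasurableSpace.comap (Yw t (e2 d a) : Conf d (NoiseLim849.S2 d k) → Fin k → ℝ)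
      inferInstance := by
  unfold EdgeM
  congr 1
  have h : (inferInstance : MeasurableSpace ((Fin k → ℝ) × (Fin k → ℝ))) =
      MeasurableSpace.comap Prod.fst inferInstance ⊔ MeasurableSpace.comap Prod.snd inferInstance :=
    rfl
  rw [h, MeasurableSpace.comap_sup, MeasurableSpace.comap_comp, MeasurableSpace.comap_comp]
  have h1 : (Prod.fst ∘ fun ξ : Conf d (NoiseLim849.S2 d k) =>
      (B2.YY t X0 Z0 ξ, B2.YY t X0 Z0 (cross ξ))) = Yw t (e2 d 0) := rfl
  have h2 : (Prod.snd ∘ fun ξ : Conf d (NoiseLim849.S2 d k) =>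
      (B2.YY t X0 Z0 ξ, B2.YY t X0 Z0 (cross ξ))) = Yw t (e2 d 1) := rfl
  rw [h1, h2]
  apply le_antisymm
  · exact sup_le (le_iSup (fun a => MeasurableSpace.comap
      (Yw t (e2 d a) : Conf d (NoiseLim849.S2 d k) → Fin k → ℝ) inferInstance) 0)
      (le_iSup (fun a => MeasurableSpace.comap
      (Yw t (e2 d a) : Conf d (NoiseLim849.S2 d k) → Fin k → ℝ) inferInstance) 1)
  · refine iSup_le fun a => ?_
    fin_cases a
    · exact le_sup_left
    · exact le_sup_right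

theorem EnvM_le_pr (d k : ℕ) [NeZero d] : EnvM d k ≤
    MeasurableSpace.comap (pr : Conf d (NoiseLim849.S2 d k) → Conf d (NoiseLim849.S1 d k))
      inferInstance := by
  have h1 : Measurable fun (ζ : Conf d (NoiseLim849.S1 d k)) (w : TW d) =>
      ((ζ w).1, TreeG879.clip (ζ w).2.1) := by
    refine measurable_pi_lambda _ fun w => ?_
    have hw : Measurable fun ζ : Conf d (NoiseLim849.S1 d k) => ζ w := measurable_pi_apply w
    exact hw.fst.prodMk ((measurable_const.max (measurable_const.min measurable_id)).comp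
      hw.snd.fst)
  have h2 : (fun (ξ : Conf d (NoiseLim849.S2 d k)) (w : TW d) =>
      ((ξ w).1, TreeG879.clip (ξ w).2.1)) =
      (fun (ζ : Conf d (NoiseLim849.S1 d k)) (w : TW d) =>
        ((ζ w).1, TreeG879.clip (ζ w).2.1)) ∘ pr := rfl
  unfold EnvM
  rw [h2, ← MeasurableSpace.comap_comp]
  exact MeasurableSpace.comap_mono h1.comap_le

/-- **The field `markov` of `LimProc`.** -/
theorem markov_field {t : ℝ} {P : Measure (Conf (b + 1) (NoiseLim849.S1 (b + 1) k))}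
    {Qn : ℕ → Measure (Conf (b + 1) (NoiseLim849.S2 (b + 1) k))}
    {Q0 : Measure (Conf (b + 1) (NoiseLim849.S2 (b + 1) k))}
    {Γn : ℕ → TW (b + 1) → TW (b + 1) → Conf (b + 1) (NoiseLim849.S1 (b + 1) k) → ℝ}
    {Γ0 : TW (b + 1) → TW (b + 1) → Conf (b + 1) (NoiseLim849.S1 (b + 1) k) → ℝ}
    (L : Lim793.ConfSetup P Qn Q0 Γn Γ0 (e2 (b + 1)))
    (hCI : ∀ R : ℕ, ∃ δ : ℕ → ℝ, Tendsto δ atTop (𝓝 0) ∧ ∀ n,
      Lim47.ApproxCI (Qn n) (sideC (b := b) (pyS k t) id R ⊔ Ced b (poC k) (pyS k t))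
        (sideC (b := b) (pyS k t) cross R ⊔ Ced b (poC k) (pyS k t))
        (Ced b (poC k) (pyS k t)) (δ n))
    (F G : Conf (b + 1) (NoiseLim849.S2 (b + 1) k) → ℝ) (hFb : ∃ C, ∀ h, |F h| ≤ C)
    (hGb : ∃ C, ∀ h, |G h| ≤ C)
    (hF : Measurable[⨆ w : {w : List ℕ // B2.OutW (b + 1) w},
      MeasurableSpace.comap (fun h => B2.YY t X0 Z0 (B2.wd cross (rotn 1) w.1 h)) inferInstance] F)
    (hG : Measurable[⨆ w : {w : List ℕ // B2.OutW (b + 1) w},
      MeasurableSpace.comap (fun h => B2.YY t X0 Z0 (B2.wd cross (rotn 1) w.1 (cross h)))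
        inferInstance] G) :
    Q0[fun h => F h * G h | EdgeM (b + 1) k t] =ᵐ[Q0]
      fun h => (Q0[F | EdgeM (b + 1) k t] h) * (Q0[G | EdgeM (b + 1) k t] h) := by
  classical
  set A : Set (TW (b + 1)) := Set.range fun w : {w : List ℕ // B2.OutW (b + 1) w} =>
    near w.1 w.2 with hA
  set B : Set (TW (b + 1)) := Set.range fun w : {w : List ℕ // B2.OutW (b + 1) w} =>
    far w.1 w.2 with hB
  have eA : (⨆ w : {w : List ℕ // B2.OutW (b + 1) w}, MeasurableSpace.comap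
      (fun h : Conf (b + 1) (NoiseLim849.S2 (b + 1) k) =>
        B2.YY t X0 Z0 (B2.wd cross (rotn 1) w.1 h)) inferInstance) =
      ⨆ w ∈ A, MeasurableSpace.comap
        (Yw t w : Conf (b + 1) (NoiseLim849.S2 (b + 1) k) → Fin k → ℝ) inferInstance := by
    rw [hA, iSup_range]
    exact iSup_congr fun w => by rw [YY_near t w.1 w.2]
  have eB : (⨆ w : {w : List ℕ // B2.OutW (b + 1) w}, MeasurableSpace.comap
      (fun h : Conf (b + 1) (NoiseLim849.S2 (b + 1) k) =>
        B2.YY t X0 Z0 (B2.wd cross (rotn 1) w.1 (cross h))) inferInstance) =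
      ⨆ w ∈ B, MeasurableSpace.comap
        (Yw t w : Conf (b + 1) (NoiseLim849.S2 (b + 1) k) → Fin k → ℝ) inferInstance := by
    rw [hB, iSup_range]
    exact iSup_congr fun w => by rw [YY_far t w.1 w.2]
  rw [eA] at hF
  rw [eB] at hG
  refine L.markov t (EnvM_le_pr (b + 1) k) (EdgeM_eq' (b + 1) k t) A B ?_ hF hG hFb hGb
  intro A' B' hA' hB'
  -- a common radius
  set R : ℕ := (A' ∪ B').sup TW.len with hR
  obtain ⟨δ, hδ, h⟩ := hCI R
  refine ⟨δ, hδ, fun n => ?_⟩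
  rw [EdgeM_eq]
  refine (h n).mono ?_ ?_ le_rfl
  · refine sup_le le_sup_right (le_trans ?_ le_sup_left)
    refine iSup₂_le fun w hw => ?_
    obtain ⟨⟨l, hl⟩, rfl⟩ := hA' hw
    have hlen : l.length ≤ R := by
      have h1 : (near l hl).len ≤ R :=
        Finset.le_sup (f := TW.len) (Finset.mem_union_left _ (Finset.mem_coe.1 hw))
      simpa [near, TW.len] using h1
    have h2 : MeasurableSpace.comap (Yw t (near l hl) :
        Conf (b + 1) (NoiseLim849.S2 (b + 1) k) → Fin k → ℝ) inferInstance =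
        valC (b := b) (pyS k t) fun ξ => B2.wd cross (rotn 1) l (id ξ) := by
      rw [← YY_near t l hl]; rfl
    rw [h2]
    exact le_iSup (fun w : {w : List ℕ // B2.OutW (b + 1) w ∧ w.length ≤ R} =>
      valC (b := b) (pyS k t) fun ξ => B2.wd cross (rotn 1) w.1 (id ξ)) ⟨l, hl, hlen⟩
  · refine sup_le le_sup_right (le_trans ?_ le_sup_left)
    refine iSup₂_le fun w hw => ?_
    obtain ⟨⟨l, hl⟩, rfl⟩ := hB' hw
    have hlen : l.length ≤ R := by
      have h1 : (far l hl).len ≤ R :=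
        Finset.le_sup (f := TW.len) (Finset.mem_union_right _ (Finset.mem_coe.1 hw))
      have h2 : (far l hl).len = l.length + 1 := by simp [far, TW.len]
      omega
    have h2 : MeasurableSpace.comap (Yw t (far l hl) :
        Conf (b + 1) (NoiseLim849.S2 (b + 1) k) → Fin k → ℝ) inferInstance =
        valC (b := b) (pyS k t) fun ξ => B2.wd cross (rotn 1) l (cross ξ) := by
      rw [← YY_far t l hl]; rfl
    rw [h2]
    exact le_iSup (fun w : {w : List ℕ // B2.OutW (b + 1) w ∧ w.length ≤ R} =>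
      valC (b := b) (pyS k t) fun ξ => B2.wd cross (rotn 1) w.1 (cross ξ)) ⟨l, hl, hlen⟩

end Crest.Agent.R166.MkvF47
end
end

-- ▼ part R166/B1Fin_47
section

/-!
Row 166, sections 40.6-40.10 (helper47): the laws `P_η` of an extracted sequence are approximately
edge-Markov. Inputs: `Stmt_U` and `Stmt_LLNStar` (as hypotheses), `Stmt_T` (674), `Stmt_LogDet`
(424), `lawEta_null` (849), `approxCI_of_psiDiff` (397).
-/

set_option autoImplicit false

noncomputable section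

namespace Crest.Agent.R166.B1Fin47

open MeasureTheory Filter Topology
open Crest.Agent.R166.Words955 Crest.Agent.R166.NoiseLim849 Crest.Agent.R166.CMI47
open Crest.Agent.R166.PsiBridge397 (poC pyS)
open Crest.Agent.R166.EnvLaw289 Crest.Agent.R166.Erg424
open Crest.Agent.R166.TreeDefs350 (unif)



/-- the error bound tends to zero with `η` -/
theorem tendsto_err (b k R : ℕ) {c t : ℝ} (ht : 0 < t) {η : ℕ → ℝ}
    (hη : Tendsto η atTop (𝓝 0)) :
    Tendsto (fun n => 2 * Real.sqrt (2 * EntTree397.sR b R *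
      ((k : ℝ) / 2 * Real.log ((t + η n / c) / t)))) atTop (𝓝 0) := by
  have h1 : Tendsto (fun n => (t + η n / c) / t) atTop (𝓝 1) := by
    have := ((hη.div_const c).const_add t).div_const t
    simpa [ht.ne'] using this
  have h2 : Tendsto (fun n => Real.log ((t + η n / c) / t)) atTop (𝓝 0) := by
    have := (Real.continuousAt_log one_ne_zero).tendsto.comp h1
    rw [Real.log_one] at this
    exact this
  have h3 : Tendsto (fun n => 2 * EntTree397.sR b R * ((k : ℝ) / 2 *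
      Real.log ((t + η n / c) / t))) atTop (𝓝 0) := by
    simpa using (h2.const_mul ((k : ℝ) / 2)).const_mul (2 * EntTree397.sR b R)
  have h4 := ((Real.continuous_sqrt.tendsto 0).comp h3).const_mul 2
  rw [Real.sqrt_zero, mul_zero] at h4
  exact h4

end Crest.Agent.R166.B1Fin47
end
end

-- ▼ part R166/Q0Fin_47
section

/-!
Row 166, section 40.10 (helper47): the field `markov` of `B2.LimProc` for the limit of the laws
`P_η` of an extracted sequence.
-/

set_option autoImplicit false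

noncomputable section

namespace Crest.Agent.R166.Q0Fin47

open MeasureTheory Filter Topology
open Crest.Agent.R166.Words955 Crest.Agent.R166.NoiseLim849 Crest.Agent.R166.CMI47
open Crest.Agent.R166.PsiBridge397 (poC pyS)
open Crest.Agent.R166.TreeG879 (treeG omOf treeG_symm treeG_im_pos)
open Crest.Agent.R166.PhiAlg879 Crest.Agent.R166.MkvF47

/-! ### Positivity of the edge block -/

/-- the quadratic form of the edge block -/
theorem im_block_pos {c c' : ℂ} (hc : 0 < c.im) (hc' : 0 < c'.im) {x y : ℝ}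
    (hxy : x ≠ 0 ∨ y ≠ 0) :
    0 < ((1 / (1 - c * c')) * ((x : ℂ) ^ 2 * c - 2 * x * y * (c * c') + (y : ℂ) ^ 2 * c')).im := by
  have hc0 : c ≠ 0 := by rintro rfl; simp at hc
  have hc0' : c' ≠ 0 := by rintro rfl; simp at hc'
  have hn : 0 < Complex.normSq c := Complex.normSq_pos.2 hc0
  have hn' : 0 < Complex.normSq c' := Complex.normSq_pos.2 hc0'
  have hD : 1 - c * c' ≠ 0 := by
    intro e
    have h1 : c * c' = 1 := (sub_eq_zero.1 e).symm
    have h4 : c' = c⁻¹ := by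
      field_simp
      rw [mul_comm]; exact h1
    rw [h4, Complex.inv_im] at hc'
    have h5 : -c.im / Complex.normSq c < 0 := div_neg_of_neg_of_pos (by linarith) hn
    linarith
  set v : ℂ := (x * c - y * (c * c')) / (1 - c * c') with hv
  set v' : ℂ := (y * c' - x * (c * c')) / (1 - c * c') with hv'
  have hx : v / c + v' = x := by
    rw [hv, hv']
    field_simp
    ring
  have hy : v + v' / c' = y := by
    rw [hv, hv']
    field_simp
    ring
  have e1 : (1 / (1 - c * c')) * ((x : ℂ) ^ 2 * c - 2 * x * y * (c * c') + (y : ℂ) ^ 2 * c') =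
      x * v + y * v' := by
    rw [hv, hv']
    field_simp
    ring
  have e2 : (x : ℂ) * v + y * v' = (starRingEnd ℂ) (v / c + v') * v +
      (starRingEnd ℂ) (v + v' / c') * v' := by
    rw [hx, hy, Complex.conj_ofReal, Complex.conj_ofReal]
  have e3 : ((starRingEnd ℂ) (v / c + v') * v + (starRingEnd ℂ) (v + v' / c') * v').im =
      Complex.normSq v * (c.im / Complex.normSq c) +
        Complex.normSq v' * (c'.im / Complex.normSq c') := by
    have k1 : (starRingEnd ℂ) (v / c + v') * v + (starRingEnd ℂ) (v + v' / c') * v' =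
        (Complex.normSq v : ℂ) * ((starRingEnd ℂ) c)⁻¹ +
        (Complex.normSq v' : ℂ) * ((starRingEnd ℂ) c')⁻¹ +
        ((starRingEnd ℂ) v' * v + (starRingEnd ℂ) v * v') := by
      rw [Complex.normSq_eq_conj_mul_self, Complex.normSq_eq_conj_mul_self]
      simp only [map_add, map_div₀]
      ring
    have k2 : ((starRingEnd ℂ) v' * v + (starRingEnd ℂ) v * v').im = 0 := by
      simp only [Complex.add_im, Complex.mul_im, Complex.conj_re, Complex.conj_im]
      ring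
    have k3 : ∀ w : ℂ, (((starRingEnd ℂ) w)⁻¹).im = w.im / Complex.normSq w := fun w => by
      rw [Complex.inv_im, Complex.conj_im, neg_neg, Complex.normSq_conj]
    rw [k1, Complex.add_im, Complex.add_im, k2, add_zero, Complex.im_ofReal_mul,
      Complex.im_ofReal_mul, k3, k3]
  rw [e1, e2, e3]
  have hvv : v ≠ 0 ∨ v' ≠ 0 := by
    by_contra hcon
    push Not at hcon
    obtain ⟨h1, h2⟩ := hcon
    rw [h1, h2] at hx hy
    simp only [zero_div, add_zero] at hx hy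
    rcases hxy with h | h
    · exact h (by exact_mod_cast hx.symm)
    · exact h (by exact_mod_cast hy.symm)
  have p1 : 0 ≤ Complex.normSq v * (c.im / Complex.normSq c) :=
    mul_nonneg (Complex.normSq_nonneg _) (div_nonneg hc.le hn.le)
  have p2 : 0 ≤ Complex.normSq v' * (c'.im / Complex.normSq c') :=
    mul_nonneg (Complex.normSq_nonneg _) (div_nonneg hc'.le hn'.le)
  rcases hvv with h | h
  · have : 0 < Complex.normSq v := Complex.normSq_pos.2 h
    have : 0 < Complex.normSq v * (c.im / Complex.normSq c) := by positivity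
    linarith
  · have : 0 < Complex.normSq v' := Complex.normSq_pos.2 h
    have : 0 < Complex.normSq v' * (c'.im / Complex.normSq c') := by positivity
    linarith

/-- positive definiteness of a symmetric 2x2 matrix from its quadratic form -/
theorem posDef_two {M : Matrix (Fin 2) (Fin 2) ℝ} (hs : ∀ a b, M a b = M b a)
    (h : ∀ x : Fin 2 → ℝ, x ≠ 0 →
      0 < x 0 ^ 2 * M 0 0 + 2 * x 0 * x 1 * M 0 1 + x 1 ^ 2 * M 1 1) : M.PosDef := by
  refine Matrix.PosDef.of_dotProduct_mulVec_pos ?_ fun x hx => ?_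
  · ext a b
    simp only [Matrix.conjTranspose_apply, star_trivial]
    exact hs b a
  · have h1 := h x hx
    rw [star_trivial]
    simp only [dotProduct, Matrix.mulVec, Fin.sum_univ_two]
    have h10 : M 1 0 = M 0 1 := hs 1 0
    rw [h10]
    nlinarith [h1]

variable {d k : ℕ} [NeZero d]

theorem nil_ne_single : (TW.nil : TW d) ≠ TW.single 0 := by
  intro h
  have h1 := congrArg TW.len h
  simp [TW.len, TW.nil, TW.single] at h1

/-- the edge block at positive `η` -/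
theorem pd_PhiL {s ρ : ℝ} (hρ : 0 < ρ) {z : ℂ} (hz : 0 < z.im)
    (ξ : Conf d (NoiseLim849.S1 d k)) :
    (Matrix.of fun a a' => PhiL Prod.fst s ρ z (e2 d a) (e2 d a') ξ :
      Matrix (Fin 2) (Fin 2) ℝ).PosDef := by
  classical
  refine posDef_two (fun a b => ?_) fun x hx => ?_
  · simp only [Matrix.of_apply, PhiL]
    rw [treeG_symm s hz]
  · have hne := nil_ne_single (d := d)
    have h1 : x 0 ≠ 0 ∨ x 1 ≠ 0 := by
      by_contra hcon
      push Not at hcon
      apply hx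
      funext a
      fin_cases a
      · exact hcon.1
      · exact hcon.2
    set om := omOf (T := ℝ × (Fin k → ℝ)) Prod.fst ξ with hom
    set a : TW d → ℝ := fun w => if w = TW.nil then x 0 else x 1 with ha
    have a0 : a TW.nil = x 0 := by simp [ha]
    have a1 : a (TW.single 0) = x 1 := by simp [ha, hne.symm]
    have key : 0 < ∑ u ∈ ({TW.nil, TW.single 0} : Finset (TW d)),
        ∑ v ∈ ({TW.nil, TW.single 0} : Finset (TW d)), a u * a v * (treeG s z om u v).im := by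
      rcases h1 with h | h
      · exact treeG_im_pos s hz om _ a (x := TW.nil) (by simp) (by rw [a0]; exact h)
      · exact treeG_im_pos s hz om _ a (x := TW.single 0) (by simp) (by rw [a1]; exact h)
    rw [Finset.sum_pair hne, Finset.sum_pair hne, Finset.sum_pair hne, a0, a1,
      treeG_symm s hz om (TW.single 0) TW.nil] at key
    have e : x 0 ^ 2 * (Matrix.of fun a a' => PhiL Prod.fst s ρ z (e2 d a) (e2 d a') ξ :
        Matrix (Fin 2) (Fin 2) ℝ) 0 0 +
        2 * x 0 * x 1 * (Matrix.of fun a a' => PhiL Prod.fst s ρ z (e2 d a) (e2 d a') ξ :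
        Matrix (Fin 2) (Fin 2) ℝ) 0 1 +
        x 1 ^ 2 * (Matrix.of fun a a' => PhiL Prod.fst s ρ z (e2 d a) (e2 d a') ξ :
        Matrix (Fin 2) (Fin 2) ℝ) 1 1 =
        (x 0 * x 0 * (treeG s z om TW.nil TW.nil).im +
          x 0 * x 1 * (treeG s z om TW.nil (TW.single 0)).im +
          (x 1 * x 0 * (treeG s z om TW.nil (TW.single 0)).im +
          x 1 * x 1 * (treeG s z om (TW.single 0) (TW.single 0)).im)) / (Real.pi * ρ) := by
      simp only [Matrix.of_apply, PhiL, e2, Matrix.cons_val_zero, Matrix.cons_val_one, ← hom]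
      ring
    rw [e]
    have := Real.pi_pos
    positivity

/-- the edge block in the limit -/
theorem pd_Phi {s ρ E : ℝ} (hρ : 0 < ρ) {z : ℕ → ℂ} {cl : Conf d (NoiseLim849.S1 d k) → ℂ}
    (hz : ∀ l, 0 < (z l).im) (hzE : Tendsto z atTop (𝓝 (E : ℂ)))
    {ξ : Conf d (NoiseLim849.S1 d k)} (h : Good Prod.fst s z cl ξ) :
    (Matrix.of fun a a' => Phi Prod.fst s ρ z (e2 d a) (e2 d a') ξ :
      Matrix (Fin 2) (Fin 2) ℝ).PosDef := by
  refine posDef_two (fun a b => ?_) fun x hx => ?_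
  · simp only [Matrix.of_apply]
    exact Phi_symm hz _ _ _
  · have h1 : x 0 ≠ 0 ∨ x 1 ≠ 0 := by
      by_contra hcon
      push Not at hcon
      apply hx
      funext a
      fin_cases a
      · exact hcon.1
      · exact hcon.2
    have hb : ∀ a b : Fin 2, (Matrix.of fun a a' => Phi Prod.fst s ρ z (e2 d a) (e2 d a') ξ :
      Matrix (Fin 2) (Fin 2) ℝ) a b = (B2.Bk cross cl ξ a b).im / (Real.pi * ρ) := fun a b =>
      h.Phi_edge hz hzE a b
    rw [hb, hb, hb]
    have key := im_block_pos h.im0 h.cross.im0 h1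
    have e : ((1 / (1 - cl ξ * cl (cross ξ))) * ((x 0 : ℂ) ^ 2 * cl ξ -
        2 * x 0 * x 1 * (cl ξ * cl (cross ξ)) + (x 1 : ℂ) ^ 2 * cl (cross ξ))).im =
        x 0 ^ 2 * (B2.Bk cross cl ξ 0 0).im + 2 * x 0 * x 1 * (B2.Bk cross cl ξ 0 1).im +
          x 1 ^ 2 * (B2.Bk cross cl ξ 1 1).im := by
      have b00 : B2.Bk cross cl ξ 0 0 = (1 / (1 - cl ξ * cl (cross ξ))) * cl ξ := rfl
      have b01 : B2.Bk cross cl ξ 0 1 =
        (1 / (1 - cl ξ * cl (cross ξ))) * -(cl ξ * cl (cross ξ)) := rfl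
      have b11 : B2.Bk cross cl ξ 1 1 = (1 / (1 - cl ξ * cl (cross ξ))) * cl (cross ξ) := rfl
      rw [b00, b01, b11]
      have k1 : (1 / (1 - cl ξ * cl (cross ξ))) * ((x 0 : ℂ) ^ 2 * cl ξ -
        2 * x 0 * x 1 * (cl ξ * cl (cross ξ)) + (x 1 : ℂ) ^ 2 * cl (cross ξ)) =
        ((x 0 ^ 2 : ℝ) : ℂ) * ((1 / (1 - cl ξ * cl (cross ξ))) * cl ξ) +
        ((2 * x 0 * x 1 : ℝ) : ℂ) * ((1 / (1 - cl ξ * cl (cross ξ))) *
          -(cl ξ * cl (cross ξ))) +
        ((x 1 ^ 2 : ℝ) : ℂ) * ((1 / (1 - cl ξ * cl (cross ξ))) * cl (cross ξ)) := by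
        push_cast
        ring
      rw [k1, Complex.add_im, Complex.add_im, Complex.im_ofReal_mul, Complex.im_ofReal_mul,
        Complex.im_ofReal_mul]
    rw [e] at key
    have e' : x 0 ^ 2 * ((B2.Bk cross cl ξ 0 0).im / (Real.pi * ρ)) +
        2 * x 0 * x 1 * ((B2.Bk cross cl ξ 0 1).im / (Real.pi * ρ)) +
        x 1 ^ 2 * ((B2.Bk cross cl ξ 1 1).im / (Real.pi * ρ)) =
        (x 0 ^ 2 * (B2.Bk cross cl ξ 0 0).im + 2 * x 0 * x 1 * (B2.Bk cross cl ξ 0 1).im +
          x 1 ^ 2 * (B2.Bk cross cl ξ 1 1).im) / (Real.pi * ρ) := by ring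
    rw [e']
    have := Real.pi_pos
    positivity

/-! ### Fixed `η` -/

/-- approximate edge Markov property of the law at `E + iη` -/
theorem approxCI_law (hU : SpecB1.Stmt_U) (hL : SpecB1.Stmt_LLNStar) {b k : ℕ}
    {S : Seq980.Seq (b + 1) k} {s E K' : ℝ} (hX : SpecB1.Extra S s E K') {η c t : ℝ}
    (hη : 0 < η) (hc : 0 < c) (ht : 0 < t) {Q : Measure (Conf (b + 1) (NoiseLim849.S2 (b + 1) k))}
    (h1 : SpecB1.IsNoisyLim S s E η c Q) (h3 : Inv Q)
    (h5 : ∀ w (r : ℝ), Q {ζ | (ζ w).2.1 = r} = 0)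
    (h6 : ∀ w i (r : ℝ), Q {ζ | (ζ w).2.2.1 i + Real.sqrt t * (ζ w).2.2.2 i = r} = 0) (R : ℕ) :
    Lim47.ApproxCI Q (sideC (b := b) (pyS k t) id R ⊔ Ced b (poC k) (pyS k t))
      (sideC (b := b) (pyS k t) cross R ⊔ Ced b (poC k) (pyS k t))
      (Ced b (poC k) (pyS k t))
      (2 * Real.sqrt (2 * EntTree397.sR b R * ((k : ℝ) / 2 * Real.log ((t + η / c) / t)))) := by
  have hQ : IsProbabilityMeasure Q := h1.1
  obtain ⟨l, hl⟩ := LogDet424.stmt_LogDet (b + 1) k S s E K' η c hη hc hX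
  have hLLN : SpecB1.LLNStar S s E η c t Q :=
    hL (b + 1) k S s E K' η c t Q hη hc ht hX h1 h5 h6
  have hTl := TypC674.stmt_T (b + 1) k S s E K' η c t l Q hη hc ht hX hQ hLLN hl
  have hUl := hU (b + 1) k S s E K' η c t l Q hη hc ht hX hQ hLLN hl
  exact PsiBridge397.approxCI_of_psiDiff R h3 (SpecB1.psiDiff_of ht (by positivity) hTl hUl)

/-! ### The limit -/

theorem tendsto_ze {E : ℝ} {η : ℕ → ℝ} (hη0 : Tendsto η atTop (𝓝 0)) :
    Tendsto (fun l => ze E (η l)) atTop (𝓝 (E : ℂ)) := by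
  have h1 : Tendsto (fun l => ((η l : ℝ) : ℂ)) atTop (𝓝 ((0 : ℝ) : ℂ)) :=
    (Complex.continuous_ofReal.tendsto 0).comp hη0
  have h2 := (h1.const_mul Complex.I).const_add (E : ℂ)
  have h3 : (fun l => ze E (η l)) = fun l => (E : ℂ) + Complex.I * ((η l : ℝ) : ℂ) := by
    funext l
    simp [ze]
  rw [h3]
  simpa using h2

/-- 793's data from the laws -/
theorem confSetup {s ρ E : ℝ} (hρ : 0 < ρ) {S : Seq980.Seq d k}
    {η : ℕ → ℝ} (hη : ∀ l, 0 < η l) (hη0 : Tendsto η atTop (𝓝 0))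
    {cl : Conf d (NoiseLim849.S1 d k) → ℂ}
    (hgood : ∀ᵐ ξ ∂S.P, Good Prod.fst s (fun l => ze E (η l)) cl ξ)
    {Q : ℕ → Measure (Conf d (NoiseLim849.S2 d k))} {Q0 : Measure (Conf d (NoiseLim849.S2 d k))}
    (hS : Q0_955.LawSeq S s E ρ η Q Q0) :
    Lim793.ConfSetup S.P Q Q0 (fun l => gamG k s E (η l) (1 / (Real.pi * ρ)))
      (Phi (T := ℝ × (Fin k → ℝ)) Prod.fst s ρ fun l => ze E (η l)) (e2 d) := by
  have hz : ∀ l, 0 < (ze E (η l)).im := fun l => by rw [ze_im]; exact hη l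
  have hzE : Tendsto (fun l => ze E (η l)) atTop (𝓝 (E : ℂ)) := tendsto_ze hη0
  refine ⟨S.prob, hS.prob, hS.prob0, fun l => (hS.cov l).meas, hS.cov0.meas,
    fun l => (hS.nlaw l).charForm, hS.nlaw0.charForm, fun l => ?_, ?_, fun l => ?_, ?_, hS.lim⟩
  · filter_upwards [(hS.cov l).psd] with ξ hξ
    refine ⟨fun w w' => ?_, hξ⟩
    simp only [gamG]
    rw [treeG_symm s (hz l)]
  · filter_upwards [hS.cov0.psd] with ξ hξ
    exact ⟨fun w w' => Phi_symm hz _ _ _, hξ⟩
  · rw [Q0_955.gamG_eq_PhiL]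
    exact ae_of_all _ fun ξ => pd_PhiL hρ (hz l) ξ
  · filter_upwards [hgood] with ξ hξ
    exact pd_Phi hρ hz hzE hξ

/-- **The field `markov` of `LimProc` for the limit law `Q0` of an extracted sequence.** -/
theorem markov_of_seq (hU : SpecB1.Stmt_U) (hL : SpecB1.Stmt_LLNStar) {b k : ℕ}
    {S : Seq980.Seq (b + 1) k} {s E K' ρ t : ℝ} (hX : SpecB1.Extra S s E K') (hρ : 0 < ρ)
    (ht : 0 < t) {η : ℕ → ℝ} (hη : ∀ l, 0 < η l) (hη0 : Tendsto η atTop (𝓝 0))
    {cl : Conf (b + 1) (NoiseLim849.S1 (b + 1) k) → ℂ}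
    (hgood : ∀ᵐ ξ ∂S.P, Good Prod.fst s (fun l => ze E (η l)) cl ξ)
    {Q : ℕ → Measure (Conf (b + 1) (NoiseLim849.S2 (b + 1) k))}
    {Q0 : Measure (Conf (b + 1) (NoiseLim849.S2 (b + 1) k))}
    (hS : Q0_955.LawSeq S s E ρ η Q Q0)
    (F G : Conf (b + 1) (NoiseLim849.S2 (b + 1) k) → ℝ) (hFb : ∃ C, ∀ h, |F h| ≤ C)
    (hGb : ∃ C, ∀ h, |G h| ≤ C)
    (hF : Measurable[⨆ w : {w : List ℕ // B2.OutW (b + 1) w},
      MeasurableSpace.comap (fun h => B2.YY t X0 Z0 (B2.wd cross (rotn 1) w.1 h)) inferInstance] F)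
    (hG : Measurable[⨆ w : {w : List ℕ // B2.OutW (b + 1) w},
      MeasurableSpace.comap (fun h => B2.YY t X0 Z0 (B2.wd cross (rotn 1) w.1 (cross h)))
        inferInstance] G) :
    Q0[fun h => F h * G h | EdgeM (b + 1) k t] =ᵐ[Q0]
      fun h => (Q0[F | EdgeM (b + 1) k t] h) * (Q0[G | EdgeM (b + 1) k t] h) := by
  have hc : 0 < 1 / (Real.pi * ρ) := by
    have := Real.pi_pos
    positivity
  refine markov_field (confSetup hρ hη hη0 hgood hS) (fun R => ?_) F G hFb hGb hF hG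
  refine ⟨_, B1Fin47.tendsto_err b k R (c := 1 / (Real.pi * ρ)) ht hη0, fun n => ?_⟩
  exact approxCI_law hU hL hX (hη n) hc ht (hS.noisy n) (hS.inv n) (hS.om_null n)
    (hS.Y_null n t ht) R

/-- the same for any `d ≥ 1` -/
theorem markov_of_seq' (hU : SpecB1.Stmt_U) (hL : SpecB1.Stmt_LLNStar)
    {S : Seq980.Seq d k} {s E K' ρ t : ℝ} (hX : SpecB1.Extra S s E K') (hρ : 0 < ρ)
    (ht : 0 < t) {η : ℕ → ℝ} (hη : ∀ l, 0 < η l) (hη0 : Tendsto η atTop (𝓝 0))
    {cl : Conf d (NoiseLim849.S1 d k) → ℂ}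
    (hgood : ∀ᵐ ξ ∂S.P, Good Prod.fst s (fun l => ze E (η l)) cl ξ)
    {Q : ℕ → Measure (Conf d (NoiseLim849.S2 d k))}
    {Q0 : Measure (Conf d (NoiseLim849.S2 d k))}
    (hS : Q0_955.LawSeq S s E ρ η Q Q0) :
    ∀ (F G : Conf d (NoiseLim849.S2 d k) → ℝ), (∃ C, ∀ h, |F h| ≤ C) →
      (∃ C, ∀ h, |G h| ≤ C) →
      Measurable[⨆ w : {w : List ℕ // B2.OutW d w},
        MeasurableSpace.comap (fun h => B2.YY t X0 Z0 (B2.wd cross (rotn 1) w.1 h))
          inferInstance] F →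
      Measurable[⨆ w : {w : List ℕ // B2.OutW d w},
        MeasurableSpace.comap (fun h => B2.YY t X0 Z0 (B2.wd cross (rotn 1) w.1 (cross h)))
          inferInstance] G →
      Q0[fun h => F h * G h | EdgeM d k t] =ᵐ[Q0]
        fun h => (Q0[F | EdgeM d k t] h) * (Q0[G | EdgeM d k t] h) := by
  obtain ⟨b, rfl⟩ : ∃ b, d = b + 1 := ⟨d - 1, by have := NeZero.ne d; omega⟩
  exact markov_of_seq hU hL hX hρ ht hη hη0 hgood hS

end Crest.Agent.R166.Q0Fin47
end
end

-- ▼ part R166/LLNStar_47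
section

/-!
# Row 166, leaf B4 (proof by helper831, ported to Spec_B1 v2 by helper47): `Stmt_LLNStar`

The star counts of the quantised samples converge in probability to the star law of the limit.
Portmanteau with finitely many bounded continuous functions + local constancy of the finite views
off the coordinate thresholds.
-/

set_option autoImplicit false
set_option linter.unusedSectionVars false

namespace Crest.Agent.R166.LLNStar47

open MeasureTheory Filter Topology BoundedContinuousFunction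
open Crest.Agent.R166.Words955 Crest.Agent.R166.SpecB1 Crest.ProbabilityR.RandomMatrix
open Crest.Agent.R166.Count674 (St Th)
open Crest.Agent.R166.Upp724 (View viewOf)

/-! ### Portmanteau with finitely many functions -/

section port

variable {E : Type*} [TopologicalSpace E] [MeasurableSpace E] [BorelSpace E]

/-- a neighbourhood of `P` is controlled by finitely many bounded continuous functions -/
theorem nhds_bcf (P : ProbabilityMeasure E) {V : Set (ProbabilityMeasure E)} (hV : V ∈ 𝓝 P) :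
    ∃ (S : Finset (E →ᵇ ℝ)) (δ : ℝ), 0 < δ ∧ ∀ ν : ProbabilityMeasure E,
      (∀ φ ∈ S, |∫ ξ, φ ξ ∂(ν : Measure E) - ∫ ξ, φ ξ ∂(P : Measure E)| ≤ δ) → ν ∈ V := by
  classical
  set c : ProbabilityMeasure E → (E →ᵇ ℝ) → ℝ := fun ν φ => ∫ ξ, φ ξ ∂(ν : Measure E) with hc
  have h0 : Tendsto (fun ν : ProbabilityMeasure E => ν) (comap c (𝓝 (c P))) (𝓝 P) := by
    rw [ProbabilityMeasure.tendsto_iff_forall_integral_tendsto]
    intro φ
    have h1 : Tendsto c (comap c (𝓝 (c P))) (𝓝 (c P)) := tendsto_comap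
    exact (tendsto_pi_nhds.1 h1) φ
  have h1 := h0 hV
  rw [mem_map, mem_comap] at h1
  obtain ⟨W, hW, hsub⟩ := h1
  rw [nhds_pi, Filter.mem_pi] at hW
  obtain ⟨I, hI, t, ht, hIt⟩ := hW
  choose r hr hrt using fun q => Metric.mem_nhds_iff.1 (ht q)
  obtain ⟨δ, hδ, hδr⟩ : ∃ δ : ℝ, 0 < δ ∧ ∀ q ∈ hI.toFinset, δ < r q := by
    rcases hI.toFinset.eq_empty_or_nonempty with h0 | h0
    · exact ⟨1, one_pos, by simp [h0]⟩
    · obtain ⟨q0, hq0, hmin⟩ := hI.toFinset.exists_min_image r h0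
      exact ⟨r q0 / 2, by have := hr q0; positivity, fun q hq => by
        have := hmin q hq; have := hr q0; linarith⟩
  refine ⟨hI.toFinset, δ, hδ, fun ν hS => ?_⟩
  have h2 : ν ∈ c ⁻¹' W :=
    hIt fun q hq => hrt q (by
      rw [Metric.mem_ball, Real.dist_eq]
      exact (hS q (hI.mem_toFinset.2 hq)).trans_lt (hδr q (hI.mem_toFinset.2 hq)))
  exact hsub h2

/-- finitely many continuity sets are controlled by finitely many bounded continuous functions -/
theorem portmanteau_fin [HasOuterApproxClosed E] {ι : Type*} [Finite ι] (P : Measure E)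
    [hP : IsProbabilityMeasure P]
    (B : ι → Set E) (hB : ∀ i, P (frontier (B i)) = 0) {ε : ℝ} (hε : 0 < ε) :
    ∃ (S : Finset (E →ᵇ ℝ)) (δ : ℝ), 0 < δ ∧ ∀ ν : Measure E, IsProbabilityMeasure ν →
      (∀ φ ∈ S, |∫ ξ, φ ξ ∂ν - ∫ ξ, φ ξ ∂P| ≤ δ) → ∀ i, |ν.real (B i) - P.real (B i)| ≤ ε := by
  let P0 : ProbabilityMeasure E := ⟨P, hP⟩
  have hV : {ν : ProbabilityMeasure E |
      ∀ i, |(ν : Measure E).real (B i) - P.real (B i)| ≤ ε} ∈ 𝓝 P0 := by
    have h1 : ∀ i, ∀ᶠ ν : ProbabilityMeasure E in 𝓝 P0,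
        |(ν : Measure E).real (B i) - P.real (B i)| ≤ ε := by
      intro i
      have hc : Tendsto (fun ν : ProbabilityMeasure E => (ν : Measure E) (B i)) (𝓝 P0)
          (𝓝 ((P0 : Measure E) (B i))) :=
        ProbabilityMeasure.tendsto_measure_of_null_frontier_of_tendsto' tendsto_id (hB i)
      have hc' : Tendsto (fun ν : ProbabilityMeasure E => (ν : Measure E).real (B i)) (𝓝 P0)
          (𝓝 ((P0 : Measure E).real (B i))) :=
        (ENNReal.tendsto_toReal (measure_ne_top _ _)).comp hc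
      have h2 := hc' (Metric.closedBall_mem_nhds _ hε)
      filter_upwards [h2] with ν hν
      have h3 := Metric.mem_closedBall.1 (Set.mem_preimage.1 hν)
      rwa [Real.dist_eq] at h3
    exact eventually_all.2 h1
  obtain ⟨S, δ, hδ, h⟩ := nhds_bcf P0 hV
  exact ⟨S, δ, hδ, fun ν hν hq i => h ⟨ν, hν⟩ hq i⟩

end port

/-! ### Local constancy -/

section lc

variable {X Y : Type*} [TopologicalSpace X]

/-- `g` is constant near `x` -/
def LC (g : X → Y) (x : X) : Prop := ∀ᶠ x' in 𝓝 x, g x' = g x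

theorem frontier_subset_of_lc {g : X → Y} {G : Set X} (h : ∀ x ∈ G, LC g x) (y : Y) :
    frontier {x | g x = y} ⊆ Gᶜ := by
  intro x hx hxG
  have h1 := h x hxG
  by_cases h2 : g x = y
  · have h3 : x ∈ interior {x | g x = y} := by
      rw [mem_interior_iff_mem_nhds]
      filter_upwards [h1] with x' hx'
      show g x' = y
      rw [hx', h2]
    exact hx.2 h3
  · have h3 : x ∈ interior {x | g x = y}ᶜ := by
      rw [mem_interior_iff_mem_nhds]
      filter_upwards [h1] with x' hx'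
      show ¬ g x' = y
      rw [hx']; exact h2
    rw [interior_compl] at h3
    exact h3 hx.1

theorem lc_cell {L D : ℝ} {M : ℕ} [NeZero M] {y : ℝ} (hD : 0 < D)
    (hy : ∀ z : ℤ, y ≠ z * D - L) : LC (Lev47.cell L D M) y := by
  have h1 : (⌊(y + L) / D⌋ : ℝ) < (y + L) / D := by
    refine lt_of_le_of_ne (Int.floor_le _) fun h => ?_
    apply hy ⌊(y + L) / D⌋
    rw [h]
    field_simp
    ring
  have h2 : (y + L) / D < ⌊(y + L) / D⌋ + 1 := Int.lt_floor_add_one _
  have hc : Continuous fun y' : ℝ => (y' + L) / D := by fun_prop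
  have h3 : ∀ᶠ y' in 𝓝 y, (y' + L) / D ∈ Set.Ioo (⌊(y + L) / D⌋ : ℝ) (⌊(y + L) / D⌋ + 1) :=
    hc.continuousAt.eventually (Ioo_mem_nhds h1 h2)
  filter_upwards [h3] with y' hy'
  have h4 : ⌊(y' + L) / D⌋ = ⌊(y + L) / D⌋ :=
    Int.floor_eq_iff.2 ⟨hy'.1.le, hy'.2⟩
  have h5 : ⌊(y' + L) / D⌋₊ = ⌊(y + L) / D⌋₊ := by
    rw [← Int.floor_toNat, h4, Int.floor_toNat]
  simp only [Lev47.cell, h5]

theorem LC.comp {Z : Type*} [TopologicalSpace Z] {g : Z → Y} {f : X → Z} {x : X}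
    (hg : LC g (f x)) (hf : ContinuousAt f x) : LC (fun x => g (f x)) x :=
  hf.eventually hg

theorem LC.prod {Z : Type*} {g : X → Y} {f : X → Z} {x : X} (hg : LC g x) (hf : LC f x) :
    LC (fun x => (g x, f x)) x := by
  filter_upwards [hg, hf] with x' h1 h2
  rw [h1, h2]

theorem LC.pi {ι : Type*} [Finite ι] {g : ι → X → Y} {x : X} (hg : ∀ i, LC (g i) x) :
    LC (fun x i => g i x) x := by
  filter_upwards [eventually_all.2 hg] with x' h1
  funext i
  exact h1 i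

end lc

section conf

variable {d : ℕ} [NeZero d] {T S : Type} [TopologicalSpace T]

theorem continuous_rs (i : Fin d) :
    Continuous (PortAct.rs i : Fin d × T → Fin d × T) := by
  show Continuous fun x : Fin d × T => (x.1 + i, x.2)
  have h : Continuous fun a : Fin d => a + i := continuous_of_discreteTopology
  exact (h.comp continuous_fst).prodMk continuous_snd

theorem continuous_step (i : Fin d) : Continuous (step i : Conf d (Fin d × T) → _) :=
  continuous_cross.comp (continuous_rotn continuous_rs i)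

theorem lc_label (ζ : Conf d (Fin d × T)) : LC (fun ζ : Conf d (Fin d × T) => (ζ TW.nil).1) ζ := by
  have hc : Continuous fun ζ : Conf d (Fin d × T) => (ζ TW.nil).1 :=
    continuous_fst.comp (continuous_apply _)
  have h1 : {x : Fin d | x = (ζ TW.nil).1} ∈ 𝓝 ((ζ TW.nil).1) := by
    rw [nhds_discrete]; exact rfl
  exact hc.continuousAt.eventually h1

theorem continuousAt_nbr (i : Fin d) (ζ : Conf d (Fin d × T)) :
    ContinuousAt (nbr i : Conf d (Fin d × T) → _) ζ := by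
  have h1 : ContinuousAt (step (i - (ζ TW.nil).1) : Conf d (Fin d × T) → _) ζ :=
    (continuous_step _).continuousAt
  refine h1.congr ?_
  filter_upwards [lc_label ζ] with ζ' hζ'
  unfold nbr
  rw [hζ']

theorem nbr_snd (i : Fin d) (ζ : Conf d (Fin d × T)) (w : TW d) :
    ∃ w', (nbr i ζ w).2 = (ζ w').2 := by
  unfold nbr step cross rotn
  by_cases h : TW.cr w = TW.nil
  · exact ⟨TW.nil, by simp only [h, if_true]; rfl⟩
  · exact ⟨_, by simp only [h, if_false]; rfl⟩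

variable {G : Set (Conf d (Fin d × T))}

theorem lc_nbr_label (i : Fin d) (ζ : Conf d (Fin d × T)) :
    LC (fun ζ : Conf d (Fin d × T) => (nbr i ζ TW.nil).1) ζ :=
  LC.comp (g := fun ζ : Conf d (Fin d × T) => (ζ TW.nil).1) (lc_label (nbr i ζ))
    (continuousAt_nbr i ζ)

theorem lc_cview {g : Conf d (Fin d × T) → S} (hG : ∀ ζ ∈ G, ∀ i, nbr i ζ ∈ G)
    (hg : ∀ ζ ∈ G, LC g ζ) (r : ℕ) : ∀ ζ ∈ G, LC (cview g r) ζ := by
  induction r with
  | zero => exact hg
  | succ r ih =>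
    intro ζ hζ
    refine LC.prod (hg ζ hζ) (LC.pi fun i => LC.prod (lc_nbr_label i ζ) ?_)
    exact LC.comp (ih (nbr i ζ) (hG ζ hζ i)) (continuousAt_nbr i ζ)

theorem lc_cstar {g : Conf d (Fin d × T) → S} (hG : ∀ ζ ∈ G, ∀ i, nbr i ζ ∈ G)
    (hg : ∀ ζ ∈ G, LC g ζ) : ∀ ζ ∈ G, LC (cstar g) ζ := by
  intro ζ hζ
  refine LC.prod (hg ζ hζ) (LC.pi fun i => LC.prod (lc_nbr_label i ζ) ?_)
  exact LC.comp (hg (nbr i ζ) (hG ζ hζ i)) (continuousAt_nbr i ζ)

end conf

/-! ### The colours -/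

section col

variable {d k : ℕ} [NeZero d]

/-- configurations with no coordinate on a threshold -/
def GS (d k : ℕ) [NeZero d] (t : ℝ) (m : ℕ) :
    Set (Conf d (Fin d × ℝ × (Fin k → ℝ) × (Fin k → ℝ))) :=
  {ζ | ∀ w, (∀ z : ℤ, (ζ w).2.1 ≠ z * (2 * (1 / 2) ^ m) - 1) ∧
    ∀ i, ∀ z : ℤ, (ζ w).2.2.1 i + Real.sqrt t * (ζ w).2.2.2 i ≠ z * (1 / 8 : ℝ) ^ m - 2 ^ m}

theorem GS_nbr (t : ℝ) (m : ℕ) :
    ∀ ζ ∈ GS d k t m, ∀ i, nbr i ζ ∈ GS d k t m := by
  intro ζ hζ i w
  obtain ⟨w', hw'⟩ := nbr_snd i ζ w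
  rw [hw']
  exact hζ w'

theorem lc_gcol (t : ℝ) (a m : ℕ) : ∀ ζ ∈ GS d k t m, LC (gcol d k t a m) ζ := by
  intro ζ hζ
  refine LC.prod ?_ (LC.pi fun i => ?_)
  · have e : (fun ζ : Conf d (Fin d × ℝ × (Fin k → ℝ) × (Fin k → ℝ)) =>
        View47.vview a (View47.mapC (fun u : ℝ × (Fin k → ℝ) × (Fin k → ℝ) =>
          Lev47.oq m u.1) ζ)) =
        cview (fun ζ => Lev47.oq m (ζ TW.nil).2.1) a := by
      funext ζ
      exact (PsiBridge397.cview_eq_vview (fun u : ℝ × (Fin k → ℝ) × (Fin k → ℝ) =>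
          Lev47.oq m u.1) a ζ).symm
    rw [e]
    refine lc_cview (GS_nbr t m) (fun ζ hζ => ?_) a ζ hζ
    have h1 : LC (Lev47.oq m) ((ζ TW.nil).2.1) := lc_cell (by positivity) (hζ TW.nil).1
    exact LC.comp (f := fun ζ : Conf d (Fin d × ℝ × (Fin k → ℝ) × (Fin k → ℝ)) =>
      (ζ TW.nil).2.1) h1
      (continuous_fst.comp (continuous_snd.comp (continuous_apply TW.nil))).continuousAt
  · have h1 : LC (Lev47.yq m) ((ζ TW.nil).2.2.1 i + Real.sqrt t * (ζ TW.nil).2.2.2 i) :=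
      lc_cell (by positivity) ((hζ TW.nil).2 i)
    refine LC.comp (f := fun ζ : Conf d (Fin d × ℝ × (Fin k → ℝ) × (Fin k → ℝ)) =>
      (ζ TW.nil).2.2.1 i + Real.sqrt t * (ζ TW.nil).2.2.2 i) h1 ?_
    have h2 : Continuous fun ζ : Conf d (Fin d × ℝ × (Fin k → ℝ) × (Fin k → ℝ)) =>
        (ζ TW.nil).2.2 :=
      continuous_snd.comp (continuous_snd.comp (continuous_apply TW.nil))
    have h3 : Continuous fun ζ : Conf d (Fin d × ℝ × (Fin k → ℝ) × (Fin k → ℝ)) =>
        (ζ TW.nil).2.2.1 i := (continuous_apply i).comp (continuous_fst.comp h2)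
    have h4 : Continuous fun ζ : Conf d (Fin d × ℝ × (Fin k → ℝ) × (Fin k → ℝ)) =>
        (ζ TW.nil).2.2.2 i := (continuous_apply i).comp (continuous_snd.comp h2)
    exact (h3.add (continuous_const.mul h4)).continuousAt

theorem null_GS {t : ℝ} {m : ℕ} {Q : Measure (Conf d (Fin d × ℝ × (Fin k → ℝ) × (Fin k → ℝ)))}
    (h1 : ∀ w (r : ℝ), Q {ζ | (ζ w).2.1 = r} = 0)
    (h2 : ∀ w i (r : ℝ), Q {ζ | (ζ w).2.2.1 i + Real.sqrt t * (ζ w).2.2.2 i = r} = 0) :
    Q (GS d k t m)ᶜ = 0 := by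
  have hsub : (GS d k t m)ᶜ ⊆ ⋃ w : TW d,
      ((⋃ z : ℤ, {ζ : Conf d (Fin d × ℝ × (Fin k → ℝ) × (Fin k → ℝ)) |
          (ζ w).2.1 = z * (2 * (1 / 2) ^ m) - 1}) ∪
        ⋃ i : Fin k, ⋃ z : ℤ, {ζ : Conf d (Fin d × ℝ × (Fin k → ℝ) × (Fin k → ℝ)) |
          (ζ w).2.2.1 i + Real.sqrt t * (ζ w).2.2.2 i = z * (1 / 8 : ℝ) ^ m - 2 ^ m}) := by
    intro ζ hζ
    by_contra hcon
    apply hζ
    intro w
    have h3 : ζ ∉ _ := fun h => hcon (Set.mem_iUnion.2 ⟨w, h⟩)
    refine ⟨fun z hz => h3 (Or.inl (Set.mem_iUnion.2 ⟨z, hz⟩)), fun i z hz =>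
      h3 (Or.inr (Set.mem_iUnion.2 ⟨i, Set.mem_iUnion.2 ⟨z, hz⟩⟩))⟩
  refine measure_mono_null hsub ?_
  refine measure_iUnion_null fun w => measure_union_null ?_ ?_
  · exact measure_iUnion_null fun z => h1 w _
  · exact measure_iUnion_null fun i => measure_iUnion_null fun z => h2 w i _

/-- the level `(a, m)` colour of the configuration of a sample is the colour of the vertex -/
theorem gcol_conf {n : ℕ} {t : ℝ} (a m : ℕ) (x : Seq980.PS d n) (hp : ∀ h, x.1 (x.1 h) = h)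
    (F Z : Fin k → Fin n → ℝ) (h : Fin n × Fin d) :
    gcol d k t a m (conf x.1 (lab (dXZ x F Z)) h) =
      colV a m x (fun i v => F i v + Real.sqrt t * Z i v) h.1 := by
  unfold gcol colV
  refine Prod.ext ?_ ?_
  · show View47.vview a (View47.mapC (fun u : ℝ × (Fin k → ℝ) × (Fin k → ℝ) =>
        Lev47.oq m u.1) (conf (⇑x.1) (lab (dXZ x F Z)) h)) = _
    rw [View47.mapC_conf]
    exact View47.vview_conf (⇑x.1) hp _ a h
  · rfl

/-- the empirical law of the star type = normalised star counts -/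
theorem emp_star {n : ℕ} {t : ℝ} (a m R : ℕ) (x : Seq980.PS d n) (hp : ∀ h, x.1 (x.1 h) = h)
    (F Z : Fin k → Fin n → ℝ) (hn : 0 < n)
    (σ : St (View (Col d k a m) (Fin d) R) d) :
    (emp x.1 (lab (dXZ x F Z))).real {ζ | cstar (cview (gcol d k t a m) R) ζ = σ} =
      (Nat.card {v // Count674.starOf x.1 (viewOf x.1
        (colV a m x (fun i v => F i v + Real.sqrt t * Z i v)) R) v = σ} : ℝ) / n := by
  classical
  set c := viewOf x.1 (colV a m x (fun i v => F i v + Real.sqrt t * Z i v)) R with hc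
  have hst : ∀ h : Fin n × Fin d,
      cstar (cview (gcol d k t a m) R) (conf x.1 (lab (dXZ x F Z)) h) =
        Count674.starOf x.1 c h.1 := by
    intro h
    refine cstar_conf x.1 hp (dXZ x F Z) (cview (gcol d k t a m) R) c (fun h => ?_) h
    exact cview_conf (⇑x.1) hp (dXZ x F Z) (gcol d k t a m) _ (fun h => gcol_conf a m x hp F Z h)
      R h
  have hd : 0 < d := NeZero.pos d
  rw [Measure.real, emp, Measure.smul_apply, Measure.finsetSum_apply]
  have h1 : ∀ v : Fin n, ∀ i : Fin d,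
      (Measure.dirac (conf x.1 (lab (dXZ x F Z)) (v, i)))
        {ζ | cstar (cview (gcol d k t a m) R) ζ = σ} =
      if Count674.starOf x.1 c v = σ then (1 : ENNReal) else 0 := by
    intro v i
    rw [Measure.dirac_apply, Set.indicator_apply]
    have : (conf x.1 (lab (dXZ x F Z)) (v, i) ∈ {ζ | cstar (cview (gcol d k t a m) R) ζ = σ}) ↔
        Count674.starOf x.1 c v = σ := by
      rw [← hst (v, i)]; rfl
    simp only [this, Pi.one_apply]
  have h2 : ∑ h : Fin n × Fin d, (Measure.dirac (conf x.1 (lab (dXZ x F Z)) h))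
        {ζ | cstar (cview (gcol d k t a m) R) ζ = σ} =
      (d : ENNReal) * (Fintype.card {v // Count674.starOf x.1 c v = σ} : ENNReal) := by
    rw [Fintype.sum_prod_type, Fintype.card_subtype]
    simp only [h1, Finset.sum_const, Finset.card_univ, Fintype.card_fin, nsmul_eq_mul]
    rw [← Finset.mul_sum, Finset.sum_boole]
  rw [h2, smul_eq_mul, ENNReal.toReal_mul,
    ENNReal.toReal_inv, ENNReal.toReal_mul, ENNReal.toReal_natCast, ENNReal.toReal_natCast,
    ENNReal.toReal_natCast, Fintype.card_prod, Fintype.card_fin, Fintype.card_fin,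
    Nat.card_eq_fintype_card]
  have hn' : (n : ℝ) ≠ 0 := by positivity
  have hd' : (d : ℝ) ≠ 0 := by positivity
  push_cast
  field_simp

end col

/-- **leaf B4** -/
theorem llnStar : Stmt_LLNStar := by
  intro d k _ S0 s E K' η c t Q hη hc ht hS hQ h1 h2 a m R ε hε
  classical
  obtain ⟨hQp, hQc⟩ := hQ
  have hfr : ∀ σ : St (View (Col d k a m) (Fin d) R) d,
      Q (frontier {ζ | cstar (cview (gcol d k t a m) R) ζ = σ}) = 0 := by
    intro σ
    refine measure_mono_null (frontier_subset_of_lc (G := GS d k t m) ?_ σ) (null_GS h1 h2)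
    exact lc_cstar (GS_nbr t m) (lc_cview (GS_nbr t m) (lc_gcol t a m) R)
  have hpol : HasOuterApproxClosed (Conf d (Fin d × ℝ × (Fin k → ℝ) × (Fin k → ℝ))) := by
    let _ := TopologicalSpace.upgradeIsCompletelyMetrizable
      (Conf d (Fin d × ℝ × (Fin k → ℝ) × (Fin k → ℝ)))
    infer_instance
  obtain ⟨S, δ, hδ, h3⟩ := portmanteau_fin Q
    (fun σ : St (View (Col d k a m) (Fin d) R) d =>
      {ζ | cstar (cview (gcol d k t a m) R) ζ = σ}) hfr hε
  set ε1 : ℝ := min δ (ε / (S.card + 1)) with hε1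
  have hε1p : 0 < ε1 := lt_min hδ (by positivity)
  have hev : ∀ᶠ j in atTop, ∀ φ ∈ S, ∀ x ∈ S0.U j,
      gmP k (S0.n j) {ξ | ε1 < |∫ ζ, φ ζ ∂(emp x.1 (lab (dXZ x (S0.F j x) (ZP s E η c x ξ))))
        - ∫ ζ, φ ζ ∂Q|} ≤ ENNReal.ofReal ε1 := by
    rw [Filter.eventually_all_finset]
    intro φ _
    exact hQc φ φ.continuous ⟨‖φ‖, fun ξ => by
      have := φ.norm_coe_le_norm ξ
      rwa [Real.norm_eq_abs] at this⟩ ε1 hε1p
  have hn0 : ∀ᶠ j in atTop, 0 < S0.n j := Eventually.of_forall S0.pos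
  filter_upwards [hev, hn0] with j hj hnj x hx
  have hsub : {ξ | ∃ σ, ε < |(Nat.card {v // Count674.starOf x.1 (viewOf x.1
        (colV a m x (fun i v => S0.F j x i v + Real.sqrt t * ZP s E η c x ξ i v)) R) v = σ} : ℝ) / S0.n j
        - qstar Q (cview (gcol d k t a m) R) σ|} ⊆
      ⋃ φ ∈ S, {ξ | ε1 < |∫ ζ, φ ζ ∂(emp x.1 (lab (dXZ x (S0.F j x) (ZP s E η c x ξ))))
        - ∫ ζ, φ ζ ∂Q|} := by
    rintro ξ ⟨σ, hσ⟩
    by_contra hcon
    simp only [Set.mem_iUnion, not_exists] at hcon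
    have hne : Nonempty (Fin (S0.n j)) := ⟨⟨0, hnj⟩⟩
    have h4 := h3 (emp x.1 (lab (dXZ x (S0.F j x) (ZP s E η c x ξ)))) inferInstance
      (fun φ hφ => (not_lt.1 (hcon φ hφ)).trans (min_le_left _ _)) σ
    rw [emp_star a m R x (S0.port j x hx).inv (S0.F j x) (ZP s E η c x ξ) hnj σ] at h4
    exact absurd hσ (not_lt.2 h4)
  calc gmP k (S0.n j) _ ≤ gmP k (S0.n j) (⋃ φ ∈ S,
        {ξ | ε1 < |∫ ζ, φ ζ ∂(emp x.1 (lab (dXZ x (S0.F j x) (ZP s E η c x ξ))))
        - ∫ ζ, φ ζ ∂Q|}) := measure_mono hsub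
    _ ≤ ∑ φ ∈ S, gmP k (S0.n j)
        {ξ | ε1 < |∫ ζ, φ ζ ∂(emp x.1 (lab (dXZ x (S0.F j x) (ZP s E η c x ξ))))
        - ∫ ζ, φ ζ ∂Q|} := measure_biUnion_finset_le _ _
    _ ≤ ∑ _φ ∈ S, ENNReal.ofReal ε1 := Finset.sum_le_sum fun φ hφ => hj φ hφ x hx
    _ = ENNReal.ofReal (S.card * ε1) := by
        rw [Finset.sum_const, nsmul_eq_mul, ENNReal.ofReal_mul (by positivity),
          ENNReal.ofReal_natCast]
    _ ≤ ENNReal.ofReal ε := by
        refine ENNReal.ofReal_le_ofReal ?_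
        have h5 : (S.card : ℝ) * ε1 ≤ S.card * (ε / (S.card + 1)) := by
          gcongr; exact min_le_right _ _
        have h6 : (S.card : ℝ) * (ε / (S.card + 1)) ≤ ε := by
          rw [← mul_div_assoc, div_le_iff₀ (by positivity)]
          have : (0 : ℝ) ≤ S.card := by positivity
          nlinarith
        linarith

end Crest.Agent.R166.LLNStar47
end

-- ▼ part R166/Upp_724
section

/-!
# R166, 40.7 (U), part 6: the upper inequality with the exact count of helper674 (helper724)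
-/

set_option autoImplicit false
set_option linter.unusedSectionVars false
set_option linter.unusedSimpArgs false

namespace Crest.Agent.R166.Upp724

open Finset MeasureTheory PairCount356

lemma starOf_eq {V S : Type} {d : ℕ} (p : Equiv.Perm (V × Fin d)) (c : V → S) :
    starOf (⇑p) c = Count674.starOf p c := rfl

lemma clsCard_eq {n d : ℕ} {S : Type} [Fintype S] [DecidableEq S]
    (p0 : Equiv.Perm (Fin n × Fin d)) (c0 : Fin n → S) :
    clsCard p0 c0 = (Count674.cls (Fin n) (Count674.starCnt p0 c0)).card := by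
  classical
  have h1 : ∀ (p : Equiv.Perm (Fin n × Fin d)) (c : Fin n → S),
      c ∈ FF (⇑p) p0 c0 ↔ Count674.starCnt p c = Count674.starCnt p0 c0 := by
    intro p c
    rw [mem_FF, funext_iff]
    refine forall_congr' fun t => ?_
    unfold cnt Count674.starCnt
    rw [starOf_eq, starOf_eq]
    constructor
    · intro h
      convert h using 3
    · intro h
      convert h using 3
  have h2 : Count674.cls (Fin n) (Count674.starCnt p0 c0) =
      (pairings (Fin n × Fin d)).biUnion fun p => (FF (⇑p) p0 c0).image fun c => (p, c) := by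
    ext ⟨p, c⟩
    simp only [Count674.cls, mem_filter, mem_product, mem_univ, and_true, mem_biUnion, mem_image,
      Prod.mk.injEq]
    constructor
    · rintro ⟨hp, hc⟩
      exact ⟨p, hp, c, (h1 p c).2 hc, rfl, rfl⟩
    · rintro ⟨p', hp', c', hc', rfl, rfl⟩
      exact ⟨hp', (h1 _ _).1 hc'⟩
  rw [h2, card_biUnion, clsCard]
  · refine sum_congr rfl fun p _ => ?_
    rw [card_image_of_injective]
    intro c c' h
    exact (Prod.mk.inj h).2
  · intro p _ p' _ hne
    simp only [Function.onFun]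
    rw [disjoint_left]
    rintro ⟨x, c⟩ hx hx'
    rw [mem_image] at hx hx'
    obtain ⟨_, _, h3⟩ := hx
    obtain ⟨_, _, h4⟩ := hx'
    exact hne ((Prod.mk.inj h3).1.trans (Prod.mk.inj h4).1.symm)

/-- the ellipsoid volume in the form used here (from helper547's `ellipsoid_vol_le`) -/
theorem ellVol {n d k : ℕ} (p : Fin n × Fin d → Fin n × Fin d) (hp : ∀ x, p (p x) = x)
    (s E η c : ℝ) (hη : 0 < η) (hc : 0 < c) (ω : Fin n → ℝ) (q : ℝ) (hq : 0 < q) :
    EllVol k p hp s E η c ω q := by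
  unfold EllVol
  set hH := Hp_isHermitian p hp s ω with hHdef
  have hg : ∀ i, 0 < Noise547.geta E η c (hH.eigenvalues i) := fun i => Noise547.geta_pos hη hc _
  have hcη : 0 < c * η := mul_pos hc hη
  have hvol := Noise547.ellipsoid_vol_le hH hg hq k
  have hquad : ∀ y : Fin n → Fin k → ℝ, ∑ v, Qs k p s E η ω y v =
      c * η * ∑ κ, ∑ x, ∑ z, y x κ * Noise547.fM hH (fun t => (Noise547.geta E η c t)⁻¹) x z *
        y z κ := by
    intro y
    rw [sum_Qs, mul_sum]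
    refine sum_congr rfl fun κ _ => ?_
    have h1 := Noise547.geta_inv_quad hH (E := E) hη hc (fun v => y v κ)
    rw [h1, ← mul_assoc, mul_inv_cancel₀ hcη.ne', one_mul]
    rfl
  have hmeas : MeasurableSet {x : Fin n × Fin k → ℝ |
      ∑ v, Qs k p s E η ω (fun v κ => x (v, κ)) v ≤ c * η * (Fintype.card (Fin n) * k * q)} := by
    refine measurableSet_le ?_ measurable_const
    unfold Qs
    fun_prop
  rw [← Noise547.uncurry_volume, Measure.map_apply (by fun_prop) hmeas]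
  have hset : ((fun (y : Fin n → Fin k → ℝ) (p : Fin n × Fin k) => y p.1 p.2) ⁻¹'
      {x : Fin n × Fin k → ℝ | ∑ v, Qs k p s E η ω (fun v κ => x (v, κ)) v ≤
        c * η * (Fintype.card (Fin n) * k * q)}) = {y : Fin n → Fin k → ℝ |
        ∑ κ, ∑ x, ∑ z, y x κ * Noise547.fM hH (fun t => (Noise547.geta E η c t)⁻¹) x z * y z κ ≤
          (Fintype.card (Fin n) * k : ℝ) * q} := by
    ext y
    simp only [Set.mem_preimage, Set.mem_ofPred_eq]
    rw [hquad y]
    exact mul_le_mul_iff_right₀ hcη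
  rw [hset]
  refine hvol.trans (ENNReal.ofReal_le_ofReal (Real.exp_le_exp.2 (le_of_eq ?_)))
  unfold logdet
  ring

/-- (U) = section 40.7: the upper inequality; the radius `a0` does not depend on the cells. -/
theorem upper_unif (d k : ℕ) (W : ℝ) (hW0 : 0 ≤ W) (s E η c : ℝ) (hη : 0 < η) (hc : 0 < c)
    (ε : ℝ) (hε : 0 < ε) :
    ∃ a0 : ℕ, ∀ (M : ℕ) (A : Type) [Fintype A] (w : A → ℝ) (_ : ∀ x, |w x| ≤ W)
      (L D : ℝ) (_ : 0 < D) (qmin : ℝ) (_ : 0 < qmin),
      ∀ a ≥ a0, ∃ ε' : ℝ, 0 < ε' ∧ ∃ N : ℕ, ∀ n ≥ N,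
      ∀ (p0 : Equiv.Perm (Fin n × Fin d)) (hp0 : IsPairing p0),
      (nBad a ⇑p0 : ℝ) ≤ ε' * n → ∀ (o : Fin n → A) (y : Fin n → Fin k → Fin M) (q : ℝ),
      qmin ≤ q →
      (1 + D) * ∑ v, Qs k ⇑p0 s E η (w ∘ o) (fun v κ => lo L D (y v κ)) v +
        n * (k * errQ d E s W η D) ≤ c * η * (n * k * q) →
      Count674.Psi n (Count674.starCnt p0 (fun v => ((viewOf (⇑p0) o a v, y v) :
          View A (Fin d) a × (Fin k → Fin M)))) ≤
      Real.log (Fintype.card A) - k * Real.log D +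
        k / 2 * Real.log (2 * Real.pi * Real.exp 1 * q) +
        k / 2 * (logdet (Hp_isHermitian ⇑p0 hp0.1 s (w ∘ o)) E η c / n) + ε := by
  obtain ⟨a0, h0⟩ := upper_unif_of d k W hW0 s E η c hη hc ε hε
    fun _ p hp ω q _ hq => ellVol p hp s E η c hη hc ω q hq
  refine ⟨a0, fun M A _ w hW L D hD qmin hqmin a ha => ?_⟩
  obtain ⟨ε', hε', h1⟩ := h0 M A w hW L D hD qmin hqmin a ha
  refine ⟨ε', hε', ?_⟩
  obtain ⟨N, hN⟩ := h1 (Count674.cC (View A (Fin d) a × (Fin k → Fin M)) d)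
  refine ⟨max N 1, fun n hn p0 hp0 hbad o y q hq hQ => ?_⟩
  have hn1 : 1 ≤ n := (le_max_right _ _).trans hn
  refine hN n ((le_max_left _ _).trans hn) p0 hp0 hbad o y q hq hQ _ ?_
  rw [clsCard_eq]
  have h2 := Count674.card_cls_ge (V := Fin n) (Count674.starCnt p0
    (fun v => ((viewOf (⇑p0) o a v, y v) : View A (Fin d) a × (Fin k → Fin M))))
    (by simpa using hn1) ⟨(p0, _), by
      simp only [Count674.cls, mem_filter, mem_product, mem_univ, and_true]
      exact ⟨(mem_pairings p0).2 hp0, rfl⟩⟩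
  simpa using h2

/-- (U) = section 40.7: the upper inequality. -/
theorem upper {d k M : ℕ} {A : Type} [Fintype A] (w : A → ℝ) (W : ℝ) (hW : ∀ x, |w x| ≤ W)
    (hW0 : 0 ≤ W) (s E η c : ℝ) (hη : 0 < η) (hc : 0 < c) (L D : ℝ) (hD : 0 < D)
    (qmin : ℝ) (hqmin : 0 < qmin) (ε : ℝ) (hε : 0 < ε) :
    ∃ a0 : ℕ, ∀ a ≥ a0, ∃ ε' : ℝ, 0 < ε' ∧ ∃ N : ℕ, ∀ n ≥ N,
      ∀ (p0 : Equiv.Perm (Fin n × Fin d)) (hp0 : IsPairing p0),
      (nBad a ⇑p0 : ℝ) ≤ ε' * n → ∀ (o : Fin n → A) (y : Fin n → Fin k → Fin M) (q : ℝ),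
      qmin ≤ q →
      (1 + D) * ∑ v, Qs k ⇑p0 s E η (w ∘ o) (fun v κ => lo L D (y v κ)) v +
        n * (k * errQ d E s W η D) ≤ c * η * (n * k * q) →
      Count674.Psi n (Count674.starCnt p0 (fun v => ((viewOf (⇑p0) o a v, y v) :
          View A (Fin d) a × (Fin k → Fin M)))) ≤
      Real.log (Fintype.card A) - k * Real.log D +
        k / 2 * Real.log (2 * Real.pi * Real.exp 1 * q) +
        k / 2 * (logdet (Hp_isHermitian ⇑p0 hp0.1 s (w ∘ o)) E η c / n) + ε := by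
  obtain ⟨a0, h⟩ := upper_unif d k W hW0 s E η c hη hc ε hε
  exact ⟨a0, h M A w hW L D hD qmin hqmin⟩

end Crest.Agent.R166.Upp724
end

-- ▼ part R166/UppDet_724
section

/-!
# R166, 40.7 (U) -> limit, part 1: the deterministic core (helper724)
-/

set_option autoImplicit false
set_option linter.unusedSectionVars false
set_option linter.unusedSimpArgs false

namespace Crest.Agent.R166.Upp724

open Finset MeasureTheory PairCount356

/-! ### Comparison of log-determinants for two diagonals -/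

section trace
variable {V : Type} [Fintype V] [DecidableEq V]

/-- maximal absolute row sum -/
def RowLe (M : Matrix V V ℝ) (R : ℝ) : Prop := ∀ x, ∑ y, |M x y| ≤ R

lemma RowLe.mul {M N : Matrix V V ℝ} {R S : ℝ} (hM : RowLe M R) (hN : RowLe N S) (hS : 0 ≤ S) :
    RowLe (M * N) (R * S) := by
  intro x
  calc ∑ y, |(M * N) x y| ≤ ∑ y, ∑ z, |M x z| * |N z y| := by
        refine sum_le_sum fun y _ => ?_
        rw [Matrix.mul_apply]
        refine (abs_sum_le_sum_abs _ _).trans (sum_le_sum fun z _ => ?_)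
        rw [abs_mul]
    _ = ∑ z, |M x z| * ∑ y, |N z y| := by
        rw [sum_comm]
        exact sum_congr rfl fun z _ => by rw [mul_sum]
    _ ≤ ∑ z, |M x z| * S := by
        refine sum_le_sum fun z _ => ?_
        exact mul_le_mul_of_nonneg_left (hN z) (abs_nonneg _)
    _ ≤ R * S := by
        rw [← sum_mul]
        exact mul_le_mul_of_nonneg_right (hM x) hS

lemma RowLe.add {M N : Matrix V V ℝ} {R S : ℝ} (hM : RowLe M R) (hN : RowLe N S) :
    RowLe (M + N) (R + S) := by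
  intro x
  calc ∑ y, |(M + N) x y| ≤ ∑ y, (|M x y| + |N x y|) :=
        sum_le_sum fun y _ => abs_add_le _ _
    _ ≤ R + S := by rw [sum_add_distrib]; exact add_le_add (hM x) (hN x)

lemma RowLe.mono {M : Matrix V V ℝ} {R S : ℝ} (hM : RowLe M R) (h : R ≤ S) : RowLe M S :=
  fun x => (hM x).trans h

lemma rowLe_one : RowLe (1 : Matrix V V ℝ) 1 := by
  intro x
  rw [sum_eq_single x]
  · simp
  · intro y _ hy
    rw [Matrix.one_apply_ne (Ne.symm hy), abs_zero]
  · simp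

lemma RowLe.pow {M : Matrix V V ℝ} {R : ℝ} (hM : RowLe M R) (hR : 0 ≤ R) (j : ℕ) :
    RowLe (M ^ j) (R ^ j) := by
  induction j with
  | zero => simpa using rowLe_one
  | succ j ih =>
    rw [pow_succ, pow_succ]
    exact ih.mul hM hR

lemma RowLe.pow_sub {M N : Matrix V V ℝ} {R δ : ℝ} (hM : RowLe M R) (hN : RowLe N R)
    (hR : 0 ≤ R) (hδ : 0 ≤ δ) (h : RowLe (M - N) δ) (j : ℕ) :
    RowLe (M ^ j - N ^ j) (j * (R + 1) ^ j * δ) := by
  induction j with
  | zero =>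
    intro x
    simp
  | succ j ih =>
    have e : M ^ (j + 1) - N ^ (j + 1) = (M ^ j - N ^ j) * M + N ^ j * (M - N) := by
      rw [pow_succ, pow_succ]
      noncomm_ring
    rw [e]
    refine ((ih.mul hM hR).add ((hN.pow hR j).mul h hδ)).mono ?_
    push_cast
    have h1 : R ^ j ≤ (R + 1) ^ j := pow_le_pow_left₀ hR (by linarith) _
    have h2 : 0 ≤ (R + 1) ^ j * δ := by positivity
    have h3 : R ^ j * δ ≤ (R + 1) ^ j * δ := mul_le_mul_of_nonneg_right h1 hδ
    have h4 : (R + 1) ^ j * δ ≤ (R + 1) * ((R + 1) ^ j * δ) := by nlinarith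
    have h5 : (j : ℝ) * (R + 1) ^ j * δ * R ≤ (j : ℝ) * ((R + 1) * ((R + 1) ^ j * δ)) := by
      have : (0 : ℝ) ≤ j := by positivity
      nlinarith [mul_nonneg this h2]
    calc (j : ℝ) * (R + 1) ^ j * δ * R + R ^ j * δ ≤
        (j : ℝ) * ((R + 1) * ((R + 1) ^ j * δ)) + (R + 1) * ((R + 1) ^ j * δ) := by linarith
      _ = _ := by ring

lemma RowLe.trace {M : Matrix V V ℝ} {R : ℝ} (hM : RowLe M R) :
    |M.trace| ≤ Fintype.card V * R := by
  calc |M.trace| ≤ ∑ x, |M x x| := abs_sum_le_sum_abs _ _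
    _ ≤ ∑ _x : V, R := by
        refine sum_le_sum fun x _ => ?_
        exact (single_le_sum (f := fun y => |M x y|) (fun y _ => abs_nonneg _)
          (mem_univ x)).trans (hM x)
    _ = Fintype.card V * R := by rw [sum_const, card_univ, nsmul_eq_mul]

/-- constant in the trace comparison -/
noncomputable def cP (P : Polynomial ℝ) (R : ℝ) : ℝ :=
  ∑ j ∈ P.support, |P.coeff j| * (j * (R + 1) ^ j)

lemma trace_aeval_sub {M N : Matrix V V ℝ} {R δ : ℝ} (hM : RowLe M R) (hN : RowLe N R)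
    (hR : 0 ≤ R) (hδ : 0 ≤ δ) (h : RowLe (M - N) δ) (P : Polynomial ℝ) :
    |(Polynomial.aeval M P).trace - (Polynomial.aeval N P).trace| ≤
      Fintype.card V * (cP P R * δ) := by
  have e : ∀ M : Matrix V V ℝ, (Polynomial.aeval M P).trace =
      ∑ j ∈ P.support, P.coeff j * (M ^ j).trace := by
    intro M
    rw [Polynomial.aeval_eq_sum_range' (lt_add_one _), Matrix.trace_sum]
    rw [← Finset.sum_subset (Polynomial.supp_subset_range_natDegree_succ (p := P))]
    · exact sum_congr rfl fun j _ => by rw [Matrix.trace_smul, smul_eq_mul]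
    · intro j _ hj
      rw [Polynomial.notMem_support_iff.1 hj]
      simp
  rw [e, e, ← sum_sub_distrib]
  refine (abs_sum_le_sum_abs _ _).trans ?_
  rw [cP, sum_mul, mul_sum]
  refine sum_le_sum fun j _ => ?_
  rw [← mul_sub, abs_mul, ← Matrix.trace_sub]
  calc |P.coeff j| * |(M ^ j - N ^ j).trace| ≤
      |P.coeff j| * (Fintype.card V * (j * (R + 1) ^ j * δ)) :=
        mul_le_mul_of_nonneg_left ((hM.pow_sub hN hR hδ h j).trace) (abs_nonneg _)
    _ = _ := by ring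

end trace

section
variable {V I : Type} [Fintype V] [DecidableEq V] [Fintype I] [DecidableEq I]

lemma rowLe_Hp (p : V × I → V × I) (s : ℝ) {ω : V → ℝ} (hω : ∀ v, |ω v| ≤ 1) :
    RowLe (Hp p s ω) (Fintype.card I + |s|) := by
  intro v
  have h1 : ∀ w, |Hp p s ω v w| ≤ (∑ i, if (p (v, i)).1 = w then (1 : ℝ) else 0) +
      if v = w then |s| else 0 := by
    intro w
    rw [Hp, Matrix.add_apply, Matrix.smul_apply, adjP, smul_eq_mul]
    refine (abs_add_le _ _).trans (add_le_add (le_of_eq (abs_of_nonneg ?_)) ?_)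
    · exact sum_nonneg fun i _ => by split_ifs <;> norm_num
    · by_cases h : v = w
      · subst h
        rw [Matrix.diagonal_apply_eq, if_pos rfl, abs_mul]
        exact mul_le_of_le_one_right (abs_nonneg _) (hω v)
      · rw [Matrix.diagonal_apply_ne _ h, if_neg h]
        simp
  refine (sum_le_sum fun w _ => h1 w).trans (le_of_eq ?_)
  rw [sum_add_distrib, sum_comm]
  simp

lemma rowLe_Hp_sub (p : V × I → V × I) (s : ℝ) {ω ω' : V → ℝ} {δ : ℝ}
    (h : ∀ v, |ω v - ω' v| ≤ δ) :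
    RowLe (Hp p s ω - Hp p s ω') (|s| * δ) := by
  intro v
  rw [sum_eq_single v]
  · simp only [Hp, Matrix.sub_apply, Matrix.add_apply, Matrix.smul_apply, smul_eq_mul,
      Matrix.diagonal_apply_eq]
    have e : adjP p v v + s * ω v - (adjP p v v + s * ω' v) = s * (ω v - ω' v) := by ring
    rw [e, abs_mul]
    exact mul_le_mul_of_nonneg_left (h v) (abs_nonneg _)
  · intro w _ hw
    simp only [Hp, Matrix.sub_apply, Matrix.add_apply, Matrix.smul_apply, smul_eq_mul,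
      Matrix.diagonal_apply_ne _ (Ne.symm hw)]
    simp
  · simp

end

/-- the log-determinant is continuous in the potential, uniformly in the graph -/
theorem logdet_cont (d : ℕ) (s E η c : ℝ) (hη : 0 < η) (hc : 0 < c) (ε : ℝ) (hε : 0 < ε) :
    ∃ δ : ℝ, 0 < δ ∧ ∀ (n : ℕ) (p : Fin n × Fin d → Fin n × Fin d) (hp : ∀ x, p (p x) = x)
      (ω ω' : Fin n → ℝ), (∀ v, |ω v| ≤ 1) → (∀ v, |ω' v| ≤ 1) → (∀ v, |ω v - ω' v| ≤ δ) →
      |logdet (Hp_isHermitian p hp s ω) E η c - logdet (Hp_isHermitian p hp s ω') E η c| ≤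
        ε * n := by
  set f : ℝ → ℝ := fun x => Real.log (Noise547.geta E η c x) with hf
  have hfc : Continuous f := (Noise547.continuous_geta hη).log fun x =>
    (Noise547.geta_pos hη hc x).ne'
  set R : ℝ := d + |s| with hR
  have hR0 : 0 ≤ R := by positivity
  obtain ⟨P, hP⟩ := Noise547.exists_poly hfc R (ε := ε / 3) (by positivity)
  have hcP : 0 ≤ cP P R := sum_nonneg fun j _ => by positivity
  refine ⟨ε / 3 / (cP P R * |s| + 1), by positivity, fun n p hp ω ω' hω hω' hδ => ?_⟩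
  rcases Nat.eq_zero_or_pos n with hn | hn
  · subst hn
    simp [logdet]
  have : Nonempty (Fin n) := ⟨⟨0, hn⟩⟩
  have hn' : (0 : ℝ) < n := by exact_mod_cast hn
  have key : ∀ ω : Fin n → ℝ, (∀ v, |ω v| ≤ 1) →
      |logdet (Hp_isHermitian p hp s ω) E η c - (Polynomial.aeval (Hp p s ω) P).trace| ≤
        ε / 3 * n := by
    intro ω hω
    have h1 := Noise547.logdet_poly (Hp_isHermitian p hp s ω) (f := f) P (ε := ε / 3) (by
      intro i
      refine hP _ (Noise547.eig_abs_le (Hp_isHermitian p hp s ω) (L := R) ?_ i)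
      intro x
      have := rowLe_Hp p s hω x
      simpa using this)
    rw [← sub_div, abs_div, Fintype.card_fin, abs_of_pos hn', div_le_iff₀ hn'] at h1
    exact h1
  have h2 := trace_aeval_sub (R := R) (δ := |s| * (ε / 3 / (cP P R * |s| + 1)))
    (by simpa using rowLe_Hp p s hω) (by simpa using rowLe_Hp p s hω')
    hR0 (by positivity) (rowLe_Hp_sub p s hδ) P
  have h3 : cP P R * (|s| * (ε / 3 / (cP P R * |s| + 1))) ≤ ε / 3 := by
    have h5 : (0 : ℝ) < cP P R * |s| + 1 := by positivity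
    calc cP P R * (|s| * (ε / 3 / (cP P R * |s| + 1))) =
        (ε / 3) * ((cP P R * |s|) / (cP P R * |s| + 1)) := by ring
      _ ≤ (ε / 3) * 1 := by
        refine mul_le_mul_of_nonneg_left ?_ (by positivity)
        rw [div_le_one h5]
        linarith
      _ = ε / 3 := mul_one _
  have h4 := key ω hω
  have h5 := key ω' hω'
  rw [Fintype.card_fin] at h2
  have h6 : (n : ℝ) * (cP P R * (|s| * (ε / 3 / (cP P R * |s| + 1)))) ≤ n * (ε / 3) :=
    mul_le_mul_of_nonneg_left h3 hn'.le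
  rw [abs_le] at h2 h4 h5 ⊢
  constructor <;> nlinarith [h2.1, h2.2, h4.1, h4.2, h5.1, h5.2]

/-! ### Comparison of the quadratic forms -/

lemma sum_move {V I : Type} [Fintype V] [Fintype I] (p : Equiv.Perm (V × I)) (f : V → ℝ) :
    ∑ v, ∑ i, f (p (v, i)).1 = Fintype.card I * ∑ v, f v := by
  have h1 : ∑ v, ∑ i, f (p (v, i)).1 = ∑ x : V × I, f (p x).1 := by
    rw [Fintype.sum_prod_type]
  rw [h1, Equiv.sum_comp p (fun x => f x.1), Fintype.sum_prod_type, mul_sum]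
  exact sum_congr rfl fun v _ => by simp only [sum_const, card_univ, nsmul_eq_mul]

lemma sum_b1_sq {V I : Type} [Fintype V] [Fintype I] (p : Equiv.Perm (V × I)) (s E : ℝ)
    (ω : V → ℝ) (hω : ∀ v, |ω v| ≤ 1) (e : V → ℝ) :
    ∑ v, (∑ i, e (p (v, i)).1 - (E - s * ω v) * e v) ^ 2 ≤
      2 * ((Fintype.card I : ℝ) ^ 2 + (|E| + |s|) ^ 2) * ∑ v, e v ^ 2 := by
  have h1 : ∀ v, (∑ i, e (p (v, i)).1 - (E - s * ω v) * e v) ^ 2 ≤
      2 * (Fintype.card I * ∑ i, (fun u => e u ^ 2) (p (v, i)).1) +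
        2 * ((|E| + |s|) ^ 2 * e v ^ 2) := by
    intro v
    have h2 : (∑ i, e (p (v, i)).1) ^ 2 ≤ Fintype.card I * ∑ i, e (p (v, i)).1 ^ 2 := by
      have := sq_sum_le_card_mul_sum_sq (s := (univ : Finset I)) (f := fun i => e (p (v, i)).1)
      simpa using this
    have h3 : |E - s * ω v| ≤ |E| + |s| := by
      refine (abs_sub _ _).trans (add_le_add le_rfl ?_)
      rw [abs_mul]
      exact mul_le_of_le_one_right (abs_nonneg _) (hω v)
    have h4 : ((E - s * ω v) * e v) ^ 2 ≤ (|E| + |s|) ^ 2 * e v ^ 2 := by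
      rw [mul_pow]
      refine mul_le_mul_of_nonneg_right ?_ (sq_nonneg _)
      rw [← sq_abs]
      exact pow_le_pow_left₀ (abs_nonneg _) h3 2
    nlinarith [sq_nonneg (∑ i, e (p (v, i)).1 + (E - s * ω v) * e v)]
  refine (sum_le_sum fun v _ => h1 v).trans (le_of_eq ?_)
  rw [sum_add_distrib, ← mul_sum, ← mul_sum, ← mul_sum, ← mul_sum, sum_move p (fun u => e u ^ 2)]
  ring

lemma Qs_cells {V I : Type} [Fintype V] [DecidableEq V] [Fintype I] [DecidableEq I] (k : ℕ)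
    (p : Equiv.Perm (V × I)) (s E η : ℝ)
    (ω ω' : V → ℝ) (hω' : ∀ v, |ω' v| ≤ 1) {δ : ℝ} (hδ : 0 ≤ δ) (h : ∀ v, |ω' v - ω v| ≤ δ)
    (x x' : V → Fin k → ℝ) {τ : ℝ} (hτ : 0 < τ) :
    ∑ v, Qs k p s E η ω' x' v ≤ (1 + τ) * ∑ v, Qs k p s E η ω x v +
      (1 + 1 / τ) * ((4 * ((Fintype.card I : ℝ) ^ 2 + (|E| + |s|) ^ 2) + η ^ 2) *
        ∑ κ, ∑ v, (x' v κ - x v κ) ^ 2 + 2 * s ^ 2 * δ ^ 2 * ∑ κ, ∑ v, x v κ ^ 2) := by
  have hy : ∀ a b : ℝ, (a + b) ^ 2 ≤ (1 + τ) * a ^ 2 + (1 + 1 / τ) * b ^ 2 := by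
    intro a b
    have h1 : 0 ≤ (τ * a - b) ^ 2 / τ := by positivity
    have h2 : (τ * a - b) ^ 2 / τ = τ * a ^ 2 - 2 * a * b + 1 / τ * b ^ 2 := by
      field_simp
      try ring
    nlinarith
  unfold Qs
  rw [sum_comm, sum_comm (f := fun v κ => ((∑ i, x (p (v, i)).1 κ - (E - s * ω v) * x v κ) ^ 2 +
    η ^ 2 * (x v κ) ^ 2))]
  have hκ : ∀ κ, ∑ v, ((∑ i, x' (p (v, i)).1 κ - (E - s * ω' v) * x' v κ) ^ 2 +
      η ^ 2 * (x' v κ) ^ 2) ≤
      (1 + τ) * ∑ v, ((∑ i, x (p (v, i)).1 κ - (E - s * ω v) * x v κ) ^ 2 +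
        η ^ 2 * (x v κ) ^ 2) +
      (1 + 1 / τ) * ((4 * ((Fintype.card I : ℝ) ^ 2 + (|E| + |s|) ^ 2) + η ^ 2) *
        ∑ v, (x' v κ - x v κ) ^ 2 + 2 * s ^ 2 * δ ^ 2 * ∑ v, x v κ ^ 2) := by
    intro κ
    have h1 : ∀ v, (∑ i, x' (p (v, i)).1 κ - (E - s * ω' v) * x' v κ) ^ 2 +
        η ^ 2 * (x' v κ) ^ 2 ≤
        (1 + τ) * ((∑ i, x (p (v, i)).1 κ - (E - s * ω v) * x v κ) ^ 2 +
          η ^ 2 * (x v κ) ^ 2) +
        (1 + 1 / τ) * (2 * (∑ i, (fun u => x' u κ - x u κ) (p (v, i)).1 -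
          (E - s * ω' v) * (fun u => x' u κ - x u κ) v) ^ 2 +
          η ^ 2 * (x' v κ - x v κ) ^ 2 + 2 * s ^ 2 * δ ^ 2 * x v κ ^ 2) := by
      intro v
      have e1 : ∑ i, x' (p (v, i)).1 κ - (E - s * ω' v) * x' v κ =
          (∑ i, x (p (v, i)).1 κ - (E - s * ω v) * x v κ) +
          ((∑ i, (fun u => x' u κ - x u κ) (p (v, i)).1 -
          (E - s * ω' v) * (fun u => x' u κ - x u κ) v) + s * (ω' v - ω v) * x v κ) := by
        simp only [sum_sub_distrib]
        ring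
      have e2 : x' v κ = x v κ + (x' v κ - x v κ) := by ring
      set a := ∑ i, x (p (v, i)).1 κ - (E - s * ω v) * x v κ
      set b := ∑ i, (fun u => x' u κ - x u κ) (p (v, i)).1 -
          (E - s * ω' v) * (fun u => x' u κ - x u κ) v
      have h2 := hy a (b + s * (ω' v - ω v) * x v κ)
      have h3 := hy (x v κ) (x' v κ - x v κ)
      rw [← e2] at h3
      have h4 : (b + s * (ω' v - ω v) * x v κ) ^ 2 ≤ 2 * b ^ 2 + 2 * s ^ 2 * δ ^ 2 * x v κ ^ 2 := by
        have h5 : (s * (ω' v - ω v) * x v κ) ^ 2 ≤ s ^ 2 * δ ^ 2 * x v κ ^ 2 := by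
          rw [mul_pow, mul_pow]
          refine mul_le_mul_of_nonneg_right (mul_le_mul_of_nonneg_left ?_ (sq_nonneg _))
            (sq_nonneg _)
          rw [← sq_abs]
          exact pow_le_pow_left₀ (abs_nonneg _) (h v) 2
        nlinarith [sq_nonneg (b - s * (ω' v - ω v) * x v κ)]
      rw [e1]
      have h6 : (1 + 1 / τ) * (b + s * (ω' v - ω v) * x v κ) ^ 2 ≤
          (1 + 1 / τ) * (2 * b ^ 2 + 2 * s ^ 2 * δ ^ 2 * x v κ ^ 2) :=
        mul_le_mul_of_nonneg_left h4 (by positivity)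
      have h7 := mul_le_mul_of_nonneg_left h3 (sq_nonneg η)
      nlinarith
    refine (sum_le_sum fun v _ => h1 v).trans ?_
    simp only [sum_add_distrib, ← mul_sum]
    have h2 := sum_b1_sq p s E ω' hω' (fun u => x' u κ - x u κ)
    have h3 : (0 : ℝ) ≤ 1 + 1 / τ := by positivity
    refine add_le_add le_rfl (mul_le_mul_of_nonneg_left ?_ h3)
    have h4 : ∑ v, (fun u => x' u κ - x u κ) v ^ 2 = ∑ v, (x' v κ - x v κ) ^ 2 := rfl
    rw [h4] at h2
    nlinarith
  refine (sum_le_sum fun κ _ => hκ κ).trans (le_of_eq ?_)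
  rw [sum_add_distrib, ← mul_sum, ← mul_sum, sum_add_distrib, ← mul_sum, ← mul_sum]

lemma sum_sq_le_Qs {V I : Type} [Fintype V] [DecidableEq V] [Fintype I] [DecidableEq I] (k : ℕ)
    (p : V × I → V × I) (s E η : ℝ) (ω : V → ℝ) (x : V → Fin k → ℝ) :
    η ^ 2 * ∑ κ, ∑ v, x v κ ^ 2 ≤ ∑ v, Qs k p s E η ω x v := by
  rw [sum_comm, mul_sum]
  refine sum_le_sum fun v _ => ?_
  rw [Qs, mul_sum]
  refine sum_le_sum fun κ _ => ?_
  nlinarith [sq_nonneg (∑ i, x (p (v, i)).1 κ - (E - s * ω v) * x v κ)]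

open Lev47 in
lemma cell_err {L D : ℝ} (hD : 0 < D) (hL : D ≤ L) {M : ℕ} [NeZero M] (hM : D * M = 2 * L)
    (x : ℝ) : (lo L D (cell L D M x) - x) ^ 2 ≤ D ^ 2 + 9 * (if L < |x| then x ^ 2 else 0) := by
  split_ifs with h
  · have h1 := abs_lo_cell_le hD (hD.le.trans hL) hM x
    have h2 : |lo L D (cell L D M x) - x| ≤ 3 * |x| := by
      refine (abs_sub _ _).trans ?_
      linarith
    have h3 := pow_le_pow_left₀ (abs_nonneg _) h2 2
    rw [sq_abs, mul_pow, sq_abs] at h3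
    nlinarith [sq_nonneg D]
  · have h' := abs_le.1 (not_lt.1 h)
    have h1 := abs_lo_sub hD (M := M) h'.1 (by linarith)
    have h3 := pow_le_pow_left₀ (abs_nonneg _) h1 2
    rw [sq_abs] at h3
    linarith

/-- the deterministic core of (U) -> limit -/
theorem upp_core (d k : ℕ) (s E η c : ℝ) (hη : 0 < η) (hc : 0 < c) (q : ℝ) (hq : 0 < q) (ε : ℝ)
    (hε : 0 < ε) :
    ∃ δ : ℝ, 0 < δ ∧ ∃ a0 : ℕ, ∀ (A : Type) [Fintype A] (w : A → ℝ) (_ : ∀ x, |w x| ≤ 1)
      (qo : ℝ → A) (_ : ∀ x, |x| ≤ 1 → |w (qo x) - x| ≤ δ) (L D : ℝ) (M : ℕ) [NeZero M]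
      (_ : 0 < D) (_ : D ≤ δ) (_ : D ≤ L) (_ : D * M = 2 * L),
      ∀ a ≥ a0, ∃ ε' : ℝ, 0 < ε' ∧ ∃ N : ℕ, ∀ n ≥ N,
      ∀ (p0 : Equiv.Perm (Fin n × Fin d)) (hp0 : IsPairing p0),
      (nBad a ⇑p0 : ℝ) ≤ ε' * n → ∀ (ω : Fin n → ℝ) (_ : ∀ v, |ω v| ≤ 1)
        (Y : Fin n → Fin k → ℝ),
      ∑ v, Qs k ⇑p0 s E η ω Y v ≤ c * η * (n * k * (q + δ)) →
      ∑ κ, ∑ v, (if L < |Y v κ| then Y v κ ^ 2 else 0) ≤ δ * (n * k) →
      Count674.Psi n (Count674.starCnt p0 (fun v => ((viewOf (⇑p0) (fun u => qo (ω u)) a v,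
          fun κ => Lev47.cell L D M (Y v κ)) : View A (Fin d) a × (Fin k → Fin M)))) ≤
      Real.log (Fintype.card A) - k * Real.log D +
        k / 2 * Real.log (2 * Real.pi * Real.exp 1 * q) +
        k / 2 * (logdet (Hp_isHermitian ⇑p0 hp0.1 s ω) E η c / n) + ε := by
  -- the tolerance in `q`
  set ε2 : ℝ := 2 * ε / (3 * (k + 1)) with hε2
  have hε2p : 0 < ε2 := by positivity
  have hk2 : (k : ℝ) / 2 * ε2 ≤ ε / 3 := by
    rw [hε2]
    have h1 : (0 : ℝ) < k + 1 := by positivity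
    rw [div_mul_div_comm, div_le_div_iff₀ (by positivity) (by norm_num)]
    nlinarith
  obtain ⟨δ1, hδ1, hld⟩ := logdet_cont d s E η c hη hc (2 * ε / (3 * (k + 1))) hε2p
  -- the polynomial
  set K1 : ℝ := 4 * ((d : ℝ) ^ 2 + (|E| + |s|) ^ 2) + η ^ 2 with hK1
  set φ : ℝ → ℝ := fun τ => (1 + τ ^ 2) * ((1 + τ) * (c * η * (q + τ ^ 2)) +
    (τ + τ ^ 2) * (K1 * (τ ^ 2 + 9) + 2 * s ^ 2 * τ ^ 2 * (c * (q + τ ^ 2) / η))) +
    τ ^ 2 * (1 + τ ^ 2) * (((d : ℝ) + |E| + |s| * 1) ^ 2 + η ^ 2) with hφ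
  have hφc : Continuous φ := by rw [hφ]; fun_prop
  have hφ0 : φ 0 < c * η * (q * (1 + ε2)) := by
    have : φ 0 = c * η * q := by rw [hφ]; simp
    rw [this]
    have h1 : 0 < c * η * q := by positivity
    nlinarith [mul_pos h1 hε2p]
  obtain ⟨τ, hτ0, hτ⟩ : ∃ τ : ℝ, (0 < τ ∧ τ ^ 2 ≤ δ1) ∧ φ τ < c * η * (q * (1 + ε2)) := by
    have h1 : ∀ᶠ τ in nhdsWithin (0 : ℝ) (Set.Ioi 0), φ τ < c * η * (q * (1 + ε2)) :=
      (hφc.continuousAt.eventually_lt continuousAt_const hφ0).filter_mono nhdsWithin_le_nhds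
    have h2 : ∀ᶠ τ in nhdsWithin (0 : ℝ) (Set.Ioi 0), τ ^ 2 < δ1 := by
      refine Filter.Eventually.filter_mono nhdsWithin_le_nhds ?_
      refine ContinuousAt.eventually_lt (by fun_prop) continuousAt_const ?_
      simpa using hδ1
    obtain ⟨τ, h3, h4, h5⟩ := (h1.and (h2.and self_mem_nhdsWithin)).exists
    exact ⟨τ, ⟨h5, h4.le⟩, h3⟩
  obtain ⟨a0, ha0⟩ := upper_unif d k 1 zero_le_one s E η c hη hc (ε / 3) (by positivity)
  refine ⟨τ ^ 2, by have := hτ0.1; positivity, a0,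
    fun A _ w hw qo hqo L D M _ hD hDδ hDL hM a ha => ?_⟩
  have hτp : 0 < τ := hτ0.1
  obtain ⟨ε', hε', N, hN⟩ := ha0 M A w hw L D hD (q * (1 + ε2)) (by positivity) a ha
  refine ⟨ε', hε', max N 1, fun n hn p0 hp0 hbad ω hω Y hQ hT => ?_⟩
  have hn1 : 1 ≤ n := (le_max_right _ _).trans hn
  have hn' : (0 : ℝ) < n := by exact_mod_cast hn1
  set ω' : Fin n → ℝ := fun u => w (qo (ω u)) with hω'
  have hω'1 : ∀ v, |ω' v| ≤ 1 := fun v => hw _
  have hωω' : ∀ v, |ω' v - ω v| ≤ τ ^ 2 := fun v => hqo _ (hω v)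
  -- the quadratic form
  set X' : Fin n → Fin k → ℝ := fun v κ => lo L D (Lev47.cell L D M (Y v κ)) with hX'
  have h1 := Qs_cells k p0 s E η ω ω' hω'1 (sq_nonneg τ) hωω' Y X' hτp
  have h2 : ∑ κ, ∑ v, (X' v κ - Y v κ) ^ 2 ≤ (n * k) * (τ ^ 4 + 9 * τ ^ 2) := by
    calc ∑ κ, ∑ v, (X' v κ - Y v κ) ^ 2 ≤
        ∑ κ : Fin k, ∑ v : Fin n, (D ^ 2 + 9 * (if L < |Y v κ| then Y v κ ^ 2 else 0)) :=
          sum_le_sum fun κ _ => sum_le_sum fun v _ => cell_err hD hDL hM _
      _ = (n * k) * D ^ 2 + 9 * ∑ κ, ∑ v, (if L < |Y v κ| then Y v κ ^ 2 else 0) := by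
          simp only [sum_add_distrib, ← mul_sum, sum_const, card_univ, Fintype.card_fin,
            nsmul_eq_mul]
          ring
      _ ≤ (n * k) * (τ ^ 2) ^ 2 + 9 * (τ ^ 2 * (n * k)) := by
          refine add_le_add (mul_le_mul_of_nonneg_left (pow_le_pow_left₀ hD.le hDδ 2)
            (by positivity)) (by linarith)
      _ = _ := by ring
  have h3 : ∑ κ, ∑ v, Y v κ ^ 2 ≤ (n * k) * (c * (q + τ ^ 2) / η) := by
    have h4 := (sum_sq_le_Qs k (⇑p0) s E η ω Y).trans hQ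
    have h5 : c * η * (n * k * (q + τ ^ 2)) = η ^ 2 * ((n * k) * (c * (q + τ ^ 2) / η)) := by
      field_simp
    rw [h5] at h4
    exact le_of_mul_le_mul_left h4 (by positivity)
  have h4 : (1 + D) * ∑ v, Qs k ⇑p0 s E η ω' X' v + n * (k * errQ d E s 1 η D) ≤
      (n * k) * φ τ := by
    have hQ0 : 0 ≤ ∑ v, Qs k ⇑p0 s E η ω' X' v := sum_nonneg fun v _ => Qs_nonneg _ _ _ _ _ _ _ _
    have h5 : ∑ v, Qs k ⇑p0 s E η ω' X' v ≤ (n * k) * ((1 + τ) * (c * η * (q + τ ^ 2)) +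
        (τ + τ ^ 2) * (K1 * (τ ^ 2 + 9) + 2 * s ^ 2 * τ ^ 2 * (c * (q + τ ^ 2) / η))) := by
      rw [Fintype.card_fin, ← hK1] at h1
      have hK0 : 0 ≤ K1 := by rw [hK1]; positivity
      have h6 : (1 + τ) * ∑ v, Qs k (⇑p0) s E η ω Y v ≤
          (1 + τ) * (c * η * (n * k * (q + τ ^ 2))) :=
        mul_le_mul_of_nonneg_left hQ (by positivity)
      have h7 : K1 * ∑ κ, ∑ v, (X' v κ - Y v κ) ^ 2 ≤ K1 * ((n * k) * (τ ^ 4 + 9 * τ ^ 2)) :=
        mul_le_mul_of_nonneg_left h2 hK0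
      have h8 : 2 * s ^ 2 * (τ ^ 2) ^ 2 * ∑ κ, ∑ v, Y v κ ^ 2 ≤
          2 * s ^ 2 * (τ ^ 2) ^ 2 * ((n * k) * (c * (q + τ ^ 2) / η)) :=
        mul_le_mul_of_nonneg_left h3 (by positivity)
      have h9 : (1 + 1 / τ) * (K1 * ∑ κ, ∑ v, (X' v κ - Y v κ) ^ 2 +
          2 * s ^ 2 * (τ ^ 2) ^ 2 * ∑ κ, ∑ v, Y v κ ^ 2) ≤
          (1 + 1 / τ) * (K1 * ((n * k) * (τ ^ 4 + 9 * τ ^ 2)) +
          2 * s ^ 2 * (τ ^ 2) ^ 2 * ((n * k) * (c * (q + τ ^ 2) / η))) :=
        mul_le_mul_of_nonneg_left (add_le_add h7 h8) (by positivity)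
      refine h1.trans ((add_le_add h6 h9).trans (le_of_eq ?_))
      field_simp
      ring
    have h10 : 0 ≤ ((d : ℝ) + |E| + |s| * 1) ^ 2 + η ^ 2 := by positivity
    have h11 : errQ d E s 1 η D ≤ τ ^ 2 * (1 + τ ^ 2) *
        (((d : ℝ) + |E| + |s| * 1) ^ 2 + η ^ 2) := by
      unfold errQ
      refine mul_le_mul_of_nonneg_right ?_ h10
      exact mul_le_mul hDδ (by linarith) (by positivity) (by positivity)
    have h12 : (1 + D) * ∑ v, Qs k ⇑p0 s E η ω' X' v ≤
        (1 + τ ^ 2) * ((n * k) * ((1 + τ) * (c * η * (q + τ ^ 2)) +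
        (τ + τ ^ 2) * (K1 * (τ ^ 2 + 9) + 2 * s ^ 2 * τ ^ 2 * (c * (q + τ ^ 2) / η)))) :=
      mul_le_mul (by linarith) h5 hQ0 (by positivity)
    have h13 : (n : ℝ) * (k * errQ d E s 1 η D) ≤ n * (k * (τ ^ 2 * (1 + τ ^ 2) *
        (((d : ℝ) + |E| + |s| * 1) ^ 2 + η ^ 2))) :=
      mul_le_mul_of_nonneg_left (mul_le_mul_of_nonneg_left h11 (by positivity)) (by positivity)
    refine (add_le_add h12 h13).trans (le_of_eq ?_)
    rw [hφ]
    ring
  have h5 : (n * k : ℝ) * φ τ ≤ c * η * (n * k * (q * (1 + ε2))) := by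
    have := mul_le_mul_of_nonneg_left hτ.le (by positivity : (0 : ℝ) ≤ n * k)
    refine this.trans (le_of_eq (by ring))
  have h6 := hN n ((le_max_left _ _).trans hn) p0 hp0 hbad (fun u => qo (ω u))
    (fun v κ => Lev47.cell L D M (Y v κ)) (q * (1 + ε2)) le_rfl (h4.trans h5)
  refine h6.trans ?_
  have h7 : Real.log (2 * Real.pi * Real.exp 1 * (q * (1 + ε2))) ≤
      Real.log (2 * Real.pi * Real.exp 1 * q) + ε2 := by
    have e1 := Real.exp_pos 1
    have e2 := Real.pi_pos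
    rw [← mul_assoc, Real.log_mul (by positivity) (by positivity)]
    have := Real.log_le_sub_one_of_pos (by positivity : (0 : ℝ) < 1 + ε2)
    linarith
  have h8 := hld n (⇑p0) hp0.1 ω' ω hω'1 hω (fun v => (hωω' v).trans hτ0.2)
  have h9 : logdet (Hp_isHermitian ⇑p0 hp0.1 s (w ∘ fun u => qo (ω u))) E η c / n ≤
      logdet (Hp_isHermitian ⇑p0 hp0.1 s ω) E η c / n + ε2 := by
    rw [← sub_le_iff_le_add', ← sub_div, div_le_iff₀ hn']
    exact (le_abs_self _).trans h8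
  have hk0 : (0 : ℝ) ≤ (k : ℝ) / 2 := by positivity
  have h10 := mul_le_mul_of_nonneg_left h7 hk0
  have h11 := mul_le_mul_of_nonneg_left h9 hk0
  nlinarith

end Crest.Agent.R166.Upp724
end

-- ▼ part R166/UppProb_724
section

/-!
# R166, 40.7 (U) -> limit, part 2: the noise (helper724)

* `Qh_noise` : `Q(F + √t Z) = Q(F) + c η (2 √t ⟨b, ξ⟩ + t |ξ|²)`, `|b|² = Q(F) / (c η)`
* `Q_prob`   : `Q(F + √t Z) ≤ c η n k (t + η/c + δ)` with probability `≥ 1 - δ`
* `tail_prob`: uniform integrability of `|Z|²`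
-/

set_option autoImplicit false
set_option linter.unusedSectionVars false

noncomputable section

namespace Crest.Agent.R166.UppProb724

open MeasureTheory ProbabilityTheory Matrix
open Crest.Agent.R166.Noise547 Crest.Agent.R166.Gauss286 Crest.Agent.R166.NoiseLLN849

variable {V J : Type*} [Fintype V] [DecidableEq V] [Fintype J] {H : Matrix V V ℝ}

/-- star-local quadratic form -/
def Qh (H : Matrix V V ℝ) (E η : ℝ) (y : V → ℝ) : ℝ :=
  ∑ v, (((∑ w, H v w * y w) - E * y v) ^ 2 + η ^ 2 * y v ^ 2)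

lemma Qh_eq (hH : H.IsHermitian) {E η c : ℝ} (hη : 0 < η) (hc : 0 < c) (y : V → ℝ) :
    Qh H E η y = c * η * ∑ i, (geta E η c (hH.eigenvalues i))⁻¹ *
      (∑ x, ev hH i x * y x) ^ 2 := by
  have h1 := geta_inv_quad hH (E := E) hη hc y
  rw [fM_quad] at h1
  have h2 : c * η ≠ 0 := (mul_pos hc hη).ne'
  rw [h1, ← mul_assoc, mul_inv_cancel₀ h2, one_mul]
  rfl

/-- vector with given spectral coordinates -/
def bv (hH : H.IsHermitian) (a : V → ℝ) (x : V) : ℝ := ∑ i, a i * ev hH i x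

lemma ev_bv (hH : H.IsHermitian) (a : V → ℝ) (i : V) : ∑ x, ev hH i x * bv hH a x = a i := by
  simp only [bv, Finset.mul_sum]
  rw [Finset.sum_comm]
  have h1 : ∀ j, ∑ x, ev hH i x * (a j * ev hH j x) = a j * if i = j then 1 else 0 := by
    intro j
    rw [← ev_orth hH i j, Finset.mul_sum]
    exact Finset.sum_congr rfl fun x _ => by ring
  simp only [h1]
  simp

lemma bv_sq (hH : H.IsHermitian) (a : V → ℝ) : ∑ x, bv hH a x ^ 2 = ∑ i, a i ^ 2 := by
  rw [parseval hH (bv hH a)]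
  exact Finset.sum_congr rfl fun i _ => by rw [ev_bv]

lemma bv_inner (hH : H.IsHermitian) (a z : V → ℝ) :
    ∑ x, bv hH a x * z x = ∑ i, a i * ∑ x, ev hH i x * z x := by
  simp only [bv, Finset.mul_sum, Finset.sum_mul]
  rw [Finset.sum_comm]
  exact Finset.sum_congr rfl fun i _ => Finset.sum_congr rfl fun x _ => by ring

lemma Zn_eq_bv (hH : H.IsHermitian) (g : ℝ → ℝ) (ξ : J → V → ℝ) (j : J) (x : V) :
    Zn hH g ξ j x = bv hH (fun i => Real.sqrt (g (hH.eigenvalues i)) *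
      ∑ y, ev hH i y * ξ j y) x := by
  simp only [Zn, bv, fM_apply, Finset.sum_mul, Finset.mul_sum]
  rw [Finset.sum_comm]
  exact Finset.sum_congr rfl fun i _ => Finset.sum_congr rfl fun y _ => by ring

lemma ev_Zn (hH : H.IsHermitian) (g : ℝ → ℝ) (ξ : J → V → ℝ) (j : J) (i : V) :
    ∑ x, ev hH i x * Zn hH g ξ j x = Real.sqrt (g (hH.eigenvalues i)) *
      ∑ y, ev hH i y * ξ j y := by
  simp only [Zn_eq_bv]
  exact ev_bv hH _ i

/-- the linear coefficients -/
def bF (hH : H.IsHermitian) (E η c : ℝ) (F : V → ℝ) : V → ℝ :=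
  bv hH fun i => (Real.sqrt (geta E η c (hH.eigenvalues i)))⁻¹ * ∑ x, ev hH i x * F x

lemma bF_sq (hH : H.IsHermitian) {E η c : ℝ} (hη : 0 < η) (hc : 0 < c) (F : V → ℝ) :
    c * η * ∑ x, bF hH E η c F x ^ 2 = Qh H E η F := by
  rw [Qh_eq hH hη hc, bF, bv_sq]
  congr 1
  refine Finset.sum_congr rfl fun i _ => ?_
  rw [mul_pow, inv_pow, Real.sq_sqrt (geta_pos hη hc _).le]

lemma Qh_noise (hH : H.IsHermitian) {E η c t : ℝ} (hη : 0 < η) (hc : 0 < c) (ht : 0 ≤ t)
    (F : V → ℝ) (ξ : J → V → ℝ) (j : J) :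
    Qh H E η (fun v => F v + Real.sqrt t * Zn hH (geta E η c) ξ j v) =
      Qh H E η F + c * η * (2 * Real.sqrt t * ∑ x, bF hH E η c F x * ξ j x +
        t * ∑ x, ξ j x ^ 2) := by
  rw [Qh_eq hH hη hc, Qh_eq hH hη hc, bF, bv_inner, parseval hH (ξ j), ← mul_add]
  congr 1
  rw [Finset.mul_sum, Finset.mul_sum, ← Finset.sum_add_distrib, ← Finset.sum_add_distrib]
  refine Finset.sum_congr rfl fun i _ => ?_
  have h1 : ∑ x, ev hH i x * (F x + Real.sqrt t * Zn hH (geta E η c) ξ j x) =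
      ∑ x, ev hH i x * F x + Real.sqrt t * (Real.sqrt (geta E η c (hH.eigenvalues i)) *
        ∑ y, ev hH i y * ξ j y) := by
    rw [← ev_Zn, Finset.mul_sum, ← Finset.sum_add_distrib]
    exact Finset.sum_congr rfl fun x _ => by ring
  rw [h1]
  set f := ∑ x, ev hH i x * F x
  set ζ := ∑ y, ev hH i y * ξ j y
  have hg := geta_pos (E := E) hη hc (hH.eigenvalues i)
  set g := geta E η c (hH.eigenvalues i)
  have hs : Real.sqrt g ^ 2 = g := Real.sq_sqrt hg.le
  have hst : Real.sqrt t ^ 2 = t := Real.sq_sqrt ht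
  have hs0 : Real.sqrt g ≠ 0 := (Real.sqrt_pos.2 hg).ne'
  have e1 : g⁻¹ = (Real.sqrt g)⁻¹ ^ 2 := by rw [inv_pow, hs]
  rw [e1]
  have e2 : (Real.sqrt g)⁻¹ * Real.sqrt g = 1 := inv_mul_cancel₀ hs0
  calc (Real.sqrt g)⁻¹ ^ 2 * (f + Real.sqrt t * (Real.sqrt g * ζ)) ^ 2 =
      (Real.sqrt g)⁻¹ ^ 2 * f ^ 2 + 2 * Real.sqrt t * ((Real.sqrt g)⁻¹ * f *
        (((Real.sqrt g)⁻¹ * Real.sqrt g) * ζ)) +
        Real.sqrt t ^ 2 * ((((Real.sqrt g)⁻¹ * Real.sqrt g)) * ζ) ^ 2 := by ring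
    _ = _ := by rw [e2, hst, one_mul]; ring

/-! ### Second moments -/

variable {ι κ : Type*} [Fintype ι] [Fintype κ]

/-- Chebyshev -/
lemma cheb {Ω : Type*} [MeasurableSpace Ω] (μ : Measure Ω) [IsFiniteMeasure μ] {f : Ω → ℝ}
    (hf : Integrable (fun x => f x ^ 2) μ) {a M : ℝ} (ha : 0 < a)
    (hM : ∫ x, f x ^ 2 ∂μ ≤ M) : μ {x | a < |f x|} ≤ ENNReal.ofReal (M / a ^ 2) := by
  have h1 := mul_meas_ge_le_integral_of_nonneg (μ := μ) (f := fun x => f x ^ 2)
    (Filter.Eventually.of_forall fun x => sq_nonneg _) hf (a ^ 2)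
  have h2 : μ.real {x | a ^ 2 ≤ f x ^ 2} ≤ M / a ^ 2 := by
    rw [le_div_iff₀ (by positivity), mul_comm]
    exact h1.trans hM
  have h3 : μ {x | a < |f x|} ≤ μ {x | a ^ 2 ≤ f x ^ 2} := by
    refine measure_mono fun x hx => ?_
    simp only [Set.mem_ofPred_eq] at hx ⊢
    rw [← sq_abs (f x)]
    exact pow_le_pow_left₀ ha.le hx.le 2
  refine h3.trans ?_
  rw [← ENNReal.ofReal_toReal (measure_ne_top μ {x | a ^ 2 ≤ f x ^ 2})]
  exact ENNReal.ofReal_le_ofReal h2

/-- Markov -/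
lemma markov {Ω : Type*} [MeasurableSpace Ω] (μ : Measure Ω) [IsFiniteMeasure μ] {f : Ω → ℝ}
    (h0 : ∀ x, 0 ≤ f x) (hf : Integrable f μ) {a M : ℝ} (ha : 0 < a)
    (hM : ∫ x, f x ∂μ ≤ M) : μ {x | a < f x} ≤ ENNReal.ofReal (M / a) := by
  have h1 := mul_meas_ge_le_integral_of_nonneg (μ := μ) (f := f)
    (Filter.Eventually.of_forall h0) hf a
  have h2 : μ.real {x | a ≤ f x} ≤ M / a := by
    rw [le_div_iff₀ (by positivity), mul_comm]
    exact h1.trans hM
  have h3 : μ {x | a < f x} ≤ μ {x | a ≤ f x} := by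
    refine measure_mono fun x hx => ?_
    simp only [Set.mem_ofPred_eq] at hx ⊢
    exact hx.le
  refine h3.trans ?_
  rw [← ENNReal.ofReal_toReal (measure_ne_top μ {x | a ≤ f x})]
  exact ENNReal.ofReal_le_ofReal h2

lemma abs_lin_le (a : ι → ℝ) (x : ι → ℝ) :
    |∑ i, a i * x i| ≤ (∑ i, |a i|) * (1 + ∑ i, |x i|) := by
  have h0 : 0 ≤ ∑ i, |x i| := Finset.sum_nonneg fun _ _ => abs_nonneg _
  calc |∑ i, a i * x i| ≤ ∑ i, |a i| * |x i| := by
        refine (Finset.abs_sum_le_sum_abs _ _).trans (Finset.sum_le_sum fun i _ => ?_)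
        rw [abs_mul]
    _ ≤ ∑ i, |a i| * (1 + ∑ i, |x i|) := by
        refine Finset.sum_le_sum fun i _ => mul_le_mul_of_nonneg_left ?_ (abs_nonneg _)
        have := Finset.single_le_sum (f := fun i => |x i|) (fun i _ => abs_nonneg _)
          (Finset.mem_univ i)
        linarith
    _ = _ := by rw [← Finset.sum_mul]

lemma integrable_lin_pow (a : ι → ℝ) (m : ℕ) :
    Integrable (fun x : ι → ℝ => (∑ i, a i * x i) ^ m) (gv ι) := by
  refine integrable_gv (Measurable.aestronglyMeasurable (by fun_prop)) ((∑ i, |a i|) ^ m) m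
    fun x => ?_
  rw [norm_pow, Real.norm_eq_abs, ← mul_pow]
  exact pow_le_pow_left₀ (abs_nonneg _) (abs_lin_le a x) m

lemma integrable_sqsum : Integrable (fun x : ι → ℝ => (∑ i, (x i ^ 2 - 1)) ^ 2) (gv ι) := by
  refine integrable_gv (Measurable.aestronglyMeasurable (by fun_prop))
    ((Fintype.card ι : ℝ) ^ 2) 4 fun x => ?_
  have h0 : 0 ≤ ∑ i, |x i| := Finset.sum_nonneg fun _ _ => abs_nonneg _
  have h1 : |∑ i, (x i ^ 2 - 1)| ≤ Fintype.card ι * (1 + ∑ i, |x i|) ^ 2 := by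
    calc |∑ i, (x i ^ 2 - 1)| ≤ ∑ i, |x i ^ 2 - 1| := Finset.abs_sum_le_sum_abs _ _
      _ ≤ ∑ _i : ι, (1 + ∑ i, |x i|) ^ 2 := by
          refine Finset.sum_le_sum fun i _ => ?_
          have h2 := Finset.single_le_sum (f := fun i => |x i|) (fun i _ => abs_nonneg _)
            (Finset.mem_univ i)
          have h3 : |x i| ^ 2 = x i ^ 2 := sq_abs _
          rw [abs_le]
          constructor <;> nlinarith [abs_nonneg (x i)]
      _ = _ := by rw [Finset.sum_const, Finset.card_univ, nsmul_eq_mul]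
  rw [norm_pow, Real.norm_eq_abs]
  calc |∑ i, (x i ^ 2 - 1)| ^ 2 ≤ (Fintype.card ι * (1 + ∑ i, |x i|) ^ 2) ^ 2 :=
        pow_le_pow_left₀ (abs_nonneg _) h1 2
    _ = _ := by ring

/-- transfer from `gm` to `gv` -/
lemma gm_apply {A : Set (ι → κ → ℝ)} (hA : MeasurableSet A) :
    gm ι κ A = gv (ι × κ) {x | (fun i k => x (i, k)) ∈ A} := by
  rw [← gv_map_curry, Measure.map_apply measurable_curry' hA]
  rfl

lemma gm_lin (b : ι → κ → ℝ) {a M : ℝ} (ha : 0 < a) (hM : ∑ i, ∑ k, b i k ^ 2 ≤ M) :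
    gm ι κ {ξ | a < |∑ i, ∑ k, b i k * ξ i k|} ≤ ENNReal.ofReal (M / a ^ 2) := by
  have hm : MeasurableSet {ξ : ι → κ → ℝ | a < |∑ i, ∑ k, b i k * ξ i k|} := by
    refine measurableSet_lt measurable_const ?_
    fun_prop
  rw [gm_apply hm]
  have h1 := cheb (gv (ι × κ)) (f := fun x => ∑ p : ι × κ, b p.1 p.2 * x p)
    (integrable_lin_pow (fun p : ι × κ => b p.1 p.2) 2) (M := M) ha (by
      rw [lin_sq (fun p : ι × κ => b p.1 p.2), Fintype.sum_prod_type]
      exact hM)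
  refine le_trans (measure_mono fun x hx => ?_) h1
  simp only [Set.mem_ofPred_eq] at hx ⊢
  rw [Fintype.sum_prod_type]
  exact hx

lemma gm_sq {a M : ℝ} (ha : 0 < a) (hM : 2 * ((Fintype.card ι : ℝ) * Fintype.card κ) ≤ M) :
    gm ι κ {ξ | a < |∑ i, ∑ k, (ξ i k ^ 2 - 1)|} ≤ ENNReal.ofReal (M / a ^ 2) := by
  have hm : MeasurableSet {ξ : ι → κ → ℝ | a < |∑ i, ∑ k, (ξ i k ^ 2 - 1)|} := by
    refine measurableSet_lt measurable_const ?_
    fun_prop
  rw [gm_apply hm]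
  have h1 := cheb (gv (ι × κ)) (f := fun x => ∑ p : ι × κ, (x p ^ 2 - 1))
    integrable_sqsum (M := M) ha (by
      have := quad_diag (fun _ : ι × κ => (1 : ℝ))
      simp only [one_mul] at this
      rw [this]
      simpa [Fintype.card_prod] using hM)
  refine le_trans (measure_mono fun x hx => ?_) h1
  simp only [Set.mem_ofPred_eq] at hx ⊢
  rw [Fintype.sum_prod_type]
  exact hx

/-- `Q(F + √t Z) ≤ c η n k (t + η/c + δ)` with probability `≥ 1 - δ` -/
theorem Q_prob (k : ℕ) (E K' η c t : ℝ) (hη : 0 < η) (hc : 0 < c) (ht : 0 < t) (δ : ℝ)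
    (hδ : 0 < δ) : ∃ N : ℕ, ∀ n ≥ N, ∀ (H : Matrix (Fin n) (Fin n) ℝ) (hH : H.IsHermitian)
      (F : Fin k → Fin n → ℝ), (∀ i, ∑ v, F i v ^ 2 = n) →
      (∀ i, ∑ v, ((H.mulVec (F i)) v - E * F i v) ^ 2 ≤ (K' / n) ^ 2 * n) →
      gm (Fin k) (Fin n) {ξ | c * η * (n * k * (t + η / c + δ)) < ∑ κ, Qh H E η (fun v =>
        F κ v + Real.sqrt t * Zn hH (geta E η c) ξ κ v)} ≤ ENNReal.ofReal δ := by
  rcases Nat.eq_zero_or_pos k with hk | hk
  · subst hk
    refine ⟨0, fun n _ H hH F _ _ => ?_⟩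
    simp
  have hk' : (1 : ℝ) ≤ k := by exact_mod_cast hk
  -- constants
  set C1 : ℝ := K' ^ 2 + η ^ 2 with hC1
  set C : ℝ := 36 * t * (k * C1 / (c * η)) / (k * δ) ^ 2 + 18 * t ^ 2 * k / (k * δ) ^ 2 with hC
  have hC0 : 0 ≤ C := by positivity
  obtain ⟨N, hN⟩ := exists_nat_ge (max (C / δ) (3 * K' ^ 2 / (c * η * δ)) + 1)
  refine ⟨N, fun n hn H hH F hF hHF => ?_⟩
  have hn1 : max (C / δ) (3 * K' ^ 2 / (c * η * δ)) + 1 ≤ n := hN.trans (by exact_mod_cast hn)
  have hmax0 : 0 ≤ max (C / δ) (3 * K' ^ 2 / (c * η * δ)) := le_max_of_le_left (by positivity)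
  have hn1' : (1 : ℝ) ≤ n := by linarith
  have hn' : (0 : ℝ) < n := by linarith
  have hnC : C / δ ≤ n := (le_max_left _ _).trans (by linarith)
  have hnK : 3 * K' ^ 2 / (c * η * δ) ≤ n := (le_max_right _ _).trans (by linarith)
  have hcη : 0 < c * η := mul_pos hc hη
  -- the deterministic part
  have hQF : ∀ i, Qh H E η (F i) ≤ K' ^ 2 / n + η ^ 2 * n := by
    intro i
    have h1 := hHF i
    unfold Qh
    rw [Finset.sum_add_distrib, ← Finset.mul_sum, hF i]
    refine add_le_add ?_ le_rfl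
    refine h1.trans (le_of_eq ?_)
    field_simp
  have hQF2 : ∑ i, Qh H E η (F i) ≤ k * (K' ^ 2 / n + η ^ 2 * n) := by
    refine (Finset.sum_le_sum fun i _ => hQF i).trans (le_of_eq ?_)
    rw [Finset.sum_const, Finset.card_univ, Fintype.card_fin, nsmul_eq_mul]
  set b : Fin k → Fin n → ℝ := fun κ => bF hH E η c (F κ) with hb
  have hb2 : ∑ κ, ∑ v, b κ v ^ 2 ≤ n * (k * C1 / (c * η)) := by
    have h1 : c * η * ∑ κ, ∑ v, b κ v ^ 2 = ∑ i, Qh H E η (F i) := by
      rw [Finset.mul_sum]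
      exact Finset.sum_congr rfl fun i _ => bF_sq hH hη hc (F i)
    have h2 : K' ^ 2 / n ≤ K' ^ 2 * n := by
      rw [div_le_iff₀ hn']
      nlinarith [sq_nonneg K', mul_nonneg (sq_nonneg K') (by linarith : (0 : ℝ) ≤ n - 1),
        mul_nonneg (mul_nonneg (sq_nonneg K') (by linarith : (0 : ℝ) ≤ n - 1)) hn'.le]
    have h3 : c * η * ∑ κ, ∑ v, b κ v ^ 2 ≤ c * η * (n * (k * C1 / (c * η))) := by
      rw [h1]
      refine hQF2.trans ?_
      have e : c * η * (n * (k * C1 / (c * η))) = k * (K' ^ 2 * n + η ^ 2 * n) := by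
        rw [hC1]; field_simp
      rw [e]
      exact mul_le_mul_of_nonneg_left (by linarith) (by linarith)
    exact le_of_mul_le_mul_left h3 hcη
  -- the two events
  set a : ℝ := n * k * δ / 3 with ha
  have ha0 : 0 < a := by positivity
  have hst : 0 < Real.sqrt t := Real.sqrt_pos.2 ht
  have hst2 : Real.sqrt t ^ 2 = t := Real.sq_sqrt ht.le
  have h1 := gm_lin b (a := a / (2 * Real.sqrt t)) (by positivity) hb2
  have h2 := gm_sq (ι := Fin k) (κ := Fin n) (a := a / t) (M := 2 * (k * n)) (by positivity)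
    (by simp)
  have h3 : {ξ : Fin k → Fin n → ℝ | c * η * (n * k * (t + η / c + δ)) <
      ∑ κ, Qh H E η (fun v => F κ v + Real.sqrt t * Zn hH (geta E η c) ξ κ v)} ⊆
      {ξ | a / (2 * Real.sqrt t) < |∑ i, ∑ k, b i k * ξ i k|} ∪
      {ξ | a / t < |∑ i, ∑ k, (ξ i k ^ 2 - 1)|} := by
    intro ξ hξ
    simp only [Set.mem_union, Set.mem_ofPred_eq] at hξ ⊢
    by_contra hcon
    push Not at hcon
    obtain ⟨h4, h5⟩ := hcon
    rw [le_div_iff₀ (by positivity)] at h4
    rw [le_div_iff₀ ht] at h5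
    have h6 : ∑ κ, Qh H E η (fun v => F κ v + Real.sqrt t * Zn hH (geta E η c) ξ κ v) =
        ∑ κ, Qh H E η (F κ) + c * η * (2 * Real.sqrt t * ∑ i, ∑ k, b i k * ξ i k +
          t * (∑ i, ∑ k, (ξ i k ^ 2 - 1)) + t * (n * k)) := by
      simp only [Qh_noise hH hη hc ht.le]
      rw [Finset.sum_add_distrib, ← Finset.mul_sum, Finset.sum_add_distrib, ← Finset.mul_sum,
        ← Finset.mul_sum]
      simp only [Finset.sum_sub_distrib, Finset.sum_const, Finset.card_univ, Fintype.card_fin,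
        nsmul_eq_mul, mul_one]
      ring
    rw [h6] at hξ
    have h7 : 2 * Real.sqrt t * ∑ i, ∑ k, b i k * ξ i k ≤ a := by
      have := le_abs_self (∑ i, ∑ k, b i k * ξ i k)
      nlinarith
    have h8 : t * (∑ i, ∑ k, (ξ i k ^ 2 - 1)) ≤ a := by
      have := le_abs_self (∑ i, ∑ k, (ξ i k ^ 2 - 1))
      nlinarith
    have h9 : k * (K' ^ 2 / n) ≤ c * η * a := by
      have h10 : 3 * K' ^ 2 ≤ n * (c * η * δ) := by
        rwa [div_le_iff₀ (by positivity)] at hnK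
      have h11 : K' ^ 2 / n ≤ c * η * δ / 3 := by
        rw [div_le_div_iff₀ hn' (by norm_num)]
        linarith
      calc k * (K' ^ 2 / n) ≤ k * (c * η * δ / 3) :=
            mul_le_mul_of_nonneg_left h11 (by linarith)
        _ ≤ n * (k * (c * η * δ / 3)) := le_mul_of_one_le_left (by positivity) hn1'
        _ = _ := by rw [ha]; ring
    have h12 : c * η * (2 * Real.sqrt t * ∑ i, ∑ k, b i k * ξ i k +
          t * (∑ i, ∑ k, (ξ i k ^ 2 - 1)) + t * (n * k)) ≤ c * η * (a + a + t * (n * k)) :=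
      mul_le_mul_of_nonneg_left (by linarith) hcη.le
    have h13 : c * η * (n * k * (t + η / c + δ)) =
        k * (η ^ 2 * n) + c * η * a + c * η * (a + a + t * (n * k)) := by
      rw [ha]
      field_simp
      ring
    rw [h13] at hξ
    have h14 : ∑ κ, Qh H E η (F κ) ≤ k * (η ^ 2 * n) + c * η * a := by
      refine hQF2.trans ?_
      rw [mul_add]
      linarith
    linarith
  refine (measure_mono h3).trans ((measure_union_le _ _).trans ?_)
  refine (add_le_add h1 h2).trans ?_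
  rw [← ENNReal.ofReal_add (by positivity) (by positivity)]
  refine ENNReal.ofReal_le_ofReal ?_
  have h4 : n * (k * C1 / (c * η)) / (a / (2 * Real.sqrt t)) ^ 2 + 2 * (k * n) / (a / t) ^ 2 =
      C / n := by
    have e1 : (a / (2 * Real.sqrt t)) ^ 2 = a ^ 2 / (4 * t) := by
      rw [div_pow, mul_pow, hst2]; norm_num
    rw [e1, hC, ha]
    field_simp
    ring
  rw [h4, div_le_iff₀ hn']
  rw [div_le_iff₀ hδ] at hnC
  linarith

/-! ### Fourth moments and tails -/

/-- `E (a · ξ)⁴ = 3 |a|⁴` -/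
lemma lin_four (a : ι → ℝ) : ∫ x, (∑ i, a i * x i) ^ 4 ∂(gv ι) = 3 * (∑ i, a i ^ 2) ^ 2 := by
  have h := gv_map_eq_of (ι := ι) (κ := Unit) (ι' := Unit) (Matrix.of fun _ i => a i)
    (Matrix.of fun _ _ => Real.sqrt (∑ i, a i ^ 2)) (by
      ext u v
      simp only [Matrix.mul_apply, Matrix.of_apply, Matrix.transpose_apply, Finset.univ_unique,
        Finset.sum_singleton]
      rw [Real.mul_self_sqrt (Finset.sum_nonneg fun _ _ => sq_nonneg _)]
      exact Finset.sum_congr rfl fun i _ => by ring)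
  have h1 : ∫ y : Unit → ℝ, y () ^ 4 ∂((gv ι).map
      (fun x => (Matrix.of fun (_ : Unit) i => a i) *ᵥ x)) = ∫ x, (∑ i, a i * x i) ^ 4 ∂(gv ι) := by
    rw [integral_map (measurable_mulVec _).aemeasurable
      (Measurable.aestronglyMeasurable (by fun_prop))]
    rfl
  have h2 : ∫ y : Unit → ℝ, y () ^ 4 ∂((gv Unit).map
      (fun x => (Matrix.of fun (_ _ : Unit) => Real.sqrt (∑ i, a i ^ 2)) *ᵥ x)) =
      3 * (∑ i, a i ^ 2) ^ 2 := by
    rw [integral_map (measurable_mulVec _).aemeasurable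
      (Measurable.aestronglyMeasurable (by fun_prop))]
    have h3 : ∀ x : Unit → ℝ, ((Matrix.of fun (_ _ : Unit) => Real.sqrt (∑ i, a i ^ 2)) *ᵥ x) () ^ 4
        = (∑ i, a i ^ 2) ^ 2 * x () ^ 4 := by
      intro x
      simp only [Matrix.mulVec, dotProduct, Matrix.of_apply, Finset.univ_unique,
        Finset.sum_singleton]
      rw [mul_pow]
      congr 1
      have : Real.sqrt (∑ i, a i ^ 2) ^ 4 = (Real.sqrt (∑ i, a i ^ 2) ^ 2) ^ 2 := by ring
      rw [this, Real.sq_sqrt (Finset.sum_nonneg fun _ _ => sq_nonneg _)]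
    simp only [h3]
    rw [integral_const_mul, integral_comp_eval (μ := fun _ : Unit => gaussianReal 0 1)
      (f := fun x : ℝ => x ^ 4) (i := ()) (by fun_prop), int_x4]
    ring
  rw [← h1, h, h2]

lemma fM_diag_nonneg (hH : H.IsHermitian) {g : ℝ → ℝ} (hg : ∀ i, 0 ≤ g (hH.eigenvalues i))
    (x : V) : 0 ≤ fM hH g x x := by
  rw [fM_apply]
  exact Finset.sum_nonneg fun i _ => mul_nonneg (hg i) (mul_self_nonneg _)

lemma row_sq (hH : H.IsHermitian) {g : ℝ → ℝ} (hg : ∀ i, 0 ≤ g (hH.eigenvalues i)) (x : V) :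
    ∑ y, fM hH (fun t => Real.sqrt (g t)) x y ^ 2 = fM hH g x x := by
  have hS : fM hH (fun t => Real.sqrt (g t)) * fM hH (fun t => Real.sqrt (g t)) = fM hH g := by
    rw [fM_mul]
    exact fM_congr hH fun i => Real.mul_self_sqrt (hg i)
  rw [← hS, Matrix.mul_apply]
  refine Finset.sum_congr rfl fun y _ => ?_
  rw [fM_symm hH _ y x]
  ring

lemma int_Zn_four (hH : H.IsHermitian) {g : ℝ → ℝ} {M : ℝ} (hM : 0 ≤ M)
    (hg : ∀ i, 0 ≤ g (hH.eigenvalues i)) (hgM : ∀ i, g (hH.eigenvalues i) ≤ M) (j : J) (x : V) :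
    ∫ ξ, Zn hH g ξ j x ^ 4 ∂(gm J V) ≤ 3 * M ^ 2 := by
  have h1 : ∫ ξ, Zn hH g ξ j x ^ 4 ∂(gm J V) =
      ∫ z : V → ℝ, (∑ y, fM hH (fun t => Real.sqrt (g t)) x y * z y) ^ 4 ∂(gv V) :=
    integral_comp_eval (μ := fun _ : J => gv V)
      (f := fun z : V → ℝ => (∑ y, fM hH (fun t => Real.sqrt (g t)) x y * z y) ^ 4) (i := j)
      (Measurable.aestronglyMeasurable (by fun_prop))
  rw [h1, lin_four, row_sq hH hg]
  have h2 : fM hH g x x ≤ M := by
    have := fM_abs_le hH (f := g) (M := M) (fun i => by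
      rw [abs_of_nonneg (hg i)]; exact hgM i) x x
    exact (le_abs_self _).trans this
  have h3 := fM_diag_nonneg hH hg x
  nlinarith

lemma integrable_Zn_four (hH : H.IsHermitian) (g : ℝ → ℝ) (j : J) (x : V) :
    Integrable (fun ξ : J → V → ℝ => Zn hH g ξ j x ^ 4) (gm J V) :=
  integrable_comp_eval (μ := fun _ : J => gv V)
    (f := fun z : V → ℝ => (∑ y, fM hH (fun t => Real.sqrt (g t)) x y * z y) ^ 4) (i := j)
    (integrable_lin_pow _ 4)

/-- uniform integrability of the noise -/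
theorem tail_prob (k : ℕ) (M t : ℝ) (hM : 0 < M) (ht : 0 < t) (δ : ℝ) (hδ : 0 < δ) :
    ∃ L0 : ℝ, 0 < L0 ∧ ∀ L ≥ L0, ∀ (n : ℕ) (H : Matrix (Fin n) (Fin n) ℝ) (hH : H.IsHermitian)
      (g : ℝ → ℝ), (∀ i, 0 ≤ g (hH.eigenvalues i)) → (∀ i, g (hH.eigenvalues i) ≤ M) →
      gm (Fin k) (Fin n) {ξ | δ * (n * k) < ∑ κ, ∑ v,
        (if L < |Real.sqrt t * Zn hH g ξ κ v| then (Real.sqrt t * Zn hH g ξ κ v) ^ 2 else 0)} ≤
        ENNReal.ofReal δ := by
  refine ⟨1 + 3 * t ^ 2 * M ^ 2 / δ ^ 2, by positivity, fun L hL n H hH g hg hgM => ?_⟩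
  have hL1 : 1 ≤ L := le_trans (by have : 0 ≤ 3 * t ^ 2 * M ^ 2 / δ ^ 2 := by positivity
                                   linarith) hL
  have hL2 : 3 * t ^ 2 * M ^ 2 / δ ^ 2 ≤ L := by linarith
  have hL0 : 0 < L := by linarith
  rcases Nat.eq_zero_or_pos (n * k) with hnk | hnk
  · have h0 : (n : ℝ) * k = 0 := by exact_mod_cast hnk
    have hempty : {ξ : Fin k → Fin n → ℝ | δ * (n * k) < ∑ κ, ∑ v,
        (if L < |Real.sqrt t * Zn hH g ξ κ v| then (Real.sqrt t * Zn hH g ξ κ v) ^ 2 else 0)} =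
        ∅ := by
      ext ξ
      simp only [Set.mem_ofPred_eq, Set.mem_empty_iff_false, iff_false, not_lt, h0, mul_zero]
      rcases Nat.mul_eq_zero.1 hnk with h | h
      · subst h; simp
      · subst h; simp
    rw [hempty, measure_empty]
    exact zero_le
  have hnk' : (0 : ℝ) < n * k := by exact_mod_cast hnk
  set f : (Fin k → Fin n → ℝ) → ℝ := fun ξ => ∑ κ, ∑ v, t ^ 2 * Zn hH g ξ κ v ^ 4 / L ^ 2 with hf
  have hfi : ∀ κ v, Integrable (fun ξ : Fin k → Fin n → ℝ => t ^ 2 * Zn hH g ξ κ v ^ 4 / L ^ 2)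
      (gm (Fin k) (Fin n)) := fun κ v =>
    ((integrable_Zn_four hH g κ v).const_mul (t ^ 2)).div_const _
  have hint : ∫ ξ, f ξ ∂(gm (Fin k) (Fin n)) ≤ (n * k) * (3 * t ^ 2 * M ^ 2 / L ^ 2) := by
    rw [hf, integral_finsetSum _ fun κ _ => integrable_finsetSum _ fun v _ => hfi κ v]
    calc ∑ κ : Fin k, ∫ ξ : Fin k → Fin n → ℝ, ∑ v, t ^ 2 * Zn hH g ξ κ v ^ 4 / L ^ 2
          ∂(gm (Fin k) (Fin n)) ≤ ∑ _κ : Fin k, ∑ _v : Fin n, 3 * t ^ 2 * M ^ 2 / L ^ 2 := by
          refine Finset.sum_le_sum fun κ _ => ?_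
          rw [integral_finsetSum _ fun v _ => hfi κ v]
          refine Finset.sum_le_sum fun v _ => ?_
          rw [integral_div, integral_const_mul]
          have := int_Zn_four hH hM.le hg hgM κ v
          refine div_le_div_of_nonneg_right ?_ (by positivity)
          nlinarith [mul_le_mul_of_nonneg_left this (sq_nonneg t)]
      _ = _ := by
          simp only [Finset.sum_const, Finset.card_univ, Fintype.card_fin, nsmul_eq_mul]
          ring
  have h1 := markov (gm (Fin k) (Fin n)) (f := f) (fun ξ => by rw [hf]; positivity)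
    (integrable_finsetSum _ fun κ _ => integrable_finsetSum _ fun v _ => hfi κ v)
    (a := δ * (n * k)) (by positivity) hint
  refine le_trans (measure_mono fun ξ hξ => ?_) (h1.trans (ENNReal.ofReal_le_ofReal ?_))
  · simp only [Set.mem_ofPred_eq] at hξ ⊢
    refine hξ.trans_le (Finset.sum_le_sum fun κ _ => Finset.sum_le_sum fun v _ => ?_)
    have hst2 : Real.sqrt t ^ 2 = t := Real.sq_sqrt ht.le
    split_ifs with h
    · rw [le_div_iff₀ (by positivity)]
      have h2 : L ^ 2 ≤ (Real.sqrt t * Zn hH g ξ κ v) ^ 2 := by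
        rw [← sq_abs (Real.sqrt t * Zn hH g ξ κ v)]
        exact pow_le_pow_left₀ hL0.le h.le 2
      calc (Real.sqrt t * Zn hH g ξ κ v) ^ 2 * L ^ 2 ≤
          (Real.sqrt t * Zn hH g ξ κ v) ^ 2 * (Real.sqrt t * Zn hH g ξ κ v) ^ 2 :=
            mul_le_mul_of_nonneg_left h2 (sq_nonneg _)
        _ = (Real.sqrt t ^ 2) ^ 2 * Zn hH g ξ κ v ^ 4 := by ring
        _ = _ := by rw [hst2]
    · positivity
  · rw [div_le_iff₀ (by positivity), ← mul_assoc, mul_comm]
    refine le_trans ?_ (le_of_eq (mul_comm _ _))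
    have h3 : 3 * t ^ 2 * M ^ 2 / L ^ 2 ≤ δ * δ := by
      rw [div_le_iff₀ (by positivity)]
      rw [div_le_iff₀ (by positivity)] at hL2
      have : L ≤ L ^ 2 := by nlinarith
      nlinarith [sq_nonneg δ, mul_le_mul_of_nonneg_left this (sq_nonneg δ)]
    nlinarith [mul_le_mul_of_nonneg_left h3 hnk'.le]

end Crest.Agent.R166.UppProb724
end
end

-- ▼ part R166/UppLim_724

/-!
# R166, 40.7 (U) -> limit, part 3 (helper724): `SpecB1.Stmt_U`
-/

set_option autoImplicit false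
set_option linter.unusedSectionVars false
set_option maxHeartbeats 800000

namespace Crest.Agent.R166.UppLim724

open MeasureTheory Finset PairCount356 SpecB1 Crest.ProbabilityR.RandomMatrix Filter Topology
open Crest.Agent.R166.Seq980 (PS portLaw)
open Crest.Agent.R166.Upp724 Crest.Agent.R166.Words955
open Crest.Agent.R166.UppProb724
open Crest.Agent.R166.Count674 (St Th)

theorem isPairing_of_port {n d : ℕ} {p : Equiv.Perm (HE n d)} (hp : IsPort p) : IsPairing p :=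
  ⟨hp.inv, fun h e => hp.noloop h (by rw [e])⟩

theorem Hp_eq_Hm {n d : ℕ} {p : Equiv.Perm (HE n d)} (hp : IsPort p) (s : ℝ) (ω : Fin n → ℝ) :
    Hp (⇑p) s ω = Hm (graphOf p) s ω := by
  classical
  unfold Hp Hm
  ext v w
  rw [Matrix.add_apply, Matrix.add_apply]
  congr 1
  · rw [SimpleGraph.adjMatrix_apply, adjP]
    by_cases h : (graphOf p).Adj v w
    · rw [if_pos h]
      obtain ⟨i, hi⟩ := (hp.adj_iff).1 h
      rw [Finset.sum_eq_single i]
      · rw [if_pos hi]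
      · intro j _ hj
        rw [if_neg]
        intro h2
        exact hj (hp.simple v j i (h2.trans hi.symm))
      · simp
    · rw [if_neg h]
      refine Finset.sum_eq_zero fun i _ => ?_
      rw [if_neg]
      intro h2
      exact h ((hp.adj_iff).2 ⟨i, h2⟩)

theorem logdet_congr {V : Type} [Fintype V] [DecidableEq V] {H H' : Matrix V V ℝ} (h : H = H')
    (hH : H.IsHermitian) (hH' : H'.IsHermitian) (E η c : ℝ) : logdet hH E η c = logdet hH' E η c := by
  subst h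
  rfl

theorem sum_Qs_eq_Qh {n d k : ℕ} {p : Equiv.Perm (HE n d)} (hp : IsPort p) (s E η : ℝ)
    (ω : Fin n → ℝ) (Y : Fin n → Fin k → ℝ) :
    ∑ v, Qs k (⇑p) s E η ω Y v = ∑ κ, Qh (Hm (graphOf p) s ω) E η (fun v => Y v κ) := by
  rw [sum_Qs, Hp_eq_Hm hp]
  rfl

/-- the tail of a sum -/
theorem tail_add {L a b : ℝ} (hL : 0 ≤ L) :
    (if 2 * L < |a + b| then (a + b) ^ 2 else 0) ≤
      4 * (if L < |a| then a ^ 2 else 0) + 4 * (if L < |b| then b ^ 2 else 0) := by
  by_cases h : 2 * L < |a + b|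
  · rw [if_pos h]
    have h1 := abs_add_le a b
    rcases le_total |a| |b| with h2 | h2
    · have h3 : L < |b| := by linarith
      rw [if_pos h3]
      have h4 : (a + b) ^ 2 ≤ 4 * b ^ 2 := by
        rw [← sq_abs (a + b), ← sq_abs b]
        nlinarith [abs_nonneg (a + b), abs_nonneg b]
      have h5 : 0 ≤ (if L < |a| then a ^ 2 else 0) := by split_ifs <;> positivity
      linarith
    · have h3 : L < |a| := by linarith
      rw [if_pos h3]
      have h4 : (a + b) ^ 2 ≤ 4 * a ^ 2 := by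
        rw [← sq_abs (a + b), ← sq_abs a]
        nlinarith [abs_nonneg (a + b), abs_nonneg a]
      have h5 : 0 ≤ (if L < |b| then b ^ 2 else 0) := by split_ifs <;> positivity
      linarith
  · rw [if_neg h]
    have h5 : 0 ≤ (if L < |b| then b ^ 2 else 0) := by split_ifs <;> positivity
    have h6 : 0 ≤ (if L < |a| then a ^ 2 else 0) := by split_ifs <;> positivity
    linarith

theorem oq_close (m : ℕ) {x : ℝ} (hx : |x| ≤ 1) :
    |Lev47.orep m (Lev47.oq m x) - x| ≤ 2 * (1 / 2) ^ m := by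
  have h := abs_le.1 hx
  exact Lev47.abs_lo_sub (by positivity) h.1 (by rw [Lev47.D_mul_M_o]; linarith)

theorem orep_le (m : ℕ) (i : Fin (2 ^ m)) : |Lev47.orep m i| ≤ 1 :=
  lo_abs (by positivity) (by rw [Lev47.D_mul_M_o]) i

/-- **(U) in probability**: along the sequence, with probability `≥ 1 - ε` in the noise -/
theorem upp_prob {d k : ℕ} [NeZero d] (S : Seq980.Seq d k) (s E K' η c t : ℝ) (hη : 0 < η)
    (hc : 0 < c) (ht : 0 < t) (hS : Extra S s E K') (ε : ℝ) (hε : 0 < ε) :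
    ∃ a0 m0 : ℕ, ∀ a m : ℕ, a0 ≤ a → m0 ≤ m → ∀ᶠ j in atTop, ∀ x ∈ S.U j,
      gmP k (S.n j) {ξ | ¬ Count674.Psi (S.n j) (Count674.starCnt x.1 (colV a m x
        (fun i v => S.F j x i v + Real.sqrt t * ZP s E η c x ξ i v))) ≤
        m * Real.log 2 + k * (m * Real.log 8) +
        (k : ℝ) / 2 * (Real.log (2 * Real.pi * Real.exp 1 * (t + η / c)) + ldet s E η c x) + ε} ≤
        ENNReal.ofReal ε := by
  set q : ℝ := t + η / c with hq
  have hq0 : 0 < q := by positivity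
  obtain ⟨δ, hδ, a0, hcore⟩ := upp_core d k s E η c hη hc q hq0 ε hε
  -- tolerances
  set δ' : ℝ := min (min (δ / 8) (ε / 2)) (δ / (8 * (k + 1))) with hδ'
  have hδ'0 : 0 < δ' := by positivity
  have hδ'1 : δ' ≤ δ / 8 := (min_le_left _ _).trans (min_le_left _ _)
  have hδ'2 : δ' ≤ ε / 2 := (min_le_left _ _).trans (min_le_right _ _)
  obtain ⟨N1, hN1⟩ := Q_prob k E K' η c t hη hc ht δ' hδ'0
  obtain ⟨L0, hL0, htail⟩ := tail_prob k (c / η) t (by positivity) ht δ' hδ'0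
  obtain ⟨M0, hM0⟩ := hS.ui δ' hδ'0
  -- the level
  obtain ⟨m1, hm1⟩ := pow_unbounded_of_one_lt (2 * max L0 (max M0 1)) (by norm_num : (1 : ℝ) < 2)
  obtain ⟨m2, hm2⟩ := exists_pow_lt_of_lt_one (show (0 : ℝ) < δ / 2 by positivity)
    (by norm_num : (1 / 2 : ℝ) < 1)
  refine ⟨a0, max m1 m2, fun a m ha hm => ?_⟩
  have hmm1 : m1 ≤ m := (le_max_left _ _).trans hm
  have hmm2 : m2 ≤ m := (le_max_right _ _).trans hm
  have hLm : 2 * max L0 (max M0 1) ≤ 2 ^ m :=
    hm1.le.trans (pow_le_pow_right₀ (by norm_num) hmm1)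
  have hhalf : (1 / 2 : ℝ) ^ m ≤ δ / 2 :=
    (pow_le_pow_of_le_one (by norm_num) (by norm_num) hmm2).trans hm2.le
  have h8 : (1 / 8 : ℝ) ^ m ≤ (1 / 2) ^ m := pow_le_pow_left₀ (by norm_num) (by norm_num) m
  have h1m : (1 / 8 : ℝ) ^ m ≤ 1 := pow_le_one₀ (by norm_num) (by norm_num)
  have h2m : (1 : ℝ) ≤ 2 ^ m := one_le_pow₀ (by norm_num)
  obtain ⟨ε', hε', N2, hN2⟩ := hcore (Fin (2 ^ m)) (Lev47.orep m) (orep_le m) (Lev47.oq m)
    (fun x hx => (oq_close m hx).trans (by linarith)) (2 ^ m) ((1 / 8) ^ m) (2 * 16 ^ m)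
    (by positivity) (by linarith) (h1m.trans h2m)
    (by have := Lev47.D_mul_M_y m; exact_mod_cast this) a ha
  filter_upwards [S.tendsto_n.eventually (eventually_ge_atTop (max N1 (max N2 1))), hM0,
    hS.tree a ε' hε'] with j hj hui htree x hx
  have hjN1 : N1 ≤ S.n j := (le_max_left _ _).trans hj
  have hjN2 : N2 ≤ S.n j := (le_max_left _ _).trans ((le_max_right _ _).trans hj)
  have hj1 : 1 ≤ S.n j := (le_max_right _ _).trans ((le_max_right _ _).trans hj)
  have hport := S.port j x hx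
  have hH := Hm_isHermitian (graphOf x.1) s x.2
  have hfr := hS.frame j x hx
  have hF : ∀ i, ∑ v, S.F j x i v ^ 2 = S.n j := S.frame j x hx
  have hHF : ∀ i, ∑ v, ((Hm (graphOf x.1) s x.2).mulVec (S.F j x i) v - E * S.F j x i v) ^ 2 ≤
      (K' / S.n j) ^ 2 * S.n j := hfr.2
  have h1 := hN1 (S.n j) hjN1 _ hH (S.F j x) hF hHF
  have h2 := htail (2 ^ m / 2) (by
    have := le_max_left L0 (max M0 1)
    linarith) (S.n j) _ hH (Noise547.geta E η c) (fun i => (Noise547.geta_pos hη hc _).le)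
    (fun i => Noise547.geta_le hη hc _)
  have h3 : {ξ : Fin k → Fin (S.n j) → ℝ | ¬ Count674.Psi (S.n j) (Count674.starCnt x.1 (colV a m x
        (fun i v => S.F j x i v + Real.sqrt t * ZP s E η c x ξ i v))) ≤
        m * Real.log 2 + k * (m * Real.log 8) +
        (k : ℝ) / 2 * (Real.log (2 * Real.pi * Real.exp 1 * q) + ldet s E η c x) + ε} ⊆
      {ξ | c * η * (S.n j * k * (t + η / c + δ')) < ∑ κ, Qh (Hm (graphOf x.1) s x.2) E η
        (fun v => S.F j x κ v + Real.sqrt t *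
          NoiseLLN849.Zn hH (Noise547.geta E η c) ξ κ v)} ∪
      {ξ | δ' * (S.n j * k) < ∑ κ, ∑ v,
        (if 2 ^ m / 2 < |Real.sqrt t * NoiseLLN849.Zn hH (Noise547.geta E η c) ξ κ v| then
          (Real.sqrt t * NoiseLLN849.Zn hH (Noise547.geta E η c) ξ κ v) ^ 2 else 0)} := by
    intro ξ hξ
    by_contra hcon
    simp only [Set.mem_union, Set.mem_ofPred_eq, not_or, not_lt] at hcon hξ
    obtain ⟨h4, h5⟩ := hcon
    apply hξ
    set Y : Fin (S.n j) → Fin k → ℝ := fun v κ => S.F j x κ v + Real.sqrt t *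
      NoiseLLN849.Zn hH (Noise547.geta E η c) ξ κ v with hY
    have hn0 : (0 : ℝ) ≤ S.n j := by positivity
    have hnb : nBad a ⇑x.1 ≤ nonTree a x.1 := nBad_le a _
    have hnb' : ((nBad a ⇑x.1 : ℕ) : ℝ) ≤ nonTree a x.1 := Nat.cast_le.2 hnb
    have h6 := hN2 (S.n j) hjN2 x.1 (isPairing_of_port hport) (hnb'.trans (htree x hx)) x.2
      (fun v => abs_le.2 (S.om j x hx v)) Y (by
        rw [sum_Qs_eq_Qh hport]
        refine h4.trans ?_
        refine mul_le_mul_of_nonneg_left ?_ (mul_pos hc hη).le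
        refine mul_le_mul_of_nonneg_left ?_ (by positivity)
        linarith) (by
        have h7 : ∀ κ v, (if (2 : ℝ) ^ m < |Y v κ| then Y v κ ^ 2 else 0) ≤
            4 * (if 2 ^ m / 2 < |S.F j x κ v| then S.F j x κ v ^ 2 else 0) +
            4 * (if 2 ^ m / 2 < |Real.sqrt t * NoiseLLN849.Zn hH (Noise547.geta E η c) ξ κ v| then
              (Real.sqrt t * NoiseLLN849.Zn hH (Noise547.geta E η c) ξ κ v) ^ 2 else 0) := by
          intro κ v
          have := tail_add (L := 2 ^ m / 2) (a := S.F j x κ v)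
            (b := Real.sqrt t * NoiseLLN849.Zn hH (Noise547.geta E η c) ξ κ v) (by positivity)
          rw [show (2 : ℝ) * (2 ^ m / 2) = 2 ^ m by ring] at this
          exact this
        have h8 : ∀ κ, ∑ v, (if (2 : ℝ) ^ m / 2 < |S.F j x κ v| then S.F j x κ v ^ 2 else 0) ≤
            δ' * S.n j := by
          intro κ
          refine (Finset.sum_le_sum fun v _ => ?_).trans (hui x hx κ)
          have h9 : M0 ≤ 2 ^ m / 2 := by
            have := (le_max_left M0 1).trans (le_max_right L0 (max M0 1))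
            linarith
          by_cases h10 : (2 : ℝ) ^ m / 2 < |S.F j x κ v|
          · rw [if_pos h10, if_pos (h9.trans_lt h10)]
          · rw [if_neg h10]
            split_ifs <;> positivity
        calc ∑ κ, ∑ v, (if (2 : ℝ) ^ m < |Y v κ| then Y v κ ^ 2 else 0) ≤
            ∑ κ, ∑ v, (4 * (if 2 ^ m / 2 < |S.F j x κ v| then S.F j x κ v ^ 2 else 0) +
            4 * (if 2 ^ m / 2 < |Real.sqrt t * NoiseLLN849.Zn hH (Noise547.geta E η c) ξ κ v| then
              (Real.sqrt t * NoiseLLN849.Zn hH (Noise547.geta E η c) ξ κ v) ^ 2 else 0)) :=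
              Finset.sum_le_sum fun κ _ => Finset.sum_le_sum fun v _ => h7 κ v
          _ = 4 * ∑ κ, ∑ v, (if (2 : ℝ) ^ m / 2 < |S.F j x κ v| then S.F j x κ v ^ 2 else 0) +
            4 * ∑ κ, ∑ v,
            (if 2 ^ m / 2 < |Real.sqrt t * NoiseLLN849.Zn hH (Noise547.geta E η c) ξ κ v| then
              (Real.sqrt t * NoiseLLN849.Zn hH (Noise547.geta E η c) ξ κ v) ^ 2 else 0) := by
              simp only [Finset.sum_add_distrib, ← Finset.mul_sum]
          _ ≤ 4 * ∑ _κ : Fin k, δ' * S.n j + 4 * (δ' * (S.n j * k)) := by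
              refine add_le_add ?_ ?_
              · exact mul_le_mul_of_nonneg_left (Finset.sum_le_sum fun κ _ => h8 κ) (by norm_num)
              · exact mul_le_mul_of_nonneg_left h5 (by norm_num)
          _ = 8 * δ' * (S.n j * k) := by
              rw [Finset.sum_const, Finset.card_univ, Fintype.card_fin, nsmul_eq_mul]; ring
          _ ≤ δ * (S.n j * k) := by
              refine mul_le_mul_of_nonneg_right ?_ (by positivity)
              linarith)
    have e1 : Real.log (Fintype.card (Fin (2 ^ m))) - k * Real.log ((1 / 8 : ℝ) ^ m) =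
        m * Real.log 2 + k * (m * Real.log 8) := by
      rw [Fintype.card_fin, one_div, inv_pow, Real.log_inv, Real.log_pow]
      push_cast
      rw [Real.log_pow]
      ring
    have e2 : logdet (Hp_isHermitian ⇑x.1 (isPairing_of_port hport).1 s x.2) E η c / S.n j =
        ldet s E η c x := by
      rw [logdet_congr (Hp_eq_Hm hport s x.2) _ hH]
      rfl
    rw [e1, e2] at h6
    refine le_trans ?_ (h6.trans (le_of_eq (by ring)))
    apply le_of_eq
    congr 2
  refine (measure_mono h3).trans ((measure_union_le _ _).trans ((add_le_add h1 h2).trans ?_))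
  rw [← ENNReal.ofReal_add hδ'0.le hδ'0.le]
  exact ENNReal.ofReal_le_ofReal (by linarith)

theorem PsiR_inst {S : Type} {d : ℕ} (i1 i2 : Fintype S) (j1 j2 : DecidableEq S)
    (q : St S d → ℝ) : @PsiR S i1 j1 d q = @PsiR S i2 j2 d q := by
  cases Subsingleton.elim i1 i2
  cases Subsingleton.elim j1 j2
  rfl

theorem PsiL_zero {d k : ℕ} [NeZero d] (t : ℝ) (Q : Measure (Conf d (S2 d k))) (a m : ℕ) :
    PsiL t Q a m 0 = PsiR (S := Col d k a m) (d := d) (qstar Q (gcol d k t a m)) := by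
  unfold PsiL
  exact PsiR_inst (S := Col d k a m) _ _ _ _ _

/-- **(U)** in the limit -/
theorem stmt_U : Stmt_U := by
  classical
  intro d k _ S s E K' η c t l Q hη hc ht hS hQ hL hld ε hε
  set ε1 : ℝ := min (ε / (4 * (k + 1))) (1 / 4) with hε1
  have hε10 : 0 < ε1 := by positivity
  have hε1a : ε1 ≤ ε / (4 * (k + 1)) := min_le_left _ _
  have hε1b : ε1 ≤ 1 / 4 := min_le_right _ _
  obtain ⟨a0, m0, hU⟩ := upp_prob S s E K' η c t hη hc ht hS ε1 hε10
  refine ⟨a0, m0, fun a m ha hm => ?_⟩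
  rw [PsiL_zero]
  set qs : St (Col d k a m) d → ℝ := qstar Q (gcol d k t a m) with hqs
  obtain ⟨δ, hδ, hclose⟩ := TypC674.Psi_close (S := Col d k a m) (d := d) qs (ε := ε / 4)
    (by positivity)
  have hL0 : ∀ᶠ j in atTop, ∀ x ∈ S.U j,
      gmP k (S.n j) {ξ | ∃ σ : St (Col d k a m) d, min δ (1 / 4) <
        |(Nat.card {v // Count674.starOf x.1
        (colV a m x (fun i v => S.F j x i v + Real.sqrt t * ZP s E η c x ξ i v)) v = σ} : ℝ)
          / S.n j - qs σ|} ≤ ENNReal.ofReal (min δ (1 / 4)) :=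
    hL a m 0 (min δ (1 / 4)) (by positivity)
  obtain ⟨j, h1, h2, h3⟩ := ((hU a m ha hm).and (hL0.and (hld ε1 hε10))).exists
  obtain ⟨x, hx⟩ := S.nonempty j
  have h1' := h1 x hx
  have h2' := h2 x hx
  have h3' := h3 x hx
  set Yc : (Fin k → Fin (S.n j) → ℝ) → Fin (S.n j) → Col d k a m := fun ξ =>
    colV a m x (fun i v => S.F j x i v + Real.sqrt t * ZP s E η c x ξ i v) with hYc
  -- a good noise
  have hex : ∃ ξ : Fin k → Fin (S.n j) → ℝ,
      Count674.Psi (S.n j) (Count674.starCnt x.1 (Yc ξ)) ≤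
        m * Real.log 2 + k * (m * Real.log 8) +
        (k : ℝ) / 2 * (Real.log (2 * Real.pi * Real.exp 1 * (t + η / c)) + ldet s E η c x) + ε1 ∧
      ∀ σ : St (Col d k a m) d,
        |(Nat.card {v // Count674.starOf x.1 (Yc ξ) v = σ} : ℝ) / S.n j - qs σ| ≤ δ := by
    by_contra hcon
    push Not at hcon
    have h4 : (Set.univ : Set (Fin k → Fin (S.n j) → ℝ)) ⊆
        {ξ | ¬ Count674.Psi (S.n j) (Count674.starCnt x.1 (Yc ξ)) ≤
        m * Real.log 2 + k * (m * Real.log 8) +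
        (k : ℝ) / 2 * (Real.log (2 * Real.pi * Real.exp 1 * (t + η / c)) + ldet s E η c x) + ε1} ∪
        {ξ | ∃ σ : St (Col d k a m) d, min δ (1 / 4) <
          |(Nat.card {v // Count674.starOf x.1 (Yc ξ) v = σ} : ℝ) / S.n j - qs σ|} := by
      intro ξ _
      by_cases h5 : Count674.Psi (S.n j) (Count674.starCnt x.1 (Yc ξ)) ≤
        m * Real.log 2 + k * (m * Real.log 8) +
        (k : ℝ) / 2 * (Real.log (2 * Real.pi * Real.exp 1 * (t + η / c)) + ldet s E η c x) + ε1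
      · right
        obtain ⟨σ, hσ⟩ := hcon ξ h5
        exact ⟨σ, (min_le_left _ _).trans_lt hσ⟩
      · left
        exact h5
    have h5 : (1 : ENNReal) ≤ ENNReal.ofReal ε1 + ENNReal.ofReal (min δ (1 / 4)) := by
      calc (1 : ENNReal) = gmP k (S.n j) Set.univ := (measure_univ).symm
        _ ≤ _ := measure_mono h4
        _ ≤ _ := measure_union_le _ _
        _ ≤ _ := add_le_add h1' h2'
    rw [← ENNReal.ofReal_add hε10.le (by positivity), ← ENNReal.ofReal_one,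
      ENNReal.ofReal_le_ofReal_iff (by positivity)] at h5
    have := min_le_right δ (1 / 4 : ℝ)
    linarith
  obtain ⟨ξ, h4, h5⟩ := hex
  have h6 := hclose (S.n j) (Count674.starCnt x.1 (Yc ξ)) (by
    intro σ
    have := h5 σ
    rw [Nat.card_eq_fintype_card, Fintype.card_subtype] at this
    exact this)
  have h7 := (abs_le.1 h6).1
  have h9 : ldet s E η c x ≤ l + ε1 := by linarith [(abs_le.1 h3').2]
  have hk0 : (0 : ℝ) ≤ (k : ℝ) / 2 := by positivity
  have h10 := mul_le_mul_of_nonneg_left h9 hk0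
  have h11 : (k : ℝ) / 2 * ε1 + ε1 ≤ ε / 4 := by
    have h12 : ((k : ℝ) + 1) * ε1 ≤ ε / 4 := by
      have := mul_le_mul_of_nonneg_left hε1a (by positivity : (0 : ℝ) ≤ (k : ℝ) + 1)
      refine this.trans (le_of_eq ?_)
      field_simp
    have : (0 : ℝ) ≤ (k : ℝ) * ε1 := by positivity
    linarith
  nlinarith

end Crest.Agent.R166.UppLim724
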