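import Crest.Agent.R166.PhiLimC_85
import Crest.Agent.R166.PhiAlg_879
import Mathlib
import Crest.Agent.R166.Q02_955

-- ▼ part R166/PhiLimD_85
section

/-!
Row 166 (helper85), F4, part D: consequences of `LocLim`, `NonDeg`, `ImFix` for the tree edge block
under the iid law of the environment.
-/

set_option autoImplicit false

open MeasureTheory ProbabilityTheory Filter Topology

namespace Crest.Agent.R166.PhiLim85

open Crest.ProbabilityR.RandomMatrix
open Crest.Agent.R166 Crest.Agent.R166.B2 Crest.Agent.R166.Words955 Crest.Agent.R166.TreeG879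
open Crest.Agent.R166.EnvLaw289 Crest.Agent.R166.LLN289 Crest.Agent.R166.LimEnv289
open Crest.Agent.R166.Seq980
open Crest.Agent.R166.TreeDefs350 (unif)

/-! ### Points in the intersection of events -/

section ex
variable {d : ℕ}

lemma portLaw_univ {n : ℕ} (hne : (regularGraphs n d).Nonempty) :
    portLaw d n Set.univ = 1 := by
  have hpr : IsProbabilityMeasure (potentialLaw n) := by
    rw [LimEnv289.potentialLaw_eq]; infer_instance
  rw [portLaw_apply]
  have h1 : ∀ p ∈ Ports n d, (potentialLaw n) {ω | (p, ω) ∈ (Set.univ : Set (PS d n))} = 1 := by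
    intro p _
    have : {ω : Fin n → ℝ | (p, ω) ∈ (Set.univ : Set (PS d n))} = Set.univ := by
      ext; simp
    rw [this, measure_univ]
  rw [Finset.sum_congr rfl h1]
  simp only [Finset.sum_const, nsmul_eq_mul, mul_one]
  have h2 := (Ports_nonempty_iff (n := n) (d := d)).2 hne
  apply ENNReal.inv_mul_cancel
  · exact_mod_cast (Finset.card_pos.2 h2).ne'
  · exact ENNReal.natCast_ne_top _

lemma exists_good {n : ℕ} (hne : (regularGraphs n d).Nonempty) {A B C : Set (PS d n)}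
    {a b c : ℝ} (ha : 0 ≤ a) (hb : 0 ≤ b) (hc : 0 ≤ c) (hA : portLaw d n A ≤ ENNReal.ofReal a)
    (hB : portLaw d n B ≤ ENNReal.ofReal b) (hC : portLaw d n C ≤ ENNReal.ofReal c)
    (h : a + b + c < 1) : ∃ x ∈ okSet d n, x ∉ A ∧ x ∉ B ∧ x ∉ C := by
  by_contra hcon
  have hsub : (Set.univ : Set (PS d n)) ⊆ ((A ∪ B) ∪ C) ∪ (okSet d n)ᶜ := by
    intro x _
    by_contra hx
    simp only [Set.mem_union, Set.mem_compl_iff, not_or, not_not] at hx
    exact hcon ⟨x, hx.2, hx.1.1.1, hx.1.1.2, hx.1.2⟩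
  have h1 : portLaw d n Set.univ ≤ ENNReal.ofReal (a + b + c) := by
    refine (measure_mono hsub).trans ((measure_union_le _ _).trans ?_)
    rw [okSet_compl, add_zero]
    refine (measure_union_le _ _).trans ((add_le_add (measure_union_le _ _) le_rfl).trans ?_)
    rw [ENNReal.ofReal_add (by positivity) hc, ENNReal.ofReal_add ha hb]
    exact add_le_add (add_le_add hA hB) hC
  rw [portLaw_univ hne] at h1
  have h2 : ENNReal.ofReal (a + b + c) < 1 := by
    rw [← ENNReal.ofReal_one]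
    exact (ENNReal.ofReal_lt_ofReal_iff one_pos).2 h
  exact absurd h1 (not_le.2 h2)

/-- arbitrarily large sizes with regular graphs -/
lemma exists_size (hd : 1 ≤ d) (N : ℕ) : ∃ n, N ≤ n ∧ 0 < n ∧ (regularGraphs n d).Nonempty := by
  obtain ⟨n0, h⟩ := Simple356.regularGraphs_nonempty d hd
  refine ⟨2 * (N + n0 + 1), by omega, by omega, h _ (by omega) ?_⟩
  exact (even_two_mul _).mul_right _

end ex

/-! ### Lipschitz functions -/

lemma abs_min_one_sub (a b : ℝ) : |min 1 a - min 1 b| ≤ |a - b| := by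
  have := abs_min_sub_min_le_max 1 a 1 b
  simpa using this

lemma lip_dist : Lip2 1 fun A B : M2 => min 1 (bnorm (A - B)) where
  nn := zero_le_one
  bd A B := by
    have h := bnorm_nonneg (A - B)
    rw [abs_of_nonneg (le_min zero_le_one h)]
    exact min_le_left _ _
  lip A A' B B' := by
    rw [one_mul]
    refine (abs_min_one_sub _ _).trans ?_
    rw [abs_le]
    have e1 : A - B = (A - A') + (A' - B') + (B' - B) := by abel
    have e2 : A' - B' = (A' - A) + (A - B) + (B - B') := by abel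
    have h1 : bnorm (A - B) ≤ bnorm (A - A') + bnorm (A' - B') + bnorm (B' - B) := by
      conv_lhs => rw [e1]
      exact (bnorm_add_le _ _).trans (add_le_add (bnorm_add_le _ _) le_rfl)
    have h2 : bnorm (A' - B') ≤ bnorm (A' - A) + bnorm (A - B) + bnorm (B - B') := by
      conv_lhs => rw [e2]
      exact (bnorm_add_le _ _).trans (add_le_add (bnorm_add_le _ _) le_rfl)
    rw [bnorm_sub_comm B' B] at h1
    rw [bnorm_sub_comm A' A] at h2
    constructor <;> linarith

/-- the quadratic form of the imaginary part -/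
def qfm (B : M2) (x y : ℝ) : ℝ := ∑ a, ∑ b, ![x, y] a * (B a b).im * ![x, y] b

lemma qfm_eq (B : M2) (x y : ℝ) : qfm B x y =
    (B 0 0).im * x ^ 2 + ((B 0 1).im + (B 1 0).im) * (x * y) + (B 1 1).im * y ^ 2 := by
  simp only [qfm, Fin.sum_univ_two, Matrix.cons_val_zero, Matrix.cons_val_one]
  ring

lemma ND_iff (δ : ℝ) (B : M2) : ND δ B ↔ ∀ x y : ℝ, δ * (x ^ 2 + y ^ 2) ≤ qfm B x y := by
  constructor
  · intro h x y
    have := h ![x, y]
    simpa [qfm] using this
  · intro h x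
    have := h (x 0) (x 1)
    have e : ![x 0, x 1] = x := by
      funext i; fin_cases i <;> rfl
    rw [qfm, e] at this
    exact this

lemma qfm_sub_le (A B : M2) {x y : ℝ} (h : x ^ 2 + y ^ 2 = 1) :
    |qfm A x y - qfm B x y| ≤ 2 * bnorm (A - B) := by
  rw [qfm_eq, qfm_eq]
  have h00 := (Complex.abs_im_le_norm _).trans (entry_le_bnorm (A - B) 0 0)
  have h01 := (Complex.abs_im_le_norm _).trans (entry_le_bnorm (A - B) 0 1)
  have h10 := (Complex.abs_im_le_norm _).trans (entry_le_bnorm (A - B) 1 0)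
  have h11 := (Complex.abs_im_le_norm _).trans (entry_le_bnorm (A - B) 1 1)
  simp only [Matrix.sub_apply, Complex.sub_im] at h00 h01 h10 h11
  rw [abs_le] at h00 h01 h10 h11 ⊢
  set r := bnorm (A - B)
  have hr : 0 ≤ r := bnorm_nonneg _
  have hx := sq_nonneg x
  have hy := sq_nonneg y
  have hxy1 : x * y ≤ 1 / 2 := by nlinarith [sq_nonneg (x - y)]
  have hxy2 : -(1 / 2) ≤ x * y := by nlinarith [sq_nonneg (x + y)]
  have hm : |((A 0 1).im - (B 0 1).im + ((A 1 0).im - (B 1 0).im)) * (x * y)| ≤ r := by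
    rw [abs_mul]
    have q1 : |((A 0 1).im - (B 0 1).im + ((A 1 0).im - (B 1 0).im))| ≤ 2 * r := by
      rw [abs_le]; constructor <;> linarith
    have q2 : |x * y| ≤ 1 / 2 := abs_le.2 ⟨hxy2, hxy1⟩
    calc _ ≤ 2 * r * (1 / 2) := by gcongr
      _ = r := by ring
  rw [abs_le] at hm
  have d1 : ((A 0 0).im - (B 0 0).im) * x ^ 2 ≤ r * x ^ 2 := by gcongr; exact h00.2
  have d2 : -(r * x ^ 2) ≤ ((A 0 0).im - (B 0 0).im) * x ^ 2 := by
    have := mul_le_mul_of_nonneg_right h00.1 hx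
    linarith
  have d3 : ((A 1 1).im - (B 1 1).im) * y ^ 2 ≤ r * y ^ 2 := by gcongr; exact h11.2
  have d4 : -(r * y ^ 2) ≤ ((A 1 1).im - (B 1 1).im) * y ^ 2 := by
    have := mul_le_mul_of_nonneg_right h11.1 hy
    linarith
  have e : r * x ^ 2 + r * y ^ 2 = r := by rw [← mul_add, h, mul_one]
  constructor <;> linarith [hm.1, hm.2]

/-- the smallest eigenvalue of the imaginary part -/
noncomputable def ndv (B : M2) : ℝ := ⨅ θ : ℝ, qfm B (Real.cos θ) (Real.sin θ)

lemma cs1 (θ : ℝ) : Real.cos θ ^ 2 + Real.sin θ ^ 2 = 1 := by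
  rw [add_comm]; exact Real.sin_sq_add_cos_sq θ

lemma qfm_zero (x y : ℝ) : qfm 0 x y = 0 := by simp [qfm_eq]

lemma bdd_qfm (B : M2) : BddBelow (Set.range fun θ : ℝ => qfm B (Real.cos θ) (Real.sin θ)) := by
  refine ⟨-(2 * bnorm B), ?_⟩
  rintro _ ⟨θ, rfl⟩
  have := qfm_sub_le B 0 (cs1 θ)
  rw [qfm_zero, sub_zero, sub_zero, abs_le] at this
  exact this.1

lemma ndv_sub_le (A B : M2) : ndv A ≤ ndv B + 2 * bnorm (A - B) := by
  rw [← sub_le_iff_le_add]
  refine le_ciInf fun θ => ?_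
  have h1 : ndv A ≤ qfm A (Real.cos θ) (Real.sin θ) := ciInf_le (bdd_qfm A) θ
  have h2 := qfm_sub_le A B (cs1 θ)
  rw [abs_le] at h2
  linarith [h2.2]

lemma abs_ndv_sub_le (A B : M2) : |ndv A - ndv B| ≤ 2 * bnorm (A - B) := by
  rw [abs_le]
  have h1 := ndv_sub_le A B
  have h2 := ndv_sub_le B A
  rw [bnorm_sub_comm B A] at h2
  constructor <;> linarith

lemma ND_iff_ndv (δ : ℝ) (B : M2) : ND δ B ↔ δ ≤ ndv B := by
  rw [ND_iff]
  constructor
  · intro h
    refine le_ciInf fun θ => ?_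
    have := h (Real.cos θ) (Real.sin θ)
    rwa [cs1, mul_one] at this
  · intro h x y
    set w : ℂ := ⟨x, y⟩ with hw
    have e1 : ‖w‖ * Real.cos w.arg = x := Complex.norm_mul_cos_arg w
    have e2 : ‖w‖ * Real.sin w.arg = y := Complex.norm_mul_sin_arg w
    have h1 : δ ≤ qfm B (Real.cos w.arg) (Real.sin w.arg) :=
      h.trans (ciInf_le (bdd_qfm B) w.arg)
    have h2 : qfm B x y = ‖w‖ ^ 2 * qfm B (Real.cos w.arg) (Real.sin w.arg) := by
      rw [qfm_eq, qfm_eq]
      conv_lhs => rw [← e1, ← e2]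
      ring
    have h3 : x ^ 2 + y ^ 2 = ‖w‖ ^ 2 := by
      conv_lhs => rw [← e1, ← e2]
      have := cs1 w.arg
      linear_combination ‖w‖ ^ 2 * this
    rw [h2, h3, mul_comm]
    gcongr

/-- smoothed indicator of degeneracy -/
noncomputable def chN (δ : ℝ) (B : M2) : ℝ := min 1 (max 0 (2 - 2 * ndv B / δ))

lemma abs_max_zero_sub (a b : ℝ) : |max 0 a - max 0 b| ≤ |a - b| := by
  have := abs_max_sub_max_le_max 0 a 0 b
  simpa using this

lemma chN_nonneg (δ : ℝ) (B : M2) : 0 ≤ chN δ B := le_min zero_le_one (le_max_left _ _)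
lemma chN_le_one (δ : ℝ) (B : M2) : chN δ B ≤ 1 := min_le_left _ _

lemma lip_chN {δ : ℝ} (hδ : 0 < δ) : Lip2 (4 / δ) fun A _ : M2 => chN δ A where
  nn := by positivity
  bd A _ := by
    rw [abs_of_nonneg (chN_nonneg _ _)]; exact chN_le_one _ _
  lip A A' B B' := by
    unfold chN
    refine (abs_min_one_sub _ _).trans ((abs_max_zero_sub _ _).trans ?_)
    have e : 2 - 2 * ndv A / δ - (2 - 2 * ndv A' / δ) = -(2 / δ) * (ndv A - ndv A') := by
      field_simp; ring
    rw [e, abs_mul, abs_neg, abs_of_pos (by positivity : 0 < 2 / δ)]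
    have h1 := abs_ndv_sub_le A A'
    have h2 := bnorm_nonneg (B - B')
    calc 2 / δ * |ndv A - ndv A'| ≤ 2 / δ * (2 * bnorm (A - A')) := by gcongr
      _ = 4 / δ * bnorm (A - A') := by ring
      _ ≤ 4 / δ * (bnorm (A - A') + bnorm (B - B')) := by gcongr; linarith

lemma chN_of_ND {δ : ℝ} (hδ : 0 < δ) {B : M2} (h : ND δ B) : chN δ B = 0 := by
  rw [ND_iff_ndv] at h
  unfold chN
  have h1 : 2 - 2 * ndv B / δ ≤ 0 := by
    have : 2 ≤ 2 * ndv B / δ := by
      rw [le_div_iff₀ hδ]; linarith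
    linarith
  rw [max_eq_left h1, min_eq_right zero_le_one]

lemma chN_of_not {δ : ℝ} (hδ : 0 < δ) {B : M2} (h : ¬ ND (δ / 2) B) : chN δ B = 1 := by
  rw [ND_iff_ndv, not_le] at h
  unfold chN
  have h1 : 1 ≤ 2 - 2 * ndv B / δ := by
    have : 2 * ndv B / δ ≤ 1 := by
      rw [div_le_iff₀ hδ]; linarith
    linarith
  rw [max_eq_right (by linarith), min_eq_left h1]

lemma lip_im {η : ℝ} (hη : 0 ≤ η) :
    Lip2 η fun A _ : M2 => max (-1) (min 1 (η * (A 0 0).im)) where
  nn := hη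
  bd A _ := by
    rw [abs_le]
    exact ⟨le_max_left _ _, max_le (by norm_num) (min_le_left _ _)⟩
  lip A A' B B' := by
    have h1 := abs_max_sub_max_le_max (-1) (min 1 (η * (A 0 0).im)) (-1)
      (min 1 (η * (A' 0 0).im))
    have h1' : max |(-1 : ℝ) - -1| |min 1 (η * (A 0 0).im) - min 1 (η * (A' 0 0).im)| ≤
        |min 1 (η * (A 0 0).im) - min 1 (η * (A' 0 0).im)| := by
      refine max_le ?_ le_rfl
      rw [sub_self, abs_zero]
      exact abs_nonneg _
    refine (h1.trans h1').trans ((abs_min_one_sub _ _).trans ?_)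
    rw [← mul_sub, abs_mul, abs_of_nonneg hη]
    have h2 := (Complex.abs_im_le_norm _).trans (entry_le_bnorm (A - A') 0 0)
    simp only [Matrix.sub_apply, Complex.sub_im] at h2
    have h3 := bnorm_nonneg (B - B')
    gcongr
    linarith

/-! ### The three facts -/

section facts
variable {d : ℕ} [NeZero d]

/-- environment potential -/
abbrev oE (ξ : Conf d (Fin d × ℝ)) : TW d → ℝ := omOf id ξ

lemma hd1 (d : ℕ) [NeZero d] : 1 ≤ d := Nat.pos_of_ne_zero (NeZero.ne d)

lemma eAvg_mono' {n : ℕ} (G : SimpleGraph (Fin n)) {f g : Fin n → Fin n → ℝ}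
    (h : ∀ u w, f u w ≤ g u w) : eAvg G f ≤ eAvg G g := by
  unfold eAvg
  gcongr
  exact h _ _

lemma eAvg_add' {n : ℕ} (G : SimpleGraph (Fin n)) (f g : Fin n → Fin n → ℝ) :
    eAvg G (fun u w => f u w + g u w) = eAvg G f + eAvg G g := by
  unfold eAvg
  rw [Finset.sum_add_distrib, add_div]

lemma ze_im_pos {E η : ℝ} (h : 0 < η) : 0 < (ze E η).im := by rw [ze_im]; exact h

/-- (T1) the tree blocks are Cauchy in probability -/
theorem fact1 {s E : ℝ} (hLoc : LocLim d s E) : ∀ ε : ℝ, 0 < ε → ∃ η0 : ℝ, 0 < η0 ∧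
    ∀ η, 0 < η → η ≤ η0 → ∀ η', 0 < η' → η' ≤ η0 →
    ∫ ξ, min 1 (bnorm (BT s (ze E η) (oE ξ) - BT s (ze E η') (oE ξ))) ∂(envLaw d unif) ≤ ε := by
  intro ε hε
  set e1 := min ε 1 / 4 with he1
  have he1p : 0 < e1 := by positivity
  have he1a : e1 ≤ ε / 4 := by
    rw [he1]; gcongr; exact min_le_left _ _
  have he1b : e1 ≤ 1 / 4 := by
    rw [he1]; gcongr; exact min_le_right _ _
  obtain ⟨η0, hη0, K0, hK0, H⟩ := hLoc e1 he1p
  refine ⟨η0, hη0, fun η hη hη1 η' hη' hη1' => ?_⟩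
  obtain ⟨N1, hN1⟩ := H η hη hη1 K0 le_rfl
  obtain ⟨N2, hN2⟩ := H η' hη' hη1' K0 le_rfl
  obtain ⟨N3, hN3⟩ := lln_two (d := d) s (ze_im_pos (E := E) hη) (ze_im_pos (E := E) hη')
    lip_dist he1p (δ := 1 / 4) (by norm_num)
  obtain ⟨n, hn, hn0, hne⟩ := exists_size (hd1 d) (max (max N1 N2) N3)
  have W1 := (Whp_iff_port _ _).1 (hN1 n (by omega) hne)
  have W2 := (Whp_iff_port _ _).1 (hN2 n (by omega) hne)
  have W3 := hN3 n (by omega)
  obtain ⟨x, hx, x1, x2, x3⟩ := exists_good hne he1p.le he1p.le (by norm_num) W1 W2 W3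
    (by linarith)
  simp only [Set.mem_ofPred_eq, not_not] at x1 x2
  simp only [Set.mem_ofPred_eq, not_lt] at x3
  have hp := hx.1
  have hb : bAvg s (ze E η) (ze E η') (fun A B : M2 => min 1 (bnorm (A - B))) x ≤ e1 + e1 := by
    rw [bAvg_eq s _ _ _ hp]
    refine le_trans ?_ (add_le_add x1 x2)
    rw [← eAvg_add']
    refine eAvg_mono' _ fun u w => ?_
    set A := Blk (Res (Hm (graphOf x.1) s x.2) (ze E η)) u w
    set B := Blk (Res (Hm (graphOf x.1) s x.2) (ze E η')) u w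
    set C := Blk (Res (Hm (graphOf x.1) s x.2) (zz E K0 n)) u w
    have h1 := bnorm_tri A C B
    rw [bnorm_sub_comm A C] at h1
    have hC1 := bnorm_nonneg (C - A)
    have hC2 := bnorm_nonneg (C - B)
    rcases le_total 1 (bnorm (C - A)) with h2 | h2
    · rw [min_eq_left h2]
      have := le_min zero_le_one hC2
      linarith [min_le_left (1 : ℝ) (bnorm (A - B))]
    · rcases le_total 1 (bnorm (C - B)) with h3 | h3
      · rw [min_eq_left h3]
        have := le_min zero_le_one hC1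
        linarith [min_le_left (1 : ℝ) (bnorm (A - B))]
      · rw [min_eq_right h2, min_eq_right h3]
        exact (min_le_right _ _).trans h1
  rw [abs_le] at x3
  have : ∫ ξ, PhiE s (ze E η) (ze E η') (fun A B : M2 => min 1 (bnorm (A - B))) ξ
      ∂(envLaw d unif) ≤ e1 + (e1 + e1) := by linarith [x3.1]
  refine le_trans this ?_
  linarith

/-- (T2) the tree blocks are non-degenerate -/
theorem fact2 {s E : ℝ} (hND : NonDeg d s E) : ∀ ε : ℝ, 0 < ε → ∃ δ : ℝ, 0 < δ ∧
    ∃ η0 : ℝ, 0 < η0 ∧ ∀ η, 0 < η → η ≤ η0 →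
    (envLaw d unif) {ξ | ¬ ND δ (BT s (ze E η) (oE ξ))} ≤ ENNReal.ofReal ε := by
  intro ε hε
  set e1 := min ε 1 / 4 with he1
  have he1p : 0 < e1 := by positivity
  have he1a : e1 ≤ ε / 4 := by
    rw [he1]; gcongr; exact min_le_left _ _
  have he1b : e1 ≤ 1 / 4 := by
    rw [he1]; gcongr; exact min_le_right _ _
  obtain ⟨δ, hδ, η0, hη0, H⟩ := hND e1 he1p
  refine ⟨δ / 2, by positivity, η0, hη0, fun η hη hη1 => ?_⟩
  obtain ⟨N1, hN1⟩ := H η hη hη1
  obtain ⟨N3, hN3⟩ := lln_two (d := d) s (ze_im_pos (E := E) hη) (ze_im_pos (E := E) hη)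
    (lip_chN hδ) he1p (δ := 1 / 4) (by norm_num)
  obtain ⟨n, hn, hn0, hne⟩ := exists_size (hd1 d) (max N1 N3)
  have W1 := (Whp_iff_port _ _).1 (hN1 n (by omega) hne)
  have W3 := hN3 n (by omega)
  obtain ⟨x, hx, x1, _, x3⟩ := exists_good hne he1p.le he1p.le (by norm_num) W1 W1 W3
    (by linarith)
  simp only [Set.mem_ofPred_eq, not_not] at x1
  simp only [Set.mem_ofPred_eq, not_lt] at x3
  have hp := hx.1
  have hb : bAvg s (ze E η) (ze E η) (fun A _ : M2 => chN δ A) x ≤ e1 := by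
    rw [bAvg_eq s _ _ _ hp]
    refine le_trans (eAvg_mono' _ fun u w => ?_) x1
    split_ifs with h
    · exact (chN_of_ND hδ h).le
    · exact chN_le_one _ _
  rw [abs_le] at x3
  have h2 : ∫ ξ, PhiE s (ze E η) (ze E η) (fun A _ : M2 => chN δ A) ξ ∂(envLaw d unif) ≤
      e1 + e1 := by linarith [x3.1]
  have hcE : Continuous (PhiE (d := d) s (ze E η) (ze E η) (fun A _ : M2 => chN δ A)) := by
    have hc : Continuous fun ξ : Conf d (Fin d × ℝ) => omOf id ξ :=
      continuous_omOf id continuous_id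
    have hz := ze_im_pos (E := E) hη
    exact (lip_chN hδ).continuous ((continuous_BT s hz).comp hc) ((continuous_BT s hz).comp hc)
  have hint : Integrable (PhiE (d := d) s (ze E η) (ze E η) (fun A _ : M2 => chN δ A))
      (envLaw d unif) :=
    Integrable.of_bound hcE.aestronglyMeasurable 1
      (Eventually.of_forall fun ξ => by rw [Real.norm_eq_abs]; exact (lip_chN hδ).bd _ 0)
  have hnn : 0 ≤ᵐ[envLaw d unif]
      PhiE (d := d) s (ze E η) (ze E η) (fun A _ : M2 => chN δ A) :=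
    Eventually.of_forall fun ξ => chN_nonneg _ _
  have hM := mul_meas_ge_le_integral_of_nonneg hnn hint 1
  rw [one_mul] at hM
  have hsub : {ξ : Conf d (Fin d × ℝ) | ¬ ND (δ / 2) (BT s (ze E η) (oE ξ))} ⊆
      {ξ | 1 ≤ PhiE s (ze E η) (ze E η) (fun A _ : M2 => chN δ A) ξ} := by
    intro ξ hξ
    exact (chN_of_not hδ hξ).ge
  refine (measure_mono hsub).trans ?_
  have h3 : (envLaw d unif).real
      {ξ | 1 ≤ PhiE s (ze E η) (ze E η) (fun A _ : M2 => chN δ A) ξ} ≤ ε := by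
    linarith
  rw [Measure.real, ← ENNReal.ofReal_le_ofReal_iff hε.le,
    ENNReal.ofReal_toReal (measure_ne_top _ _)] at h3
  exact h3

lemma norm_Res_le' {n : ℕ} {p : Equiv.Perm (HE n d)} (hp : IsPort p) (s : ℝ) (om : Fin n → ℝ)
    (hom : ∀ v, |om v| ≤ 1) {z : ℂ} (hz : 0 < z.im) (u v : Fin n) :
    ‖Res (Hm (graphOf p) s om) z u v‖ ≤ 1 / z.im := by
  rw [Res_eq_gOp p hp s om hom hz.ne']
  exact L2G879.Op.norm_G_le _ hz _ _

/-- (T3) the mean of the imaginary part -/
theorem fact3 {s E ρ : ℝ} (hIm : ImFix d s E ρ) : ∀ ε : ℝ, 0 < ε → ∃ η0 : ℝ, 0 < η0 ∧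
    ∀ η, 0 < η → η ≤ η0 →
    |∫ ξ, (BT s (ze E η) (oE ξ) 0 0).im ∂(envLaw d unif) - Real.pi * ρ| ≤ ε := by
  intro ε hε
  set e1 := min ε 1 / 4 with he1
  have he1p : 0 < e1 := by positivity
  have he1a : e1 ≤ ε / 4 := by
    rw [he1]; gcongr; exact min_le_left _ _
  have he1b : e1 ≤ 1 / 4 := by
    rw [he1]; gcongr; exact min_le_right _ _
  obtain ⟨η0, hη0, H⟩ := hIm e1 he1p
  refine ⟨η0, hη0, fun η hη hη1 => ?_⟩
  obtain ⟨N1, hN1⟩ := H η hη hη1
  obtain ⟨N3, hN3⟩ := lln_two (d := d) s (ze_im_pos (E := E) hη) (ze_im_pos (E := E) hη)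
    (lip_im hη.le) (ε := η * e1) (by positivity) (δ := 1 / 4) (by norm_num)
  obtain ⟨n, hn, hn0, hne⟩ := exists_size (hd1 d) (max N1 N3)
  have W1 := (Whp_iff_port _ _).1 (hN1 n (by omega) hne)
  have W3 := hN3 n (by omega)
  obtain ⟨x, hx, x1, _, x3⟩ := exists_good hne he1p.le he1p.le (by norm_num) W1 W1 W3
    (by linarith)
  simp only [Set.mem_ofPred_eq, not_not] at x1
  simp only [Set.mem_ofPred_eq, not_lt] at x3
  have hp := hx.1
  have hom : ∀ v, |x.2 v| ≤ 1 := fun v => abs_le.2 (hx.2 v)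
  have hz := ze_im_pos (E := E) hη
  have hcl : ∀ t : ℝ, |t| ≤ 1 / η → max (-1) (min 1 (η * t)) = η * t := by
    intro t ht
    have h1 : |η * t| ≤ 1 := by
      rw [abs_mul, abs_of_pos hη]
      calc η * |t| ≤ η * (1 / η) := by gcongr
        _ = 1 := by field_simp
    rw [abs_le] at h1
    rw [min_eq_right h1.2, max_eq_right h1.1]
  have hn' : (0 : ℝ) < n := by exact_mod_cast hn0
  have hd' : (0 : ℝ) < d := by exact_mod_cast hd1 d
  -- the average over the graph
  have hb : bAvg s (ze E η) (ze E η) (fun A _ : M2 => max (-1) (min 1 (η * (A 0 0).im))) x =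
      η * (mn (Hm (graphOf x.1) s x.2) (ze E η)).im := by
    unfold bAvg
    have e1 : ∀ h : HE n d, max (-1) (min 1 (η *
        (Blk (Res (Hm (graphOf x.1) s x.2) (ze E η)) h.1 (x.1 h).1 0 0).im)) =
        η * (Res (Hm (graphOf x.1) s x.2) (ze E η) h.1 h.1).im := by
      intro h
      refine hcl _ ?_
      refine (Complex.abs_im_le_norm _).trans ?_
      have := norm_Res_le' hp s x.2 hom hz h.1 h.1
      rwa [ze_im] at this
    rw [Finset.sum_congr rfl fun h _ => e1 h, Fintype.sum_prod_type]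
    simp only [Finset.sum_const, Finset.card_univ, Fintype.card_fin, nsmul_eq_mul]
    unfold mn Matrix.trace
    rw [Complex.div_natCast_im, Complex.im_sum]
    simp only [Matrix.diag_apply]
    rw [← Finset.mul_sum, ← Finset.mul_sum]
    field_simp
  have hi : ∫ ξ, PhiE s (ze E η) (ze E η)
      (fun A _ : M2 => max (-1) (min 1 (η * (A 0 0).im))) ξ ∂(envLaw d unif) =
      η * ∫ ξ, (BT s (ze E η) (oE ξ) 0 0).im ∂(envLaw d unif) := by
    rw [← integral_const_mul]
    refine integral_congr_ae (Eventually.of_forall fun ξ => ?_)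
    refine hcl _ ?_
    refine (Complex.abs_im_le_norm _).trans ?_
    rw [BT_apply s hz]
    have := norm_treeG_le s hz (omOf id ξ) (rt2 d 0) (rt2 d 0)
    rwa [ze_im] at this
  rw [hb, hi, ← mul_sub, abs_mul, abs_of_pos hη] at x3
  have x4 := le_of_mul_le_mul_left x3 hη
  rw [abs_le] at x4 x1 ⊢
  constructor <;> linarith [x4.1, x4.2, x1.1, x1.2]

end facts

end Crest.Agent.R166.PhiLim85
end

-- ▼ part R166/PhiLimE_85
section

/-!
Row 166 (helper85), F4 / B15, part E: the limit cavity field of the iid environment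
(from `LocLim`, `NonDeg`, `ImFix`).
-/

set_option autoImplicit false

open MeasureTheory ProbabilityTheory Filter Topology

namespace Crest.Agent.R166.PhiLim85

open Crest.ProbabilityR.RandomMatrix
open Crest.Agent.R166 Crest.Agent.R166.B2 Crest.Agent.R166.Words955
open Crest.Agent.R166.TreeG879 (cav treeG omOf tOp US clip omOf_cross omOf_step omOf_rotn
  continuous_cav im_cav_pos norm_cav_le abs_clip_le clip_eq continuous_clip continuous_omOf)
open Crest.Agent.R166.EnvLaw289 Crest.Agent.R166.LLN289 Crest.Agent.R166.LimEnv289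
open Crest.Agent.R166.Seq980
open Crest.Agent.R166.TreeDefs350 (unif)

variable {d : ℕ} [NeZero d]

/-! ### Locality of the cavity number -/

theorem cav_congr (s : ℝ) {z : ℂ} (hz : 0 < z.im) {om om' : TW d → ℝ}
    (h : ∀ x ∈ US d, om x = om' x) : cav s z om = cav s z om' := by
  classical
  have key : ∀ ε : ℝ, 0 < ε → ‖cav s z om - cav s z om'‖ ≤ 2 * ε := by
    intro ε hε
    refine L2G879.Op.norm_G_sub_G_le ((tOp s om).cut (US d)) ((tOp s om').cut (US d)) id TW.nil
      (fun _ x => x ∈ US d) ?_ ?_ ?_ hz hε (x := TW.nil) ?_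
    · intro k x hx
      refine ⟨hx, fun x' hx' => ?_⟩
      exact ((L2G879.Op.mem_cut_nb (H := tOp s om)).1 hx').2.2
    · intro k x hx
      refine ⟨?_, by simp [Set.injOn_id], ?_⟩
      · rw [Finset.image_id]
        ext y
        simp only [id]
        rw [L2G879.Op.mem_cut_nb, L2G879.Op.mem_cut_nb]
        exact Iff.rfl
      · simp only [id, L2G879.Op.cut_v, TreeG879.tOp_v]
        rw [h x hx]
    · intro x _; exact Iff.rfl
    · simp [TreeG879.mem_US, TW.nil]
  have h0 : ‖cav s z om - cav s z om'‖ ≤ 0 := by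
    refine le_of_forall_pos_le_add fun ε hε => ?_
    have := key (ε / 2) (by positivity)
    linarith
  exact sub_eq_zero.1 (norm_le_zero_iff.1 h0)

/-- the potential away from the root vertex -/
def rst (om : TW d → ℝ) : TW d → ℝ := fun w => if w = TW.nil then 0 else om w

lemma mv_ne_nil (i : Fin d) {x : TW d} (hx : x ∈ US d) : TreeG879.mv i x ≠ TW.nil := by
  intro h
  have h1 : TreeG879.mvL [i] x ∈ TreeG879.Br [i] :=
    (TreeG879.mvL_mem_Br (w := [i]) (by simp) (by simp) x).2 hx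
  rw [TreeG879.mvL_single, h] at h1
  exact TreeG879.not_mem_Br_nil (by simp) h1

theorem cav_mv (s : ℝ) {z : ℂ} (hz : 0 < z.im) (om : TW d → ℝ) (i : Fin d) :
    cav s z (om ∘ TreeG879.mv i) = cav s z (rst om ∘ TreeG879.mv i) := by
  refine cav_congr s hz fun x hx => ?_
  simp only [Function.comp, rst]
  rw [if_neg (mv_ne_nil i hx)]

lemma tOp_clip (s : ℝ) (om : TW d → ℝ) : tOp s (fun w => clip (om w)) = tOp s om := by
  refine L2G879.Op.ext' (fun _ _ => Iff.rfl) fun x => ?_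
  simp only [TreeG879.tOp_v]
  rw [clip_eq (abs_clip_le _)]

theorem cav_clip (s : ℝ) (z : ℂ) (om : TW d → ℝ) :
    cav s z (fun w => clip (om w)) = cav s z om := by
  unfold TreeG879.cav
  rw [tOp_clip]

/-! ### The iid environment -/

noncomputable abbrev mu1 (d : ℕ) [NeZero d] : Measure (Conf d (Fin d × ℝ)) := envLaw d unif

/-- potential at the root -/
def om1 (ξ : Conf d (Fin d × ℝ)) : ℝ := (ξ TW.nil).2

lemma measurable_om1 : Measurable (om1 : Conf d (Fin d × ℝ) → ℝ) :=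
  measurable_snd.comp (measurable_pi_apply TW.nil)

lemma map_om1 : (mu1 d).map om1 = unif := by
  have h1 : (mu1 d).map (fun ξ => ξ TW.nil) = siteLaw d unif := envLaw_eval unif TW.nil
  have h2 : (om1 : Conf d (Fin d × ℝ) → ℝ) = Prod.snd ∘ (fun ξ => ξ TW.nil) := rfl
  rw [h2, ← Measure.map_map measurable_snd (measurable_pi_apply _), h1, siteLaw]
  rw [← Measure.snd, Measure.snd_prod]

lemma unif_ae' : ∀ᵐ t ∂unif, |t| ≤ 1 := by
  have h : ∀ᵐ x ∂(volume.restrict (Set.Icc (-1 : ℝ) 1)), |x| ≤ 1 := by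
    filter_upwards [ae_restrict_mem measurableSet_Icc] with x hx
    exact abs_le.2 hx
  unfold TreeDefs350.unif
  exact Measure.ae_smul_measure h _

/-- the potentials are in the cube -/
lemma ae_om1_le : ∀ᵐ ξ ∂(mu1 d), |om1 ξ| ≤ 1 := by
  have h := unif_ae'
  rw [← map_om1 (d := d)] at h
  exact ae_of_ae_map measurable_om1.aemeasurable h

lemma measurable_omOf_id : Measurable (omOf id : Conf d (Fin d × ℝ) → TW d → ℝ) :=
  (continuous_omOf id continuous_id).measurable

/-- the potential at the root is independent of the other potentials -/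
lemma indep_root : IndepFun (om1 : Conf d (Fin d × ℝ) → ℝ)
    (fun ξ : Conf d (Fin d × ℝ) => rst (omOf id ξ)) (mu1 d) := by
  have h0 : iIndepFun (fun (w : TW d) (ξ : Conf d (Fin d × ℝ)) => ξ w) (mu1 d) :=
    envLaw_iIndep unif
  have h1 : iIndepFun (fun (w : TW d) (ξ : Conf d (Fin d × ℝ)) => (ξ w).2) (mu1 d) :=
    h0.comp (fun _ x => x.2) (fun _ => measurable_snd)
  have hm : ∀ w : TW d, Measurable fun ξ : Conf d (Fin d × ℝ) => (ξ w).2 := fun w =>
    measurable_snd.comp (measurable_pi_apply w)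
  have h2 := indep_iSup_of_disjoint (m := fun w : TW d => MeasurableSpace.comap
    (fun ξ : Conf d (Fin d × ℝ) => (ξ w).2) inferInstance) (fun w => (hm w).comap_le)
    ((iIndepFun_iff_iIndep _ _ _).1 h1) (S := {TW.nil}) (T := {TW.nil}ᶜ) disjoint_compl_right
  rw [IndepFun_iff_Indep]
  refine indep_of_indep_of_le_left (indep_of_indep_of_le_right h2 ?_) ?_
  · refine Measurable.comap_le ?_
    refine @measurable_pi_lambda _ _ _ (_) _ _ fun w => ?_
    unfold rst
    by_cases hw : w = TW.nil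
    · simp only [hw, if_true]
      exact measurable_const
    · simp only [hw, if_false]
      have hle : MeasurableSpace.comap (fun ξ : Conf d (Fin d × ℝ) => (ξ w).2) inferInstance ≤
          ⨆ i ∈ ({TW.nil}ᶜ : Set (TW d)), MeasurableSpace.comap
            (fun ξ : Conf d (Fin d × ℝ) => (ξ i).2) inferInstance :=
        le_iSup₂_of_le (f := fun i (_ : i ∈ ({TW.nil}ᶜ : Set (TW d))) => MeasurableSpace.comap
            (fun ξ : Conf d (Fin d × ℝ) => (ξ i).2) inferInstance) w hw le_rfl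
      have h3 : Measurable[MeasurableSpace.comap (fun ξ : Conf d (Fin d × ℝ) => (ξ w).2)
        inferInstance] (fun ξ : Conf d (Fin d × ℝ) => (ξ w).2) := comap_measurable _
      exact h3.mono hle le_rfl
  · refine Measurable.comap_le ?_
    have hle : MeasurableSpace.comap (fun ξ : Conf d (Fin d × ℝ) => (ξ TW.nil).2) inferInstance ≤
        ⨆ i ∈ ({TW.nil} : Set (TW d)), MeasurableSpace.comap
          (fun ξ : Conf d (Fin d × ℝ) => (ξ i).2) inferInstance :=
      le_iSup₂_of_le (f := fun i (_ : i ∈ ({TW.nil} : Set (TW d))) => MeasurableSpace.comap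
          (fun ξ : Conf d (Fin d × ℝ) => (ξ i).2) inferInstance) TW.nil rfl le_rfl
    have h3 : Measurable[MeasurableSpace.comap (fun ξ : Conf d (Fin d × ℝ) => (ξ TW.nil).2)
      inferInstance] (fun ξ : Conf d (Fin d × ℝ) => (ξ TW.nil).2) := comap_measurable _
    exact h3.mono hle le_rfl

/-- cavity fields on the environment -/
noncomputable def c1 (s E : ℝ) (η : ℕ → ℝ) (l : ℕ) (ξ : Conf d (Fin d × ℝ)) : ℂ :=
  cav s (ze E (η l)) (omOf id ξ)

lemma measurable_c1 (s E : ℝ) {η : ℕ → ℝ} (hη : ∀ l, 0 < η l) (l : ℕ) :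
    Measurable (c1 s E η l : Conf d (Fin d × ℝ) → ℂ) :=
  (continuous_cav s (ze_im_pos (hη l))).measurable.comp measurable_omOf_id

lemma im_c1 (s E : ℝ) {η : ℕ → ℝ} (hη : ∀ l, 0 < η l) (l : ℕ) (ξ : Conf d (Fin d × ℝ)) :
    0 < (c1 s E η l ξ).im := im_cav_pos s (ze_im_pos (hη l)) _

lemma c1_mv (s E : ℝ) {η : ℕ → ℝ} (hη : ∀ l, 0 < η l) (l j : ℕ) (ξ : Conf d (Fin d × ℝ)) :
    c1 s E η l (B2.mv cross (rotn 1) j ξ) =
      cav s (ze E (η l)) (rst (omOf id ξ) ∘ TreeG879.mv (Fin.ofNat d j)) := by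
  unfold c1
  rw [PhiAlg879.mv_eq, omOf_step, cav_mv s (ze_im_pos (hη l))]

lemma indep_c1 (s E : ℝ) {η : ℕ → ℝ} (hη : ∀ l, 0 < η l) :
    IndepFun (om1 : Conf d (Fin d × ℝ) → ℝ)
      (fun ξ => fun q : ℕ × ℕ => c1 s E η q.1 (B2.mv cross (rotn 1) q.2 ξ)) (mu1 d) := by
  have hψ : Measurable fun v : TW d → ℝ => fun q : ℕ × ℕ =>
      cav s (ze E (η q.1)) (v ∘ TreeG879.mv (Fin.ofNat d q.2)) := by
    refine measurable_pi_lambda _ fun q => ?_
    refine (continuous_cav s (ze_im_pos (hη q.1))).measurable.comp ?_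
    exact measurable_pi_lambda _ fun w => measurable_pi_apply _
  have h1 := (indep_root (d := d)).comp measurable_id hψ
  have e : (fun (ξ : Conf d (Fin d × ℝ)) (q : ℕ × ℕ) =>
      c1 s E η q.1 (B2.mv cross (rotn 1) q.2 ξ)) =
      (fun v : TW d → ℝ => fun q : ℕ × ℕ =>
      cav s (ze E (η q.1)) (v ∘ TreeG879.mv (Fin.ofNat d q.2))) ∘
        (fun ξ : Conf d (Fin d × ℝ) => rst (omOf id ξ)) := by
    funext ξ q
    exact c1_mv s E hη q.1 q.2 ξ
  rw [e]
  exact h1


/-- the recursion -/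
lemma c1_rec (s E : ℝ) {η : ℕ → ℝ} (hη : ∀ l, 0 < η l) (l : ℕ) {ξ : Conf d (Fin d × ℝ)}
    (hom : |om1 ξ| ≤ 1) :
    c1 s E η l ξ * ((E : ℂ) + Complex.I * η l - s * om1 ξ +
      ∑ j ∈ Finset.range (d - 1), c1 s E η l (B2.mv cross (rotn 1) (j + 1) ξ)) = -1 := by
  have h1 := TreeG879.cav_rec s (omOf id ξ) (ze_im_pos (E := E) (hη l))
  have e : omOf id ξ TW.nil = om1 ξ := rfl
  rw [e, clip_eq hom] at h1
  rw [PhiAlg879.sum_mv_succ]
  have e2 : ∀ k : Fin d, c1 s E η l (step k ξ) =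
      cav s (ze E (η l)) (omOf id ξ ∘ TreeG879.mv k) := by
    intro k
    unfold c1
    rw [omOf_step]
  simp only [e2]
  exact h1

/-- the full Green function -/
lemma Gdl_c1 (s E : ℝ) {η : ℕ → ℝ} (hη : ∀ l, 0 < η l) (l : ℕ) {ξ : Conf d (Fin d × ℝ)}
    (hom : |om1 ξ| ≤ 1) :
    Gdl cross (rotn 1) d s (ze E (η l)) om1 (c1 s E η l) ξ =
      BT s (ze E (η l)) (oE ξ) 0 0 := by
  have h1 := TreeG879.treeG_nil s (omOf id ξ) (ze_im_pos (E := E) (hη l))
  have e : omOf id ξ TW.nil = om1 ξ := rfl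
  rw [e, clip_eq hom] at h1
  have e2 : ∀ k : Fin d, c1 s E η l (step k ξ) =
      cav s (ze E (η l)) (omOf id ξ ∘ TreeG879.mv k) := by
    intro k
    unfold c1
    rw [omOf_step]
  unfold Gdl
  rw [PhiAlg879.sum_mv, BT_00 s (ze_im_pos (hη l))]
  simp only [e2]
  have hne : (ze E (η l) - s * (om1 ξ : ℂ) +
      ∑ k : Fin d, cav s (ze E (η l)) (omOf id ξ ∘ TreeG879.mv k)) ≠ 0 := by
    intro h0
    rw [h0, mul_zero] at h1
    exact absurd h1 (by norm_num)
  rw [div_eq_iff hne]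
  exact h1.symm

/-! ### The sequence of spectral parameters -/

/-- summable choice -/
lemma exists_etas {Q : ℝ → ℕ → Prop} (hQ : ∀ l : ℕ, ∃ η0 : ℝ, 0 < η0 ∧ ∀ η, 0 < η → η ≤ η0 →
    Q η l) : ∃ e : ℕ → ℝ, ∃ η : ℕ → ℝ, (∀ l, 0 < e l) ∧ (∀ l, ∀ t, 0 < t → t ≤ e l → Q t l) ∧
    (∀ l, 0 < η l) ∧ Tendsto η atTop (𝓝 0) ∧ (∀ l, η l ≤ e l) ∧ ∀ l, η (l + 1) ≤ η l := by
  choose e he hQe using hQ
  let η : ℕ → ℝ := fun l => Nat.rec (min (e 0) 1) (fun l x => min (min x (e (l + 1)))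
    (1 / ((l : ℝ) + 2))) l
  have h0 : η 0 = min (e 0) 1 := rfl
  have hs : ∀ l, η (l + 1) = min (min (η l) (e (l + 1))) (1 / ((l : ℝ) + 2)) := fun l => rfl
  have hpos : ∀ l, 0 < η l := by
    intro l
    induction l with
    | zero => rw [h0]; exact lt_min (he 0) one_pos
    | succ l ih =>
      rw [hs]
      exact lt_min (lt_min ih (he _)) (by positivity)
  refine ⟨e, η, he, hQe, hpos, ?_, ?_, ?_⟩
  · have h1 : Tendsto (fun l : ℕ => η (l + 1)) atTop (𝓝 0) := by
      refine squeeze_zero (fun l => (hpos (l + 1)).le) (fun l => ?_)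
        (tendsto_one_div_add_atTop_nhds_zero_nat (𝕜 := ℝ))
      rw [hs]
      refine (min_le_right _ _).trans ?_
      refine one_div_le_one_div_of_le (by positivity) (by linarith)
    exact (tendsto_add_atTop_iff_nat 1).1 h1
  · intro l
    cases l with
    | zero => rw [h0]; exact min_le_left _ _
    | succ l => rw [hs]; exact (min_le_left _ _).trans (min_le_right _ _)
  · intro l
    rw [hs]; exact (min_le_left _ _).trans (min_le_left _ _)

/-! ### The main theorem -/

/-- the limit cavity number -/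
noncomputable def cavL (s E : ℝ) (η : ℕ → ℝ) (om : TW d → ℝ) : ℂ :=
  limUnder atTop fun l => cav s (ze E (η l)) om

lemma measurable_cavL (s E : ℝ) {η : ℕ → ℝ} (hη : ∀ l, 0 < η l) :
    Measurable (cavL s E η : (TW d → ℝ) → ℂ) :=
  (StronglyMeasurable.limUnder (l := atTop) (f := fun l (om : TW d → ℝ) => cav s (ze E (η l)) om)
    fun l => (continuous_cav s (ze_im_pos (hη l))).measurable.stronglyMeasurable).measurable

lemma cavL_clip (s E : ℝ) (η : ℕ → ℝ) (om : TW d → ℝ) :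
    cavL s E η (fun w => clip (om w)) = cavL s E η om := by
  unfold cavL
  simp only [cav_clip]

/-- specification of the limit cavity number over the iid environment -/
structure CavSpec (d : ℕ) [NeZero d] (s E ρ : ℝ) (η : ℕ → ℝ) : Prop where
  pos : ∀ l, 0 < η l
  lim0 : Tendsto η atTop (𝓝 0)
  im : ∀ᵐ ξ ∂(mu1 d), 0 < (cavL s E η (omOf id ξ)).im
  lim : ∀ᵐ ξ ∂(mu1 d), Tendsto (fun l => cav s (ze E (η l)) (omOf id ξ)) atTop
    (𝓝 (cavL s E η (omOf id ξ)))
  nd : ∀ᵐ ξ ∂(mu1 d), ∃ δ : ℝ, 0 < δ ∧ ND δ (Bk cross (fun ξ => cavL s E η (omOf id ξ)) ξ)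
  rec' : ∀ᵐ ξ ∂(mu1 d), cavL s E η (omOf id ξ) * ((E : ℂ) - s * om1 ξ +
    ∑ j ∈ Finset.range (d - 1), cavL s E η (omOf id (B2.mv cross (rotn 1) (j + 1) ξ))) = -1
  G_int : Integrable (fun ξ => (Gd cross (rotn 1) d s E om1
    (fun ξ => cavL s E η (omOf id ξ)) ξ).im) (mu1 d)
  G_rho : ∫ ξ, (Gd cross (rotn 1) d s E om1 (fun ξ => cavL s E η (omOf id ξ)) ξ).im ∂(mu1 d) =
    Real.pi * ρ

lemma mp_cross1 : MeasurePreserving (cross : Conf d (Fin d × ℝ) → _) (mu1 d) (mu1 d) :=
  ⟨measurable_cross, envLaw_cross unif⟩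

lemma mp_rotn1 : MeasurePreserving (rotn 1 : Conf d (Fin d × ℝ) → _) (mu1 d) (mu1 d) :=
  ⟨measurable_rotn Erg424.measurable_rs 1, envLaw_rotn unif 1⟩

theorem cav_seq {s E ρ : ℝ} (hs : 0 ≤ s) (hLoc : LocLim d s E) (hND : NonDeg d s E)
    (hIm : ImFix d s E ρ) : ∃ η : ℕ → ℝ, CavSpec d s E ρ η := by
  have hpow : ∀ l : ℕ, (0 : ℝ) < (1 / 2) ^ l := fun l => by positivity
  obtain ⟨e, η, he, hQ, hη, hη0, hηe, hηm⟩ := exists_etas
    (Q := fun t l => ∀ η', 0 < η' → η' ≤ t →
      ∫ ξ, min 1 (bnorm (BT s (ze E t) (oE ξ) - BT s (ze E η') (oE ξ))) ∂(envLaw d unif) ≤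
        (1 / 2) ^ l)
    (by
      intro l
      obtain ⟨η0, h0, h1⟩ := fact1 (d := d) hLoc ((1 / 2) ^ l) (hpow l)
      exact ⟨η0, h0, fun t ht ht1 η' hη' hη1 => h1 t ht ht1 η' hη' (hη1.trans ht1)⟩)
  -- summability
  have hsum : ∑' l, ∫⁻ ξ, ENNReal.ofReal (min 1
      (bnorm (Bk cross (c1 s E η l) ξ - Bk cross (c1 s E η (l + 1)) ξ))) ∂(mu1 d) ≠ ⊤ := by
    have hle : ∀ l, ∫⁻ ξ, ENNReal.ofReal (min 1
        (bnorm (Bk cross (c1 s E η l) ξ - Bk cross (c1 s E η (l + 1)) ξ))) ∂(mu1 d) ≤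
        ENNReal.ofReal ((1 / 2) ^ l) := by
      intro l
      have hc : Continuous fun ξ : Conf d (Fin d × ℝ) => omOf id ξ :=
        continuous_omOf id continuous_id
      have hcont : Continuous fun ξ : Conf d (Fin d × ℝ) =>
          min 1 (bnorm (Bk cross (c1 s E η l) ξ - Bk cross (c1 s E η (l + 1)) ξ)) :=
        lip_dist.continuous ((continuous_BT s (ze_im_pos (E := E) (hη l))).comp hc)
          ((continuous_BT s (ze_im_pos (E := E) (hη (l + 1)))).comp hc)
      have hnn : ∀ ξ : Conf d (Fin d × ℝ), 0 ≤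
          min 1 (bnorm (Bk cross (c1 s E η l) ξ - Bk cross (c1 s E η (l + 1)) ξ)) :=
        fun ξ => le_min zero_le_one (bnorm_nonneg _)
      have hint : Integrable (fun ξ : Conf d (Fin d × ℝ) =>
          min 1 (bnorm (Bk cross (c1 s E η l) ξ - Bk cross (c1 s E η (l + 1)) ξ))) (mu1 d) :=
        Integrable.of_bound hcont.aestronglyMeasurable 1
          (Eventually.of_forall fun ξ => by
            rw [Real.norm_eq_abs, abs_of_nonneg (hnn ξ)]; exact min_le_left _ _)
      rw [← ofReal_integral_eq_lintegral_ofReal hint (Eventually.of_forall hnn)]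
      exact ENNReal.ofReal_le_ofReal (hQ l (η l) (hη l) (hηe l) (η (l + 1)) (hη _) (hηm l))
    refine ne_top_of_le_ne_top ?_ (ENNReal.tsum_le_tsum hle)
    rw [← ENNReal.ofReal_tsum_of_nonneg (fun l => (hpow l).le) summable_geometric_two]
    exact ENNReal.ofReal_ne_top
  -- non-degeneracy
  have hnd : ∀ ε : ℝ, 0 < ε → ∃ δ : ℝ, 0 < δ ∧ ∃ᶠ l in atTop,
      (mu1 d) {ξ | ¬ ND δ (Bk cross (c1 s E η l) ξ)} ≤ ENNReal.ofReal ε := by
    intro ε hε
    obtain ⟨δ, hδ, η0, h0, h1⟩ := fact2 (d := d) hND ε hε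
    refine ⟨δ, hδ, Eventually.frequently ?_⟩
    filter_upwards [hη0.eventually (ge_mem_nhds h0)] with l hl
    exact h1 (η l) (hη l) hl
  have hcm := measurable_c1 (d := d) s E hη
  have him : ∀ l, ∀ᵐ ξ ∂(mu1 d), 0 < (c1 s E η l ξ).im := fun l =>
    Eventually.of_forall fun ξ => im_c1 s E hη l ξ
  obtain ⟨P1, P2, P3, P4⟩ := cavLim_props (P := mu1 d) mp_cross1 hcm him hsum hnd
  have hcl : cavLim (c1 s E η) = fun ξ : Conf d (Fin d × ℝ) => cavL s E η (omOf id ξ) := rfl
  -- the recursion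
  have hrec := cavLim_rec (d := d) (s := s) (E := E) (om := om1) (P := mu1 d) mp_cross1 mp_rotn1
    hη0 (fun l => by
      filter_upwards [ae_om1_le (d := d)] with ξ hξ
      exact c1_rec s E hη l hξ) P2
  -- the mean
  have hL : Tendsto (fun l => ∫ ξ, (Gdl cross (rotn 1) d s (ze E (η l)) om1 (c1 s E η l) ξ).im
      ∂(mu1 d)) atTop (𝓝 (Real.pi * ρ)) := by
    have e1 : ∀ l, ∫ ξ, (Gdl cross (rotn 1) d s (ze E (η l)) om1 (c1 s E η l) ξ).im ∂(mu1 d) =
        ∫ ξ, (BT s (ze E (η l)) (oE ξ) 0 0).im ∂(mu1 d) := by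
      intro l
      refine integral_congr_ae ?_
      filter_upwards [ae_om1_le (d := d)] with ξ hξ
      rw [Gdl_c1 s E hη l hξ]
    simp only [e1]
    rw [Metric.tendsto_nhds]
    intro ε hε
    obtain ⟨η0, h0, h1⟩ := fact3 (d := d) hIm (ε / 2) (by positivity)
    filter_upwards [hη0.eventually (ge_mem_nhds h0)] with l hl
    have := h1 (η l) (hη l) hl
    rw [Real.dist_eq]
    linarith
  have hd0 : 0 < d := hd1 d
  have hG : Integrable (fun ξ => (Gd cross (rotn 1) d s E om1 (cavLim (c1 s E η)) ξ).im) (mu1 d) ∧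
      ∫ ξ, (Gd cross (rotn 1) d s E om1 (cavLim (c1 s E η)) ξ).im ∂(mu1 d) = Real.pi * ρ := by
    rcases hs.eq_or_lt with h0 | h0
    · refine G_rho_const mp_cross1 mp_rotn1 hd0 hη0 (fun l => ?_) P1 P2 hL
      refine ⟨BT s (ze E (η l)) (fun _ : TW d => 0) 0 0, ?_⟩
      filter_upwards [ae_om1_le (d := d)] with ξ hξ
      rw [Gdl_c1 s E hη l hξ, BT_00 s (ze_im_pos (hη l)), BT_00 s (ze_im_pos (hη l))]
      have e : tOp s (oE ξ) = tOp s (fun _ : TW d => 0) := by
        refine L2G879.Op.ext' (fun _ _ => Iff.rfl) fun x => ?_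
        simp only [TreeG879.tOp_v]
        rw [← h0]; ring
      unfold TreeG879.treeG
      rw [e]
    · exact G_rho_indep mp_cross1 mp_rotn1 hd0 h0 measurable_om1 map_om1 hcm him
        (indep_c1 s E hη) hη hη0 P1 P2 hL
  exact ⟨η, ⟨hη, hη0, P1, P2, P3, hrec, hG.1, hG.2⟩⟩

end Crest.Agent.R166.PhiLim85
end

-- ▼ part R166/PhiLimF_85
section

/-!
Row 166 (helper85), F4 / B15, part F: transport of the limit cavity field to every law on
configurations whose environment is iid, in the form of `B2.LimProc`.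
-/

set_option autoImplicit false

open MeasureTheory ProbabilityTheory Filter Topology

namespace Crest.Agent.R166.PhiLim85

open Crest.ProbabilityR.RandomMatrix
open Crest.Agent.R166 Crest.Agent.R166.B2 Crest.Agent.R166.Words955
open Crest.Agent.R166.TreeG879 (cav treeG omOf tOp US clip omOf_cross omOf_step omOf_rotn
  continuous_cav im_cav_pos norm_cav_le abs_clip_le clip_eq continuous_clip continuous_omOf)
open Crest.Agent.R166.EnvLaw289 Crest.Agent.R166.Erg424
open Crest.Agent.R166.TreeDefs350 (unif)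

variable {d : ℕ} [NeZero d] {X : Type*} [MeasurableSpace X]

/-- clipped environment -/
def clipEnv (z : Conf d (Fin d × (ℝ × X))) : Conf d (Fin d × ℝ) :=
  fun w => ((z w).1, clip (z w).2.1)

/-- σ-algebra of the clipped environment -/
@[reducible] def EnvF (d : ℕ) [NeZero d] (X : Type*) : MeasurableSpace (Conf d (Fin d × (ℝ × X))) :=
  MeasurableSpace.comap clipEnv inferInstance

/-- clipped potential at the root -/
def omF (z : Conf d (Fin d × (ℝ × X))) : ℝ := clip (z TW.nil).2.1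

/-- clipping projection -/
def piF (t : ℝ × X) : ℝ := clip t.1

/-- limit cavity field -/
noncomputable def cavF (s E : ℝ) (η : ℕ → ℝ) (z : Conf d (Fin d × (ℝ × X))) : ℂ :=
  cavL s E η (omOf piF z)

omit [MeasurableSpace X] in
lemma cavF_eq (s E : ℝ) (η : ℕ → ℝ) (z : Conf d (Fin d × (ℝ × X))) :
    cavF s E η z = cavL s E η (omOf id (envP z)) := by
  unfold cavF
  have : omOf piF z = fun w => clip (omOf id (envP z) w) := rfl
  rw [this, cavL_clip]


omit [MeasurableSpace X] in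
lemma cav_piF (s : ℝ) (zz : ℂ) (z : Conf d (Fin d × (ℝ × X))) :
    cav s zz (omOf piF z) = cav s zz (omOf id (envP z)) := by
  have : omOf piF z = fun w => clip (omOf id (envP z) w) := rfl
  rw [this, cav_clip]



omit [MeasurableSpace X] in
lemma meas_EnvF {Y : Type*} [MeasurableSpace Y] {f : Conf d (Fin d × ℝ) → Y} (hf : Measurable f) :
    Measurable[EnvF d X] fun z => f (clipEnv z) :=
  hf.comp (comap_measurable clipEnv)


omit [MeasurableSpace X] in
lemma cavF_meas (s E : ℝ) {η : ℕ → ℝ} (hη : ∀ l, 0 < η l) :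
    Measurable[EnvF d X] (cavF s E η : Conf d (Fin d × (ℝ × X)) → ℂ) :=
  meas_EnvF (f := fun ξ => cavL s E η (omOf id ξ))
    ((measurable_cavL s E hη).comp measurable_omOf_id)

omit [MeasurableSpace X] in
lemma cF_meas (s E : ℝ) {η : ℕ → ℝ} (hη : ∀ l, 0 < η l) (l : ℕ) :
    Measurable[EnvF d X] fun z : Conf d (Fin d × (ℝ × X)) => cav s (ze E (η l)) (omOf piF z) :=
  meas_EnvF (f := c1 s E η l) (measurable_c1 s E hη l)

omit [MeasurableSpace X] in
lemma envP_mv (j : ℕ) (z : Conf d (Fin d × (ℝ × X))) :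
    B2.mv cross (rotn 1) j (envP z) = envP (B2.mv cross (rotn 1) j z) := by
  have h1 : ∀ k : ℕ, (rotn (1 : Fin d))^[k] (envP z) = envP ((rotn (1 : Fin d))^[k] z) := by
    intro k
    induction k with
    | zero => rfl
    | succ k ih => rw [Function.iterate_succ_apply', Function.iterate_succ_apply', ih, envP_rotn]
  unfold B2.mv
  rw [h1, envP_cross]

section law
variable {Q : Measure (Conf d (Fin d × (ℝ × X)))} (hlaw : Q.map envP = envLaw d unif)
include hlaw

lemma ae_env {p : Conf d (Fin d × ℝ) → Prop} (h : ∀ᵐ ξ ∂(mu1 d), p ξ) :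
    ∀ᵐ z ∂Q, p (envP z) := by
  have h' : ∀ᵐ ξ ∂(Q.map envP), p ξ := by rw [hlaw]; exact h
  exact ae_of_ae_map measurable_envP.aemeasurable h'

lemma ae_om_le : ∀ᵐ z ∂Q, |(z TW.nil).2.1| ≤ 1 := ae_env hlaw ae_om1_le

lemma ae_omF : ∀ᵐ z ∂Q, omF z = (z TW.nil).2.1 := by
  filter_upwards [ae_om_le hlaw] with z hz
  exact clip_eq hz

/-- **`cav_im`** -/
theorem cavF_im {s E ρ : ℝ} {η : ℕ → ℝ} (hC : CavSpec d s E ρ η) :
    ∀ᵐ z ∂Q, 0 < (cavF s E η z).im := by
  filter_upwards [ae_env hlaw hC.im] with z hz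
  rw [cavF_eq]; exact hz

/-- **`cav_rec`** -/
theorem cavF_rec {s E ρ : ℝ} {η : ℕ → ℝ} (hC : CavSpec d s E ρ η) :
    ∀ᵐ z ∂Q, cavF s E η z * ((E : ℂ) - s * omF z +
      ∑ j ∈ Finset.range (d - 1), cavF s E η (B2.mv cross (rotn 1) (j + 1) z)) = -1 := by
  filter_upwards [ae_env hlaw hC.rec', ae_omF hlaw] with z hz hom
  simp only [cavF_eq]
  simp only [envP_mv] at hz
  rw [hom]
  exact hz

/-- **`cav_lim`** -/
theorem cavF_lim {s E ρ : ℝ} {η : ℕ → ℝ} (hC : CavSpec d s E ρ η) :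
    ∃ (η' : ℕ → ℝ) (c : ℕ → Conf d (Fin d × (ℝ × X)) → ℂ), (∀ i, 0 < η' i) ∧
      Tendsto η' atTop (𝓝 0) ∧ (∀ i, Measurable[EnvF d X] (c i)) ∧
      (∀ i, ∀ᵐ h ∂Q, 0 < (c i h).im ∧ ‖c i h‖ ≤ 1 / η' i ∧
        c i h * ((E : ℂ) + Complex.I * η' i - s * omF h +
          ∑ j ∈ Finset.range (d - 1), c i (B2.mv cross (rotn 1) (j + 1) h)) = -1) ∧
      ∀ᵐ h ∂Q, Tendsto (fun i => c i h) atTop (𝓝 (cavF s E η h)) := by
  refine ⟨η, fun l z => cav s (ze E (η l)) (omOf piF z), hC.pos, hC.lim0,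
    cF_meas s E hC.pos, fun i => ?_, ?_⟩
  · have h1 : ∀ᵐ ξ ∂(mu1 d), c1 s E η i ξ * ((E : ℂ) + Complex.I * η i - s * om1 ξ +
        ∑ j ∈ Finset.range (d - 1), c1 s E η i (B2.mv cross (rotn 1) (j + 1) ξ)) = -1 := by
      filter_upwards [ae_om1_le (d := d)] with ξ hξ
      exact c1_rec s E hC.pos i hξ
    filter_upwards [ae_env hlaw h1, ae_omF hlaw] with z hz hom
    refine ⟨im_cav_pos s (ze_im_pos (hC.pos i)) _, ?_, ?_⟩
    · have := norm_cav_le s (ze_im_pos (E := E) (hC.pos i)) (omOf piF z)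
      rwa [ze_im] at this
    · simp only [cav_piF]
      simp only [envP_mv] at hz
      rw [hom]
      exact hz
  · filter_upwards [ae_env hlaw hC.lim] with z hz
    simp only [cav_piF, cavF_eq]
    exact hz

lemma ae_Gd [IsProbabilityMeasure Q] {s E ρ : ℝ} {η : ℕ → ℝ} (_hC : CavSpec d s E ρ η) :
    ∀ᵐ z ∂Q, Gd cross (rotn 1) d s E omF (cavF s E η) z =
      Gd cross (rotn 1) d s E om1 (fun ξ => cavL s E η (omOf id ξ)) (envP z) := by
  filter_upwards [ae_omF hlaw] with z hom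
  unfold Gd
  simp only [cavF_eq, envP_mv]
  rw [hom]
  rfl

/-- **`G_int`**, **`G_rho`** -/
theorem GF [IsProbabilityMeasure Q] {s E ρ : ℝ} {η : ℕ → ℝ} (hC : CavSpec d s E ρ η) :
    Integrable (fun z => (Gd cross (rotn 1) d s E omF (cavF s E η) z).im) Q ∧
      ∫ z, (Gd cross (rotn 1) d s E omF (cavF s E η) z).im ∂Q = Real.pi * ρ := by
  have hmp : MeasurePreserving (envP : Conf d (Fin d × (ℝ × X)) → _) Q (mu1 d) :=
    ⟨measurable_envP, hlaw⟩
  have hae : (fun z => (Gd cross (rotn 1) d s E omF (cavF s E η) z).im) =ᵐ[Q]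
      (fun ξ => (Gd cross (rotn 1) d s E om1 (fun ξ => cavL s E η (omOf id ξ)) ξ).im) ∘ envP := by
    filter_upwards [ae_Gd hlaw hC] with z hz
    simp only [Function.comp]
    rw [hz]
  constructor
  · exact (hmp.integrable_comp_of_integrable hC.G_int).congr hae.symm
  · rw [integral_congr_ae hae, ← hC.G_rho]
    have h1 := integral_map (μ := Q) measurable_envP.aemeasurable
      (f := fun ξ => (Gd cross (rotn 1) d s E om1 (fun ξ => cavL s E η (omOf id ξ)) ξ).im)
      (by rw [hlaw]; exact hC.G_int.aestronglyMeasurable)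
    rw [hlaw] at h1
    exact h1.symm

omit hlaw in
lemma mp_step (hQ : Inv Q) (i : Fin d) : MeasurePreserving (step i) Q Q := by
  have h1 : MeasurePreserving (cross : Conf d (Fin d × (ℝ × X)) → _) Q Q :=
    ⟨measurable_cross, hQ.1⟩
  have h2 : MeasurePreserving (rotn i : Conf d (Fin d × (ℝ × X)) → _) Q Q :=
    ⟨measurable_rotn measurable_rs i, hQ.2 i⟩
  exact h1.comp h2

omit hlaw in
lemma mp_reroot (hQ : Inv Q) (u : List (Fin d)) : MeasurePreserving (reroot u) Q Q := by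
  induction u with
  | nil => exact MeasurePreserving.id Q
  | cons i u ih => exact ih.comp (mp_step hQ i)

omit hlaw in
lemma ae_reroot (hQ : Inv Q) {p : Conf d (Fin d × (ℝ × X)) → Prop} (h : ∀ᵐ z ∂Q, p z) :
    ∀ᵐ z ∂Q, ∀ u : List (Fin d), p (reroot u z) := by
  rw [ae_all_iff]; intro u
  exact (mp_reroot hQ u).quasiMeasurePreserving.ae h

/-- helper879's `Good` for the unclipped environment -/
theorem good_fst (hQ : Inv Q) {s E ρ : ℝ} {η : ℕ → ℝ} (hC : CavSpec d s E ρ η) :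
    ∀ᵐ z ∂Q, PhiAlg879.Good Prod.fst s (fun l => ze E (η l))
      (fun z => cavL s E η (omOf Prod.fst z)) z := by
  have h1 := ae_reroot hQ (ae_env hlaw hC.lim)
  have h2 := ae_reroot hQ (ae_env hlaw hC.im)
  have h3 := ae_reroot hQ (ae_om_le hlaw)
  filter_upwards [h1, h2, h3] with z a1 a2 a3
  exact ⟨a1, a2, a3⟩

/-- helper879's `Good` for the clipped environment -/
theorem good_clip (hQ : Inv Q) {s E ρ : ℝ} {η : ℕ → ℝ} (hC : CavSpec d s E ρ η) :
    ∀ᵐ z ∂Q, PhiAlg879.Good piF s (fun l => ze E (η l)) (cavF s E η) z := by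
  have h1 := ae_reroot hQ (ae_env hlaw hC.lim)
  have h2 := ae_reroot hQ (cavF_im hlaw hC)
  filter_upwards [h1, h2] with z a1 a2
  refine ⟨fun u => ?_, a2, fun u => abs_clip_le _⟩
  simp only [cav_piF, cavF_eq]
  exact a1 u

/-- the limits of all entries of the tree Green function exist -/
theorem ae_lim_treeG (hQ : Inv Q) {s E ρ : ℝ} {η : ℕ → ℝ} (hC : CavSpec d s E ρ η) :
    ∀ᵐ z ∂Q, ∀ x y : TW d, ∃ L, Tendsto (fun l => treeG s (ze E (η l)) (omOf Prod.fst z) x y)
      atTop (𝓝 L) := by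
  filter_upwards [good_fst hlaw hQ hC] with z hz x y
  exact PhiAlg879.Good.lim_pair (fun l => ze_im_pos (hC.pos l)) (tendsto_ze hC.lim0) hz x y

end law

end Crest.Agent.R166.PhiLim85
end

-- ▼ part R166/ZG_879

/-!
# Row 166 (helper879): the fields `Z_gauss` and `Z_eq` of `LimProc`

Hypotheses: `Q0_955.NLaw P Φ Q`, `Q0_955.IsCov P Φ` for the kernel `Φ = Phi Prod.fst s ρ z` and the
convergence of the cavity numbers (`PhiAlg879.Good`) `P`-almost everywhere.
-/

set_option autoImplicit false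
set_option linter.unusedSectionVars false
noncomputable section
open MeasureTheory Filter Topology Finset

namespace Crest.Agent.R166.ZG879

open Words955 TreeG879 PhiAlg879 NoiseLim849

variable {d : ℕ} [NeZero d]

/-! ### General families -/

section fam
variable {k : ℕ} {P : Type*} [Fintype P]

theorem Qf_fam' (f : P → TW d) (x : P → Fin k → ℝ) (K : TW d → TW d → ℝ) :
    Qf (famT f x) (fun b b' => K b.1 b'.1) = ∑ j, ∑ p, ∑ q, x p j * K (f p) (f q) * x q j := by
  unfold Qf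
  refine Finset.sum_congr rfl fun j _ => ?_
  have h1 : ∀ b : famB f, ∑ b' : famB f, famT f x b j * K b.1 b'.1 * famT f x b' j =
      famT f x b j * ∑ q, x q j * K b.1 (f q) := fun b => by
    rw [← sum_famT f x j fun w => K b.1 w, Finset.mul_sum]
    exact Finset.sum_congr rfl fun b' _ => by ring
  rw [Finset.sum_congr rfl fun b _ => h1 b,
    sum_famT f x j fun w => ∑ q, x q j * K w (f q)]
  refine Finset.sum_congr rfl fun p _ => ?_
  rw [Finset.mul_sum]
  exact Finset.sum_congr rfl fun q _ => by ring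

end fam

section win
variable {k : ℕ} {T : Type*} {π : T → ℝ} {s ρ E : ℝ} {z : ℕ → ℂ} {cl : Conf d (Fin d × T) → ℂ}
  (hz : ∀ l, 0 < (z l).im) (hzE : Tendsto z atTop (𝓝 (E : ℂ)))
include hz hzE

/-- the exponent of `LimProc.Z_gauss` -/
theorem Qf_win' {ζ : Conf d (Fin d × T)} (h : Good π s z cl ζ) (w : List ℕ)
    (hw : B2.OutW d w) (α : Fin k → ℝ) (x : B2.St d → Fin k → ℝ) :
    Qf (famT (win w hw) (winC α x)) (fun b b' => Phi π s ρ z b.1 b'.1 ζ) =
      ∑ l, (α l ^ 2 * (B2.Gd Words955.cross (rotn 1) d s E (om0 π) cl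
          (B2.wd Words955.cross (rotn 1) w (Words955.cross ζ))).im
        + 2 * ∑ a, α l * x a l * (B2.Go Words955.cross (rotn 1) d s E (om0 π) cl w ζ a).im
        + ∑ a, ∑ b, x a l * x b l *
          (B2.Gs Words955.cross (rotn 1) d s E (om0 π) cl ζ a b).im) / (Real.pi * ρ) := by
  rw [Qf_fam' (win w hw) (winC α x) fun x y => Phi π s ρ z x y ζ]
  refine Finset.sum_congr rfl fun j _ => ?_
  have so : ∀ f : Option (B2.St d) → ℝ, ∑ p, f p = f none + ∑ a, f (some a) :=
    fun f => Fintype.sum_option f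
  simp only [so]
  have e1 : Phi π s ρ z (win w hw none) (win w hw none) ζ = _ := h.Phi_far hz hzE w hw
  have e2 : ∀ a, Phi π s ρ z (win w hw none) (win w hw (some a)) ζ = _ :=
    fun a => h.Phi_far_star hz hzE w hw a
  have e3 : ∀ a, Phi π s ρ z (win w hw (some a)) (win w hw none) ζ = _ :=
    fun a => (Phi_symm hz _ _ _).trans (h.Phi_far_star hz hzE w hw a)
  have e4 : ∀ a b, Phi π s ρ z (win w hw (some a)) (win w hw (some b)) ζ = _ :=
    fun a b => h.Phi_star hz hzE a b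
  simp only [e1, e2, e3, e4, winC]
  rw [Finset.sum_add_distrib]
  have h5 : ∑ a, α j * ((B2.Go Words955.cross (rotn 1) d s E (om0 π) cl w ζ a).im /
      (Real.pi * ρ)) * x a j = (∑ a, α j * x a j *
        (B2.Go Words955.cross (rotn 1) d s E (om0 π) cl w ζ a).im) / (Real.pi * ρ) := by
    rw [Finset.sum_div]; exact Finset.sum_congr rfl fun a _ => by ring
  have h6 : ∑ a, x a j * ((B2.Go Words955.cross (rotn 1) d s E (om0 π) cl w ζ a).im /
      (Real.pi * ρ)) * α j = (∑ a, α j * x a j *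
        (B2.Go Words955.cross (rotn 1) d s E (om0 π) cl w ζ a).im) / (Real.pi * ρ) := by
    rw [Finset.sum_div]; exact Finset.sum_congr rfl fun a _ => by ring
  have h7 : ∑ a, ∑ b, x a j * ((B2.Gs Words955.cross (rotn 1) d s E (om0 π) cl ζ a b).im /
      (Real.pi * ρ)) * x b j = (∑ a, ∑ b, x a j * x b j *
        (B2.Gs Words955.cross (rotn 1) d s E (om0 π) cl ζ a b).im) / (Real.pi * ρ) := by
    rw [Finset.sum_div]
    refine Finset.sum_congr rfl fun a _ => ?_
    rw [Finset.sum_div]; exact Finset.sum_congr rfl fun b _ => by ring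
  rw [h5, h6, h7]
  ring



/-- the eigenvector equation for the limit kernel -/
theorem Phi_eqn {ζ : Conf d (Fin d × T)} (h : Good π s z cl ζ) (y : TW d) :
    ∑ i : Fin d, Phi π s ρ z (TW.single i) y ζ =
      (E - s * clip (om0 π ζ)) * Phi π s ρ z TW.nil y ζ := by
  classical
  obtain ⟨L, hL⟩ := h.lim_pair hz hzE TW.nil y
  have h0 := (Phi_eq_of (ρ := ρ) hz hL).2
  have hi : ∀ i : Fin d, ∃ L : ℂ, Tendsto (fun l => treeG s (z l) (omOf π ζ) (TW.single i) y)
      atTop (𝓝 L) := fun i => h.lim_pair hz hzE _ _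
  choose Li hLi using hi
  have h1 : ∀ i, Phi π s ρ z (TW.single i) y ζ = (Li i).im / (Real.pi * ρ) := fun i =>
    (Phi_eq_of hz (hLi i)).2
  simp only [h1]
  rw [h0, ← Finset.sum_div]
  have h2 : ∀ l, ∑ i : Fin d, treeG s (z l) (omOf π ζ) (TW.single i) y +
      ((s * clip (om0 π ζ) : ℝ) - z l) * treeG s (z l) (omOf π ζ) TW.nil y =
      if TW.nil = y then 1 else 0 := fun l => by
    have h3 := (tOp s (omOf π ζ)).G_eqn (hz l).ne' TW.nil y
    rw [tOp_nb, nbT_nil, Finset.sum_image (fun i _ j _ hij => single_injective hij)] at h3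
    rw [← h3]
    rfl
  have h4 : Tendsto (fun l => ∑ i : Fin d, treeG s (z l) (omOf π ζ) (TW.single i) y +
      ((s * clip (om0 π ζ) : ℝ) - z l) * treeG s (z l) (omOf π ζ) TW.nil y) atTop
      (𝓝 (∑ i, Li i + ((s * clip (om0 π ζ) : ℝ) - (E : ℂ)) * L)) :=
    (tendsto_finsetSum _ fun i _ => hLi i).add ((tendsto_const_nhds.sub hzE).mul hL)
  simp only [h2] at h4
  have h5 := tendsto_nhds_unique h4 tendsto_const_nhds
  have h6 := congrArg Complex.im h5
  have h7 : ((if TW.nil = y then 1 else 0 : ℂ)).im = 0 := by split_ifs <;> simp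
  rw [h7, Complex.add_im, Complex.im_sum] at h6
  have h8 : (((s * clip (om0 π ζ) : ℝ) - (E : ℂ)) * L).im = (s * clip (om0 π ζ) - E) * L.im := by
    rw [← Complex.ofReal_sub, Complex.im_ofReal_mul]
  rw [h8] at h6
  have h9 : ∑ i, (Li i).im = (E - s * clip (om0 π ζ)) * L.im := by linarith
  rw [h9]; ring

end win


/-! ### The fields -/

section fields
variable {k : ℕ} {P : Measure (Conf d (S1 d k))} {Q : Measure (Conf d (S2 d k))}
  {s ρ E : ℝ} {z : ℕ → ℂ} {cL : (TW d → ℝ) → ℂ}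

/-- clipped potential read off vertex data `(ω, ...)` -/
def cp {T : Type*} (t : ℝ × T) : ℝ := clip t.1

/-- the limit cavity field as a function of the configuration -/
def cavC (cL : (TW d → ℝ) → ℂ) {T : Type*} (ζ : Conf d (Fin d × (ℝ × T))) : ℂ := cL (omOf cp ζ)

lemma clip_clip (t : ℝ) : clip (clip t) = clip t := clip_eq (abs_clip_le t)

/-- the tree operator only depends on the clipped potential -/
lemma tOp_congr (s : ℝ) {om om' : TW d → ℝ} (h : ∀ x, clip (om x) = clip (om' x)) :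
    tOp s om = tOp s om' := by
  unfold tOp
  congr 1
  funext x
  rw [h]

lemma treeG_congr (s : ℝ) (z : ℂ) {om om' : TW d → ℝ} (h : ∀ x, clip (om x) = clip (om' x))
    (x y : TW d) : treeG s z om x y = treeG s z om' x y := by
  unfold treeG
  rw [tOp_congr s h]


lemma clip_omOf {T : Type*} (ζ : Conf d (Fin d × (ℝ × T))) (x : TW d) :
    clip (omOf cp ζ x) = clip (omOf Prod.fst ζ x) := clip_clip _

lemma PhiL_cp {T : Type*} (z : ℂ) (x y : TW d) (ζ : Conf d (Fin d × (ℝ × T))) :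
    PhiL cp s ρ z x y ζ = PhiL Prod.fst s ρ z x y ζ := by
  unfold PhiL
  rw [treeG_congr s z (clip_omOf ζ)]

lemma Phi_cp {T : Type*} (z : ℕ → ℂ) (x y : TW d) (ζ : Conf d (Fin d × (ℝ × T))) :
    Phi cp s ρ z x y ζ = Phi Prod.fst s ρ z x y ζ := by
  unfold Phi
  simp only [PhiL_cp]



lemma cross_pr (ζ : Conf d (S2 d k)) : cross (pr ζ) = pr (cross ζ) := rfl

lemma rotn_pr (i : Fin d) (ζ : Conf d (S2 d k)) : rotn i (pr ζ) = pr (rotn i ζ) := by
  funext w
  by_cases h : w = TW.nil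
  · subst h; rfl
  · simp only [rotn, pr, h, if_false]

lemma reroot_pr (u : List (Fin d)) (ζ : Conf d (S2 d k)) : reroot u (pr ζ) = pr (reroot u ζ) := by
  induction u generalizing ζ with
  | nil => rfl
  | cons i u ih => rw [reroot, step, rotn_pr, cross_pr, ih]; rfl

theorem good_pr {ζ : Conf d (S2 d k)} :
    Good cp s z (cavC cL) (pr ζ) ↔ Good cp s z (cavC cL) ζ := by
  constructor
  · intro h
    refine ⟨fun u => ?_, fun u => ?_, fun u => ?_⟩
    · have := h.lim u
      rw [reroot_pr] at this; exact this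
    · have := h.im u
      rw [reroot_pr] at this; exact this
    · have := h.om u
      rw [reroot_pr] at this; exact this
  · intro h
    refine ⟨fun u => ?_, fun u => ?_, fun u => ?_⟩
    · have := h.lim u
      rw [reroot_pr]; exact this
    · have := h.im u
      rw [reroot_pr]; exact this
    · have := h.om u
      rw [reroot_pr]; exact this

theorem good_Q (hmarg : Q.map pr = P) (h : ∀ᵐ ζ ∂P, Good cp s z (cavC cL) ζ) :
    ∀ᵐ ζ ∂Q, Good cp s z (cavC cL) ζ := by
  rw [← hmarg] at h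
  exact (ae_of_ae_map Q0_955.measurable_pr.aemeasurable h).mono fun ζ hζ => good_pr.1 hζ

/-- **the field `Z_gauss`** -/
theorem Z_gauss (hz : ∀ l, 0 < (z l).im) (hzE : Tendsto z atTop (𝓝 (E : ℂ)))
    (hN : Q0_955.NLaw P (Phi Prod.fst s ρ z) Q) (hC : Q0_955.IsCov P (Phi Prod.fst s ρ z))
    (hg : ∀ᵐ ζ ∂P, Good cp s z (cavC cL) ζ)
    (w : List ℕ) (hw : B2.OutW d w) (α : Fin k → ℝ) (x : B2.St d → Fin k → ℝ) :
    Q[fun h => Complex.exp (Complex.I *
        ((∑ l, (α l * (B2.wd cross (rotn 1) w (cross h) TW.nil).2.2.2 l +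
          ∑ a, x a l * (B2.sv cross (rotn 1) d h a TW.nil).2.2.2 l) : ℝ) : ℂ)) |
        MeasurableSpace.comap pr inferInstance]
      =ᵐ[Q] fun h => Complex.exp (((-(1 / 2) * ∑ l,
        (α l ^ 2 * (B2.Gd cross (rotn 1) d s E (fun z => clip (z TW.nil).2.1)
            (fun z => cL (omOf (fun t => clip t.1) z))
            (B2.wd cross (rotn 1) w (cross h))).im
          + 2 * ∑ a, α l * x a l * (B2.Go cross (rotn 1) d s E (fun z => clip (z TW.nil).2.1)
            (fun z => cL (omOf (fun t => clip t.1) z)) w h a).im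
          + ∑ a, ∑ b, x a l * x b l *
            (B2.Gs cross (rotn 1) d s E (fun z => clip (z TW.nil).2.1)
            (fun z => cL (omOf (fun t => clip t.1) z)) h a b).im) /
          (Real.pi * ρ) : ℝ) : ℂ)) := by
  have h1 := hN.condExp hC (famB (win w hw)) (famT (win w hw) (winC α x))
  have e1 : (fun ζ : Conf d (S2 d k) => Complex.exp (Complex.I *
      ((zph (famB (win w hw)) (famT (win w hw) (winC α x)) ζ : ℝ) : ℂ))) =
      fun h => Complex.exp (Complex.I *
        ((∑ l, (α l * (B2.wd cross (rotn 1) w (cross h) TW.nil).2.2.2 l +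
          ∑ a, x a l * (B2.sv cross (rotn 1) d h a TW.nil).2.2.2 l) : ℝ) : ℂ)) := by
    funext ζ
    rw [zph_win]
  rw [e1] at h1
  refine h1.trans ?_
  filter_upwards [good_Q hN.marg hg] with ζ hζ
  have h2 := Qf_win' (ρ := ρ) hz hzE hζ w hw α x
  have h3 : Qf (famT (win w hw) (winC α x))
      (gam (Phi Prod.fst s ρ z) (famB (win w hw)) (pr ζ)) =
      Qf (famT (win w hw) (winC α x)) (fun b b' => Phi cp s ρ z b.1 b'.1 ζ) := by
    congr 1
    funext b b'
    exact (Phi_cp z b.1 b'.1 (pr ζ)).symm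
  rw [cch, h3, h2]
  congr 1
  have h4 : ∀ r : ℝ, (-((r : ℝ) : ℂ)) / 2 = (((-(1 / 2) * r : ℝ)) : ℂ) := fun r => by
    push_cast; ring
  exact h4 _

lemma ws_none : (ws (none : B2.St d) : TW d) = TW.nil := rfl

lemma ws_some (i : Fin d) : (ws (some i : B2.St d) : TW d) = TW.single i := rfl

/-- the coefficients of the eigenvector equation -/
def eqC (s E : ℝ) (l : Fin k) (ζ : Conf d (S1 d k)) : B2.St d → Fin k → ℝ
  | none => fun j => if j = l then -(E - s * clip (ζ TW.nil).2.1) else 0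
  | some _ => fun j => if j = l then 1 else 0

lemma measurable_eqC (s E : ℝ) (l : Fin k) (a : B2.St d) (j : Fin k) :
    Measurable fun ζ : Conf d (S1 d k) => eqC s E l ζ a j := by
  cases a with
  | none =>
    simp only [eqC]
    refine Measurable.ite (MeasurableSet.const _) ?_ measurable_const
    have h1 : Measurable fun ζ : Conf d (S1 d k) => clip (ζ TW.nil).2.1 :=
      continuous_clip.measurable.comp (by fun_prop)
    exact ((h1.const_mul s).const_sub E).neg
  | some i =>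
    simp only [eqC]
    exact measurable_const

lemma measurable_famT (s E : ℝ) (l : Fin k) :
    Measurable fun ζ : Conf d (S1 d k) => famT (ws : B2.St d → TW d) (eqC s E l ζ) := by
  classical
  refine measurable_pi_iff.2 fun b => measurable_pi_iff.2 fun j => ?_
  unfold famT
  refine Finset.measurable_sum _ fun p _ => ?_
  split_ifs
  · exact measurable_eqC s E l p j
  · exact measurable_const

/-- **the field `Z_eq`** -/
theorem Z_eq (hz : ∀ l, 0 < (z l).im) (hzE : Tendsto z atTop (𝓝 (E : ℂ)))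
    (hN : Q0_955.NLaw P (Phi Prod.fst s ρ z) Q) (hC : Q0_955.IsCov P (Phi Prod.fst s ρ z))
    (hg : ∀ᵐ ζ ∂P, Good cp s z (cavC cL) ζ) :
    ∀ᵐ h ∂Q, ∀ l, ∑ i ∈ Finset.range d, (B2.mv cross (rotn 1) i h TW.nil).2.2.2 l =
      (E - s * clip (h TW.nil).2.1) * (h TW.nil).2.2.2 l := by
  rw [ae_all_iff]
  intro l
  have h0 : ∀ᵐ ζ ∂P, Qf (famT (ws : B2.St d → TW d) (eqC s E l ζ))
      (gam (Phi Prod.fst s ρ z) (famB ws) ζ) = 0 := by
    filter_upwards [hg] with ζ hζ
    rw [Qf_fam]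
    refine Finset.sum_eq_zero fun j _ => Finset.sum_eq_zero fun p _ => ?_
    have h1 := Phi_eqn (ρ := ρ) hz hzE hζ (ws p)
    simp only [Phi_cp] at h1
    by_cases hj : j = l
    · subst hj
      have h2 : ∑ q, eqC s E j ζ p j * Phi Prod.fst s ρ z (ws p) (ws q) ζ * eqC s E j ζ q j =
          eqC s E j ζ p j * ∑ q, Phi Prod.fst s ρ z (ws q) (ws p) ζ * eqC s E j ζ q j := by
        rw [Finset.mul_sum]
        refine Finset.sum_congr rfl fun q _ => ?_
        rw [Phi_symm hz (ws p) (ws q)]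
        ring
      rw [h2]
      refine mul_eq_zero_of_right _ ?_
      rw [Fintype.sum_option]
      simp only [eqC, if_true, mul_one, ws_none, ws_some]
      rw [h1]
      change Phi Prod.fst s ρ z TW.nil (ws p) ζ * -(E - s * clip (ζ TW.nil).2.1) +
        (E - s * clip (clip (ζ TW.nil).2.1)) * Phi Prod.fst s ρ z TW.nil (ws p) ζ = 0
      rw [clip_clip]
      ring
    · refine Finset.sum_eq_zero fun q _ => ?_
      have h3 : eqC s E l ζ p j = 0 := by
        cases p <;> simp [eqC, hj]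
      rw [h3]; ring
  have h1 := hN.zph_eq_zero hC (famB (ws : B2.St d → TW d)) (measurable_famT s E l) h0
  filter_upwards [h1] with h hh
  rw [zph_fam, Finset.sum_eq_single l] at hh
  · rw [Fintype.sum_option] at hh
    simp only [eqC, if_true, one_mul, ws_none, ws_some] at hh
    have h2 := sum_mv (fun ξ : Conf d (S2 d k) => (ξ TW.nil).2.2.2 l) h
    rw [h2]
    have h3 : ∀ i : Fin d, (step i h) TW.nil = h (TW.single i) := fun i =>
      reroot_nil (TW.single i) h
    simp only [h3]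
    have h4 : (pr h TW.nil).2.1 = (h TW.nil).2.1 := rfl
    rw [h4] at hh
    linarith
  · intro j _ hj
    refine Finset.sum_eq_zero fun p _ => ?_
    have h3 : eqC s E l (pr h) p j = 0 := by
      cases p <;> simp [eqC, hj]
    rw [h3, zero_mul]
  · intro hl; exact absurd (Finset.mem_univ _) hl

end fields

end Crest.Agent.R166.ZG879
end
private theorem rz_e9d1f994c9 : type_of% @_root_.Crest.Agent.R166.ZG879.eqC.eq_1 := @_root_.Crest.Agent.R166.ZG879.eqC.eq_1 -- L301
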