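import Crest.Agent.R166.Master_423
import Crest.Agent.R166.AuditA_811
import Crest.Agent.R166.FineProb_522_Mg
import Crest.Agent.R166.InvFin_348_Mg
import Crest.Agent.R166.F2_63
import Crest.Agent.R166.SpecF3b_798
import Crest.Agent.R166.UppLim_724_Mg
import Crest.Agent.R166.Tweedie_487
import Crest.Agent.R166.Spec_B2_385
import Crest.Agent.R166.MartSpec_663
import Crest.Agent.R166.MartTau_663
import Crest.Agent.R166.Hinge_980
import Crest.Agent.R166.ZG_879_Mg
import Crest.Agent.R166.Q03_955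
import Crest.Agent.R166.Events_974_Mg
import Crest.Agent.R166.Fin42_385
import Crest.Agent.R166.PhiLimC_85

-- ▼ part R166/Audit_383
section

/-!
Row 166: audit of the composition (helper383): landed results applied to the Props of
`Master_423`; S0251 and S0252 from the open inputs `StmtB0` / `StmtBs`, `F3From`.
-/

set_option autoImplicit false

namespace Crest.Agent.R166.Audit383

open MeasureTheory ProbabilityTheory Crest.ProbabilityR.RandomMatrix Crest.Agent.R166
open Crest.Agent.R166.Asm423 Crest.Agent.R166.Master423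

/-- (50) -/
theorem stmt50 : Stmt50 := fun _ _ _ _ hd hρ _ hIm hLoc hND hB =>
  InvFin348.invG (by omega) hρ hB hIm hLoc hND

/-- (70, M1) -/
theorem stmtM1 : StmtM1 := by
  intro d s hd hs
  obtain ⟨b, rfl⟩ : ∃ b, d = b + 1 := ⟨d - 1, by omega⟩
  exact DosM1356.exists_treeDOS b s hs

/-- (70, M2) -/
theorem stmtM2 : StmtM2 := StInv390.stmtM2

/-- the tree half -/
theorem t8 (b : ℕ) (hb : 2 ≤ b) : TreeSpec350.T8 b := TreeFin350.t8 hb

theorem thmA (d : ℕ) (hd : 3 ≤ d) : SpecA.ThmA d := by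
  have : NeZero d := ⟨by omega⟩
  exact StepAll.thmA hd

theorem f1 (d : ℕ) (hd : 3 ≤ d) : SpecF3.F1 d := by
  have : NeZero d := ⟨by omega⟩
  exact F1From420.f1From d hd (Fine522.f1Step hd) (thmA d hd)

theorem f2 (d : ℕ) (hd : 3 ≤ d) : SpecF3.F2 d := F263.f2 hd (f1 d hd) (thmA d hd)

/-- the graph half of section 32 from `F3From` -/
theorem stmt32G (h3 : ∀ d : ℕ, 3 ≤ d → SpecF3.F3From d) : Stmt32G :=
  Asm32G583.stmt32G stmtM1 thmA f1 f2 h3

/-- **S0251 from `StmtB0`**, in the form of the template -/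
theorem s0251_from (hB : StmtB0)
    (d : ℕ) (hd : 3 ≤ d) (E : ℝ) (hE : E ^ 2 < 4 * ((d : ℝ) - 1))
    (h : ℝ → ℝ) (hcont : Continuous h) (hsupp : HasCompactSupport h) (hpos : ∀ t, 0 ≤ h t) :
    ∀ ε : ℝ, 0 < ε → ∃ N : ℕ, ∀ n : ℕ, N ≤ n → (regularGraphs n d).Nonempty →
      |regularAverage n d (fun G => adjLaplaceWeight G
          (unfoldAt h (n * kestenMcKayDensity d E) E)) -
          ∫ g, goeLaplaceWeight g (unfoldAt h (n / Real.pi) 0) ∂goeDisorderLaw n| < ε :=
  s0251 stmt50 Audit811.stmtEnv Audit811.stmt31 hB Audit811.invO d hd E hE h hcont hsupp hpos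

/-- **S0252 from `StmtBs` and `F3From`**, in the form of the template -/
theorem s0252_from (hB : StmtBs) (h3 : ∀ d : ℕ, 3 ≤ d → SpecF3.F3From d)
    (d : ℕ) (hd : 3 ≤ d) (κ : ℝ) (hκ : 0 < κ) (_ : κ < 2 * Real.sqrt ((d : ℝ) - 1)) :
    ∃ s₀ : ℝ, 0 < s₀ ∧ ∀ s : ℝ, 0 < s → s < s₀ →
      ∃ ν : MeasureTheory.Measure ℝ, IsTreeDOS d s ν ∧
        ∃ (ρ : ℝ → ℝ) (U : Set ℝ), IsOpen U ∧
          Set.Icc (-(2 * Real.sqrt ((d : ℝ) - 1)) + κ) (2 * Real.sqrt ((d : ℝ) - 1) - κ) ⊆ U ∧
          ContinuousOn ρ U ∧ (∀ t ∈ U, 0 ≤ ρ t) ∧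
          ν.restrict U = (MeasureTheory.volume.restrict U).withDensity
            (fun t => ENNReal.ofReal (ρ t)) ∧
          (∀ E ∈ Set.Icc (-(2 * Real.sqrt ((d : ℝ) - 1)) + κ)
            (2 * Real.sqrt ((d : ℝ) - 1) - κ), 0 < ρ E) ∧
          ∀ E ∈ Set.Icc (-(2 * Real.sqrt ((d : ℝ) - 1)) + κ) (2 * Real.sqrt ((d : ℝ) - 1) - κ),
            ∀ h : ℝ → ℝ, Continuous h → HasCompactSupport h → (∀ t, 0 ≤ h t) →
              ∀ ε : ℝ, 0 < ε → ∃ N : ℕ, ∀ n : ℕ, N ≤ n → d < n → Even (n * d) →
                |regularAverage n d (fun G => ∫ ω, disorderedLaplaceWeight G s ω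
                      (unfoldAt h (n * ρ E) E) ∂potentialLaw n) -
                    ∫ g, goeLaplaceWeight g (unfoldAt h (n / Real.pi) 0) ∂goeDisorderLaw n|
                  < ε :=
  s0252 stmt50 Audit811.stmtEnv (stmt32G h3) hB Audit811.invO stmtM1 stmtM2 t8 d hd κ hκ

end Crest.Agent.R166.Audit383
end

-- ▼ part R166/MkvAll_47
section

/-!
Row 166 (helper47): the edge Markov property of the limit process, unconditional in the data of an
extracted sequence.
-/

set_option autoImplicit false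

noncomputable section

namespace Crest.Agent.R166.MkvAll47

open MeasureTheory Filter Topology
open Crest.Agent.R166.Words955 Crest.Agent.R166.NoiseLim849
open Crest.Agent.R166.PhiAlg879 Crest.Agent.R166.MkvF47

/-- **The field `markov` of `B2.LimProc`.** -/
theorem markov {d k : ℕ} [NeZero d] {S : Seq980.Seq d k} {s E K' ρ t : ℝ}
    (hX : SpecB1.Extra S s E K') (hρ : 0 < ρ)
    (ht : 0 < t) {η : ℕ → ℝ} (hη : ∀ l, 0 < η l) (hη0 : Tendsto η atTop (𝓝 0))
    {cl : Conf d (NoiseLim849.S1 d k) → ℂ}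
    (hgood : ∀ᵐ ξ ∂S.P, Good Prod.fst s (fun l => ze E (η l)) cl ξ)
    {Q : ℕ → Measure (Conf d (NoiseLim849.S2 d k))}
    {Q0 : Measure (Conf d (NoiseLim849.S2 d k))}
    (hS : Q0_955.LawSeq S s E ρ η Q Q0) :
    ∀ (F G : Conf d (NoiseLim849.S2 d k) → ℝ), (∃ C, ∀ h, |F h| ≤ C) →
      (∃ C, ∀ h, |G h| ≤ C) →
      Measurable[⨆ w : {w : List ℕ // B2.OutW d w},
        MeasurableSpace.comap (fun h => B2.YY t X0 Z0 (B2.wd cross (rotn 1) w.1 h))
          inferInstance] F →
      Measurable[⨆ w : {w : List ℕ // B2.OutW d w},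
        MeasurableSpace.comap (fun h => B2.YY t X0 Z0 (B2.wd cross (rotn 1) w.1 (cross h)))
          inferInstance] G →
      Q0[fun h => F h * G h | EdgeM d k t] =ᵐ[Q0]
        fun h => (Q0[F | EdgeM d k t] h) * (Q0[G | EdgeM d k t] h) :=
  Q0Fin47.markov_of_seq' UppLim724.stmt_U LLNStar47.llnStar hX hρ ht hη hη0 hgood hS


end Crest.Agent.R166.MkvAll47
end
end

-- ▼ part R166/TweedieRV_487
section

/-!
Row 166, section 42 (helper487).  Lemma T in random-variable form, with the whitening matrix.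
-/

set_option autoImplicit false
set_option linter.unusedSectionVars false
set_option linter.unusedVariables false

namespace Crest.Agent.R166.Tweedie487

open MeasureTheory ProbabilityTheory

variable {ι : Type*} [Fintype ι] {α β Ω : Type*} [MeasurableSpace α] [MeasurableSpace β]
  [MeasurableSpace Ω] {P : Measure Ω} [IsProbabilityMeasure P]

/-- whitened form (`B = 1`). -/
theorem tweedie_rv_one [StandardBorelSpace β] [Nonempty β]
    {U : Ω → α} {X : Ω → (ι → ℝ)} {I : Ω → β} {N : Ω → (ι → ℝ)}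
    (hU : Measurable U) (hX : Measurable X) (hI : Measurable I) (hN : Measurable N)
    (hlaw : P.map (fun x => ((U x, (X x, I x)), N x)) =
      (P.map fun x => (U x, (X x, I x))).prod (gs ι))
    {w : β → ℝ} (hw : Measurable w) (C : ℝ) (hC : 0 ≤ C)
    (hwC : ∀ i, |w i| ≤ C) {G : α × (ι → ℝ) → ℝ} (hG : Measurable G) (hGC : ∀ y, |G y| ≤ C)
    (H0 : ∀ b : α × (ι → ℝ) → ℝ, Measurable b → (∀ y, |b y| ≤ 1) →
      ∫ x, (w (I x) - G (U x, X x + N x)) * b (U x, X x + N x) ∂P = 0)
    (H1 : ∀ j, ∀ b : α × (ι → ℝ) → ℝ, Measurable b → (∀ y, |b y| ≤ 1) →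
      ∫ x, N x j * ((w (I x) - G (U x, X x + N x)) * b (U x, X x + N x)) ∂P = 0) :
    ∃ wb : α → ℝ, Measurable wb ∧ (∀ a, |wb a| ≤ C) ∧ ∀ᵐ x ∂P, G (U x, X x + N x) = wb (U x) := by
  have hXI : Measurable fun x => (X x, I x) := hX.prodMk hI
  have hV : Measurable fun x => (U x, (X x, I x)) := hU.prodMk hXI
  have hT : Measurable fun x => ((U x, (X x, I x)), N x) := hV.prodMk hN
  set κ : Kernel α ((ι → ℝ) × β) := condDistrib (fun x => (X x, I x)) U P with hκ
  have hcomp : (P.map U) ⊗ₘ κ = P.map (fun x => (U x, (X x, I x))) :=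
    compProd_map_condDistrib hXI.aemeasurable
  have : IsProbabilityMeasure (P.map U) := Measure.isProbabilityMeasure_map hU.aemeasurable
  have hfull : ((P.map U) ⊗ₘ κ).prod (gs ι) = P.map (fun x => ((U x, (X x, I x)), N x)) := by
    rw [hcomp, hlaw]
  have eY : Measurable fun r : (α × ((ι → ℝ) × β)) × (ι → ℝ) => (r.1.1, r.1.2.1 + r.2) := by
    refine (measurable_fst.comp measurable_fst).prodMk ?_
    exact (measurable_fst.comp (measurable_snd.comp measurable_fst)).add measurable_snd
  have ewI : Measurable fun r : (α × ((ι → ℝ) × β)) × (ι → ℝ) => w r.1.2.2 :=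
    hw.comp (measurable_snd.comp (measurable_snd.comp measurable_fst))
  have main := tweedie_joint (P := P.map U) (κ := κ) hw C hC hwC hG hGC (by
      intro b hb hb1
      have hm : Measurable fun r : (α × ((ι → ℝ) × β)) × (ι → ℝ) =>
        (w r.1.2.2 - G (r.1.1, r.1.2.1 + r.2)) * b (r.1.1, r.1.2.1 + r.2) :=
        (ewI.sub (hG.comp eY)).mul (hb.comp eY)
      rw [hfull, integral_map hT.aemeasurable hm.aestronglyMeasurable]
      exact H0 b hb hb1) (by
      intro j b hb hb1
      have hm : Measurable fun r : (α × ((ι → ℝ) × β)) × (ι → ℝ) =>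
        r.2 j * ((w r.1.2.2 - G (r.1.1, r.1.2.1 + r.2)) * b (r.1.1, r.1.2.1 + r.2)) :=
        ((measurable_pi_apply j).comp measurable_snd).mul
          ((ewI.sub (hG.comp eY)).mul (hb.comp eY))
      rw [hfull, integral_map hT.aemeasurable hm.aestronglyMeasurable]
      exact H1 j b hb hb1)
  have hwbm : Measurable fun a : α => ∫ q, w q.2 ∂(κ a) := by
    have h1 : StronglyMeasurable (Function.uncurry fun (r : α) (q : (ι → ℝ) × β) => w q.2) :=
      Measurable.stronglyMeasurable (hw.comp (measurable_snd.comp measurable_snd))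
    exact (h1.integral_kernel_prod_right (κ := κ)).measurable
  refine ⟨fun a => ∫ q, w q.2 ∂(κ a), hwbm, ?_, ?_⟩
  · intro a
    have := norm_integral_le_of_norm_le_const (μ := κ a) (f := fun q : (ι → ℝ) × β => w q.2)
      (C := C) (Filter.Eventually.of_forall fun q => by
        rw [Real.norm_eq_abs]; exact hwC _)
    simpa using this
  · -- the law of `(U, Y)` is absolutely continuous
    set A : Set (α × (ι → ℝ)) := {t | G t ≠ ∫ q, w q.2 ∂(κ t.1)} with hA
    have hAm : MeasurableSet A :=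
      (measurableSet_eq_fun hG (hwbm.comp measurable_fst)).compl
    have hA0 : ((P.map U).prod (volume : Measure (ι → ℝ))) A = 0 := by
      rw [hA]
      exact main
    classical
    have hb : Measurable (A.indicator fun _ => (1 : ℝ)) := measurable_const.indicator hAm
    have hb1 : ∀ y, |A.indicator (fun _ => (1 : ℝ)) y| ≤ 1 := by
      intro y
      by_cases hy : y ∈ A <;> simp [Set.indicator, hy]
    have hph1 : (fun z : ι → ℝ => (1 : ℝ) * ph z) = ph := by ext z; ring
    obtain ⟨_, f1⟩ := fubini_joint (P := P.map U) (κ := κ) (w := fun _ => (1 : ℝ))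
      measurable_const 1 zero_le_one (by simp) (k := fun _ => 1) continuous_const
      (by rw [hph1]; exact continuous_ph) (by rw [hph1]; exact integrable_ph) hb 1 hb1
    have f2 : ∫ t, A.indicator (fun _ => (1 : ℝ)) t * smk κ (fun _ => 1) (fun z => 1 * ph z) t
        ∂((P.map U).prod (volume : Measure (ι → ℝ))) = 0 := by
      apply integral_eq_zero_of_ae
      have : ∀ᵐ t ∂((P.map U).prod (volume : Measure (ι → ℝ))), t ∉ A := by
        rw [ae_iff]
        simpa using hA0
      filter_upwards [this] with t ht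
      simp [Set.indicator, ht]
    rw [f2, mul_zero, hfull, integral_map hT.aemeasurable] at f1
    · have f3 : ∫ x, A.indicator (fun _ => (1 : ℝ)) (U x, X x + N x) ∂P = 0 := by
        simpa using f1
      have f4 := (integral_eq_zero_iff_of_nonneg_ae (Filter.Eventually.of_forall fun x =>
        Set.indicator_nonneg (fun _ _ => zero_le_one) _) ?_).1 f3
      · filter_upwards [f4] with x hx
        by_contra hne
        have : (U x, X x + N x) ∈ A := hne
        simp [Set.indicator, this] at hx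
      · refine Integrable.mono' (integrable_const (1 : ℝ)) ?_ ?_
        · exact (hb.comp (hU.prodMk (hX.add hN))).aestronglyMeasurable
        · exact Filter.Eventually.of_forall fun x => by
            rw [Real.norm_eq_abs]; exact hb1 _
    · exact ((measurable_const.mul measurable_const).mul (hb.comp eY)).aestronglyMeasurable

open Matrix in
/-- **Lemma T** in random-variable form: `Y = X + B(U) N`, `N` standard Gaussian independent of
`(U, X, I)`, `B(U)` invertible.  If `E[(w(I) - G(U,Y)) b(U,Y)] = 0` and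
`E[(B(U)N)_j (w(I) - G(U,Y)) b(U,Y)] = 0` for all bounded measurable `b`, then `G(U,Y)` is a
function of `U`. -/
theorem tweedie_rv [DecidableEq ι] [StandardBorelSpace β] [Nonempty β]
    {U : Ω → α} {X : Ω → (ι → ℝ)} {I : Ω → β} {N : Ω → (ι → ℝ)}
    (hU : Measurable U) (hX : Measurable X) (hI : Measurable I) (hN : Measurable N)
    (hlaw : P.map (fun x => ((U x, (X x, I x)), N x)) =
      (P.map fun x => (U x, (X x, I x))).prod (gs ι))
    {B Binv : α → Matrix ι ι ℝ} (hB : ∀ k l, Measurable fun a => B a k l)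
    (hBi : ∀ k l, Measurable fun a => Binv a k l)
    (hinv : ∀ᵐ x ∂P, Binv (U x) * B (U x) = 1)
    {w : β → ℝ} (hw : Measurable w) (C : ℝ) (hC : 0 ≤ C)
    (hwC : ∀ i, |w i| ≤ C) {G : α × (ι → ℝ) → ℝ} (hG : Measurable G) (hGC : ∀ y, |G y| ≤ C)
    (H0 : ∀ b : α × (ι → ℝ) → ℝ, Measurable b → (∀ y, |b y| ≤ 1) →
      ∫ x, (w (I x) - G (U x, X x + B (U x) *ᵥ N x)) * b (U x, X x + B (U x) *ᵥ N x) ∂P = 0)
    (H1 : ∀ j, ∀ b : α × (ι → ℝ) → ℝ, Measurable b → (∀ y, |b y| ≤ 1) →
      ∫ x, (B (U x) *ᵥ N x) j * ((w (I x) - G (U x, X x + B (U x) *ᵥ N x)) *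
        b (U x, X x + B (U x) *ᵥ N x)) ∂P = 0) :
    ∃ wb : α → ℝ, Measurable wb ∧ (∀ a, |wb a| ≤ C) ∧
      ∀ᵐ x ∂P, G (U x, X x + B (U x) *ᵥ N x) = wb (U x) := by
  have hmv : ∀ {A : α → Matrix ι ι ℝ}, (∀ k l, Measurable fun a => A a k l) →
      ∀ {V : Ω → (ι → ℝ)}, Measurable V → Measurable fun x => A (U x) *ᵥ V x := by
    intro A hA V hV
    refine measurable_pi_lambda _ fun k => ?_
    simp only [Matrix.mulVec, dotProduct]
    exact Finset.measurable_sum _ fun l _ =>
      ((hA k l).comp hU).mul ((measurable_pi_apply l).comp hV)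
  have hmv' : ∀ {A : α → Matrix ι ι ℝ}, (∀ k l, Measurable fun a => A a k l) →
      Measurable fun t : α × (ι → ℝ) => (t.1, A t.1 *ᵥ t.2) := by
    intro A hA
    refine measurable_fst.prodMk (measurable_pi_lambda _ fun k => ?_)
    simp only [Matrix.mulVec, dotProduct]
    exact Finset.measurable_sum _ fun l _ =>
      ((hA k l).comp measurable_fst).mul ((measurable_pi_apply l).comp measurable_snd)
  set X' : Ω → (ι → ℝ) := fun x => Binv (U x) *ᵥ X x with hX'
  have hX'm : Measurable X' := hmv hBi hX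
  set G' : α × (ι → ℝ) → ℝ := fun t => G (t.1, B t.1 *ᵥ t.2) with hG'
  have hG'm : Measurable G' := hG.comp (hmv' hB)
  have hBN : Measurable fun x => B (U x) *ᵥ N x := hmv hB hN
  -- law
  have hlaw' : P.map (fun x => ((U x, (X' x, I x)), N x)) =
      (P.map fun x => (U x, (X' x, I x))).prod (gs ι) := by
    set T : α × ((ι → ℝ) × β) → α × ((ι → ℝ) × β) :=
      fun t => (t.1, (Binv t.1 *ᵥ t.2.1, t.2.2)) with hT
    have hTm : Measurable T := by
      refine measurable_fst.prodMk (Measurable.prodMk ?_ (measurable_snd.comp measurable_snd))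
      exact measurable_snd.comp ((hmv' hBi).comp
        (measurable_fst.prodMk (measurable_fst.comp measurable_snd)))
    have e1 : (fun x => ((U x, (X' x, I x)), N x)) =
        (Prod.map T id) ∘ fun x => ((U x, (X x, I x)), N x) := rfl
    have e2 : (fun x => (U x, (X' x, I x))) = T ∘ fun x => (U x, (X x, I x)) := rfl
    have hXI : Measurable fun x => (U x, (X x, I x)) := hU.prodMk (hX.prodMk hI)
    rw [e1, e2, ← Measure.map_map (hTm.prodMap measurable_id) (hXI.prodMk hN), hlaw,
      ← Measure.map_map hTm hXI, ← Measure.map_prod_map _ _ hTm measurable_id, Measure.map_id]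
  have hrel : ∀ᵐ x ∂P, B (U x) *ᵥ (X' x + N x) = X x + B (U x) *ᵥ N x ∧
      Binv (U x) *ᵥ (X x + B (U x) *ᵥ N x) = X' x + N x ∧
      Binv (U x) *ᵥ (B (U x) *ᵥ N x) = N x := by
    filter_upwards [hinv] with x hx
    have hx' : B (U x) * Binv (U x) = 1 := mul_eq_one_comm.1 hx
    refine ⟨?_, ?_, ?_⟩
    · rw [Matrix.mulVec_add, hX', Matrix.mulVec_mulVec, hx', Matrix.one_mulVec]
    · rw [Matrix.mulVec_add, Matrix.mulVec_mulVec, hx, Matrix.one_mulVec]
    · rw [Matrix.mulVec_mulVec, hx, Matrix.one_mulVec]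
  have hNint : ∀ j, Integrable (fun x => N x j) P := by
    intro j
    have h1 : P.map N = gs ι := by
      have e1 : N = Prod.snd ∘ fun x => ((U x, (X x, I x)), N x) := rfl
      have hXI : Measurable fun x => (U x, (X x, I x)) := hU.prodMk (hX.prodMk hI)
      have : IsProbabilityMeasure (P.map fun x => (U x, (X x, I x))) :=
        Measure.isProbabilityMeasure_map hXI.aemeasurable
      rw [e1, ← Measure.map_map measurable_snd (hXI.prodMk hN), hlaw, Measure.map_snd_prod]
      simp
    have h2 : Integrable (fun z : ι → ℝ => z j) (P.map N) := by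
      rw [h1]
      exact (integrable_gs_iff _).2 (integrable_coord_ph j)
    exact h2.comp_measurable hN
  obtain ⟨wb, m1, m2, m3⟩ := tweedie_rv_one (P := P) hU hX'm hI hN hlaw' hw C hC hwC hG'm
    (fun y => hGC _) (by
      intro b hb hb1
      have := H0 (fun t => b (t.1, Binv t.1 *ᵥ t.2)) (hb.comp (hmv' hBi)) (fun y => hb1 _)
      rw [← this]
      apply integral_congr_ae
      filter_upwards [hrel] with x hx
      simp only [hG']
      rw [hx.1, hx.2.1]) (by
      intro j b hb hb1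
      -- truncation
      set S : ℕ → Set α := fun M => {a | ∀ k l, |Binv a k l| ≤ M ∧ |B a k l| ≤ M} with hS
      have hSm : ∀ M, MeasurableSet (S M) := by
        intro M
        have : S M = ⋂ k, ⋂ l, ({a | |Binv a k l| ≤ M} ∩ {a | |B a k l| ≤ M}) := by
          ext a; simp [hS]
        rw [this]
        exact MeasurableSet.iInter fun k => MeasurableSet.iInter fun l =>
          (measurableSet_le (hBi k l).abs measurable_const).inter
            (measurableSet_le (hB k l).abs measurable_const)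
      classical
      have hSex : ∀ a, ∃ M0 : ℕ, ∀ M : ℕ, M0 ≤ M → a ∈ S M := by
        intro a
        obtain ⟨M0, hM0⟩ := exists_nat_ge (∑ k, ∑ l, (|Binv a k l| + |B a k l|))
        refine ⟨M0, fun M hM k l => ?_⟩
        have h1 : |Binv a k l| + |B a k l| ≤ ∑ k, ∑ l, (|Binv a k l| + |B a k l|) := by
          refine le_trans ?_ (Finset.single_le_sum (f := fun k => ∑ l, (|Binv a k l| + |B a k l|))
            (fun i _ => Finset.sum_nonneg fun l _ => by positivity) (Finset.mem_univ k))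
          exact Finset.single_le_sum (f := fun l => (|Binv a k l| + |B a k l|))
            (fun i _ => by positivity) (Finset.mem_univ l)
        have h2 : (M0 : ℝ) ≤ M := by exact_mod_cast hM
        have h3 := abs_nonneg (Binv a k l)
        have h4 := abs_nonneg (B a k l)
        constructor <;> linarith
      set F : Ω → ℝ := fun x => N x j * ((w (I x) - G' (U x, X' x + N x)) *
        b (U x, X' x + N x)) with hF
      have hFm : Measurable F := by
        refine ((measurable_pi_apply j).comp hN).mul (Measurable.mul ?_ ?_)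
        · exact (hw.comp hI).sub (hG'm.comp (hU.prodMk (hX'm.add hN)))
        · exact hb.comp (hU.prodMk (hX'm.add hN))
      have hFb : ∀ x, ‖F x‖ ≤ |N x j| * (2 * C) := by
        intro x
        rw [hF, Real.norm_eq_abs, abs_mul, abs_mul]
        refine mul_le_mul_of_nonneg_left ?_ (abs_nonneg _)
        calc |w (I x) - G' (U x, X' x + N x)| * |b (U x, X' x + N x)|
            ≤ (2 * C) * 1 := by
              refine mul_le_mul ?_ (hb1 _) (abs_nonneg _) (by positivity)
              have h1 := hwC (I x)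
              have h2 := hGC (U x, B (U x) *ᵥ (X' x + N x))
              calc |w (I x) - G' (U x, X' x + N x)| ≤ |w (I x)| + |G' (U x, X' x + N x)| :=
                    abs_sub _ _
                _ ≤ C + C := add_le_add h1 h2
                _ = 2 * C := by ring
          _ = 2 * C := mul_one _
      have htr : ∀ M : ℕ, ∫ x, (S M).indicator (fun _ => (1 : ℝ)) (U x) * F x ∂P = 0 := by
        intro M
        have hk : ∀ k, ∫ x, (B (U x) *ᵥ N x) k *
            ((w (I x) - G (U x, X x + B (U x) *ᵥ N x)) *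
            ((fun t : α × (ι → ℝ) => b (t.1, Binv t.1 *ᵥ t.2) *
              ((S M).indicator (fun a => Binv a j k / (M + 1)) t.1))
              (U x, X x + B (U x) *ᵥ N x))) ∂P = 0 := by
          intro k
          refine H1 k (fun t : α × (ι → ℝ) => b (t.1, Binv t.1 *ᵥ t.2) *
              ((S M).indicator (fun a => Binv a j k / (M + 1)) t.1)) ?_ ?_
          · refine (hb.comp (hmv' hBi)).mul ?_
            exact (((hBi j k).div_const _).indicator (hSm M)).comp measurable_fst
          · intro y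
            rw [abs_mul]
            have h1 : |(S M).indicator (fun a => Binv a j k / ((M : ℝ) + 1)) y.1| ≤ 1 := by
              by_cases hy : y.1 ∈ S M
              · rw [Set.indicator_of_mem hy, abs_div, abs_of_pos (by positivity : (0:ℝ) < M + 1)]
                rw [div_le_one (by positivity)]
                have := (hy j k).1
                linarith
              · rw [Set.indicator_of_notMem hy]; simp
            calc |b (y.1, Binv y.1 *ᵥ y.2)| *
                |(S M).indicator (fun a => Binv a j k / ((M : ℝ) + 1)) y.1| ≤ 1 * 1 :=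
                  mul_le_mul (hb1 _) h1 (abs_nonneg _) zero_le_one
              _ = 1 := one_mul 1
        have hsum : ∫ x, ∑ k, (B (U x) *ᵥ N x) k *
            ((w (I x) - G (U x, X x + B (U x) *ᵥ N x)) *
            ((fun t : α × (ι → ℝ) => b (t.1, Binv t.1 *ᵥ t.2) *
              ((S M).indicator (fun a => Binv a j k / (M + 1)) t.1))
              (U x, X x + B (U x) *ᵥ N x))) ∂P = 0 := by
          rw [integral_finsetSum]
          · exact Finset.sum_eq_zero fun k _ => hk k
          · intro k _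
            have hd : Integrable (fun x => (2 * C) * ∑ l, (M : ℝ) * |N x l|) P := by
              refine Integrable.const_mul ?_ _
              exact integrable_finsetSum _ fun l _ => ((hNint l).abs.const_mul _)
            refine hd.mono' ?_ (Filter.Eventually.of_forall fun x => ?_)
            · refine (Measurable.mul ((measurable_pi_apply k).comp hBN)
                (Measurable.mul ?_ ?_)).aestronglyMeasurable
              · exact (hw.comp hI).sub (hG.comp (hU.prodMk (hX.add hBN)))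
              · exact ((hb.comp (hmv' hBi)).mul
                  ((((hBi j k).div_const _).indicator (hSm M)).comp measurable_fst)).comp
                  (hU.prodMk (hX.add hBN))
            · rw [Real.norm_eq_abs, abs_mul, abs_mul]
              by_cases hy : U x ∈ S M
              · have h1 : |(B (U x) *ᵥ N x) k| ≤ ∑ l, (M : ℝ) * |N x l| := by
                  simp only [Matrix.mulVec, dotProduct]
                  refine (Finset.abs_sum_le_sum_abs _ _).trans (Finset.sum_le_sum fun l _ => ?_)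
                  rw [abs_mul]
                  exact mul_le_mul_of_nonneg_right (hy k l).2 (abs_nonneg _)
                have h2 : |w (I x) - G (U x, X x + B (U x) *ᵥ N x)| ≤ 2 * C := by
                  calc |w (I x) - G (U x, X x + B (U x) *ᵥ N x)| ≤
                        |w (I x)| + |G (U x, X x + B (U x) *ᵥ N x)| := abs_sub _ _
                    _ ≤ C + C := add_le_add (hwC _) (hGC _)
                    _ = 2 * C := by ring
                have h3 : |b (U x, Binv (U x) *ᵥ (X x + B (U x) *ᵥ N x)) *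
                    (S M).indicator (fun a => Binv a j k / ((M : ℝ) + 1)) (U x)| ≤ 1 := by
                  rw [abs_mul]
                  have h1 : |(S M).indicator (fun a => Binv a j k / ((M : ℝ) + 1)) (U x)| ≤ 1 := by
                    rw [Set.indicator_of_mem hy, abs_div,
                      abs_of_pos (by positivity : (0:ℝ) < M + 1)]
                    rw [div_le_one (by positivity)]
                    have := (hy j k).1
                    linarith
                  calc _ ≤ 1 * 1 := mul_le_mul (hb1 _) h1 (abs_nonneg _) zero_le_one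
                    _ = 1 := one_mul 1
                calc |(B (U x) *ᵥ N x) k| * (|w (I x) - G (U x, X x + B (U x) *ᵥ N x)| *
                      |b (U x, Binv (U x) *ᵥ (X x + B (U x) *ᵥ N x)) *
                      (S M).indicator (fun a => Binv a j k / ((M : ℝ) + 1)) (U x)|)
                    ≤ (∑ l, (M : ℝ) * |N x l|) * ((2 * C) * 1) := by
                      refine mul_le_mul h1 (mul_le_mul h2 h3 (abs_nonneg _) (by positivity))
                        (by positivity) ?_
                      exact Finset.sum_nonneg fun l _ => by positivity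
                  _ = (2 * C) * ∑ l, (M : ℝ) * |N x l| := by ring
              · simp only [Set.indicator_of_notMem hy, mul_zero, abs_zero]
                have : 0 ≤ ∑ l, (M : ℝ) * |N x l| :=
                  Finset.sum_nonneg fun l _ => by positivity
                positivity
        have hM1 : (0 : ℝ) < M + 1 := by positivity
        have heq : ∀ᵐ x ∂P, ∑ k, (B (U x) *ᵥ N x) k *
            ((w (I x) - G (U x, X x + B (U x) *ᵥ N x)) *
            ((fun t : α × (ι → ℝ) => b (t.1, Binv t.1 *ᵥ t.2) *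
              ((S M).indicator (fun a => Binv a j k / (M + 1)) t.1))
              (U x, X x + B (U x) *ᵥ N x))) =
            (1 / ((M : ℝ) + 1)) * ((S M).indicator (fun _ => (1 : ℝ)) (U x) * F x) := by
          filter_upwards [hrel] with x hx
          by_cases hy : U x ∈ S M
          · simp only [Set.indicator_of_mem hy, hF, hG', hx.1, hx.2.1, one_mul]
            have h5 : N x j = ∑ k, Binv (U x) j k * (B (U x) *ᵥ N x) k := by
              have := congrFun hx.2.2 j
              simpa [Matrix.mulVec, dotProduct] using this.symm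
            rw [h5, Finset.sum_mul, Finset.mul_sum]
            apply Finset.sum_congr rfl
            intro k _
            field_simp
          · simp [Set.indicator_of_notMem hy]
        rw [integral_congr_ae heq, integral_const_mul] at hsum
        have := (mul_eq_zero.1 hsum).resolve_left (by positivity)
        exact this
      -- limit M → ∞
      have hlim := tendsto_integral_of_dominated_convergence (μ := P)
        (F := fun (M : ℕ) x => (S M).indicator (fun _ => (1 : ℝ)) (U x) * F x) (f := F)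
        (fun x => |N x j| * (2 * C)) (fun M => ((measurable_const.indicator (hSm M)).comp
          hU |>.mul hFm).aestronglyMeasurable) ((hNint j).abs.mul_const _)
        (fun M => Filter.Eventually.of_forall fun x => by
          rw [norm_mul]
          have h1 : ‖(S M).indicator (fun _ => (1 : ℝ)) (U x)‖ ≤ 1 := by
            by_cases hy : U x ∈ S M <;> simp [Set.indicator, hy]
          calc ‖(S M).indicator (fun _ => (1 : ℝ)) (U x)‖ * ‖F x‖ ≤ 1 * ‖F x‖ :=
                mul_le_mul_of_nonneg_right h1 (norm_nonneg _)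
            _ = ‖F x‖ := one_mul _
            _ ≤ _ := hFb x)
        (Filter.Eventually.of_forall fun x => by
          obtain ⟨M0, hM0⟩ := hSex (U x)
          refine tendsto_const_nhds.congr' ?_
          filter_upwards [Filter.eventually_ge_atTop M0] with M hM
          rw [Set.indicator_of_mem (hM0 M hM), one_mul])
      have h0 : Filter.Tendsto (fun M : ℕ => ∫ x, (S M).indicator (fun _ => (1 : ℝ)) (U x) * F x ∂P)
          Filter.atTop (nhds 0) := by
        simp only [htr]
        exact tendsto_const_nhds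
      exact tendsto_nhds_unique hlim h0)
  refine ⟨wb, m1, m2, ?_⟩
  filter_upwards [m3, hrel] with x hx hx2
  rw [← hx, hG']
  simp only
  rw [hx2.1]

end Crest.Agent.R166.Tweedie487
end

-- ▼ part R166/Freeze_487
section

/-!
Row 166, section 42 (helper487).  Conditional characteristic functions: random coefficients
("freezing") and independence of a standard Gaussian part.
-/

set_option autoImplicit false

namespace Crest.Agent.R166.Freeze487

open MeasureTheory ProbabilityTheory Crest.Agent.R166.Tweedie487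

/-- **Freezing.** If `P[exp(i x·V) | m] = φ(·, x)` for all fixed `x` and `φ(h, ·)` is continuous,
then the same is true for every `m`-measurable random coefficient vector `c`. -/
theorem freeze {Ω τ : Type*} [Fintype τ] {m mΩ : MeasurableSpace Ω} (hm : m ≤ mΩ)
    {P : Measure Ω} [IsProbabilityMeasure P] {V : Ω → τ → ℝ} (hV : Measurable V)
    {φ : Ω → (τ → ℝ) → ℂ} (hφc : ∀ h, Continuous (φ h))
    (hφ : ∀ x : τ → ℝ, P[fun h => Complex.exp (Complex.I * ((∑ a, x a * V h a : ℝ) : ℂ)) | m]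
      =ᵐ[P] fun h => φ h x)
    {c : Ω → τ → ℝ} (hc : Measurable[m] c) :
    P[fun h => Complex.exp (Complex.I * ((∑ a, c h a * V h a : ℝ) : ℂ)) | m]
      =ᵐ[P] fun h => φ h (c h) := by
  classical
  have hid : @Measurable Ω Ω mΩ m id := fun s hs => hm s hs
  set κ := @condDistrib Ω Ω (τ → ℝ) _ _ _ mΩ m V id P _ with hκ
  have hcomap : m.comap id = m := MeasurableSpace.comap_id
  have hbd : ∀ x : τ → ℝ, ∀ y : τ → ℝ,
      ‖Complex.exp (Complex.I * ((∑ a, x a * y a : ℝ) : ℂ))‖ = 1 := by
    intro x y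
    rw [mul_comm, Complex.norm_exp_ofReal_mul_I]
  -- fixed coefficients
  have h1 : ∀ x : τ → ℝ, ∀ᵐ h ∂P,
      ∫ y, Complex.exp (Complex.I * ((∑ a, x a * y a : ℝ) : ℂ)) ∂(κ h) = φ h x := by
    intro x
    have hf : @StronglyMeasurable (Ω × (τ → ℝ)) ℂ _ (@Prod.instMeasurableSpace Ω (τ → ℝ) m _)
        (fun r => Complex.exp (Complex.I * ((∑ a, x a * r.2 a : ℝ) : ℂ))) := by
      have : Continuous fun y : τ → ℝ => Complex.exp (Complex.I * ((∑ a, x a * y a : ℝ) : ℂ)) := by
        fun_prop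
      exact (this.measurable.comp (@measurable_snd Ω (τ → ℝ) m _)).stronglyMeasurable
    have hint : Integrable (fun h => Complex.exp (Complex.I * ((∑ a, x a * V h a : ℝ) : ℂ))) P := by
      refine Integrable.mono' (integrable_const (1 : ℝ)) ?_ (Filter.Eventually.of_forall fun h => ?_)
      · have : Continuous fun y : τ → ℝ =>
          Complex.exp (Complex.I * ((∑ a, x a * y a : ℝ) : ℂ)) := by fun_prop
        exact (this.measurable.comp hV).aestronglyMeasurable
      · rw [hbd]
    have h2 := condExp_prod_ae_eq_integral_condDistrib (mα := mΩ) (mβ := m) (μ := P) (X := id)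
      (Y := V) hid hV.aemeasurable hf hint
    rw [hcomap] at h2
    filter_upwards [h2, hφ x] with h e1 e2
    rw [← e2]
    exact e1.symm
  -- rational coefficients, then all
  have h3 : ∀ᵐ h ∂P, ∀ q : τ → ℚ,
      ∫ y, Complex.exp (Complex.I * ((∑ a, (q a : ℝ) * y a : ℝ) : ℂ)) ∂(κ h) =
        φ h (fun a => (q a : ℝ)) := by
    rw [ae_all_iff]
    intro q
    exact h1 (fun a => (q a : ℝ))
  have h4 : ∀ᵐ h ∂P, ∀ x : τ → ℝ,
      ∫ y, Complex.exp (Complex.I * ((∑ a, x a * y a : ℝ) : ℂ)) ∂(κ h) = φ h x := by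
    filter_upwards [h3] with h hh
    have hcl : Continuous fun x : τ → ℝ =>
        ∫ y, Complex.exp (Complex.I * ((∑ a, x a * y a : ℝ) : ℂ)) ∂(κ h) := by
      refine continuous_of_dominated (bound := fun _ => (1 : ℝ)) ?_ ?_ (integrable_const _) ?_
      · intro x
        have : Continuous fun y : τ → ℝ =>
          Complex.exp (Complex.I * ((∑ a, x a * y a : ℝ) : ℂ)) := by fun_prop
        exact this.aestronglyMeasurable
      · intro x
        exact Filter.Eventually.of_forall fun y => (hbd x y).le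
      · refine Filter.Eventually.of_forall fun y => ?_
        fun_prop
    have hdense : DenseRange (fun q : τ → ℚ => fun a => ((q a : ℚ) : ℝ)) :=
      DenseRange.piMap (fun _ => Rat.denseRange_cast)
    exact fun x => congrFun (hdense.equalizer hcl (hφc h) (funext hh)) x
  -- random coefficients
  have hf : @StronglyMeasurable (Ω × (τ → ℝ)) ℂ _ (@Prod.instMeasurableSpace Ω (τ → ℝ) m _)
      (fun r => Complex.exp (Complex.I * ((∑ a, c r.1 a * r.2 a : ℝ) : ℂ))) := by
    have e1 : @Measurable (Ω × (τ → ℝ)) ((τ → ℝ) × (τ → ℝ))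
        (@Prod.instMeasurableSpace Ω (τ → ℝ) m _) _ (fun r => (c r.1, r.2)) :=
      (hc.comp (@measurable_fst Ω (τ → ℝ) m _)).prodMk (@measurable_snd Ω (τ → ℝ) m _)
    have e2 : Continuous fun r : (τ → ℝ) × (τ → ℝ) =>
        Complex.exp (Complex.I * ((∑ a, r.1 a * r.2 a : ℝ) : ℂ)) := by fun_prop
    exact (e2.measurable.comp e1).stronglyMeasurable
  have hint : Integrable (fun h => Complex.exp (Complex.I * ((∑ a, c h a * V h a : ℝ) : ℂ))) P := by
    refine Integrable.mono' (integrable_const (1 : ℝ)) ?_ (Filter.Eventually.of_forall fun h => ?_)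
    · have e2 : Continuous fun r : (τ → ℝ) × (τ → ℝ) =>
        Complex.exp (Complex.I * ((∑ a, r.1 a * r.2 a : ℝ) : ℂ)) := by fun_prop
      have hc' : Measurable c := hc.mono hm le_rfl
      exact (e2.measurable.comp (hc'.prodMk hV)).aestronglyMeasurable
    · rw [hbd]
  have h5 := condExp_prod_ae_eq_integral_condDistrib (mα := mΩ) (mβ := m) (μ := P) (X := id)
    (Y := V) hid hV.aemeasurable hf hint
  rw [hcomap] at h5
  filter_upwards [h5, h4] with h e1 e2
  exact e1.trans (e2 (c h))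

/-- characteristic function of the standard Gaussian law -/
theorem integral_exp_gs {ι : Type*} [Fintype ι] (ζ : ι → ℝ) :
    ∫ z, Complex.exp (Complex.I * ((∑ b, ζ b * z b : ℝ) : ℂ)) ∂gs ι =
      ((Real.exp (-(∑ b, ζ b ^ 2) / 2) : ℝ) : ℂ) := by
  unfold gs
  have h1 : ∀ z : ι → ℝ, Complex.exp (Complex.I * ((∑ b, ζ b * z b : ℝ) : ℂ)) =
      ∏ b, Complex.exp (ζ b * z b * Complex.I) := by
    intro z
    rw [← Complex.exp_sum]
    congr 1
    push_cast
    rw [Finset.mul_sum]
    exact Finset.sum_congr rfl fun b _ => by ring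
  simp_rw [h1]
  rw [integral_fintype_prod_eq_prod (f := fun b (z : ℝ) => Complex.exp (ζ b * z * Complex.I))]
  have h2 : ∀ b, ∫ z : ℝ, Complex.exp (ζ b * z * Complex.I) ∂gaussianReal 0 1 =
      Complex.exp (-(ζ b ^ 2) / 2) := by
    intro b
    rw [← charFun_apply_real, charFun_gaussianReal]
    congr 1
    simp
    ring
  simp_rw [h2]
  rw [← Complex.exp_sum, Complex.ofReal_exp]
  congr 1
  push_cast
  rw [← Finset.sum_div, Finset.sum_neg_distrib]

section indep

variable {Ω E κ ι : Type*} [Fintype κ] [Fintype ι] [MeasurableSpace E] {m mΩ : MeasurableSpace Ω}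
  {P : Measure Ω} [IsProbabilityMeasure P]

theorem map_restrict_eq (hm : m ≤ mΩ) {J : Ω → κ → ℝ} (hJ : Measurable J) {N : Ω → ι → ℝ}
    (hN : Measurable N) {ψ : (κ → ℝ) → Ω → ℂ}
    (hJN : ∀ (ξ : κ → ℝ) (ζ : ι → ℝ),
      P[fun h => Complex.exp (Complex.I * ((∑ a, ξ a * J h a + ∑ b, ζ b * N h b : ℝ) : ℂ)) | m]
        =ᵐ[P] fun h => ψ ξ h * ((Real.exp (-(∑ b, ζ b ^ 2) / 2) : ℝ) : ℂ))
    {A : Set Ω} (hA : MeasurableSet[m] A) :
    (P.restrict A).map (fun h => (J h, N h)) = ((P.restrict A).map J).prod (gs ι) := by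
  classical
  have hJNm : Measurable fun h => (J h, N h) := hJ.prodMk hN
  have hval : ∀ (ξ : κ → ℝ) (ζ : ι → ℝ),
      ∫ h in A, Complex.exp (Complex.I * ((∑ a, ξ a * J h a + ∑ b, ζ b * N h b : ℝ) : ℂ)) ∂P =
        (∫ h in A, ψ ξ h ∂P) * ((Real.exp (-(∑ b, ζ b ^ 2) / 2) : ℝ) : ℂ) := by
    intro ξ ζ
    have hint : Integrable (fun h => Complex.exp (Complex.I *
        ((∑ a, ξ a * J h a + ∑ b, ζ b * N h b : ℝ) : ℂ))) P := by
      refine Integrable.mono' (integrable_const (1 : ℝ)) ?_
        (Filter.Eventually.of_forall fun h => ?_)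
      · have : Continuous fun r : (κ → ℝ) × (ι → ℝ) => Complex.exp (Complex.I *
          ((∑ a, ξ a * r.1 a + ∑ b, ζ b * r.2 b : ℝ) : ℂ)) := by fun_prop
        exact (this.measurable.comp hJNm).aestronglyMeasurable
      · rw [mul_comm, Complex.norm_exp_ofReal_mul_I]
    rw [← setIntegral_condExp hm hint hA, setIntegral_congr_ae (hm A hA)
      ((hJN ξ ζ).mono fun h hh _ => hh), integral_mul_const]
  apply Measure.ext_of_charFunDual
  ext L
  set ξ : κ → ℝ := fun a => L (Pi.single a 1, 0) with hξ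
  set ζ : ι → ℝ := fun b => L (0, Pi.single b 1) with hζ
  have hL : ∀ (j : κ → ℝ) (n : ι → ℝ), L (j, n) = ∑ a, ξ a * j a + ∑ b, ζ b * n b := by
    intro j n
    have e1 : (j, n) = (∑ a, j a • ((Pi.single a (1 : ℝ) : κ → ℝ), (0 : ι → ℝ))) +
        ∑ b, n b • ((0 : κ → ℝ), (Pi.single b (1 : ℝ) : ι → ℝ)) := by
      ext x
      · simp [Prod.fst_sum, Finset.sum_apply, Pi.single_apply]
      · simp [Prod.snd_sum, Finset.sum_apply, Pi.single_apply]
    rw [e1, map_add, map_sum, map_sum]
    simp only [map_smul, smul_eq_mul, hξ, hζ]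
    congr 1
    · exact Finset.sum_congr rfl fun a _ => by ring
    · exact Finset.sum_congr rfl fun a _ => by ring
  rw [charFunDual_apply, charFunDual_prod, charFunDual_apply, charFunDual_apply,
    integral_map hJNm.aemeasurable (by fun_prop), integral_map hJ.aemeasurable (by fun_prop)]
  have e1 : ∫ h in A, Complex.exp ((L (J h, N h) : ℂ) * Complex.I) ∂P =
      (∫ h in A, ψ ξ h ∂P) * ((Real.exp (-(∑ b, ζ b ^ 2) / 2) : ℝ) : ℂ) := by
    rw [← hval ξ ζ]
    congr 1
    ext h
    rw [hL, mul_comm]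
  have e2 : ∫ h in A, Complex.exp (((L.comp (.inl ℝ (κ → ℝ) (ι → ℝ))) (J h) : ℂ) *
      Complex.I) ∂P = ∫ h in A, ψ ξ h ∂P := by
    have := hval ξ 0
    simp only [Pi.zero_apply, zero_mul, Finset.sum_const_zero, add_zero, ne_eq,
      OfNat.ofNat_ne_zero, not_false_eq_true, zero_pow, neg_zero, zero_div, Real.exp_zero,
      Complex.ofReal_one, mul_one] at this
    rw [← this]
    congr 1
    ext h
    have : (L.comp (.inl ℝ (κ → ℝ) (ι → ℝ))) (J h) = ∑ a, ξ a * J h a := by
      have := hL (J h) 0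
      simpa using this
    rw [this, mul_comm]
  have e3 : ∫ z, Complex.exp (((L.comp (.inr ℝ (κ → ℝ) (ι → ℝ))) z : ℂ) * Complex.I) ∂gs ι =
      ((Real.exp (-(∑ b, ζ b ^ 2) / 2) : ℝ) : ℂ) := by
    rw [← integral_exp_gs]
    congr 1
    ext z
    have : (L.comp (.inr ℝ (κ → ℝ) (ι → ℝ))) z = ∑ b, ζ b * z b := by
      have := hL 0 z
      simpa using this
    rw [this, mul_comm]
  rw [e1, e2, e3]

/-- A part `N` whose conditional characteristic function given `(m, J)` factorises and is standard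
Gaussian is independent of `(m, J)` with standard Gaussian law. -/
theorem map_prod_gs (hm : m ≤ mΩ) {J : Ω → κ → ℝ} (hJ : Measurable J) {N : Ω → ι → ℝ}
    (hN : Measurable N) {ψ : (κ → ℝ) → Ω → ℂ}
    (hJN : ∀ (ξ : κ → ℝ) (ζ : ι → ℝ),
      P[fun h => Complex.exp (Complex.I * ((∑ a, ξ a * J h a + ∑ b, ζ b * N h b : ℝ) : ℂ)) | m]
        =ᵐ[P] fun h => ψ ξ h * ((Real.exp (-(∑ b, ζ b ^ 2) / 2) : ℝ) : ℂ))
    {V : Ω → E} (hV : Measurable[m] V) :
    P.map (fun h => ((V h, J h), N h)) = (P.map fun h => (V h, J h)).prod (gs ι) := by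
  have hV' : Measurable V := hV.mono hm le_rfl
  have hVJ : Measurable fun h => (V h, J h) := hV'.prodMk hJ
  have hVJN : Measurable fun h => ((V h, J h), N h) := hVJ.prodMk hN
  have : IsProbabilityMeasure (P.map fun h => ((V h, J h), N h)) :=
    Measure.isProbabilityMeasure_map hVJN.aemeasurable
  rw [Measure.ext_prod₃_iff']
  intro s t u hs ht hu
  rw [Measure.map_apply hVJN ((hs.prod ht).prod hu), Measure.prod_prod,
    Measure.map_apply hVJ (hs.prod ht)]
  have hA : MeasurableSet[m] (V ⁻¹' s) := hV hs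
  have h1 := congrArg (fun μ : Measure ((κ → ℝ) × (ι → ℝ)) => μ (t ×ˢ u))
    (map_restrict_eq (P := P) hm hJ hN hJN hA)
  rw [Measure.map_apply (hJ.prodMk hN) (ht.prod hu), Measure.prod_prod,
    Measure.map_apply hJ ht, Measure.restrict_apply (hJ.prodMk hN (ht.prod hu)),
    Measure.restrict_apply (hJ ht)] at h1
  have e1 : (fun h => ((V h, J h), N h)) ⁻¹' ((s ×ˢ t) ×ˢ u) =
      (fun h => (J h, N h)) ⁻¹' (t ×ˢ u) ∩ V ⁻¹' s := by
    ext h
    simp only [Set.mem_preimage, Set.mem_prod, Set.mem_inter_iff]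
    tauto
  have e2 : (fun h => (V h, J h)) ⁻¹' (s ×ˢ t) = J ⁻¹' t ∩ V ⁻¹' s := by
    ext h
    simp only [Set.mem_preimage, Set.mem_prod, Set.mem_inter_iff]
    tauto
  rw [e1, e2, h1]

end indep

end Crest.Agent.R166.Freeze487
end

-- ▼ part R166/InnovA_487
section

/-!
Row 166, section 42.4 (helper487).  Abstract part of `Stmt_innov`.
-/

set_option autoImplicit false
set_option linter.unusedSectionVars false

namespace Crest.Agent.R166.Innov487

open MeasureTheory ProbabilityTheory Crest.Agent.R166.Tweedie487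

section centering

variable {Ω : Type*} {m1 m2 mΩ : MeasurableSpace Ω} {P : Measure Ω} [IsProbabilityMeasure P]

/-- If `P[Z|m1] = P[Z|m2]`, `m2 ≤ m1`, and `D` is bounded, `m1`-measurable with `P[D|m2] = 0`, then
`∫ Z D = 0`. -/
theorem integral_mul_eq_zero (h21 : m2 ≤ m1) (h1 : m1 ≤ mΩ) {Z D : Ω → ℝ} (hZ : Integrable Z P)
    (hτ : P[Z | m1] =ᵐ[P] P[Z | m2]) (hD : StronglyMeasurable[m1] D) {C : ℝ}
    (hDC : ∀ x, |D x| ≤ C) (hD0 : P[D | m2] =ᵐ[P] 0) : ∫ x, Z x * D x ∂P = 0 := by
  have h2 : m2 ≤ mΩ := h21.trans h1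
  have hDm : AEStronglyMeasurable D P := (hD.mono h1).aestronglyMeasurable
  have hDi : Integrable D P := by
    refine Integrable.mono' (integrable_const C) hDm (Filter.Eventually.of_forall fun x => ?_)
    rw [Real.norm_eq_abs]; exact hDC x
  have hmul : ∀ {F : Ω → ℝ}, Integrable F P → Integrable (F * D) P := by
    intro F hF
    refine (hF.abs.mul_const C).mono' (hF.aestronglyMeasurable.mul hDm)
      (Filter.Eventually.of_forall fun x => ?_)
    rw [Pi.mul_apply, Real.norm_eq_abs, abs_mul]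
    exact mul_le_mul_of_nonneg_left (hDC x) (abs_nonneg _)
  have e1 : ∫ x, Z x * D x ∂P = ∫ x, (P[Z | m1]) x * D x ∂P := by
    have h3 := condExp_mul_of_stronglyMeasurable_right (μ := P) hD (hmul hZ) hZ
    have h4 : ∫ x, (P[Z * D | m1]) x ∂P = ∫ x, (Z * D) x ∂P := integral_condExp h1
    have h5 : ∫ x, (P[Z * D | m1]) x ∂P = ∫ x, (P[Z | m1] * D) x ∂P := integral_congr_ae h3
    rw [h4] at h5
    exact h5
  have e2 : ∫ x, (P[Z | m1]) x * D x ∂P = ∫ x, (P[Z | m2]) x * D x ∂P := by
    refine integral_congr_ae ?_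
    filter_upwards [hτ] with x hx
    rw [hx]
  have e3 : ∫ x, (P[Z | m2]) x * D x ∂P = 0 := by
    have h3 := condExp_mul_of_stronglyMeasurable_left (μ := P) (f := P[Z | m2]) (g := D)
      stronglyMeasurable_condExp (hmul integrable_condExp) hDi
    have h4 : ∫ x, (P[P[Z | m2] * D | m2]) x ∂P = ∫ x, (P[Z | m2] * D) x ∂P :=
      integral_condExp h2
    have h5 : ∫ x, (P[P[Z | m2] * D | m2]) x ∂P = ∫ x, (P[Z | m2] * P[D | m2]) x ∂P :=
      integral_congr_ae h3
    have h6 : ∫ x, (P[Z | m2] * P[D | m2]) x ∂P = 0 := by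
      apply integral_eq_zero_of_ae
      filter_upwards [hD0] with x hx
      simp [hx]
    rw [h4, h6] at h5
    exact h5
  rw [e1, e2, e3]

end centering

section core

open Matrix

variable {Ω β ι : Type*} [Fintype ι] [DecidableEq ι] [MeasurableSpace β] [StandardBorelSpace β]
  [Nonempty β] {Env mΩ : MeasurableSpace Ω} {P : Measure Ω} [IsProbabilityMeasure P]

/-- core of 42.4: the conditional expectation of `w(I)` given the edge is `Env`-measurable. -/
theorem innov_core (hE : Env ≤ mΩ) {X N : Ω → (ι → ℝ)} {I : Ω → β}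
    (hX : Measurable X) (hI : Measurable I) (hN : Measurable N)
    (hlaw : @Measure.map Ω ((Ω × ((ι → ℝ) × β)) × (ι → ℝ)) mΩ
        (@Prod.instMeasurableSpace (Ω × ((ι → ℝ) × β)) (ι → ℝ)
          (@Prod.instMeasurableSpace Ω ((ι → ℝ) × β) Env _) _)
        (fun x => ((x, (X x, I x)), N x)) P =
      @Measure.prod (Ω × ((ι → ℝ) × β)) (ι → ℝ)
          (@Prod.instMeasurableSpace Ω ((ι → ℝ) × β) Env _) _
        (@Measure.map Ω (Ω × ((ι → ℝ) × β)) mΩ (@Prod.instMeasurableSpace Ω ((ι → ℝ) × β) Env _)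
          (fun x => (x, (X x, I x))) P) (gs ι))
    {B Binv : Ω → Matrix ι ι ℝ} (hB : ∀ k l, Measurable[Env] fun a => B a k l)
    (hBi : ∀ k l, Measurable[Env] fun a => Binv a k l)
    (hinv : ∀ᵐ x ∂P, Binv x * B x = 1)
    {Y : Ω → (ι → ℝ)} (hY : ∀ x, Y x = X x + B x *ᵥ N x) (hYm : Measurable Y)
    {star : MeasurableSpace Ω} (hstar : star ≤ mΩ)
    (hedge : Env ⊔ MeasurableSpace.comap Y inferInstance ≤ star)
    (hIs : Measurable[star] I)
    (hint : ∀ e, Integrable (fun x => (B x *ᵥ N x) e) P)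
    (hτ : ∀ e, P[fun x => (B x *ᵥ N x) e | star] =ᵐ[P]
      P[fun x => (B x *ᵥ N x) e | Env ⊔ MeasurableSpace.comap Y inferInstance])
    {w : β → ℝ} (hw : Measurable w) (C : ℝ) (hC : 0 ≤ C) (hwC : ∀ i, |w i| ≤ C) :
    ∃ wb : Ω → ℝ, Measurable[Env] wb ∧ (∀ a, |wb a| ≤ C) ∧
      P[fun x => w (I x) | Env ⊔ MeasurableSpace.comap Y inferInstance] =ᵐ[P] wb := by
  set edge := Env ⊔ MeasurableSpace.comap Y inferInstance with hedgedef
  have hedgeΩ : edge ≤ mΩ := hedge.trans hstar
  have hid : @Measurable Ω Ω mΩ Env id := fun s hs => hE s hs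
  -- the pair `(id, Y)` with the environment σ-algebra
  have hUY : @Measurable Ω (Ω × (ι → ℝ)) mΩ (@Prod.instMeasurableSpace Ω (ι → ℝ) Env _)
      (fun x => (x, Y x)) := Measurable.prodMk hid hYm
  have hcomap : MeasurableSpace.comap (fun x => (x, Y x))
      (@Prod.instMeasurableSpace Ω (ι → ℝ) Env _) = edge := by
    unfold Prod.instMeasurableSpace MeasurableSpace.prod
    rw [MeasurableSpace.comap_sup, MeasurableSpace.comap_comp, MeasurableSpace.comap_comp]
    have e1 : (Prod.fst : Ω × (ι → ℝ) → Ω) ∘ (fun x => (x, Y x)) = id := rfl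
    have e2 : (Prod.snd : Ω × (ι → ℝ) → (ι → ℝ)) ∘ (fun x => (x, Y x)) = Y := rfl
    rw [e1, e2, MeasurableSpace.comap_id]
  have hUYe : @Measurable Ω (Ω × (ι → ℝ)) edge (@Prod.instMeasurableSpace Ω (ι → ℝ) Env _)
      (fun x => (x, Y x)) := by
    rw [← hcomap]
    exact comap_measurable _
  -- version of the conditional expectation
  set ν := @condDistrib Ω (Ω × (ι → ℝ)) β _ _ _ mΩ (@Prod.instMeasurableSpace Ω (ι → ℝ) Env _)
    I (fun x => (x, Y x)) P _ with hν
  set G : Ω × (ι → ℝ) → ℝ := fun r => ∫ i, w i ∂(ν r) with hG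
  have hGm : @Measurable (Ω × (ι → ℝ)) ℝ (@Prod.instMeasurableSpace Ω (ι → ℝ) Env _) _ G := by
    have h1 : @StronglyMeasurable ((Ω × (ι → ℝ)) × β) ℝ _ (@Prod.instMeasurableSpace
        (Ω × (ι → ℝ)) β (@Prod.instMeasurableSpace Ω (ι → ℝ) Env _) _)
        (Function.uncurry fun (_ : Ω × (ι → ℝ)) (i : β) => w i) := by
      have h2 : @Measurable ((Ω × (ι → ℝ)) × β) β (@Prod.instMeasurableSpace
        (Ω × (ι → ℝ)) β (@Prod.instMeasurableSpace Ω (ι → ℝ) Env _) _) _ Prod.snd :=
        @measurable_snd (Ω × (ι → ℝ)) β (@Prod.instMeasurableSpace Ω (ι → ℝ) Env _) _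
      exact (hw.comp h2).stronglyMeasurable
    exact (h1.integral_kernel_prod_right (κ := ν)).measurable
  have hGC : ∀ r, |G r| ≤ C := by
    intro r
    have := norm_integral_le_of_norm_le_const (μ := ν r) (f := fun i : β => w i)
      (C := C) (Filter.Eventually.of_forall fun q => by
        rw [Real.norm_eq_abs]; exact hwC _)
    simpa using this
  have hwI : Measurable[mΩ] fun x => w (I x) := hw.comp hI
  have hwIi : Integrable (fun x => w (I x)) P := by
    refine Integrable.mono' (integrable_const C) hwI.aestronglyMeasurable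
      (Filter.Eventually.of_forall fun x => ?_)
    rw [Real.norm_eq_abs]; exact hwC _
  have hcond : P[fun x => w (I x) | edge] =ᵐ[P] fun x => G (x, Y x) := by
    have := condExp_ae_eq_integral_condDistrib (mα := mΩ)
      (mβ := @Prod.instMeasurableSpace Ω (ι → ℝ) Env _) (μ := P) (X := fun x => (x, Y x))
      (Y := I) hUY hI.aemeasurable hw.stronglyMeasurable hwIi
    rw [hcomap] at this
    exact this
  have hGY : StronglyMeasurable[edge] fun x => G (x, Y x) :=
    (hGm.comp hUYe).stronglyMeasurable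
  have hGYi : Integrable (fun x => G (x, Y x)) P := by
    refine Integrable.mono' (integrable_const C) (hGY.mono hedgeΩ).aestronglyMeasurable
      (Filter.Eventually.of_forall fun x => ?_)
    rw [Real.norm_eq_abs]; exact hGC _
  -- centred bounded functions
  have hcent : ∀ b : Ω × (ι → ℝ) → ℝ,
      @Measurable (Ω × (ι → ℝ)) ℝ (@Prod.instMeasurableSpace Ω (ι → ℝ) Env _) _ b →
      (∀ y, |b y| ≤ 1) →
      StronglyMeasurable[star] (fun x => (w (I x) - G (x, Y x)) * b (x, Y x)) ∧
      (∀ x, |(w (I x) - G (x, Y x)) * b (x, Y x)| ≤ 2 * C) ∧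
      P[fun x => (w (I x) - G (x, Y x)) * b (x, Y x) | edge] =ᵐ[P] 0 := by
    intro b hb hb1
    have hbY : StronglyMeasurable[edge] fun x => b (x, Y x) := (hb.comp hUYe).stronglyMeasurable
    have hbd : ∀ x, |(w (I x) - G (x, Y x)) * b (x, Y x)| ≤ 2 * C := by
      intro x
      rw [abs_mul]
      calc |w (I x) - G (x, Y x)| * |b (x, Y x)| ≤ (C + C) * 1 := by
            refine mul_le_mul ((abs_sub _ _).trans (add_le_add (hwC _) (hGC _))) (hb1 _)
              (abs_nonneg _) (by positivity)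
        _ = 2 * C := by ring
    refine ⟨?_, hbd, ?_⟩
    · refine StronglyMeasurable.mul (StronglyMeasurable.sub ?_ ?_) (hbY.mono hedge)
      · exact (hw.comp hIs).stronglyMeasurable
      · exact hGY.mono hedge
    · have h1 : Integrable ((fun x => w (I x) - G (x, Y x)) * fun x => b (x, Y x)) P := by
        refine Integrable.mono' (integrable_const (2 * C)) ?_
          (Filter.Eventually.of_forall fun x => ?_)
        · exact (hwI.aestronglyMeasurable.sub (hGY.mono hedgeΩ).aestronglyMeasurable).mul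
            (hbY.mono hedgeΩ).aestronglyMeasurable
        · rw [Real.norm_eq_abs]; exact hbd x
      have h2 := condExp_mul_of_stronglyMeasurable_right (μ := P) hbY h1 (hwIi.sub hGYi)
      have h3 : P[(fun x => w (I x)) - fun x => G (x, Y x) | edge] =ᵐ[P] 0 := by
        refine (condExp_sub hwIi hGYi edge).trans ?_
        have h4 : P[fun x => G (x, Y x) | edge] = fun x => G (x, Y x) :=
          condExp_of_stronglyMeasurable hedgeΩ hGY hGYi
        rw [h4]
        filter_upwards [hcond] with x hx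
        simp [hx]
      refine h2.trans ?_
      filter_upwards [h3] with x hx
      simp only [Pi.mul_apply, Pi.zero_apply]
      have hx' : (P[fun x => w (I x) - G (x, Y x) | edge]) x = 0 := hx
      rw [hx', zero_mul]
  have hYfun : (fun x => (x, X x + B x *ᵥ N x)) = fun x => (x, Y x) := by
    ext x
    · rfl
    · rw [hY x]
  obtain ⟨wb, hwb1, hwb2, hwb3⟩ := @tweedie_rv ι _ Ω β Ω Env _ mΩ P _ _ _ _ id X I N hid hX hI hN
    hlaw B Binv hB hBi hinv w hw C hC hwC G hGm hGC (by
      intro b hb hb1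
      obtain ⟨h1, h2, h3⟩ := hcent b hb hb1
      have h4 : ∫ x, (P[fun x => (w (I x) - G (x, Y x)) * b (x, Y x) | edge]) x ∂P =
          ∫ x, (w (I x) - G (x, Y x)) * b (x, Y x) ∂P := integral_condExp hedgeΩ
      have h5 : ∫ x, (P[fun x => (w (I x) - G (x, Y x)) * b (x, Y x) | edge]) x ∂P = 0 := by
        apply integral_eq_zero_of_ae h3
      rw [h4] at h5
      rw [← h5]
      congr 1
      ext x
      rw [hY x]
      rfl) (by
      intro e b hb hb1
      obtain ⟨h1, h2, h3⟩ := hcent b hb hb1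
      have := integral_mul_eq_zero (P := P) hedge hstar (hint e) (hτ e) h1 h2 h3
      rw [← this]
      congr 1
      ext x
      rw [hY x]
      rfl)
  refine ⟨wb, hwb1, hwb2, hcond.trans ?_⟩
  filter_upwards [hwb3] with x hx
  rw [hY x]
  exact hx

end core

end Crest.Agent.R166.Innov487
end

-- ▼ part R166/InnovB_487
section

/-!
Row 166, section 42.4 (helper487).  Algebra of the star covariance.
-/

set_option autoImplicit false

namespace Crest.Agent.R166.Innov487

open Crest.Agent.R166.B2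

theorem im_mul_identity (g x y : ℂ) :
    (g * x * y).im * g.im - (g * x).im * (g * y).im = -(Complex.normSq g * x.im * y.im) := by
  simp only [Complex.mul_im, Complex.mul_re, Complex.normSq_apply]
  ring

/-- quadratic form of the star covariance in the coordinates `(Z_v, W_i)`. -/
theorem quad_star {n : ℕ} (Q : Option (Fin n) → Option (Fin n) → ℝ) (g A : ℝ) (a β : Fin n → ℝ)
    (h00 : Q none none = g) (h01 : ∀ i, Q none (some i) = β i * g)
    (h10 : ∀ i, Q (some i) none = β i * g)
    (h11 : ∀ i j, Q (some i) (some j) = (if i = j then a i else 0) - a i * a j / A +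
      β i * β j * g) (c : Option (Fin n) → ℝ) :
    ∑ p, ∑ q, c p * c q * Q p q = (c none + ∑ i, β i * c (some i)) ^ 2 * g +
      (∑ i, a i * c (some i) ^ 2 - (∑ i, a i * c (some i)) ^ 2 / A) := by
  have e1 : ∑ q, c none * c q * Q none q = c none ^ 2 * g +
      c none * g * ∑ i, β i * c (some i) := by
    rw [Fintype.sum_option, h00, Finset.mul_sum]
    congr 1
    · ring
    · exact Finset.sum_congr rfl fun i _ => by rw [h01]; ring
  have e2 : ∀ i, ∑ q, c (some i) * c q * Q (some i) q = c none * g * (β i * c (some i)) +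
      (a i * c (some i) ^ 2 - a i * c (some i) / A * (∑ j, a j * c (some j)) +
        β i * c (some i) * g * (∑ j, β j * c (some j))) := by
    intro i
    rw [Fintype.sum_option, h10]
    congr 1
    · ring
    · have : ∀ j, c (some i) * c (some j) * Q (some i) (some j) =
          (if i = j then a i * c (some i) ^ 2 else 0) -
            a i * c (some i) / A * (a j * c (some j)) +
            β i * c (some i) * g * (β j * c (some j)) := by
        intro j
        rw [h11]
        by_cases hij : i = j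
        · subst hij
          simp only [if_true]
          ring
        · simp only [if_neg hij]
          ring
      simp_rw [this]
      rw [Finset.sum_add_distrib, Finset.sum_sub_distrib, ← Finset.mul_sum, ← Finset.mul_sum]
      simp
  rw [Fintype.sum_option, e1]
  simp_rw [e2]
  rw [Finset.sum_add_distrib, ← Finset.mul_sum, Finset.sum_add_distrib, Finset.sum_sub_distrib]
  have e3 : ∑ i, a i * c (some i) / A * ∑ j, a j * c (some j) =
      (∑ i, a i * c (some i)) ^ 2 / A := by
    rw [← Finset.sum_mul, ← Finset.sum_div]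
    ring
  have e4 : ∑ i, β i * c (some i) * g * ∑ j, β j * c (some j) =
      (∑ i, β i * c (some i)) ^ 2 * g := by
    rw [← Finset.sum_mul, ← Finset.sum_mul]
    ring
  rw [e3, e4]
  ring

/-- coefficients of `ξ·J + ζ·N` on the star -/
theorem quad_coeff {n : ℕ} (i0 : Fin n) (Q : Option (Fin n) → Option (Fin n) → ℝ) (g A R : ℝ)
    (a β : Fin n → ℝ) (hg : 0 < g) (hR : 0 < R) (ha0 : 0 < a i0) (hA : 0 < A)
    (hAa : 0 < A - a i0)
    (h00 : Q none none = g) (h01 : ∀ i, Q none (some i) = β i * g)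
    (h10 : ∀ i, Q (some i) none = β i * g)
    (h11 : ∀ i j, Q (some i) (some j) = (if i = j then a i else 0) - a i * a j / A +
      β i * β j * g) (ξ : Fin n → ℝ) (hξ : ξ i0 = 0) (z0 z1 : ℝ) (c : Option (Fin n) → ℝ)
    (hc : ∀ i, c (some i) = ξ i + (if i = i0 then z1 / Real.sqrt (a i0 * (A - a i0) / (A * R)) +
        (∑ j, a j * ξ j) / (A - a i0) else 0))
    (hc0 : c none = z0 / Real.sqrt (g / R) -
      β i0 * (z1 / Real.sqrt (a i0 * (A - a i0) / (A * R)) + (∑ j, a j * ξ j) / (A - a i0)) -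
      ∑ j, β j * ξ j) :
    (∑ p, ∑ q, c p * c q * Q p q) / R = z0 ^ 2 + z1 ^ 2 +
      (∑ i, a i * ξ i ^ 2 - (∑ i, a i * ξ i) ^ 2 / (A - a i0)) / R := by
  set σv := Real.sqrt (g / R) with hσv
  set σ0 := Real.sqrt (a i0 * (A - a i0) / (A * R)) with hσ0
  have hσv2 : σv ^ 2 = g / R := Real.sq_sqrt (by positivity)
  have hσ02 : σ0 ^ 2 = a i0 * (A - a i0) / (A * R) := Real.sq_sqrt (by positivity)
  have hσvp : 0 < σv := Real.sqrt_pos.2 (by positivity)
  have hσ0p : 0 < σ0 := Real.sqrt_pos.2 (by positivity)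
  set S := ∑ j, a j * ξ j with hS
  set T := ∑ j, a j * ξ j ^ 2 with hT
  set u := z1 / σ0 + S / (A - a i0) with hu
  rw [quad_star Q g A a β h00 h01 h10 h11 c]
  have e1 : ∑ i, β i * c (some i) = ∑ i, β i * ξ i + β i0 * u := by
    have : ∀ i, β i * c (some i) = β i * ξ i + (if i = i0 then β i0 * u else 0) := by
      intro i
      rw [hc i]
      by_cases h : i = i0
      · subst h; simp [mul_add]
      · simp [h]
    simp_rw [this]
    rw [Finset.sum_add_distrib]
    simp
  have e2 : ∑ i, a i * c (some i) = S + a i0 * u := by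
    have : ∀ i, a i * c (some i) = a i * ξ i + (if i = i0 then a i0 * u else 0) := by
      intro i
      rw [hc i]
      by_cases h : i = i0
      · subst h; simp [mul_add]
      · simp [h]
    simp_rw [this]
    rw [Finset.sum_add_distrib]
    simp [hS]
  have e3 : ∑ i, a i * c (some i) ^ 2 = T + a i0 * u ^ 2 := by
    have : ∀ i, a i * c (some i) ^ 2 = a i * ξ i ^ 2 + (if i = i0 then a i0 * u ^ 2 else 0) := by
      intro i
      rw [hc i]
      by_cases h : i = i0
      · subst h
        rw [hξ]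
        simp
      · simp [h]
    simp_rw [this]
    rw [Finset.sum_add_distrib]
    simp [hT]
  rw [e1, e2, e3, hc0]
  have e4 : z0 / σv - β i0 * u - ∑ j, β j * ξ j + (∑ i, β i * ξ i + β i0 * u) = z0 / σv := by
    ring
  rw [e4]
  have hRne : R ≠ 0 := hR.ne'
  have hAne : A ≠ 0 := hA.ne'
  have hAane : A - a i0 ≠ 0 := hAa.ne'
  have e5 : (z0 / σv) ^ 2 * g = z0 ^ 2 * R := by
    rw [div_pow, hσv2]
    field_simp
  have e6 : z1 / σ0 = u - S / (A - a i0) := by rw [hu]; ring
  have e7 : z1 ^ 2 = (u - S / (A - a i0)) ^ 2 * (a i0 * (A - a i0) / (A * R)) := by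
    rw [← e6, div_pow, hσ02]
    field_simp
  rw [e5, e7]
  field_simp
  ring

theorem g_facts (σ : ℂ) (hσ : 0 < σ.im) :
    0 < (-1 / σ).im ∧ (-1 / σ).im = σ.im * Complex.normSq (-1 / σ) := by
  have hne : σ ≠ 0 := by
    intro h; rw [h] at hσ; simp at hσ
  have hn : 0 < Complex.normSq σ := Complex.normSq_pos.2 hne
  have e1 : (-1 / σ).im = σ.im / Complex.normSq σ := by
    rw [neg_div, Complex.neg_im, one_div, Complex.inv_im]
    ring
  have e2 : Complex.normSq (-1 / σ) = 1 / Complex.normSq σ := by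
    rw [map_div₀, Complex.normSq_neg, map_one]
  refine ⟨by rw [e1]; positivity, by rw [e1, e2]; ring⟩

/-- `K_ij = a_i δ_ij - a_i a_j / A`. -/
theorem K_identity (g x y : ℂ) (A : ℝ) (hA : 0 < A) (hg : 0 < g.im)
    (hgA : g.im = A * Complex.normSq g) (δ : Prop) [Decidable δ] :
    (g * x * y + (if δ then x else 0)).im = (if δ then x.im else 0) - x.im * y.im / A +
      (g * (-x)).im / g.im * ((g * (-y)).im / g.im) * g.im := by
  have h1 := im_mul_identity g x y
  have hgn : g.im ≠ 0 := hg.ne'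
  have hAn : A ≠ 0 := hA.ne'
  have e0 : (g * (-x)).im = -(g * x).im := by rw [mul_neg, Complex.neg_im]
  have e1 : (g * (-y)).im = -(g * y).im := by rw [mul_neg, Complex.neg_im]
  have e2 : (g * x * y).im = -(x.im * y.im / A) + (g * x).im * (g * y).im / g.im := by
    have h2 : (g * x * y).im * g.im = (g * x).im * (g * y).im -
        Complex.normSq g * x.im * y.im := by linarith
    have h3 : Complex.normSq g = g.im / A := by rw [hgA]; field_simp
    rw [h3] at h2
    field_simp
    field_simp at h2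
    linarith
  rw [Complex.add_im, e2, e0, e1]
  by_cases h : δ
  · simp only [h, if_true]
    field_simp
    ring
  · simp only [h, if_false, Complex.zero_im]
    field_simp
    ring

end Crest.Agent.R166.Innov487
end

-- ▼ part R166/InnovC_487
section

/-!
Row 166, section 42.4 (helper487).  The whitened noise on the star of the limit process.
-/

set_option autoImplicit false
set_option linter.unusedSectionVars false
set_option linter.unusedVariables false

namespace Crest.Agent.R166.Innov487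

open MeasureTheory ProbabilityTheory Crest.Agent.R166.B2 Crest.Agent.R166.Tweedie487
  Crest.Agent.R166.Mart663 Crest.Agent.R166.Freeze487

section defs

variable {Ω : Type*}

/-- `Im` of the cavity value at neighbour `i` -/
noncomputable def aI (pp rr : Ω → Ω) (cav : Ω → ℂ) (i : ℕ) (h : Ω) : ℝ := (cav (mv pp rr i h)).im

/-- sum of the `a_i` -/
noncomputable def AI (pp rr : Ω → Ω) (d : ℕ) (cav : Ω → ℂ) (h : Ω) : ℝ :=
  ∑ i ∈ Finset.range d, aI pp rr cav i h

/-- standard deviation of `Z_v` -/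
noncomputable def sV (pp rr : Ω → Ω) (d : ℕ) (s E ρ : ℝ) (om : Ω → ℝ) (cav : Ω → ℂ) (h : Ω) : ℝ :=
  Real.sqrt ((Gd pp rr d s E om cav h).im / (Real.pi * ρ))

/-- standard deviation of `Z_0 - β_0 Z_v` -/
noncomputable def s0 (pp rr : Ω → Ω) (d : ℕ) (ρ : ℝ) (cav : Ω → ℂ) (h : Ω) : ℝ :=
  Real.sqrt (aI pp rr cav 0 h * (AI pp rr d cav h - aI pp rr cav 0 h) /
    (AI pp rr d cav h * (Real.pi * ρ)))

/-- whitened edge noise -/
noncomputable def NN {k : ℕ} (pp rr : Ω → Ω) (d : ℕ) (s E ρ : ℝ) (om : Ω → ℝ) (cav : Ω → ℂ)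
    (Z : Ω → Fin k → ℝ) (h : Ω) : Fin 2 × Fin k → ℝ := fun q =>
  if q.1 = 0 then Z h q.2 / sV pp rr d s E ρ om cav h
  else (Z (pp h) q.2 - bet pp rr d s E om cav 0 h * Z h q.2) / s0 pp rr d ρ cav h

/-- noise part of the innovations -/
noncomputable def JJ {k : ℕ} (pp rr : Ω → Ω) (d : ℕ) (s E : ℝ) (om : Ω → ℝ) (cav : Ω → ℂ)
    (Z : Ω → Fin k → ℝ) (h : Ω) : Fin d × Fin k → ℝ := fun q =>
  if (q.1 : ℕ) = 0 then 0 else
    (Z (mv pp rr q.1 h) q.2 - bet pp rr d s E om cav q.1 h * Z h q.2) +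
      aI pp rr cav q.1 h / (AI pp rr d cav h - aI pp rr cav 0 h) *
        (Z (pp h) q.2 - bet pp rr d s E om cav 0 h * Z h q.2)

/-- the coefficient of neighbour `0` -/
noncomputable def uc {k : ℕ} (pp rr : Ω → Ω) (d : ℕ) (ρ : ℝ) (cav : Ω → ℂ)
    (ξ : Fin d × Fin k → ℝ) (ζ : Fin 2 × Fin k → ℝ) (h : Ω) (l : Fin k) : ℝ :=
  ζ (1, l) / s0 pp rr d ρ cav h +
    (∑ j : Fin d, aI pp rr cav j h * (if (j : ℕ) = 0 then 0 else ξ (j, l))) /
      (AI pp rr d cav h - aI pp rr cav 0 h)

/-- star coefficients of `ξ·J + ζ·N` -/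
noncomputable def cc {k : ℕ} (pp rr : Ω → Ω) (d : ℕ) (s E ρ : ℝ) (om : Ω → ℝ) (cav : Ω → ℂ)
    (ξ : Fin d × Fin k → ℝ) (ζ : Fin 2 × Fin k → ℝ) (h : Ω) (q : St d × Fin k) : ℝ :=
  match q.1 with
  | none => ζ (0, q.2) / sV pp rr d s E ρ om cav h -
      bet pp rr d s E om cav 0 h * uc pp rr d ρ cav ξ ζ h q.2 -
      ∑ j : Fin d, bet pp rr d s E om cav j h * (if (j : ℕ) = 0 then 0 else ξ (j, q.2))
  | some i => (if (i : ℕ) = 0 then 0 else ξ (i, q.2)) +
      (if (i : ℕ) = 0 then uc pp rr d ρ cav ξ ζ h q.2 else 0)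

/-- the linear identity -/
theorem cc_sum {k : ℕ} (pp rr : Ω → Ω) {d : ℕ} (hd : 0 < d) (s E ρ : ℝ) (om : Ω → ℝ) (cav : Ω → ℂ)
    (Z : Ω → Fin k → ℝ) (ξ : Fin d × Fin k → ℝ) (ζ : Fin 2 × Fin k → ℝ) (h : Ω) :
    ∑ q : St d × Fin k, cc pp rr d s E ρ om cav ξ ζ h q * Z (sv pp rr d h q.1) q.2 =
      ∑ q, ξ q * JJ pp rr d s E om cav Z h q + ∑ q, ζ q * NN pp rr d s E ρ om cav Z h q := by
  rw [Fintype.sum_prod_type, Fintype.sum_prod_type, Fintype.sum_prod_type]
  rw [Finset.sum_comm, Finset.sum_comm (s := (Finset.univ : Finset (Fin d))),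
    Finset.sum_comm (s := (Finset.univ : Finset (Fin 2))), ← Finset.sum_add_distrib]
  refine Finset.sum_congr rfl fun l _ => ?_
  rw [Fintype.sum_option, Fin.sum_univ_two]
  simp only [cc, NN, JJ, sv]
  set i0 : Fin d := ⟨0, hd⟩ with hi0
  have hz : mv pp rr (0 : ℕ) h = pp h := rfl
  have e1 : ∑ i : Fin d, ((if (i : ℕ) = 0 then 0 else ξ (i, l)) +
      (if (i : ℕ) = 0 then uc pp rr d ρ cav ξ ζ h l else 0)) * Z (mv pp rr i h) l =
      ∑ i : Fin d, (if (i : ℕ) = 0 then 0 else ξ (i, l)) * Z (mv pp rr i h) l +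
        uc pp rr d ρ cav ξ ζ h l * Z (pp h) l := by
    simp_rw [add_mul]
    rw [Finset.sum_add_distrib]
    congr 1
    rw [Finset.sum_eq_single i0]
    · simp [hi0, hz]
    · intro b _ hb
      have : (b : ℕ) ≠ 0 := fun h0 => hb (Fin.ext h0)
      simp [this]
    · simp
  have e2 : ∑ x : Fin d, ξ (x, l) * (if (x : ℕ) = 0 then 0 else
        Z (mv pp rr x h) l - bet pp rr d s E om cav x h * Z h l +
        aI pp rr cav x h / (AI pp rr d cav h - aI pp rr cav 0 h) *
          (Z (pp h) l - bet pp rr d s E om cav 0 h * Z h l)) =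
      ∑ i : Fin d, (if (i : ℕ) = 0 then 0 else ξ (i, l)) * Z (mv pp rr i h) l -
        (∑ j : Fin d, bet pp rr d s E om cav j h * (if (j : ℕ) = 0 then 0 else ξ (j, l))) *
          Z h l +
        ((∑ j : Fin d, aI pp rr cav j h * (if (j : ℕ) = 0 then 0 else ξ (j, l))) /
          (AI pp rr d cav h - aI pp rr cav 0 h)) *
          (Z (pp h) l - bet pp rr d s E om cav 0 h * Z h l) := by
    rw [Finset.sum_mul, Finset.sum_div, Finset.sum_mul, ← Finset.sum_sub_distrib,
      ← Finset.sum_add_distrib]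
    refine Finset.sum_congr rfl fun j _ => ?_
    by_cases hj : (j : ℕ) = 0
    · simp [hj]
    · simp only [hj, if_false]
      ring
  rw [e1, e2]
  simp only [if_true, one_ne_zero, if_false, uc]
  ring

end defs

section meas

variable {Ω : Type} {Env FX : MeasurableSpace Ω} [mΩ : MeasurableSpace Ω] {d k : ℕ}
  {s E t ρ : ℝ} {P : Measure Ω} {pp rr : Ω → Ω} {om : Ω → ℝ} {cav : Ω → ℂ}
  {X Z : Ω → Fin k → ℝ}

theorem mv_mp (L : LimProc Env FX d k s E t ρ P pp rr om cav X Z) (j : ℕ) :
    MeasurePreserving (mv pp rr j) P P := L.pp_mp.comp (L.rr_mp.iterate j)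

theorem mv_Env (L : LimProc Env FX d k s E t ρ P pp rr om cav X Z) (j : ℕ) :
    Measurable[Env, Env] (mv pp rr j) := by
  have h1 : Measurable[Env, Env] (rr^[j]) := by
    induction j with
    | zero => exact @measurable_id Ω Env
    | succ n ih =>
      rw [Function.iterate_succ]
      exact ih.comp L.rr_Env
  exact L.pp_Env.comp h1

theorem mv_FX (L : LimProc Env FX d k s E t ρ P pp rr om cav X Z) (j : ℕ) :
    Measurable[FX, FX] (mv pp rr j) := by
  have h1 : Measurable[FX, FX] (rr^[j]) := by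
    induction j with
    | zero => exact @measurable_id Ω FX
    | succ n ih =>
      rw [Function.iterate_succ]
      exact ih.comp L.rr_FX
  exact L.pp_FX.comp h1

theorem aI_Env (L : LimProc Env FX d k s E t ρ P pp rr om cav X Z) (j : ℕ) :
    Measurable[Env] (aI pp rr cav j) :=
  Complex.measurable_im.comp (L.cav_meas.comp (mv_Env L j))

theorem AI_Env (L : LimProc Env FX d k s E t ρ P pp rr om cav X Z) :
    Measurable[Env] (AI pp rr d cav) := by
  unfold AI
  exact Finset.measurable_sum _ fun j _ => aI_Env L j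

theorem Gd_Env (L : LimProc Env FX d k s E t ρ P pp rr om cav X Z) :
    Measurable[Env] (Gd pp rr d s E om cav) := by
  unfold Gd
  refine Measurable.div measurable_const ?_
  refine Measurable.add (Measurable.sub measurable_const ?_) ?_
  · exact measurable_const.mul (Complex.measurable_ofReal.comp L.om_meas)
  · exact Finset.measurable_sum _ fun j _ => L.cav_meas.comp (mv_Env L j)

theorem bet_Env (L : LimProc Env FX d k s E t ρ P pp rr om cav X Z) (j : ℕ) :
    Measurable[Env] (bet pp rr d s E om cav j) := by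
  unfold bet
  refine Measurable.div ?_ ?_
  · exact Complex.measurable_im.comp ((Gd_Env L).mul (L.cav_meas.comp (mv_Env L j)).neg)
  · exact Complex.measurable_im.comp (Gd_Env L)

theorem sV_Env (L : LimProc Env FX d k s E t ρ P pp rr om cav X Z) :
    Measurable[Env] (sV pp rr d s E ρ om cav) := by
  unfold sV
  exact ((Complex.measurable_im.comp (Gd_Env L)).div_const _).sqrt

theorem s0_Env (L : LimProc Env FX d k s E t ρ P pp rr om cav X Z) :
    Measurable[Env] (s0 pp rr d ρ cav) := by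
  unfold s0
  exact (((aI_Env L 0).mul ((AI_Env L).sub (aI_Env L 0))).div
    ((AI_Env L).mul_const _)).sqrt

theorem uc_Env (L : LimProc Env FX d k s E t ρ P pp rr om cav X Z)
    (ξ : Fin d × Fin k → ℝ) (ζ : Fin 2 × Fin k → ℝ) (l : Fin k) :
    Measurable[Env] (fun h => uc pp rr d ρ cav ξ ζ h l) := by
  unfold uc
  have h0 : Measurable[Env] fun h : Ω => ζ (1, l) := @measurable_const _ _ _ Env _
  have h1 : Measurable[Env] fun h => ζ (1, l) / s0 pp rr d ρ cav h := h0.div (s0_Env L)
  have h2 : Measurable[Env] fun h =>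
      ∑ j : Fin d, aI pp rr cav j h * (if (j : ℕ) = 0 then 0 else ξ (j, l)) :=
    Finset.measurable_sum _ fun j _ => (aI_Env L j).mul_const _
  have h3 : Measurable[Env] fun h => AI pp rr d cav h - aI pp rr cav 0 h :=
    (AI_Env L).sub (aI_Env L 0)
  exact h1.add (h2.div h3)

theorem cc_Env (L : LimProc Env FX d k s E t ρ P pp rr om cav X Z)
    (ξ : Fin d × Fin k → ℝ) (ζ : Fin 2 × Fin k → ℝ) :
    Measurable[Env] (cc pp rr d s E ρ om cav ξ ζ) := by
  refine @measurable_pi_lambda Ω (St d × Fin k) (fun _ => ℝ) Env _ _ fun q => ?_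
  obtain ⟨p, l⟩ := q
  cases p with
  | none =>
    simp only [cc]
    have h0 : Measurable[Env] fun h : Ω => ζ (0, l) := @measurable_const _ _ _ Env _
    have h1 : Measurable[Env] fun h => ζ (0, l) / sV pp rr d s E ρ om cav h := h0.div (sV_Env L)
    have h2 : Measurable[Env] fun h => bet pp rr d s E om cav 0 h * uc pp rr d ρ cav ξ ζ h l :=
      (bet_Env L 0).mul (uc_Env L ξ ζ l)
    have h3 : Measurable[Env] fun h =>
        ∑ j : Fin d, bet pp rr d s E om cav j h * (if (j : ℕ) = 0 then 0 else ξ (j, l)) :=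
      Finset.measurable_sum _ fun j _ => (bet_Env L j).mul_const _
    exact (h1.sub h2).sub h3
  | some i =>
    simp only [cc]
    by_cases hi : (i : ℕ) = 0
    · simp only [hi, if_true, zero_add]
      exact uc_Env L ξ ζ l
    · simp only [hi, if_false, add_zero]
      exact @measurable_const _ _ _ Env _

/-- almost sure positivity facts -/
theorem pos_ae (L : LimProc Env FX d k s E t ρ P pp rr om cav X Z) :
    ∀ᵐ h ∂P, (∀ i : ℕ, 0 < aI pp rr cav i h) ∧ 0 < AI pp rr d cav h - aI pp rr cav 0 h ∧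
      0 < AI pp rr d cav h ∧ 0 < (Gd pp rr d s E om cav h).im ∧
      (Gd pp rr d s E om cav h).im = AI pp rr d cav h *
        Complex.normSq (Gd pp rr d s E om cav h) := by
  have h1 : ∀ᵐ h ∂P, ∀ i : ℕ, 0 < aI pp rr cav i h := by
    rw [ae_all_iff]
    intro i
    exact (mv_mp L i).quasiMeasurePreserving.ae L.cav_im
  filter_upwards [h1] with h hh
  have hd := L.hd
  have hA : AI pp rr d cav h - aI pp rr cav 0 h = ∑ i ∈ Finset.Ico 1 d, aI pp rr cav i h := by
    unfold AI
    rw [Finset.range_eq_Ico, Finset.sum_eq_sum_Ico_succ_bot (by omega)]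
    ring
  have hA0 : 0 < AI pp rr d cav h - aI pp rr cav 0 h := by
    rw [hA]
    exact Finset.sum_pos (fun i _ => hh i) ⟨1, Finset.mem_Ico.2 ⟨le_rfl, by omega⟩⟩
  have hAp : 0 < AI pp rr d cav h := by
    have := hh 0
    linarith
  have hσ : ((E : ℂ) - s * om h + ∑ i ∈ Finset.range d, cav (mv pp rr i h)).im =
      AI pp rr d cav h := by
    simp [AI, aI]
  obtain ⟨g1, g2⟩ := g_facts ((E : ℂ) - s * om h + ∑ i ∈ Finset.range d, cav (mv pp rr i h))
    (by rw [hσ]; exact hAp)
  refine ⟨hh, hA0, hAp, g1, ?_⟩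
  rw [hσ] at g2
  exact g2

end meas

end Crest.Agent.R166.Innov487
end

-- ▼ part R166/InnovD_487
section

/-!
Row 166, section 42.4 (helper487).  Conditional characteristic function of `(J, N)` given `FX`,
the joint law, integrability of `Z`.
-/

set_option autoImplicit false
set_option linter.unusedSectionVars false
set_option linter.unusedVariables false

namespace Crest.Agent.R166.Innov487

open MeasureTheory ProbabilityTheory Crest.Agent.R166.B2 Crest.Agent.R166.Tweedie487
  Crest.Agent.R166.Mart663 Crest.Agent.R166.Freeze487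

variable {Ω : Type} {Env FX : MeasurableSpace Ω} [mΩ : MeasurableSpace Ω] {d k : ℕ}
  {s E t ρ : ℝ} {P : Measure Ω} {pp rr : Ω → Ω} {om : Ω → ℝ} {cav : Ω → ℂ}
  {X Z : Ω → Fin k → ℝ}

/-- the part of the conditional characteristic function depending on `ξ` -/
noncomputable def psi0 {k : ℕ} (pp rr : Ω → Ω) (d : ℕ) (ρ : ℝ) (cav : Ω → ℂ)
    (ξ : Fin d × Fin k → ℝ) (h : Ω) : ℂ :=
  Complex.exp (((-(1 / 2) * ∑ l : Fin k,
    (∑ i : Fin d, aI pp rr cav i h * (if (i : ℕ) = 0 then 0 else ξ (i, l)) ^ 2 -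
      (∑ i : Fin d, aI pp rr cav i h * (if (i : ℕ) = 0 then 0 else ξ (i, l))) ^ 2 /
        (AI pp rr d cav h - aI pp rr cav 0 h)) / (Real.pi * ρ) : ℝ) : ℂ))


/-- the quadratic form of the star covariance at the coefficients `cc` -/
theorem quad_cc (hd : 3 ≤ d) (hρ : 0 < ρ) (ξ : Fin d × Fin k → ℝ) (ζ : Fin 2 × Fin k → ℝ) (h : Ω)
    (h1 : ∀ i : ℕ, 0 < aI pp rr cav i h) (h2 : 0 < AI pp rr d cav h - aI pp rr cav 0 h)
    (h3 : 0 < AI pp rr d cav h) (h4 : 0 < (Gd pp rr d s E om cav h).im)
    (h5 : (Gd pp rr d s E om cav h).im = AI pp rr d cav h *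
        Complex.normSq (Gd pp rr d s E om cav h)) (l : Fin k) :
    (∑ a, ∑ b, cc pp rr d s E ρ om cav ξ ζ h (a, l) * cc pp rr d s E ρ om cav ξ ζ h (b, l) *
      (Gs pp rr d s E om cav h a b).im) / (Real.pi * ρ) =
    ζ (0, l) ^ 2 + ζ (1, l) ^ 2 +
      (∑ i : Fin d, aI pp rr cav i h * (if (i : ℕ) = 0 then 0 else ξ (i, l)) ^ 2 -
      (∑ i : Fin d, aI pp rr cav i h * (if (i : ℕ) = 0 then 0 else ξ (i, l))) ^ 2 /
        (AI pp rr d cav h - aI pp rr cav 0 h)) / (Real.pi * ρ) := by
  set i0 : Fin d := ⟨0, by omega⟩ with hi0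
  have hi0v : ∀ i : Fin d, (i : ℕ) = 0 ↔ i = i0 := fun i => by
    rw [hi0, Fin.ext_iff]
  have hgne := h4.ne'
  refine quad_coeff i0 (fun a b => (Gs pp rr d s E om cav h a b).im)
    (Gd pp rr d s E om cav h).im (AI pp rr d cav h) (Real.pi * ρ)
    (fun i => aI pp rr cav i h) (fun i => bet pp rr d s E om cav i h) h4 (by positivity)
    (h1 _) h3 h2 rfl ?_ ?_ ?_ (fun i => if (i : ℕ) = 0 then 0 else ξ (i, l)) (by simp [hi0])
    (ζ (0, l)) (ζ (1, l)) (fun a => cc pp rr d s E ρ om cav ξ ζ h (a, l)) ?_ ?_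
  · intro i
    simp only [Gs, bet]
    field_simp
  · intro i
    simp only [Gs, bet]
    field_simp
  · intro i j
    simp only [Gs, bet, aI]
    have := K_identity (Gd pp rr d s E om cav h) (cav (mv pp rr i h)) (cav (mv pp rr j h))
      (AI pp rr d cav h) h3 h4 h5 (i = j)
    rw [this]
  · intro i
    simp only [cc]
    by_cases hi : i = i0
    · subst hi
      simp only [hi0, if_true, uc, s0]
    · have : (i : ℕ) ≠ 0 := fun h0 => hi ((hi0v i).1 h0)
      simp only [this, hi, if_false]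
  · simp only [cc, uc, s0, sV, hi0]

theorem hJN (L : LimProc Env FX d k s E t ρ P pp rr om cav X Z) (ξ : Fin d × Fin k → ℝ)
    (ζ : Fin 2 × Fin k → ℝ) :
    P[fun h => Complex.exp (Complex.I * ((∑ q, ξ q * JJ pp rr d s E om cav Z h q +
      ∑ q, ζ q * NN pp rr d s E ρ om cav Z h q : ℝ) : ℂ)) | FX] =ᵐ[P]
    fun h => psi0 pp rr d ρ cav ξ h * ((Real.exp (-(∑ q, ζ q ^ 2) / 2) : ℝ) : ℂ) := by
  have := L.prob
  have hd := L.hd
  have hVm : Measurable fun h => fun q : St d × Fin k => Z (sv pp rr d h q.1) q.2 := by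
    refine measurable_pi_lambda _ fun q => ?_
    obtain ⟨p, l⟩ := q
    cases p with
    | none => exact (measurable_pi_apply l).comp L.Z_meas
    | some i => exact (measurable_pi_apply l).comp (L.Z_meas.comp (mv_mp L i).measurable)
  have hfr := freeze (P := P) L.FX_le hVm
    (φ := fun h x => Complex.exp (((-(1 / 2) * ∑ l : Fin k,
      (∑ a, ∑ b, x (a, l) * x (b, l) * (Gs pp rr d s E om cav h a b).im) / (Real.pi * ρ) : ℝ) : ℂ)))
    (fun h => by fun_prop) (by
      intro x
      have hZ := L.Z_gauss [] (fun j hj => by simp at hj) 0 (fun a l => x (a, l))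
      have e1 : (fun h => Complex.exp (Complex.I * ((∑ q : St d × Fin k,
          x q * Z (sv pp rr d h q.1) q.2 : ℝ) : ℂ))) =
          fun h => Complex.exp (Complex.I *
        ((∑ l, ((0 : Fin k → ℝ) l * Z (wd pp rr [] (pp h)) l +
          ∑ a, x (a, l) * Z (sv pp rr d h a) l) : ℝ) : ℂ)) := by
        ext h
        congr 3
        rw [Fintype.sum_prod_type, Finset.sum_comm]
        refine Finset.sum_congr rfl fun l _ => ?_
        simp
      rw [e1]
      refine hZ.trans (Filter.Eventually.of_forall fun h => ?_)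
      simp only [Pi.zero_apply, zero_mul, mul_zero, Finset.sum_const_zero, zero_add, ne_eq,
        OfNat.ofNat_ne_zero, not_false_eq_true, zero_pow])
    ((cc_Env L ξ ζ).mono L.Env_le le_rfl)
  have e2 : (fun h => Complex.exp (Complex.I * ((∑ q : St d × Fin k,
      cc pp rr d s E ρ om cav ξ ζ h q * Z (sv pp rr d h q.1) q.2 : ℝ) : ℂ))) =
      fun h => Complex.exp (Complex.I * ((∑ q, ξ q * JJ pp rr d s E om cav Z h q +
      ∑ q, ζ q * NN pp rr d s E ρ om cav Z h q : ℝ) : ℂ)) := by
    ext h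
    rw [cc_sum pp rr (by omega) s E ρ om cav Z ξ ζ h]
  rw [e2] at hfr
  refine hfr.trans ?_
  filter_upwards [pos_ae L] with h hh
  obtain ⟨h1, h2, h3, h4, h5⟩ := hh
  rw [psi0, ← Complex.ofReal_exp, ← Complex.ofReal_exp, ← Complex.ofReal_mul, ← Real.exp_add]
  congr 2
  have e3 : ∑ q : Fin 2 × Fin k, ζ q ^ 2 = ∑ l, (ζ (0, l) ^ 2 + ζ (1, l) ^ 2) := by
    rw [Fintype.sum_prod_type, Fin.sum_univ_two, ← Finset.sum_add_distrib]
  rw [e3]
  have e4 : ∀ l : Fin k, (∑ a, ∑ b, cc pp rr d s E ρ om cav ξ ζ h (a, l) *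
      cc pp rr d s E ρ om cav ξ ζ h (b, l) * (Gs pp rr d s E om cav h a b).im) / (Real.pi * ρ) =
      (ζ (0, l) ^ 2 + ζ (1, l) ^ 2) +
      (∑ i : Fin d, aI pp rr cav i h * (if (i : ℕ) = 0 then 0 else ξ (i, l)) ^ 2 -
      (∑ i : Fin d, aI pp rr cav i h * (if (i : ℕ) = 0 then 0 else ξ (i, l))) ^ 2 /
        (AI pp rr d cav h - aI pp rr cav 0 h)) / (Real.pi * ρ) := fun l =>
    quad_cc hd L.hρ ξ ζ h h1 h2 h3 h4 h5 l
  rw [Finset.sum_congr rfl fun l _ => e4 l, Finset.sum_add_distrib]
  ring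

theorem Z_star_meas (L : LimProc Env FX d k s E t ρ P pp rr om cav X Z) (j : ℕ) (l : Fin k) :
    Measurable fun h => Z (mv pp rr j h) l :=
  (measurable_pi_apply l).comp (L.Z_meas.comp (mv_mp L j).measurable)

theorem NN_meas (L : LimProc Env FX d k s E t ρ P pp rr om cav X Z) :
    Measurable (NN pp rr d s E ρ om cav Z) := by
  have hE : Env ≤ mΩ := L.Env_le.trans L.FX_le
  have hZ : ∀ l, Measurable fun h => Z h l := fun l => (measurable_pi_apply l).comp L.Z_meas
  refine measurable_pi_lambda _ fun q => ?_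
  unfold NN
  by_cases hq : q.1 = 0
  · simp only [hq, if_true]
    exact (hZ _).div ((sV_Env L).mono hE le_rfl)
  · simp only [hq, if_false]
    exact (((hZ _).comp L.pp_mp.measurable).sub
      (((bet_Env L 0).mono hE le_rfl).mul (hZ _))).div ((s0_Env L).mono hE le_rfl)

theorem JJ_meas (L : LimProc Env FX d k s E t ρ P pp rr om cav X Z) :
    Measurable (JJ pp rr d s E om cav Z) := by
  have hE : Env ≤ mΩ := L.Env_le.trans L.FX_le
  have hZ : ∀ l, Measurable fun h => Z h l := fun l => (measurable_pi_apply l).comp L.Z_meas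
  refine measurable_pi_lambda _ fun q => ?_
  unfold JJ
  by_cases hq : (q.1 : ℕ) = 0
  · simp only [hq, if_true]
    exact measurable_const
  · simp only [hq, if_false]
    refine Measurable.add ((Z_star_meas L _ _).sub
      (((bet_Env L _).mono hE le_rfl).mul (hZ _))) (Measurable.mul ?_ ?_)
    · exact ((aI_Env L _).mono hE le_rfl).div
        (((AI_Env L).mono hE le_rfl).sub ((aI_Env L 0).mono hE le_rfl))
    · exact ((hZ _).comp L.pp_mp.measurable).sub (((bet_Env L 0).mono hE le_rfl).mul (hZ _))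

/-- joint law of `(V, J, N)` for every `FX`-measurable `V`. -/
theorem law_VJN {E' : Type*} [MeasurableSpace E']
    (L : LimProc Env FX d k s E t ρ P pp rr om cav X Z) {V : Ω → E'} (hV : Measurable[FX] V) :
    P.map (fun h => ((V h, JJ pp rr d s E om cav Z h), NN pp rr d s E ρ om cav Z h)) =
      (P.map fun h => (V h, JJ pp rr d s E om cav Z h)).prod (gs (Fin 2 × Fin k)) := by
  have := L.prob
  exact map_prod_gs (P := P) L.FX_le (JJ_meas L) (NN_meas L) (fun ξ ζ => hJN L ξ ζ) hV

/-- `Z` is integrable. -/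
theorem Z_int (L : LimProc Env FX d k s E t ρ P pp rr om cav X Z) (l : Fin k) :
    Integrable (fun h => Z h l) P := by
  have := L.prob
  have hE : Env ≤ mΩ := L.Env_le.trans L.FX_le
  have hsV : Measurable[FX] (sV pp rr d s E ρ om cav) := (sV_Env L).mono L.Env_le le_rfl
  have hsV' : Measurable (sV pp rr d s E ρ om cav) := hsV.mono L.FX_le le_rfl
  have hsVi : Integrable (sV pp rr d s E ρ om cav) P := by
    refine ((L.G_int.abs.div_const (Real.pi * ρ)).add (integrable_const (1 : ℝ))).mono'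
      hsV'.aestronglyMeasurable (Filter.Eventually.of_forall fun h => ?_)
    have hR : 0 < Real.pi * ρ := mul_pos Real.pi_pos L.hρ
    have h0 : 0 ≤ sV pp rr d s E ρ om cav h := Real.sqrt_nonneg _
    rw [Real.norm_eq_abs, abs_of_nonneg h0]
    simp only [Pi.add_apply, sV]
    have h1 : Real.sqrt ((Gd pp rr d s E om cav h).im / (Real.pi * ρ)) ≤
        Real.sqrt (|(Gd pp rr d s E om cav h).im| / (Real.pi * ρ)) :=
      Real.sqrt_le_sqrt (div_le_div_of_nonneg_right (le_abs_self _) hR.le)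
    refine h1.trans ?_
    set y := |(Gd pp rr d s E om cav h).im| / (Real.pi * ρ) with hy
    have hy0 : 0 ≤ y := by positivity
    have h2 := Real.sq_sqrt hy0
    nlinarith [sq_nonneg (Real.sqrt y - 1), Real.sqrt_nonneg y]
  have hlaw := law_VJN L hsV
  have hN : P.map (fun h => (sV pp rr d s E ρ om cav h, NN pp rr d s E ρ om cav Z h)) =
      (P.map (sV pp rr d s E ρ om cav)).prod (gs (Fin 2 × Fin k)) := by
    have hm1 : Measurable fun h => ((sV pp rr d s E ρ om cav h, JJ pp rr d s E om cav Z h),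
        NN pp rr d s E ρ om cav Z h) := (hsV'.prodMk (JJ_meas L)).prodMk (NN_meas L)
    have e1 : (fun h => (sV pp rr d s E ρ om cav h, NN pp rr d s E ρ om cav Z h)) =
        (Prod.map Prod.fst id) ∘ fun h => ((sV pp rr d s E ρ om cav h,
          JJ pp rr d s E om cav Z h), NN pp rr d s E ρ om cav Z h) := rfl
    have e2 : (sV pp rr d s E ρ om cav) = Prod.fst ∘ fun h => (sV pp rr d s E ρ om cav h,
        JJ pp rr d s E om cav Z h) := rfl
    have : IsProbabilityMeasure (P.map fun h => (sV pp rr d s E ρ om cav h,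
        JJ pp rr d s E om cav Z h)) :=
      Measure.isProbabilityMeasure_map (hsV'.prodMk (JJ_meas L)).aemeasurable
    rw [e1, ← Measure.map_map (measurable_fst.prodMap measurable_id) hm1, hlaw,
      ← Measure.map_prod_map _ _ measurable_fst measurable_id, Measure.map_id,
      Measure.map_map measurable_fst (hsV'.prodMk (JJ_meas L))]
    rfl
  have h1 : Integrable (fun r : ℝ × (Fin 2 × Fin k → ℝ) => r.1 * r.2 (0, l))
      ((P.map (sV pp rr d s E ρ om cav)).prod (gs (Fin 2 × Fin k))) := by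
    refine Integrable.mul_prod (f := fun x : ℝ => x)
      (g := fun z : Fin 2 × Fin k → ℝ => z (0, l)) ?_ ?_
    · rw [integrable_map_measure (by fun_prop) hsV'.aemeasurable]
      exact hsVi
    · exact (integrable_gs_iff _).2 (integrable_coord_ph _)
  rw [← hN, integrable_map_measure (by fun_prop) (hsV'.prodMk (NN_meas L)).aemeasurable] at h1
  refine h1.congr ?_
  filter_upwards [pos_ae L] with h hh
  obtain ⟨_, _, _, h4, _⟩ := hh
  have hs : sV pp rr d s E ρ om cav h ≠ 0 := by
    unfold sV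
    have hR : 0 < Real.pi * ρ := mul_pos Real.pi_pos L.hρ
    exact (Real.sqrt_pos.2 (by positivity)).ne'
  simp only [Function.comp, NN, if_true]
  field_simp

end Crest.Agent.R166.Innov487
end

-- ▼ part R166/Innov_487
section

/-!
Row 166, section 42.4 (helper487).  `Stmt_innov`: vanishing increments imply that, given the
environment, the edge pair is independent of the innovations.
-/

set_option autoImplicit false
set_option linter.unusedSectionVars false
set_option linter.unusedVariables false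

namespace Crest.Agent.R166.Innov487

open MeasureTheory ProbabilityTheory Crest.Agent.R166.B2 Crest.Agent.R166.Tweedie487
  Crest.Agent.R166.Mart663 Crest.Agent.R166.Freeze487
open scoped Matrix

section factor

variable {Ω : Type*} {Env edge mΩ : MeasurableSpace Ω} {P : Measure Ω} [IsProbabilityMeasure P]

/-- final factorisation -/
theorem factor (h1 : Env ≤ edge) (h2 : edge ≤ mΩ) {f g w : Ω → ℂ} (hf : StronglyMeasurable[edge] f)
    (hfb : ∀ x, ‖f x‖ ≤ 1) (hg : StronglyMeasurable[mΩ] g) (hgb : ∀ x, ‖g x‖ ≤ 1)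
    (hw : StronglyMeasurable[Env] w) {C : ℝ} (hwb : ∀ x, ‖w x‖ ≤ C)
    (hgw : P[g | edge] =ᵐ[P] w) :
    P[fun x => f x * g x | Env] =ᵐ[P] fun x => (P[f | Env]) x * (P[g | Env]) x := by
  have hE : Env ≤ mΩ := h1.trans h2
  have hgi : Integrable g P := by
    refine Integrable.mono' (integrable_const (1 : ℝ)) hg.aestronglyMeasurable
      (Filter.Eventually.of_forall hgb)
  have hfi : Integrable f P := by
    refine Integrable.mono' (integrable_const (1 : ℝ)) (hf.mono h2).aestronglyMeasurable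
      (Filter.Eventually.of_forall hfb)
  have hwi : Integrable w P := by
    refine Integrable.mono' (integrable_const C) (hw.mono hE).aestronglyMeasurable
      (Filter.Eventually.of_forall hwb)
  have hfg : Integrable (fun x => f x * g x) P := by
    refine Integrable.mono' (integrable_const (1 : ℝ))
      ((hf.mono h2).mul hg).aestronglyMeasurable (Filter.Eventually.of_forall fun x => ?_)
    rw [norm_mul]
    calc ‖f x‖ * ‖g x‖ ≤ 1 * 1 := mul_le_mul (hfb x) (hgb x) (norm_nonneg _) zero_le_one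
      _ = 1 := one_mul 1
  have hfw : Integrable (fun x => f x * w x) P := by
    refine (hfi.norm.mul_const C).mono'
      ((hf.mono h2).mul (hw.mono hE)).aestronglyMeasurable (Filter.Eventually.of_forall fun x => ?_)
    rw [norm_mul]
    exact mul_le_mul_of_nonneg_left (hwb x) (norm_nonneg _)
  have e1 : P[fun x => f x * g x | edge] =ᵐ[P] fun x => f x * w x := by
    have := condExp_bilin_of_stronglyMeasurable_left (μ := P) (ContinuousLinearMap.mul ℝ ℂ) hf
      (g := g) (by simpa using hfg) hgi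
    simp only [ContinuousLinearMap.mul_apply'] at this
    refine this.trans ?_
    filter_upwards [hgw] with x hx
    rw [hx]
  have e2 : P[fun x => f x * g x | Env] =ᵐ[P] P[fun x => f x * w x | Env] :=
    (condExp_condExp_of_le h1 h2).symm.trans (condExp_congr_ae e1)
  have e3 : P[fun x => f x * w x | Env] =ᵐ[P] fun x => (P[f | Env]) x * w x := by
    have := condExp_bilin_of_stronglyMeasurable_right (μ := P) (m := Env)
      (ContinuousLinearMap.mul ℝ ℂ) (f := f) (g := w) hw (by simpa using hfw) hfi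
    simpa only [ContinuousLinearMap.mul_apply'] using this
  have e4 : P[g | Env] =ᵐ[P] w := by
    have h3 : P[P[g | edge] | Env] =ᵐ[P] P[g | Env] := condExp_condExp_of_le h1 h2
    have h4 : P[P[g | edge] | Env] =ᵐ[P] P[w | Env] := condExp_congr_ae hgw
    have h5 : P[w | Env] = w := condExp_of_stronglyMeasurable hE hw hwi
    rw [h5] at h4
    exact h3.symm.trans h4
  refine e2.trans (e3.trans ?_)
  filter_upwards [e4] with x hx
  rw [hx]

end factor

section defs

variable {Ω : Type*} {k : ℕ}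

/-- the edge vector -/
noncomputable def Ye (t : ℝ) (pp : Ω → Ω) (X Z : Ω → Fin k → ℝ) (h : Ω) : Fin 2 × Fin k → ℝ :=
  fun q => if q.1 = 0 then YY t X Z h q.2 else YY t X Z (pp h) q.2

/-- the innovation vector -/
noncomputable def II (pp rr : Ω → Ω) (d : ℕ) (s E t : ℝ) (om : Ω → ℝ) (cav : Ω → ℂ)
    (X Z : Ω → Fin k → ℝ) (h : Ω) : Fin d × Fin k → ℝ :=
  fun q => if (q.1 : ℕ) = 0 then 0 else Inn pp rr d s E t om cav X Z q.1 h q.2

/-- the `X`-part of the innovation vector -/
noncomputable def IX (pp rr : Ω → Ω) (d : ℕ) (s E : ℝ) (om : Ω → ℝ) (cav : Ω → ℂ)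
    (X : Ω → Fin k → ℝ) (h : Ω) : Fin d × Fin k → ℝ :=
  JJ pp rr d s E om cav X h

theorem II_eq (pp rr : Ω → Ω) (d : ℕ) (s E t : ℝ) (om : Ω → ℝ) (cav : Ω → ℂ)
    (X Z : Ω → Fin k → ℝ) (h : Ω) (q : Fin d × Fin k) :
    II pp rr d s E t om cav X Z h q = IX pp rr d s E om cav X h q +
      Real.sqrt t * JJ pp rr d s E om cav Z h q := by
  unfold II IX JJ
  by_cases hq : (q.1 : ℕ) = 0
  · simp [hq]
  · have hz : mv pp rr 0 h = pp h := rfl
    simp only [hq, if_false, Inn, Wr, YY, hz]
    have e : ∑ i ∈ Finset.range d, (cav (mv pp rr i h)).im = AI pp rr d cav h := rfl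
    have e' : (cav (pp h)).im = aI pp rr cav 0 h := rfl
    have e'' : (cav (mv pp rr q.1 h)).im = aI pp rr cav q.1 h := rfl
    rw [e, e', e'']
    ring

/-- whitening matrix -/
noncomputable def BB (pp rr : Ω → Ω) (d : ℕ) (s E t ρ : ℝ) (om : Ω → ℝ) (cav : Ω → ℂ) (h : Ω) :
    Matrix (Fin 2 × Fin k) (Fin 2 × Fin k) ℝ := fun p q =>
  if p.2 = q.2 then
    (if p.1 = 0 then (if q.1 = 0 then Real.sqrt t * sV pp rr d s E ρ om cav h else 0)
    else (if q.1 = 0 then Real.sqrt t * (bet pp rr d s E om cav 0 h * sV pp rr d s E ρ om cav h)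
      else Real.sqrt t * s0 pp rr d ρ cav h)) else 0

/-- inverse of the whitening matrix -/
noncomputable def BI (pp rr : Ω → Ω) (d : ℕ) (s E t ρ : ℝ) (om : Ω → ℝ) (cav : Ω → ℂ) (h : Ω) :
    Matrix (Fin 2 × Fin k) (Fin 2 × Fin k) ℝ := fun p q =>
  if p.2 = q.2 then
    (if p.1 = 0 then (if q.1 = 0 then 1 / (Real.sqrt t * sV pp rr d s E ρ om cav h) else 0)
    else (if q.1 = 0 then -(bet pp rr d s E om cav 0 h) / (Real.sqrt t * s0 pp rr d ρ cav h)
      else 1 / (Real.sqrt t * s0 pp rr d ρ cav h))) else 0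

theorem BI_mul_BB (pp rr : Ω → Ω) (d : ℕ) (s E t ρ : ℝ) (om : Ω → ℝ) (cav : Ω → ℂ) (h : Ω)
    (ht : 0 < t) (h1 : sV pp rr d s E ρ om cav h ≠ 0) (h2 : s0 pp rr d ρ cav h ≠ 0) :
    (BI pp rr d s E t ρ om cav h : Matrix (Fin 2 × Fin k) (Fin 2 × Fin k) ℝ) *
      BB pp rr d s E t ρ om cav h = 1 := by
  have hts : Real.sqrt t ≠ 0 := (Real.sqrt_pos.2 ht).ne'
  ext ⟨p1, p2⟩ ⟨q1, q2⟩
  rw [Matrix.mul_apply, Fintype.sum_prod_type, Fin.sum_univ_two, Matrix.one_apply]
  simp only [BI, BB, Prod.mk.injEq]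
  by_cases hpq : p2 = q2
  · subst hpq
    fin_cases p1 <;> fin_cases q1 <;> simp <;> field_simp <;> ring
  · rw [Finset.sum_eq_zero, Finset.sum_eq_zero]
    · simp [hpq]
    · intro x _
      by_cases hx : p2 = x
      · subst hx; simp [hpq]
      · simp [hx]
    · intro x _
      by_cases hx : p2 = x
      · subst hx; simp [hpq]
      · simp [hx]

theorem BB_mulVec (pp rr : Ω → Ω) (d : ℕ) (s E t ρ : ℝ) (om : Ω → ℝ) (cav : Ω → ℂ)
    (Z : Ω → Fin k → ℝ) (h : Ω) (h1 : sV pp rr d s E ρ om cav h ≠ 0)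
    (h2 : s0 pp rr d ρ cav h ≠ 0) (q : Fin 2 × Fin k) :
    ((BB pp rr d s E t ρ om cav h : Matrix (Fin 2 × Fin k) (Fin 2 × Fin k) ℝ) *ᵥ
      NN pp rr d s E ρ om cav Z h) q =
      Real.sqrt t * (if q.1 = 0 then Z h q.2 else Z (pp h) q.2) := by
  obtain ⟨p1, p2⟩ := q
  rw [Matrix.mulVec, dotProduct, Fintype.sum_prod_type, Fin.sum_univ_two]
  simp only [BB, NN]
  fin_cases p1 <;> simp <;> field_simp
  ring

end defs

section law

variable {Ω : Type} {Env FX : MeasurableSpace Ω} [mΩ : MeasurableSpace Ω] {d k : ℕ}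
  {s E t ρ : ℝ} {P : Measure Ω} {pp rr : Ω → Ω} {om : Ω → ℝ} {cav : Ω → ℂ}
  {X Z : Ω → Fin k → ℝ}

theorem sig_ne (L : LimProc Env FX d k s E t ρ P pp rr om cav X Z) :
    ∀ᵐ h ∂P, sV pp rr d s E ρ om cav h ≠ 0 ∧ s0 pp rr d ρ cav h ≠ 0 := by
  filter_upwards [pos_ae L] with h hh
  obtain ⟨h1, h2, h3, h4, h5⟩ := hh
  have hR : 0 < Real.pi * ρ := mul_pos Real.pi_pos L.hρ
  have h10 := h1 0
  constructor
  · unfold sV
    exact (Real.sqrt_pos.2 (by positivity)).ne'
  · unfold s0
    exact (Real.sqrt_pos.2 (by positivity)).ne'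

theorem BB_Env (L : LimProc Env FX d k s E t ρ P pp rr om cav X Z) (p q : Fin 2 × Fin k) :
    Measurable[Env] fun h => BB pp rr d s E t ρ om cav h p q := by
  have h1 : Measurable[Env] fun h => Real.sqrt t * sV pp rr d s E ρ om cav h :=
    (sV_Env L).const_mul _
  have h2 : Measurable[Env] fun h =>
      Real.sqrt t * (bet pp rr d s E om cav 0 h * sV pp rr d s E ρ om cav h) :=
    ((bet_Env L 0).mul (sV_Env L)).const_mul _
  have h3 : Measurable[Env] fun h => Real.sqrt t * s0 pp rr d ρ cav h := (s0_Env L).const_mul _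
  have h4 : Measurable[Env] fun _ : Ω => (0 : ℝ) := @measurable_const _ _ _ Env _
  unfold BB
  split_ifs
  · exact h1
  · exact h4
  · exact h2
  · exact h3
  · exact h4

theorem BI_Env (L : LimProc Env FX d k s E t ρ P pp rr om cav X Z) (p q : Fin 2 × Fin k) :
    Measurable[Env] fun h => BI pp rr d s E t ρ om cav h p q := by
  have h0 : Measurable[Env] fun _ : Ω => (1 : ℝ) := @measurable_const _ _ _ Env _
  have h1 : Measurable[Env] fun h => 1 / (Real.sqrt t * sV pp rr d s E ρ om cav h) :=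
    h0.div ((sV_Env L).const_mul _)
  have h2 : Measurable[Env] fun h =>
      -(bet pp rr d s E om cav 0 h) / (Real.sqrt t * s0 pp rr d ρ cav h) :=
    (bet_Env L 0).neg.div ((s0_Env L).const_mul _)
  have h3 : Measurable[Env] fun h => 1 / (Real.sqrt t * s0 pp rr d ρ cav h) :=
    h0.div ((s0_Env L).const_mul _)
  have h4 : Measurable[Env] fun _ : Ω => (0 : ℝ) := @measurable_const _ _ _ Env _
  unfold BI
  split_ifs
  · exact h1
  · exact h4
  · exact h2
  · exact h3
  · exact h4

theorem YY_meas (L : LimProc Env FX d k s E t ρ P pp rr om cav X Z) : Measurable (YY t X Z) := by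
  refine measurable_pi_lambda _ fun l => ?_
  exact ((measurable_pi_apply l).comp (L.X_meas.mono L.FX_le le_rfl)).add
    (((measurable_pi_apply l).comp L.Z_meas).const_mul _)

theorem Ye_meas (L : LimProc Env FX d k s E t ρ P pp rr om cav X Z) :
    Measurable (Ye t pp X Z) := by
  refine measurable_pi_lambda _ fun q => ?_
  unfold Ye
  by_cases hq : q.1 = 0
  · simp only [hq, if_true]
    exact (measurable_pi_apply _).comp (YY_meas L)
  · simp only [hq, if_false]
    exact (measurable_pi_apply _).comp ((YY_meas L).comp L.pp_mp.measurable)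

/-- the `X`-part of the edge vector -/
theorem Xe_FX (L : LimProc Env FX d k s E t ρ P pp rr om cav X Z) :
    Measurable[FX] fun h => (fun q : Fin 2 × Fin k => if q.1 = 0 then X h q.2 else X (pp h) q.2) := by
  refine @measurable_pi_lambda Ω (Fin 2 × Fin k) (fun _ => ℝ) FX _ _ fun q => ?_
  by_cases hq : q.1 = 0
  · simp only [hq, if_true]
    exact (measurable_pi_apply q.2).comp L.X_meas
  · simp only [hq, if_false]
    exact (measurable_pi_apply q.2).comp (L.X_meas.comp L.pp_FX)

theorem IX_FX (L : LimProc Env FX d k s E t ρ P pp rr om cav X Z) :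
    Measurable[FX] (IX pp rr d s E om cav X) := by
  have hE : Env ≤ FX := L.Env_le
  have hX : ∀ l, Measurable[FX] fun h => X h l := fun l => (measurable_pi_apply l).comp L.X_meas
  refine @measurable_pi_lambda Ω (Fin d × Fin k) (fun _ => ℝ) FX _ _ fun q => ?_
  unfold IX JJ
  by_cases hq : (q.1 : ℕ) = 0
  · simp only [hq, if_true]
    exact @measurable_const _ _ _ FX _
  · simp only [hq, if_false]
    have h1 : Measurable[FX] fun h => X (mv pp rr q.1 h) q.2 :=
      (measurable_pi_apply q.2).comp (L.X_meas.comp (mv_FX L _))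
    have h2 : Measurable[FX] fun h => bet pp rr d s E om cav q.1 h * X h q.2 :=
      ((bet_Env L _).mono hE le_rfl).mul (hX _)
    have h3 : Measurable[FX] fun h =>
        aI pp rr cav q.1 h / (AI pp rr d cav h - aI pp rr cav 0 h) :=
      ((aI_Env L _).mono hE le_rfl).div
        (((AI_Env L).mono hE le_rfl).sub ((aI_Env L 0).mono hE le_rfl))
    have h4 : Measurable[FX] fun h => X (pp h) q.2 - bet pp rr d s E om cav 0 h * X h q.2 :=
      ((measurable_pi_apply q.2).comp (L.X_meas.comp L.pp_FX)).sub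
        (((bet_Env L 0).mono hE le_rfl).mul (hX _))
    exact (h1.sub h2).add (h3.mul h4)

theorem II_meas (L : LimProc Env FX d k s E t ρ P pp rr om cav X Z) :
    Measurable (II pp rr d s E t om cav X Z) := by
  refine measurable_pi_lambda _ fun q => ?_
  have h1 : (fun h => II pp rr d s E t om cav X Z h q) = fun h =>
      IX pp rr d s E om cav X h q + Real.sqrt t * JJ pp rr d s E om cav Z h q := by
    ext h; exact II_eq pp rr d s E t om cav X Z h q
  rw [h1]
  exact ((measurable_pi_apply q).comp ((IX_FX L).mono L.FX_le le_rfl)).add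
    (((measurable_pi_apply q).comp (JJ_meas L)).const_mul _)

/-- `Xe' = Ye - B N` -/
noncomputable def Xp (pp rr : Ω → Ω) (d : ℕ) (s E t ρ : ℝ) (om : Ω → ℝ) (cav : Ω → ℂ)
    (X Z : Ω → Fin k → ℝ) (h : Ω) : Fin 2 × Fin k → ℝ :=
  Ye t pp X Z h - (BB pp rr d s E t ρ om cav h : Matrix (Fin 2 × Fin k) (Fin 2 × Fin k) ℝ) *ᵥ
    NN pp rr d s E ρ om cav Z h

theorem BN_meas (L : LimProc Env FX d k s E t ρ P pp rr om cav X Z) :
    Measurable fun h => (BB pp rr d s E t ρ om cav h :
      Matrix (Fin 2 × Fin k) (Fin 2 × Fin k) ℝ) *ᵥ NN pp rr d s E ρ om cav Z h := by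
  have hE : Env ≤ mΩ := L.Env_le.trans L.FX_le
  refine measurable_pi_lambda _ fun p => ?_
  simp only [Matrix.mulVec, dotProduct]
  exact Finset.measurable_sum _ fun q _ =>
    ((BB_Env L p q).mono hE le_rfl).mul ((measurable_pi_apply q).comp (NN_meas L))

theorem Xp_ae (L : LimProc Env FX d k s E t ρ P pp rr om cav X Z) :
    ∀ᵐ h ∂P, Xp pp rr d s E t ρ om cav X Z h =
      fun q : Fin 2 × Fin k => if q.1 = 0 then X h q.2 else X (pp h) q.2 := by
  filter_upwards [sig_ne L] with h hh
  ext q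
  have := BB_mulVec (t := t) pp rr d s E ρ om cav Z h hh.1 hh.2 q
  simp only [Xp, Pi.sub_apply, this, Ye, YY]
  by_cases hq : q.1 = 0
  · simp [hq]
  · simp [hq]

/-- the joint law needed in `innov_core`, with an abstract environment. -/
theorem law_abs {A : Type*} [MeasurableSpace A]
    (L : LimProc Env FX d k s E t ρ P pp rr om cav X Z) {U : Ω → A} (hU : Measurable[FX] U) :
    P.map (fun x => ((U x, (Xp pp rr d s E t ρ om cav X Z x, II pp rr d s E t om cav X Z x)),
        NN pp rr d s E ρ om cav Z x)) =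
      (P.map fun x => (U x, (Xp pp rr d s E t ρ om cav X Z x,
        II pp rr d s E t om cav X Z x))).prod (gs (Fin 2 × Fin k)) := by
  have := L.prob
  set Xe : Ω → Fin 2 × Fin k → ℝ := fun h q => if q.1 = 0 then X h q.2 else X (pp h) q.2 with hXe
  have hXe' : Measurable[FX] Xe := Xe_FX L
  have hV : Measurable[FX] fun x => (U x, (Xe x, IX pp rr d s E om cav X x)) :=
    hU.prodMk (hXe'.prodMk (IX_FX L))
  have hlaw := law_VJN L hV
  have hVm := hV.mono L.FX_le le_rfl
  -- transport map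
  set F : (A × ((Fin 2 × Fin k → ℝ) × (Fin d × Fin k → ℝ))) × (Fin d × Fin k → ℝ) →
      A × ((Fin 2 × Fin k → ℝ) × (Fin d × Fin k → ℝ)) :=
    fun r => (r.1.1, (r.1.2.1, r.1.2.2 + Real.sqrt t • r.2)) with hF
  have hFm : Measurable F := by
    refine (measurable_fst.comp measurable_fst).prodMk (Measurable.prodMk ?_ ?_)
    · exact measurable_fst.comp (measurable_snd.comp measurable_fst)
    · exact (measurable_snd.comp (measurable_snd.comp measurable_fst)).add
        ((measurable_const_smul (Real.sqrt t)).comp measurable_snd)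
  have hIeq : ∀ x, II pp rr d s E t om cav X Z x = IX pp rr d s E om cav X x +
      Real.sqrt t • JJ pp rr d s E om cav Z x := by
    intro x
    ext q
    rw [II_eq]
    rfl
  have c1 : P.map (fun x => ((U x, (Xp pp rr d s E t ρ om cav X Z x,
      II pp rr d s E t om cav X Z x)), NN pp rr d s E ρ om cav Z x)) =
      P.map (fun x => ((U x, (Xe x, II pp rr d s E t om cav X Z x)),
        NN pp rr d s E ρ om cav Z x)) := by
    refine Measure.map_congr ?_
    filter_upwards [Xp_ae L] with x hx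
    rw [hx]
  have c2 : P.map (fun x => (U x, (Xp pp rr d s E t ρ om cav X Z x,
      II pp rr d s E t om cav X Z x))) =
      P.map (fun x => (U x, (Xe x, II pp rr d s E t om cav X Z x))) := by
    refine Measure.map_congr ?_
    filter_upwards [Xp_ae L] with x hx
    rw [hx]
  have c3 : (fun x => ((U x, (Xe x, II pp rr d s E t om cav X Z x)),
        NN pp rr d s E ρ om cav Z x)) = (Prod.map F id) ∘
      fun x => (((U x, (Xe x, IX pp rr d s E om cav X x)), JJ pp rr d s E om cav Z x),
        NN pp rr d s E ρ om cav Z x) := by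
    ext x : 1
    simp only [Function.comp, Prod.map, hF, id, hIeq]
  have c4 : (fun x => (U x, (Xe x, II pp rr d s E t om cav X Z x))) = F ∘
      fun x => ((U x, (Xe x, IX pp rr d s E om cav X x)), JJ pp rr d s E om cav Z x) := by
    ext x : 1
    simp only [Function.comp, hF, hIeq]
  have hVJ : Measurable fun x => ((U x, (Xe x, IX pp rr d s E om cav X x)),
      JJ pp rr d s E om cav Z x) := hVm.prodMk (JJ_meas L)
  rw [c1, c2, c3, c4, ← Measure.map_map (hFm.prodMap measurable_id) (hVJ.prodMk (NN_meas L)),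
    hlaw, ← Measure.map_map hFm hVJ]
  have : IsProbabilityMeasure (P.map fun x => ((U x, (Xe x, IX pp rr d s E om cav X x)),
      JJ pp rr d s E om cav Z x)) := Measure.isProbabilityMeasure_map hVJ.aemeasurable
  rw [← Measure.map_prod_map _ _ hFm measurable_id, Measure.map_id]

end law

section final

variable {Ω : Type} {Env FX : MeasurableSpace Ω} [mΩ : MeasurableSpace Ω] {d k : ℕ}
  {s E t ρ : ℝ} {P : Measure Ω} {pp rr : Ω → Ω} {om : Ω → ℝ} {cav : Ω → ℂ}
  {X Z : Ω → Fin k → ℝ}

theorem comap_Ye (t : ℝ) (pp : Ω → Ω) (X Z : Ω → Fin k → ℝ) :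
    MeasurableSpace.comap (Ye t pp X Z) inferInstance =
      MeasurableSpace.comap (fun h => (YY t X Z h, YY t X Z (pp h))) inferInstance := by
  apply le_antisymm
  · have e : Ye t pp X Z = (fun r : (Fin k → ℝ) × (Fin k → ℝ) =>
        fun q : Fin 2 × Fin k => if q.1 = 0 then r.1 q.2 else r.2 q.2) ∘
        fun h => (YY t X Z h, YY t X Z (pp h)) := rfl
    rw [e, ← MeasurableSpace.comap_comp]
    refine MeasurableSpace.comap_mono (Measurable.comap_le ?_)
    refine measurable_pi_lambda _ fun q => ?_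
    by_cases hq : q.1 = 0
    · simp only [hq, if_true]
      exact (measurable_pi_apply _).comp measurable_fst
    · simp only [hq, if_false]
      exact (measurable_pi_apply _).comp measurable_snd
  · have e : (fun h => (YY t X Z h, YY t X Z (pp h))) =
        (fun y : Fin 2 × Fin k → ℝ => ((fun l => y (0, l) : Fin k → ℝ),
          (fun l => y (1, l) : Fin k → ℝ))) ∘ Ye t pp X Z := by
      ext h
      · simp [Ye]
      · simp [Ye]
    rw [e, ← MeasurableSpace.comap_comp]
    refine MeasurableSpace.comap_mono (Measurable.comap_le ?_)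
    exact (measurable_pi_lambda _ fun l => measurable_pi_apply _).prodMk
      (measurable_pi_lambda _ fun l => measurable_pi_apply _)

/-- real form: conditional expectations of functions of the innovations given the edge are
environment measurable. -/
theorem cond_innov (L : LimProc Env FX d k s E t ρ P pp rr om cav X Z)
    (hT : TauZero Env d k t P pp rr X Z)
    {w : (Fin d × Fin k → ℝ) → ℝ} (hw : Measurable w) (C : ℝ) (hC : 0 ≤ C)
    (hwC : ∀ i, |w i| ≤ C) :
    ∃ wb : Ω → ℝ, Measurable[Env] wb ∧ (∀ a, |wb a| ≤ C) ∧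
      P[fun x => w (II pp rr d s E t om cav X Z x) | edgeAlg Env t pp X Z] =ᵐ[P] wb := by
  have hprob := L.prob
  have hd := L.hd
  have hE : Env ≤ mΩ := L.Env_le.trans L.FX_le
  have hYm := Ye_meas L
  have hstar : starAlg Env d t pp rr X Z ≤ mΩ := by
    refine sup_le hE (Measurable.comap_le ?_)
    refine measurable_pi_lambda _ fun a => ?_
    cases a with
    | none => exact YY_meas L
    | some i => exact (YY_meas L).comp (mv_mp L i).measurable
  have hsv : ∀ a : St d, Measurable[starAlg Env d t pp rr X Z] fun h => YY t X Z (sv pp rr d h a) := by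
    intro a
    have h1 : Measurable[MeasurableSpace.comap
        (fun h => (fun a : St d => YY t X Z (sv pp rr d h a))) inferInstance]
        (fun h => (fun a : St d => YY t X Z (sv pp rr d h a))) := comap_measurable _
    have h2 : Measurable[starAlg Env d t pp rr X Z]
        (fun h => (fun a : St d => YY t X Z (sv pp rr d h a))) := h1.mono le_sup_right le_rfl
    exact (measurable_pi_apply a).comp h2
  have hedge : Env ⊔ MeasurableSpace.comap (Ye t pp X Z) inferInstance ≤
      starAlg Env d t pp rr X Z := by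
    refine sup_le le_sup_left ?_
    rw [comap_Ye]
    refine Measurable.comap_le ?_
    refine Measurable.prodMk (hsv none) ?_
    exact hsv (some ⟨0, by omega⟩)
  have hIs : Measurable[starAlg Env d t pp rr X Z] (II pp rr d s E t om cav X Z) := by
    refine @measurable_pi_lambda Ω (Fin d × Fin k) (fun _ => ℝ) (starAlg Env d t pp rr X Z) _ _
      fun q => ?_
    have hEs : Env ≤ starAlg Env d t pp rr X Z := le_sup_left
    unfold II
    by_cases hq : (q.1 : ℕ) = 0
    · simp only [hq, if_true]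
      exact @measurable_const _ _ _ (starAlg Env d t pp rr X Z) _
    · simp only [hq, if_false]
      have hWr : ∀ i : Fin d, Measurable[starAlg Env d t pp rr X Z] fun h =>
          Wr pp rr d s E t om cav X Z i h q.2 := by
        intro i
        have h1 : Measurable[starAlg Env d t pp rr X Z] fun h => YY t X Z (mv pp rr i h) q.2 :=
          (measurable_pi_apply q.2).comp (hsv (some i))
        have h2 : Measurable[starAlg Env d t pp rr X Z] fun h => YY t X Z h q.2 :=
          (measurable_pi_apply q.2).comp (hsv none)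
        exact h1.sub (((bet_Env L i).mono hEs le_rfl).mul h2)
      have h3 : Measurable[starAlg Env d t pp rr X Z] fun h =>
          (cav (mv pp rr q.1 h)).im / (∑ i ∈ Finset.range d, (cav (mv pp rr i h)).im -
            (cav (mv pp rr 0 h)).im) :=
        ((aI_Env L _).mono hEs le_rfl).div
          (((AI_Env L).mono hEs le_rfl).sub ((aI_Env L 0).mono hEs le_rfl))
      exact (hWr q.1).add (h3.mul (hWr ⟨0, by omega⟩))
  have hYeq : ∀ x, Ye t pp X Z x = Xp pp rr d s E t ρ om cav X Z x +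
      (BB pp rr d s E t ρ om cav x : Matrix (Fin 2 × Fin k) (Fin 2 × Fin k) ℝ) *ᵥ
        NN pp rr d s E ρ om cav Z x := by
    intro x
    simp [Xp]
  have hXpm : Measurable (Xp pp rr d s E t ρ om cav X Z) := hYm.sub (BN_meas L)
  have hBN : ∀ q : Fin 2 × Fin k, (fun x => ((BB pp rr d s E t ρ om cav x :
      Matrix (Fin 2 × Fin k) (Fin 2 × Fin k) ℝ) *ᵥ NN pp rr d s E ρ om cav Z x) q) =ᵐ[P]
      fun x => Real.sqrt t * (if q.1 = 0 then Z x q.2 else Z (pp x) q.2) := by
    intro q
    filter_upwards [sig_ne L] with h hh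
    exact BB_mulVec (t := t) pp rr d s E ρ om cav Z h hh.1 hh.2 q
  have hZi : ∀ q : Fin 2 × Fin k, Integrable (fun x => Real.sqrt t *
      (if q.1 = 0 then Z x q.2 else Z (pp x) q.2)) P := by
    intro q
    refine Integrable.const_mul ?_ _
    by_cases hq : q.1 = 0
    · simp only [hq, if_true]
      exact Z_int L q.2
    · simp only [hq, if_false]
      exact (L.pp_mp.integrable_comp (Z_int L q.2).aestronglyMeasurable).2 (Z_int L q.2)
  have hedgeEq : Env ⊔ MeasurableSpace.comap (Ye t pp X Z) inferInstance =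
      edgeAlg Env t pp X Z := by
    unfold edgeAlg
    rw [comap_Ye]
  have hU : @Measurable Ω Ω FX Env id := fun s hs => L.Env_le s hs
  have hlaw := @law_abs Ω Env FX mΩ d k s E t ρ P pp rr om cav X Z Ω Env L id hU
  have core := innov_core (P := P) (Env := Env) (mΩ := mΩ) hE hXpm (II_meas L) (NN_meas L) hlaw
    (B := BB pp rr d s E t ρ om cav) (Binv := BI pp rr d s E t ρ om cav)
    (fun p q => BB_Env L p q) (fun p q => BI_Env L p q)
    (by
      filter_upwards [sig_ne L] with h hh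
      exact BI_mul_BB pp rr d s E t ρ om cav h L.ht hh.1 hh.2)
    hYeq hYm hstar hedge hIs
    (fun q => (hZi q).congr (hBN q).symm)
    (by
      intro q
      refine (condExp_congr_ae (hBN q)).trans (Filter.EventuallyEq.trans ?_
        (condExp_congr_ae (hBN q)).symm)
      rw [hedgeEq]
      have hsm : ∀ (m : MeasurableSpace Ω) (F : Ω → ℝ), P[fun x => Real.sqrt t * F x | m] =ᵐ[P]
          fun x => Real.sqrt t * (P[F | m]) x := by
        intro m F
        have := condExp_smul (μ := P) (Real.sqrt t) F m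
        exact this
      refine (hsm _ _).trans (Filter.EventuallyEq.trans ?_ (hsm _ _).symm)
      obtain ⟨t1, t2⟩ := hT q.2
      by_cases hq : q.1 = 0
      · simp only [hq, if_true]
        filter_upwards [t1] with x hx
        rw [hx]
      · simp only [hq, if_false]
        filter_upwards [t2] with x hx
        rw [hx])
    hw C hC hwC
  rw [hedgeEq] at core
  exact core

/-- the linear functional of the innovation vector -/
noncomputable def Th (d k : ℕ) (w : ℕ → Fin k → ℝ) (i : Fin d × Fin k → ℝ) : ℝ :=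
  ∑ l, ∑ j : Fin d, (if (j : ℕ) = 0 then 0 else w j l) * i (j, l)

theorem Th_II (hd : 3 ≤ d) (w : ℕ → Fin k → ℝ) (h : Ω) :
    Th d k w (II pp rr d s E t om cav X Z h) =
      ∑ l, ∑ j ∈ Finset.Ico 1 d, w j l * Inn pp rr d s E t om cav X Z j h l := by
  unfold Th II
  refine Finset.sum_congr rfl fun l _ => ?_
  have h1 : ∑ j ∈ Finset.Ico 1 d, w j l * Inn pp rr d s E t om cav X Z j h l =
      ∑ j ∈ Finset.range d, (if j = 0 then 0 else w j l) *
        (if j = 0 then 0 else Inn pp rr d s E t om cav X Z j h l) := by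
    rw [Finset.range_eq_Ico, Finset.sum_eq_sum_Ico_succ_bot (show 0 < d by omega)]
    simp only [if_true, zero_mul, zero_add]
    refine Finset.sum_congr rfl fun j hj => ?_
    have : j ≠ 0 := by
      have := (Finset.mem_Ico.1 hj).1
      omega
    simp [this]
  rw [h1, Finset.sum_range]

theorem Th_meas (w : ℕ → Fin k → ℝ) : Measurable (Th d k w) := by
  unfold Th
  fun_prop

theorem innovProp (L : LimProc Env FX d k s E t ρ P pp rr om cav X Z)
    (hT : TauZero Env d k t P pp rr X Z) : InnovProp Env d k s E t P pp rr om cav X Z := by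
  have hprob := L.prob
  have hd := L.hd
  have hE : Env ≤ mΩ := L.Env_le.trans L.FX_le
  intro x y w
  have hYY := YY_meas L
  have hedge : edgeAlg Env t pp X Z ≤ mΩ :=
    sup_le hE (Measurable.comap_le (hYY.prodMk (hYY.comp L.pp_mp.measurable)))
  have hEe : Env ≤ edgeAlg Env t pp X Z := le_sup_left
  -- the two conditional expectations
  obtain ⟨wc, c1, c2, c3⟩ := cond_innov L hT (w := fun i => Real.cos (Th d k w i))
    (Real.measurable_cos.comp (Th_meas w)) 1 zero_le_one (fun i => Real.abs_cos_le_one _)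
  obtain ⟨ws, s1, s2, s3⟩ := cond_innov L hT (w := fun i => Real.sin (Th d k w i))
    (Real.measurable_sin.comp (Th_meas w)) 1 zero_le_one (fun i => Real.abs_sin_le_one _)
  set f : Ω → ℂ := fun h => Complex.exp (Complex.I *
    ((∑ l, (x l * YY t X Z h l + y l * YY t X Z (pp h) l) : ℝ) : ℂ)) with hf
  set g : Ω → ℂ := fun h => Complex.exp (Complex.I *
    ((∑ l, (∑ j ∈ Finset.Ico 1 d, w j l * Inn pp rr d s E t om cav X Z j h l) : ℝ) : ℂ)) with hg
  set C : Ω → ℝ := fun h => Real.cos (Th d k w (II pp rr d s E t om cav X Z h)) with hC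
  set S : Ω → ℝ := fun h => Real.sin (Th d k w (II pp rr d s E t om cav X Z h)) with hS
  have hCm : Measurable C := (Real.measurable_cos.comp (Th_meas w)).comp (II_meas L)
  have hSm : Measurable S := (Real.measurable_sin.comp (Th_meas w)).comp (II_meas L)
  have hCi : Integrable C P := by
    refine Integrable.mono' (integrable_const (1 : ℝ)) hCm.aestronglyMeasurable
      (Filter.Eventually.of_forall fun h => ?_)
    rw [Real.norm_eq_abs]; exact Real.abs_cos_le_one _
  have hSi : Integrable S P := by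
    refine Integrable.mono' (integrable_const (1 : ℝ)) hSm.aestronglyMeasurable
      (Filter.Eventually.of_forall fun h => ?_)
    rw [Real.norm_eq_abs]; exact Real.abs_sin_le_one _
  have hgeq : g = (fun h => ((C h : ℝ) : ℂ)) + Complex.I • fun h => ((S h : ℝ) : ℂ) := by
    ext h
    simp only [hg, hC, hS, Pi.add_apply, Pi.smul_apply, smul_eq_mul]
    rw [← Th_II hd w h, mul_comm, Complex.exp_mul_I, ← Complex.ofReal_cos, ← Complex.ofReal_sin]
    ring
  have hgm : Measurable g := by
    rw [hgeq]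
    exact (Complex.measurable_ofReal.comp hCm).add
      ((Complex.measurable_ofReal.comp hSm).const_smul Complex.I)
  have hCc : P[fun h => ((C h : ℝ) : ℂ) | edgeAlg Env t pp X Z] =ᵐ[P] fun h => ((wc h : ℝ) : ℂ) := by
    have := Complex.ofRealCLM.comp_condExp_comm (m := edgeAlg Env t pp X Z) hCi
    refine this.symm.trans ?_
    filter_upwards [c3] with h hh
    simp only [Function.comp, Complex.ofRealCLM_apply]
    rw [hh]
  have hSc : P[fun h => ((S h : ℝ) : ℂ) | edgeAlg Env t pp X Z] =ᵐ[P] fun h => ((ws h : ℝ) : ℂ) := by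
    have := Complex.ofRealCLM.comp_condExp_comm (m := edgeAlg Env t pp X Z) hSi
    refine this.symm.trans ?_
    filter_upwards [s3] with h hh
    simp only [Function.comp, Complex.ofRealCLM_apply]
    rw [hh]
  have hgc : P[g | edgeAlg Env t pp X Z] =ᵐ[P]
      fun h => ((wc h : ℝ) : ℂ) + Complex.I * ((ws h : ℝ) : ℂ) := by
    rw [hgeq]
    refine (condExp_add hCi.ofReal (hSi.ofReal.smul Complex.I) _).trans ?_
    have h4 := condExp_smul (μ := P) (𝕜 := ℂ) Complex.I (fun h => ((S h : ℝ) : ℂ))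
      (edgeAlg Env t pp X Z)
    filter_upwards [hCc, hSc, h4] with h e1 e2 e3
    rw [Pi.add_apply, e1, e3, Pi.smul_apply, e2, smul_eq_mul]
  have hfm : StronglyMeasurable[edgeAlg Env t pp X Z] f := by
    have h1 : Measurable[edgeAlg Env t pp X Z] fun h => (YY t X Z h, YY t X Z (pp h)) := by
      have h2 : Measurable[MeasurableSpace.comap (fun h => (YY t X Z h, YY t X Z (pp h)))
        inferInstance] fun h => (YY t X Z h, YY t X Z (pp h)) := comap_measurable _
      exact h2.mono le_sup_right le_rfl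
    have h3 : Continuous fun r : (Fin k → ℝ) × (Fin k → ℝ) => Complex.exp (Complex.I *
        ((∑ l, (x l * r.1 l + y l * r.2 l) : ℝ) : ℂ)) := by fun_prop
    exact (h3.measurable.comp h1).stronglyMeasurable
  have hfac := factor (P := P) hEe hedge hfm
    (fun h => by
      simp only [hf]
      rw [mul_comm, Complex.norm_exp_ofReal_mul_I])
    hgm.stronglyMeasurable
    (fun h => by
      simp only [hg]
      rw [mul_comm, Complex.norm_exp_ofReal_mul_I])
    (w := fun h => ((wc h : ℝ) : ℂ) + Complex.I * ((ws h : ℝ) : ℂ))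
    ((((Complex.measurable_ofReal.comp c1).add
      ((Complex.measurable_ofReal.comp s1).const_mul Complex.I))).stronglyMeasurable)
    (C := 2) (fun h => by
      refine (norm_add_le _ _).trans ?_
      rw [norm_mul, Complex.norm_I, one_mul, Complex.norm_real, Complex.norm_real,
        Real.norm_eq_abs, Real.norm_eq_abs]
      have := c2 h
      have := s2 h
      linarith) hgc
  have hprod : (fun h => Complex.exp (Complex.I * ((∑ l, (x l * YY t X Z h l +
      y l * YY t X Z (pp h) l + ∑ j ∈ Finset.Ico 1 d, w j l *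
        Inn pp rr d s E t om cav X Z j h l) : ℝ) : ℂ))) = fun h => f h * g h := by
    ext h
    simp only [hf, hg]
    rw [← Complex.exp_add]
    congr 1
    rw [← mul_add, ← Complex.ofReal_add, ← Finset.sum_add_distrib]
  rw [hprod]
  exact hfac

/-- **42.4** (the part of helper487). -/
theorem stmt_innov : Stmt_innov :=
  fun Env FX _ d k s E t ρ P pp rr om cav X Z L hT => innovProp L hT

end final

end Crest.Agent.R166.Innov487
end

-- ▼ part R166/MartFin_663
section

/-!
# Row 166, section 42.1-42.4 complete (helper663, helper487, helper942)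
-/

set_option autoImplicit false

namespace Crest.Agent.R166.Mart663

/-- 42.1-42.4. -/
theorem stmt_42_4' : B2.Stmt_42_4 := stmt_42_4 stmt_tau Innov487.stmt_innov

end Crest.Agent.R166.Mart663
end

-- ▼ part R166/ThmBFin_980
section

/-!
# Row 166 (helper980), F6: the limit process and Theorem B
-/

set_option autoImplicit false
set_option linter.unusedSectionVars false

noncomputable section

namespace Crest.Agent.R166.ThmBFin980

open MeasureTheory ProbabilityTheory Filter Topology
open Crest.ProbabilityR.RandomMatrix Crest.Agent.R166 Crest.Agent.R166.Words955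
open Crest.Agent.R166.TreeG879 (clip omOf)
open Crest.Agent.R166.PhiLim85 (cavL CavSpec)
open Crest.Agent.R166.NoiseLim849 (S2 pr)
open Crest.Agent.R166.Seq980 (Seq)
open Crest.Agent.R166.LimProps974 (UIF)
open Crest.Agent.R166.LimProcX974 (Env FX om XX ZZ)
open Crest.Agent.R166.EnvLaw289 (envLaw)
open Crest.Agent.R166.Erg424 (envP measurable_envP)
open Crest.Agent.R166.TreeDefs350 (unif)

variable {d k : ℕ} [NeZero d]

/-- limit cavity field on the noisy configurations -/
def cavQ (s E : ℝ) (η : ℕ → ℝ) (z : Conf d (S2 d k)) : ℂ :=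
  cavL s E η (omOf (fun t => clip t.1) z)

theorem map_envP {Q : Measure (Conf d (S2 d k))} {S : Seq d k} (hQ : Q.map pr = S.P)
    (henv : S.P.map (envP (X := Fin k → ℝ)) = envLaw d unif) :
    Q.map (envP (X := (Fin k → ℝ) × (Fin k → ℝ))) = envLaw d unif := by
  have h5 : (envP : Conf d (S2 d k) → Conf d (Fin d × ℝ)) =
      (envP : Conf d (NoiseLim849.S1 d k) → Conf d (Fin d × ℝ)) ∘ pr := rfl
  rw [h5, ← Measure.map_map measurable_envP LimProcX974.measurable_pr, hQ, henv]

/-- **the limit process** -/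
theorem limProc {S : Seq d k} {s E K' ρ : ℝ}
    (hd : 3 ≤ d) (hρ : 0 < ρ) (hX : SpecB1.Extra S s E K') (hui : UIF S)
    (hmo : LimProps974.MeanOrth S)
    (henv : S.P.map (envP (X := Fin k → ℝ)) = envLaw d unif) {η : ℕ → ℝ}
    (hC : CavSpec d s E ρ η) {Q : ℕ → Measure (Conf d (S2 d k))} {Q0 : Measure (Conf d (S2 d k))}
    (hS : Q0_955.LawSeq S s E ρ η Q Q0) :
    B2.LimProc (Env d k) (FX d k) d k s E 1 ρ Q0 cross (rotn 1) om (cavQ s E η) XX ZZ := by
  have := S.prob
  have hp0 := hS.prob0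
  have hQ : Q0.map pr = S.P := hS.nlaw0.marg
  have hlaw := map_envP hQ henv
  have hz : ∀ l, 0 < (ze E (η l)).im := fun l => by rw [NoiseLim849.ze_im]; exact hC.pos l
  have hzE : Tendsto (fun l => ze E (η l)) atTop (𝓝 (E : ℂ)) := Q0Fin47.tendsto_ze hC.lim0
  have hgP : ∀ᵐ ξ ∂S.P, PhiAlg879.Good Prod.fst s (fun l => ze E (η l))
      (fun z => cavL s E η (omOf Prod.fst z)) ξ :=
    PhiLim85.good_fst henv (LimProps974.inv_P S) hC
  have hgP' : ∀ᵐ ξ ∂S.P, PhiAlg879.Good ZG879.cp s (fun l => ze E (η l))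
      (ZG879.cavC (cavL s E η)) ξ :=
    PhiLim85.good_clip henv (LimProps974.inv_P S) hC
  refine
    { hd := hd
      ht := one_pos
      hρ := hρ
      prob := hp0
      pp_mp := LimProcX974.pp_mp hS.inv0
      rr_mp := LimProcX974.rr_mp hS.inv0
      pp_pp := cross_cross
      rr_d := LimProcX974.rr_d
      Env_le := LimProcX974.Env_le_FX
      FX_le := LimProcX974.FX_le
      pp_Env := LimProcX974.pp_Env
      rr_Env := LimProcX974.rr_Env
      pp_FX := LimProcX974.pp_FX
      rr_FX := LimProcX974.rr_FX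
      om_meas := LimProcX974.om_meas
      om_rr := LimProcX974.om_rr
      cav_meas := PhiLim85.cavF_meas s E hC.pos
      cav_im := PhiLim85.cavF_im hlaw hC
      cav_rec := PhiLim85.cavF_rec hlaw hC
      cav_lim := PhiLim85.cavF_lim hlaw hC
      X_meas := LimProcX974.X_meas
      X_rr := LimProcX974.X_rr
      X_L2 := LimProcX974.X_L2 hQ hui
      X_eq := LimProcX974.X_eq hQ s E (Mean974.near_of_frame S (Eventually.of_forall hX.frame))
      X_cov := LimProcX974.X_cov hQ hui
        (Mean974.orth_of_frame S (Eventually.of_forall hX.frame))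
      X_mean := LimProcX974.X_mean hQ hui hmo
      Z_meas := LimProcX974.Z_meas
      Z_rr := LimProcX974.Z_rr
      Z_eq := ZG879.Z_eq hz hzE hS.nlaw0 hS.cov0 hgP'
      Z_gauss := ZG879.Z_gauss hz hzE hS.nlaw0 hS.cov0 hgP'
      G_int := (PhiLim85.GF hlaw hC).1
      G_rho := (PhiLim85.GF hlaw hC).2
      markov := MkvAll47.markov hX hρ one_pos hC.pos hC.lim0 hgP hS
      erg := LimProcX974.erg (by omega) hS.inv0 hQ henv }

/-- F5 (helper487): the violation contradicts `EdgeGauss` -/
def F5 : Prop :=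
  ∀ {d k : ℕ} [NeZero d] (S : Seq d k) {s E K' ρ : ℝ}, SpecB1.Extra S s E K' →
    ∀ (τ : Fin k → Fin 2 → ℝ) (χ : Matrix (Fin 2) (Fin 2) ℂ → ℝ), Continuous χ →
    HasCompactSupport χ → ∀ {ε : ℝ}, 0 < ε → ∀ (ζ : ℕ → ℝ), (∀ i, 0 < ζ i) →
    Tendsto ζ atTop (𝓝 0) →
    (∀ i, ∀ᶠ j in atTop, ∀ x ∈ S.U j,
      ε ≤ ‖Hinge980.viol s E ρ (ζ i) τ χ (graphOf x.1) x.2 (S.F j x)‖) →
    ∀ (cL : (TW d → ℝ) → ℂ), Measurable cL →
    (∀ᵐ ξ ∂S.P, Tendsto (fun i => TreeG879.cav s (ze E (ζ i)) (omOf Prod.fst ξ)) atTop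
      (𝓝 (cL (omOf Prod.fst ξ)))) →
    (∀ᵐ ξ ∂S.P, Tendsto (fun i => TreeG879.cav s (ze E (ζ i)) (omOf Prod.fst (cross ξ))) atTop
      (𝓝 (cL (omOf Prod.fst (cross ξ))))) →
    (∀ᵐ ξ ∂S.P, 0 < (cL (omOf Prod.fst ξ)).im) →
    (∀ᵐ ξ ∂S.P, 0 < (cL (omOf Prod.fst (cross ξ))).im) →
    ∀ (Q : Measure (Conf d (S2 d k))), Q.map pr = S.P →
    B2.EdgeGauss (Env d k) k ρ Q cross (fun z => cL (omOf (fun t => clip t.1) z)) XX → False

/-- **Theorem B** -/
theorem thmB (h5 : F5) {s E ρ : ℝ}
    (hd : 3 ≤ d) (hs : 0 ≤ s) (hE : E ≠ d) (hρ : 0 < ρ) (hFix : ImFix d s E ρ)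
    (hLoc : LocLim d s E) (hNd : NonDeg d s E) (hNo : NoEsc d s E) : ThmB d s E ρ := by
  by_contra hT
  obtain ⟨k, K', τ, χ, ε, b, Fs, hχ, hχs, hε, hb, -, H⟩ := Hinge980.exists_counter hLoc hT
  obtain ⟨η, hC⟩ := PhiLim85.cav_seq hs hLoc hNd hFix
  obtain ⟨G, hG1, hG2⟩ := Events974.exists_events hd hs hE hFix hNo K' hb
  obtain ⟨S, m, φ, hm, hφ, hF, hFs, hUG, hviol⟩ := H η hC.pos hC.lim0 (fun _ i n => G i n)
    (fun _ i => hG1 i)
  obtain ⟨hX, hui, hmo, henv⟩ := hG2 k S hF fun i =>
    (eventually_ge_atTop i).mono fun j hj => hUG j i hj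
  have hprob := S.prob
  have hinv := LimProps974.inv_P S
  obtain ⟨Q, Q0, hS⟩ := Q0_955.law_seq S hX henv hρ hC.pos (PhiLim85.ae_lim_treeG henv hinv hC)
  have hQ : Q0.map pr = S.P := hS.nlaw0.marg
  have hLP := limProc hd hρ hX hui hmo henv hC hS
  have hEG := Fin42.stmt_42_6 _ _ _ _ _ _ _ _ _ _ _ _ _ _ _ hLP
    (Mart663.stmt_42_4' _ _ _ _ _ _ _ _ _ _ _ _ _ _ _ hLP)
  have hmp : MeasurePreserving (cross : Conf d (NoiseLim849.S1 d k) → _) S.P S.P :=
    ⟨measurable_cross, hinv.1⟩
  have hl : ∀ᵐ ξ ∂S.P, Tendsto (fun i => TreeG879.cav s (ze E (η i)) (omOf Prod.fst ξ)) atTop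
      (𝓝 (cavL s E η (omOf Prod.fst ξ))) := PhiLim85.ae_env henv hC.lim
  have hi : ∀ᵐ ξ ∂S.P, 0 < (cavL s E η (omOf Prod.fst ξ)).im := PhiLim85.ae_env henv hC.im
  have hl' : ∀ᵐ ξ ∂S.P, Tendsto (fun i => TreeG879.cav s (ze E (η (φ i))) (omOf Prod.fst ξ)) atTop
      (𝓝 (cavL s E η (omOf Prod.fst ξ))) :=
    hl.mono fun ξ h => h.comp hφ.tendsto_atTop
  exact h5 S hX τ χ hχ hχs hε (fun i => η (φ i)) (fun i => hC.pos _)
    (hC.lim0.comp hφ.tendsto_atTop) hviol (cavL s E η) (PhiLim85.measurable_cavL s E hC.pos)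
    hl' (hmp.quasiMeasurePreserving.ae hl') hi (hmp.quasiMeasurePreserving.ae hi) Q0 hQ hEG

end Crest.Agent.R166.ThmBFin980
end
end

-- ▼ part R166/Audit2_383
section

/-!
Row 166: audit of the composition (helper383), part 2: `StmtB0`, `StmtBs` from 980's `thmB`;
S0251 from `F5`; S0252 from `F5` and `F3From`.
-/

set_option autoImplicit false

namespace Crest.Agent.R166.Audit383

open MeasureTheory ProbabilityTheory Crest.ProbabilityR.RandomMatrix Crest.Agent.R166
open Crest.Agent.R166.Asm423 Crest.Agent.R166.Master423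

theorem ne_of_sq_lt {d : ℕ} {E : ℝ} (hE : E ^ 2 < 4 * ((d : ℝ) - 1)) : E ≠ d := by
  rintro rfl
  nlinarith [sq_nonneg ((d : ℝ) - 2)]

theorem stmtB0 (h5 : ThmBFin980.F5) : StmtB0 := by
  intro d E hd hE _ hFix hLoc hNd hNo _
  have : NeZero d := ⟨by omega⟩
  exact ThmBFin980.thmB h5 hd le_rfl (ne_of_sq_lt hE) (kestenMcKay_pos hd hE) hFix hLoc hNd hNo

theorem stmtBs (h5 : ThmBFin980.F5) : StmtBs := by
  intro d hd κ hκ
  have : NeZero d := ⟨by omega⟩
  refine ⟨1, one_pos, fun s hs _ E ρ hE hρ _ _ hFix hLoc hNd hNo => ?_⟩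
  have hd1 : (0 : ℝ) ≤ (d : ℝ) - 1 := by
    have : (3 : ℝ) ≤ d := by exact_mod_cast hd
    linarith
  have h1 : |E| < 2 * Real.sqrt ((d : ℝ) - 1) := by linarith
  have h2 : E ^ 2 < 4 * ((d : ℝ) - 1) := by
    have h3 := Real.sq_sqrt hd1
    have h4 : |E| ^ 2 < (2 * Real.sqrt ((d : ℝ) - 1)) ^ 2 :=
      pow_lt_pow_left₀ h1 (abs_nonneg E) two_ne_zero
    rw [sq_abs, mul_pow, h3] at h4
    linarith
  exact ThmBFin980.thmB h5 hd hs.le (ne_of_sq_lt h2) hρ hFix hLoc hNd hNo

/-- **S0251 from `F5`**, in the form of the template -/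
theorem s0251_f5 (h5 : ThmBFin980.F5)
    (d : ℕ) (hd : 3 ≤ d) (E : ℝ) (hE : E ^ 2 < 4 * ((d : ℝ) - 1))
    (h : ℝ → ℝ) (hcont : Continuous h) (hsupp : HasCompactSupport h) (hpos : ∀ t, 0 ≤ h t) :
    ∀ ε : ℝ, 0 < ε → ∃ N : ℕ, ∀ n : ℕ, N ≤ n → (regularGraphs n d).Nonempty →
      |regularAverage n d (fun G => adjLaplaceWeight G
          (unfoldAt h (n * kestenMcKayDensity d E) E)) -
          ∫ g, goeLaplaceWeight g (unfoldAt h (n / Real.pi) 0) ∂goeDisorderLaw n| < ε :=
  s0251_from (stmtB0 h5) d hd E hE h hcont hsupp hpos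

/-- **S0252 from `F5` and `F3From`**, in the form of the template -/
theorem s0252_f5 (h5 : ThmBFin980.F5) (h3 : ∀ d : ℕ, 3 ≤ d → SpecF3.F3From d)
    (d : ℕ) (hd : 3 ≤ d) (κ : ℝ) (hκ : 0 < κ) (hκ' : κ < 2 * Real.sqrt ((d : ℝ) - 1)) :
    ∃ s₀ : ℝ, 0 < s₀ ∧ ∀ s : ℝ, 0 < s → s < s₀ →
      ∃ ν : MeasureTheory.Measure ℝ, IsTreeDOS d s ν ∧
        ∃ (ρ : ℝ → ℝ) (U : Set ℝ), IsOpen U ∧
          Set.Icc (-(2 * Real.sqrt ((d : ℝ) - 1)) + κ) (2 * Real.sqrt ((d : ℝ) - 1) - κ) ⊆ U ∧
          ContinuousOn ρ U ∧ (∀ t ∈ U, 0 ≤ ρ t) ∧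
          ν.restrict U = (MeasureTheory.volume.restrict U).withDensity
            (fun t => ENNReal.ofReal (ρ t)) ∧
          (∀ E ∈ Set.Icc (-(2 * Real.sqrt ((d : ℝ) - 1)) + κ)
            (2 * Real.sqrt ((d : ℝ) - 1) - κ), 0 < ρ E) ∧
          ∀ E ∈ Set.Icc (-(2 * Real.sqrt ((d : ℝ) - 1)) + κ) (2 * Real.sqrt ((d : ℝ) - 1) - κ),
            ∀ h : ℝ → ℝ, Continuous h → HasCompactSupport h → (∀ t, 0 ≤ h t) →
              ∀ ε : ℝ, 0 < ε → ∃ N : ℕ, ∀ n : ℕ, N ≤ n → d < n → Even (n * d) →
                |regularAverage n d (fun G => ∫ ω, disorderedLaplaceWeight G s ω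
                      (unfoldAt h (n * ρ E) E) ∂potentialLaw n) -
                    ∫ g, goeLaplaceWeight g (unfoldAt h (n / Real.pi) 0) ∂goeDisorderLaw n|
                  < ε :=
  s0252_from (stmtBs h5) h3 d hd κ hκ hκ'

end Crest.Agent.R166.Audit383
end

-- ▼ part R166/F5b_980
section

/-!
# Row 166 (helper980), F5, parts (b) and (c): the limit `η → 0` of the violation, and its
contradiction with `EdgeGauss`.
-/

set_option autoImplicit false
set_option linter.unusedSectionVars false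

noncomputable section

namespace Crest.Agent.R166.F5b980

open MeasureTheory ProbabilityTheory Filter Topology
open Crest.ProbabilityR.RandomMatrix Crest.Agent.R166 Crest.Agent.R166.Words955
open Crest.Agent.R166.TreeG879 (clip omOf)
open Crest.Agent.R166.PhiLim85 (BT blk2)
open Crest.Agent.R166.NoiseLim849 (S2 pr)
open Crest.Agent.R166.Seq980 (Seq)
open Crest.Agent.R166.LimProcX974 (Env FX om XX ZZ)
open Crest.Agent.R166.Hinge980 (psi viol chi2)

variable {d k : ℕ} [NeZero d]

local instance instMS2 : MeasurableSpace (Matrix (Fin 2) (Fin 2) ℂ) :=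
  inferInstanceAs (MeasurableSpace (Fin 2 → Fin 2 → ℂ))

local instance instBS2 : BorelSpace (Matrix (Fin 2) (Fin 2) ℂ) :=
  inferInstanceAs (BorelSpace (Fin 2 → Fin 2 → ℂ))

/-- limit block -/
def Bξ (cL : (TW d → ℝ) → ℂ) (ξ : Conf d (NoiseLim849.S1 d k)) : Matrix (Fin 2) (Fin 2) ℂ :=
  blk2 (cL (omOf Prod.fst ξ)) (cL (omOf Prod.fst (cross ξ)))


theorem tendsto_blk2 {c c' : ℕ → ℂ} {a a' : ℂ} (h : Tendsto c atTop (𝓝 a))
    (h' : Tendsto c' atTop (𝓝 a')) (ha : 0 < a.im) (ha' : 0 < a'.im) :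
    Tendsto (fun i => blk2 (c i) (c' i)) atTop (𝓝 (blk2 a a')) := by
  have hne := PhiLim85.one_sub_mul_ne ha ha'
  have h1 : Tendsto (fun i => 1 / (1 - c i * c' i)) atTop (𝓝 (1 / (1 - a * a'))) :=
    tendsto_const_nhds.div (tendsto_const_nhds.sub (h.mul h')) hne
  refine tendsto_pi_nhds.2 fun x => tendsto_pi_nhds.2 fun y => ?_
  fin_cases x <;> fin_cases y
  · simpa [blk2] using h1.mul h
  · simpa [blk2] using h1.mul (h.mul h').neg
  · simpa [blk2] using h1.mul (h.mul h').neg
  · simpa [blk2] using h1.mul h'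

theorem continuous_psi (ρ : ℝ) (τ : Fin k → Fin 2 → ℝ) {χ : Matrix (Fin 2) (Fin 2) ℂ → ℝ}
    (hχ : Continuous χ) :
    Continuous fun t : Matrix (Fin 2) (Fin 2) ℂ × (Fin k → ℝ) × (Fin k → ℝ) =>
      psi ρ τ χ t.1 t.2.1 t.2.2 := by
  have h2 := (Hinge980.continuous_chi2 ρ τ hχ).comp
    (continuous_fst (X := Matrix (Fin 2) (Fin 2) ℂ) (Y := (Fin k → ℝ) × (Fin k → ℝ)))
  simp only [Hinge980.psi_eq]
  refine ((Complex.continuous_ofReal.comp (hχ.comp continuous_fst)).mul ?_).sub
    (Complex.continuous_ofReal.comp h2)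
  fun_prop

/-- limit `η → 0` -/
theorem f5b {P : Measure (Conf d (NoiseLim849.S1 d k))} [IsProbabilityMeasure P] {s E ρ : ℝ}
    (τ : Fin k → Fin 2 → ℝ) {χ : Matrix (Fin 2) (Fin 2) ℂ → ℝ} (hχ : Continuous χ)
    (hs : HasCompactSupport χ) {ε : ℝ} {ζ : ℕ → ℝ} (hζ : ∀ i, 0 < ζ i)
    (hv : ∀ i, ε ≤ ‖∫ ξ, psi ρ τ χ (BT s (ze E (ζ i)) (omOf Prod.fst ξ)) (ξ TW.nil).2.2
      (cross ξ TW.nil).2.2 ∂P‖)
    {cL : (TW d → ℝ) → ℂ}
    (h1 : ∀ᵐ ξ ∂P, Tendsto (fun i => TreeG879.cav s (ze E (ζ i)) (omOf Prod.fst ξ)) atTop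
      (𝓝 (cL (omOf Prod.fst ξ))))
    (h2 : ∀ᵐ ξ ∂P, Tendsto (fun i => TreeG879.cav s (ze E (ζ i)) (omOf Prod.fst (cross ξ))) atTop
      (𝓝 (cL (omOf Prod.fst (cross ξ)))))
    (h3 : ∀ᵐ ξ ∂P, 0 < (cL (omOf Prod.fst ξ)).im)
    (h4 : ∀ᵐ ξ ∂P, 0 < (cL (omOf Prod.fst (cross ξ))).im) :
    ε ≤ ‖∫ ξ, psi ρ τ χ (Bξ cL ξ) (ξ TW.nil).2.2 (cross ξ TW.nil).2.2 ∂P‖ := by
  obtain ⟨C, hC, hb⟩ := Hinge980.norm_psi_le ρ τ hχ hs
  have hom : Continuous (omOf Prod.fst : Conf d (NoiseLim849.S1 d k) → TW d → ℝ) :=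
    TreeG879.continuous_omOf Prod.fst continuous_fst
  have hx : Continuous fun ξ : Conf d (NoiseLim849.S1 d k) => (ξ TW.nil).2.2 :=
    continuous_snd.comp (continuous_snd.comp (continuous_apply _))
  have hy : Continuous fun ξ : Conf d (NoiseLim849.S1 d k) => (cross ξ TW.nil).2.2 := by
    have : (fun ξ : Conf d (NoiseLim849.S1 d k) => (cross ξ TW.nil).2.2) =
        fun ξ => (ξ (TW.cr TW.nil)).2.2 := rfl
    rw [this]
    exact continuous_snd.comp (continuous_snd.comp (continuous_apply _))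
  have hT : Tendsto (fun i => ∫ ξ, psi ρ τ χ (BT s (ze E (ζ i)) (omOf Prod.fst ξ)) (ξ TW.nil).2.2
      (cross ξ TW.nil).2.2 ∂P) atTop
      (𝓝 (∫ ξ, psi ρ τ χ (Bξ cL ξ) (ξ TW.nil).2.2 (cross ξ TW.nil).2.2 ∂P)) := by
    refine tendsto_integral_of_dominated_convergence (fun _ => C) (fun i => ?_)
      (integrable_const _) (fun i => Eventually.of_forall fun ξ => hb _ _ _) ?_
    · refine Continuous.aestronglyMeasurable ?_
      have hz : 0 < (ze E (ζ i)).im := by rw [NoiseLim849.ze_im]; exact hζ i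
      exact (continuous_psi ρ τ hχ).comp
        (((PhiLim85.continuous_BT s hz).comp hom).prodMk (hx.prodMk hy))
    · filter_upwards [h1, h2, h3, h4] with ξ a1 a2 a3 a4
      have hB := tendsto_blk2 a1 a2 a3 a4
      have := ((continuous_psi ρ τ hχ).tendsto (Bξ cL ξ, (ξ TW.nil).2.2,
        (cross ξ TW.nil).2.2)).comp (hB.prodMk_nhds tendsto_const_nhds)
      exact this
  exact ge_of_tendsto' hT.norm hv

theorem int_mul_condExp {Ω : Type*} {m mΩ : MeasurableSpace Ω} (hm : m ≤ mΩ) {P : Measure Ω}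
    [IsProbabilityMeasure P] {f : Ω → ℝ} (hf : Measurable[m] f) {C : ℝ} (hfb : ∀ x, |f x| ≤ C)
    {g w : Ω → ℂ} (hg : Integrable g P) (hgw : P[g | m] =ᵐ[P] w) :
    ∫ x, (f x : ℂ) * g x ∂P = ∫ x, (f x : ℂ) * w x ∂P := by
  have hfg : Integrable (f • g) P := by
    refine hg.bdd_smul C (hf.mono hm le_rfl).aestronglyMeasurable
      (Eventually.of_forall fun x => ?_)
    rw [Real.norm_eq_abs]; exact hfb x
  have h1 : P[f • g | m] =ᵐ[P] f • P[g | m] :=
    condExp_smul_of_aestronglyMeasurable_left hf.stronglyMeasurable.aestronglyMeasurable hfg hg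
  have h2 : ∫ x, (f • g) x ∂P = ∫ x, (f • P[g | m]) x ∂P := by
    rw [← integral_condExp hm (f := f • g)]
    exact integral_congr_ae h1
  have h3 : ∫ x, (f • P[g | m]) x ∂P = ∫ x, (f x : ℂ) * w x ∂P := by
    refine integral_congr_ae ?_
    filter_upwards [hgw] with x hx
    simp only [Pi.smul_apply', hx, Complex.real_smul]
  rw [← h3, ← h2]
  refine integral_congr_ae (Eventually.of_forall fun x => ?_)
  simp only [Pi.smul_apply', Complex.real_smul]

/-- the limit cavity field on noisy configurations -/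
def cQ (cL : (TW d → ℝ) → ℂ) (z : Conf d (S2 d k)) : ℂ := cL (omOf (fun t => clip t.1) z)

theorem measurable_blk2 {Ω : Type*} {m : MeasurableSpace Ω} {c c' : Ω → ℂ} (hc : Measurable c)
    (hc' : Measurable c') : Measurable fun x => blk2 (c x) (c' x) := by
  refine measurable_pi_lambda _ fun i => measurable_pi_lambda _ fun j => ?_
  have h1 : Measurable fun x => 1 / (1 - c x * c' x) :=
    measurable_const.div (measurable_const.sub (hc.mul hc'))
  have h00 : Measurable fun x => 1 / (1 - c x * c' x) * c x := h1.mul hc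
  have h01 : Measurable fun x => 1 / (1 - c x * c' x) * (-(c x * c' x)) := h1.mul (hc.mul hc').neg
  have h11 : Measurable fun x => 1 / (1 - c x * c' x) * c' x := h1.mul hc'
  fin_cases i <;> fin_cases j
  · simpa [blk2] using h00
  · simpa [blk2] using h01
  · simpa [blk2] using h01
  · simpa [blk2] using h11

/-- `EdgeGauss` makes the limit vanish -/
theorem f5c {P : Measure (Conf d (NoiseLim849.S1 d k))} [IsProbabilityMeasure P] {ρ : ℝ}
    (hcube : ∀ᵐ ξ ∂P, ∀ w : TW d, |(ξ w).2.1| ≤ 1)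
    (τ : Fin k → Fin 2 → ℝ) {χ : Matrix (Fin 2) (Fin 2) ℂ → ℝ} (hχ : Continuous χ)
    (hs : HasCompactSupport χ)
    {cL : (TW d → ℝ) → ℂ} (hcL : Measurable cL)
    {Q : Measure (Conf d (S2 d k))} (hQ : Q.map pr = P)
    (hEG : B2.EdgeGauss (Env d k) k ρ Q cross (fun z => cL (omOf (fun t => clip t.1) z)) XX) :
    ∫ ξ, psi ρ τ χ (Bξ cL ξ) (ξ TW.nil).2.2 (cross ξ TW.nil).2.2 ∂P = 0 := by
  obtain ⟨C1, hC1⟩ := Hinge980.bounded_of_compact hχ hs
  have hprm : Measurable (pr : Conf d (S2 d k) → Conf d (NoiseLim849.S1 d k)) :=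
    LimProcX974.measurable_pr
  have hQp : IsProbabilityMeasure Q := by
    constructor
    have h := congrArg (fun μ => μ Set.univ) hQ
    simp only [Measure.map_apply hprm MeasurableSet.univ, Set.preimage_univ, measure_univ] at h
    exact h
  have hcube' : ∀ᵐ ζ ∂Q, ∀ w : TW d, |(pr ζ w).2.1| ≤ 1 := by
    rw [← hQ] at hcube
    exact ae_of_ae_map hprm.aemeasurable hcube
  -- measurability of the limit block
  have hom : Measurable (omOf Prod.fst : Conf d (NoiseLim849.S1 d k) → TW d → ℝ) :=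
    (TreeG879.continuous_omOf Prod.fst continuous_fst).measurable
  have hBm : Measurable (Bξ cL : Conf d (NoiseLim849.S1 d k) → Matrix (Fin 2) (Fin 2) ℂ) :=
    measurable_blk2 (hcL.comp hom) (hcL.comp (hom.comp measurable_cross))
  have hcQ : Measurable[Env d k] (cQ cL : Conf d (S2 d k) → ℂ) := LimProcX974.cav_meas cL hcL
  have hcQ' : Measurable[Env d k] fun z : Conf d (S2 d k) => cQ cL (cross z) :=
    hcQ.comp LimProcX974.pp_Env
  have hBQ : Measurable[Env d k] fun z : Conf d (S2 d k) => B2.Bk cross (cQ cL) z :=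
    measurable_blk2 hcQ hcQ'
  have hBB : ∀ᵐ ζ ∂Q, Bξ cL (pr ζ) = B2.Bk cross (cQ cL) ζ := by
    filter_upwards [hcube'] with ζ hζ
    have e1 : cL (omOf Prod.fst (pr ζ)) = cQ cL ζ := by
      unfold cQ
      congr 1
      funext w
      exact (TreeG879.clip_eq (hζ w)).symm
    have e2 : cL (omOf Prod.fst (cross (pr ζ))) = cQ cL (cross ζ) := by
      unfold cQ
      congr 1
      funext w
      exact (TreeG879.clip_eq (hζ (TW.cr w))).symm
    unfold Bξ
    rw [e1, e2]
    rfl
  -- transport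
  have hpsi : Measurable fun ξ : Conf d (NoiseLim849.S1 d k) =>
      psi ρ τ χ (Bξ cL ξ) (ξ TW.nil).2.2 (cross ξ TW.nil).2.2 := by
    have h0 : ∀ w : TW d, Measurable fun ξ : Conf d (NoiseLim849.S1 d k) => (ξ w).2.2 := fun w =>
      measurable_snd.comp (measurable_snd.comp (measurable_pi_apply _))
    have h1 : Measurable fun ξ : Conf d (NoiseLim849.S1 d k) => (cross ξ TW.nil).2.2 :=
      h0 (TW.cr TW.nil)
    have h2 : Measurable fun ξ : Conf d (NoiseLim849.S1 d k) =>
        (Bξ cL ξ, (ξ TW.nil).2.2, (cross ξ TW.nil).2.2) := hBm.prodMk ((h0 _).prodMk h1)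
    exact (continuous_psi ρ τ hχ).measurable.comp h2
  rw [← hQ, integral_map hprm.aemeasurable hpsi.aestronglyMeasurable]
  set eX : Conf d (S2 d k) → ℂ := fun h => Complex.exp (Complex.I *
        ((∑ l, (τ l 0 * XX h l + τ l 1 * XX (cross h) l) : ℝ) : ℂ)) with heX
  have hXm : Measurable (XX : Conf d (S2 d k) → Fin k → ℝ) :=
    LimProcX974.X_meas.mono LimProcX974.FX_le le_rfl
  have heXm : Measurable eX := by
    have h1 : Measurable fun h : Conf d (S2 d k) =>
        ∑ l, (τ l 0 * XX h l + τ l 1 * XX (cross h) l) := by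
      refine Finset.measurable_sum _ fun l _ => ?_
      exact (measurable_const.mul ((measurable_pi_apply l).comp hXm)).add
        (measurable_const.mul ((measurable_pi_apply l).comp (hXm.comp measurable_cross)))
    exact Complex.measurable_exp.comp (measurable_const.mul (Complex.measurable_ofReal.comp h1))
  have heXi : Integrable eX Q := by
    refine Integrable.of_bound heXm.aestronglyMeasurable 1 (Eventually.of_forall fun h => ?_)
    rw [heX]
    simp only
    rw [mul_comm Complex.I, Complex.norm_exp_ofReal_mul_I]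
  have hχm : Measurable[Env d k] fun z : Conf d (S2 d k) => χ (B2.Bk cross (cQ cL) z) :=
    hχ.measurable.comp hBQ
  have hmain := int_mul_condExp (LimProcX974.Env_le (d := d) (k := k)) hχm (fun x => hC1 _) heXi
    (hEG τ)
  have hi1 : Integrable (fun z => (χ (B2.Bk cross (cQ cL) z) : ℂ) * eX z) Q := by
    refine Integrable.of_bound ?_ C1 (Eventually.of_forall fun h => ?_)
    · exact ((Complex.measurable_ofReal.comp (hχm.mono LimProcX974.Env_le le_rfl)).mul
        heXm).aestronglyMeasurable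
    · rw [norm_mul, heX]
      simp only
      rw [mul_comm Complex.I, Complex.norm_exp_ofReal_mul_I, mul_one, Complex.norm_real]
      exact hC1 _
  obtain ⟨C2, hC2⟩ := Hinge980.bounded_of_compact (Hinge980.continuous_chi2 ρ τ hχ)
    (Hinge980.hasCompactSupport_chi2 ρ τ hs)
  have hi2 : Integrable (fun z : Conf d (S2 d k) => ((chi2 ρ τ χ (B2.Bk cross (cQ cL) z) : ℝ) : ℂ))
      Q := by
    refine Integrable.of_bound ?_ C2 (Eventually.of_forall fun h => ?_)
    · exact (Complex.measurable_ofReal.comp ((Hinge980.continuous_chi2 ρ τ hχ).measurable.comp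
        (hBQ.mono LimProcX974.Env_le le_rfl))).aestronglyMeasurable
    · rw [Complex.norm_real]; exact hC2 _
  have h6 : ∫ z, psi ρ τ χ (Bξ cL (pr z)) (pr z TW.nil).2.2 (cross (pr z) TW.nil).2.2 ∂Q =
      ∫ z, ((χ (B2.Bk cross (cQ cL) z) : ℂ) * eX z -
        ((chi2 ρ τ χ (B2.Bk cross (cQ cL) z) : ℝ) : ℂ)) ∂Q := by
    refine integral_congr_ae ?_
    filter_upwards [hBB] with z hz
    rw [hz, Hinge980.psi_eq]
    rfl
  rw [h6, integral_sub hi1 hi2, hmain, sub_eq_zero]
  refine integral_congr_ae (Eventually.of_forall fun z => ?_)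
  simp only [chi2]
  push_cast
  rfl

/-- F5 from its finite part `f5a` -/
def F5a : Prop :=
  ∀ {d k : ℕ} [NeZero d] (S : Seq d k) {s E K' ρ : ℝ}, SpecB1.Extra S s E K' →
    ∀ (τ : Fin k → Fin 2 → ℝ) (χ : Matrix (Fin 2) (Fin 2) ℂ → ℝ), Continuous χ →
    HasCompactSupport χ → ∀ {ε : ℝ}, 0 < ε → ∀ {η : ℝ}, 0 < η →
    (∀ᶠ j in atTop, ∀ x ∈ S.U j,
      ε ≤ ‖viol s E ρ η τ χ (graphOf x.1) x.2 (S.F j x)‖) →
    ε / 2 ≤ ‖∫ ξ, psi ρ τ χ (BT s (ze E η) (omOf Prod.fst ξ)) (ξ TW.nil).2.2
      (cross ξ TW.nil).2.2 ∂S.P‖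

theorem f5_of (h : F5a) : ThmBFin980.F5 := by
  intro d k _ S s E K' ρ hX τ χ hχ hs ε hε ζ hζ hζ0 hv cL hcL h1 h2 h3 h4 Q hQ hEG
  have := S.prob
  have hb := f5b τ hχ hs hζ (fun i => h S hX τ χ hχ hs hε (hζ i) (hv i)) h1 h2 h3 h4
  have hcube : ∀ᵐ ξ ∂S.P, ∀ w : TW d, |(ξ w).2.1| ≤ 1 := by
    filter_upwards [LimProps974.om_P S] with ξ hξ w
    exact abs_le.2 (hξ w)
  rw [f5c hcube τ hχ hs hcL hQ hEG, norm_zero] at hb
  linarith

end Crest.Agent.R166.F5b980
end
end

-- ▼ part R166/F5a_487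
section

/-!
# Row 166 (helper487), F5 part (a): the violated quantity in the limit

On the events of the extracted sequence the quantity of Theorem B at a fixed spectral parameter is
close to the integral of a bounded continuous function of the configuration against the empirical
law, hence the integral against the limit law `S.P` is bounded away from zero.
-/

set_option autoImplicit false
set_option linter.unusedSectionVars false

open MeasureTheory Filter Topology

namespace Crest.Agent.R166.F5a487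

open Crest.ProbabilityR.RandomMatrix
open Crest.Agent.R166 Crest.Agent.R166.Words955 Crest.Agent.R166.TreeG879
open Crest.Agent.R166.PhiLim85 (BT blk_close continuous_BT)
open Crest.Agent.R166.LLN289 (badH card_badH_le)
open Crest.Agent.R166.Seq980 (S1 PS col)
open Crest.Agent.R166.Hinge980 (psi viol norm_psi_le psi_uc psi_eq chi2 continuous_chi2)

variable {d k : ℕ} [NeZero d]

/-- the summand of Theorem B read off a configuration -/
noncomputable def Psi (s E ρ η : ℝ) (τ : Fin k → Fin 2 → ℝ)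
    (χ : Matrix (Fin 2) (Fin 2) ℂ → ℝ) (ξ : Conf d (S1 d k)) : ℂ :=
  psi ρ τ χ (BT s (ze E η) (omOf Prod.fst ξ)) (ξ TW.nil).2.2 (cross ξ TW.nil).2.2

theorem ze_im_pos (E : ℝ) {η : ℝ} (hη : 0 < η) : 0 < (ze E η).im := by
  have : (ze E η).im = η := by simp [ze]
  rw [this]; exact hη

theorem continuous_psi {X : Type*} [TopologicalSpace X] (ρ : ℝ) (τ : Fin k → Fin 2 → ℝ)
    {χ : Matrix (Fin 2) (Fin 2) ℂ → ℝ} (hχ : Continuous χ) {B : X → Matrix (Fin 2) (Fin 2) ℂ}
    {x y : X → Fin k → ℝ} (hB : Continuous B) (hx : Continuous x) (hy : Continuous y) :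
    Continuous fun a => psi ρ τ χ (B a) (x a) (y a) := by
  simp only [psi_eq]
  refine Continuous.sub (Continuous.mul ?_ ?_) ?_
  · exact Complex.continuous_ofReal.comp (hχ.comp hB)
  · refine Complex.continuous_exp.comp (continuous_const.mul (Complex.continuous_ofReal.comp ?_))
    refine continuous_finsetSum _ fun i _ => ?_
    exact (continuous_const.mul ((continuous_apply i).comp hx)).add
      (continuous_const.mul ((continuous_apply i).comp hy))
  · exact Complex.continuous_ofReal.comp ((continuous_chi2 ρ τ hχ).comp hB)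

theorem continuous_Psi (s E ρ : ℝ) {η : ℝ} (hη : 0 < η) (τ : Fin k → Fin 2 → ℝ)
    {χ : Matrix (Fin 2) (Fin 2) ℂ → ℝ} (hχ : Continuous χ) :
    Continuous (Psi (d := d) s E ρ η τ χ) := by
  have h1 : Continuous fun ξ : Conf d (S1 d k) => BT s (ze E η) (omOf Prod.fst ξ) :=
    (continuous_BT s (ze_im_pos E hη)).comp
      (continuous_omOf (d := d) (T := ℝ × (Fin k → ℝ)) Prod.fst continuous_fst)
  have h2 : ∀ w : TW d, Continuous fun ξ : Conf d (S1 d k) => (ξ w).2.2 := fun w =>
    continuous_snd.comp (continuous_snd.comp (continuous_apply w))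
  exact continuous_psi ρ τ hχ h1 (h2 TW.nil) (h2 (TW.cr TW.nil))

/-- values on the configurations of a sample -/
theorem Psi_conf (s E ρ η : ℝ) (τ : Fin k → Fin 2 → ℝ) (χ : Matrix (Fin 2) (Fin 2) ℂ → ℝ)
    {n : ℕ} (x : PS d n) (F : Fin k → Fin n → ℝ) (h : HE n d) :
    Psi s E ρ η τ χ (conf x.1 (col x.2 F) h) =
      psi ρ τ χ (BT s (ze E η) fun w => x.2 (vx x.1 h w)) (fun i => F i h.1)
        (fun i => F i (x.1 h).1) := by
  have h1 : (cross (conf (⇑x.1) (col x.2 F) h) TW.nil).2.2 = fun i => F i (x.1 h).1 := by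
    change (fun i => F i (walk (⇑x.1) [0] h).1) = _
    simp [walk]
  unfold Psi
  rw [h1]
  rfl

theorem viol_eq {n : ℕ} (s E ρ η : ℝ) (τ : Fin k → Fin 2 → ℝ)
    (χ : Matrix (Fin 2) (Fin 2) ℂ → ℝ) {p : Equiv.Perm (HE n d)} (hp : IsPort p)
    (om : Fin n → ℝ) (F : Fin k → Fin n → ℝ) :
    viol s E ρ η τ χ (graphOf p) om F =
      (∑ h : HE n d, psi ρ τ χ (Blk (Res (Hm (graphOf p) s om) (ze E η)) h.1 (p h).1)
        (fun i => F i h.1) (fun i => F i (p h).1)) / ((n * d : ℕ) : ℂ) := by
  unfold viol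
  rw [hp.sum_darts, hp.card_darts]

/-- comparison on the sample -/
theorem viol_close {n : ℕ} (hn : 0 < n) {s E ρ η : ℝ} (hη : 0 < η) {τ : Fin k → Fin 2 → ℝ}
    {χ : Matrix (Fin 2) (Fin 2) ℂ → ℝ} {C θ δ : ℝ} (hC : 0 < C)
    (hCb : ∀ B x y, ‖psi ρ τ χ B x y‖ ≤ C) (hθ : 0 < θ) (hδ : 0 < δ)
    (huc : ∀ B B', bnorm (B - B') ≤ δ → ∀ x y, ‖psi ρ τ χ B x y - psi ρ τ χ B' x y‖ ≤ θ)
    {R : ℕ} (hR : 1 + rad d s (ze E η) (δ / 2) ≤ R) {x : PS d n} (hp : IsPort x.1)
    (hom : ∀ v, |x.2 v| ≤ 1) (F : Fin k → Fin n → ℝ) {β : ℝ}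
    (hbad : ((badH x.1 R).card : ℝ) ≤ β * (n * d)) :
    ‖viol s E ρ η τ χ (graphOf x.1) x.2 F -
      (∑ h : HE n d, Psi s E ρ η τ χ (conf x.1 (col x.2 F) h)) / ((n * d : ℕ) : ℂ)‖ ≤
      θ + 2 * C * β := by
  classical
  have hd : 0 < d := Nat.pos_of_ne_zero (NeZero.ne d)
  have hnd : (0 : ℝ) < (n : ℝ) * d := by positivity
  rw [viol_eq s E ρ η τ χ hp, ← sub_div, ← Finset.sum_sub_distrib, norm_div]
  have hcard : ‖((n * d : ℕ) : ℂ)‖ = (n : ℝ) * d := by
    rw [Complex.norm_natCast]; push_cast; rfl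
  rw [hcard, div_le_iff₀ hnd]
  refine (norm_sum_le _ _).trans ?_
  have hpt : ∀ h : HE n d,
      ‖psi ρ τ χ (Blk (Res (Hm (graphOf x.1) s x.2) (ze E η)) h.1 (x.1 h).1)
        (fun i => F i h.1) (fun i => F i (x.1 h).1) -
        Psi s E ρ η τ χ (conf x.1 (col x.2 F) h)‖ ≤
      θ + (if h ∈ badH x.1 R then 2 * C else 0) := by
    intro h
    rw [Psi_conf]
    split_ifs with hb
    · refine (norm_sub_le _ _).trans ?_
      have b1 := hCb (Blk (Res (Hm (graphOf x.1) s x.2) (ze E η)) h.1 (x.1 h).1)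
        (fun i => F i h.1) (fun i => F i (x.1 h).1)
      have b2 := hCb (BT s (ze E η) fun w => x.2 (vx x.1 h w))
        (fun i => F i h.1) (fun i => F i (x.1 h).1)
      linarith
    · rw [add_zero]
      have hinj : Set.InjOn (vx x.1 h) {w | w.len ≤ R} := by
        by_contra hc
        exact hb (by
          simp only [badH, Finset.mem_filter, Finset.mem_univ, true_and]
          exact hc)
      refine huc _ _ ?_ _ _
      refine (blk_close hp s x.2 hom h hinj (ze_im_pos E hη) (half_pos hδ) hR).trans ?_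
      linarith
  refine (Finset.sum_le_sum fun h _ => hpt h).trans ?_
  rw [Finset.sum_add_distrib, Finset.sum_const, Finset.card_univ, IsPort.card_HE,
    nsmul_eq_mul, ← Finset.sum_filter, Finset.sum_const, nsmul_eq_mul]
  have hf : (Finset.univ.filter fun h => h ∈ badH x.1 R) = badH x.1 R := by
    ext h; simp
  rw [hf]
  push_cast
  nlinarith

theorem integral_emp_eq {n : ℕ} (f : Conf d (S1 d k) → ℂ) (hf : Continuous f) (x : PS d n)
    (F : Fin k → Fin n → ℝ) :
    ∫ ξ, f ξ ∂(emp x.1 (col x.2 F)) =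
      (∑ h : HE n d, f (conf x.1 (col x.2 F) h)) / ((n * d : ℕ) : ℂ) := by
  rw [Seq980.integral_emp x.1 (col x.2 F) f hf.stronglyMeasurable, IsPort.card_HE,
    div_eq_inv_mul, Complex.real_smul]
  push_cast
  rfl

/-- convergence of the integrals of complex bounded continuous functions -/
theorem lim_complex (S : Seq980.Seq d k) {f : Conf d (S1 d k) → ℂ} (hf : Continuous f) {C : ℝ}
    (hC : ∀ ξ, ‖f ξ‖ ≤ C) {δ : ℝ} (hδ : 0 < δ) : ∀ᶠ j in atTop, ∀ x ∈ S.U j,
      ‖∫ ξ, f ξ ∂(emp x.1 (col x.2 (S.F j x))) - ∫ ξ, f ξ ∂S.P‖ ≤ 2 * δ := by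
  have hS := S.prob
  let fr : BoundedContinuousFunction (Conf d (S1 d k)) ℝ :=
    BoundedContinuousFunction.ofNormedAddCommGroup (fun ξ => (f ξ).re)
      (Complex.continuous_re.comp hf) C
      (fun ξ => (Complex.abs_re_le_norm _).trans (hC ξ))
  let fi : BoundedContinuousFunction (Conf d (S1 d k)) ℝ :=
    BoundedContinuousFunction.ofNormedAddCommGroup (fun ξ => (f ξ).im)
      (Complex.continuous_im.comp hf) C
      (fun ξ => (Complex.abs_im_le_norm _).trans (hC ξ))
  filter_upwards [S.lim fr δ hδ, S.lim fi δ hδ] with j h1 h2 x hx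
  have g1 := h1 x hx
  have g2 := h2 x hx
  have : NeZero (S.n j) := ⟨(S.pos j).ne'⟩
  have hE := Seq980.emp_prob (d := d) (n := S.n j) x.1 (col x.2 (S.F j x))
  have key : ∀ μ : Measure (Conf d (S1 d k)), IsProbabilityMeasure μ →
      (∫ ξ, f ξ ∂μ).re = ∫ ξ, fr ξ ∂μ ∧ (∫ ξ, f ξ ∂μ).im = ∫ ξ, fi ξ ∂μ := by
    intro μ hμ
    have hi : Integrable f μ := Integrable.of_bound hf.aestronglyMeasurable C
      (Eventually.of_forall hC)
    exact ⟨(integral_re hi).symm, (integral_im hi).symm⟩
  obtain ⟨a1, a2⟩ := key _ hE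
  obtain ⟨b1, b2⟩ := key _ hS
  refine (Complex.norm_le_abs_re_add_abs_im _).trans ?_
  rw [Complex.sub_re, Complex.sub_im, a1, a2, b1, b2]
  linarith

/-- **F5, part (a)** -/
theorem f5a (S : Seq980.Seq d k) {s E K' ρ : ℝ} (hX : SpecB1.Extra S s E K')
    (τ : Fin k → Fin 2 → ℝ) (χ : Matrix (Fin 2) (Fin 2) ℂ → ℝ) (hχ : Continuous χ)
    (hs : HasCompactSupport χ) {ε : ℝ} (hε : 0 < ε) {η : ℝ} (hη : 0 < η)
    (hviol : ∀ᶠ j in atTop, ∀ x ∈ S.U j,
      ε ≤ ‖viol s E ρ η τ χ (graphOf x.1) x.2 (S.F j x)‖) :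
    ε / 2 ≤ ‖∫ ξ, psi ρ τ χ (BT s (ze E η) (omOf Prod.fst ξ)) (ξ TW.nil).2.2
      (cross ξ TW.nil).2.2 ∂S.P‖ := by
  classical
  obtain ⟨C, hC, hCb⟩ := norm_psi_le ρ τ hχ hs
  obtain ⟨δ, hδ, huc⟩ := psi_uc ρ τ hχ hs (θ := ε / 8) (by positivity)
  set R : ℕ := 1 + rad d s (ze E η) (δ / 2) with hR
  have hβ : 0 < ε / (16 * C) := by positivity
  obtain ⟨j, h1, h2, h3⟩ := (hviol.and ((hX.tree R _ hβ).and
    (lim_complex S (continuous_Psi s E ρ hη τ hχ) (C := C) (fun ξ => hCb _ _ _)
      (δ := ε / 8) (by positivity)))).exists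
  obtain ⟨x, hx⟩ := S.nonempty j
  have g1 := h1 x hx
  have g2 := h2 x hx
  have g3 := h3 x hx
  have hbad : ((badH x.1 R).card : ℝ) ≤ ε / (16 * C) * ((S.n j : ℝ) * d) := by
    have h4 : ((badH x.1 R).card : ℝ) ≤ (SpecB1.nonTree R x.1 : ℝ) * d := by
      exact_mod_cast card_badH_le x.1 R
    calc ((badH x.1 R).card : ℝ) ≤ (SpecB1.nonTree R x.1 : ℝ) * d := h4
      _ ≤ (ε / (16 * C) * S.n j) * d := mul_le_mul_of_nonneg_right g2 (Nat.cast_nonneg _)
      _ = _ := by ring
  have g4 := viol_close (S.pos j) hη hC hCb (by positivity) hδ huc le_rfl (S.port j x hx)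
    (fun v => abs_le.2 (S.om j x hx v)) (S.F j x) hbad
  rw [← integral_emp_eq _ (continuous_Psi s E ρ hη τ hχ) x (S.F j x)] at g4
  have e1 : 2 * C * (ε / (16 * C)) = ε / 8 := by field_simp; ring
  rw [e1] at g4
  change ε / 2 ≤ ‖∫ ξ, Psi s E ρ η τ χ ξ ∂S.P‖
  have t1 := norm_sub_norm_le (viol s E ρ η τ χ (graphOf x.1) x.2 (S.F j x))
    (∫ ξ, Psi s E ρ η τ χ ξ ∂(emp x.1 (col x.2 (S.F j x))))
  have t2 := norm_sub_norm_le (∫ ξ, Psi s E ρ η τ χ ξ ∂(emp x.1 (col x.2 (S.F j x))))
    (∫ ξ, Psi s E ρ η τ χ ξ ∂S.P)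
  linarith

end Crest.Agent.R166.F5a487
end

-- ▼ part R166/ThmBAll_980

/-!
# Row 166 (helper980): F5 and the unconditional Theorem B
-/

set_option autoImplicit false

namespace Crest.Agent.R166.ThmBAll980

open Crest.ProbabilityR.RandomMatrix Crest.Agent.R166

/-- **F5** (the violation contradicts `EdgeGauss`) -/
theorem f5 : ThmBFin980.F5 :=
  F5b980.f5_of fun S _ _ _ _ hX τ χ hχ hs _ hε _ hη hv => F5a487.f5a S hX τ χ hχ hs hε hη hv


end Crest.Agent.R166.ThmBAll980
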