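import Mathlib
import Crest.Agent.R166.TreeT_327

-- ▼ part R166/Mob_327
section

/-!
Row 166, sections 30.1/30.2/31.2: the clean Moebius chain (helper327).

`m` is the clean cavity value, `c = -(1/m) - m`, i.e. `m * (c + m) = -1`
(`c = z + (b-1) m` when `m * (z + b m) = -1`).  One step along a path is `T x = -(c + x)⁻¹`.

`T^k x - m = m^(2k) (x - m) / (1 - m S_k (x - m))`, `S_k = ∑_{i<k} m^(2i)`.
-/

set_option autoImplicit false

namespace Crest.Agent.R166.Mob327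

open Complex

/-- geometric sum `1 + m^2 + ... + m^(2(k-1))` -/
noncomputable def S (m : ℂ) (k : ℕ) : ℂ := ∑ i ∈ Finset.range k, (m ^ 2) ^ i

/-- `B_k = 1 + (m^2 - |m|^2) S_k` -/
noncomputable def B (m : ℂ) (k : ℕ) : ℂ := 1 + (m ^ 2 - (‖m‖ ^ 2 : ℝ)) * S m k

/-- the gap -/
noncomputable def tau (m : ℂ) : ℝ := (1 - ‖m‖ ^ 2) * m.im ^ 2

lemma S_zero (m : ℂ) : S m 0 = 0 := by simp [S]

lemma S_one (m : ℂ) : S m 1 = 1 := by simp [S]

lemma S_succ (m : ℂ) (k : ℕ) : S m (k + 1) = S m k + m ^ (2 * k) := by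
  rw [S, S, Finset.sum_range_succ, pow_mul]

lemma S_succ' (m : ℂ) (k : ℕ) : S m (k + 1) = 1 + m ^ 2 * S m k := by
  rw [S, S, Finset.sum_range_succ', Finset.mul_sum, add_comm]
  simp [pow_succ, mul_comm]

lemma one_sub_mul_S (m : ℂ) (k : ℕ) : (1 - m ^ 2) * S m k = 1 - m ^ (2 * k) := by
  induction k with
  | zero => simp [S_zero]
  | succ k ih =>
    rw [S_succ, mul_add, ih]; ring

lemma norm_S_le (m : ℂ) (k : ℕ) : (1 - ‖m‖ ^ 2) * ‖S m k‖ ≤ 1 - ‖m‖ ^ (2 * k) ∨ 1 ≤ ‖m‖ := by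
  by_cases h : 1 ≤ ‖m‖
  · exact Or.inr h
  left
  push Not at h
  have h1 : 0 ≤ ‖m‖ := norm_nonneg _
  have h2 : 0 ≤ 1 - ‖m‖ ^ 2 := by nlinarith
  induction k with
  | zero => simp [S_zero]
  | succ k ih =>
    rw [S_succ]
    have h3 : ‖S m k + m ^ (2 * k)‖ ≤ ‖S m k‖ + ‖m‖ ^ (2 * k) := by
      refine (norm_add_le _ _).trans ?_
      rw [norm_pow]
    have h4 := mul_le_mul_of_nonneg_left h3 h2
    refine h4.trans ?_
    rw [mul_add]
    have : ‖m‖ ^ (2 * (k + 1)) = ‖m‖ ^ 2 * ‖m‖ ^ (2 * k) := by ring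
    rw [this]
    nlinarith [ih]

lemma B_eq (m : ℂ) (k : ℕ) : B m k = m ^ (2 * k) + ((1 - ‖m‖ ^ 2 : ℝ) : ℂ) * S m k := by
  have := one_sub_mul_S m k
  rw [B]
  push_cast
  linear_combination -this

lemma norm_one_add_sq (m : ℂ) : ‖1 + m ^ 2‖ ^ 2 = (1 + ‖m‖ ^ 2) ^ 2 - 4 * m.im ^ 2 := by
  rw [← Complex.normSq_eq_norm_sq, ← Complex.normSq_eq_norm_sq, Complex.normSq_apply,
    Complex.normSq_apply]
  simp [pow_two]
  ring

lemma im_sq_le (m : ℂ) : m.im ^ 2 ≤ ‖m‖ ^ 2 := by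
  rw [← Complex.normSq_eq_norm_sq, Complex.normSq_apply]
  nlinarith [mul_self_nonneg m.re]

lemma norm_one_add_sq_le {m : ℂ} (h : ‖m‖ ≤ 1) : ‖1 + m ^ 2‖ ≤ 1 + ‖m‖ ^ 2 - m.im ^ 2 := by
  have h0 : 0 ≤ ‖m‖ := norm_nonneg _
  have h1 := norm_one_add_sq m
  have h2 := im_sq_le m
  have h3 : 0 ≤ 1 + ‖m‖ ^ 2 - m.im ^ 2 := by nlinarith
  refine abs_le_of_sq_le_sq' ?_ h3 |>.2
  rw [h1]
  have h4 : ‖m‖ ^ 2 ≤ 1 := by nlinarith
  nlinarith [sq_nonneg (m.im ^ 2), sq_nonneg m.im]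

/-- `‖B_k‖ ≤ 1 - τ` for `k ≥ 1`. -/
theorem norm_B_le {m : ℂ} (h : ‖m‖ < 1) {k : ℕ} (hk : 1 ≤ k) : ‖B m k‖ ≤ 1 - tau m := by
  have h0 : 0 ≤ ‖m‖ := norm_nonneg _
  have h2 : 0 ≤ 1 - ‖m‖ ^ 2 := by nlinarith
  have hims := im_sq_le m
  obtain ⟨k, rfl⟩ : ∃ j, k = j + 1 := ⟨k - 1, by omega⟩
  rcases Nat.eq_zero_or_pos k with rfl | hk'
  · -- k = 1
    have e : B m 1 = 1 + m ^ 2 - (‖m‖ ^ 2 : ℝ) := by
      rw [B, S_one]; ring
    have h3 : ‖B m 1‖ ^ 2 = 1 - 4 * m.im ^ 2 * (1 - ‖m‖ ^ 2) := by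
      rw [e, ← Complex.normSq_eq_norm_sq, Complex.normSq_apply, ← Complex.normSq_eq_norm_sq,
        Complex.normSq_apply]
      simp [pow_two]
      ring
    have h4 : tau m ≤ 1 := by
      unfold tau
      nlinarith [sq_nonneg m.im, mul_nonneg h2 (sq_nonneg m.im)]
    refine abs_le_of_sq_le_sq' ?_ (by linarith) |>.2
    rw [zero_add, h3]
    unfold tau
    nlinarith [sq_nonneg ((1 - ‖m‖ ^ 2) * m.im ^ 2), mul_nonneg h2 (sq_nonneg m.im)]
  · obtain ⟨j, rfl⟩ : ∃ j, k = j + 1 := ⟨k - 1, by omega⟩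
    rw [B_eq, S_succ', S_succ']
    have e : m ^ (2 * (j + 1 + 1)) + ((1 - ‖m‖ ^ 2 : ℝ) : ℂ) * (1 + m ^ 2 * (1 + m ^ 2 * S m j))
        = m ^ (2 * (j + 1 + 1)) + ((1 - ‖m‖ ^ 2 : ℝ) : ℂ) * (1 + m ^ 2)
          + m ^ 4 * (((1 - ‖m‖ ^ 2 : ℝ) : ℂ) * S m j) := by ring
    rw [e]
    have hS : (1 - ‖m‖ ^ 2) * ‖S m j‖ ≤ 1 - ‖m‖ ^ (2 * j) := by
      rcases norm_S_le m j with h5 | h5
      · exact h5
      · exact absurd h5 (not_le.mpr h)
    have hn : ‖((1 - ‖m‖ ^ 2 : ℝ) : ℂ)‖ = 1 - ‖m‖ ^ 2 := by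
      rw [Complex.norm_real, Real.norm_of_nonneg h2]
    have h6 := norm_add_le (m ^ (2 * (j + 1 + 1)) + ((1 - ‖m‖ ^ 2 : ℝ) : ℂ) * (1 + m ^ 2))
      (m ^ 4 * (((1 - ‖m‖ ^ 2 : ℝ) : ℂ) * S m j))
    have h7 := norm_add_le (m ^ (2 * (j + 1 + 1))) (((1 - ‖m‖ ^ 2 : ℝ) : ℂ) * (1 + m ^ 2))
    rw [norm_mul, norm_mul, norm_pow, hn] at h6
    rw [norm_mul, norm_pow, hn] at h7
    have h8 := norm_one_add_sq_le h.le
    have h9 : ‖m‖ ^ 4 * ((1 - ‖m‖ ^ 2) * ‖S m j‖) ≤ ‖m‖ ^ 4 * (1 - ‖m‖ ^ (2 * j)) :=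
      mul_le_mul_of_nonneg_left hS (by positivity)
    have h10 : (1 - ‖m‖ ^ 2) * ‖1 + m ^ 2‖ ≤ (1 - ‖m‖ ^ 2) * (1 + ‖m‖ ^ 2 - m.im ^ 2) :=
      mul_le_mul_of_nonneg_left h8 h2
    have h11 : ‖m‖ ^ (2 * (j + 1 + 1)) = ‖m‖ ^ 4 * ‖m‖ ^ (2 * j) := by ring
    unfold tau
    nlinarith [h6, h7, h9, h10, h11]

lemma tau_pos {m : ℂ} (h : ‖m‖ < 1) (hm : 0 < m.im) : 0 < tau m := by
  unfold tau
  have h0 : 0 ≤ ‖m‖ := norm_nonneg _
  have h2 : 0 < 1 - ‖m‖ ^ 2 := by nlinarith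
  positivity

/-! ### abstract (operator / vector) form -/

section vec

variable {E : Type*} [NormedAddCommGroup E] [InnerProductSpace ℂ E]

/-- `‖(A - m) u‖ ≤ ‖(A - conj m) u‖` if `Im ⟪u, A u⟫ ≥ 0`, `Im m ≥ 0`. -/
lemma norm_sub_smul_le (u v : E) (m : ℂ) (hm : 0 ≤ m.im) (huv : 0 ≤ (inner ℂ u v).im) :
    ‖v - m • u‖ ≤ ‖v - (starRingEnd ℂ m) • u‖ := by
  have e : v - (starRingEnd ℂ m) • u = (v - m • u) + ((2 * m.im : ℝ) * I : ℂ) • u := by
    have : (starRingEnd ℂ m) = m - ((2 * m.im : ℝ) * I : ℂ) := by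
      apply Complex.ext <;> simp
      ring
    rw [this, sub_smul]
    abel
  have h1 : ‖v - (starRingEnd ℂ m) • u‖ ^ 2 = ‖v - m • u‖ ^ 2 + 4 * m.im * (inner ℂ u v).im := by
    rw [e, norm_add_sq (𝕜 := ℂ), norm_smul, inner_smul_right, inner_sub_left, inner_smul_left]
    have h2 : (inner ℂ v u).im = -(inner ℂ u v).im := by
      rw [← inner_conj_symm v u, Complex.conj_im]
    have h3 : inner ℂ u u = ((‖u‖ ^ 2 : ℝ) : ℂ) := by
      rw [inner_self_eq_norm_sq_to_K]; push_cast; rfl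
    have h4 : ‖((2 * m.im : ℝ) * I : ℂ)‖ = 2 * m.im := by
      rw [norm_mul, Complex.norm_I, mul_one, Complex.norm_real, Real.norm_of_nonneg (by linarith)]
    rw [h3, h4]
    simp only [RCLike.re_to_complex, Complex.mul_re, Complex.sub_re, Complex.sub_im,
      Complex.mul_im, Complex.ofReal_re, Complex.ofReal_im, Complex.I_re, Complex.I_im,
      Complex.conj_re, Complex.conj_im, h2]
    ring
  refine abs_le_of_sq_le_sq' ?_ (norm_nonneg _) |>.2
  rw [h1]
  have : 0 ≤ 4 * m.im * (inner ℂ u v).im := by positivity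
  linarith

/-- lower bound for `D_k(A) u = u - m S_k (A u - m u)`. -/
theorem norm_D_ge (u v : E) {m : ℂ} (h : ‖m‖ < 1) (hm : 0 < m.im)
    (huv : 0 ≤ (inner ℂ u v).im) {k : ℕ} (hk : 1 ≤ k) :
    tau m * ‖v - (starRingEnd ℂ m) • u‖ ≤ 2 * m.im * ‖u - (m * S m k) • (v - m • u)‖ := by
  have h1 := norm_sub_smul_le u v m hm.le huv
  have h2 := norm_B_le h hk
  have h0 : 0 ≤ ‖v - m • u‖ := norm_nonneg _
  have key : (2 * m.im * I : ℂ) • (u - (m * S m k) • (v - m • u))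
      = (v - (starRingEnd ℂ m) • u) - B m k • (v - m • u) := by
    have hc : (starRingEnd ℂ m) = m - 2 * m.im * I := by
      apply Complex.ext <;> simp
      ring
    have hB : B m k = 1 + 2 * m.im * I * (m * S m k) := by
      rw [B]
      have : (m ^ 2 - (‖m‖ ^ 2 : ℝ) : ℂ) = 2 * m.im * I * m := by
        have h3 : ((‖m‖ ^ 2 : ℝ) : ℂ) = m * starRingEnd ℂ m := by
          rw [Complex.mul_conj, Complex.normSq_eq_norm_sq]
        rw [h3, hc]; ring
      rw [this]; ring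
    rw [hB, hc]
    module
  have h4 : ‖(2 * m.im * I : ℂ) • (u - (m * S m k) • (v - m • u))‖
      = 2 * m.im * ‖u - (m * S m k) • (v - m • u)‖ := by
    rw [norm_smul]; simp [abs_of_pos hm]
  rw [← h4, key]
  have h5 := norm_sub_norm_le (v - (starRingEnd ℂ m) • u) (B m k • (v - m • u))
  rw [norm_smul] at h5
  have h6 : ‖B m k‖ * ‖v - m • u‖ ≤ (1 - tau m) * ‖v - m • u‖ :=
    mul_le_mul_of_nonneg_right h2 h0
  have h7 : 0 ≤ 1 - tau m := (norm_nonneg _).trans h2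
  have h8 : (1 - tau m) * ‖v - m • u‖ ≤ (1 - tau m) * ‖v - (starRingEnd ℂ m) • u‖ :=
    mul_le_mul_of_nonneg_left h1 h7
  nlinarith

/-- lower bound `‖(A - conj m) u‖ ≥ μ ‖u‖`. -/
lemma im_mul_norm_le (u v : E) (m : ℂ) (_hm : 0 ≤ m.im) (huv : 0 ≤ (inner ℂ u v).im) :
    m.im * ‖u‖ ≤ ‖v - (starRingEnd ℂ m) • u‖ := by
  by_cases hu : ‖u‖ = 0
  · rw [hu, mul_zero]; exact norm_nonneg _
  have hpos : 0 < ‖u‖ := lt_of_le_of_ne (norm_nonneg _) (Ne.symm hu)
  have h1 : (inner ℂ u (v - (starRingEnd ℂ m) • u)).im = (inner ℂ u v).im + m.im * ‖u‖ ^ 2 := by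
    rw [inner_sub_right, inner_smul_right, inner_self_eq_norm_sq_to_K]
    simp only [Complex.sub_im, Complex.mul_im, Complex.conj_re, Complex.conj_im]
    have h2 : (((‖u‖ : ℝ) : ℂ) ^ 2).im = 0 := by norm_cast
    have h3 : (((‖u‖ : ℝ) : ℂ) ^ 2).re = ‖u‖ ^ 2 := by norm_cast
    simp only [Complex.coe_algebraMap, h2, h3]
    ring
  have h4 : |(inner ℂ u (v - (starRingEnd ℂ m) • u)).im| ≤ ‖u‖ * ‖v - (starRingEnd ℂ m) • u‖ :=
    (Complex.abs_im_le_norm _).trans (norm_inner_le_norm _ _)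
  have h5 := (le_abs_self _).trans h4
  rw [h1] at h5
  have h6 : m.im * ‖u‖ ^ 2 ≤ ‖u‖ * ‖v - (starRingEnd ℂ m) • u‖ := by linarith
  have h7 : ‖u‖ * (m.im * ‖u‖) ≤ ‖u‖ * ‖v - (starRingEnd ℂ m) • u‖ := by
    calc ‖u‖ * (m.im * ‖u‖) = m.im * ‖u‖ ^ 2 := by ring
      _ ≤ _ := h6
  exact le_of_mul_le_mul_left h7 hpos

/-- exact iteration formula (vector form): if `Y (j+1) = -(c + Y j)⁻¹` then
`Y k (D_k u) = m D_k u + m^(2k) (A u - m u)`, `A = Y 0`. -/
theorem iter_formula {m c : ℂ} (hc : m * (c + m) = -1) (Y : ℕ → (E →ₗ[ℂ] E)) (k : ℕ)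
    (hY : ∀ j, j < k → ∀ w, Y (j + 1) (c • w + Y j w) = -w) (u : E) :
    Y k (u - (m * S m k) • (Y 0 u - m • u))
      = m • (u - (m * S m k) • (Y 0 u - m • u)) + m ^ (2 * k) • (Y 0 u - m • u) := by
  induction k with
  | zero => simp [S_zero]
  | succ k ih =>
    have ih' := ih (fun j hj => hY j (by omega))
    have hm0 : m ≠ 0 := by rintro rfl; simp at hc
    set a := Y 0 u - m • u with ha
    set D := u - (m * S m k) • a with hD
    have hD' : u - (m * S m (k + 1)) • a = D - (m * m ^ (2 * k)) • a := by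
      rw [hD, S_succ]; module
    have h1 : c • D + Y k D = (-(m⁻¹)) • (D - (m * m ^ (2 * k)) • a) := by
      rw [ih']
      have hcm : c = -(m⁻¹) - m := by
        field_simp
        linear_combination hc
      rw [hcm]
      have : (-(m⁻¹)) • (D - (m * m ^ (2 * k)) • a) = (-(m⁻¹)) • D + (m⁻¹ * m * m ^ (2 * k)) • a := by
        module
      rw [this, inv_mul_cancel₀ hm0]
      module
    have h2 := hY k (by omega) D
    rw [h1, map_smul] at h2
    have h3 : Y (k + 1) (D - (m * m ^ (2 * k)) • a) = m • D := by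
      have h4 := congrArg (fun t => (-m) • t) h2
      simp only [smul_smul] at h4
      have h5 : -m * -(m⁻¹) = 1 := by field_simp
      rw [h5, one_smul] at h4
      rw [h4]; module
    rw [hD', h3]
    have : m ^ (2 * (k + 1)) = m * (m * m ^ (2 * k)) := by ring
    rw [this]; module

/-- `D_k` is injective. -/
lemma D_inj {m : ℂ} (h : ‖m‖ < 1) (hm : 0 < m.im) (A : E →ₗ[ℂ] E)
    (hA : ∀ u, 0 ≤ (inner ℂ u (A u)).im) {k : ℕ} (hk : 1 ≤ k) (u : E)
    (hu : u - (m * S m k) • (A u - m • u) = 0) : u = 0 := by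
  have h1 := norm_D_ge u (A u) h hm (hA u) hk
  rw [hu, norm_zero, mul_zero] at h1
  have h2 := im_mul_norm_le u (A u) m hm.le (hA u)
  have h3 := tau_pos h hm
  have h4 : ‖A u - (starRingEnd ℂ m) • u‖ ≤ 0 := by
    by_contra h5
    push Not at h5
    have := mul_pos h3 h5
    linarith
  have h5 : m.im * ‖u‖ ≤ 0 := h2.trans h4
  have h6 : ‖u‖ ≤ 0 := by
    by_contra h7
    push Not at h7
    have := mul_pos hm h7
    linarith
  exact norm_le_zero_iff.mp h6

/-- operator bound for the iterates. -/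
theorem iter_bound [FiniteDimensional ℂ E] {m c : ℂ} (hc : m * (c + m) = -1) (h : ‖m‖ < 1)
    (hm : 0 < m.im) (Y : ℕ → (E →ₗ[ℂ] E)) {k : ℕ} (hk : 1 ≤ k)
    (hY : ∀ j, j < k → ∀ w, Y (j + 1) (c • w + Y j w) = -w)
    (hA : ∀ u, 0 ≤ (inner ℂ u (Y 0 u)).im) (w : E) :
    tau m * ‖Y k w - m • w‖ ≤ ‖m‖ ^ (2 * k) * (2 * m.im * ‖w‖) := by
  let D : E →ₗ[ℂ] E := LinearMap.id - (m * S m k) • (Y 0 - m • LinearMap.id)
  have hDe : ∀ u, D u = u - (m * S m k) • (Y 0 u - m • u) := fun u => by simp [D]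
  have hinj : Function.Injective D := by
    rw [← LinearMap.ker_eq_bot, LinearMap.ker_eq_bot']
    intro u hu
    rw [hDe] at hu
    exact D_inj h hm (Y 0) hA hk u hu
  obtain ⟨u, rfl⟩ := (LinearMap.injective_iff_surjective.mp hinj) w
  rw [hDe]
  have h1 := iter_formula hc Y k hY u
  rw [h1, add_sub_cancel_left, norm_smul, norm_pow]
  have h2 := norm_D_ge u (Y 0 u) h hm (hA u) hk
  have h3 := norm_sub_smul_le u (Y 0 u) m hm.le (hA u)
  have h4 : tau m * ‖Y 0 u - m • u‖ ≤ tau m * ‖Y 0 u - (starRingEnd ℂ m) • u‖ :=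
    mul_le_mul_of_nonneg_left h3 (tau_pos h hm).le
  have h5 := h4.trans h2
  calc tau m * (‖m‖ ^ (2 * k) * ‖Y 0 u - m • u‖)
      = ‖m‖ ^ (2 * k) * (tau m * ‖Y 0 u - m • u‖) := by ring
    _ ≤ _ := mul_le_mul_of_nonneg_left h5 (by positivity)

end vec

/-! ### scalar form -/

/-- one step along a path -/
noncomputable def T (c x : ℂ) : ℂ := -(c + x)⁻¹

lemma im_neg_inv (w : ℂ) : (-(w⁻¹)).im = w.im / ‖w‖ ^ 2 := by
  rw [Complex.neg_im, Complex.inv_im, Complex.normSq_eq_norm_sq]; ring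

lemma T_im_nonneg {c x : ℂ} (h : 0 ≤ (c + x).im) : 0 ≤ (T c x).im := by
  rw [T, im_neg_inv]; positivity


/-- `‖T x‖ ≤ 1 / κ` if `κ ≤ Im (c + x)`. -/
lemma norm_T_le {c x : ℂ} {κ : ℝ} (hκ : 0 < κ) (h : κ ≤ (c + x).im) : ‖T c x‖ ≤ κ⁻¹ := by
  rw [T, norm_neg, norm_inv]
  exact inv_anti₀ hκ (h.trans ((le_abs_self _).trans (Complex.abs_im_le_norm _)))

/-- difference formula -/
lemma T_sub_T {c x c' x' : ℂ} (h : c + x ≠ 0) (h' : c' + x' ≠ 0) :
    T c x - T c' x' = ((c - c') + (x - x')) * T c x * T c' x' := by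
  unfold T
  field_simp
  ring

lemma im_c {m c : ℂ} (hc : m * (c + m) = -1) (hm : 0 < m.im) :
    c.im = m.im * (1 - ‖m‖ ^ 2) / ‖m‖ ^ 2 := by
  have hm0 : m ≠ 0 := by rintro rfl; simp at hc
  have h1 : c = -(m⁻¹) - m := by
    field_simp
    linear_combination hc
  rw [h1, Complex.sub_im, im_neg_inv]
  have : ‖m‖ ^ 2 ≠ 0 := by positivity
  field_simp


/-- scalar bounds for the iterates of the clean step. -/
theorem T_iter_bound {m c : ℂ} (hc : m * (c + m) = -1) (h : ‖m‖ < 1) (hm : 0 < m.im)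
    {x : ℂ} (hx : 0 ≤ x.im) {k : ℕ} (hk : 1 ≤ k) :
    tau m * ‖(T c)^[k] x - m‖ ≤ ‖m‖ ^ (2 * k) * (2 * m.im) ∧
    tau m * ‖(T c)^[k] x - m‖ ≤ ‖m‖ ^ (2 * k) * (2 * ‖x - m‖) := by
  have hn0 : 0 ≤ ‖m‖ := norm_nonneg _
  have hm0 : m ≠ 0 := by rintro rfl; simp at hc
  have hcim : 0 < c.im := by
    rw [im_c hc hm]
    have : 0 < 1 - ‖m‖ ^ 2 := by nlinarith
    positivity
  have him : ∀ j, 0 ≤ ((T c)^[j] x).im := by
    intro j
    induction j with
    | zero => simpa using hx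
    | succ j ih =>
      rw [Function.iterate_succ_apply']
      exact T_im_nonneg (by rw [Complex.add_im]; linarith)
  have hne : ∀ j, c + (T c)^[j] x ≠ 0 := by
    intro j h0
    have := congrArg Complex.im h0
    rw [Complex.add_im, Complex.zero_im] at this
    have := him j
    linarith
  let Y : ℕ → (ℂ →ₗ[ℂ] ℂ) := fun j => ((T c)^[j] x) • LinearMap.id
  have hYe : ∀ j w, Y j w = (T c)^[j] x * w := fun j w => by simp [Y]
  have hY : ∀ j, j < k → ∀ w, Y (j + 1) (c • w + Y j w) = -w := by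
    intro j _ w
    rw [hYe, hYe, Function.iterate_succ_apply', smul_eq_mul]
    have h0 := hne j
    generalize (T c)^[j] x = y at h0 ⊢
    rw [T]
    have : c * w + y * w = (c + y) * w := by ring
    rw [this, neg_mul, inv_mul_cancel_left₀ h0]
  have hA : ∀ u : ℂ, 0 ≤ (inner ℂ u (Y 0 u)).im := by
    intro u
    rw [hYe]
    have : inner ℂ u ((T c)^[0] x * u) = x * ((‖u‖ ^ 2 : ℝ) : ℂ) := by
      simp only [Function.iterate_zero, id_eq, RCLike.inner_apply]
      rw [mul_assoc, Complex.mul_conj, Complex.normSq_eq_norm_sq]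
    rw [this, Complex.im_mul_ofReal]
    positivity
  have h1 := iter_formula hc Y k hY 1
  have h2 := norm_D_ge (E := ℂ) 1 (Y 0 1) h hm (hA 1) hk
  have h3 := norm_sub_smul_le (E := ℂ) 1 (Y 0 1) m hm.le (hA 1)
  have h4 := im_mul_norm_le (E := ℂ) 1 (Y 0 1) m hm.le (hA 1)
  set D : ℂ := 1 - (m * S m k) • (Y 0 1 - m • 1) with hD
  have hY01 : Y 0 1 = x := by simp [hYe]
  rw [hYe] at h1
  rw [hY01] at h1 h2 h3 h4
  simp only [smul_eq_mul, mul_one, norm_one] at h1 h2 h3 h4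
  have hDn : 0 < ‖D‖ := by
    have h5 := tau_pos h hm
    have h6 : 0 < ‖x - (starRingEnd ℂ) m‖ := lt_of_lt_of_le hm h4
    have h7 := mul_pos h5 h6
    by_contra h8
    push Not at h8
    have : 2 * m.im * ‖D‖ ≤ 0 := by
      have : ‖D‖ = 0 := le_antisymm h8 (norm_nonneg _)
      rw [this]; simp
    linarith
  have h8 : ((T c)^[k] x - m) * D = m ^ (2 * k) * (x - m) := by
    rw [sub_mul, h1]; ring
  have h9 : ‖(T c)^[k] x - m‖ * ‖D‖ = ‖m‖ ^ (2 * k) * ‖x - m‖ := by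
    rw [← norm_mul, h8, norm_mul, norm_pow]
  have hp : 0 ≤ ‖m‖ ^ (2 * k) := by positivity
  have ht := (tau_pos h hm).le
  constructor
  · -- tau ‖x-m‖ ≤ 2 μ ‖D‖
    have h10 : tau m * ‖x - m‖ ≤ 2 * m.im * ‖D‖ :=
      (mul_le_mul_of_nonneg_left h3 ht).trans h2
    have h11 : (tau m * ‖(T c)^[k] x - m‖) * ‖D‖ ≤ (‖m‖ ^ (2 * k) * (2 * m.im)) * ‖D‖ := by
      calc (tau m * ‖(T c)^[k] x - m‖) * ‖D‖ = ‖m‖ ^ (2 * k) * (tau m * ‖x - m‖) := by
            rw [mul_assoc, h9]; ring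
        _ ≤ ‖m‖ ^ (2 * k) * (2 * m.im * ‖D‖) := mul_le_mul_of_nonneg_left h10 hp
        _ = _ := by ring
    exact le_of_mul_le_mul_right h11 hDn
  · have h10 : tau m * m.im ≤ 2 * m.im * ‖D‖ :=
      (mul_le_mul_of_nonneg_left h4 ht).trans h2
    have h12 : tau m ≤ 2 * ‖D‖ := by
      have : m.im * tau m ≤ m.im * (2 * ‖D‖) := by linarith
      exact le_of_mul_le_mul_left this hm
    have h11 : (tau m * ‖(T c)^[k] x - m‖) * ‖D‖ ≤ (‖m‖ ^ (2 * k) * (2 * ‖x - m‖)) * ‖D‖ := by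
      calc (tau m * ‖(T c)^[k] x - m‖) * ‖D‖ = (‖m‖ ^ (2 * k) * ‖x - m‖) * tau m := by
            rw [mul_assoc, h9]; ring
        _ ≤ (‖m‖ ^ (2 * k) * ‖x - m‖) * (2 * ‖D‖) := mul_le_mul_of_nonneg_left h12 (by positivity)
        _ = _ := by ring
    exact le_of_mul_le_mul_right h11 hDn

end Crest.Agent.R166.Mob327
end

-- ▼ part R166/TreeL_327
section

/-!
Row 166, sections 30.1/30.2/31.2: layers of the rooted tree, the layer recursion `step`,
structure of `step` on nearly diagonal inputs, and the bridge to the resolvent of the finite tree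
(helper327).
-/

set_option autoImplicit false
set_option linter.unusedSectionVars false
set_option linter.unusedVariables false

namespace Crest.Agent.R166.TreeL327

open Matrix

section onestep

variable {κ β : Type*} [Fintype κ] [DecidableEq κ] [Fintype β] [DecidableEq β]

/-- `Im` of the quadratic form is nonnegative -/
def NN {ι : Type*} [Fintype ι] (Z : Matrix ι ι ℂ) : Prop :=
  ∀ u : ι → ℂ, 0 ≤ (star u ⬝ᵥ (Z *ᵥ u)).im

/-- collapse an input matrix to the parents -/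
def coll (Z : Matrix (κ × β) (κ × β) ℂ) : Matrix κ κ ℂ :=
  fun p q => ∑ a, ∑ a', Z (p, a) (q, a')

/-- one layer of the recursion -/
noncomputable def step (e : κ → ℂ) (Z : Matrix (κ × β) (κ × β) ℂ) : Matrix κ κ ℂ :=
  -(Matrix.diagonal e + coll Z)⁻¹

lemma coll_form (Z : Matrix (κ × β) (κ × β) ℂ) (u : κ → ℂ) :
    star u ⬝ᵥ (coll Z *ᵥ u)
      = star (fun x : κ × β => u x.1) ⬝ᵥ (Z *ᵥ (fun x : κ × β => u x.1)) := by
  simp only [dotProduct, mulVec, coll, Pi.star_apply, Fintype.sum_prod_type, Finset.sum_mul,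
    Finset.mul_sum]
  refine Finset.sum_congr rfl fun p _ => ?_
  rw [Finset.sum_comm]

lemma NN.coll {Z : Matrix (κ × β) (κ × β) ℂ} (h : NN Z) : NN (coll Z) := by
  intro u
  rw [coll_form]
  exact h _

lemma diag_form (e : κ → ℂ) (u : κ → ℂ) :
    star u ⬝ᵥ (Matrix.diagonal e *ᵥ u) = ∑ p, e p * ((‖u p‖ ^ 2 : ℝ) : ℂ) := by
  simp only [dotProduct, mulVec_diagonal, Pi.star_apply]
  refine Finset.sum_congr rfl fun p _ => ?_
  have : ((‖u p‖ ^ 2 : ℝ) : ℂ) = star (u p) * u p := by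
    rw [← Complex.normSq_eq_norm_sq, ← Complex.mul_conj]
    simp [mul_comm]
  rw [this]; ring

lemma diag_form_im (e : κ → ℂ) (u : κ → ℂ) :
    (star u ⬝ᵥ (Matrix.diagonal e *ᵥ u)).im = ∑ p, (e p).im * ‖u p‖ ^ 2 := by
  rw [diag_form, Complex.im_sum]
  exact Finset.sum_congr rfl fun p _ => by rw [Complex.im_mul_ofReal]

/-- `Im ≥ κ` quadratic form lower bound of `diag e + W`. -/
lemma form_ge {e : κ → ℂ} {W : Matrix κ κ ℂ} (hW : NN W) {t : ℝ} (he : ∀ p, t ≤ (e p).im)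
    (u : κ → ℂ) : t * ∑ p, ‖u p‖ ^ 2 ≤ (star u ⬝ᵥ ((Matrix.diagonal e + W) *ᵥ u)).im := by
  rw [add_mulVec, dotProduct_add, Complex.add_im, diag_form_im, Finset.mul_sum]
  have h1 := hW u
  have h2 : ∑ p, t * ‖u p‖ ^ 2 ≤ ∑ p, (e p).im * ‖u p‖ ^ 2 :=
    Finset.sum_le_sum fun p _ => mul_le_mul_of_nonneg_right (he p) (by positivity)
  linarith

lemma det_unit_of_inj {A : Matrix κ κ ℂ} (h : ∀ s : κ → ℂ, A *ᵥ s = 0 → s = 0) :
    IsUnit A.det := by
  rw [isUnit_iff_ne_zero]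
  intro h0
  obtain ⟨v, hv, hv'⟩ := Matrix.exists_mulVec_eq_zero_iff.mpr h0
  exact hv (h v hv')

lemma diag_add_isUnit {e : κ → ℂ} {W : Matrix κ κ ℂ} (hW : NN W) (he : ∀ p, 0 < (e p).im) :
    IsUnit (Matrix.diagonal e + W).det := by
  apply det_unit_of_inj
  intro s hs
  have h1 := hW s
  have h2 : (star s ⬝ᵥ ((Matrix.diagonal e + W) *ᵥ s)).im = 0 := by rw [hs]; simp
  rw [add_mulVec, dotProduct_add, Complex.add_im, diag_form_im] at h2
  have h3 : ∑ p, (e p).im * ‖s p‖ ^ 2 ≤ 0 := by linarith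
  have h4 : ∀ p, (e p).im * ‖s p‖ ^ 2 = 0 := by
    have h5 : ∑ p, (e p).im * ‖s p‖ ^ 2 = 0 :=
      le_antisymm h3 (Finset.sum_nonneg fun p _ => mul_nonneg (he p).le (by positivity))
    intro p
    exact (Finset.sum_eq_zero_iff_of_nonneg
      (fun p _ => mul_nonneg (he p).le (by positivity))).mp h5 p (Finset.mem_univ p)
  ext p
  have h6 := h4 p
  have h7 : ‖s p‖ ^ 2 = 0 := by
    rcases mul_eq_zero.mp h6 with h | h
    · exact absurd h (he p).ne'
    · exact h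
  simpa using h7

lemma star_dot_swap (x y : κ → ℂ) : (star x ⬝ᵥ y).im = -(star y ⬝ᵥ x).im := by
  have : star x ⬝ᵥ y = star (star y ⬝ᵥ x) := by
    simp only [dotProduct, Pi.star_apply, star_sum, star_mul', star_star]
    exact Finset.sum_congr rfl fun i _ => mul_comm _ _
  rw [this, Complex.star_def, Complex.conj_im]

/-- minus the inverse of a matrix with nonnegative imaginary part has the same property -/
lemma NN.neg_inv {N : Matrix κ κ ℂ} (hN : NN N) (hu : IsUnit N.det) : NN (-N⁻¹) := by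
  intro u
  set v := N⁻¹ *ᵥ u with hv
  have h1 : N *ᵥ v = u := by
    rw [hv, mulVec_mulVec, mul_nonsing_inv _ hu, one_mulVec]
  have h2 := hN v
  rw [h1] at h2
  rw [neg_mulVec, ← hv, dotProduct_neg, Complex.neg_im, star_dot_swap, neg_neg]
  exact h2

lemma NN_diagonal {e : κ → ℂ} (he : ∀ p, 0 ≤ (e p).im) : NN (Matrix.diagonal e) := by
  intro u
  rw [diag_form_im]
  exact Finset.sum_nonneg fun p _ => mul_nonneg (he p) (by positivity)

lemma NN.add {A B : Matrix κ κ ℂ} (hA : NN A) (hB : NN B) : NN (A + B) := by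
  intro u
  rw [add_mulVec, dotProduct_add, Complex.add_im]
  exact add_nonneg (hA u) (hB u)

lemma NN.im_diag {A : Matrix κ κ ℂ} (hA : NN A) (p : κ) : 0 ≤ (A p p).im := by
  have h := hA (Pi.single p 1)
  have e1 : star (Pi.single p (1 : ℂ)) ⬝ᵥ (A *ᵥ Pi.single p 1) = A p p := by
    rw [mulVec_single_one]
    simp [dotProduct, Pi.single_apply]
  rwa [e1] at h

lemma NN.submatrix {α : Type*} [Fintype α] [DecidableEq α] {A : Matrix κ κ ℂ} (hA : NN A)
    {f : α → κ} (hf : Function.Injective f) : NN (A.submatrix f f) := by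
  intro u
  have h := hA (fun p => ∑ x, if f x = p then u x else 0)
  have e1 : ∀ (g : κ → ℂ), (∑ p, (∑ x, if f x = p then u x else 0) * g p) = ∑ x, u x * g (f x) := by
    intro g
    simp only [Finset.sum_mul]
    rw [Finset.sum_comm]
    refine Finset.sum_congr rfl fun x _ => ?_
    simp
  have e2 : (A *ᵥ fun p => ∑ x, if f x = p then u x else 0) = fun p => ∑ x, A p (f x) * u x := by
    ext p
    simp only [mulVec, dotProduct]
    have := e1 (fun q => A p q)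
    calc ∑ q, A p q * (∑ x, if f x = q then u x else 0)
        = ∑ q, (∑ x, if f x = q then u x else 0) * A p q :=
          Finset.sum_congr rfl fun q _ => mul_comm _ _
      _ = ∑ x, u x * A p (f x) := this
      _ = _ := Finset.sum_congr rfl fun q _ => mul_comm _ _
  rw [e2] at h
  have e3 : star (fun p => ∑ x, if f x = p then u x else 0) ⬝ᵥ (fun p => ∑ x, A p (f x) * u x)
      = star u ⬝ᵥ (A.submatrix f f *ᵥ u) := by
    simp only [dotProduct, Pi.star_apply, star_sum, mulVec, submatrix_apply]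
    have : ∀ p, (∑ x, star (if f x = p then u x else 0)) = ∑ x, if f x = p then star (u x) else 0 := by
      intro p
      refine Finset.sum_congr rfl fun x _ => ?_
      split <;> simp
    simp only [this, Finset.sum_mul]
    rw [Finset.sum_comm]
    refine Finset.sum_congr rfl fun x _ => ?_
    simp
  rw [e3] at h
  exact h

lemma step_NN {e : κ → ℂ} {Z : Matrix (κ × β) (κ × β) ℂ} (hZ : NN Z)
    (he : ∀ p, 0 < (e p).im) : NN (step e Z) :=
  NN.neg_inv ((NN_diagonal fun p => (he p).le).add hZ.coll) (diag_add_isUnit hZ.coll he)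

lemma coll_symm {Z : Matrix (κ × β) (κ × β) ℂ} (hZ : Zᵀ = Z) : (coll Z)ᵀ = coll Z := by
  ext p q
  simp only [transpose_apply, coll]
  rw [Finset.sum_comm]
  refine Finset.sum_congr rfl fun a _ => Finset.sum_congr rfl fun a' _ => ?_
  have := congrFun (congrFun hZ (p, a)) (q, a')
  simpa [transpose_apply] using this

lemma step_symm {e : κ → ℂ} {Z : Matrix (κ × β) (κ × β) ℂ} (hZ : Zᵀ = Z) :
    (step e Z)ᵀ = step e Z := by
  rw [step, transpose_neg, transpose_nonsing_inv, transpose_add, coll_symm hZ,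
    diagonal_transpose]

/-- row of the inverse when the row of the matrix is diagonal -/
lemma inv_row {N : Matrix κ κ ℂ} (hu : IsUnit N.det) {p : κ} (hp : ∀ q, q ≠ p → N p q = 0)
    (q : κ) : N p p * N⁻¹ p q = if p = q then 1 else 0 := by
  have h := congrFun (congrFun (mul_nonsing_inv N hu) p) q
  rw [mul_apply, Finset.sum_eq_single p, one_apply] at h
  · exact h
  · intro r _ hr; rw [hp r hr, zero_mul]
  · simp

/-- the two by two block at `(i,k)` -/
def blk {ι : Type*} (Z : Matrix ι ι ℂ) (i k : ι) : Matrix (Fin 2) (Fin 2) ℂ :=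
  !![Z i i, Z i k; Z k i, Z k k]

/-- block of the inverse when the matrix splits off a `2 x 2` block -/
lemma inv_blk {N : Matrix κ κ ℂ} (hu : IsUnit N.det) {p q : κ} (hpq : p ≠ q)
    (hp : ∀ r, r ≠ p → r ≠ q → N p r = 0) (hq : ∀ r, r ≠ p → r ≠ q → N q r = 0) :
    blk N p q * blk N⁻¹ p q = 1 := by
  have h0 := mul_nonsing_inv N hu
  have key : ∀ x : κ, (∀ r, r ≠ p → r ≠ q → N x r = 0) → ∀ y,
      N x p * N⁻¹ p y + N x q * N⁻¹ q y = (1 : Matrix κ κ ℂ) x y := by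
    intro x hx y
    rw [← h0, mul_apply, ← Finset.add_sum_erase _ _ (Finset.mem_univ p),
      ← Finset.add_sum_erase _ _ (Finset.mem_erase.mpr ⟨hpq.symm, Finset.mem_univ q⟩)]
    rw [Finset.sum_eq_zero, add_zero]
    intro r hr
    rw [Finset.mem_erase, Finset.mem_erase] at hr
    rw [hx r hr.2.1 hr.1, zero_mul]
  ext a c
  fin_cases a <;> fin_cases c <;>
    simp [blk, mul_apply, Fin.sum_univ_two, key p hp, key q hq, one_apply, hpq, hpq.symm]

/-- off-diagonal entries vanish except at `(i,k)`, `(k,i)` -/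
def Str {ι : Type*} (i k : ι) (Z : Matrix ι ι ℂ) : Prop :=
  ∀ p q, p ≠ q → ¬ (p = i ∧ q = k) → ¬ (p = k ∧ q = i) → Z p q = 0

lemma coll_str {Z : Matrix (κ × β) (κ × β) ℂ} {i k : κ × β} (hZ : Str i k Z) :
    Str i.1 k.1 (coll Z) := by
  intro p q hpq h1 h2
  refine Finset.sum_eq_zero fun a _ => Finset.sum_eq_zero fun a' _ => ?_
  apply hZ
  · intro h; exact hpq (congrArg Prod.fst h)
  · rintro ⟨h3, h4⟩; exact h1 ⟨congrArg Prod.fst h3, congrArg Prod.fst h4⟩
  · rintro ⟨h3, h4⟩; exact h2 ⟨congrArg Prod.fst h3, congrArg Prod.fst h4⟩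

/-- diagonal entries of `coll Z` away from a common parent -/
lemma coll_diag {Z : Matrix (κ × β) (κ × β) ℂ} {i k : κ × β} (hZ : Str i k Z)
    {p : κ} (hp : ¬ (p = i.1 ∧ p = k.1)) : coll Z p p = ∑ a, Z (p, a) (p, a) := by
  refine Finset.sum_congr rfl fun a _ => ?_
  rw [Finset.sum_eq_single a]
  · intro a' _ ha'
    apply hZ
    · intro h; exact ha' (congrArg Prod.snd h).symm
    · rintro ⟨h3, h4⟩; exact hp ⟨congrArg Prod.fst h3, congrArg Prod.fst h4⟩
    · rintro ⟨h3, h4⟩; exact hp ⟨congrArg Prod.fst h4, congrArg Prod.fst h3⟩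
  · simp

/-- off-diagonal entry of `coll Z` at distinct parents -/
lemma coll_off {Z : Matrix (κ × β) (κ × β) ℂ} {i k : κ × β} (hZ : Str i k Z)
    (hik : i.1 ≠ k.1) : coll Z i.1 k.1 = Z i k := by
  have f : ∀ {x y : κ × β}, x = y → x.1 = y.1 := fun h => congrArg Prod.fst h
  rw [coll, Finset.sum_eq_single i.2, Finset.sum_eq_single k.2]
  · intro a' _ ha'
    apply hZ
    · intro h; have h' := f h; exact hik h'
    · rintro ⟨h3, h4⟩; exact ha' (congrArg Prod.snd h4)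
    · rintro ⟨h3, h4⟩; have h' := f h3; exact hik h'
  · simp
  · intro a _ ha
    refine Finset.sum_eq_zero fun a' _ => ?_
    apply hZ
    · intro h; have h' := f h; exact hik h'
    · rintro ⟨h3, h4⟩; exact ha (congrArg Prod.snd h3)
    · rintro ⟨h3, h4⟩; have h' := f h3; exact hik h'
  · simp

/-- the parameter seen by input `(p,a)` from the other inputs at `p` -/
def cpar (e : κ → ℂ) (Z : Matrix (κ × β) (κ × β) ℂ) (x : κ × β) : ℂ :=
  e x.1 + ∑ a ∈ Finset.univ.erase x.2, Z (x.1, a) (x.1, a)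

/-- distinct parents: structure and the block of `step` -/
theorem step_blk {e : κ → ℂ} {Z : Matrix (κ × β) (κ × β) ℂ} {i k : κ × β}
    (hZs : Zᵀ = Z) (hN : NN Z) (he : ∀ p, 0 < (e p).im) (hZ : Str i k Z) (hik : i.1 ≠ k.1) :
    Str i.1 k.1 (step e Z) ∧
    (∀ p, p ≠ i.1 → p ≠ k.1 → step e Z p p = -(e p + ∑ a, Z (p, a) (p, a))⁻¹) ∧
    (Matrix.diagonal ![cpar e Z i, cpar e Z k] + blk Z i k) * blk (step e Z) i.1 k.1 = -1 := by
  have hu : IsUnit (Matrix.diagonal e + coll Z).det := diag_add_isUnit hN.coll he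
  have hcs := coll_str hZ
  have hrow : ∀ p, p ≠ i.1 → p ≠ k.1 → ∀ q, q ≠ p → (Matrix.diagonal e + coll Z) p q = 0 := by
    intro p h1 h2 q hq
    rw [Matrix.add_apply, diagonal_apply_ne _ hq.symm, zero_add]
    exact hcs p q hq.symm (fun h => h1 h.1) (fun h => h2 h.1)
  have hdiag : ∀ p, (Matrix.diagonal e + coll Z) p p = e p + ∑ a, Z (p, a) (p, a) := by
    intro p
    rw [Matrix.add_apply, diagonal_apply_eq, coll_diag hZ]
    rintro ⟨h1, h2⟩
    exact hik (h1.symm.trans h2)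
  have hne : ∀ p, e p + ∑ a, Z (p, a) (p, a) ≠ 0 := by
    intro p h0
    have := congrArg Complex.im h0
    rw [Complex.add_im, Complex.im_sum, Complex.zero_im] at this
    have h2 : 0 ≤ ∑ a, (Z (p, a) (p, a)).im := Finset.sum_nonneg fun a _ => hN.im_diag _
    have := he p
    linarith
  have hinv : ∀ p, p ≠ i.1 → p ≠ k.1 → ∀ q, (Matrix.diagonal e + coll Z)⁻¹ p q
      = if p = q then (e p + ∑ a, Z (p, a) (p, a))⁻¹ else 0 := by
    intro p h1 h2 q
    have h3 := inv_row hu (hrow p h1 h2) q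
    rw [hdiag] at h3
    split_ifs at h3 ⊢ with h4
    · exact eq_inv_of_mul_eq_one_right h3
    · exact (mul_eq_zero.mp h3).resolve_left (hne p)
  have hsymm : ∀ p q, (Matrix.diagonal e + coll Z)⁻¹ p q = (Matrix.diagonal e + coll Z)⁻¹ q p := by
    intro p q
    have h1 := step_symm (e := e) hZs
    have h2 := congrFun (congrFun h1 q) p
    simp only [transpose_apply, step, Matrix.neg_apply, neg_inj] at h2
    exact h2
  refine ⟨?_, ?_, ?_⟩
  · intro p q hpq h1 h2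
    rw [step, Matrix.neg_apply, neg_eq_zero]
    by_cases hp : p = i.1 ∨ p = k.1
    · -- then q is outside
      have hq1 : q ≠ i.1 := by
        rintro rfl
        rcases hp with rfl | rfl
        · exact hpq rfl
        · exact h2 ⟨rfl, rfl⟩
      have hq2 : q ≠ k.1 := by
        rintro rfl
        rcases hp with rfl | rfl
        · exact h1 ⟨rfl, rfl⟩
        · exact hpq rfl
      rw [hsymm, hinv q hq1 hq2, if_neg (Ne.symm hpq)]
    · push Not at hp
      rw [hinv p hp.1 hp.2, if_neg hpq]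
  · intro p h1 h2
    rw [step, Matrix.neg_apply, hinv p h1 h2, if_pos rfl]
  · have hblk := inv_blk hu hik
      (by
        intro r h1 h2
        rw [Matrix.add_apply, diagonal_apply_ne _ h1.symm, zero_add]
        exact hcs _ _ h1.symm (fun h => h2 h.2) (fun h => hik h.1))
      (by
        intro r h1 h2
        rw [Matrix.add_apply, diagonal_apply_ne _ h2.symm, zero_add]
        exact hcs _ _ h2.symm (fun h => hik h.1.symm) (fun h => h1 h.2))
    have e1 : blk (step e Z) i.1 k.1 = -(blk (Matrix.diagonal e + coll Z)⁻¹ i.1 k.1) := by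
      ext a c
      fin_cases a <;> fin_cases c <;> simp [blk, step]
    have hzki : Z k i = Z i k := by
      have := congrFun (congrFun hZs i) k
      simpa [transpose_apply] using this
    have hZ' : Str k i Z := fun p q h1 h2 h3 => hZ p q h1 h3 h2
    have e2 : Matrix.diagonal ![cpar e Z i, cpar e Z k] + blk Z i k
        = blk (Matrix.diagonal e + coll Z) i.1 k.1 := by
      have hii : cpar e Z i + Z i i = e i.1 + ∑ a, Z (i.1, a) (i.1, a) := by
        rw [cpar, add_assoc, add_comm (∑ a ∈ Finset.univ.erase i.2, _) (Z i i)]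
        congr 1
        exact Finset.add_sum_erase _ (fun a => Z (i.1, a) (i.1, a)) (Finset.mem_univ i.2)
      have hkk : cpar e Z k + Z k k = e k.1 + ∑ a, Z (k.1, a) (k.1, a) := by
        rw [cpar, add_assoc, add_comm (∑ a ∈ Finset.univ.erase k.2, _) (Z k k)]
        congr 1
        exact Finset.add_sum_erase _ (fun a => Z (k.1, a) (k.1, a)) (Finset.mem_univ k.2)
      ext a c
      fin_cases a <;> fin_cases c
      · simpa [blk, coll_diag hZ (p := i.1) (fun h => hik h.2)] using hii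
      · simp [blk, diagonal_apply_ne _ hik, coll_off hZ hik]
      · simp [blk, diagonal_apply_ne _ hik.symm, coll_off hZ' hik.symm]
      · simpa [blk, coll_diag hZ (p := k.1) (fun h => hik h.1.symm)] using hkk
    rw [e1, e2, mul_neg, hblk]

/-- equal parents: `step` is diagonal -/
theorem step_merge {e : κ → ℂ} {Z : Matrix (κ × β) (κ × β) ℂ} {i k : κ × β}
    (hN : NN Z) (he : ∀ p, 0 < (e p).im) (hZ : Str i k Z) (hik : i.1 = k.1) :
    step e Z = Matrix.diagonal (fun p => -(e p + coll Z p p)⁻¹) := by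
  have hu : IsUnit (Matrix.diagonal e + coll Z).det := diag_add_isUnit hN.coll he
  have hcs := coll_str hZ
  have hrow : ∀ p q, q ≠ p → (Matrix.diagonal e + coll Z) p q = 0 := by
    intro p q hq
    rw [Matrix.add_apply, diagonal_apply_ne _ hq.symm, zero_add]
    apply hcs p q hq.symm
    · rintro ⟨rfl, rfl⟩; exact hq hik.symm
    · rintro ⟨rfl, rfl⟩; exact hq hik
  have hne : ∀ p, e p + coll Z p p ≠ 0 := by
    intro p h0
    have := congrArg Complex.im h0
    rw [Complex.add_im, Complex.zero_im] at this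
    have h2 := hN.coll.im_diag p
    have := he p
    linarith
  ext p q
  rw [step, Matrix.neg_apply]
  have h3 := inv_row hu (hrow p) q
  rw [Matrix.add_apply, diagonal_apply_eq] at h3
  by_cases h4 : p = q
  · subst h4
    rw [if_pos rfl] at h3
    rw [diagonal_apply_eq, eq_inv_of_mul_eq_one_right h3]
  · rw [if_neg h4] at h3
    rw [diagonal_apply_ne _ h4, (mul_eq_zero.mp h3).resolve_left (hne p), neg_zero]

/-- diagonal inputs -/
theorem step_diagonal {e : κ → ℂ} {X : κ × β → ℂ} (hX : ∀ x, 0 ≤ (X x).im)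
    (he : ∀ p, 0 < (e p).im) :
    step e (Matrix.diagonal X) = Matrix.diagonal (fun p => -(e p + ∑ a, X (p, a))⁻¹) := by
  have hc : ∀ p, coll (Matrix.diagonal X) p p = ∑ a, X (p, a) := by
    intro p
    refine Finset.sum_congr rfl fun a _ => ?_
    rw [Finset.sum_eq_single a]
    · simp
    · intro a' _ ha'
      rw [diagonal_apply_ne]
      intro h; exact ha' (congrArg Prod.snd h).symm
    · simp
  have hcoll : coll (Matrix.diagonal X) = Matrix.diagonal (fun p => ∑ a, X (p, a)) := by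
    ext p q
    by_cases h : p = q
    · subst h; rw [hc, diagonal_apply_eq]
    · rw [diagonal_apply_ne _ h]
      refine Finset.sum_eq_zero fun a _ => Finset.sum_eq_zero fun a' _ => ?_
      rw [diagonal_apply_ne]
      intro h'; exact h (congrArg Prod.fst h')
  have hne : ∀ p, e p + ∑ a, X (p, a) ≠ 0 := by
    intro p h0
    have := congrArg Complex.im h0
    rw [Complex.add_im, Complex.im_sum, Complex.zero_im] at this
    have h2 : 0 ≤ ∑ a, (X (p, a)).im := Finset.sum_nonneg fun a _ => hX _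
    have := he p
    linarith
  rw [step, hcoll, diagonal_add]
  have : (Matrix.diagonal fun p => e p + ∑ a, X (p, a))⁻¹
      = Matrix.diagonal fun p => (e p + ∑ a, X (p, a))⁻¹ := by
    apply inv_eq_right_inv
    rw [diagonal_mul_diagonal, ← diagonal_one]
    congr 1
    ext p
    exact mul_inv_cancel₀ (hne p)
  rw [this, ← diagonal_neg]

end onestep

end Crest.Agent.R166.TreeL327
end

-- ▼ part R166/TreeB_327

/-!
Row 166, sections 30.x: the bridge from the resolvent of the finite forest to the layer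
recursion (helper327).

`treeB z L V Ξ` is the iterated one-layer map; `tree_out` : it is the root corner of
`treeOut (Res789.Res (hTree V) z) (par L) Ξ`.
-/

set_option autoImplicit false
set_option linter.unusedSectionVars false
set_option linter.unusedVariables false

namespace Crest.Agent.R166.TreeB327

open Matrix Crest.Agent.R166.TreeT327 Crest.Agent.R166.TreeL327 Crest.Agent.R166.Res598
  Crest.Agent.R166.Dec598

section schur

variable {α κ : Type*} [Fintype α] [DecidableEq α] [Fintype κ] [DecidableEq κ]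

/-- Schur complement: the upper left block of the inverse -/
theorem schur_tl {A : Matrix α α ℂ} {B : Matrix α κ ℂ} {C : Matrix κ α ℂ} {D : Matrix κ κ ℂ}
    (hM : IsUnit (fromBlocks A B C D).det) (hD : IsUnit D.det) :
    (fromBlocks A B C D)⁻¹.toBlocks₁₁ = (A - B * D⁻¹ * C)⁻¹ := by
  set G := (fromBlocks A B C D)⁻¹ with hG
  have h3 : fromBlocks A B C D * G = 1 := Matrix.mul_nonsing_inv _ hM
  rw [← fromBlocks_toBlocks G, fromBlocks_multiply, ← fromBlocks_one, fromBlocks_inj] at h3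
  obtain ⟨ha, -, hc, -⟩ := h3
  have h4 : G.toBlocks₂₁ = -(D⁻¹ * (C * G.toBlocks₁₁)) := by
    have h5 := congrArg (fun X => D⁻¹ * X) hc
    simp only [Matrix.mul_add, Matrix.mul_zero] at h5
    rw [← Matrix.mul_assoc D⁻¹ D, Matrix.nonsing_inv_mul _ hD, Matrix.one_mul] at h5
    exact eq_neg_of_add_eq_zero_right h5
  rw [h4] at ha
  symm
  apply Matrix.inv_eq_right_inv
  rw [Matrix.sub_mul, ← ha, Matrix.mul_neg]
  simp only [Matrix.mul_assoc]
  abel

/-- entries of `Eᵀ Ξ E` -/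
lemma leaf_form {T I : Type*} [Fintype T] [DecidableEq T] [Fintype I] [DecidableEq I]
    (t : I → T) (Ξ : Matrix I I ℂ) (x y : T) :
    ((cx (leafM t))ᵀ * Ξ * cx (leafM t)) x y =
      ∑ q, ∑ q', if x = t q ∧ y = t q' then Ξ q q' else 0 := by
  simp only [Matrix.mul_apply, Matrix.transpose_apply, cx, Matrix.map_apply, leafM,
    Finset.sum_mul]
  rw [Finset.sum_comm]
  refine Finset.sum_congr rfl fun q _ => Finset.sum_congr rfl fun q' _ => ?_
  by_cases h1 : x = t q <;> by_cases h2 : y = t q' <;> simp [h1, h2]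

end schur

section bridge

variable {ρ β : Type} [Fintype ρ] [DecidableEq ρ] [Fintype β] [DecidableEq β]

/-- the iterated recursion -/
noncomputable def treeB (z : ℂ) : ∀ (L : ℕ) (_ : Tr ρ β L → ℝ)
    (_ : Matrix (Lay ρ β L) (Lay ρ β L) ℂ), Matrix ρ ρ ℂ
  | 0, _, Ξ => Ξ
  | L + 1, V, Ξ => treeB z L (fun x => V (Sum.inl x))
      (step (κ := Lay ρ β L) (β := β) (fun q => z - V (Sum.inr q)) Ξ)


lemma treeB_succ (z : ℂ) (L : ℕ) (V : Tr ρ β (L + 1) → ℝ)
    (Ξ : Matrix (Lay ρ β (L + 1)) (Lay ρ β (L + 1)) ℂ) :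
    treeB z (L + 1) V Ξ = treeB z L (fun x => V (Sum.inl x))
      (step (κ := Lay ρ β L) (β := β) (fun q => z - V (Sum.inr q)) Ξ) := rfl

/-- `Eᵀ Ξ E`, `E` the leaf incidence matrix -/
def attach (L : ℕ) (Ξ : Matrix (Lay ρ β (L + 1)) (Lay ρ β (L + 1)) ℂ) :
    Matrix (Tr ρ β (L + 1)) (Tr ρ β (L + 1)) ℂ :=
  (cx (leafM (par (ρ := ρ) (β := β) L)))ᵀ * Ξ * cx (leafM (par L))

lemma attach_apply (L : ℕ) (Ξ : Matrix (Lay ρ β (L + 1)) (Lay ρ β (L + 1)) ℂ)
    (x y : Tr ρ β (L + 1)) :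
    attach L Ξ x y = ∑ q, ∑ q', if x = par L q ∧ y = par L q' then Ξ q q' else 0 :=
  leaf_form (par L) Ξ x y

lemma attach_eq (L : ℕ) (Ξ : Matrix (Lay ρ β (L + 1)) (Lay ρ β (L + 1)) ℂ) :
    attach L Ξ = (fromBlocks 0 0 0 (coll (κ := Lay ρ β L) (β := β) Ξ) :
      Matrix (Tr ρ β L ⊕ Lay ρ β L) (Tr ρ β L ⊕ Lay ρ β L) ℂ) := by
  ext x y
  rw [attach_apply]
  rcases x with x | x <;> rcases y with y | y
  · show _ = (0 : ℂ)
    refine Finset.sum_eq_zero fun q _ => Finset.sum_eq_zero fun q' _ => if_neg ?_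
    rintro ⟨h, -⟩
    exact Sum.inl_ne_inr h
  · show _ = (0 : ℂ)
    refine Finset.sum_eq_zero fun q _ => Finset.sum_eq_zero fun q' _ => if_neg ?_
    rintro ⟨h, -⟩
    exact Sum.inl_ne_inr h
  · show _ = (0 : ℂ)
    refine Finset.sum_eq_zero fun q _ => Finset.sum_eq_zero fun q' _ => if_neg ?_
    rintro ⟨-, h⟩
    exact Sum.inl_ne_inr h
  · show _ = ∑ a, ∑ a', Ξ (x, a) (y, a')
    have h0 : ∀ (g : Lay ρ β (L + 1) → Lay ρ β (L + 1) → ℂ),
        (∑ q : Lay ρ β (L + 1), ∑ q' : Lay ρ β (L + 1), g q q') =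
        ∑ p : Lay ρ β L, ∑ a : β, ∑ p' : Lay ρ β L, ∑ a' : β, g (p, a) (p', a') := by
      intro g
      exact (Fintype.sum_prod_type (α₁ := Lay ρ β L) (α₂ := β)
        (f := fun q => ∑ q' : Lay ρ β (L + 1), g q q')).trans
        (Finset.sum_congr rfl fun p _ => Finset.sum_congr rfl fun a _ =>
          Fintype.sum_prod_type (α₁ := Lay ρ β L) (α₂ := β) (f := fun q' => g (p, a) q'))
    rw [h0]
    rw [Finset.sum_eq_single x]
    · refine Finset.sum_congr rfl fun a _ => ?_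
      rw [Finset.sum_eq_single y]
      · refine Finset.sum_congr rfl fun a' _ => ?_
        exact if_pos ⟨rfl, rfl⟩
      · intro p' _ hp'
        refine Finset.sum_eq_zero fun a' _ => if_neg ?_
        rintro ⟨-, h⟩
        exact hp' (Sum.inr_injective h).symm
      · intro h; exact absurd (Finset.mem_univ _) h
    · intro p _ hp
      refine Finset.sum_eq_zero fun a _ => Finset.sum_eq_zero fun p' _ =>
        Finset.sum_eq_zero fun a' _ => if_neg ?_
      rintro ⟨h, -⟩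
      exact hp (Sum.inr_injective h).symm
    · intro h; exact absurd (Finset.mem_univ _) h

lemma NN.cor {α κ : Type*} [Fintype α] [DecidableEq α] [Fintype κ] [DecidableEq κ]
    {Z : Matrix κ κ ℂ} (hZ : NN Z) (P : Matrix κ α ℝ) : NN ((cx P)ᵀ * Z * cx P) := by
  intro u
  have h := hZ (cx P *ᵥ u)
  rw [star_cx_mulVec, ← dot_cor] at h
  exact h

lemma NN_neg_cx {α : Type*} [Fintype α] [DecidableEq α] {H : Matrix α α ℝ} (hH : Hᵀ = H) :
    NN (-cx H) := by
  intro u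
  rw [neg_mulVec, dotProduct_neg, Complex.neg_im, star_dot_real hH]
  simp

/-- invertibility of `H - z - Z` -/
lemma isUnit_sub {α : Type*} [Fintype α] [DecidableEq α] {H : Matrix α α ℝ} (hH : Hᵀ = H)
    {z : ℂ} (hz : 0 < z.im) {Z : Matrix α α ℂ} (hZ : NN Z) :
    IsUnit (cx H - z • (1 : Matrix α α ℂ) - Z).det := by
  have h1 : IsUnit (Matrix.diagonal (fun _ : α => z) + (-cx H + Z)).det :=
    diag_add_isUnit ((NN_neg_cx hH).add hZ) fun _ => hz
  have h2 : cx H - z • (1 : Matrix α α ℂ) - Z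
      = -(Matrix.diagonal (fun _ : α => z) + (-cx H + Z)) := by
    rw [Matrix.smul_one_eq_diagonal]
    abel
  rw [h2, Matrix.det_neg]
  exact ((isUnit_one.neg).pow _).mul h1

/-- the matrix whose inverse is the resolvent with the inputs attached -/
noncomputable def gM (z : ℂ) (L : ℕ) (V : Tr ρ β (L + 1) → ℝ)
    (Ξ : Matrix (Lay ρ β (L + 1)) (Lay ρ β (L + 1)) ℂ) :
    Matrix (Tr ρ β (L + 1)) (Tr ρ β (L + 1)) ℂ :=
  cx (hTree V) - z • (1 : Matrix (Tr ρ β (L + 1)) (Tr ρ β (L + 1)) ℂ) - attach L Ξ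

lemma gM_isUnit {z : ℂ} (hz : 0 < z.im) (L : ℕ) (V : Tr ρ β (L + 1) → ℝ)
    {Ξ : Matrix (Lay ρ β (L + 1)) (Lay ρ β (L + 1)) ℂ} (hΞ : NN Ξ) :
    IsUnit (gM z L V Ξ).det :=
  isUnit_sub (hTree_symm V) hz (NN.cor hΞ _)

lemma gM_eq (z : ℂ) (L : ℕ) (V : Tr ρ β (L + 1) → ℝ)
    (Ξ : Matrix (Lay ρ β (L + 1)) (Lay ρ β (L + 1)) ℂ) :
    gM z L V Ξ = (fromBlocks
      (cx (hTree (fun x => V (Sum.inl x)) : Matrix (Tr ρ β L) (Tr ρ β L) ℝ) - z • 1)
      (cx (adjTL L)) (cx (adjTL L))ᵀ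
      (-(Matrix.diagonal (fun q => z - V (Sum.inr q)) + coll (κ := Lay ρ β L) (β := β) Ξ)) :
      Matrix (Tr ρ β L ⊕ Lay ρ β L) (Tr ρ β L ⊕ Lay ρ β L) ℂ) := by
  rw [gM, attach_eq]
  have key : ∀ (V' : Tr ρ β L ⊕ Lay ρ β L → ℝ),
      (cx (Matrix.diagonal V' + fromBlocks (adjT L) (adjTL L) (adjTL L)ᵀ 0) -
        z • (1 : Matrix (Tr ρ β L ⊕ Lay ρ β L) (Tr ρ β L ⊕ Lay ρ β L) ℂ) -
        fromBlocks 0 0 0 (coll (κ := Lay ρ β L) (β := β) Ξ)) =
      fromBlocks (cx (hTree (fun x => V' (Sum.inl x)) : Matrix (Tr ρ β L) (Tr ρ β L) ℝ) - z • 1)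
      (cx (adjTL L)) (cx (adjTL L))ᵀ
      (-(Matrix.diagonal (fun q => z - V' (Sum.inr q)) +
        coll (κ := Lay ρ β L) (β := β) Ξ)) := by
    intro V'
    ext x y
    rcases x with x | x <;> rcases y with y | y
    · simp [cx, hTree, Matrix.diagonal_apply, Matrix.one_apply]
    · simp [cx, hTree, Matrix.diagonal_apply, Matrix.one_apply]
    · simp [cx, hTree, Matrix.diagonal_apply, Matrix.one_apply]
    · by_cases h : x = y
      · subst h
        simp [cx, hTree]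
        ring
      · simp [cx, hTree, Matrix.diagonal_apply, Matrix.one_apply, h]
  exact key V

lemma adjTL_eq (L : ℕ) : (adjTL (L + 1) : Matrix (Tr ρ β (L + 1)) (Lay ρ β (L + 1)) ℝ) =
    (leafM (par (ρ := ρ) (β := β) L))ᵀ := by
  ext x q
  rcases x with x | p
  · show (0 : ℝ) = if (Sum.inl x : Tr ρ β L ⊕ Lay ρ β L) = Sum.inr q.1 then 1 else 0
    rw [if_neg Sum.inl_ne_inr]
  · show (if p = q.1 then (1 : ℝ) else 0) =
      if (Sum.inr p : Tr ρ β L ⊕ Lay ρ β L) = Sum.inr q.1 then 1 else 0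
    by_cases h : p = q.1
    · rw [if_pos h, if_pos (by rw [h])]
    · rw [if_neg h, if_neg (fun h' => h (Sum.inr_injective h'))]

lemma neg_inv_eq {κ : Type*} [Fintype κ] [DecidableEq κ] {D : Matrix κ κ ℂ} (hD : IsUnit D.det) :
    (-D)⁻¹ = -D⁻¹ := by
  apply Matrix.inv_eq_right_inv
  rw [neg_mul_neg, Matrix.mul_nonsing_inv _ hD]

lemma isUnit_neg_det {κ : Type*} [Fintype κ] [DecidableEq κ] {D : Matrix κ κ ℂ}
    (hD : IsUnit D.det) : IsUnit (-D).det := by
  rw [Matrix.det_neg]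
  exact ((isUnit_one.neg).pow _).mul hD

/-- peeling the last layer -/
theorem gM_succ {z : ℂ} (hz : 0 < z.im) (L : ℕ) (V : Tr ρ β (L + 2) → ℝ)
    {Ξ : Matrix (Lay ρ β (L + 2)) (Lay ρ β (L + 2)) ℂ} (hΞ : NN Ξ) (r r' : ρ) :
    (gM z (L + 1) V Ξ)⁻¹ (root (L + 1) r) (root (L + 1) r') =
      (gM z L (fun x => V (Sum.inl x))
        (step (κ := Lay ρ β (L + 1)) (β := β) (fun q => z - V (Sum.inr q)) Ξ))⁻¹
        (root L r) (root L r') := by
  have hc : NN (coll (κ := Lay ρ β (L + 1)) (β := β) Ξ) :=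
    NN.coll (κ := Lay ρ β (L + 1)) (β := β) hΞ
  have he : ∀ q : Lay ρ β (L + 1), 0 < (z - (V (Sum.inr q) : ℂ)).im := fun q => by simpa using hz
  have hD := diag_add_isUnit (κ := Lay ρ β (L + 1)) hc he
  have h1 := gM_isUnit hz (L + 1) V hΞ
  rw [gM_eq] at h1 ⊢
  have h2 := schur_tl h1 (isUnit_neg_det hD)
  have h3 := congrFun (congrFun h2 (root L r)) (root L r')
  refine (show _ = _ from h3).trans ?_
  rw [gM, neg_inv_eq hD, adjTL_eq]
  rfl

lemma inv_empty_block {α κ : Type*} [Fintype α] [DecidableEq α] [IsEmpty α] [Fintype κ]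
    [DecidableEq κ] (A : Matrix α α ℂ) (B : Matrix α κ ℂ) (C : Matrix κ α ℂ) {D : Matrix κ κ ℂ}
    (hD : IsUnit D.det) : (fromBlocks A B C D)⁻¹ = fromBlocks 0 0 0 D⁻¹ := by
  apply Matrix.inv_eq_right_inv
  rw [fromBlocks_multiply, ← fromBlocks_one, Matrix.mul_nonsing_inv _ hD]
  congr 1
  · exact Subsingleton.elim _ _
  · exact Subsingleton.elim _ _
  · simp
  · ext i j
    simp

instance instEmptyTr : IsEmpty (Tr ρ β 0) := inferInstanceAs (IsEmpty Empty)

/-- the root corner of the inverse is the iterated recursion -/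
theorem gM_root {z : ℂ} (hz : 0 < z.im) : ∀ (L : ℕ) (V : Tr ρ β (L + 1) → ℝ)
    {Ξ : Matrix (Lay ρ β (L + 1)) (Lay ρ β (L + 1)) ℂ} (hΞ : NN Ξ) (r r' : ρ),
    (gM z L V Ξ)⁻¹ (root L r) (root L r') = treeB z (L + 1) V Ξ r r'
  | 0, V, Ξ, hΞ, r, r' => by
    have hc : NN (coll (κ := ρ) (β := β) Ξ) := NN.coll (κ := ρ) (β := β) hΞ
    have he : ∀ q : ρ, 0 < (z - (V (Sum.inr q) : ℂ)).im := fun q => by simpa using hz
    have hD := diag_add_isUnit (κ := ρ) hc he
    rw [gM_eq]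
    refine (congrFun (congrFun (inv_empty_block (α := Tr ρ β 0) (κ := ρ) _ _ _
      (isUnit_neg_det hD)) (Sum.inr r)) (Sum.inr r')).trans ?_
    rw [neg_inv_eq hD]
    rfl
  | L + 1, V, Ξ, hΞ, r, r' => by
    rw [gM_succ hz L V hΞ]
    exact gM_root hz L _ (step_NN (κ := Lay ρ β (L + 1)) (β := β) hΞ fun q => by simpa using hz) r r'

/-- **bridge**: the root corner of `treeOut` is the iterated one-layer map -/
theorem tree_out {z : ℂ} (hz : 0 < z.im) (L : ℕ) (V : Tr ρ β (L + 1) → ℝ)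
    {Ξ : Matrix (Lay ρ β (L + 1)) (Lay ρ β (L + 1)) ℂ} (hΞ : Siegel Ξ) :
    (treeOut (Res789.Res (hTree V) z) (par L) Ξ).submatrix (root L) (root L) =
      treeB z (L + 1) V Ξ := by
  have hS : Siegel (Res789.Res (hTree V) z) := siegel_Res (hTree_symm V) hz
  have hNN : NN Ξ := by
    intro u
    rw [im_form hΞ.symm]
    exact qf_nonneg hΞ.pos.posSemidef u
  rw [treeOut_eq hS _ hΞ, Res_inv (hTree_symm V) hz]
  ext r r'
  rw [← gM_root hz L V hNN r r']
  rfl

end bridge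

end Crest.Agent.R166.TreeB327
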