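import Crest.Agent.R166.TreeB_327
import Crest.Agent.R166.DecP4_789
import Crest.Agent.R166.Shape_395
import Crest.Agent.R166.Dec5_598

/-!
# Row 166, section 30 (helper598): the scalar tree recursion for diagonal inputs

* `treeF z L V X : ρ → ℂ` : the scalar recursion on 327's forest;
* `treeF_im_pos`, `treeB_diagonal` : `treeB z L V (diagonal X) = diagonal (treeF z L V X)`;
* `treeOut_leafT` : the root corner of `treeOut` with diagonal leaf matrix, with the leaves indexed
  by `BI d (L+1)` (789's `leafT`).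
-/

set_option autoImplicit false
set_option linter.unusedSectionVars false

namespace Crest.Agent.R166.TreeF598

open Matrix Crest.Agent.R166.TreeT327 Crest.Agent.R166.TreeL327 Crest.Agent.R166.TreeB327
  Crest.Agent.R166.Res598 Crest.Agent.R166.Dec598

section treeF

variable {ρ β : Type} [Fintype ρ] [DecidableEq ρ] [Fintype β] [DecidableEq β]

/-- the scalar recursion -/
noncomputable def treeF (z : ℂ) : ∀ (L : ℕ) (_ : Tr ρ β L → ℝ) (_ : Lay ρ β L → ℂ), ρ → ℂ
  | 0, _, X => X
  | L + 1, V, X => treeF z L (fun x => V (Sum.inl x))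
      (fun q : Lay ρ β L => -(z - V (Sum.inr q) + ∑ a : β, X (q, a))⁻¹)


lemma treeF_succ (z : ℂ) (L : ℕ) (V : Tr ρ β (L + 1) → ℝ) (X : Lay ρ β (L + 1) → ℂ) :
    treeF z (L + 1) V X = treeF z L (fun x => V (Sum.inl x))
      (fun q : Lay ρ β L => -(z - V (Sum.inr q) + ∑ a : β, X (q, a))⁻¹) := rfl

lemma neg_inv_im_pos {w : ℂ} (hw : 0 < w.im) : 0 < (-w⁻¹).im := by
  rw [Complex.neg_im, Complex.inv_im]
  have : 0 < Complex.normSq w := by
    apply Complex.normSq_pos.2
    intro h
    rw [h] at hw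
    simp at hw
  rw [neg_div, neg_neg]
  exact div_pos hw this

lemma step_im_pos {z : ℂ} (hz : 0 < z.im) (v : ℝ) {f : β → ℂ} (hf : ∀ a, 0 < (f a).im) :
    0 < (-(z - v + ∑ a, f a)⁻¹).im := by
  apply neg_inv_im_pos
  rw [Complex.add_im, Complex.sub_im, Complex.ofReal_im, sub_zero, Complex.im_sum]
  have : 0 ≤ ∑ a, (f a).im := Finset.sum_nonneg fun a _ => (hf a).le
  linarith

theorem treeF_im_pos {z : ℂ} (hz : 0 < z.im) : ∀ (L : ℕ) (V : Tr ρ β L → ℝ)
    {X : Lay ρ β L → ℂ} (_ : ∀ q, 0 < (X q).im) (r : ρ), 0 < (treeF z L V X r).im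
  | 0, _, _, hX, r => hX r
  | L + 1, V, X, hX, r => by
    rw [treeF_succ]
    exact treeF_im_pos hz L _ (fun q => step_im_pos hz _ fun a => hX (q, a)) r

theorem treeB_diagonal {z : ℂ} (hz : 0 < z.im) : ∀ (L : ℕ) (V : Tr ρ β L → ℝ)
    {X : Lay ρ β L → ℂ} (_ : ∀ q, 0 < (X q).im),
    treeB z L V (Matrix.diagonal X) = Matrix.diagonal (treeF z L V X)
  | 0, _, _, _ => rfl
  | L + 1, V, X, hX => by
    rw [treeF_succ, treeB_succ]
    have h1 := step_diagonal (κ := Lay ρ β L) (β := β) (e := fun q => z - V (Sum.inr q))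
      (X := X) (fun x => (hX x).le) (fun q => by simpa using hz)
    have h2 := treeB_diagonal hz L (fun x => V (Sum.inl x))
      (X := fun q : Lay ρ β L => -(z - V (Sum.inr q) + ∑ a : β, X (q, a))⁻¹)
      (fun q => step_im_pos hz _ fun a => hX (q, a))
    rw [← h2]
    exact congrArg (treeB z L (fun x => V (Sum.inl x))) h1

end treeF

section leaf

open Crest.Agent.R166.SwP470 (BI NZ) 
open Crest.Agent.R166.DecP789

variable {d : ℕ} [NeZero d]

/-- the root corner of `treeOut` with a diagonal leaf matrix -/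
theorem treeOut_leafT {z : ℂ} (hz : 0 < z.im) (L : ℕ) (V : Tr Bool (NZ d) (L + 1) → ℝ)
    {x : BI d (L + 1) → ℂ} (hx : ∀ i, 0 < (x i).im) :
    (treeOut (Res789.Res (hTree V) z) (leafT L) (Matrix.diagonal x)).submatrix
        ![root L false, root L true] ![root L false, root L true] =
      Matrix.diagonal ![treeF z (L + 1) V (x ∘ (layE (L + 1)).symm) false,
        treeF z (L + 1) V (x ∘ (layE (L + 1)).symm) true] := by
  set X : Lay Bool (NZ d) (L + 1) → ℂ := x ∘ (layE (L + 1)).symm with hX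
  have hXp : ∀ q, 0 < (X q).im := fun q => hx _
  have hS : Siegel (Res789.Res (hTree V) z) := siegel_Res (hTree_symm V) hz
  have hD : Siegel (Matrix.diagonal X) := siegel_diagonal hXp
  have h1 := treeOut_reindex (layE (ρ := Bool) (β := NZ d) (L + 1)) hS (par L) hD
  have h2 : (Matrix.diagonal X).submatrix (layE (ρ := Bool) (β := NZ d) (L + 1))
      (layE (ρ := Bool) (β := NZ d) (L + 1)) = Matrix.diagonal x := by
    rw [submatrix_diagonal _ _ (layE (L + 1)).injective]
    congr 1
    ext i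
    simp [hX]
  rw [h2] at h1
  have h3 : (par (ρ := Bool) (β := NZ d) L) ∘ (layE (L + 1)) = leafT L := rfl
  rw [h3] at h1
  rw [h1]
  have h4 := tree_out hz L V hD
  rw [treeB_diagonal hz (L + 1) V hXp] at h4
  ext i j
  have h5 : ∀ r r' : Bool, treeOut (Res789.Res (hTree V) z) (par L) (Matrix.diagonal X)
      (root L r) (root L r') = Matrix.diagonal (treeF z (L + 1) V X) r r' := fun r r' =>
    congrFun (congrFun h4 r) r'
  fin_cases i <;> fin_cases j
  · exact (h5 false false).trans (by simp)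
  · exact (h5 false true).trans (by simp)
  · exact (h5 true false).trans (by simp)
  · exact (h5 true true).trans (by simp)

end leaf

end Crest.Agent.R166.TreeF598
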